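import Mathlib
import Vale.Agent.P237.MathlibUsed
import Vale.Agent.P237.Statement

set_option linter.all false

section

/-!
# P237: basic definitions

`V` is a finite-dimensional real inner product space with its Lebesgue measure `volume`.
-/

open MeasureTheory Metric Set
open scoped Pointwise

namespace Vale.Agent.P237

variable {V : Type*} [NormedAddCommGroup V] [InnerProductSpace ℝ V] [FiniteDimensional ℝ V]
  [MeasurableSpace V] [BorelSpace V]

/-- Convex body: compact, convex, with nonempty interior. -/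
structure IsBody (K : Set V) : Prop where
  convex : Convex ℝ K
  compact : IsCompact K
  int : (interior K).Nonempty

/-- Origin-symmetric convex body. -/
structure IsSymBody (K : Set V) : Prop extends IsBody K where
  symm : ∀ x ∈ K, -x ∈ K

/-- real-valued volume -/
noncomputable def vol (K : Set V) : ℝ := (volume K).toReal

/-- Support function. -/
noncomputable def supp (K : Set V) (v : V) : ℝ := sSup ((fun x => inner ℝ x v) '' K)

/-- Volume (of one dimension less) of the orthogonal projection of `K` onto the hyperplane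
`u^⊥`. -/
noncomputable def shadow (K : Set V) (u : V) : ℝ :=
  (volume ((ℝ ∙ u)ᗮ.orthogonalProjectionOnto '' K)).toReal

/-- The projection body. -/
def projBody (K : Set V) : Set V := {y | ∀ u : V, ‖u‖ = 1 → inner ℝ y u ≤ shadow K u}

/-- Intrinsic version of the shadow: `β_K(v) = |K + [0,v]| - |K|`. -/
noncomputable def beta (K : Set V) (v : V) : ℝ := vol (K + segment ℝ 0 v) - vol K

/-- Wulff shape of `h`. -/
def wulff (h : V → ℝ) : Set V := {y | ∀ v : V, inner ℝ y v ≤ h v}

/-- The unit ball lies in `K` and has maximal volume among the linear images of the unit ball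
contained in `K`. -/
def JohnPos (K : Set V) : Prop :=
  closedBall (0 : V) 1 ⊆ K ∧
    ∀ T : V →ₗ[ℝ] V, T '' closedBall (0 : V) 1 ⊆ K → |LinearMap.det T| ≤ 1

/-- Area of the slice `{z ∈ u^⊥ : z + y u ∈ K}`. -/
def slice (K : Set V) (u : V) (y : ℝ) : Set ((ℝ ∙ u)ᗮ : Submodule ℝ V) :=
  {z | (z : V) + y • u ∈ K}

end Vale.Agent.P237
end

section

/-!
# P237: the affine invariant functional of the projection-volume problem
-/

open MeasureTheory Metric Set Module

namespace Vale.Agent.P237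

variable {V : Type*} [NormedAddCommGroup V] [InnerProductSpace ℝ V] [FiniteDimensional ℝ V]
  [MeasurableSpace V] [BorelSpace V]

/-- The affine invariant functional `|Π K| / |K|^(n-1)`. -/
noncomputable def ratio (K : Set V) : ℝ := vol (projBody K) / vol K ^ (finrank ℝ V - 1)

end Vale.Agent.P237
end

section

/-!
Measure-preserving decomposition `ℝ × u^⊥ ≃ V`, `(y, z) ↦ z + y u`, for a unit vector `u`.
-/

open MeasureTheory Metric Set Module
open scoped Pointwise

namespace Vale.Agent.P237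

variable {V : Type*} [NormedAddCommGroup V] [InnerProductSpace ℝ V] [FiniteDimensional ℝ V]
  [MeasurableSpace V] [BorelSpace V]

/-- the equivalence `ℝ × u^⊥ ≃ V`, `(y, z) ↦ z + y u` -/
noncomputable def prodEquiv (u : V) (hu : ‖u‖ = 1) : (ℝ × ((ℝ ∙ u)ᗮ : Submodule ℝ V)) ≃ᵐ V :=
  ((MeasurableEquiv.prodCongr
      (LinearIsometryEquiv.toSpanUnitSingleton (𝕜 := ℝ) u hu).toHomeomorph.toMeasurableEquiv
      (MeasurableEquiv.refl _)).trans (MeasurableEquiv.toLp 2 _)).trans
    (ℝ ∙ u).orthogonalDecomposition.symm.toHomeomorph.toMeasurableEquiv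

theorem prodEquiv_apply (u : V) (hu : ‖u‖ = 1) (p : ℝ × ((ℝ ∙ u)ᗮ : Submodule ℝ V)) :
    prodEquiv u hu p = (p.2 : V) + p.1 • u := by
  have h : prodEquiv u hu p =
    ((LinearIsometryEquiv.toSpanUnitSingleton (𝕜 := ℝ) u hu p.1 : (ℝ ∙ u)) : V) + (p.2 : V) := by
    show (ℝ ∙ u).orthogonalDecomposition.symm (WithLp.toLp 2
      (LinearIsometryEquiv.toSpanUnitSingleton (𝕜 := ℝ) u hu p.1, p.2)) = _
    rw [Submodule.orthogonalDecomposition_symm_apply]
    rfl
  rw [h, add_comm]
  rfl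

theorem prodEquiv_measurePreserving (u : V) (hu : ‖u‖ = 1) :
    MeasurePreserving (prodEquiv u hu) := by
  refine MeasurePreserving.trans (MeasurePreserving.trans ?_
    (WithLp.volume_preserving_toLp (ℝ ∙ u) ((ℝ ∙ u)ᗮ : Submodule ℝ V))) ?_
  · exact MeasurePreserving.prod
      (LinearIsometryEquiv.toSpanUnitSingleton (𝕜 := ℝ) u hu).measurePreserving
      (MeasurePreserving.id volume)
  · exact (ℝ ∙ u).orthogonalDecomposition.symm.measurePreserving

/-- Fubini: the volume is the integral over `z ∈ u^⊥` of the lengths of the fibres. -/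
theorem volume_eq_lintegral_fibre (u : V) (hu : ‖u‖ = 1) {s : Set V} (hs : MeasurableSet s) :
    volume s = ∫⁻ z : ((ℝ ∙ u)ᗮ : Submodule ℝ V), volume {y : ℝ | (z : V) + y • u ∈ s} := by
  rw [← (prodEquiv_measurePreserving u hu).measure_preimage hs.nullMeasurableSet,
    Measure.volume_eq_prod, Measure.prod_apply_symm ((prodEquiv u hu).measurable hs)]
  refine lintegral_congr fun z => ?_
  congr 1
  ext y
  simp only [mem_preimage, prodEquiv_apply, mem_ofPred_eq]

/-- Fubini: the volume is the integral over `y ∈ ℝ` of the volumes of the slices. -/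
theorem volume_eq_lintegral_slice (u : V) (hu : ‖u‖ = 1) {s : Set V} (hs : MeasurableSet s) :
    volume s = ∫⁻ y : ℝ, volume (slice s u y) := by
  rw [← (prodEquiv_measurePreserving u hu).measure_preimage hs.nullMeasurableSet,
    Measure.volume_eq_prod, Measure.prod_apply ((prodEquiv u hu).measurable hs)]
  refine lintegral_congr fun y => ?_
  congr 1
  ext z
  simp only [mem_preimage, prodEquiv_apply, slice, mem_ofPred_eq]

/-- Fubini for integrals. -/
theorem integral_eq_integral_prod (u : V) (hu : ‖u‖ = 1) (f : V → ℝ) :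
    ∫ x, f x = ∫ p : ℝ × ((ℝ ∙ u)ᗮ : Submodule ℝ V), f ((p.2 : V) + p.1 • u) := by
  rw [← (prodEquiv_measurePreserving u hu).integral_comp' f]
  refine integral_congr_ae (Filter.Eventually.of_forall fun p => ?_)
  simp only [prodEquiv_apply]

omit [FiniteDimensional ℝ V] [MeasurableSpace V] [BorelSpace V] in
theorem inner_prod_point {u : V} (hu : ‖u‖ = 1) (z : ((ℝ ∙ u)ᗮ : Submodule ℝ V)) (y : ℝ) :
    inner ℝ ((z : V) + y • u) u = y := by
  have h1 : inner ℝ (z : V) u = 0 := by
    rw [real_inner_comm]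
    exact Submodule.mem_orthogonal_singleton_iff_inner_right.mp z.2
  rw [inner_add_left, h1, inner_smul_left, real_inner_self_eq_norm_sq, hu]
  simp

omit [FiniteDimensional ℝ V] [MeasurableSpace V] [BorelSpace V] in
theorem proj_prod_point {u : V} (z : ((ℝ ∙ u)ᗮ : Submodule ℝ V)) (y : ℝ) :
    (ℝ ∙ u)ᗮ.orthogonalProjectionOnto ((z : V) + y • u) = z := by
  rw [map_add, Submodule.orthogonalProjectionOnto_mem_subspace_eq_self, map_smul]
  have : (ℝ ∙ u)ᗮ.orthogonalProjectionOnto u = 0 := by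
    rw [Submodule.orthogonalProjectionOnto_eq_zero_iff, Submodule.orthogonal_orthogonal]
    exact Submodule.mem_span_singleton_self u
  rw [this, smul_zero, add_zero]

/-- every point is of the form `z + y u` -/
theorem eq_prod_point {u : V} (hu : ‖u‖ = 1) (x : V) :
    x = (((ℝ ∙ u)ᗮ.orthogonalProjectionOnto x : ((ℝ ∙ u)ᗮ : Submodule ℝ V)) : V)
      + (inner ℝ x u) • u := by
  obtain ⟨p, rfl⟩ := (prodEquiv u hu).surjective x
  rw [prodEquiv_apply, proj_prod_point, inner_prod_point hu]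

end Vale.Agent.P237
end

section

open MeasureTheory Set
open scoped ENNReal NNReal Pointwise

namespace Vale.Agent.P227

/-- One-dimensional Brunn-Minkowski, compact case. -/
theorem bm_one_compact {A B C : Set ℝ} {s t : ℝ} (hs : 0 < s) (ht : 0 < t)
    (hA : IsCompact A) (hB : IsCompact B)
    (nA : A.Nonempty) (nB : B.Nonempty) (h : ∀ a ∈ A, ∀ b ∈ B, s * a + t * b ∈ C) :
    ENNReal.ofReal s * volume A + ENNReal.ofReal t * volume B ≤ volume C := by
  obtain ⟨a, haA, ha⟩ := hA.exists_isGreatest nA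
  obtain ⟨b, hbB, hb⟩ := hB.exists_isLeast nB
  have h1 : (fun x => x + t * b) '' (s • A) ⊆ C := by
    rintro _ ⟨_, ⟨x, hx, rfl⟩, rfl⟩
    exact h x hx b hbB
  have h2 : (fun y => s * a + y) '' (t • B) ⊆ C := by
    rintro _ ⟨_, ⟨y, hy, rfl⟩, rfl⟩
    exact h a haA y hy
  have c1 : IsCompact ((fun x => x + t * b) '' (s • A)) := (hA.smul s).image (by fun_prop)
  have c2 : IsCompact ((fun y => s * a + y) '' (t • B)) := (hB.smul t).image (by fun_prop)
  have hdis : AEDisjoint volume ((fun x => x + t * b) '' (s • A))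
      ((fun y => s * a + y) '' (t • B)) := by
    have : ((fun x => x + t * b) '' (s • A)) ∩ ((fun y => s * a + y) '' (t • B)) ⊆
        {s * a + t * b} := by
      rintro _ ⟨⟨_, ⟨x, hx, rfl⟩, rfl⟩, ⟨_, ⟨y, hy, rfl⟩, hxy⟩⟩
      have hx' := ha hx
      have hy' := hb hy
      simp only [smul_eq_mul] at hxy
      simp only [mem_singleton_iff, smul_eq_mul]
      have e1 : s * x ≤ s * a := by gcongr
      have e2 : t * b ≤ t * y := by gcongr
      linarith
    exact measure_mono_null this (by simp)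
  have v1 : volume ((fun x => x + t * b) '' (s • A)) = ENNReal.ofReal s * volume A := by
    rw [image_add_right, measure_preimage_add_right, Measure.addHaar_smul]
    simp [abs_of_pos hs]
  have v2 : volume ((fun y => s * a + y) '' (t • B)) = ENNReal.ofReal t * volume B := by
    rw [image_add_left, measure_preimage_add, Measure.addHaar_smul]
    simp [abs_of_pos ht]
  calc ENNReal.ofReal s * volume A + ENNReal.ofReal t * volume B
      = volume ((fun x => x + t * b) '' (s • A)) + volume ((fun y => s * a + y) '' (t • B)) := by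
        rw [v1, v2]
    _ = volume (((fun x => x + t * b) '' (s • A)) ∪ ((fun y => s * a + y) '' (t • B))) := by
        rw [measure_union₀ c2.measurableSet.nullMeasurableSet hdis]
    _ ≤ volume C := measure_mono (union_subset h1 h2)

/-- One-dimensional Brunn-Minkowski. -/
theorem bm_one {A B C : Set ℝ} {s t : ℝ} (hs : 0 < s) (ht : 0 < t)
    (hA : MeasurableSet A) (hB : MeasurableSet B)
    (nA : A.Nonempty) (nB : B.Nonempty) (h : ∀ a ∈ A, ∀ b ∈ B, s * a + t * b ∈ C) :
    ENNReal.ofReal s * volume A + ENNReal.ofReal t * volume B ≤ volume C := by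
  have hs0 : ENNReal.ofReal s ≠ 0 := by simpa using hs
  have ht0 : ENNReal.ofReal t ≠ 0 := by simpa using ht
  have key : ∀ K L : Set ℝ, IsCompact K → IsCompact L → K ⊆ A → L ⊆ B →
      ENNReal.ofReal s * volume K + ENNReal.ofReal t * volume L ≤ volume C := by
    intro K L hK hL hKA hLB
    obtain ⟨a0, ha0⟩ := nA
    obtain ⟨b0, hb0⟩ := nB
    have hK' : IsCompact (K ∪ {a0}) := hK.union isCompact_singleton
    have hL' : IsCompact (L ∪ {b0}) := hL.union isCompact_singleton
    have := bm_one_compact hs ht hK' hL' ⟨a0, by simp⟩ ⟨b0, by simp⟩ (C := C) (by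
      intro a ha b hb
      apply h
      · rcases ha with ha | ha
        · exact hKA ha
        · rw [mem_singleton_iff.mp ha]; exact ha0
      · rcases hb with hb | hb
        · exact hLB hb
        · rw [mem_singleton_iff.mp hb]; exact hb0)
    refine le_trans (add_le_add ?_ ?_) this
    · gcongr; exact subset_union_left
    · gcongr; exact subset_union_left
  have key1 : ∀ K : Set ℝ, IsCompact K → K ⊆ A →
      ENNReal.ofReal s * volume K + ENNReal.ofReal t * volume B ≤ volume C := by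
    intro K hK hKA
    have : volume B = ⨆ (L) (_ : L ⊆ B) (_ : IsCompact L), volume L := hB.measure_eq_iSup_isCompact _
    rw [this]
    simp_rw [ENNReal.mul_iSup]
    by_cases htop : volume C = ∞
    · rw [htop]; exact le_top
    have hKfin : ENNReal.ofReal s * volume K ≠ ∞ :=
      ENNReal.mul_ne_top ENNReal.ofReal_ne_top hK.measure_lt_top.ne
    have h0 : ENNReal.ofReal s * volume K ≤ volume C := by
      simpa using key K ∅ hK isCompact_empty hKA (empty_subset _)
    refine le_trans (add_le_add_right (?_ : _ ≤ volume C - ENNReal.ofReal s * volume K) _) ?_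
    · refine iSup_le fun L => iSup_le fun hL => iSup_le fun hLc => ?_
      exact ENNReal.le_sub_of_add_le_left hKfin (key K L hK hLc hKA hL)
    · rw [add_tsub_cancel_of_le h0]
  by_cases htop : volume C = ∞
  · rw [htop]; exact le_top
  have h0 : ENNReal.ofReal t * volume B ≤ volume C := by
    simpa using key1 ∅ isCompact_empty (empty_subset _)
  have hBfin : ENNReal.ofReal t * volume B ≠ ∞ := ne_top_of_le_ne_top htop h0
  have : volume A = ⨆ (L) (_ : L ⊆ A) (_ : IsCompact L), volume L := hA.measure_eq_iSup_isCompact _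
  rw [this]
  simp_rw [ENNReal.mul_iSup]
  refine le_trans (add_le_add_left (?_ : _ ≤ volume C - ENNReal.ofReal t * volume B) _) ?_
  · refine iSup_le fun L => iSup_le fun hL => iSup_le fun hLc => ?_
    exact ENNReal.le_sub_of_add_le_right hBfin (key1 L hLc hL)
  · rw [tsub_add_cancel_of_le h0]


/-- Normalised one-dimensional Prekopa-Leindler. -/
theorem pl_one_normalized {s t : ℝ} (hs : 0 < s) (ht : 0 < t) (hst : s + t = 1)
    (f g h : ℝ → ℝ≥0∞) (hf : Measurable f) (hg : Measurable g)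
    (hh : Measurable h) (hf1 : ⨆ x, f x = 1) (hg1 : ⨆ x, g x = 1)
    (hfg : ∀ x y, f x ^ s * g y ^ t ≤ h (s * x + t * y)) :
    ENNReal.ofReal s * (∫⁻ x, f x) + ENNReal.ofReal t * (∫⁻ x, g x) ≤ ∫⁻ x, h x := by
  have hfle : ∀ x, f x ≤ 1 := fun x => hf1 ▸ le_iSup f x
  have hgle : ∀ x, g x ≤ 1 := fun x => hg1 ▸ le_iSup g x
  set k : ℝ → ℝ≥0∞ := fun x => min (h x) 1 with hk
  have hkm : Measurable k := hh.min measurable_const
  have hk1 : ∀ x, k x ≤ 1 := fun x => min_le_right _ _
  have hfgk : ∀ x y, f x ^ s * g y ^ t ≤ k (s * x + t * y) := by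
    intro x y
    have h1 : f x ^ s * g y ^ t ≤ 1 := by
      calc f x ^ s * g y ^ t ≤ 1 * 1 :=
            mul_le_mul' (ENNReal.rpow_le_one (hfle x) hs.le) (ENNReal.rpow_le_one (hgle y) ht.le)
        _ = 1 := by simp
    simp only [hk]
    exact le_min (hfg x y) h1
  have hcake : ∀ u : ℝ → ℝ≥0∞, Measurable u → (∀ x, u x ≤ 1) →
      ∫⁻ x, u x = ∫⁻ r in Ioi (0 : ℝ), volume {x | r < (u x).toReal} := by
    intro u hu hu1
    rw [← lintegral_eq_lintegral_meas_lt volume (Filter.Eventually.of_forall fun x => by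
      simp) hu.ennreal_toReal.aemeasurable]
    apply lintegral_congr
    intro x
    rw [ENNReal.ofReal_toReal (ne_top_of_le_ne_top ENNReal.one_ne_top (hu1 x))]
  have hkh : ∫⁻ x, k x ≤ ∫⁻ x, h x := lintegral_mono fun x => min_le_left _ _
  refine le_trans ?_ hkh
  rw [hcake f hf hfle, hcake g hg hgle, hcake k hkm hk1]
  have hmeas : ∀ u : ℝ → ℝ≥0∞, Measurable (fun r : ℝ => volume {x | r < (u x).toReal}) := by
    intro u
    apply Antitone.measurable
    intro a b hab
    exact measure_mono fun x hx => lt_of_le_of_lt hab hx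
  rw [← lintegral_const_mul _ (hmeas f), ← lintegral_const_mul _ (hmeas g),
    ← lintegral_add_left ((hmeas f).const_mul _)]
  refine setLIntegral_mono' measurableSet_Ioi ?_
  intro r hr
  have hr0 : 0 < r := hr
  rcases lt_or_ge r 1 with hr1 | hr1
  · apply bm_one hs ht
    · exact measurableSet_lt measurable_const hf.ennreal_toReal
    · exact measurableSet_lt measurable_const hg.ennreal_toReal
    · have : ENNReal.ofReal r < ⨆ x, f x := by
        rw [hf1]
        rw [← ENNReal.ofReal_one]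
        exact (ENNReal.ofReal_lt_ofReal_iff one_pos).2 hr1
      obtain ⟨x, hx⟩ := lt_iSup_iff.1 this
      refine ⟨x, ?_⟩
      exact (ENNReal.ofReal_lt_iff_lt_toReal hr0.le
        (ne_top_of_le_ne_top ENNReal.one_ne_top (hfle x))).1 hx
    · have : ENNReal.ofReal r < ⨆ x, g x := by
        rw [hg1]
        rw [← ENNReal.ofReal_one]
        exact (ENNReal.ofReal_lt_ofReal_iff one_pos).2 hr1
      obtain ⟨x, hx⟩ := lt_iSup_iff.1 this
      refine ⟨x, ?_⟩
      exact (ENNReal.ofReal_lt_iff_lt_toReal hr0.le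
        (ne_top_of_le_ne_top ENNReal.one_ne_top (hgle x))).1 hx
    · intro a ha b hb
      simp only [mem_ofPred_eq] at ha hb ⊢
      have h3 := ENNReal.toReal_mono (ne_top_of_le_ne_top ENNReal.one_ne_top (hk1 _)) (hfgk a b)
      rw [ENNReal.toReal_mul, ← ENNReal.toReal_rpow, ← ENNReal.toReal_rpow] at h3
      have h4 : r < (k (s * a + t * b)).toReal := by
        calc r = r ^ s * r ^ t := by
              rw [← Real.rpow_add hr0, hst, Real.rpow_one]
          _ < (f a).toReal ^ s * (g b).toReal ^ t := by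
            apply mul_lt_mul''
            · exact Real.rpow_lt_rpow hr0.le ha hs
            · exact Real.rpow_lt_rpow hr0.le hb ht
            · positivity
            · positivity
          _ ≤ _ := h3
      exact h4
  · have e1 : {x | r < (f x).toReal} = ∅ := by
      ext x
      simp only [mem_ofPred_eq, mem_empty_iff_false, iff_false, not_lt]
      refine le_trans ?_ hr1
      have := ENNReal.toReal_mono ENNReal.one_ne_top (hfle x)
      simpa using this
    have e2 : {x | r < (g x).toReal} = ∅ := by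
      ext x
      simp only [mem_ofPred_eq, mem_empty_iff_false, iff_false, not_lt]
      refine le_trans ?_ hr1
      have := ENNReal.toReal_mono ENNReal.one_ne_top (hgle x)
      simpa using this
    rw [e1, e2]
    simp

theorem ennreal_amgm {s t : ℝ} (hs : 0 < s) (ht : 0 < t) (hst : s + t = 1) (x y : ℝ≥0∞) :
    x ^ s * y ^ t ≤ ENNReal.ofReal s * x + ENNReal.ofReal t * y := by
  have hs0 : ENNReal.ofReal s ≠ 0 := by simpa using hs
  have ht0 : ENNReal.ofReal t ≠ 0 := by simpa using ht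
  by_cases hx : x = ∞
  · subst hx; simp [ENNReal.mul_top hs0]
  by_cases hy : y = ∞
  · subst hy; simp [ENNReal.mul_top ht0]
  lift x to ℝ≥0 using hx
  lift y to ℝ≥0 using hy
  have := NNReal.geom_mean_le_arith_mean2_weighted s.toNNReal t.toNNReal x y (by
    rw [← Real.toNNReal_add hs.le ht.le, hst, Real.toNNReal_one])
  rw [Real.coe_toNNReal s hs.le, Real.coe_toNNReal t ht.le] at this
  rw [ENNReal.ofReal, ENNReal.ofReal, ← ENNReal.coe_rpow_of_nonneg _ hs.le,
    ← ENNReal.coe_rpow_of_nonneg _ ht.le]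
  exact_mod_cast this

theorem pl_one_bdd {s t : ℝ} (hs : 0 < s) (ht : 0 < t) (hst : s + t = 1)
    (f g h : ℝ → ℝ≥0∞) (hf : Measurable f) (hg : Measurable g)
    (hh : Measurable h) (hf1 : ⨆ x, f x ≠ ∞) (hg1 : ⨆ x, g x ≠ ∞)
    (hfg : ∀ x y, f x ^ s * g y ^ t ≤ h (s * x + t * y)) :
    (∫⁻ x, f x) ^ s * (∫⁻ x, g x) ^ t ≤ ∫⁻ x, h x := by
  by_cases hf0 : ⨆ x, f x = 0
  · have : f = fun _ => 0 := by
      funext x
      have := le_iSup f x
      rw [hf0] at this
      simpa using this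
    rw [this]
    simp [hs]
  by_cases hg0 : ⨆ x, g x = 0
  · have : g = fun _ => 0 := by
      funext x
      have := le_iSup g x
      rw [hg0] at this
      simpa using this
    rw [this]
    simp [ht]
  set a := ⨆ x, f x with ha
  set b := ⨆ x, g x with hb
  have has : a ^ s ≠ 0 := by simp [hf0, hf1, ENNReal.rpow_eq_zero_iff]
  have has' : a ^ s ≠ ∞ := ENNReal.rpow_ne_top_of_nonneg hs.le hf1
  have hbt : b ^ t ≠ 0 := by simp [hg0, hg1, ENNReal.rpow_eq_zero_iff]
  have hbt' : b ^ t ≠ ∞ := ENNReal.rpow_ne_top_of_nonneg ht.le hg1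
  set c := a ^ s * b ^ t with hc
  have hc0 : c ≠ 0 := mul_ne_zero has hbt
  have hc1 : c ≠ ∞ := ENNReal.mul_ne_top has' hbt'
  have key := pl_one_normalized hs ht hst (fun x => a⁻¹ * f x) (fun x => b⁻¹ * g x)
    (fun x => c⁻¹ * h x) (hf.const_mul _) (hg.const_mul _) (hh.const_mul _)
    (by rw [← ENNReal.mul_iSup, ← ha]; exact ENNReal.inv_mul_cancel hf0 hf1)
    (by rw [← ENNReal.mul_iSup, ← hb]; exact ENNReal.inv_mul_cancel hg0 hg1)
    (by
      intro x y
      rw [ENNReal.mul_rpow_of_nonneg _ _ hs.le, ENNReal.mul_rpow_of_nonneg _ _ ht.le,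
        ENNReal.inv_rpow, ENNReal.inv_rpow, hc, ENNReal.mul_inv (Or.inl has) (Or.inl has')]
      calc (a ^ s)⁻¹ * f x ^ s * ((b ^ t)⁻¹ * g y ^ t)
          = ((a ^ s)⁻¹ * (b ^ t)⁻¹) * (f x ^ s * g y ^ t) := by ring
        _ ≤ _ := by gcongr; exact hfg x y)
  rw [lintegral_const_mul _ hf, lintegral_const_mul _ hg, lintegral_const_mul _ hh] at key
  set F := ∫⁻ x, f x
  set G := ∫⁻ x, g x
  set H := ∫⁻ x, h x
  have h5 := le_trans (ennreal_amgm hs ht hst _ _) key
  rw [ENNReal.mul_rpow_of_nonneg _ _ hs.le, ENNReal.mul_rpow_of_nonneg _ _ ht.le,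
        ENNReal.inv_rpow, ENNReal.inv_rpow] at h5
  have h6 : c * ((a ^ s)⁻¹ * F ^ s * ((b ^ t)⁻¹ * G ^ t)) ≤ c * (c⁻¹ * H) := by gcongr
  have h7 : c * ((a ^ s)⁻¹ * F ^ s * ((b ^ t)⁻¹ * G ^ t)) = F ^ s * G ^ t := by
    rw [hc]
    calc a ^ s * b ^ t * ((a ^ s)⁻¹ * F ^ s * ((b ^ t)⁻¹ * G ^ t))
        = (a ^ s * (a ^ s)⁻¹) * (b ^ t * (b ^ t)⁻¹) * (F ^ s * G ^ t) := by ring
      _ = _ := by
        rw [ENNReal.mul_inv_cancel has has', ENNReal.mul_inv_cancel hbt hbt']; simp
  rw [h7, ← mul_assoc, ENNReal.mul_inv_cancel hc0 hc1, one_mul] at h6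
  exact h6

theorem pl_one {s t : ℝ} (hs : 0 < s) (ht : 0 < t) (hst : s + t = 1)
    (f g h : ℝ → ℝ≥0∞) (hf : Measurable f) (hg : Measurable g)
    (hh : Measurable h) (hfg : ∀ x y, f x ^ s * g y ^ t ≤ h (s * x + t * y)) :
    (∫⁻ x, f x) ^ s * (∫⁻ x, g x) ^ t ≤ ∫⁻ x, h x := by
  have hcut : ∀ u : ℝ → ℝ≥0∞, Measurable u →
      ∫⁻ x, u x = ⨆ n : ℕ, ∫⁻ x, min (u x) n := by
    intro u hu
    rw [← lintegral_iSup (fun n => hu.min measurable_const)
      (fun m n hmn x => min_le_min_left _ (by exact_mod_cast hmn))]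
    apply lintegral_congr
    intro x
    apply le_antisymm
    · by_cases hx : u x = ∞
      · rw [hx]
        simp only [top_le_iff, le_top, inf_of_le_right]
        exact ENNReal.iSup_natCast
      · obtain ⟨n, hn⟩ := ENNReal.exists_nat_gt hx
        refine le_trans ?_ (le_iSup _ n)
        rw [min_eq_left hn.le]
    · exact iSup_le fun n => min_le_left _ _
  have hsup : ∀ (u : ℝ → ℝ≥0∞) (n : ℕ), ⨆ x, min (u x) (n : ℝ≥0∞) ≠ ∞ := by
    intro u n
    refine ne_top_of_le_ne_top (ENNReal.natCast_ne_top n) (iSup_le fun x => min_le_right _ _)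
  have hpow : ∀ (r : ℝ) (_ : 0 < r) (u : ℕ → ℝ≥0∞), (⨆ n, u n) ^ r = ⨆ n, u n ^ r := by
    intro r hr u
    exact (ENNReal.orderIsoRpow r hr).map_iSup u
  rw [hcut f hf, hcut g hg, hpow s hs, hpow t ht, ENNReal.iSup_mul]
  refine iSup_le fun n => ?_
  rw [ENNReal.mul_iSup]
  refine iSup_le fun m => ?_
  refine pl_one_bdd hs ht hst _ _ h (hf.min measurable_const) (hg.min measurable_const) hh
    (hsup f n) (hsup g m) ?_
  intro x y
  exact le_trans (mul_le_mul' (ENNReal.rpow_le_rpow (min_le_left _ _) hs.le)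
    (ENNReal.rpow_le_rpow (min_le_left _ _) ht.le)) (hfg x y)

/-- Prekopa-Leindler inequality on `Fin n → ℝ`. -/
theorem pl_pi {s t : ℝ} (hs : 0 < s) (ht : 0 < t) (hst : s + t = 1) (n : ℕ) :
    ∀ (f g h : (Fin n → ℝ) → ℝ≥0∞), Measurable f → Measurable g →
    Measurable h → (∀ x y, f x ^ s * g y ^ t ≤ h (s • x + t • y)) →
    (∫⁻ x, f x) ^ s * (∫⁻ x, g x) ^ t ≤ ∫⁻ x, h x := by
  induction n with
  | zero =>
    intro f g h hf hg hh hfg
    have hv : (volume : Measure (Fin 0 → ℝ)) univ = 1 := by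
      simp [volume_pi]
    rw [lintegral_unique, lintegral_unique, lintegral_unique, hv]
    simp only [mul_one]
    exact (hfg _ _).trans (le_of_eq (congrArg h (Subsingleton.elim _ _)))
  | succ n ih =>
    intro f g h hf hg hh hfg
    set e := MeasurableEquiv.piFinSuccAbove (fun _ : Fin (n + 1) => ℝ) 0 with he
    have hvp : MeasurePreserving e volume volume :=
      volume_preserving_piFinSuccAbove (fun _ : Fin (n + 1) => ℝ) 0
    have hsplit : ∀ u : (Fin (n + 1) → ℝ) → ℝ≥0∞, Measurable u →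
        ∫⁻ x, u x = ∫⁻ a : ℝ, ∫⁻ x : Fin n → ℝ, u (e.symm (a, x)) := by
      intro u hu
      rw [← hvp.symm.lintegral_comp hu]
      exact lintegral_prod _ (hu.comp e.symm.measurable).aemeasurable
    have hmid : ∀ (a b : ℝ) (x y : Fin n → ℝ),
        s • e.symm (a, x) + t • e.symm (b, y) = e.symm (s * a + t * b, s • x + t • y) := by
      intro a b x y
      funext i
      refine Fin.cases ?_ (fun j => ?_) i
      · simp [he, MeasurableEquiv.piFinSuccAbove]
      · simp [he, MeasurableEquiv.piFinSuccAbove]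
    have hm2 : ∀ u : (Fin (n + 1) → ℝ) → ℝ≥0∞, Measurable u →
        Measurable fun a : ℝ => ∫⁻ x : Fin n → ℝ, u (e.symm (a, x)) := by
      intro u hu
      exact (hu.comp e.symm.measurable).lintegral_prod_right'
    rw [hsplit f hf, hsplit g hg, hsplit h hh]
    apply pl_one hs ht hst _ _ _ (hm2 f hf) (hm2 g hg) (hm2 h hh)
    intro a b
    have hsec : ∀ (u : (Fin (n + 1) → ℝ) → ℝ≥0∞) (c : ℝ), Measurable u →
        Measurable fun x : Fin n → ℝ => u (e.symm (c, x)) := by
      intro u c hu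
      exact hu.comp (e.symm.measurable.comp measurable_prodMk_left)
    apply ih _ _ _ (hsec f a hf) (hsec g b hg) (hsec h _ hh)
    intro x y
    have := hfg (e.symm (a, x)) (e.symm (b, y))
    rwa [hmid] at this

/-- Multiplicative Brunn-Minkowski inequality for measurable sets in `Fin n → ℝ`. -/
theorem bm_mul {s t : ℝ} (hs : 0 < s) (ht : 0 < t) (hst : s + t = 1) {n : ℕ}
    {A B C : Set (Fin n → ℝ)} (hA : MeasurableSet A) (hB : MeasurableSet B)
    (hC : MeasurableSet C) (h : ∀ a ∈ A, ∀ b ∈ B, s • a + t • b ∈ C) :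
    volume A ^ s * volume B ^ t ≤ volume C := by
  have := pl_pi hs ht hst n (A.indicator 1) (B.indicator 1) (C.indicator 1)
    (measurable_one.indicator hA) (measurable_one.indicator hB) (measurable_one.indicator hC)
    (by
      intro x y
      by_cases hx : x ∈ A
      · by_cases hy : y ∈ B
        · simp [indicator_of_mem hx, indicator_of_mem hy, indicator_of_mem (h x hx y hy)]
        · simp [indicator_of_notMem hy, ht]
      · simp [indicator_of_notMem hx, hs])
  rwa [lintegral_indicator_one hA, lintegral_indicator_one hB, lintegral_indicator_one hC] at this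

end Vale.Agent.P227
end

section

/-!
# P237-B: Brunn-Minkowski inequality in a finite-dimensional inner product space
-/

open MeasureTheory Metric Set Module
open scoped Pointwise ENNReal

namespace Vale.Agent.P237

variable {V : Type*} [NormedAddCommGroup V] [InnerProductSpace ℝ V] [FiniteDimensional ℝ V]
  [MeasurableSpace V] [BorelSpace V]

/-- volume preserving linear coordinates -/
noncomputable def coordEquiv (V : Type*) [NormedAddCommGroup V] [InnerProductSpace ℝ V]
    [FiniteDimensional ℝ V] : V ≃L[ℝ] (Fin (finrank ℝ V) → ℝ) :=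
  (stdOrthonormalBasis ℝ V).repr.toContinuousLinearEquiv.trans
    (PiLp.continuousLinearEquiv 2 ℝ (fun _ : Fin (finrank ℝ V) => ℝ))

theorem coordEquiv_measurePreserving : MeasurePreserving (coordEquiv V) volume volume := by
  have h1 := (stdOrthonormalBasis ℝ V).repr.measurePreserving
  have h2 := PiLp.volume_preserving_ofLp (Fin (finrank ℝ V))
  exact h2.comp h1

theorem volume_coord_image {K : Set V} (hK : IsCompact K) :
    volume (coordEquiv V '' K) = volume K := by
  have hc : IsCompact (coordEquiv V '' K) := hK.image (coordEquiv V).continuous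
  rw [← coordEquiv_measurePreserving.measure_preimage hc.measurableSet.nullMeasurableSet,
    preimage_image_eq _ (coordEquiv V).injective]

/-- multiplicative Brunn-Minkowski inequality (extended real version) -/
theorem bm_mul_volume {s t : ℝ} (hs : 0 < s) (ht : 0 < t) (hst : s + t = 1) {K L : Set V}
    (hK : IsCompact K) (hL : IsCompact L) :
    volume K ^ s * volume L ^ t ≤ volume (s • K + t • L) := by
  have hC : IsCompact (s • K + t • L) := (hK.smul s).add (hL.smul t)
  rw [← volume_coord_image hK, ← volume_coord_image hL, ← volume_coord_image hC]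
  refine P227.bm_mul hs ht hst (hK.image (coordEquiv V).continuous).measurableSet
    (hL.image (coordEquiv V).continuous).measurableSet
    (hC.image (coordEquiv V).continuous).measurableSet ?_
  rintro _ ⟨a, ha, rfl⟩ _ ⟨b, hb, rfl⟩
  refine ⟨s • a + t • b, add_mem_add (smul_mem_smul_set ha) (smul_mem_smul_set hb), ?_⟩
  simp

/-- multiplicative Brunn-Minkowski inequality -/
theorem bm_mul {s t : ℝ} (hs : 0 < s) (ht : 0 < t) (hst : s + t = 1) {K L : Set V}
    (hK : IsCompact K) (hL : IsCompact L) :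
    vol K ^ s * vol L ^ t ≤ vol (s • K + t • L) := by
  have hC : IsCompact (s • K + t • L) := (hK.smul s).add (hL.smul t)
  have h := ENNReal.toReal_mono hC.measure_lt_top.ne (bm_mul_volume hs ht hst hK hL)
  rw [ENNReal.toReal_mul, ← ENNReal.toReal_rpow, ← ENNReal.toReal_rpow] at h
  exact h

theorem vol_smul_set (r : ℝ) (K : Set V) : vol (r • K) = |r| ^ finrank ℝ V * vol K := by
  unfold vol
  rw [Measure.addHaar_smul, ENNReal.toReal_mul, ENNReal.toReal_ofReal (abs_nonneg _), abs_pow]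

theorem vol_nonneg (K : Set V) : 0 ≤ vol K := ENNReal.toReal_nonneg

theorem vol_mono {K L : Set V} (hL : IsCompact L) (h : K ⊆ L) : vol K ≤ vol L :=
  ENNReal.toReal_mono hL.measure_lt_top.ne (measure_mono h)

theorem vol_vadd_set (a : V) (K : Set V) : vol ({a} + K) = vol K := by
  unfold vol
  rw [singleton_add, Set.image_add_left, measure_preimage_add]

theorem brunn_minkowski {K L : Set V} (hK : IsCompact K) (hL : IsCompact L)
    (nK : K.Nonempty) (nL : L.Nonempty) (hd : 0 < finrank ℝ V) :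
    vol K ^ ((1 : ℝ) / finrank ℝ V) + vol L ^ ((1 : ℝ) / finrank ℝ V) ≤
      vol (K + L) ^ ((1 : ℝ) / finrank ℝ V) := by
  have hdR : (0 : ℝ) < finrank ℝ V := by exact_mod_cast hd
  have hKL : IsCompact (K + L) := hK.add hL
  have hle1 : vol K ≤ vol (K + L) := by
    obtain ⟨b, hb⟩ := nL
    have h1 : {b} + K ⊆ K + L := by
      rw [add_comm K L]
      exact add_subset_add (singleton_subset_iff.2 hb) subset_rfl
    have := vol_mono hKL h1
    rwa [vol_vadd_set] at this
  have hle2 : vol L ≤ vol (K + L) := by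
    obtain ⟨a, ha⟩ := nK
    have h1 : {a} + L ⊆ K + L := add_subset_add (singleton_subset_iff.2 ha) subset_rfl
    have := vol_mono hKL h1
    rwa [vol_vadd_set] at this
  have hexp : (0 : ℝ) < 1 / finrank ℝ V := by positivity
  rcases (vol_nonneg K).eq_or_lt with hK0 | hK0
  · rw [← hK0, Real.zero_rpow hexp.ne', zero_add]
    exact Real.rpow_le_rpow (vol_nonneg _) hle2 hexp.le
  rcases (vol_nonneg L).eq_or_lt with hL0 | hL0
  · rw [← hL0, Real.zero_rpow hexp.ne', add_zero]
    exact Real.rpow_le_rpow (vol_nonneg _) hle1 hexp.le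
  set k := vol K ^ ((1 : ℝ) / finrank ℝ V) with hk
  set l := vol L ^ ((1 : ℝ) / finrank ℝ V) with hl
  have hkpos : 0 < k := Real.rpow_pos_of_pos hK0 _
  have hlpos : 0 < l := Real.rpow_pos_of_pos hL0 _
  have hkd : k ^ finrank ℝ V = vol K := by
    rw [hk, ← Real.rpow_natCast, ← Real.rpow_mul hK0.le, one_div,
      inv_mul_cancel₀ hdR.ne', Real.rpow_one]
  have hld : l ^ finrank ℝ V = vol L := by
    rw [hl, ← Real.rpow_natCast, ← Real.rpow_mul hL0.le, one_div,
      inv_mul_cancel₀ hdR.ne', Real.rpow_one]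
  have h := bm_mul (V := V) (s := k / (k + l)) (t := l / (k + l)) (by (clear * - hK0 hL0; positivity)) (by (clear * - hL0 hK0; positivity))
    (by field_simp) (hK.smul k⁻¹) (hL.smul l⁻¹)
  rw [vol_smul_set, vol_smul_set, abs_of_pos (inv_pos.2 hkpos), abs_of_pos (inv_pos.2 hlpos),
    inv_pow, inv_pow, hkd, hld, inv_mul_cancel₀ hK0.ne', inv_mul_cancel₀ hL0.ne',
    Real.one_rpow, Real.one_rpow, mul_one, smul_smul, smul_smul] at h
  have e1 : k / (k + l) * k⁻¹ = (k + l)⁻¹ := by field_simp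
  have e2 : l / (k + l) * l⁻¹ = (k + l)⁻¹ := by field_simp
  rw [e1, e2, ← smul_add, vol_smul_set, abs_of_pos (by positivity), inv_pow,
    ← div_eq_inv_mul, le_div_iff₀ (by positivity), one_mul] at h
  calc k + l = ((k + l) ^ finrank ℝ V) ^ ((1 : ℝ) / finrank ℝ V) := by
        rw [← Real.rpow_natCast, ← Real.rpow_mul (by positivity), mul_one_div_cancel hdR.ne',
          Real.rpow_one]
    _ ≤ vol (K + L) ^ ((1 : ℝ) / finrank ℝ V) := Real.rpow_le_rpow (by (clear * - hK0 hL0; positivity)) h hexp.le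

theorem isCompact_sum {m : ℕ} {K : Fin m → Set V} (hK : ∀ i, IsCompact (K i)) :
    IsCompact (∑ i, K i) := by
  induction m with
  | zero => simpa using (isCompact_singleton (x := (0 : V)))
  | succ m ih =>
    rw [Fin.sum_univ_succ]
    exact (hK 0).add (ih fun i => hK i.succ)

theorem nonempty_sum {m : ℕ} {K : Fin m → Set V} (nK : ∀ i, (K i).Nonempty) :
    (∑ i, K i).Nonempty := by
  induction m with
  | zero => simp
  | succ m ih =>
    rw [Fin.sum_univ_succ]
    exact (nK 0).add (ih fun i => nK i.succ)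

theorem bm_sum {m : ℕ} {K : Fin m → Set V} (hK : ∀ i, IsCompact (K i)) (nK : ∀ i, (K i).Nonempty)
    (hd : 0 < finrank ℝ V) :
    ∑ i, vol (K i) ^ ((1 : ℝ) / finrank ℝ V) ≤ vol (∑ i, K i) ^ ((1 : ℝ) / finrank ℝ V) := by
  induction m with
  | zero => simpa using Real.rpow_nonneg (vol_nonneg _) _
  | succ m ih =>
    rw [Fin.sum_univ_succ, Fin.sum_univ_succ]
    refine (add_le_add le_rfl (ih (fun i => hK i.succ) fun i => nK i.succ)).trans ?_
    exact brunn_minkowski (hK 0) (isCompact_sum fun i => hK i.succ) (nK 0)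
      (nonempty_sum fun i => nK i.succ) hd

end Vale.Agent.P237
end

section

/-!
# P237-F1: slices of convex bodies
-/

open MeasureTheory Metric Set Module
open scoped Pointwise

namespace Vale.Agent.P237

variable {V : Type*} [NormedAddCommGroup V] [InnerProductSpace ℝ V] [FiniteDimensional ℝ V]
  [MeasurableSpace V] [BorelSpace V]

omit [MeasurableSpace V] [BorelSpace V] in
theorem slice_isCompact {K : Set V} (hK : IsCompact K) (u : V) (y : ℝ) :
    IsCompact (slice K u y) := by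
  have h1 : Topology.IsClosedEmbedding
      (fun z : ((ℝ ∙ u)ᗮ : Submodule ℝ V) => (z : V) + y • u) := by
    have h2 : Topology.IsClosedEmbedding (Subtype.val : ((ℝ ∙ u)ᗮ : Submodule ℝ V) → V) :=
      (Submodule.closed_of_finiteDimensional _).isClosedEmbedding_subtypeVal
    exact (Homeomorph.addRight (y • u)).isClosedEmbedding.comp h2
  exact h1.isCompact_preimage hK

omit [FiniteDimensional ℝ V] [MeasurableSpace V] [BorelSpace V] in
theorem slice_combo_subset {K : Set V} (hK : Convex ℝ K) (u : V) (y z : ℝ) {a b : ℝ}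
    (ha : 0 ≤ a) (hb : 0 ≤ b) (hab : a + b = 1) :
    a • slice K u y + b • slice K u z ⊆ slice K u (a * y + b * z) := by
  rintro _ ⟨_, ⟨p, hp, rfl⟩, _, ⟨q, hq, rfl⟩, rfl⟩
  have h := hK hp hq ha hb hab
  show ((a • p + b • q : ((ℝ ∙ u)ᗮ : Submodule ℝ V)) : V) + (a * y + b * z) • u ∈ K
  have e : ((a • p + b • q : ((ℝ ∙ u)ᗮ : Submodule ℝ V)) : V) + (a * y + b * z) • u
      = a • ((p : V) + y • u) + b • ((q : V) + z • u) := by
    push_cast
    module
  rw [e]
  exact h

omit [FiniteDimensional ℝ V] [MeasurableSpace V] [BorelSpace V] in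
theorem slice_convex {K : Set V} (hK : Convex ℝ K) (u : V) (y : ℝ) :
    Convex ℝ (slice K u y) := by
  intro p hp q hq a b ha hb hab
  have h := slice_combo_subset hK u y y ha hb hab
  have e : a * y + b * y = y := by rw [← add_mul, hab, one_mul]
  rw [e] at h
  exact h (add_mem_add (smul_mem_smul_set hp) (smul_mem_smul_set hq))

omit [FiniteDimensional ℝ V] [MeasurableSpace V] [BorelSpace V] in
theorem slice_neg {K : Set V} (hs : ∀ x ∈ K, -x ∈ K) (u : V) (y : ℝ) :
    slice K u (-y) = -slice K u y := by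
  have key : ∀ (t : ℝ) (z : ((ℝ ∙ u)ᗮ : Submodule ℝ V)), z ∈ slice K u t → -z ∈ slice K u (-t) := by
    intro t z hz
    have h := hs _ hz
    show ((-z : ((ℝ ∙ u)ᗮ : Submodule ℝ V)) : V) + (-t) • u ∈ K
    have e : ((-z : ((ℝ ∙ u)ᗮ : Submodule ℝ V)) : V) + (-t) • u = -((z : V) + t • u) := by
      push_cast
      module
    rw [e]
    exact h
  ext z
  constructor
  · intro hz
    have := key _ _ hz
    rw [neg_neg] at this
    exact Set.mem_neg.2 this
  · intro hz
    have := key _ _ (Set.mem_neg.1 hz)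
    rwa [neg_neg] at this

theorem slice_vol_even {K : Set V} (hK : IsSymBody K) {u : V} (hu : ‖u‖ = 1) (y : ℝ) :
    vol (slice K u (-y)) = vol (slice K u y) := by
  rw [slice_neg hK.symm]
  unfold vol
  rw [Measure.measure_neg]

omit [MeasurableSpace V] [BorelSpace V] in
theorem finrank_perp (hd : finrank ℝ V = 3) {u : V} (hu : ‖u‖ = 1) :
    finrank ℝ ((ℝ ∙ u)ᗮ : Submodule ℝ V) = 2 := by
  have hu0 : u ≠ 0 := by
    rintro rfl
    simp at hu
  have : Fact (finrank ℝ V = 2 + 1) := ⟨hd⟩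
  exact Submodule.finrank_orthogonal_span_singleton hu0

omit [FiniteDimensional ℝ V] [MeasurableSpace V] [BorelSpace V] in
theorem closedBall_subset_slice {K : Set V} (hb : closedBall (0 : V) 1 ⊆ K) {u : V} (hu : ‖u‖ = 1)
    {y : ℝ} (hy : |y| ≤ 1) :
    closedBall (0 : ((ℝ ∙ u)ᗮ : Submodule ℝ V)) (Real.sqrt (1 - y ^ 2)) ⊆ slice K u y := by
  intro z hz
  apply hb
  rw [mem_closedBall_zero_iff] at hz ⊢
  have h0 : 0 ≤ 1 - y ^ 2 := by
    linarith only [mul_eq_zero_of_left (sub_eq_zero.2 (sq_abs y)) (|y| - (0)), mul_eq_zero_of_left (sub_eq_zero.2 (sq_abs y)) (1 - (|y|)), mul_nonneg (sub_nonneg.2 hy) (sub_nonneg.2 (abs_nonneg y)), mul_nonneg (sub_nonneg.2 hy) (sub_nonneg.2 hy)]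
  have h1 : ‖(z : V) + y • u‖ ^ 2 = ‖z‖ ^ 2 + y ^ 2 := by
    have horth : inner ℝ (z : V) (y • u) = 0 := by
      rw [inner_smul_right, real_inner_comm,
        Submodule.mem_orthogonal_singleton_iff_inner_right.mp z.2, mul_zero]
    have := norm_add_sq_eq_norm_sq_add_norm_sq_real horth
    rw [norm_smul, hu, mul_one, Real.norm_eq_abs] at this
    rw [sq, this, Submodule.coe_norm, abs_mul_abs_self]
    ring
  have h2 : ‖z‖ ^ 2 ≤ 1 - y ^ 2 := by
    calc ‖z‖ ^ 2 ≤ (Real.sqrt (1 - y ^ 2)) ^ 2 := by (clear * - hz; gcongr)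
      _ = _ := Real.sq_sqrt h0
  have h3 : ‖(z : V) + y • u‖ ^ 2 ≤ 1 := by rw [h1]; linarith only [h2]
  exact abs_le_one_iff_mul_self_le_one.2 (by linarith) |>.trans' (le_abs_self _)

theorem slice_sqrt_concave (hd : finrank ℝ V = 3) {K : Set V} (hK : IsBody K)
    (hb : closedBall (0 : V) 1 ⊆ K) {u : V} (hu : ‖u‖ = 1) :
    ConcaveOn ℝ (Icc (-1) 1) (fun y => Real.sqrt (vol (slice K u y))) := by
  have hne : ∀ y ∈ Icc (-1 : ℝ) 1, (slice K u y).Nonempty := by
    intro y hy
    refine ⟨0, closedBall_subset_slice hb hu (abs_le.2 hy) ?_⟩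
    rw [mem_closedBall_zero_iff, norm_zero]
    exact Real.sqrt_nonneg _
  have h2 := finrank_perp hd hu
  refine ⟨convex_Icc _ _, ?_⟩
  intro y hy z hz a b ha hb' hab
  have hKc := hK.compact
  have bm := brunn_minkowski (V := ((ℝ ∙ u)ᗮ : Submodule ℝ V))
    ((slice_isCompact hKc u y).smul a) ((slice_isCompact hKc u z).smul b)
    ((hne y hy).smul_set) ((hne z hz).smul_set) (by omega)
  rw [h2, vol_smul_set, vol_smul_set, h2] at bm
  simp only [Nat.cast_ofNat] at bm
  rw [← Real.sqrt_eq_rpow, ← Real.sqrt_eq_rpow, ← Real.sqrt_eq_rpow,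
    Real.sqrt_mul (by (clear * -; positivity)), Real.sqrt_mul (by (clear * -; positivity)), Real.sqrt_sq (abs_nonneg _),
    Real.sqrt_sq (abs_nonneg _), abs_of_nonneg ha, abs_of_nonneg hb'] at bm
  simp only [smul_eq_mul]
  refine bm.trans (Real.sqrt_le_sqrt ?_)
  exact vol_mono (slice_isCompact hKc u _) (slice_combo_subset hK.convex u y z ha hb' hab)

theorem slice_ge (hd : finrank ℝ V = 3) {K : Set V} (hK : IsBody K)
    (hb : closedBall (0 : V) 1 ⊆ K) {u : V} (hu : ‖u‖ = 1) {y : ℝ} (hy : |y| ≤ 1) :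
    Real.pi * (1 - y ^ 2) ≤ vol (slice K u y) := by
  have h2 := finrank_perp hd hu
  have h0 : 0 ≤ 1 - y ^ 2 := by
    (clear * - hy; linarith only [mul_eq_zero_of_left (sub_eq_zero.2 (sq_abs y)) (|y| - (0)), mul_eq_zero_of_left (sub_eq_zero.2 (sq_abs y)) (1 - (|y|)), mul_nonneg (sub_nonneg.2 hy) (sub_nonneg.2 (abs_nonneg y)), mul_nonneg (sub_nonneg.2 hy) (sub_nonneg.2 hy)])
  have h := vol_mono (slice_isCompact hK.compact u y) (closedBall_subset_slice hb hu hy)
  refine le_trans (le_of_eq ?_) h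
  have : Nontrivial ((ℝ ∙ u)ᗮ : Submodule ℝ V) :=
    Module.nontrivial_of_finrank_pos (R := ℝ) (by omega)
  unfold vol
  rw [InnerProductSpace.volume_closedBall_of_dim_even (k := 1) (by omega), h2]
  rw [ENNReal.toReal_mul, ENNReal.toReal_pow, ENNReal.toReal_ofReal (Real.sqrt_nonneg _),
    Real.sq_sqrt h0, ENNReal.toReal_ofReal (by positivity)]
  simp only [pow_one, Nat.factorial_one, Nat.cast_one, div_one]
  ring

theorem integral_slice {K : Set V} (hK : IsCompact K) {u : V} (hu : ‖u‖ = 1) (g : ℝ → ℝ)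
    (hg : Continuous g) :
    ∫ x in K, g (inner ℝ x u) = ∫ y : ℝ, g y * vol (slice K u y) := by
  have hm : MeasurableSet K := hK.measurableSet
  rw [← integral_indicator hm, integral_eq_integral_prod u hu]
  have hint : Integrable (fun x : V => K.indicator (fun x => g (inner ℝ x u)) x) := by
    rw [integrable_indicator_iff hm]
    exact (hg.comp (continuous_id.inner continuous_const)).continuousOn.integrableOn_compact hK
  have hint2 : Integrable (fun p : ℝ × ((ℝ ∙ u)ᗮ : Submodule ℝ V) =>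
      K.indicator (fun x => g (inner ℝ x u)) ((p.2 : V) + p.1 • u)) := by
    have := ((prodEquiv_measurePreserving u hu).integrable_comp_emb
      (prodEquiv u hu).measurableEmbedding).2 hint
    refine this.congr (Filter.Eventually.of_forall fun p => ?_)
    simp only [Function.comp, prodEquiv_apply]
  rw [Measure.volume_eq_prod] at hint2 ⊢
  rw [integral_prod _ hint2]
  refine integral_congr_ae (Filter.Eventually.of_forall fun y => ?_)
  show ∫ z : ((ℝ ∙ u)ᗮ : Submodule ℝ V), K.indicator (fun x => g (inner ℝ x u)) ((z : V) + y • u)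
    = g y * vol (slice K u y)
  have e : (fun z : ((ℝ ∙ u)ᗮ : Submodule ℝ V) =>
      K.indicator (fun x => g (inner ℝ x u)) ((z : V) + y • u)) =
      (slice K u y).indicator (fun _ => g y) := by
    funext z
    by_cases hz : (z : V) + y • u ∈ K
    · rw [indicator_of_mem hz, indicator_of_mem (show z ∈ slice K u y from hz),
        inner_prod_point hu]
    · rw [indicator_of_notMem hz, indicator_of_notMem (show z ∉ slice K u y from hz)]
  rw [e, integral_indicator (slice_isCompact hK u y).measurableSet, setIntegral_const,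
    smul_eq_mul, mul_comm]
  rfl

end Vale.Agent.P237
end

section

/-!
Volume of `K + [0, t u]`, and the basic properties of `beta`.
-/

open MeasureTheory Metric Set Module
open scoped Pointwise

namespace Vale.Agent.P237

variable {V : Type*} [NormedAddCommGroup V] [InnerProductSpace ℝ V] [FiniteDimensional ℝ V]
  [MeasurableSpace V] [BorelSpace V]

/-! ### fibres -/

omit [FiniteDimensional ℝ V] [MeasurableSpace V] [BorelSpace V] in
theorem fibre_isCompact {K : Set V} (hK : IsCompact K) {u : V} (hu : ‖u‖ = 1)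
    (z : ((ℝ ∙ u)ᗮ : Submodule ℝ V)) : IsCompact {y : ℝ | (z : V) + y • u ∈ K} := by
  refine Metric.isCompact_of_isClosed_isBounded ?_ ?_
  · exact hK.isClosed.preimage (by fun_prop)
  · refine (hK.image (f := fun x : V => (inner ℝ x u : ℝ)) (by (clear * -; fun_prop))).isBounded.subset ?_
    intro y hy
    exact ⟨_, hy, inner_prod_point hu z y⟩

omit [FiniteDimensional ℝ V] [MeasurableSpace V] [BorelSpace V] in
theorem fibre_convex {K : Set V} (hc : Convex ℝ K) {u : V}
    (z : ((ℝ ∙ u)ᗮ : Submodule ℝ V)) : Convex ℝ {y : ℝ | (z : V) + y • u ∈ K} := by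
  intro x hx y hy a b ha hb hab
  have h := hc hx hy ha hb hab
  have h2 : a • ((z : V) + x • u) + b • ((z : V) + y • u) = (z : V) + (a • x + b • y) • u := by
    have : (z : V) = (a + b) • (z : V) := by rw [hab, one_smul]
    rw [smul_add, smul_add, smul_smul, smul_smul, add_smul, smul_eq_mul, smul_eq_mul]
    nth_rewrite 3 [this]
    rw [add_smul]
    abel
  rw [h2] at h
  exact h

omit [FiniteDimensional ℝ V] [MeasurableSpace V] [BorelSpace V] in
theorem segment_eq_image_smul (v : V) : segment ℝ 0 v = (fun r : ℝ => r • v) '' Icc 0 1 := by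
  rw [segment_eq_image']
  simp only [sub_zero, zero_add]

omit [FiniteDimensional ℝ V] [MeasurableSpace V] [BorelSpace V] in
theorem segment_smul_eq_image {t : ℝ} (ht : 0 ≤ t) (v : V) :
    segment ℝ 0 (t • v) = (fun r : ℝ => r • v) '' Icc 0 t := by
  rw [segment_eq_image_smul]
  ext x
  constructor
  · rintro ⟨r, hr, rfl⟩
    refine ⟨r * t, ⟨mul_nonneg hr.1 ht, ?_⟩, ?_⟩
    · exact mul_le_of_le_one_left ht hr.2
    · simp only [smul_smul]
  · rintro ⟨r, hr, rfl⟩
    rcases ht.eq_or_lt with h | h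
    · have hr0 : r = 0 := le_antisymm (by rw [h]; exact hr.2) hr.1
      exact ⟨0, ⟨le_rfl, zero_le_one⟩, by simp [hr0]⟩
    · refine ⟨r / t, ⟨div_nonneg hr.1 ht, (div_le_one h).mpr hr.2⟩, ?_⟩
      show (r / t) • t • v = r • v
      rw [smul_smul, div_mul_cancel₀ _ h.ne']

omit [FiniteDimensional ℝ V] [MeasurableSpace V] [BorelSpace V] in
theorem isCompact_segment' (v w : V) : IsCompact (segment ℝ v w) := by
  rw [segment_eq_image]
  exact isCompact_Icc.image (by (clear * -; (clear * -; fun_prop)))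

omit [FiniteDimensional ℝ V] [MeasurableSpace V] [BorelSpace V] in
theorem fibre_add_segment (K : Set V) {u : V} {t : ℝ} (ht : 0 ≤ t)
    (z : ((ℝ ∙ u)ᗮ : Submodule ℝ V)) :
    {y : ℝ | (z : V) + y • u ∈ K + segment ℝ 0 (t • u)}
      = {y : ℝ | (z : V) + y • u ∈ K} + Icc 0 t := by
  ext y
  show (z : V) + y • u ∈ K + segment ℝ 0 (t • u) ↔ _
  rw [segment_smul_eq_image ht, Set.mem_add, Set.mem_add]
  constructor
  · rintro ⟨a, ha, b, ⟨r, hr, rfl⟩, hab⟩
    refine ⟨y - r, ?_, r, hr, by ring⟩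
    show (z : V) + (y - r) • u ∈ K
    have : (z : V) + (y - r) • u = a := by
      rw [sub_smul]
      have h2 : a + r • u = (z : V) + y • u := hab
      rw [← add_sub_assoc, ← h2]
      abel
    rw [this]
    exact ha
  · rintro ⟨x, hx, r, hr, rfl⟩
    refine ⟨(z : V) + x • u, hx, r • u, ⟨r, hr, rfl⟩, ?_⟩
    rw [add_smul]
    abel

theorem fibre_nonempty_iff (K : Set V) {u : V} (hu : ‖u‖ = 1)
    (z : ((ℝ ∙ u)ᗮ : Submodule ℝ V)) :
    {y : ℝ | (z : V) + y • u ∈ K}.Nonempty ↔
      z ∈ (ℝ ∙ u)ᗮ.orthogonalProjectionOnto '' K := by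
  constructor
  · rintro ⟨y, hy⟩
    exact ⟨_, hy, proj_prod_point z y⟩
  · rintro ⟨x, hx, rfl⟩
    refine ⟨inner ℝ x u, ?_⟩
    show _ ∈ K
    rw [← eq_prod_point hu x]
    exact hx

theorem volume_interval_add {F : Set ℝ} (hF : IsCompact F) (hc : Convex ℝ F) (hne : F.Nonempty)
    {t : ℝ} (ht : 0 ≤ t) : volume (F + Icc 0 t) = volume F + ENNReal.ofReal t := by
  have hconn : IsConnected F := ⟨hne, hc.isPreconnected⟩
  rw [eq_Icc_of_connected_compact hconn hF]
  have hle : sInf F ≤ sSup F := by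
    obtain ⟨x, hx⟩ := hne
    exact (csInf_le hF.bddBelow hx).trans (le_csSup hF.bddAbove hx)
  rw [Set.Icc_add_Icc hle ht, Real.volume_Icc, Real.volume_Icc, ← ENNReal.ofReal_add (by linarith only [hle]) ht]
  congr 1
  ring

/-! ### the main formula -/

theorem volume_add_segment {K : Set V} (hK : IsCompact K) (hc : Convex ℝ K) {u : V}
    (hu : ‖u‖ = 1) {t : ℝ} (ht : 0 ≤ t) :
    volume (K + segment ℝ 0 (t • u)) = volume K +
      ENNReal.ofReal t * volume ((ℝ ∙ u)ᗮ.orthogonalProjectionOnto '' K) := by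
  have hP : MeasurableSet ((ℝ ∙ u)ᗮ.orthogonalProjectionOnto '' K) :=
    (hK.image (by (clear * -; continuity))).isClosed.measurableSet
  have h1 : ∀ z : ((ℝ ∙ u)ᗮ : Submodule ℝ V),
      volume {y : ℝ | (z : V) + y • u ∈ K + segment ℝ 0 (t • u)}
        = volume {y : ℝ | (z : V) + y • u ∈ K}
          + ((ℝ ∙ u)ᗮ.orthogonalProjectionOnto '' K).indicator (fun _ => ENNReal.ofReal t) z := by
    intro z
    rw [fibre_add_segment K ht z]
    by_cases hz : z ∈ (ℝ ∙ u)ᗮ.orthogonalProjectionOnto '' K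
    · rw [indicator_of_mem hz]
      exact volume_interval_add (fibre_isCompact hK hu z) (fibre_convex hc z)
        ((fibre_nonempty_iff K hu z).mpr hz) ht
    · rw [indicator_of_notMem hz]
      have h2 : {y : ℝ | (z : V) + y • u ∈ K} = ∅ := by
        rw [← Set.not_nonempty_iff_eq_empty, fibre_nonempty_iff K hu z]
        exact hz
      rw [h2]
      simp only [empty_add, measure_empty, add_zero]
  rw [volume_eq_lintegral_fibre u hu (hK.add (isCompact_segment' _ _)).isClosed.measurableSet,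
    volume_eq_lintegral_fibre u hu hK.isClosed.measurableSet]
  simp_rw [h1]
  rw [lintegral_add_right _ (measurable_const.indicator hP), lintegral_indicator_const hP]

theorem shadow_nonneg (K : Set V) (u : V) : 0 ≤ shadow K u := ENNReal.toReal_nonneg

theorem volume_proj_ne_top {K : Set V} (hK : IsCompact K) (u : V) :
    volume ((ℝ ∙ u)ᗮ.orthogonalProjectionOnto '' K) ≠ ⊤ :=
  (hK.image (by (clear * -; continuity))).measure_lt_top.ne

theorem vol_add_segment {K : Set V} (hK : IsCompact K) (hc : Convex ℝ K) {u : V} (hu : ‖u‖ = 1)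
    {t : ℝ} (ht : 0 ≤ t) : vol (K + segment ℝ 0 (t • u)) = vol K + t * shadow K u := by
  unfold vol shadow
  rw [volume_add_segment hK hc hu ht, ENNReal.toReal_add hK.measure_lt_top.ne
    (ENNReal.mul_ne_top ENNReal.ofReal_ne_top (volume_proj_ne_top hK u)), ENNReal.toReal_mul,
    ENNReal.toReal_ofReal ht]

theorem beta_smul_unit {K : Set V} (hK : IsCompact K) (hc : Convex ℝ K) {u : V} (hu : ‖u‖ = 1)
    {t : ℝ} (ht : 0 ≤ t) : beta K (t • u) = t * shadow K u := by
  unfold beta
  rw [vol_add_segment hK hc hu ht]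
  ring

theorem beta_unit {K : Set V} (hK : IsCompact K) (hc : Convex ℝ K) {u : V} (hu : ‖u‖ = 1) :
    beta K u = shadow K u := by
  have h := beta_smul_unit hK hc hu zero_le_one
  rwa [one_smul, one_mul] at h

theorem beta_zero (K : Set V) : beta K 0 = 0 := by
  unfold beta
  rw [segment_same, Set.singleton_zero, add_zero, sub_self]

omit [FiniteDimensional ℝ V] [MeasurableSpace V] [BorelSpace V] in
theorem norm_smul_unit {v : V} (hv : v ≠ 0) : ‖v‖ • (‖v‖⁻¹ • v) = v := by
  rw [smul_smul, mul_inv_cancel₀ (norm_ne_zero_iff.mpr hv), one_smul]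

omit [FiniteDimensional ℝ V] [MeasurableSpace V] [BorelSpace V] in
theorem norm_unit {v : V} (hv : v ≠ 0) : ‖(‖v‖⁻¹ • v)‖ = 1 := by
  rw [norm_smul, norm_inv, norm_norm, inv_mul_cancel₀ (norm_ne_zero_iff.mpr hv)]

theorem beta_eq_norm_mul {K : Set V} (hK : IsCompact K) (hc : Convex ℝ K) {v : V} (hv : v ≠ 0) :
    beta K v = ‖v‖ * shadow K (‖v‖⁻¹ • v) := by
  conv_lhs => rw [← norm_smul_unit hv]
  exact beta_smul_unit hK hc (norm_unit hv) (norm_nonneg v)

theorem volume_image_add_left (a : V) (s : Set V) : volume ((fun x => a + x) '' s) = volume s := by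
  rw [image_add_left]
  exact measure_preimage_add _ _ _

theorem vol_image_add_left (a : V) (s : Set V) : vol ((fun x => a + x) '' s) = vol s := by
  unfold vol
  rw [volume_image_add_left]

theorem beta_neg (K : Set V) (v : V) : beta K (-v) = beta K v := by
  unfold beta
  have h : K + segment ℝ 0 (-v) = (fun x => -v + x) '' (K + segment ℝ 0 v) := by
    ext x
    rw [segment_symm ℝ 0 v]
    constructor
    · rintro ⟨k, hk, s, hs, rfl⟩
      refine ⟨k + (v + s), ⟨k, hk, v + s, ?_, rfl⟩, ?_⟩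
      · have h2 := (segment_translate_image ℝ v 0 (-v))
        have h3 : v + s ∈ (fun x => v + x) '' segment ℝ 0 (-v) := ⟨s, hs, rfl⟩
        rw [h2] at h3
        simpa using h3
      · show -v + (k + (v + s)) = k + s
        module
    · rintro ⟨y, ⟨k, hk, s, hs, rfl⟩, rfl⟩
      refine ⟨k, hk, -v + s, ?_, ?_⟩
      · have h2 := (segment_translate_image ℝ (-v) v 0)
        have h3 : -v + s ∈ (fun x => -v + x) '' segment ℝ v 0 := ⟨s, hs, rfl⟩
        rw [h2] at h3
        simpa only [neg_add_cancel, add_zero] using h3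
      · show k + (-v + s) = -v + (k + s)
        module
  rw [h, vol_image_add_left]

theorem beta_smul_of_nonneg {K : Set V} (hK : IsCompact K) (hc : Convex ℝ K) {t : ℝ}
    (ht : 0 ≤ t) (v : V) : beta K (t • v) = t * beta K v := by
  by_cases hv : v = 0
  · rw [hv, smul_zero, beta_zero, mul_zero]
  · rw [beta_eq_norm_mul hK hc hv]
    conv_lhs => rw [← norm_smul_unit hv, smul_smul]
    rw [beta_smul_unit hK hc (norm_unit hv) (mul_nonneg ht (norm_nonneg v)), mul_assoc]

theorem beta_smul {K : Set V} (hK : IsCompact K) (hc : Convex ℝ K) (t : ℝ) (v : V) :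
    beta K (t • v) = |t| * beta K v := by
  rcases le_total 0 t with ht | ht
  · rw [abs_of_nonneg ht, beta_smul_of_nonneg hK hc ht]
  · rw [abs_of_nonpos ht, ← beta_neg K (t • v), ← neg_smul,
      beta_smul_of_nonneg hK hc (neg_nonneg.mpr ht)]

theorem beta_nonneg {K : Set V} (hK : IsCompact K) (hc : Convex ℝ K) (v : V) :
    0 ≤ beta K v := by
  by_cases hv : v = 0
  · rw [hv, beta_zero]
  · rw [beta_eq_norm_mul hK hc hv]
    exact mul_nonneg (norm_nonneg _) (shadow_nonneg _ _)

theorem shadow_mono {K L : Set V} (hL : IsCompact L) (h : K ⊆ L) (u : V) :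
    shadow K u ≤ shadow L u := by
  unfold shadow
  exact ENNReal.toReal_mono (volume_proj_ne_top hL u) (measure_mono (image_mono h))

theorem beta_mono {K L : Set V} (hK : IsCompact K) (hc : Convex ℝ K) (hL : IsCompact L)
    (hcL : Convex ℝ L) (h : K ⊆ L) (v : V) : beta K v ≤ beta L v := by
  by_cases hv : v = 0
  · rw [hv, beta_zero, beta_zero]
  · rw [beta_eq_norm_mul hK hc hv, beta_eq_norm_mul hL hcL hv]
    exact mul_le_mul_of_nonneg_left (shadow_mono hL h _) (norm_nonneg _)

omit [FiniteDimensional ℝ V] [MeasurableSpace V] [BorelSpace V] in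
theorem image_segment_zero {W : Type*} [NormedAddCommGroup W] [InnerProductSpace ℝ W]
    (f : V →ₗ[ℝ] W) (v : V) : f '' segment ℝ 0 v = segment ℝ 0 (f v) := by
  have h := image_segment ℝ f.toAffineMap 0 v
  simpa using h

omit [FiniteDimensional ℝ V] [MeasurableSpace V] [BorelSpace V] in
theorem image_add_segment {W : Type*} [NormedAddCommGroup W] [InnerProductSpace ℝ W]
    (f : V →ₗ[ℝ] W) (K : Set V) (v : V) :
    f '' (K + segment ℝ 0 v) = f '' K + segment ℝ 0 (f v) := by
  rw [Set.image_add, image_segment_zero]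

theorem shadow_add_segment {K : Set V} (hK : IsCompact K) (hc : Convex ℝ K) (u v : V) {s : ℝ}
    (hs : 0 ≤ s) : shadow (K + segment ℝ 0 (s • v)) u = shadow K u +
      s * beta ((ℝ ∙ u)ᗮ.orthogonalProjectionOnto '' K) ((ℝ ∙ u)ᗮ.orthogonalProjectionOnto v) := by
  have hcP : Convex ℝ ((ℝ ∙ u)ᗮ.orthogonalProjectionOnto '' K) :=
    hc.linear_image ((ℝ ∙ u)ᗮ.orthogonalProjectionOnto : V →ₗ[ℝ] ((ℝ ∙ u)ᗮ : Submodule ℝ V))
  have hKP : IsCompact ((ℝ ∙ u)ᗮ.orthogonalProjectionOnto '' K) := hK.image (by (clear * -; (clear * -; continuity)))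
  rw [← beta_smul_of_nonneg hKP hcP hs]
  unfold shadow beta vol
  have h := image_add_segment
    ((ℝ ∙ u)ᗮ.orthogonalProjectionOnto : V →ₗ[ℝ] ((ℝ ∙ u)ᗮ : Submodule ℝ V)) K (s • v)
  rw [map_smul] at h
  have h' : (ℝ ∙ u)ᗮ.orthogonalProjectionOnto '' (K + segment ℝ 0 (s • v))
    = (ℝ ∙ u)ᗮ.orthogonalProjectionOnto '' K
      + segment ℝ 0 (s • (ℝ ∙ u)ᗮ.orthogonalProjectionOnto v) := h
  rw [h']
  ring

theorem beta_add_le {K : Set V} (hK : IsCompact K) (hc : Convex ℝ K) (v w : V) :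
    beta K (v + w) ≤ beta K v + beta K w := by
  by_cases hw : w = 0
  · rw [hw, add_zero, beta_zero, add_zero]
  set u : V := ‖w‖⁻¹ • w with hu
  set β : ℝ := beta ((ℝ ∙ u)ᗮ.orthogonalProjectionOnto '' K)
    ((ℝ ∙ u)ᗮ.orthogonalProjectionOnto v) with hβ
  have hcP : Convex ℝ ((ℝ ∙ u)ᗮ.orthogonalProjectionOnto '' K) :=
    hc.linear_image ((ℝ ∙ u)ᗮ.orthogonalProjectionOnto : V →ₗ[ℝ] ((ℝ ∙ u)ᗮ : Submodule ℝ V))
  have hKP : IsCompact ((ℝ ∙ u)ᗮ.orthogonalProjectionOnto '' K) := hK.image (by (clear * -; continuity))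
  have hβ0 : 0 ≤ β := beta_nonneg hKP hcP _
  have key : ∀ s : ℝ, 0 < s → beta K (v + w) ≤ beta K v + beta K w + s * (‖w‖ * β) := by
    intro s hs
    have hK' : IsCompact (K + segment ℝ 0 (s • v)) := hK.add (isCompact_segment' _ _)
    have hc' : Convex ℝ (K + segment ℝ 0 (s • v)) := hc.add (convex_segment _ _)
    have h1 : s * beta K (v + w) ≤ s * (beta K v + beta K w + s * (‖w‖ * β)) := by
      have hsub : K + segment ℝ 0 (s • (v + w)) ⊆
          (K + segment ℝ 0 (s • v)) + segment ℝ 0 (s • w) := by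
        rw [add_assoc]
        refine Set.add_subset_add_left ?_
        rw [smul_add]
        intro x hx
        rw [segment_eq_image_smul] at hx
        obtain ⟨r, hr, rfl⟩ := hx
        refine ⟨r • (s • v), ?_, r • (s • w), ?_, ?_⟩
        · rw [segment_eq_image_smul]; exact ⟨r, hr, rfl⟩
        · rw [segment_eq_image_smul]; exact ⟨r, hr, rfl⟩
        · show r • s • v + r • s • w = r • (s • v + s • w)
          rw [smul_add]
      have h2 : vol (K + segment ℝ 0 (s • (v + w))) ≤
          vol ((K + segment ℝ 0 (s • v)) + segment ℝ 0 (s • w)) := by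
        unfold vol
        exact ENNReal.toReal_mono (hK'.add (isCompact_segment' _ _)).measure_lt_top.ne
          (measure_mono hsub)
      have h3 : beta K (s • (v + w)) = s * beta K (v + w) := beta_smul_of_nonneg hK hc hs.le _
      have h4 : beta K (s • v) = s * beta K v := beta_smul_of_nonneg hK hc hs.le _
      have h5 : beta (K + segment ℝ 0 (s • v)) (s • w)
          = s * beta (K + segment ℝ 0 (s • v)) w := beta_smul_of_nonneg hK' hc' hs.le _
      have h6 : beta (K + segment ℝ 0 (s • v)) w = beta K w + s * (‖w‖ * β) := by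
        rw [beta_eq_norm_mul hK' hc' hw, beta_eq_norm_mul hK hc hw, ← hu,
          shadow_add_segment hK hc u v hs.le]
        ring
      rw [← h3]
      rw [h6] at h5
      have h7 : beta K (s • (v + w)) = vol (K + segment ℝ 0 (s • (v + w))) - vol K := rfl
      have h8 : beta K (s • v) = vol (K + segment ℝ 0 (s • v)) - vol K := rfl
      have h9 : beta (K + segment ℝ 0 (s • v)) (s • w) =
        vol ((K + segment ℝ 0 (s • v)) + segment ℝ 0 (s • w))
          - vol (K + segment ℝ 0 (s • v)) := rfl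
      (clear hw hu hβ hcP hKP hβ0 hc' h3 h6; linarith only [h9, h8, h7, h5, h4, h2])
    exact le_of_mul_le_mul_left h1 hs
  refine le_of_forall_pos_le_add fun ε hε => ?_
  have hc0 : 0 ≤ ‖w‖ * β := mul_nonneg (norm_nonneg _) hβ0
  have h1 := key (ε / (‖w‖ * β + 1)) (by (clear * - hε hw hβ0; (clear * - hε hw hβ0; positivity)))
  have h2 : ε / (‖w‖ * β + 1) * (‖w‖ * β) ≤ ε := by
    rw [div_mul_eq_mul_div, div_le_iff₀ (by (clear * - hw hβ0; positivity))]
    linarith only [hε]
  linarith only [h2, h1]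

theorem vol_image_linearEquiv (T : V ≃ₗ[ℝ] V) (K : Set V) :
    vol (T '' K) = |LinearMap.det (T : V →ₗ[ℝ] V)| * vol K := by
  unfold vol
  have h := Measure.addHaar_image_linearMap (volume : Measure V) (T : V →ₗ[ℝ] V) K
  have h' : volume (T '' K) = ENNReal.ofReal |LinearMap.det (T : V →ₗ[ℝ] V)| * volume K := h
  rw [h', ENNReal.toReal_mul, ENNReal.toReal_ofReal (abs_nonneg _)]

theorem beta_image (T : V ≃ₗ[ℝ] V) (K : Set V) (v : V) :
    beta (T '' K) (T v) = |LinearMap.det (T : V →ₗ[ℝ] V)| * beta K v := by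
  unfold beta
  have h : T '' (K + segment ℝ 0 v) = T '' K + segment ℝ 0 (T v) :=
    image_add_segment (T : V →ₗ[ℝ] V) K v
  rw [← h, vol_image_linearEquiv, vol_image_linearEquiv]
  ring

theorem beta_translate (K : Set V) (a v : V) : beta ((fun x => a + x) '' K) v = beta K v := by
  unfold beta
  have h : (fun x => a + x) '' K + segment ℝ 0 v = (fun x => a + x) '' (K + segment ℝ 0 v) := by
    ext x
    constructor
    · rintro ⟨_, ⟨k, hk, rfl⟩, s, hs, rfl⟩
      exact ⟨k + s, ⟨k, hk, s, hs, rfl⟩, by simp only [add_assoc]⟩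
    · rintro ⟨_, ⟨k, hk, s, hs, rfl⟩, rfl⟩
      exact ⟨a + k, ⟨k, hk, rfl⟩, s, hs, by simp only [add_assoc]⟩
  rw [h, vol_image_add_left, vol_image_add_left]

theorem vol_smul_set_of_nonneg {r : ℝ} (hr : 0 ≤ r) (S : Set V) :
    vol (r • S) = r ^ finrank ℝ V * vol S := by
  unfold vol
  rw [Measure.addHaar_smul_of_nonneg _ hr, ENNReal.toReal_mul,
    ENNReal.toReal_ofReal (by positivity)]

theorem beta_smul_set {K : Set V} (hK : IsCompact K) (hc : Convex ℝ K) {r : ℝ} (hr : 0 < r)
    (v : V) : beta (r • K) v = r ^ (finrank ℝ V - 1) * beta K v := by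
  by_cases hd : finrank ℝ V = 0
  · have : Subsingleton V := finrank_zero_iff.mp hd
    rw [Subsingleton.elim v 0, beta_zero, beta_zero, mul_zero]
  · have h1 : r • K + segment ℝ 0 v = r • (K + segment ℝ 0 (r⁻¹ • v)) := by
      have h2 : segment ℝ 0 v = r • segment ℝ 0 (r⁻¹ • v) := by
        have h3 := image_segment_zero (LinearMap.lsmul ℝ V r) (r⁻¹ • v)
        simp only [LinearMap.lsmul_apply] at h3
        rw [smul_smul, mul_inv_cancel₀ hr.ne', one_smul] at h3
        rw [← h3]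
        rfl
      rw [smul_add, ← h2]
    have h4 : vol (K + segment ℝ 0 (r⁻¹ • v)) = vol K + r⁻¹ * beta K v := by
      have h5 := beta_smul_of_nonneg hK hc (inv_nonneg.mpr hr.le) v
      have h6 : beta K (r⁻¹ • v) = vol (K + segment ℝ 0 (r⁻¹ • v)) - vol K := rfl
      linarith
    show vol (r • K + segment ℝ 0 v) - vol (r • K) = _
    rw [h1, vol_smul_set_of_nonneg hr.le, vol_smul_set_of_nonneg hr.le, h4]
    obtain ⟨n, hn⟩ : ∃ n, finrank ℝ V = n + 1 := Nat.exists_eq_succ_of_ne_zero hd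
    rw [hn, Nat.add_sub_cancel, pow_succ]
    field_simp
    ring

theorem shadow_pos {K : Set V} (hK : IsBody K) (u : V) : 0 < shadow K u := by
  unfold shadow
  refine ENNReal.toReal_pos ?_ (volume_proj_ne_top hK.compact u)
  have hsurj : Function.Surjective (ℝ ∙ u)ᗮ.orthogonalProjectionOnto := fun z =>
    ⟨z, Submodule.orthogonalProjectionOnto_mem_subspace_eq_self z⟩
  have hopen : IsOpen ((ℝ ∙ u)ᗮ.orthogonalProjectionOnto '' interior K) :=
    ((ℝ ∙ u)ᗮ.orthogonalProjectionOnto).isOpenMap hsurj _ isOpen_interior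
  have h1 := hopen.measure_pos volume (hK.int.image _)
  exact (lt_of_lt_of_le h1 (measure_mono (image_mono interior_subset))).ne'

theorem beta_pos {K : Set V} (hK : IsBody K) {v : V} (hv : v ≠ 0) : 0 < beta K v := by
  rw [beta_eq_norm_mul hK.compact hK.convex hv]
  exact mul_pos (norm_pos_iff.mpr hv) (shadow_pos hK _)

end Vale.Agent.P237
end

section

/-!
# P237: the Euclidean ball
-/

open MeasureTheory Metric Set Module
open scoped Pointwise

namespace Vale.Agent.P237

variable {V : Type*} [NormedAddCommGroup V] [InnerProductSpace ℝ V] [FiniteDimensional ℝ V]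
  [MeasurableSpace V] [BorelSpace V]

theorem vol_ball3 (hd : finrank ℝ V = 3) : vol (closedBall (0 : V) 1) = 4 * Real.pi / 3 := by
  unfold vol
  rw [InnerProductSpace.volume_closedBall_of_dim_odd (k := 1) (by omega) (0 : V) 1, hd]
  have h0 : (0 : ℝ) ≤ Real.pi ^ 1 * 2 ^ (1 + 1) / ((Nat.doubleFactorial 3 : ℕ) : ℝ) := by positivity
  simp only [ENNReal.ofReal_one, one_pow, one_mul]
  rw [ENNReal.toReal_ofReal h0]
  norm_num [Nat.doubleFactorial]
  ring

theorem vol_ball2 (hd : finrank ℝ V = 2) : vol (closedBall (0 : V) 1) = Real.pi := by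
  haveI : Nontrivial V := Module.nontrivial_of_finrank_pos (R := ℝ) (by omega)
  unfold vol
  rw [InnerProductSpace.volume_closedBall_of_dim_even (k := 1) (by omega) (0 : V) 1, hd]
  have h0 : (0 : ℝ) ≤ Real.pi ^ 1 / ((Nat.factorial 1 : ℕ) : ℝ) := by positivity
  simp only [ENNReal.ofReal_one, one_pow, one_mul]
  rw [ENNReal.toReal_ofReal h0]
  simp

omit [MeasurableSpace V] [BorelSpace V] in
theorem isSymBody_ball : IsSymBody (closedBall (0 : V) 1) where
  convex := convex_closedBall _ _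
  compact := isCompact_closedBall _ _
  int := ⟨0, mem_interior.2 ⟨ball 0 1, ball_subset_closedBall, isOpen_ball, mem_ball_self one_pos⟩⟩
  symm := fun x hx => by simpa using hx

omit [MeasurableSpace V] [BorelSpace V] in
theorem proj_ball (u : V) :
    ((ℝ ∙ u)ᗮ : Submodule ℝ V).orthogonalProjectionOnto '' closedBall (0 : V) 1 =
      closedBall (0 : ((ℝ ∙ u)ᗮ : Submodule ℝ V)) 1 := by
  apply Subset.antisymm
  · rintro _ ⟨x, hx, rfl⟩
    rw [mem_closedBall_zero_iff] at hx ⊢
    exact (Submodule.norm_orthogonalProjectionOnto_apply_le _ x).trans hx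
  · intro z hz
    refine ⟨(z : V), ?_, ?_⟩
    · rw [mem_closedBall_zero_iff] at hz ⊢
      exact hz
    · simp

theorem shadow_ball (u : V) :
    shadow (closedBall (0 : V) 1) u = vol (closedBall (0 : ((ℝ ∙ u)ᗮ : Submodule ℝ V)) 1) := by
  unfold shadow vol
  rw [proj_ball]

theorem projBody_ball_of {c : ℝ} (hc : 0 ≤ c)
    (h : ∀ u : V, ‖u‖ = 1 → shadow (closedBall (0 : V) 1) u = c) :
    projBody (closedBall (0 : V) 1) = closedBall 0 c := by
  ext y
  rw [mem_closedBall_zero_iff]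
  constructor
  · intro hy
    by_cases h0 : y = 0
    · rw [h0, norm_zero]; exact hc
    · have h1 := hy (‖y‖⁻¹ • y) (norm_unit h0)
      rw [h _ (norm_unit h0), inner_smul_right, real_inner_self_eq_norm_sq] at h1
      have hn : ‖y‖ ≠ 0 := norm_ne_zero_iff.2 h0
      calc ‖y‖ = ‖y‖⁻¹ * ‖y‖ ^ 2 := by field_simp
        _ ≤ c := h1
  · intro hy u hu
    rw [h u hu]
    calc inner ℝ y u ≤ ‖y‖ * ‖u‖ := real_inner_le_norm _ _
      _ = ‖y‖ := by rw [hu, mul_one]
      _ ≤ c := hy

theorem projBody_ball3 (hd : finrank ℝ V = 3) :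
    projBody (closedBall (0 : V) 1) = closedBall 0 Real.pi := by
  refine projBody_ball_of Real.pi_pos.le fun u hu => ?_
  rw [shadow_ball, vol_ball2 (finrank_perp hd hu)]

theorem ratio_ball3 (hd : finrank ℝ V = 3) :
    ratio (closedBall (0 : V) 1) = 3 * Real.pi ^ 2 / 4 := by
  unfold ratio
  have h1 : (closedBall (0 : V) Real.pi) = Real.pi • closedBall (0 : V) 1 := by
    rw [_root_.smul_closedBall _ _ zero_le_one, smul_zero, Real.norm_eq_abs, abs_of_pos Real.pi_pos,
      mul_one]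
  rw [projBody_ball3 hd, h1, vol_smul_set, hd, vol_ball3 hd, abs_of_pos Real.pi_pos]
  have := Real.pi_pos
  norm_num
  field_simp

/-- A body containing the unit ball with at most the volume of the unit ball is the unit ball. -/
theorem eq_ball_of_vol {K : Set V} (hK : IsBody K) (h1 : closedBall (0 : V) 1 ⊆ K)
    (h : vol K ≤ vol (closedBall (0 : V) 1)) : K = closedBall (0 : V) 1 := by
  have hfin : volume K ≠ ⊤ := hK.compact.measure_lt_top.ne
  have hfinB : volume (closedBall (0 : V) 1) ≠ ⊤ := measure_closedBall_lt_top.ne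
  have hle : volume K ≤ volume (closedBall (0 : V) 1) := (ENNReal.toReal_le_toReal hfin hfinB).1 h
  -- the open set `interior K \ B` is null
  have hnull : volume (interior K \ closedBall (0 : V) 1) = 0 := by
    have h2 : volume (K \ closedBall (0 : V) 1) = 0 := by
      rw [measure_sdiff h1 measurableSet_closedBall.nullMeasurableSet hfinB]
      exact tsub_eq_zero_of_le hle
    exact measure_mono_null (sdiff_subset_sdiff_left interior_subset) h2
  have hopen : IsOpen (interior K \ closedBall (0 : V) 1) :=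
    isOpen_interior.sdiff isClosed_closedBall
  have hempty : interior K \ closedBall (0 : V) 1 = ∅ := by
    by_contra hne
    exact (hopen.measure_pos _ (nonempty_iff_ne_empty.2 hne)).ne' hnull
  have hint : interior K ⊆ closedBall (0 : V) 1 := sdiff_eq_empty.1 hempty
  apply Subset.antisymm _ h1
  have hcl : closure (interior K) = closure K := hK.convex.closure_interior_eq_closure_of_nonempty_interior hK.int
  calc K ⊆ closure K := subset_closure
    _ = closure (interior K) := hcl.symm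
    _ ⊆ closedBall (0 : V) 1 := closure_minimal hint isClosed_closedBall

end Vale.Agent.P237
end

section

/-!
# P237, all dimensions: constants and profiles
-/

open MeasureTheory Metric Set Module

namespace Vale.Agent.P237.AllN

variable {V : Type*} [NormedAddCommGroup V] [InnerProductSpace ℝ V] [FiniteDimensional ℝ V]
  [MeasurableSpace V] [BorelSpace V]

/-- the integrals `∫_{-1}^1 (1-y²)^(k/2) dy` -/
noncomputable def aInt (k : ℕ) : ℝ := ∫ y in (-1 : ℝ)..1, Real.sqrt (1 - y ^ 2) ^ k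

/-- Petty's constant -/
noncomputable def RC (n : ℕ) : ℝ :=
  Statement.kappa (n - 1) ^ n * Statement.kappa n ^ (2 - (n : ℤ))

/-- The profile: the `m`-th root of the volume of the slices (`m` the dimension of `u^⊥`). -/
noncomputable def prof (K : Set V) (u : V) (m : ℕ) (y : ℝ) : ℝ :=
  vol (slice K u y) ^ (1 / (m : ℝ))

omit [FiniteDimensional ℝ V] [MeasurableSpace V] [BorelSpace V] in
theorem finrank_perp_gen {m : ℕ} (hd : finrank ℝ V = m + 1) {u : V} (hu : ‖u‖ = 1) :
    finrank ℝ ((ℝ ∙ u)ᗮ : Submodule ℝ V) = m := by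
  have hu0 : u ≠ 0 := by
    rintro rfl
    simp at hu
  have : Fact (finrank ℝ V = m + 1) := ⟨hd⟩
  exact Submodule.finrank_orthogonal_span_singleton hu0

end Vale.Agent.P237.AllN
end

section

/-!
# P237, all dimensions: the constants and the unit ball
-/

open MeasureTheory Metric Set Module
open scoped Pointwise

namespace Vale.Agent.P237.AllN

variable {V : Type*} [NormedAddCommGroup V] [InnerProductSpace ℝ V] [FiniteDimensional ℝ V]
  [MeasurableSpace V] [BorelSpace V]

theorem vol_unitBall {n : ℕ} (hd : finrank ℝ V = n) :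
    vol (closedBall (0 : V) 1) = Statement.kappa n := by
  subst hd
  have h := (stdOrthonormalBasis ℝ V).repr.measurePreserving
  have h1 : (stdOrthonormalBasis ℝ V).repr ⁻¹'
      (closedBall (0 : EuclideanSpace ℝ (Fin (finrank ℝ V))) 1) = closedBall (0 : V) 1 := by
    ext x
    simp
  unfold vol Statement.kappa Statement.vol
  rw [← h1, h.measure_preimage measurableSet_closedBall.nullMeasurableSet]

theorem kappa_pos (n : ℕ) : 0 < Statement.kappa n := by
  unfold Statement.kappa Statement.vol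
  refine ENNReal.toReal_pos ?_ measure_closedBall_lt_top.ne
  exact (measure_closedBall_pos _ _ one_pos).ne'

/-- volume of a ball of radius `r`. -/
theorem vol_ball_radius {n : ℕ} (hd : finrank ℝ V = n) {r : ℝ} (hr : 0 ≤ r) :
    vol (closedBall (0 : V) r) = r ^ n * Statement.kappa n := by
  rw [← vol_unitBall hd]
  have h1 : (closedBall (0 : V) r) = r • closedBall (0 : V) 1 := by
    rw [_root_.smul_closedBall _ _ zero_le_one, smul_zero, Real.norm_eq_abs, abs_of_nonneg hr,
      mul_one]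
  rw [h1, vol_smul_set, hd, abs_of_nonneg hr]

omit [FiniteDimensional ℝ V] [MeasurableSpace V] [BorelSpace V] in
/-- slices of the unit ball. -/
theorem slice_ball {u : V} (hu : ‖u‖ = 1) (y : ℝ) :
    slice (closedBall (0 : V) 1) u y =
      if |y| ≤ 1 then closedBall (0 : ((ℝ ∙ u)ᗮ : Submodule ℝ V)) (Real.sqrt (1 - y ^ 2)) else ∅ := by
  have key : ∀ z : ((ℝ ∙ u)ᗮ : Submodule ℝ V), z ∈ slice (closedBall (0 : V) 1) u y ↔
      ‖z‖ ^ 2 + y ^ 2 ≤ 1 := by
    intro z
    have h1 : ‖(z : V) + y • u‖ ^ 2 = ‖z‖ ^ 2 + y ^ 2 := by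
      have horth : inner ℝ (z : V) (y • u) = 0 := by
        rw [inner_smul_right, real_inner_comm,
          Submodule.mem_orthogonal_singleton_iff_inner_right.mp z.2, mul_zero]
      have := norm_add_sq_eq_norm_sq_add_norm_sq_real horth
      rw [norm_smul, hu, mul_one, Real.norm_eq_abs] at this
      rw [sq, this, Submodule.coe_norm, abs_mul_abs_self]
      ring
    have h2 : z ∈ slice (closedBall (0 : V) 1) u y ↔ ‖(z : V) + y • u‖ ≤ 1 := by
      change (z : V) + y • u ∈ closedBall (0 : V) 1 ↔ _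
      rw [mem_closedBall_zero_iff]
    rw [h2, ← h1, sq_le_one_iff₀ (norm_nonneg _)]
  ext z
  rw [key]
  split_ifs with hy
  · have h0 : 0 ≤ 1 - y ^ 2 := by nlinarith [abs_nonneg y, sq_abs y]
    rw [mem_closedBall_zero_iff, Real.le_sqrt (norm_nonneg _) h0]
    constructor <;> intro h <;> linarith
  · simp only [mem_empty_iff_false, iff_false, not_le]
    rw [not_le] at hy
    (by_contra nlg; linarith only [nlg, mul_nonneg (sub_nonneg.2 (abs_nonneg y)) (sq_nonneg ‖z‖), mul_eq_zero_of_left (sub_eq_zero.2 (sq_abs y)) (|y| - (0)), mul_nonneg (le_of_lt (sub_pos.2 hy)) (sq_nonneg ‖z‖), mul_eq_zero_of_left (sub_eq_zero.2 (sq_abs y)) (|y| - (1)), mul_pos (sub_pos.2 hy) (sub_pos.2 hy), mul_nonneg (sub_nonneg.2 (not_lt.1 nlg)) (sub_nonneg.2 (abs_nonneg y)), mul_nonneg (sub_nonneg.2 (not_lt.1 nlg)) (le_of_lt (sub_pos.2 hy)), mul_nonneg (sq_nonneg (y : ℝ)) (le_of_lt (sub_pos.2 hy))])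

theorem vol_slice_ball {m : ℕ} (hd : finrank ℝ V = m + 1) {u : V} (hu : ‖u‖ = 1) (y : ℝ) :
    vol (slice (closedBall (0 : V) 1) u y) =
      (Icc (-1 : ℝ) 1).indicator (fun y => Statement.kappa m * Real.sqrt (1 - y ^ 2) ^ m) y := by
  rw [slice_ball hu]
  split_ifs with hy
  · rw [indicator_of_mem (show y ∈ Icc (-1 : ℝ) 1 from abs_le.1 hy), vol_ball_radius (finrank_perp_gen hd hu)
      (Real.sqrt_nonneg _), mul_comm]
  · rw [indicator_of_notMem (fun h : y ∈ Icc (-1 : ℝ) 1 => hy (abs_le.2 h))]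
    unfold vol
    simp

theorem kappa_succ (m : ℕ) : Statement.kappa (m + 1) = Statement.kappa m * aInt m := by
  obtain ⟨u, hu⟩ : ∃ u : EuclideanSpace ℝ (Fin (m + 1)), ‖u‖ = 1 :=
    ⟨EuclideanSpace.single 0 1, by simp⟩
  have hd : finrank ℝ (EuclideanSpace ℝ (Fin (m + 1))) = m + 1 := by simp
  have h1 := integral_slice (isCompact_closedBall (0 : EuclideanSpace ℝ (Fin (m + 1))) 1) hu
    (fun _ => 1) continuous_const
  simp only [one_mul] at h1
  rw [setIntegral_const, smul_eq_mul, mul_one] at h1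
  have h2 : Statement.kappa (m + 1) = volume.real (closedBall (0 : EuclideanSpace ℝ (Fin (m + 1))) 1) :=
    rfl
  rw [h2, h1]
  have h3 : ∀ y : ℝ, vol (slice (closedBall (0 : EuclideanSpace ℝ (Fin (m + 1))) 1) u y) =
      (Icc (-1 : ℝ) 1).indicator (fun y => Statement.kappa m * Real.sqrt (1 - y ^ 2) ^ m) y :=
    fun y => vol_slice_ball hd hu y
  simp_rw [h3]
  rw [integral_indicator measurableSet_Icc, integral_Icc_eq_integral_Ioc, aInt,
    intervalIntegral.integral_of_le (by norm_num), ← integral_const_mul]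

theorem aInt_pos (k : ℕ) : 0 < aInt k := by
  have h := kappa_succ k
  have h1 := kappa_pos (k + 1)
  rw [h] at h1
  exact (mul_pos_iff_of_pos_left (kappa_pos k)).1 h1

theorem RC_eq {n : ℕ} (hn : 2 ≤ n) :
    RC n = Statement.kappa (n - 1) ^ n / Statement.kappa n ^ (n - 2) := by
  unfold RC
  have h : (2 - (n : ℤ)) = -((n - 2 : ℕ) : ℤ) := by omega
  rw [h, zpow_neg, zpow_natCast, div_eq_mul_inv]

theorem ratio_ball {n : ℕ} (hn : 2 ≤ n) (hd : finrank ℝ V = n) :
    ratio (closedBall (0 : V) 1) = RC n := by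
  obtain ⟨k, rfl⟩ : ∃ k, n = k + 2 := ⟨n - 2, by omega⟩
  unfold ratio
  have hp : projBody (closedBall (0 : V) 1) = closedBall 0 (Statement.kappa (k + 1)) := by
    refine projBody_ball_of (kappa_pos _).le fun u hu => ?_
    rw [shadow_ball, vol_unitBall (finrank_perp_gen hd hu)]
  rw [hp, vol_ball_radius hd (kappa_pos _).le, vol_unitBall hd, RC_eq hn, hd]
  have h := (kappa_pos (k + 2)).ne'
  simp only [show k + 2 - 1 = k + 1 by omega, show k + 2 - 2 = k by omega]
  rw [pow_succ (Statement.kappa (k + 2)) k]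
  field_simp

theorem RC_succ {m : ℕ} (hm : 2 ≤ m) :
    RC (m + 1) = RC m * (aInt (m - 1) ^ m / aInt m ^ (m - 1)) := by
  obtain ⟨k, rfl⟩ : ∃ k, m = k + 2 := ⟨m - 2, by omega⟩
  rw [RC_eq (by omega), RC_eq (by omega)]
  simp only [show k + 2 - 1 = k + 1 by omega, show k + 2 - 2 = k by omega,
    show k + 2 + 1 - 1 = k + 2 by omega, show k + 2 + 1 - 2 = k + 1 by omega]
  have h1 := kappa_succ (k + 1)
  have h2 := kappa_succ (k + 2)
  have p0 := (kappa_pos (k + 1)).ne'
  have a1 := (aInt_pos (k + 1)).ne'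
  have a2 := (aInt_pos (k + 2)).ne'
  rw [h2, h1]
  field_simp
  ring

end Vale.Agent.P237.AllN
end

section

/-!
# P237-F2, part 1: the planar formula for `beta`, slices of `K + [0,w]`, Riemann sums
-/

open MeasureTheory Metric Set Module
open scoped Pointwise

namespace Vale.Agent.P237

section General

variable {V : Type*} [NormedAddCommGroup V] [InnerProductSpace ℝ V] [FiniteDimensional ℝ V]
  [MeasurableSpace V] [BorelSpace V]

omit [FiniteDimensional ℝ V] [MeasurableSpace V] [BorelSpace V] in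
theorem le_supp {K : Set V} (hK : IsCompact K) (v : V) {x : V} (hx : x ∈ K) :
    inner ℝ x v ≤ supp K v := by
  have hc : Continuous (fun x : V => inner ℝ x v) := continuous_id.inner continuous_const
  exact le_csSup (hK.image hc).bddAbove (mem_image_of_mem _ hx)

omit [FiniteDimensional ℝ V] [MeasurableSpace V] [BorelSpace V] in
theorem exists_supp {K : Set V} (hK : IsCompact K) (hne : K.Nonempty) (v : V) :
    ∃ x ∈ K, inner ℝ x v = supp K v := by
  have hc : Continuous (fun x : V => inner ℝ x v) := continuous_id.inner continuous_const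
  have h := (hK.image hc).sSup_mem (hne.image _)
  exact h

/-- the width of a compact interval -/
theorem volume_compact_convex {S : Set ℝ} (hS : IsCompact S) (hc : Convex ℝ S)
    (hne : S.Nonempty) : volume S = ENNReal.ofReal (sSup S - sInf S) := by
  have h1 : S = Icc (sInf S) (sSup S) := by
    apply Subset.antisymm
    · intro x hx
      exact ⟨csInf_le hS.bddBelow hx, le_csSup hS.bddAbove hx⟩
    · exact hc.ordConnected.out (hS.sInf_mem hne) (hS.sSup_mem hne)
  conv_lhs => rw [h1]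
  rw [Real.volume_Icc]

omit [FiniteDimensional ℝ V] [MeasurableSpace V] [BorelSpace V] in
theorem sInf_image_inner {K : Set V} (v : V) :
    sInf ((fun x => inner ℝ x v) '' K) = - supp K (-v) := by
  unfold supp
  have : (fun x : V => inner ℝ x (-v)) '' K = -((fun x : V => inner ℝ x v) '' K) := by
    rw [← Set.image_neg_eq_neg, image_image]
    simp only [inner_neg_right]
  rw [this, Real.sInf_def]

/-- The planar formula: the shadow of a compact convex set along a unit vector `e` is its width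
in the orthogonal direction. -/
theorem shadow_plane (h2 : finrank ℝ V = 2) {C : Set V} (hC : IsCompact C) (hc : Convex ℝ C)
    (hne : C.Nonempty) {e f : V} (he : ‖e‖ = 1) (hf : ‖f‖ = 1) (hef : inner ℝ e f = 0) :
    shadow C e = supp C f + supp C (-f) := by
  have he0 : e ≠ 0 := by
    rintro rfl
    simp at he
  have : Fact (finrank ℝ V = 1 + 1) := ⟨h2⟩
  have h1 : finrank ℝ ((ℝ ∙ e)ᗮ : Submodule ℝ V) = 1 :=
    Submodule.finrank_orthogonal_span_singleton he0
  have hfm : f ∈ ((ℝ ∙ e)ᗮ : Submodule ℝ V) :=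
    Submodule.mem_orthogonal_singleton_iff_inner_right.mpr hef
  set f' : ((ℝ ∙ e)ᗮ : Submodule ℝ V) := ⟨f, hfm⟩ with hf'
  have hf'1 : ‖f'‖ = 1 := hf
  set φ : ℝ ≃ₗᵢ[ℝ] ((ℝ ∙ e)ᗮ : Submodule ℝ V) :=
    (LinearIsometry.toSpanSingleton ℝ ((ℝ ∙ e)ᗮ : Submodule ℝ V) hf'1).toLinearIsometryEquiv
      (by rw [h1, finrank_self]) with hφ
  have hφa : ∀ t : ℝ, φ t = t • f' := by
    intro t
    simp [hφ]
  have hproj : ∀ x : V, (ℝ ∙ e)ᗮ.orthogonalProjectionOnto x = (inner ℝ x f : ℝ) • f' := by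
    intro x
    obtain ⟨t, ht⟩ := φ.surjective ((ℝ ∙ e)ᗮ.orthogonalProjectionOnto x)
    rw [← ht, hφa]
    congr 1
    have e1 := eq_prod_point he x
    rw [← ht, hφa] at e1
    rw [e1, inner_add_left, inner_smul_left (𝕜 := ℝ) e, hef, mul_zero, add_zero]
    show t = inner ℝ (t • f) f
    rw [inner_smul_left, real_inner_self_eq_norm_sq, hf]
    simp
  have himg : (ℝ ∙ e)ᗮ.orthogonalProjectionOnto '' C = φ '' ((fun x => inner ℝ x f) '' C) := by
    rw [image_image]
    refine image_congr fun x _ => ?_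
    rw [hproj, hφa]
  have hcont : Continuous (fun x : V => inner ℝ x f) := continuous_id.inner continuous_const
  have hcomp : IsCompact ((fun x : V => inner ℝ x f) '' C) := hC.image hcont
  have hconv : Convex ℝ ((fun x : V => inner ℝ x f) '' C) :=
    hc.is_linear_image ⟨fun x y => inner_add_left _ _ _, fun r x => by
      simp [inner_smul_left]⟩
  have hvol : volume ((ℝ ∙ e)ᗮ.orthogonalProjectionOnto '' C) =
      volume ((fun x : V => inner ℝ x f) '' C) := by
    rw [himg, ← (φ.measurePreserving).measure_preimage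
      (hcomp.image φ.continuous).measurableSet.nullMeasurableSet,
      preimage_image_eq _ φ.injective]
  unfold shadow
  have hsup : sSup ((fun x : V => inner ℝ x f) '' C) = supp C f := rfl
  rw [hvol, volume_compact_convex hcomp hconv (hne.image _), sInf_image_inner, hsup,
    sub_neg_eq_add, ENNReal.toReal_ofReal]
  obtain ⟨x, hx⟩ := hne
  have := le_supp hC f hx
  have := le_supp hC (-f) hx
  rw [inner_neg_right] at this
  (clear hc e he hf hef he0 h1 hfm f' hf' hf'1 φ hφ hφa hproj himg hcont hcomp hconv hvol hsup; linarith)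

omit [FiniteDimensional ℝ V] [MeasurableSpace V] [BorelSpace V] in
theorem supp_smul_nonneg {K : Set V} {t : ℝ} (ht : 0 ≤ t) (v : V) :
    supp K (t • v) = t * supp K v := by
  unfold supp
  have : (fun x : V => inner ℝ x (t • v)) '' K = t • ((fun x : V => inner ℝ x v) '' K) := by
    rw [← Set.image_smul, image_image]
    simp only [inner_smul_right, smul_eq_mul]
  rw [this, Real.sSup_smul_of_nonneg ht, smul_eq_mul]

/-- Planar formula for `beta`. -/
theorem beta_plane (h2 : finrank ℝ V = 2) (J : V ≃ₗᵢ[ℝ] V) (hJ : ∀ w, inner ℝ w (J w) = 0)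
    {C : Set V} (hC : IsCompact C) (hc : Convex ℝ C) (hne : C.Nonempty) (w : V) :
    beta C w = supp C (J w) + supp C (-(J w)) := by
  by_cases hw : w = 0
  · subst hw
    rw [beta_zero, map_zero, neg_zero]
    have : supp C (0 : V) = 0 := by
      have := supp_smul_nonneg (K := C) (le_refl (0 : ℝ)) (0 : V)
      simpa using this
    rw [this, add_zero]
  · have hn : 0 < ‖w‖ := norm_pos_iff.2 hw
    have hu : ‖(‖w‖⁻¹ • w)‖ = 1 := norm_unit hw
    have hJu : J (‖w‖⁻¹ • w) = ‖w‖⁻¹ • J w := by simp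
    have key := shadow_plane h2 hC hc hne hu (by rw [LinearIsometryEquiv.norm_map, hu])
      (hJ (‖w‖⁻¹ • w))
    have e1 : beta C w = ‖w‖ * shadow C (‖w‖⁻¹ • w) := by
      have := beta_smul hC hc ‖w‖ (‖w‖⁻¹ • w)
      rw [norm_smul_unit hw, abs_of_pos hn, beta_unit hC hc hu] at this
      exact this
    rw [e1, key, hJu, ← smul_neg, supp_smul_nonneg (by (clear * - hw; positivity)),
      supp_smul_nonneg (by positivity)]
    field_simp

/-- The volumes of the slices are integrable. -/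
theorem integrable_vol_slice {K : Set V} (hK : IsCompact K) {u : V} (hu : ‖u‖ = 1) :
    Integrable (fun y : ℝ => vol (slice K u y)) := by
  have hm : MeasurableSet (prodEquiv u hu ⁻¹' K) := (prodEquiv u hu).measurable hK.measurableSet
  have hfin : (volume.prod volume : Measure (ℝ × ((ℝ ∙ u)ᗮ : Submodule ℝ V)))
      (prodEquiv u hu ⁻¹' K) ≠ ⊤ := by
    rw [← Measure.volume_eq_prod, (prodEquiv_measurePreserving u hu).measure_preimage
      hK.measurableSet.nullMeasurableSet]
    exact hK.measure_lt_top.ne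
  have h := Measure.integrable_measure_prodMk_left hm hfin
  refine h.congr (Filter.Eventually.of_forall fun y => ?_)
  show (volume (Prod.mk y ⁻¹' (prodEquiv u hu ⁻¹' K))).toReal = vol (slice K u y)
  unfold vol
  congr 2
  ext z
  simp only [mem_preimage, prodEquiv_apply, slice, mem_ofPred_eq]

theorem vol_eq_integral_slice {K : Set V} (hK : IsCompact K) {u : V} (hu : ‖u‖ = 1) :
    vol K = ∫ y : ℝ, vol (slice K u y) := by
  have h := integral_slice hK hu (fun _ => 1) continuous_const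
  simp only [setIntegral_const, smul_eq_mul, mul_one, one_mul] at h
  exact h

omit [FiniteDimensional ℝ V] [MeasurableSpace V] [BorelSpace V] in
/-- slices of `K + [0,w]` for `w ⟂ u` -/
theorem slice_add_segment (K : Set V) (u : V) (y : ℝ) (w : ((ℝ ∙ u)ᗮ : Submodule ℝ V)) :
    slice (K + segment ℝ 0 (w : V)) u y = slice K u y + segment ℝ 0 w := by
  ext z
  constructor
  · rintro ⟨a, ha, b, hb, hab⟩
    rw [segment_eq_image_smul] at hb
    obtain ⟨r, hr, rfl⟩ := hb
    refine ⟨z - r • w, ?_, r • w, ?_, by simp⟩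
    · show ((z - r • w : ((ℝ ∙ u)ᗮ : Submodule ℝ V)) : V) + y • u ∈ K
      have : ((z - r • w : ((ℝ ∙ u)ᗮ : Submodule ℝ V)) : V) + y • u = a := by
        have hab' : a + r • (w : V) = (z : V) + y • u := hab
        push_cast
        rw [sub_add_eq_add_sub, ← hab']
        simp only [add_sub_cancel_right]
      rw [this]
      exact ha
    · rw [segment_eq_image_smul]
      exact ⟨r, hr, rfl⟩
  · rintro ⟨a, ha, b, hb, rfl⟩
    rw [segment_eq_image_smul] at hb
    obtain ⟨r, hr, rfl⟩ := hb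
    refine ⟨(a : V) + y • u, ha, r • (w : V), ?_, ?_⟩
    · rw [segment_eq_image_smul]
      exact ⟨r, hr, rfl⟩
    · push_cast
      abel

/-- `beta K w` is the integral of the `beta` of the slices. -/
theorem beta_eq_integral_slice {K : Set V} (hK : IsCompact K) {u : V} (hu : ‖u‖ = 1)
    (w : ((ℝ ∙ u)ᗮ : Submodule ℝ V)) :
    beta K (w : V) = ∫ y : ℝ, beta (slice K u y) w := by
  have hKs : IsCompact (K + segment ℝ 0 (w : V)) := hK.add (isCompact_segment' _ _)
  unfold beta
  rw [vol_eq_integral_slice hKs hu, vol_eq_integral_slice hK hu,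
    ← integral_sub (integrable_vol_slice hKs hu) (integrable_vol_slice hK hu)]
  simp only [slice_add_segment]

end General

section Riemann

theorem integral_eq_two_mul {f : ℝ → ℝ} {h : ℝ} (hh : 0 < h)
    (h0 : ∀ y, h < y → f y = 0) (he : ∀ y, f (-y) = f y) :
    ∫ y : ℝ, f y = 2 * ∫ y in (0 : ℝ)..h, f y := by
  have h1 : (∫ y : ℝ, f y) = ∫ y : ℝ, f |y| := by
    refine integral_congr_ae (Filter.Eventually.of_forall fun y => ?_)
    rcases abs_choice y with h | h
    · simp only [h]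
    · simp only [h, he]
  rw [h1, integral_comp_abs, intervalIntegral.integral_of_le hh.le]
  congr 1
  refine (setIntegral_eq_of_subset_of_forall_sdiff_eq_zero measurableSet_Ioi ?_ ?_)
  · exact Ioc_subset_Ioi_self
  · intro y hy
    refine h0 y ?_
    by_contra hcon
    exact hy.2 ⟨hy.1, not_lt.1 hcon⟩

theorem antitone_scaled {f : ℝ → ℝ} {h : ℝ} (hh : 0 < h) (hf : AntitoneOn f (Icc 0 h))
    {m : ℕ} (hm : 0 < m) :
    AntitoneOn (fun s : ℝ => f (h / m * s)) (Icc (0 : ℝ) (0 + (m : ℝ))) := by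
  have hm' : (0 : ℝ) < m := by exact_mod_cast hm
  have hc : 0 < h / m := by positivity
  have hmem : ∀ s ∈ Icc (0 : ℝ) (0 + (m : ℝ)), h / m * s ∈ Icc 0 h := by
    intro s hs
    refine ⟨mul_nonneg hc.le hs.1, ?_⟩
    have h2 : s ≤ m := by simpa only [zero_add] using hs.2
    calc h / m * s ≤ h / m * m := by gcongr
      _ = h := by field_simp
  intro s hs t ht hst
  exact hf (hmem s hs) (hmem t ht) (by gcongr)

theorem integral_scaled {f : ℝ → ℝ} {h : ℝ} (hh : 0 < h) {m : ℕ} (hm : 0 < m) :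
    ∫ y in (0 : ℝ)..h, f y = (h / m) * ∫ s in (0 : ℝ)..(0 + (m : ℝ)), f (h / m * s) := by
  have hm' : (0 : ℝ) < m := by exact_mod_cast hm
  have hc : 0 < h / m := by positivity
  rw [intervalIntegral.integral_comp_mul_left f hc.ne', smul_eq_mul, ← mul_assoc,
    mul_inv_cancel₀ hc.ne', one_mul, mul_zero, zero_add]
  congr 1
  field_simp

/-- Lower Riemann sums for even functions, antitone on `[0,h]`. -/
theorem riemann_lower {f : ℝ → ℝ} {h : ℝ} (hh : 0 < h) (hf : AntitoneOn f (Icc 0 h))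
    (h0 : ∀ y, h < y → f y = 0) (he : ∀ y, f (-y) = f y) {m : ℕ} (hm : 0 < m) :
    2 * (h / m) * ∑ j : Fin m, f (h / m * ((j : ℕ) + 1)) ≤ ∫ y : ℝ, f y := by
  have hm' : (0 : ℝ) < m := by exact_mod_cast hm
  have hc : 0 < h / m := by positivity
  rw [integral_eq_two_mul hh h0 he, integral_scaled hh hm, mul_assoc]
  have h1 := (antitone_scaled hh hf hm).sum_le_integral
  rw [Finset.sum_range] at h1
  have h2 : ∑ j : Fin m, f (h / m * ((j : ℕ) + 1)) ≤
      ∫ s in (0 : ℝ)..(0 + (m : ℝ)), f (h / m * s) := by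
    refine le_trans (le_of_eq ?_) h1
    refine Finset.sum_congr rfl fun j _ => ?_
    push_cast
    rw [zero_add]
  gcongr

theorem riemann_upper {f : ℝ → ℝ} {h : ℝ} (hh : 0 < h) (hf : AntitoneOn f (Icc 0 h))
    (hnn : 0 ≤ f h)
    (h0 : ∀ y, h < y → f y = 0) (he : ∀ y, f (-y) = f y) {m : ℕ} (hm : 0 < m) :
    ∫ y : ℝ, f y ≤ 2 * (h / m) * (f 0 + ∑ j : Fin m, f (h / m * ((j : ℕ) + 1))) := by
  have hm' : (0 : ℝ) < m := by exact_mod_cast hm
  have hc : 0 < h / m := by positivity
  rw [integral_eq_two_mul hh h0 he, integral_scaled hh hm, mul_assoc]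
  have h1 := (antitone_scaled hh hf hm).integral_le_sum
  have h2 : ∑ i ∈ Finset.range m, f (h / m * (0 + (i : ℝ))) ≤
      f 0 + ∑ j : Fin m, f (h / m * ((j : ℕ) + 1)) := by
    have e1 := Finset.sum_range_succ (fun i : ℕ => f (h / m * (0 + (i : ℝ)))) m
    have e2 := Finset.sum_range_succ' (fun i : ℕ => f (h / m * (0 + (i : ℝ)))) m
    have e3 : f (h / m * (0 + (m : ℝ))) = f h := by
      congr 1
      field_simp
      ring
    have e4 : ∑ i ∈ Finset.range m, f (h / m * (0 + ((i + 1 : ℕ) : ℝ))) =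
        ∑ j : Fin m, f (h / m * ((j : ℕ) + 1)) := by
      rw [Finset.sum_range]
      refine Finset.sum_congr rfl fun j _ => ?_
      push_cast
      rw [zero_add]
    have e5 : f (h / m * (0 + ((0 : ℕ) : ℝ))) = f 0 := by simp
    rw [e4, e5] at e2
    rw [e3, e2] at e1
    linarith only [e1, hnn]
  have h3 := h1.trans h2
  gcongr

end Riemann

end Vale.Agent.P237
end

section

open MeasureTheory Metric Set Module
open scoped Pointwise

namespace Vale.Agent.P237

variable {V : Type*} [NormedAddCommGroup V] [InnerProductSpace ℝ V] [FiniteDimensional ℝ V]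
  [MeasurableSpace V] [BorelSpace V]

omit [MeasurableSpace V] [BorelSpace V] in
/-- Hahn-Banach and Riesz: extension of a functional dominated by a sublinear function. -/
theorem exists_wulff_ext {h : V → ℝ} (hs : ∀ (t : ℝ) v, 0 ≤ t → h (t • v) = t * h v)
    (ha : ∀ v w, h (v + w) ≤ h v + h w) (f : V →ₗ.[ℝ] ℝ) (hf : ∀ x : f.domain, f x ≤ h x) :
    ∃ y ∈ wulff h, ∀ x : f.domain, inner ℝ y (x : V) = f x := by
  obtain ⟨g, hg1, hg2⟩ := exists_extension_of_le_sublinear f h (fun c hc x => hs c x hc.le) ha hf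
  refine ⟨(InnerProductSpace.toDual ℝ V).symm (LinearMap.toContinuousLinearMap g), ?_, ?_⟩
  · intro v
    rw [InnerProductSpace.toDual_symm_apply]
    exact hg2 v
  · intro x
    rw [InnerProductSpace.toDual_symm_apply]
    exact hg1 x

omit [MeasurableSpace V] [BorelSpace V] in
theorem exists_wulff_ext_sub {h : V → ℝ} (hs : ∀ (t : ℝ) v, 0 ≤ t → h (t • v) = t * h v)
    (ha : ∀ v w, h (v + w) ≤ h v + h w) (F : Submodule ℝ V) (z : V)
    (hz : ∀ w ∈ F, inner ℝ z w ≤ h w) :
    ∃ y ∈ wulff h, ∀ w ∈ F, inner ℝ y w = inner ℝ z w := by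
  obtain ⟨y, hy, hy'⟩ := exists_wulff_ext hs ha
    (⟨F, (innerSL ℝ z).toLinearMap ∘ₗ F.subtype⟩ : V →ₗ.[ℝ] ℝ) (by
      rintro ⟨x, hx⟩
      exact hz x hx)
  exact ⟨y, hy, fun w hw => hy' ⟨w, hw⟩⟩

omit [MeasurableSpace V] [BorelSpace V] in
theorem exists_wulff_eq {h : V → ℝ} (hs : ∀ (t : ℝ) v, 0 ≤ t → h (t • v) = t * h v)
    (ha : ∀ v w, h (v + w) ≤ h v + h w) (v : V) : ∃ y ∈ wulff h, inner ℝ y v = h v := by
  have h0 : h 0 = 0 := by simpa only [smul_zero, zero_mul] using hs 0 0 le_rfl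
  rcases eq_or_ne v 0 with rfl | hv
  · obtain ⟨y, hy, -⟩ := exists_wulff_ext_sub hs ha ⊥ 0 (by
      intro w hw
      have hx' : w = 0 := by simpa using hw
      subst hx'
      rw [inner_zero_right, h0])
    exact ⟨y, hy, by rw [inner_zero_right, h0]⟩
  · have hvv : inner ℝ v v ≠ (0 : ℝ) := by simpa using hv
    obtain ⟨y, hy, hy'⟩ := exists_wulff_ext_sub hs ha (ℝ ∙ v) ((h v / inner ℝ v v) • v) (by
      intro w hw
      obtain ⟨t, rfl⟩ := Submodule.mem_span_singleton.mp hw
      rw [real_inner_smul_left, real_inner_smul_right]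
      have h3 : h v / inner ℝ v v * (t * inner ℝ v v) = t * h v := by
        (clear * - hvv; field_simp)
      rw [h3]
      rcases le_total 0 t with ht | ht
      · rw [hs t v ht]
      · have h1 := ha (t • v) ((-t) • v)
        rw [hs (-t) v (by linarith only [ht])] at h1
        have h2 : t • v + (-t) • v = 0 := by rw [neg_smul, add_neg_cancel]
        rw [h2, h0] at h1
        linarith only [h1])
    refine ⟨y, hy, ?_⟩
    rw [hy' v (Submodule.mem_span_singleton_self v), real_inner_smul_left]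
    field_simp

omit [MeasurableSpace V] [BorelSpace V] in
theorem wulff_supp {h : V → ℝ} (hs : ∀ (t : ℝ) v, 0 ≤ t → h (t • v) = t * h v)
    (ha : ∀ v w, h (v + w) ≤ h v + h w) (v : V) : supp (wulff h) v = h v := by
  obtain ⟨y, hy, hy'⟩ := exists_wulff_eq hs ha v
  refine le_antisymm ?_ ?_
  · refine csSup_le ⟨_, ⟨y, hy, rfl⟩⟩ ?_
    rintro _ ⟨x, hx, rfl⟩
    exact hx v
  · refine le_csSup ⟨h v, ?_⟩ ⟨y, hy, hy'⟩
    rintro _ ⟨x, hx, rfl⟩
    exact hx v

omit [MeasurableSpace V] [BorelSpace V] in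
theorem wulff_proj {h : V → ℝ} (hs : ∀ (t : ℝ) v, 0 ≤ t → h (t • v) = t * h v)
    (ha : ∀ v w, h (v + w) ≤ h v + h w) (F : Submodule ℝ V) :
    F.orthogonalProjectionOnto '' (wulff h) = {z : F | ∀ w : F, inner ℝ z w ≤ h w} := by
  ext z
  constructor
  · rintro ⟨y, hy, rfl⟩ w
    have := hy (w : V)
    rw [← Submodule.inner_orthogonalProjectionOnto_eq_of_mem_right w y] at this
    exact this
  · intro hz
    obtain ⟨y, hy, hy'⟩ := exists_wulff_ext_sub hs ha F (z : V) (fun w hw => hz ⟨w, hw⟩)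
    refine ⟨y, hy, ?_⟩
    refine ext_inner_right ℝ fun w => ?_
    rw [Submodule.inner_orthogonalProjectionOnto_eq_of_mem_right w y, hy' w w.2]
    rfl

theorem projBody_eq_wulff {K : Set V} (hK : IsCompact K) (hc : Convex ℝ K) :
    projBody K = wulff (beta K) := by
  ext y
  constructor
  · intro hy v
    rcases eq_or_ne v 0 with rfl | hv
    · rw [inner_zero_right]
      exact beta_nonneg hK hc 0
    · have hn : ‖v‖ ≠ 0 := norm_ne_zero_iff.mpr hv
      have hu : ‖(‖v‖⁻¹ • v)‖ = 1 := by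
        rw [norm_smul, norm_inv, norm_norm, inv_mul_cancel₀ hn]
      have h1 := hy _ hu
      rw [← beta_unit hK hc hu, beta_smul hK hc, real_inner_smul_right, abs_inv, abs_norm] at h1
      exact le_of_mul_le_mul_left h1 (inv_pos.mpr (norm_pos_iff.mpr hv))
  · intro hy u hu
    rw [← beta_unit hK hc hu]
    exact hy u

theorem beta_hs {K : Set V} (hK : IsCompact K) (hc : Convex ℝ K) (t : ℝ) (v : V) (ht : 0 ≤ t) :
    beta K (t • v) = t * beta K v := by
  rw [beta_smul hK hc, abs_of_nonneg ht]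

theorem beta_sum_le {K : Set V} (hK : IsCompact K) (hc : Convex ℝ K) {ι : Type*} (s : Finset ι)
    (v : ι → V) : beta K (∑ i ∈ s, v i) ≤ ∑ i ∈ s, beta K (v i) := by
  classical
  induction s using Finset.induction_on with
  | empty => simp [beta_zero K]
  | insert a s ha ih =>
    rw [Finset.sum_insert ha, Finset.sum_insert ha]
    exact (beta_add_le hK hc _ _).trans (by (clear hK hc ha; linarith))

theorem exists_beta_le {K : Set V} (hK : IsCompact K) (hc : Convex ℝ K) :
    ∃ C : ℝ, 0 ≤ C ∧ ∀ v, beta K v ≤ C * ‖v‖ := by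
  set b := stdOrthonormalBasis ℝ V
  refine ⟨∑ i, beta K (b i), Finset.sum_nonneg fun i _ => beta_nonneg hK hc _, fun v => ?_⟩
  calc beta K v = beta K (∑ i, inner ℝ (b i) v • b i) := by rw [b.sum_repr' v]
    _ ≤ ∑ i, beta K (inner ℝ (b i) v • b i) := beta_sum_le hK hc _ _
    _ = ∑ i, |inner ℝ (b i) v| * beta K (b i) := by simp only [beta_smul hK hc]
    _ ≤ ∑ i, ‖v‖ * beta K (b i) := by
      refine Finset.sum_le_sum fun i _ => mul_le_mul_of_nonneg_right ?_ (beta_nonneg hK hc _)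
      have := abs_real_inner_le_norm (b i) v
      rwa [b.norm_eq_one, one_mul] at this
    _ = (∑ i, beta K (b i)) * ‖v‖ := by rw [← Finset.mul_sum, mul_comm]

theorem beta_continuous {K : Set V} (hK : IsCompact K) (hc : Convex ℝ K) :
    Continuous (beta K) := by
  obtain ⟨C, hC, hCb⟩ := exists_beta_le hK hc
  have h1 : ∀ v w, beta K v - beta K w ≤ C * dist v w := by
    intro v w
    have h2 := beta_add_le hK hc w (v - w)
    rw [add_sub_cancel] at h2
    have h3 := hCb (v - w)
    rw [dist_eq_norm]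
    linarith
  refine (LipschitzWith.of_dist_le_mul (K := C.toNNReal) fun v w => ?_).continuous
  rw [Real.coe_toNNReal _ hC, Real.dist_eq, abs_le]
  constructor
  · have := h1 w v
    rw [dist_comm] at this
    linarith
  · exact h1 v w

theorem exists_le_beta {K : Set V} (hK : IsBody K) :
    ∃ c : ℝ, 0 < c ∧ ∀ v, c * ‖v‖ ≤ beta K v := by
  have hcpt : IsCompact (sphere (0 : V) 1) := isCompact_sphere 0 1
  rcases (sphere (0 : V) 1).eq_empty_or_nonempty with he | hne
  · refine ⟨1, one_pos, fun v => ?_⟩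
    have hv : v = 0 := by
      by_contra hv
      have hn : ‖v‖ ≠ 0 := norm_ne_zero_iff.mpr hv
      have : ‖v‖⁻¹ • v ∈ sphere (0 : V) 1 := by
        rw [mem_sphere_zero_iff_norm, norm_smul, norm_inv, norm_norm, inv_mul_cancel₀ hn]
      rw [he] at this
      exact this
    subst hv
    simp [beta_zero K]
  · obtain ⟨u, hu, humin⟩ := hcpt.exists_isMinOn hne
      (beta_continuous hK.compact hK.convex).continuousOn
    have hu0 : u ≠ 0 := by
      rintro rfl
      simp only [mem_sphere_iff_norm, sub_self, norm_zero, zero_ne_one] at hu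
    refine ⟨beta K u, beta_pos hK hu0, fun v => ?_⟩
    rcases eq_or_ne v 0 with rfl | hv
    · simp [beta_zero K]
    · have hn : ‖v‖ ≠ 0 := norm_ne_zero_iff.mpr hv
      have hmem : ‖v‖⁻¹ • v ∈ sphere (0 : V) 1 := by
        rw [mem_sphere_zero_iff_norm, norm_smul, norm_inv, norm_norm, inv_mul_cancel₀ hn]
      have h1 : beta K u ≤ beta K (‖v‖⁻¹ • v) := humin hmem
      rw [beta_smul hK.compact hK.convex, abs_inv, abs_norm] at h1
      calc beta K u * ‖v‖ ≤ ‖v‖⁻¹ * beta K v * ‖v‖ :=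
            mul_le_mul_of_nonneg_right h1 (norm_nonneg v)
        _ = beta K v := by (clear hK hcpt hne u hu humin hu0 hmem h1; field_simp)

theorem projBody_convex (K : Set V) : Convex ℝ (projBody K) := by
  intro x hx y hy a b ha hb hab u hu
  have h1 := hx u hu
  have h2 := hy u hu
  rw [inner_add_left, real_inner_smul_left, real_inner_smul_left]
  calc a * inner ℝ x u + b * inner ℝ y u ≤ a * shadow K u + b * shadow K u :=
        add_le_add (mul_le_mul_of_nonneg_left h1 ha) (mul_le_mul_of_nonneg_left h2 hb)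
    _ = shadow K u := by rw [← add_mul, hab, one_mul]

theorem projBody_isClosed (K : Set V) : IsClosed (projBody K) := by
  have : projBody K = ⋂ (u : V) (_ : ‖u‖ = 1), {y | inner ℝ y u ≤ shadow K u} := by
    ext y
    simp only [projBody, mem_ofPred_eq, mem_iInter]
  rw [this]
  exact isClosed_iInter fun u => isClosed_iInter fun _ =>
    isClosed_le (continuous_id.inner continuous_const) continuous_const

theorem projBody_isSymBody {K : Set V} (hK : IsBody K) : IsSymBody (projBody K) := by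
  have hw := projBody_eq_wulff hK.compact hK.convex
  refine ⟨⟨projBody_convex K, ?_, ?_⟩, ?_⟩
  · obtain ⟨C, hC, hCb⟩ := exists_beta_le hK.compact hK.convex
    refine (isCompact_closedBall (0 : V) C).of_isClosed_subset (projBody_isClosed K) ?_
    intro y hy
    rw [hw] at hy
    rw [mem_closedBall_zero_iff]
    have h1 := hy y
    rw [real_inner_self_eq_norm_sq] at h1
    have h2 := h1.trans (hCb y)
    rcases (norm_nonneg y).eq_or_lt with h0 | h0
    · rw [← h0]; exact hC
    · rw [sq] at h2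
      exact le_of_mul_le_mul_right h2 h0
  · obtain ⟨c, hc, hcb⟩ := exists_le_beta hK
    refine ⟨0, mem_interior.mpr ⟨ball 0 c, ?_, isOpen_ball, mem_ball_self hc⟩⟩
    intro y hy
    rw [hw]
    intro v
    rw [mem_ball_zero_iff] at hy
    calc inner ℝ y v ≤ ‖y‖ * ‖v‖ := real_inner_le_norm y v
      _ ≤ c * ‖v‖ := mul_le_mul_of_nonneg_right hy.le (norm_nonneg v)
      _ ≤ beta K v := hcb v
  · intro y hy
    rw [hw] at hy ⊢
    intro v
    have h1 := hy (-v)
    rw [beta_neg K, inner_neg_right] at h1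
    rwa [inner_neg_left]

theorem supp_projBody {K : Set V} (hK : IsBody K) (v : V) : supp (projBody K) v = beta K v := by
  rw [projBody_eq_wulff hK.compact hK.convex]
  exact wulff_supp (beta_hs hK.compact hK.convex) (beta_add_le hK.compact hK.convex) v

omit [MeasurableSpace V] [BorelSpace V] in
theorem det_adjoint_real (T : V →ₗ[ℝ] V) :
    LinearMap.det (LinearMap.adjoint T) = LinearMap.det T := by
  have b := stdOrthonormalBasis ℝ V
  rw [← LinearMap.det_toMatrix b.toBasis, ← LinearMap.det_toMatrix b.toBasis,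
    LinearMap.toMatrix_adjoint, Matrix.det_conjTranspose]
  simp

omit [MeasurableSpace V] in
theorem IsBody.image (T : V ≃ₗ[ℝ] V) {K : Set V} (hK : IsBody K) : IsBody (T '' K) := by
  have hcont : Continuous T := LinearMap.continuous_of_finiteDimensional (T : V →ₗ[ℝ] V)
  refine ⟨hK.convex.linear_image (T : V →ₗ[ℝ] V), hK.compact.image hcont, ?_⟩
  obtain ⟨x, hx⟩ := hK.int
  refine ⟨T x, ?_⟩
  have := (T.toContinuousLinearEquiv.toHomeomorph).image_interior K
  have h2 : T '' interior K = interior (T '' K) := this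
  rw [← h2]
  exact ⟨x, hx, rfl⟩

theorem vol_projBody_image (T : V ≃ₗ[ℝ] V) {K : Set V} (hK : IsBody K) :
    vol (projBody (T '' K)) = |LinearMap.det (T : V →ₗ[ℝ] V)| ^ (finrank ℝ V - 1) *
      vol (projBody K) := by
  set D : ℝ := |LinearMap.det (T : V →ₗ[ℝ] V)| with hD
  have hdet : LinearMap.det (T : V →ₗ[ℝ] V) ≠ 0 := (LinearEquiv.isUnit_det' T).ne_zero
  have hDpos : 0 < D := abs_pos.mpr hdet
  have hKT := hK.image T
  set A : V →ₗ[ℝ] V := LinearMap.adjoint (T : V →ₗ[ℝ] V) with hA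
  have hAdet : LinearMap.det A = LinearMap.det (T : V →ₗ[ℝ] V) := det_adjoint_real _
  have hset : projBody (T '' K) = A ⁻¹' (D • projBody K) := by
    rw [projBody_eq_wulff hKT.compact hKT.convex, projBody_eq_wulff hK.compact hK.convex]
    ext y
    rw [mem_preimage, mem_smul_set_iff_inv_smul_mem₀ hDpos.ne']
    constructor
    · intro hy v
      have h1 := hy (T v)
      rw [beta_image] at h1
      rw [real_inner_smul_left, hA, LinearMap.adjoint_inner_left]
      rw [inv_mul_le_iff₀ hDpos]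
      exact h1
    · intro hy v
      have h1 := hy (T.symm v)
      rw [real_inner_smul_left, hA, LinearMap.adjoint_inner_left, inv_mul_le_iff₀ hDpos] at h1
      have h2 := beta_image T K (T.symm v)
      rw [T.apply_symm_apply] at h2
      rw [h2]
      simpa only [ge_iff_le, LinearEquiv.coe_coe, LinearEquiv.apply_symm_apply] using h1
  unfold vol
  rw [hset, Measure.addHaar_preimage_linearMap volume (by rw [hAdet]; exact hdet),
    Measure.addHaar_smul, hAdet, abs_inv, ← hD, ENNReal.toReal_mul, ENNReal.toReal_mul,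
    ENNReal.toReal_ofReal (inv_nonneg.mpr hDpos.le), ENNReal.toReal_ofReal (abs_nonneg _),
    abs_of_nonneg (pow_nonneg hDpos.le _), ← mul_assoc]
  congr 1
  rcases Nat.eq_zero_or_pos (finrank ℝ V) with h0 | h0
  · have h1 : LinearMap.det (T : V →ₗ[ℝ] V) = 1 := by
      have := LinearMap.det_eq_one_of_finrank_eq_zero h0 (T : V →ₗ[ℝ] V)
      exact this
    rw [h0, hD, h1]
    simp only [abs_one, inv_one, pow_zero, mul_one, zero_tsub]
  · obtain ⟨n, hn⟩ : ∃ n, finrank ℝ V = n + 1 := ⟨finrank ℝ V - 1, by omega⟩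
    rw [hn]
    field_simp
    simp only [Nat.add_sub_cancel, pow_succ]
    ring

end Vale.Agent.P237
end

section

/-!
# P237-F2: a lower bound for the shadows of the projection body (dimension 3)
-/

open MeasureTheory Metric Set Module
open scoped Pointwise

namespace Vale.Agent.P237

variable {V : Type*} [NormedAddCommGroup V] [InnerProductSpace ℝ V] [FiniteDimensional ℝ V]
  [MeasurableSpace V] [BorelSpace V]

omit [FiniteDimensional ℝ V] [MeasurableSpace V] [BorelSpace V] in
theorem supp_pos {K : Set V} (hK : IsSymBody K) {u : V} (hu : ‖u‖ = 1) : 0 < supp K u := by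
  obtain ⟨x, hx⟩ := hK.int
  obtain ⟨ε, hε, hb⟩ := Metric.mem_nhds_iff.1 (mem_interior_iff_mem_nhds.1 hx)
  have h1 : x + (ε / 2) • u ∈ K := by
    apply hb
    rw [mem_ball, dist_eq_norm, add_sub_cancel_left, norm_smul, hu, mul_one, Real.norm_eq_abs,
      abs_of_pos (by positivity)]
    linarith only [hε]
  have h2 : x - (ε / 2) • u ∈ K := by
    apply hb
    rw [mem_ball, dist_eq_norm, sub_sub_cancel_left, norm_neg, norm_smul, hu, mul_one,
      Real.norm_eq_abs, abs_of_pos (by positivity)]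
    linarith only [hε]
  have h3 := hK.symm _ h2
  have h4 := hK.convex h1 h3 (by norm_num : (0 : ℝ) ≤ 1 / 2) (by norm_num : (0 : ℝ) ≤ 1 / 2)
    (by norm_num)
  have h5 := le_supp hK.compact u h4
  have e : (1 / 2 : ℝ) • (x + (ε / 2) • u) + (1 / 2 : ℝ) • (-(x - (ε / 2) • u)) =
      (ε / 2) • u := by
    module
  rw [e, inner_smul_left, real_inner_self_eq_norm_sq, hu] at h5
  simp only [conj_trivial, one_pow, mul_one] at h5
  linarith only [h5, hε]

theorem slice_nonempty {K : Set V} (hK : IsSymBody K) {u : V} (hu : ‖u‖ = 1) {y : ℝ}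
    (hy : y ∈ Icc (-supp K u) (supp K u)) : (slice K u y).Nonempty := by
  have hpos := supp_pos hK hu
  obtain ⟨x, hx, hxu⟩ := exists_supp hK.compact (hK.int.mono interior_subset) u
  have h1 : (slice K u (supp K u)).Nonempty := by
    refine ⟨(ℝ ∙ u)ᗮ.orthogonalProjectionOnto x, ?_⟩
    have := eq_prod_point hu x
    rw [hxu] at this
    show _ ∈ K
    rw [← this]
    exact hx
  have h2 : (slice K u (-supp K u)).Nonempty := by
    rw [slice_neg hK.symm]
    exact h1.neg
  set h := supp K u with hh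
  have ha : 0 ≤ (h + y) / (2 * h) := div_nonneg (by linarith [hy.1]) (by (clear * - hpos; positivity))
  have hb : 0 ≤ (h - y) / (2 * h) := div_nonneg (by linarith only [hy.2]) (by positivity)
  have hab : (h + y) / (2 * h) + (h - y) / (2 * h) = 1 := by field_simp; ring
  have hs := slice_combo_subset hK.convex u h (-h) ha hb hab
  have e : (h + y) / (2 * h) * h + (h - y) / (2 * h) * (-h) = y := by field_simp; ring
  rw [e] at hs
  exact ((h1.smul_set).add h2.smul_set).mono hs

omit [FiniteDimensional ℝ V] [MeasurableSpace V] [BorelSpace V] in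
theorem slice_eq_empty {K : Set V} (hK : IsCompact K) {u : V} (hu : ‖u‖ = 1) {y : ℝ}
    (hy : supp K u < y) : slice K u y = ∅ := by
  rw [eq_empty_iff_forall_notMem]
  intro z hz
  have h := le_supp hK u hz
  rw [inner_prod_point hu] at h
  linarith only [hy, h]

theorem beta_empty (w : V) : beta (∅ : Set V) w = 0 := by
  unfold beta vol
  simp only [empty_add, measure_empty, ENNReal.toReal_zero, sub_self]

theorem beta_neg_set (S : Set V) (w : V) : beta (-S) w = beta S w := by
  have h1 : -S + segment ℝ 0 w = -(S + segment ℝ 0 (-w)) := by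
    rw [neg_add]
    congr 1
    rw [segment_eq_image_smul, segment_eq_image_smul, ← Set.image_neg_eq_neg, image_image]
    simp only [smul_neg, neg_neg]
  rw [← beta_neg S w]
  unfold beta vol
  rw [h1, Measure.measure_neg, Measure.measure_neg]

theorem antitone_of_combo {g : ℝ → ℝ} {h : ℝ}
    (hg : ∀ y ∈ Icc 0 h, ∀ a b : ℝ, 0 ≤ a → 0 ≤ b → a + b = 1 → g y ≤ g (a * y + b * (-y))) :
    AntitoneOn g (Icc 0 h) := by
  intro y hy z hz hyz
  rcases hz.1.eq_or_lt with h0 | h0
  · have : y = z := le_antisymm hyz (h0 ▸ hy.1)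
    rw [this]
  · have h1 := hg z hz ((z + y) / (2 * z)) ((z - y) / (2 * z))
      (div_nonneg (by linarith [hy.1]) (by positivity))
      (div_nonneg (by linarith only [hyz]) (by positivity)) (by field_simp; ring)
    have e : (z + y) / (2 * z) * z + (z - y) / (2 * z) * (-z) = y := by field_simp; ring
    rwa [e] at h1

theorem sqrt_slice_antitone (hd : finrank ℝ V = 3) {K : Set V} (hK : IsSymBody K) {u : V}
    (hu : ‖u‖ = 1) :
    AntitoneOn (fun y => Real.sqrt (vol (slice K u y))) (Icc 0 (supp K u)) := by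
  apply antitone_of_combo
  intro y hy a b ha hb hab
  have h2 := finrank_perp hd hu
  have hKc := hK.compact
  have hpos := supp_pos hK hu
  have hne1 : (slice K u y).Nonempty := slice_nonempty hK hu ⟨by linarith only [hpos, hy.1], hy.2⟩
  have hne2 : (slice K u (-y)).Nonempty :=
    slice_nonempty hK hu ⟨by linarith only [hy.2], by linarith only [hpos, hy.1]⟩
  have bm := brunn_minkowski (V := ((ℝ ∙ u)ᗮ : Submodule ℝ V))
    ((slice_isCompact hKc u y).smul a) ((slice_isCompact hKc u (-y)).smul b)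
    (hne1.smul_set) (hne2.smul_set) (by omega)
  rw [h2, vol_smul_set, vol_smul_set, h2] at bm
  simp only [Nat.cast_ofNat] at bm
  rw [← Real.sqrt_eq_rpow, ← Real.sqrt_eq_rpow, ← Real.sqrt_eq_rpow,
    Real.sqrt_mul (by (clear * -; positivity)), Real.sqrt_mul (by (clear * -; positivity)), Real.sqrt_sq (abs_nonneg _),
    Real.sqrt_sq (abs_nonneg _), abs_of_nonneg ha, abs_of_nonneg hb, slice_vol_even hK hu,
    ← add_mul, hab, one_mul] at bm
  refine bm.trans (Real.sqrt_le_sqrt ?_)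
  exact vol_mono (slice_isCompact hKc u _) (slice_combo_subset hK.convex u y (-y) ha hb hab)

/-- rotation by a right angle in a Euclidean plane -/
theorem exists_rotation {W : Type*} [NormedAddCommGroup W] [InnerProductSpace ℝ W]
    (h2 : finrank ℝ W = 2) : ∃ J : W ≃ₗᵢ[ℝ] W, ∀ w, inner ℝ w (J w) = 0 := by
  have : Fact (finrank ℝ W = 2) := ⟨h2⟩
  have : FiniteDimensional ℝ W := Module.finite_of_finrank_pos (by omega)
  let o : Orientation ℝ W (Fin 2) :=
    ((stdOrthonormalBasis ℝ W).reindex (finCongr h2)).toBasis.orientation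
  refine ⟨o.rightAngleRotation, fun w => ?_⟩
  rw [real_inner_comm]
  exact o.inner_rightAngleRotation_self w

theorem beta_slice_antitone (hd : finrank ℝ V = 3) {K : Set V} (hK : IsSymBody K) {u : V}
    (hu : ‖u‖ = 1) (w : ((ℝ ∙ u)ᗮ : Submodule ℝ V)) :
    AntitoneOn (fun y => beta (slice K u y) w) (Icc 0 (supp K u)) := by
  apply antitone_of_combo
  intro y hy a b ha hb hab
  have h2 := finrank_perp hd hu
  obtain ⟨J, hJ⟩ := exists_rotation h2
  have hKc := hK.compact
  have hpos := supp_pos hK hu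
  have hne1 : (slice K u y).Nonempty := slice_nonempty hK hu ⟨by linarith only [hpos, hy.1], hy.2⟩
  have hne2 : (slice K u (-y)).Nonempty :=
    slice_nonempty hK hu ⟨by linarith only [hy.2], by linarith only [hpos, hy.1]⟩
  have hsub := slice_combo_subset hK.convex u y (-y) ha hb hab
  have hne3 : (slice K u (a * y + b * (-y))).Nonempty :=
    ((hne1.smul_set).add hne2.smul_set).mono hsub
  have hc1 := slice_isCompact hKc u y
  have hc3 := slice_isCompact hKc u (a * y + b * (-y))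
  rw [beta_plane h2 J hJ hc1 (slice_convex hK.convex u y) hne1,
    beta_plane h2 J hJ hc3 (slice_convex hK.convex u _) hne3]
  obtain ⟨p, hp, hpe⟩ := exists_supp hc1 hne1 (J w)
  obtain ⟨q, hq, hqe⟩ := exists_supp hc1 hne1 (-(J w))
  have hp' : -p ∈ slice K u (-y) := by
    rw [slice_neg hK.symm]
    exact Set.neg_mem_neg.2 hp
  have hq' : -q ∈ slice K u (-y) := by
    rw [slice_neg hK.symm]
    exact Set.neg_mem_neg.2 hq
  have m1 : a • p + b • (-q) ∈ slice K u (a * y + b * (-y)) :=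
    hsub (add_mem_add (smul_mem_smul_set hp) (smul_mem_smul_set hq'))
  have m2 : a • q + b • (-p) ∈ slice K u (a * y + b * (-y)) :=
    hsub (add_mem_add (smul_mem_smul_set hq) (smul_mem_smul_set hp'))
  have i1 := le_supp hc3 (J w) m1
  have i2 := le_supp hc3 (-(J w)) m2
  have hbe : b = 1 - a := by linarith only [hab]
  have e1 : inner ℝ (a • p + b • (-q)) (J w) =
      a * inner ℝ p (J w) + b * inner ℝ q (-(J w)) := by
    rw [inner_add_left, inner_smul_left, inner_smul_left, inner_neg_left, inner_neg_right]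
    simp only [Real.ringHom_apply, Submodule.coe_inner, mul_neg]
  have e2 : inner ℝ (a • q + b • (-p)) (-(J w)) =
      a * inner ℝ q (-(J w)) + b * inner ℝ p (J w) := by
    rw [inner_add_left, inner_smul_left, inner_smul_left, inner_neg_left, inner_neg_right,
      inner_neg_right]
    simp only [Real.ringHom_apply, Submodule.coe_inner, mul_neg, neg_neg]
  rw [e1, hpe, hqe] at i1
  rw [e2, hpe, hqe] at i2
  rw [hbe] at i1 i2 ⊢
  linarith only [i1, i2]

/-- The key inequality at level `m`. -/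
theorem sqrt_vol_ge (hd : finrank ℝ V = 3) {K : Set V} (hK : IsSymBody K) {u : V}
    (hu : ‖u‖ = 1) {D : Set ((ℝ ∙ u)ᗮ : Submodule ℝ V)} (hDc : IsCompact D)
    (hD : D = {z | ∀ w : ((ℝ ∙ u)ᗮ : Submodule ℝ V), inner ℝ z w ≤ beta K (w : V)})
    {m : ℕ} (hm : 0 < m) :
    2 * ∫ y : ℝ, Real.sqrt (vol (slice K u y)) ≤
      Real.sqrt (vol D) + 4 * (supp K u / m) * Real.sqrt (vol (slice K u 0)) := by
  have h2 := finrank_perp hd hu
  obtain ⟨J, hJ⟩ := exists_rotation h2
  have hKc := hK.compact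
  have hpos := supp_pos hK hu
  set h := supp K u with hh
  have hm' : (0 : ℝ) < m := by exact_mod_cast hm
  set c : ℝ := h / m with hc
  have hcpos : 0 < c := by (clear * - hpos hm; positivity)
  set S : Fin m → Set ((ℝ ∙ u)ᗮ : Submodule ℝ V) := fun j => slice K u (c * ((j : ℕ) + 1)) with hS
  have hmem : ∀ j : Fin m, c * ((j : ℕ) + 1) ∈ Icc 0 h := by
    intro j
    refine ⟨by (clear * - hpos hm; positivity), ?_⟩
    have h1 : ((j : ℕ) : ℝ) + 1 ≤ m := by exact_mod_cast j.2
    calc c * ((j : ℕ) + 1) ≤ c * m := by (clear * - h1 hpos hm; gcongr)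
      _ = h := by rw [hc]; field_simp
  have hSne : ∀ j, (S j).Nonempty := fun j =>
    slice_nonempty hK hu ⟨by linarith only [hpos, (hmem j).1], (hmem j).2⟩
  have hSc : ∀ j, IsCompact (S j) := fun j => slice_isCompact hKc u _
  have hSconv : ∀ j, Convex ℝ (S j) := fun j => slice_convex hK.convex u _
  -- the difference bodies
  set T : Fin m → Set ((ℝ ∙ u)ᗮ : Submodule ℝ V) := fun j => S j + -S j with hT
  have hTc : ∀ j, IsCompact (T j) := fun j => (hSc j).add (hSc j).neg
  have hTne : ∀ j, (T j).Nonempty := fun j => (hSne j).add (hSne j).neg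
  have hTvol : ∀ j, 2 * Real.sqrt (vol (S j)) ≤ Real.sqrt (vol (T j)) := by
    intro j
    have bm := brunn_minkowski (V := ((ℝ ∙ u)ᗮ : Submodule ℝ V)) (hSc j) (hSc j).neg (hSne j)
      (hSne j).neg (by omega)
    rw [h2] at bm
    simp only [Nat.cast_ofNat] at bm
    rw [← Real.sqrt_eq_rpow, ← Real.sqrt_eq_rpow, ← Real.sqrt_eq_rpow] at bm
    have e : vol (-S j) = vol (S j) := by
      unfold vol
      rw [Measure.measure_neg]
    rw [e] at bm
    (clear hd hK hu D hDc hD hm h2 J hJ hKc hpos hh hm' hc hcpos hS hmem hSne hSc hSconv hT hTc hTne e; linarith)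
  -- D contains the rotated Minkowski sum
  have hsub : J.symm '' ((2 * c) • ∑ j, T j) ⊆ D := by
    rintro _ ⟨_, ⟨z, hz, rfl⟩, rfl⟩
    rw [hD]
    intro w
    obtain ⟨g, hg, rfl⟩ := (Set.mem_fintype_sum _ _).1 hz
    have e1 : inner ℝ (J.symm ((2 * c) • ∑ j, g j)) w = 2 * c * ∑ j, inner ℝ (g j) (J w) := by
      have : inner ℝ (J.symm ((2 * c) • ∑ j, g j)) w =
          inner ℝ ((2 * c) • ∑ j, g j) (J w) := by
        rw [← J.inner_map_map (J.symm ((2 * c) • ∑ j, g j)) w, J.apply_symm_apply]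
      rw [this, inner_smul_left, sum_inner]
      simp only [Real.ringHom_apply, Submodule.coe_inner]
    show inner ℝ (J.symm ((2 * c) • ∑ j, g j)) w ≤ beta K (w : V)
    rw [e1, beta_eq_integral_slice hKc hu w]
    have hR := riemann_lower (f := fun y => beta (slice K u y) w) hpos
      (beta_slice_antitone hd hK hu w)
      (fun y hy => by
        show beta (slice K u y) w = 0
        rw [slice_eq_empty hKc hu hy, beta_empty])
      (fun y => by
        show beta (slice K u (-y)) w = beta (slice K u y) w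
        rw [slice_neg hK.symm, beta_neg_set]) hm
    refine le_trans ?_ hR
    have hj : ∀ j : Fin m, inner ℝ (g j) (J w) ≤ beta (slice K u (c * ((j : ℕ) + 1))) w := by
      intro j
      obtain ⟨a, ha, b, hb, hab⟩ := hg j
      rw [beta_plane h2 J hJ (hSc j) (hSconv j) (hSne j), ← hab, inner_add_left]
      have i1 := le_supp (hSc j) (J w) ha
      have i2 := le_supp (hSc j) (-(J w)) (Set.mem_neg.1 hb)
      rw [inner_neg_left, inner_neg_right, neg_neg] at i2
      linarith only [i1, i2]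
    have : ∑ j : Fin m, inner ℝ (g j) (J w) ≤
        ∑ j : Fin m, beta (slice K u (c * ((j : ℕ) + 1))) w :=
      Finset.sum_le_sum fun j _ => hj j
    have h2c : 0 ≤ 2 * c := by (clear * - hpos hm; positivity)
    exact mul_le_mul_of_nonneg_left this h2c
  have hsumc : IsCompact (∑ j, T j) := isCompact_sum hTc
  have hvol1 : (2 * c) ^ 2 * vol (∑ j, T j) ≤ vol D := by
    have h3 := vol_mono hDc hsub
    have e : vol (J.symm '' ((2 * c) • ∑ j, T j)) = vol ((2 * c) • ∑ j, T j) := by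
      unfold vol
      rw [← (J.symm.measurePreserving).measure_preimage
        (((hsumc.smul (2 * c)).image J.symm.continuous).measurableSet.nullMeasurableSet),
        preimage_image_eq _ J.symm.injective]
    rw [e, vol_smul_set, h2, abs_of_nonneg (by positivity)] at h3
    exact h3
  have hvol2 : 2 * c * Real.sqrt (vol (∑ j, T j)) ≤ Real.sqrt (vol D) := by
    calc 2 * c * Real.sqrt (vol (∑ j, T j)) =
        Real.sqrt ((2 * c) ^ 2 * vol (∑ j, T j)) := by
          rw [Real.sqrt_mul (by (clear * - hpos hm; positivity)), Real.sqrt_sq (by positivity)]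
      _ ≤ _ := Real.sqrt_le_sqrt hvol1
  have hbm := bm_sum (V := ((ℝ ∙ u)ᗮ : Submodule ℝ V)) hTc hTne (by omega)
  rw [h2] at hbm
  simp only [Nat.cast_ofNat] at hbm
  simp only [← Real.sqrt_eq_rpow] at hbm
  have hs1 : ∑ j, 2 * Real.sqrt (vol (S j)) ≤ Real.sqrt (vol (∑ j, T j)) :=
    (Finset.sum_le_sum fun j _ => hTvol j).trans hbm
  have hU := riemann_upper (f := fun y => Real.sqrt (vol (slice K u y))) hpos
      (sqrt_slice_antitone hd hK hu) (Real.sqrt_nonneg _)
      (fun y hy => by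
        show Real.sqrt (vol (slice K u y)) = 0
        rw [slice_eq_empty hKc hu hy]
        simp only [vol, measure_empty, ENNReal.toReal_zero, Real.sqrt_zero])
      (fun y => by
        show Real.sqrt (vol (slice K u (-y))) = Real.sqrt (vol (slice K u y))
        rw [slice_vol_even hK hu]) hm
  rw [← Finset.mul_sum] at hs1
  have hs2 : 2 * c * (2 * ∑ j, Real.sqrt (vol (S j))) ≤ 2 * c * Real.sqrt (vol (∑ j, T j)) :=
    mul_le_mul_of_nonneg_left hs1 (by (clear * - hpos hm; positivity))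
  have hU' : ∫ y : ℝ, Real.sqrt (vol (slice K u y)) ≤ 2 * c * (Real.sqrt (vol (slice K u 0)) +
      ∑ j, Real.sqrt (vol (S j))) := hU
  linarith only [hvol2, hU', hs2]

theorem shadow_projBody_ge (hd : finrank ℝ V = 3) {K : Set V} (hK : IsSymBody K) {u : V}
    (hu : ‖u‖ = 1) :
    4 * (∫ y : ℝ, Real.sqrt (vol (slice K u y))) ^ 2 ≤ shadow (projBody K) u := by
  have hKc := hK.compact
  have hPi := projBody_isSymBody hK.toIsBody
  have hD : (ℝ ∙ u)ᗮ.orthogonalProjectionOnto '' (projBody K) =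
      {z | ∀ w : ((ℝ ∙ u)ᗮ : Submodule ℝ V), inner ℝ z w ≤ beta K (w : V)} := by
    rw [projBody_eq_wulff hKc hK.convex]
    refine wulff_proj (fun t v ht => ?_) (beta_add_le hKc hK.convex) _
    rw [beta_smul hKc hK.convex, abs_of_nonneg ht]
  have hDc : IsCompact ((ℝ ∙ u)ᗮ.orthogonalProjectionOnto '' (projBody K)) :=
    hPi.compact.image (ContinuousLinearMap.continuous _)
  have key : 2 * ∫ y : ℝ, Real.sqrt (vol (slice K u y)) ≤
      Real.sqrt (shadow (projBody K) u) := by
    refine le_of_forall_pos_le_add fun ε hε => ?_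
    obtain ⟨m, hm⟩ := exists_nat_gt (4 * supp K u * Real.sqrt (vol (slice K u 0)) / ε)
    have hnn : 0 ≤ 4 * supp K u * Real.sqrt (vol (slice K u 0)) / ε := by
      have := supp_pos hK hu
      (clear hd hKc hPi hD hDc m hm; (clear * - this hε; positivity))
    have hm' : (0 : ℝ) < m := hnn.trans_lt hm
    have hm0 : 0 < m := by exact_mod_cast hm'
    have h1 := sqrt_vol_ge hd hK hu hDc hD hm0
    have h3 : 4 * (supp K u / m) * Real.sqrt (vol (slice K u 0)) ≤ ε := by
      rw [div_lt_iff₀ hε] at hm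
      have : 4 * (supp K u / m) * Real.sqrt (vol (slice K u 0)) =
          4 * supp K u * Real.sqrt (vol (slice K u 0)) / m := by ring
      rw [this, div_le_iff₀ hm']
      (clear hd hK hu hKc hPi hD hDc hε hnn hm' hm0 h1 this; linarith only [hm])
    have e : vol ((ℝ ∙ u)ᗮ.orthogonalProjectionOnto '' (projBody K)) = shadow (projBody K) u := rfl
    rw [e] at h1
    (clear hd hK hu hKc hPi hD hDc hε hm hnn hm' hm0 e; linarith)
  have hI : 0 ≤ ∫ y : ℝ, Real.sqrt (vol (slice K u y)) :=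
    integral_nonneg fun y => Real.sqrt_nonneg _
  have hsh : 0 ≤ shadow (projBody K) u := shadow_nonneg _ _
  calc 4 * (∫ y : ℝ, Real.sqrt (vol (slice K u y))) ^ 2 =
      (2 * ∫ y : ℝ, Real.sqrt (vol (slice K u y))) ^ 2 := by ring
    _ ≤ (Real.sqrt (shadow (projBody K) u)) ^ 2 := by (clear hI hsh; gcongr)
    _ = shadow (projBody K) u := Real.sq_sqrt hsh

end Vale.Agent.P237
end

section

/-!
# P237, all dimensions: the profile of a symmetric body
-/

open MeasureTheory Metric Set Module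
open scoped Pointwise

namespace Vale.Agent.P237.AllN

variable {V : Type*} [NormedAddCommGroup V] [InnerProductSpace ℝ V] [FiniteDimensional ℝ V]
  [MeasurableSpace V] [BorelSpace V]

theorem prof_nonneg (K : Set V) (u : V) (m : ℕ) (y : ℝ) : 0 ≤ prof K u m y :=
  Real.rpow_nonneg (vol_nonneg _) _

theorem prof_even {K : Set V} (hK : IsSymBody K) {u : V} (hu : ‖u‖ = 1) (m : ℕ) (y : ℝ) :
    prof K u m (-y) = prof K u m y := by
  unfold prof
  rw [slice_vol_even hK hu]

theorem prof_pow {m : ℕ} (hm : 1 ≤ m) (K : Set V) (u : V) (y : ℝ) :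
    prof K u m y ^ m = vol (slice K u y) := by
  unfold prof
  rw [← Real.rpow_natCast, ← Real.rpow_mul (vol_nonneg _)]
  have hm' : (m : ℝ) ≠ 0 := by positivity
  rw [one_div, inv_mul_cancel₀ hm', Real.rpow_one]

theorem vol_empty_eq_zero : vol (∅ : Set V) = 0 := by
  unfold vol
  simp

theorem prof_eq_zero_of_lt {K : Set V} (hK : IsCompact K) {u : V} (hu : ‖u‖ = 1) {m : ℕ}
    (hm : 1 ≤ m) {y : ℝ} (hy : supp K u < y) : prof K u m y = 0 := by
  unfold prof
  rw [slice_eq_empty hK hu hy, vol_empty_eq_zero]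
  have hm' : (m : ℝ) ≠ 0 := by positivity
  exact Real.zero_rpow (by positivity)

theorem prof_eq_zero {K : Set V} (hK : IsSymBody K) {u : V} (hu : ‖u‖ = 1) {m : ℕ}
    (hm : 1 ≤ m) {y : ℝ} (hy : y ∉ Icc (-supp K u) (supp K u)) : prof K u m y = 0 := by
  rcases lt_or_ge (supp K u) y with h | h
  · exact prof_eq_zero_of_lt hK.compact hu hm h
  · rw [← prof_even hK hu]
    refine prof_eq_zero_of_lt hK.compact hu hm ?_
    by_contra h'
    exact hy ⟨by linarith only [not_lt.1 h'], h⟩

theorem prof_combo {m : ℕ} (hm : 1 ≤ m) (hd : finrank ℝ V = m + 1) {K : Set V}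
    (hK : IsSymBody K) {u : V} (hu : ‖u‖ = 1) {y z a b : ℝ}
    (hy : y ∈ Icc (-supp K u) (supp K u)) (hz : z ∈ Icc (-supp K u) (supp K u))
    (ha : 0 ≤ a) (hb : 0 ≤ b) (hab : a + b = 1) :
    a * prof K u m y + b * prof K u m z ≤ prof K u m (a * y + b * z) := by
  have h2 := finrank_perp_gen hd hu
  have hKc := hK.compact
  have hm' : (m : ℝ) ≠ 0 := by positivity
  have bm := brunn_minkowski (V := ((ℝ ∙ u)ᗮ : Submodule ℝ V))
    ((slice_isCompact hKc u y).smul a) ((slice_isCompact hKc u z).smul b)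
    ((slice_nonempty hK hu hy).smul_set) ((slice_nonempty hK hu hz).smul_set) (by omega)
  rw [h2, vol_smul_set, vol_smul_set, h2, abs_of_nonneg ha, abs_of_nonneg hb,
    Real.mul_rpow (by positivity) (vol_nonneg _), Real.mul_rpow (by (clear * - hb; positivity)) (vol_nonneg _)]
    at bm
  have e : ∀ t : ℝ, 0 ≤ t → (t ^ m) ^ ((1 : ℝ) / m) = t := by
    intro t ht
    rw [← Real.rpow_natCast, ← Real.rpow_mul ht, mul_one_div_cancel hm', Real.rpow_one]
  rw [e a ha, e b hb] at bm
  refine bm.trans ?_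
  unfold prof
  exact Real.rpow_le_rpow (vol_nonneg _)
    (vol_mono (slice_isCompact hKc u _) (slice_combo_subset hK.convex u y z ha hb hab))
    (by positivity)

theorem prof_concave {m : ℕ} (hm : 1 ≤ m) (hd : finrank ℝ V = m + 1) {K : Set V}
    (hK : IsSymBody K) {u : V} (hu : ‖u‖ = 1) :
    ConcaveOn ℝ (Icc (-supp K u) (supp K u)) (prof K u m) := by
  refine ⟨convex_Icc _ _, ?_⟩
  intro y hy z hz a b ha hb hab
  simp only [smul_eq_mul]
  exact prof_combo hm hd hK hu hy hz ha hb hab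

theorem prof_antitone {m : ℕ} (hm : 1 ≤ m) (hd : finrank ℝ V = m + 1) {K : Set V}
    (hK : IsSymBody K) {u : V} (hu : ‖u‖ = 1) :
    AntitoneOn (prof K u m) (Icc 0 (supp K u)) := by
  apply antitone_of_combo
  intro y hy a b ha hb hab
  have hpos := supp_pos hK hu
  have h := prof_combo hm hd hK hu (y := y) (z := -y) ⟨by linarith only [hy.1, hpos], hy.2⟩
    ⟨by linarith [hy.2], by linarith [hy.1]⟩ ha hb hab
  rwa [prof_even hK hu, ← add_mul, hab, one_mul] at h

theorem prof_le_prof_zero {m : ℕ} (hm : 1 ≤ m) (hd : finrank ℝ V = m + 1) {K : Set V}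
    (hK : IsSymBody K) {u : V} (hu : ‖u‖ = 1) (y : ℝ) : prof K u m y ≤ prof K u m 0 := by
  by_cases hy : y ∈ Icc (-supp K u) (supp K u)
  · have h := prof_combo hm hd hK hu (y := y) (z := -y) (a := 1 / 2) (b := 1 / 2) hy
      ⟨by linarith only [hy.2], by linarith only [hy.1]⟩ (by norm_num) (by norm_num) (by norm_num)
    have e : (1 / 2 : ℝ) * y + 1 / 2 * -y = 0 := by ring
    rw [prof_even hK hu, e] at h
    linarith only [h]
  · rw [prof_eq_zero hK hu hm hy]
    exact prof_nonneg _ _ _ _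

theorem prof_monotone_neg {m : ℕ} (hm : 1 ≤ m) (hd : finrank ℝ V = m + 1) {K : Set V}
    (hK : IsSymBody K) {u : V} (hu : ‖u‖ = 1) :
    MonotoneOn (prof K u m) (Icc (-supp K u) 0) := by
  intro y hy z hz hyz
  rw [← prof_even hK hu m y, ← prof_even hK hu m z]
  exact prof_antitone hm hd hK hu ⟨by linarith only [hz.2], by linarith only [hz.1]⟩
    ⟨by linarith [hy.2], by linarith [hy.1]⟩ (by linarith)

theorem prof_pow_intervalIntegrable {m : ℕ} (hm : 1 ≤ m) (hd : finrank ℝ V = m + 1) {K : Set V}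
    (hK : IsSymBody K) {u : V} (hu : ‖u‖ = 1) (k : ℕ) :
    IntervalIntegrable (fun y => prof K u m y ^ k) volume (-supp K u) (supp K u) := by
  have hpos := supp_pos hK hu
  refine IntervalIntegrable.trans (b := 0) ?_ ?_
  · refine MonotoneOn.intervalIntegrable ?_
    rw [uIcc_of_le (by linarith only [hpos])]
    intro y hy z hz hyz
    exact pow_le_pow_left₀ (prof_nonneg _ _ _ _) (prof_monotone_neg hm hd hK hu hy hz hyz) k
  · refine AntitoneOn.intervalIntegrable ?_
    rw [uIcc_of_le hpos.le]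
    intro y hy z hz hyz
    exact pow_le_pow_left₀ (prof_nonneg _ _ _ _) (prof_antitone hm hd hK hu hy hz hyz) k

theorem prof_pow_eq_indicator {m : ℕ} (hm : 1 ≤ m) {K : Set V}
    (hK : IsSymBody K) {u : V} (hu : ‖u‖ = 1) {k : ℕ} (hk : 1 ≤ k) :
    (fun y => prof K u m y ^ k) =
      (Icc (-supp K u) (supp K u)).indicator (fun y => prof K u m y ^ k) := by
  funext y
  by_cases hy : y ∈ Icc (-supp K u) (supp K u)
  · rw [indicator_of_mem hy]
  · rw [indicator_of_notMem hy, prof_eq_zero hK hu hm hy, zero_pow (by omega)]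

theorem prof_pow_integrable {m : ℕ} (hm : 1 ≤ m) (hd : finrank ℝ V = m + 1) {K : Set V}
    (hK : IsSymBody K) {u : V} (hu : ‖u‖ = 1) {k : ℕ} (hk : 1 ≤ k) :
    Integrable (fun y => prof K u m y ^ k) := by
  have hpos := supp_pos hK hu
  rw [prof_pow_eq_indicator hm hK hu hk, integrable_indicator_iff measurableSet_Icc]
  exact (intervalIntegrable_iff_integrableOn_Icc_of_le (by linarith only [hpos])).1
    (prof_pow_intervalIntegrable hm hd hK hu k)

/-- the integral over the line is the integral over `[-h, h]` (also used for `k < m`) -/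
theorem integral_prof_pow {m : ℕ} (hm : 1 ≤ m) {K : Set V}
    (hK : IsSymBody K) {u : V} (hu : ‖u‖ = 1) {k : ℕ} (hk : 1 ≤ k) :
    ∫ y : ℝ, prof K u m y ^ k = ∫ y in (-supp K u)..(supp K u), prof K u m y ^ k := by
  rw [intervalIntegral.integral_of_le
    (by linarith only [supp_pos hK hu]), ← integral_Icc_eq_integral_Ioc]
  refine (setIntegral_eq_integral_of_forall_compl_eq_zero fun y hy => ?_).symm
  rw [prof_eq_zero hK hu hm hy, zero_pow (by omega)]

theorem vol_eq_integral_prof {m : ℕ} (hm : 1 ≤ m) {K : Set V}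
    (hK : IsSymBody K) {u : V} (hu : ‖u‖ = 1) :
    vol K = ∫ y : ℝ, prof K u m y ^ m := by
  rw [vol_eq_integral_slice hK.compact hu]
  refine integral_congr_ae (Filter.Eventually.of_forall fun y => ?_)
  simp only [prof_pow hm]

theorem vol_eq_intervalIntegral_prof {m : ℕ} (hm : 1 ≤ m) {K : Set V}
    (hK : IsSymBody K) {u : V} (hu : ‖u‖ = 1) :
    vol K = ∫ y in (-supp K u)..(supp K u), prof K u m y ^ m := by
  rw [vol_eq_integral_prof hm hK hu, integral_prof_pow hm hK hu hm]

omit [FiniteDimensional ℝ V] [MeasurableSpace V] [BorelSpace V] in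
/-- a small ball around an interior point of `K` gives a slice with nonempty interior -/
theorem exists_ball_slice {K : Set V} (hK : IsSymBody K) (u : V) :
    ∃ r > 0, closedBall (0 : ((ℝ ∙ u)ᗮ : Submodule ℝ V)) r ⊆ slice K u 0 := by
  have h0 : (0 : V) ∈ interior K := by
    obtain ⟨x, hx⟩ := hK.int
    have hc : Convex ℝ (interior K) := hK.convex.interior
    have hn : -x ∈ interior K := by
      rw [mem_interior] at hx ⊢
      obtain ⟨t, htK, hto, hxt⟩ := hx
      refine ⟨-t, ?_, hto.neg, Set.neg_mem_neg.2 hxt⟩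
      intro y hy
      have := hK.symm _ (htK (Set.mem_neg.1 hy))
      rwa [neg_neg] at this
    have h := hc hx hn (by norm_num : (0 : ℝ) ≤ 1 / 2) (by norm_num : (0 : ℝ) ≤ 1 / 2)
      (by norm_num)
    rw [smul_neg, add_neg_cancel] at h
    exact h
  obtain ⟨ε, hε, hb⟩ := Metric.mem_nhds_iff.1 (mem_interior_iff_mem_nhds.1 h0)
  refine ⟨ε / 2, by positivity, ?_⟩
  intro z hz
  show (z : V) + (0 : ℝ) • u ∈ K
  apply hb
  rw [mem_closedBall_zero_iff, Submodule.coe_norm] at hz
  rw [zero_smul, add_zero, mem_ball_zero_iff]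
  linarith only [hz, hε]

theorem prof_zero_pos {m : ℕ} {K : Set V} (hK : IsSymBody K) (u : V) :
    0 < prof K u m 0 := by
  obtain ⟨r, hr, hb⟩ := exists_ball_slice hK u
  unfold prof
  refine Real.rpow_pos_of_pos ?_ _
  unfold vol
  refine ENNReal.toReal_pos ?_ (slice_isCompact hK.compact u 0).measure_lt_top.ne
  have h1 : 0 < volume (ball (0 : ((ℝ ∙ u)ᗮ : Submodule ℝ V)) r) := measure_ball_pos _ _ hr
  exact (lt_of_lt_of_le h1 (measure_mono (ball_subset_closedBall.trans hb))).ne'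

theorem prof_pos {m : ℕ} (hm : 1 ≤ m) (hd : finrank ℝ V = m + 1) {K : Set V}
    (hK : IsSymBody K) {u : V} (hu : ‖u‖ = 1) {y : ℝ}
    (hy : y ∈ Ioo (-supp K u) (supp K u)) : 0 < prof K u m y := by
  have hpos := supp_pos hK hu
  set h := supp K u with hh
  -- first for `0 ≤ y`
  have key : ∀ t : ℝ, 0 ≤ t → t < h → 0 < prof K u m t := by
    intro t ht0 ht
    have hc := prof_combo hm hd hK hu (y := 0) (z := h) (a := (h - t) / h) (b := t / h)
      ⟨by linarith only [ht, ht0], hpos.le⟩ ⟨by linarith only [ht, ht0], le_refl _⟩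
      (div_nonneg (by linarith) hpos.le) (div_nonneg ht0 hpos.le) (by field_simp; ring)
    have e : (h - t) / h * 0 + t / h * h = t := by field_simp; ring
    rw [e] at hc
    have h1 : 0 < (h - t) / h * prof K u m 0 :=
      mul_pos (div_pos (by linarith only [ht]) hpos) (prof_zero_pos hK u)
    have h2 : 0 ≤ t / h * prof K u m h :=
      mul_nonneg (div_nonneg ht0 hpos.le) (prof_nonneg _ _ _ _)
    linarith only [h2, h1, hc]
  rcases le_total 0 y with h0 | h0
  · exact key y h0 hy.2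
  · rw [← prof_even hK hu]
    exact key (-y) (by linarith) (by linarith [hy.1])

end Vale.Agent.P237.AllN
end

section

/-!
# P237-N-B1: a lower bound for the shadows of the projection body, general dimension
-/

open MeasureTheory Metric Set Module
open scoped Pointwise

namespace Vale.Agent.P237.AllN

variable {V : Type*} [NormedAddCommGroup V] [InnerProductSpace ℝ V] [FiniteDimensional ℝ V]
  [MeasurableSpace V] [BorelSpace V]

theorem rpow_scale {d : ℕ} (hd : 0 < d) {a v : ℝ} (ha : 0 ≤ a) (hv : 0 ≤ v) :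
    (|a| ^ d * v) ^ ((1 : ℝ) / d) = a * v ^ ((1 : ℝ) / d) := by
  rw [abs_of_nonneg ha, Real.mul_rpow (by positivity) hv, one_div,
    Real.pow_rpow_inv_natCast ha (by omega)]

/-- The symmetric combination of a compact set and its reflection has at least the same
volume. -/
theorem vol_le_of_combo (hd : 0 < finrank ℝ V) {A C : Set V} (hA : IsCompact A)
    (hne : A.Nonempty) (hC : IsCompact C) {a b : ℝ} (ha : 0 ≤ a) (hb : 0 ≤ b) (hab : a + b = 1)
    (hsub : a • A + b • (-A) ⊆ C) : vol A ≤ vol C := by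
  have bm := brunn_minkowski (hA.smul a) (hA.neg.smul b) hne.smul_set hne.neg.smul_set hd
  rw [vol_smul_set, vol_smul_set, rpow_scale hd ha (vol_nonneg _),
    rpow_scale hd hb (vol_nonneg _)] at bm
  have e : vol (-A) = vol A := by
    unfold vol
    rw [Measure.measure_neg]
  rw [e, ← add_mul, hab, one_mul] at bm
  have h1 : vol (a • A + b • -A) ≤ vol C := vol_mono hC hsub
  have hp : (0 : ℝ) < (1 : ℝ) / finrank ℝ V := by
    have : (0 : ℝ) < finrank ℝ V := by exact_mod_cast hd
    positivity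
  exact ((Real.rpow_le_rpow_iff (vol_nonneg _) (vol_nonneg _) hp).1 bm).trans h1

theorem vol_slice_antitone {m : ℕ} (hm : 1 ≤ m) (hd : finrank ℝ V = m + 1) {K : Set V}
    (hK : IsSymBody K) {u : V} (hu : ‖u‖ = 1) :
    AntitoneOn (fun y => vol (slice K u y)) (Icc 0 (supp K u)) := by
  apply antitone_of_combo
  intro y hy a b ha hb hab
  have h2 := finrank_perp_gen hd hu
  have hpos := supp_pos hK hu
  have hne1 : (slice K u y).Nonempty := slice_nonempty hK hu ⟨by linarith only [hy.1, hpos], hy.2⟩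
  refine vol_le_of_combo (by omega) (slice_isCompact hK.compact u y) hne1
    (slice_isCompact hK.compact u _) ha hb hab ?_
  rw [← slice_neg hK.symm]
  exact slice_combo_subset hK.convex u y (-y) ha hb hab

theorem beta_slice_antitone_gen {m : ℕ} (hm : 2 ≤ m) (hd : finrank ℝ V = m + 1) {K : Set V}
    (hK : IsSymBody K) {u : V} (hu : ‖u‖ = 1) (w : ((ℝ ∙ u)ᗮ : Submodule ℝ V)) :
    AntitoneOn (fun y => beta (slice K u y) w) (Icc 0 (supp K u)) := by
  by_cases hw : w = 0
  · subst hw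
    intro y _ z _ _
    simp only [beta_zero, le_refl]
  have h2 := finrank_perp_gen hd hu
  apply antitone_of_combo
  intro y hy a b ha hb hab
  have hpos := supp_pos hK hu
  have hne1 : (slice K u y).Nonempty := slice_nonempty hK hu ⟨by linarith only [hy.1, hpos], hy.2⟩
  have hc1 := slice_isCompact hK.compact u y
  have hc3 := slice_isCompact hK.compact u (a * y + b * (-y))
  rw [beta_eq_norm_mul hc1 (slice_convex hK.convex u y) hw,
    beta_eq_norm_mul hc3 (slice_convex hK.convex u _) hw]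
  refine mul_le_mul_of_nonneg_left ?_ (norm_nonneg _)
  set e := ‖w‖⁻¹ • w with he
  have he1 : ‖e‖ = 1 := norm_unit hw
  obtain ⟨k, rfl⟩ : ∃ k, m = k + 1 := ⟨m - 1, by omega⟩
  have h3 := finrank_perp_gen h2 he1
  set P := (ℝ ∙ e)ᗮ.orthogonalProjectionOnto with hP
  have hcont : Continuous P := ContinuousLinearMap.continuous _
  have key := vol_le_of_combo (V := ((ℝ ∙ e)ᗮ : Submodule ℝ ((ℝ ∙ u)ᗮ : Submodule ℝ V)))
    (A := P '' slice K u y) (C := P '' slice K u (a * y + b * (-y))) (a := a) (b := b)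
    (by omega) (hc1.image hcont) (hne1.image _) (hc3.image hcont) ha hb hab ?_
  · exact key
  · have hsub := slice_combo_subset hK.convex u y (-y) ha hb hab
    rw [slice_neg hK.symm] at hsub
    rintro _ ⟨_, ⟨_, ⟨p, hp, rfl⟩, rfl⟩, _, ⟨q, hq, rfl⟩, rfl⟩
    obtain ⟨q', hq', hqe⟩ := Set.mem_neg.1 hq
    refine ⟨a • p + b • (-q'), hsub (add_mem_add (smul_mem_smul_set hp)
      (smul_mem_smul_set (Set.neg_mem_neg.2 hq'))), ?_⟩
    have : q = -P q' := by rw [hqe, neg_neg]
    rw [this, map_add, map_smul, map_smul, map_neg]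

/-- A convex compact set with empty interior has zero volume. -/
theorem vol_eq_zero_of_interior {S : Set V} (hS : IsCompact S) (hc : Convex ℝ S)
    (hi : ¬ (interior S).Nonempty) : vol S = 0 := by
  unfold vol
  have h1 : volume (frontier S) = 0 := hc.addHaar_frontier volume
  have h2 : S ⊆ frontier S := by
    rw [not_nonempty_iff_eq_empty] at hi
    rw [frontier, hi, hS.isClosed.closure_eq, sdiff_empty]
  rw [measure_mono_null h2 h1, ENNReal.toReal_zero]

theorem exists_T {m : ℕ} (hm : 2 ≤ m) (hd : finrank ℝ V = m) {R : ℝ} (hR : 0 ≤ R)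
    (hP : ∀ S : Set V, IsBody S → R * vol S ^ (m - 1) ≤ vol (projBody S))
    {S : Set V} (hS : IsCompact S) (hc : Convex ℝ S) :
    ∃ T : Set V, IsCompact T ∧ T.Nonempty ∧ (∀ z ∈ T, ∀ w, inner ℝ z w ≤ beta S w) ∧
      R ^ ((1 : ℝ) / m) * (vol S ^ ((1 : ℝ) / m)) ^ (m - 1) ≤ vol T ^ ((1 : ℝ) / m) := by
  have hmR : (m : ℝ) ≠ 0 := by
    have : (0 : ℝ) < m := by exact_mod_cast (by omega : 0 < m)
    exact this.ne'
  by_cases hi : (interior S).Nonempty
  · have hB : IsBody S := ⟨hc, hS, hi⟩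
    have hPi := projBody_isSymBody hB
    refine ⟨projBody S, hPi.compact, hPi.int.mono interior_subset, ?_, ?_⟩
    · intro z hz w
      rw [projBody_eq_wulff hS hc] at hz
      exact hz w
    · have h1 := hP S hB
      have h2 : (R * vol S ^ (m - 1)) ^ ((1 : ℝ) / m) ≤ vol (projBody S) ^ ((1 : ℝ) / m) :=
        Real.rpow_le_rpow (mul_nonneg hR (pow_nonneg (vol_nonneg _) _)) h1 (by positivity)
      refine le_trans (le_of_eq ?_) h2
      rw [Real.mul_rpow hR (pow_nonneg (vol_nonneg _) _)]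
      congr 1
      rw [← Real.rpow_natCast, ← Real.rpow_natCast, ← Real.rpow_mul (vol_nonneg _),
        ← Real.rpow_mul (vol_nonneg _), mul_comm]
  · refine ⟨{0}, isCompact_singleton, singleton_nonempty _, ?_, ?_⟩
    · rintro z rfl w
      rw [inner_zero_left]
      exact beta_nonneg hS hc w
    · rw [vol_eq_zero_of_interior hS hc hi, Real.zero_rpow (by positivity),
        zero_pow (by omega), mul_zero]
      exact Real.rpow_nonneg (vol_nonneg _) _

/-- The key inequality with `N` slices. -/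
theorem root_vol_ge {m : ℕ} (hm : 2 ≤ m) (hd : finrank ℝ V = m + 1) {K : Set V}
    (hK : IsSymBody K) {u : V} (hu : ‖u‖ = 1) {R : ℝ} (hR : 0 ≤ R)
    (hP : ∀ S : Set ((ℝ ∙ u)ᗮ : Submodule ℝ V), IsBody S →
      R * vol S ^ (m - 1) ≤ vol (projBody S))
    {D : Set ((ℝ ∙ u)ᗮ : Submodule ℝ V)} (hDc : IsCompact D)
    (hD : D = {z | ∀ w : ((ℝ ∙ u)ᗮ : Submodule ℝ V), inner ℝ z w ≤ beta K (w : V)})
    {N : ℕ} (hN : 0 < N) :
    R ^ ((1 : ℝ) / m) * (∫ y : ℝ, prof K u m y ^ (m - 1)) ≤
      vol D ^ ((1 : ℝ) / m) +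
        2 * (supp K u / N) * (R ^ ((1 : ℝ) / m) * prof K u m 0 ^ (m - 1)) := by
  have h2 := finrank_perp_gen hd hu
  have hKc := hK.compact
  have hpos := supp_pos hK hu
  set h := supp K u with hh
  have hN' : (0 : ℝ) < N := by exact_mod_cast hN
  set c : ℝ := h / N with hc
  have hcpos : 0 < c := by positivity
  have hm0 : m - 1 ≠ 0 := by omega
  have hmpos : 0 < m := by omega
  set S : Fin N → Set ((ℝ ∙ u)ᗮ : Submodule ℝ V) := fun j => slice K u (c * ((j : ℕ) + 1)) with hS
  have hSc : ∀ j, IsCompact (S j) := fun j => slice_isCompact hKc u _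
  have hSconv : ∀ j, Convex ℝ (S j) := fun j => slice_convex hK.convex u _
  choose T hTc hTne hTb hTvol using fun j => exists_T hm h2 hR hP (hSc j) (hSconv j)
  -- D contains the scaled Minkowski sum
  have hsub : (2 * c) • ∑ j, T j ⊆ D := by
    rintro _ ⟨z, hz, rfl⟩
    rw [hD]
    intro w
    obtain ⟨g, hg, rfl⟩ := (Set.mem_fintype_sum _ _).1 hz
    show inner ℝ ((2 * c) • ∑ j, g j) w ≤ beta K (w : V)
    rw [real_inner_smul_left, sum_inner, beta_eq_integral_slice hKc hu w]
    have hRl := riemann_lower (f := fun y => beta (slice K u y) w) hpos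
      (beta_slice_antitone_gen hm hd hK hu w)
      (fun y hy => by
        show beta (slice K u y) w = 0
        rw [slice_eq_empty hKc hu hy, beta_empty])
      (fun y => by
        show beta (slice K u (-y)) w = beta (slice K u y) w
        rw [slice_neg hK.symm, beta_neg_set]) hN
    refine le_trans ?_ hRl
    exact mul_le_mul_of_nonneg_left (Finset.sum_le_sum fun j _ => hTb j (g j) (hg j) w)
      (by (clear * - hpos hN; positivity))
  have hsumc : IsCompact (∑ j, T j) := isCompact_sum hTc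
  have hvol2 : 2 * c * vol (∑ j, T j) ^ ((1 : ℝ) / m) ≤ vol D ^ ((1 : ℝ) / m) := by
    have h3 := vol_mono hDc hsub
    rw [vol_smul_set, h2] at h3
    have h4 := Real.rpow_le_rpow (by positivity [vol_nonneg (∑ j, T j)]) h3
      (by positivity : (0 : ℝ) ≤ (1 : ℝ) / m)
    rwa [rpow_scale hmpos (by positivity) (vol_nonneg _)] at h4
  have hbm := bm_sum (V := ((ℝ ∙ u)ᗮ : Submodule ℝ V)) hTc hTne (by omega)
  rw [h2] at hbm
  have hs1 : ∑ j, R ^ ((1 : ℝ) / m) * (vol (S j) ^ ((1 : ℝ) / m)) ^ (m - 1) ≤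
      vol (∑ j, T j) ^ ((1 : ℝ) / m) :=
    (Finset.sum_le_sum fun j _ => hTvol j).trans hbm
  have hU := riemann_upper (f := fun y => prof K u m y ^ (m - 1)) hpos
      (fun y hy z hz hyz => by
        show prof K u m z ^ (m - 1) ≤ prof K u m y ^ (m - 1)
        refine pow_le_pow_left₀ (Real.rpow_nonneg (vol_nonneg _) _) ?_ _
        exact Real.rpow_le_rpow (vol_nonneg _)
          (vol_slice_antitone (by omega) hd hK hu hy hz hyz) (by positivity))
      (pow_nonneg (Real.rpow_nonneg (vol_nonneg _) _) _)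
      (fun y hy => by
        show prof K u m y ^ (m - 1) = 0
        unfold prof
        rw [slice_eq_empty hKc hu hy]
        have e : vol (∅ : Set ((ℝ ∙ u)ᗮ : Submodule ℝ V)) = 0 := by simp [vol]
        rw [e, Real.zero_rpow (by positivity), zero_pow hm0])
      (fun y => by
        show prof K u m (-y) ^ (m - 1) = prof K u m y ^ (m - 1)
        unfold prof
        rw [slice_vol_even hK hu]) hN
  rw [← Finset.mul_sum] at hs1
  have hRr : 0 ≤ R ^ ((1 : ℝ) / m) := Real.rpow_nonneg hR _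
  have hU' : (∫ y : ℝ, prof K u m y ^ (m - 1)) ≤ 2 * c * (prof K u m 0 ^ (m - 1) +
      ∑ j, (vol (S j) ^ ((1 : ℝ) / m)) ^ (m - 1)) := hU
  have h5 : 2 * c * (R ^ ((1 : ℝ) / m) * ∑ j, (vol (S j) ^ ((1 : ℝ) / m)) ^ (m - 1)) ≤
      2 * c * vol (∑ j, T j) ^ ((1 : ℝ) / m) :=
    mul_le_mul_of_nonneg_left hs1 (by positivity)
  have h6 := mul_le_mul_of_nonneg_left hU' hRr
  calc _ ≤ _ := h6
    _ = 2 * c * (R ^ ((1 : ℝ) / m) * ∑ j, (vol (S j) ^ ((1 : ℝ) / m)) ^ (m - 1)) +
        2 * c * (R ^ ((1 : ℝ) / m) * prof K u m 0 ^ (m - 1)) := by ring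
    _ ≤ _ := by linarith

theorem shadow_projBody_ge_gen {m : ℕ} (hm : 2 ≤ m) (hd : finrank ℝ V = m + 1) {K : Set V}
    (hK : IsSymBody K) {u : V} (hu : ‖u‖ = 1) {R : ℝ} (hR : 0 ≤ R)
    (hP : ∀ S : Set ((ℝ ∙ u)ᗮ : Submodule ℝ V), IsBody S →
      R * vol S ^ (m - 1) ≤ vol (projBody S)) :
    R * (∫ y : ℝ, prof K u m y ^ (m - 1)) ^ m ≤ shadow (projBody K) u := by
  have hKc := hK.compact
  have hPi := projBody_isSymBody hK.toIsBody
  have hD : (ℝ ∙ u)ᗮ.orthogonalProjectionOnto '' (projBody K) =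
      {z | ∀ w : ((ℝ ∙ u)ᗮ : Submodule ℝ V), inner ℝ z w ≤ beta K (w : V)} := by
    rw [projBody_eq_wulff hKc hK.convex]
    refine wulff_proj (fun t v ht => ?_) (beta_add_le hKc hK.convex) _
    rw [beta_smul hKc hK.convex, abs_of_nonneg ht]
  have hDc : IsCompact ((ℝ ∙ u)ᗮ.orthogonalProjectionOnto '' (projBody K)) :=
    hPi.compact.image (ContinuousLinearMap.continuous _)
  have hRr : 0 ≤ R ^ ((1 : ℝ) / m) := Real.rpow_nonneg hR _
  have hp0 : 0 ≤ prof K u m 0 ^ (m - 1) := pow_nonneg (Real.rpow_nonneg (vol_nonneg _) _) _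
  have hsh : 0 ≤ shadow (projBody K) u := shadow_nonneg _ _
  have key : R ^ ((1 : ℝ) / m) * (∫ y : ℝ, prof K u m y ^ (m - 1)) ≤
      shadow (projBody K) u ^ ((1 : ℝ) / m) := by
    refine le_of_forall_pos_le_add fun ε hε => ?_
    set C : ℝ := 2 * supp K u * (R ^ ((1 : ℝ) / m) * prof K u m 0 ^ (m - 1)) with hC
    have hnn : 0 ≤ C / ε := by
      have := supp_pos hK hu
      positivity
    obtain ⟨N, hN⟩ := exists_nat_gt (C / ε)
    have hN' : (0 : ℝ) < N := hnn.trans_lt hN
    have hN0 : 0 < N := by exact_mod_cast hN'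
    have h1 := root_vol_ge hm hd hK hu hR hP hDc hD hN0
    have h3 : 2 * (supp K u / N) * (R ^ ((1 : ℝ) / m) * prof K u m 0 ^ (m - 1)) ≤ ε := by
      rw [div_lt_iff₀ hε] at hN
      have : 2 * (supp K u / N) * (R ^ ((1 : ℝ) / m) * prof K u m 0 ^ (m - 1)) = C / N := by
        rw [hC]
        ring
      rw [this, div_le_iff₀ hN']
      linarith
    have e : vol ((ℝ ∙ u)ᗮ.orthogonalProjectionOnto '' (projBody K)) = shadow (projBody K) u := rfl
    rw [e] at h1
    linarith
  have hI : 0 ≤ ∫ y : ℝ, prof K u m y ^ (m - 1) :=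
    integral_nonneg fun y => pow_nonneg (Real.rpow_nonneg (vol_nonneg _) _) _
  have hm0 : m ≠ 0 := by omega
  have h7 := pow_le_pow_left₀ (mul_nonneg hRr hI) key m
  rw [mul_pow, one_div, Real.rpow_inv_natCast_pow hR hm0, Real.rpow_inv_natCast_pow hsh hm0] at h7
  exact h7

end Vale.Agent.P237.AllN
end

section

open MeasureTheory Set Filter Topology
open scoped Pointwise ENNReal NNReal

namespace Vale.Agent.P237
namespace BMEq

/-- quantile function -/
theorem exists_quantile {a : ℝ → ℝ} {α α' V : ℝ} (hα : α < α')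
    (hc : ContinuousOn a (Ioo α α')) (hp : ∀ y ∈ Ioo α α', 0 < a y)
    (hi : IntervalIntegrable a volume α α') (hV : ∫ y in α..α', a y = V) :
    ∃ P : ℝ → ℝ, (∀ l ∈ Ioo 0 V, P l ∈ Ioo α α' ∧ ∫ y in α..(P l), a y = l) ∧
      (∀ y ∈ Ioo α α', (∫ t in α..y, a t) ∈ Ioo 0 V ∧ P (∫ t in α..y, a t) = y) ∧
      (∀ l ∈ Ioo 0 V, HasDerivAt P (a (P l))⁻¹ l) ∧ StrictMonoOn P (Ioo 0 V) := by
  set F : ℝ → ℝ := fun y => ∫ t in α..y, a t with hF
  have hii : ∀ y ∈ Icc α α', ∀ z ∈ Icc α α', IntervalIntegrable a volume y z := by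
    intro y hy z hz
    apply hi.mono_set
    rw [uIcc_of_le hα.le]
    exact uIcc_subset_Icc hy hz
  have hFmono : StrictMonoOn F (Icc α α') := by
    intro y hy z hz hyz
    have h1 : F z = F y + ∫ t in y..z, a t :=
      (intervalIntegral.integral_add_adjacent_intervals
        (hii α (left_mem_Icc.mpr hα.le) y hy) (hii y hy z hz)).symm
    have h2 : 0 < ∫ t in y..z, a t :=
      intervalIntegral.intervalIntegral_pos_of_pos_on (hii y hy z hz)
        (fun x hx => hp x ⟨lt_of_le_of_lt hy.1 hx.1, lt_of_lt_of_le hx.2 hz.2⟩) hyz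
    rw [h1]; linarith only [h2]
  have hFα : F α = 0 := intervalIntegral.integral_same
  have hFα' : F α' = V := hV
  have hV0 : 0 < V := by
    rw [← hFα, ← hFα']
    exact hFmono (left_mem_Icc.mpr hα.le) (right_mem_Icc.mpr hα.le) hα
  have hFc : ContinuousOn F (Icc α α') := by
    have := intervalIntegral.continuousOn_primitive_interval' (μ := volume) (f := a)
      (b₁ := α) (b₂ := α') (a := α) hi left_mem_uIcc
    rwa [uIcc_of_le hα.le] at this
  have hFd : ∀ y ∈ Ioo α α', HasDerivAt F (a y) y := by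
    intro y hy
    exact intervalIntegral.integral_hasDerivAt_right
      (hii α (left_mem_Icc.mpr hα.le) y (Ioo_subset_Icc_self hy))
      (hc.stronglyMeasurableAtFilter isOpen_Ioo y hy)
      (hc.continuousAt (isOpen_Ioo.mem_nhds hy))
  have hFm : ∀ y ∈ Ioo α α', F y ∈ Ioo 0 V := by
    intro y hy
    constructor
    · rw [← hFα]; exact hFmono (left_mem_Icc.mpr hα.le) (Ioo_subset_Icc_self hy) hy.1
    · rw [← hFα']; exact hFmono (Ioo_subset_Icc_self hy) (right_mem_Icc.mpr hα.le) hy.2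
  have hsurj : ∀ l, ∃ y, l ∈ Ioo 0 V → y ∈ Ioo α α' ∧ F y = l := by
    intro l
    by_cases hl : l ∈ Ioo 0 V
    · rw [← hFα, ← hFα'] at hl
      obtain ⟨y, hy, hy2⟩ := intermediate_value_Ioo hα.le hFc hl
      exact ⟨y, fun _ => ⟨hy, hy2⟩⟩
    · exact ⟨0, fun h => absurd h hl⟩
  choose P hP using hsurj
  have hPinv : ∀ y ∈ Ioo α α', P (F y) = y := by
    intro y hy
    have h1 := hP (F y) (hFm y hy)
    exact hFmono.injOn (Ioo_subset_Icc_self h1.1) (Ioo_subset_Icc_self hy) h1.2
  have hPmono : StrictMonoOn P (Ioo 0 V) := by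
    intro l hl m hm hlm
    by_contra hcon
    push Not at hcon
    have h1 := hFmono.monotoneOn (Ioo_subset_Icc_self (hP m hm).1)
      (Ioo_subset_Icc_self (hP l hl).1) hcon
    rw [(hP m hm).2, (hP l hl).2] at h1
    linarith
  have hPc : ∀ l ∈ Ioo 0 V, ContinuousAt P l := by
    intro l hl
    apply hPmono.continuousAt_of_image_mem_nhds (isOpen_Ioo.mem_nhds hl)
    apply mem_of_superset (isOpen_Ioo.mem_nhds (hP l hl).1)
    intro y hy
    exact ⟨F y, hFm y hy, hPinv y hy⟩
  refine ⟨P, fun l hl => hP l hl, fun y hy => ⟨hFm y hy, hPinv y hy⟩, fun l hl => ?_, hPmono⟩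
  apply HasDerivAt.of_local_left_inverse (hPc l hl) (hFd _ (hP l hl).1) (hp _ (hP l hl).1).ne'
  filter_upwards [isOpen_Ioo.mem_nhds hl] with m hm
  exact (hP m hm).2

theorem amgm_eq {x y : ℝ} (hx : 0 < x) (hy : 0 < y) :
    1 ≤ (x⁻¹ + y⁻¹) / 2 * Real.sqrt (x * y) ∧
      ((x⁻¹ + y⁻¹) / 2 * Real.sqrt (x * y) = 1 → x = y) := by
  have hs : Real.sqrt (x * y) = Real.sqrt x * Real.sqrt y := Real.sqrt_mul hx.le y
  have hp : 0 < Real.sqrt x := Real.sqrt_pos.mpr hx
  have hq : 0 < Real.sqrt y := Real.sqrt_pos.mpr hy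
  have hx2 : x = Real.sqrt x ^ 2 := (Real.sq_sqrt hx.le).symm
  have hy2 : y = Real.sqrt y ^ 2 := (Real.sq_sqrt hy.le).symm
  rw [hs]
  generalize Real.sqrt x = p at *
  generalize Real.sqrt y = q at *
  subst hx2
  subst hy2
  have key : ((p ^ 2)⁻¹ + (q ^ 2)⁻¹) / 2 * (p * q) = 1 + (p - q) ^ 2 / (2 * p * q) := by
    field_simp
    ring
  rw [key]
  constructor
  · have : 0 ≤ (p - q) ^ 2 / (2 * p * q) := by (clear * - hp hq; positivity)
    linarith only [this]
  · intro h
    have h1 : (p - q) ^ 2 / (2 * p * q) = 0 := by linarith only [h]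
    rw [div_eq_zero_iff] at h1
    rcases h1 with h1 | h1
    · have : p - q = 0 := by simpa using h1
      have : p = q := by linarith only [this]
      rw [this]
    · have : 0 < 2 * p * q := by positivity
      linarith only [h1, this]

/-- Equality case of the one-dimensional Prekopa-Leindler inequality. -/
theorem oneD {a b : ℝ → ℝ} {e : ℝ → ℝ≥0∞} {α α' β β' V : ℝ} (hα : α < α') (hβ : β < β')
    (hac : ContinuousOn a (Ioo α α')) (hap : ∀ y ∈ Ioo α α', 0 < a y)
    (hai : IntervalIntegrable a volume α α') (haV : ∫ y in α..α', a y = V)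
    (hbc : ContinuousOn b (Ioo β β')) (hbp : ∀ y ∈ Ioo β β', 0 < b y)
    (hbi : IntervalIntegrable b volume β β') (hbV : ∫ y in β..β', b y = V)
    (he : ∀ y ∈ Ioo α α', ∀ z ∈ Ioo β β', ENNReal.ofReal (Real.sqrt (a y * b z)) ≤ e ((y + z) / 2))
    (heV : ∫⁻ s, e s ≤ ENNReal.ofReal V) :
    ∃ k : ℝ, ∀ y ∈ Ioo α α', y + k ∈ Ioo β β' ∧ ∫ t in β..(y + k), b t = ∫ t in α..y, a t := by
  obtain ⟨P, hP1, hP2, hP3, hP4⟩ := exists_quantile hα hac hap hai haV
  obtain ⟨Q, hQ1, hQ2, hQ3, hQ4⟩ := exists_quantile hβ hbc hbp hbi hbV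
  have hPc : ContinuousOn P (Ioo 0 V) := fun l hl => (hP3 l hl).continuousAt.continuousWithinAt
  have hQc : ContinuousOn Q (Ioo 0 V) := fun l hl => (hQ3 l hl).continuousAt.continuousWithinAt
  set s : ℝ → ℝ := fun l => (P l + Q l) / 2 with hs
  set s' : ℝ → ℝ := fun l => ((a (P l))⁻¹ + (b (Q l))⁻¹) / 2 with hs'
  have hsd : ∀ l ∈ Ioo 0 V, HasDerivAt s (s' l) l := fun l hl =>
    ((hP3 l hl).add (hQ3 l hl)).div_const 2
  have hsm : StrictMonoOn s (Ioo 0 V) := by
    intro l hl m hm hlm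
    have h1 := hP4 hl hm hlm
    have h2 := hQ4 hl hm hlm
    simp only [hs]
    linarith
  have h1 : ∫⁻ x in s '' (Ioo 0 V), e x = ∫⁻ l in Ioo 0 V, ENNReal.ofReal |s' l| * e (s l) :=
    lintegral_image_eq_lintegral_abs_deriv_mul measurableSet_Ioo
      (fun l hl => (hsd l hl).hasDerivWithinAt) hsm.injOn e
  set φ : ℝ → ℝ := fun l => s' l * Real.sqrt (a (P l) * b (Q l)) with hφ
  have hac' : ContinuousOn (fun l => a (P l)) (Ioo 0 V) :=
    hac.comp hPc fun l hl => (hP1 l hl).1
  have hbc' : ContinuousOn (fun l => b (Q l)) (Ioo 0 V) :=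
    hbc.comp hQc fun l hl => (hQ1 l hl).1
  have hφc : ContinuousOn φ (Ioo 0 V) := by
    apply ContinuousOn.mul
    · exact ((hac'.inv₀ fun l hl => (hap _ (hP1 l hl).1).ne').add
        (hbc'.inv₀ fun l hl => (hbp _ (hQ1 l hl).1).ne')).div_const 2
    · exact (hac'.mul hbc').sqrt
  have h2 : ∫⁻ l in Ioo 0 V, ENNReal.ofReal (φ l) ≤ ENNReal.ofReal V := by
    calc ∫⁻ l in Ioo 0 V, ENNReal.ofReal (φ l)
        ≤ ∫⁻ l in Ioo 0 V, ENNReal.ofReal |s' l| * e (s l) := by
          apply setLIntegral_mono' measurableSet_Ioo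
          intro l hl
          have h0 : 0 < s' l := by
            have h1 := hap _ (hP1 l hl).1
            have h2 := hbp _ (hQ1 l hl).1
            simp only [hs']
            (clear * - h1 h2; positivity)
          rw [hφ, ENNReal.ofReal_mul h0.le, abs_of_pos h0]
          exact mul_le_mul' le_rfl (he _ (hP1 l hl).1 _ (hQ1 l hl).1)
      _ = ∫⁻ x in s '' (Ioo 0 V), e x := h1.symm
      _ ≤ ∫⁻ x, e x := setLIntegral_le_lintegral _ _
      _ ≤ _ := heV
  have hφ1 : ∀ l ∈ Ioo 0 V, 1 ≤ φ l := fun l hl =>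
    (amgm_eq (hap _ (hP1 l hl).1) (hbp _ (hQ1 l hl).1)).1
  have h3 : (fun _ => (1 : ℝ≥0∞)) =ᵐ[volume.restrict (Ioo 0 V)] fun l => ENNReal.ofReal (φ l) := by
    apply ae_eq_of_ae_le_of_lintegral_le
    · filter_upwards [ae_restrict_mem measurableSet_Ioo] with l hl
      rw [← ENNReal.ofReal_one]
      exact ENNReal.ofReal_le_ofReal (hφ1 l hl)
    · simp only [lintegral_const, MeasurableSet.univ, Measure.restrict_apply, univ_inter, Real.volume_Ioo, sub_zero, one_mul, ne_eq, ENNReal.ofReal_ne_top, not_false_eq_true]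
    · exact (hφc.aemeasurable measurableSet_Ioo).ennreal_ofReal
    · refine h2.trans (le_of_eq ?_)
      simp only [lintegral_const, MeasurableSet.univ, Measure.restrict_apply, univ_inter, Real.volume_Ioo, sub_zero, one_mul]
  have h4 : (fun _ => (1 : ℝ)) =ᵐ[volume.restrict (Ioo 0 V)] φ := by
    filter_upwards [h3, ae_restrict_mem measurableSet_Ioo] with l hl hl2
    have h5 : (0 : ℝ) ≤ φ l := zero_le_one.trans (hφ1 l hl2)
    have h6 := congrArg ENNReal.toReal hl
    rwa [ENNReal.toReal_ofReal h5, ENNReal.toReal_one] at h6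
  have h5 : EqOn (fun _ => (1 : ℝ)) φ (Ioo 0 V) :=
    Measure.eqOn_open_of_ae_eq h4 isOpen_Ioo continuousOn_const hφc
  have h6 : ∀ l ∈ Ioo 0 V, a (P l) = b (Q l) := fun l hl =>
    (amgm_eq (hap _ (hP1 l hl).1) (hbp _ (hQ1 l hl).1)).2 (h5 hl).symm
  have h7 : ∀ l ∈ Ioo 0 V, HasDerivAt (fun l => Q l - P l) 0 l := by
    intro l hl
    have := (hQ3 l hl).sub (hP3 l hl)
    rwa [h6 l hl, sub_self] at this
  obtain ⟨k, hk⟩ := isOpen_Ioo.exists_is_const_of_deriv_eq_zero (s := Ioo 0 V)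
    (f := fun l => Q l - P l) isPreconnected_Ioo
    (fun l hl => (h7 l hl).differentiableAt.differentiableWithinAt)
    (fun l hl => (h7 l hl).deriv)
  refine ⟨k, fun y hy => ?_⟩
  have h8 := hP2 y hy
  have h9 : Q _ - P _ = k := hk _ h8.1
  rw [h8.2] at h9
  have h10 : Q (∫ t in α..y, a t) = y + k := by linarith only [h9]
  rw [← h10]
  exact hQ1 _ h8.1

end BMEq
end Vale.Agent.P237
end

section

open MeasureTheory Set Filter Topology
open scoped Pointwise ENNReal NNReal

namespace Vale.Agent.P237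
namespace BMEq

/-- the splitting of the first coordinate -/
noncomputable def spl (n : ℕ) : (Fin (n + 1) → ℝ) ≃ᵐ ℝ × (Fin n → ℝ) :=
  MeasurableEquiv.piFinSuccAbove (fun _ : Fin (n + 1) => ℝ) 0

theorem spl_mp (n : ℕ) : MeasurePreserving (spl n) volume volume :=
  volume_preserving_piFinSuccAbove (fun _ : Fin (n + 1) => ℝ) 0

theorem spl_symm_zero (n : ℕ) (t : ℝ) (z : Fin n → ℝ) : (spl n).symm (t, z) 0 = t := by
  simp [spl, MeasurableEquiv.piFinSuccAbove]

theorem spl_symm_succ (n : ℕ) (t : ℝ) (z : Fin n → ℝ) (j : Fin n) :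
    (spl n).symm (t, z) j.succ = z j := by
  simp [spl, MeasurableEquiv.piFinSuccAbove]

theorem spl_symm_comb (n : ℕ) (s t : ℝ) (a b : ℝ) (x y : Fin n → ℝ) :
    s • (spl n).symm (a, x) + t • (spl n).symm (b, y) = (spl n).symm (s * a + t * b, s • x + t • y) := by
  funext i
  refine Fin.cases ?_ (fun j => ?_) i
  · simp [spl_symm_zero]
  · simp [spl_symm_succ]

theorem continuous_spl_symm (n : ℕ) : Continuous fun p : ℝ × (Fin n → ℝ) => (spl n).symm p := by
  apply continuous_pi
  intro i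
  refine Fin.cases ?_ (fun j => ?_) i
  · have : (fun p : ℝ × (Fin n → ℝ) => (spl n).symm p 0) = fun p => p.1 := by
      funext p; exact spl_symm_zero n p.1 p.2
    rw [this]; fun_prop
  · have : (fun p : ℝ × (Fin n → ℝ) => (spl n).symm p j.succ) = fun p => p.2 j := by
      funext p; exact spl_symm_succ n p.1 p.2 j
    rw [this]; fun_prop

/-- slice -/
def sl {n : ℕ} (K : Set (Fin (n + 1) → ℝ)) (t : ℝ) : Set (Fin n → ℝ) :=
  {z | (spl n).symm (t, z) ∈ K}

theorem measurableSet_sl {n : ℕ} {K : Set (Fin (n + 1) → ℝ)} (hK : MeasurableSet K) (t : ℝ) :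
    MeasurableSet (sl K t) :=
  ((spl n).symm.measurable.comp measurable_prodMk_left) hK

theorem measurable_vol_sl {n : ℕ} {K : Set (Fin (n + 1) → ℝ)} (hK : MeasurableSet K) :
    Measurable fun t => volume (sl K t) :=
  measurable_measure_prodMk_left (ν := (volume : Measure (Fin n → ℝ)))
    ((spl n).symm.measurable hK)

theorem volume_eq {n : ℕ} {K : Set (Fin (n + 1) → ℝ)} (hK : MeasurableSet K) :
    volume K = ∫⁻ t, volume (sl K t) := by
  have h1 : volume K = volume ((spl n).symm ⁻¹' K) :=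
    ((spl_mp n).symm.measure_preimage hK.nullMeasurableSet).symm
  rw [h1]
  exact Measure.prod_apply ((spl n).symm.measurable hK)

theorem volume_inter {n : ℕ} {K : Set (Fin (n + 1) → ℝ)} (hK : MeasurableSet K) {T : Set ℝ}
    (hT : MeasurableSet T) :
    volume (K ∩ {x | x 0 ∈ T}) = ∫⁻ t in T, volume (sl K t) := by
  have hm : MeasurableSet {x : Fin (n + 1) → ℝ | x 0 ∈ T} := measurable_pi_apply 0 hT
  rw [volume_eq (hK.inter hm), ← lintegral_indicator hT]
  apply lintegral_congr
  intro t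
  by_cases ht : t ∈ T
  · rw [indicator_of_mem ht]
    congr 1
    ext z
    simp only [sl, mem_inter_iff, mem_ofPred_eq, spl_symm_zero, ht, and_true]
  · rw [indicator_of_notMem ht]
    have : sl (K ∩ {x | x 0 ∈ T}) t = ∅ := by
      ext z
      simp only [sl, mem_inter_iff, mem_ofPred_eq, spl_symm_zero, ht, and_false,
        mem_empty_iff_false]
    rw [this, measure_empty]

/-- slice volume -/
noncomputable def sv {n : ℕ} (K : Set (Fin (n + 1) → ℝ)) (t : ℝ) : ℝ := (volume (sl K t)).toReal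

theorem isCompact_sl {n : ℕ} {K : Set (Fin (n + 1) → ℝ)} (hK : IsCompact K) (t : ℝ) :
    IsCompact (sl K t) := by
  have h1 : sl K t = (fun x : Fin (n + 1) → ℝ => fun j : Fin n => x j.succ) '' (K ∩ {x | x 0 = t}) := by
    ext z
    constructor
    · intro hz
      refine ⟨(spl n).symm (t, z), ⟨hz, spl_symm_zero n t z⟩, ?_⟩
      funext j
      exact spl_symm_succ n t z j
    · rintro ⟨x, ⟨hx, hx0⟩, rfl⟩
      show (spl n).symm (t, fun j : Fin n => x j.succ) ∈ K
      have : (spl n).symm (t, fun j : Fin n => x j.succ) = x := by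
        funext i
        refine Fin.cases ?_ (fun j => ?_) i
        · rw [spl_symm_zero]; exact hx0.symm
        · rw [spl_symm_succ]
      rw [this]; exact hx
  rw [h1]
  apply IsCompact.image
  · exact hK.inter_right (isClosed_eq (continuous_apply 0) continuous_const)
  · fun_prop

theorem sv_lt_top {n : ℕ} {K : Set (Fin (n + 1) → ℝ)} (hK : IsCompact K) (t : ℝ) :
    volume (sl K t) < ∞ := (isCompact_sl hK t).measure_lt_top

theorem ofReal_sv {n : ℕ} {K : Set (Fin (n + 1) → ℝ)} (hK : IsCompact K) (t : ℝ) :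
    ENNReal.ofReal (sv K t) = volume (sl K t) := ENNReal.ofReal_toReal (sv_lt_top hK t).ne

theorem integrable_sv {n : ℕ} {K : Set (Fin (n + 1) → ℝ)} (hK : IsCompact K) :
    Integrable (sv K) := by
  apply integrable_toReal_of_lintegral_ne_top (measurable_vol_sl hK.measurableSet).aemeasurable
  rw [← volume_eq hK.measurableSet]
  exact hK.measure_lt_top.ne

theorem setIntegral_sv {n : ℕ} {K : Set (Fin (n + 1) → ℝ)} (hK : IsCompact K) {T : Set ℝ}
    (hT : MeasurableSet T) : ∫ t in T, sv K t = (volume (K ∩ {x | x 0 ∈ T})).toReal := by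
  rw [volume_inter hK.measurableSet hT]
  exact integral_toReal (measurable_vol_sl hK.measurableSet).aemeasurable
    (Eventually.of_forall fun t => sv_lt_top hK t)

/-- log-concavity and two-body version -/
theorem sl_mul {n : ℕ} {K M E : Set (Fin (n + 1) → ℝ)} (hK : IsCompact K) (hM : IsCompact M)
    (hE : IsCompact E) {s t : ℝ} (hs : 0 < s) (ht : 0 < t) (hst : s + t = 1)
    (h : ∀ x ∈ K, ∀ y ∈ M, s • x + t • y ∈ E) (y z : ℝ) :
    sv K y ^ s * sv M z ^ t ≤ sv E (s * y + t * z) := by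
  have h1 := Vale.Agent.P227.bm_mul hs ht hst (isCompact_sl hK y).measurableSet
    (isCompact_sl hM z).measurableSet (isCompact_sl hE (s * y + t * z)).measurableSet (by
      intro p hp q hq
      show (spl n).symm (s * y + t * z, s • p + t • q) ∈ E
      rw [← spl_symm_comb]
      exact h _ hp _ hq)
  have h2 := ENNReal.toReal_mono (sv_lt_top hE _).ne h1
  rwa [ENNReal.toReal_mul, ← ENNReal.toReal_rpow, ← ENNReal.toReal_rpow] at h2

/-- lower end of the projection -/
noncomputable def lo {n : ℕ} (K : Set (Fin (n + 1) → ℝ)) : ℝ := sInf ((fun x => x 0) '' K)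
/-- upper end of the projection -/
noncomputable def hi {n : ℕ} (K : Set (Fin (n + 1) → ℝ)) : ℝ := sSup ((fun x => x 0) '' K)

structure PBody {n : ℕ} (K : Set (Fin (n + 1) → ℝ)) : Prop where
  convex : Convex ℝ K
  compact : IsCompact K
  int : (interior K).Nonempty

variable {n : ℕ} {K M : Set (Fin (n + 1) → ℝ)}

theorem PBody.img_compact (hK : PBody K) : IsCompact ((fun x : Fin (n + 1) → ℝ => x 0) '' K) :=
  hK.compact.image (continuous_apply 0)

theorem PBody.nonempty (hK : PBody K) : K.Nonempty := hK.int.mono interior_subset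

theorem PBody.mem_Icc (hK : PBody K) {x : Fin (n + 1) → ℝ} (hx : x ∈ K) :
    x 0 ∈ Icc (lo K) (hi K) :=
  ⟨csInf_le hK.img_compact.bddBelow ⟨x, hx, rfl⟩, le_csSup hK.img_compact.bddAbove ⟨x, hx, rfl⟩⟩

theorem PBody.exists_int (hK : PBody K) {t : ℝ} (ht : t ∈ Ioo (lo K) (hi K)) :
    ∃ x ∈ interior K, x 0 = t := by
  obtain ⟨c, hc⟩ := hK.int
  obtain ⟨p, hp, hp0⟩ := hK.img_compact.sInf_mem (hK.nonempty.image _)
  obtain ⟨q, hq, hq0⟩ := hK.img_compact.sSup_mem (hK.nonempty.image _)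
  have hp1 : p 0 < t := by
    have : p 0 = lo K := hp0
    rw [this]; exact ht.1
  have hq1 : t < q 0 := by
    have : q 0 = hi K := hq0
    rw [this]; exact ht.2
  have key : ∀ r ∈ K, ∀ s : ℝ, 0 < s → s ≤ 1 → (s • c + (1 - s) • r) ∈ interior K := by
    intro r hr s hs hs1
    exact hK.convex.combo_interior_self_mem_interior hc hr hs (by linarith) (by ring)
  rcases lt_trichotomy (c 0) t with h | h | h
  · refine ⟨_, key q hq ((q 0 - t) / (q 0 - c 0)) (by apply div_pos <;> linarith)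
      ((div_le_one (by linarith)).mpr (by linarith)), ?_⟩
    have : q 0 - c 0 ≠ 0 := by linarith
    simp only [Pi.add_apply, Pi.smul_apply, smul_eq_mul]
    field_simp
    ring
  · exact ⟨c, hc, h⟩
  · refine ⟨_, key p hp ((t - p 0) / (c 0 - p 0)) (by apply div_pos <;> linarith)
      ((div_le_one (by linarith)).mpr (by linarith)), ?_⟩
    have : c 0 - p 0 ≠ 0 := by linarith
    simp only [Pi.add_apply, Pi.smul_apply, smul_eq_mul]
    field_simp
    ring

theorem PBody.lo_lt_hi (hK : PBody K) : lo K < hi K := by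
  obtain ⟨c, hc⟩ := hK.int
  have h1 : Tendsto (fun s : ℝ => c + s • (Pi.single 0 1 : Fin (n + 1) → ℝ)) (𝓝 0) (𝓝 c) := by
    have : Continuous fun s : ℝ => c + s • (Pi.single 0 1 : Fin (n + 1) → ℝ) := by fun_prop
    have h2 := this.tendsto 0
    simpa using h2
  have h2 : ∀ᶠ s in 𝓝 (0 : ℝ), c + s • (Pi.single 0 1 : Fin (n + 1) → ℝ) ∈ K :=
    h1 (mem_interior_iff_mem_nhds.mp hc)
  obtain ⟨s, hs, hs0⟩ := (h2.filter_mono nhdsWithin_le_nhds |>.and
    (self_mem_nhdsWithin : Ioi (0 : ℝ) ∈ 𝓝[>] 0)).exists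
  have h3 := hK.mem_Icc hs
  have h4 := hK.mem_Icc (interior_subset hc)
  have h5 : (c + s • (Pi.single 0 1 : Fin (n + 1) → ℝ)) 0 = c 0 + s := by simp
  rw [h5] at h3
  have : (0 : ℝ) < s := hs0
  linarith [h3.2, h4.1]

theorem PBody.sv_pos (hK : PBody K) {t : ℝ} (ht : t ∈ Ioo (lo K) (hi K)) : 0 < sv K t := by
  apply ENNReal.toReal_pos _ (sv_lt_top hK.compact t).ne
  obtain ⟨x, hx, hx0⟩ := hK.exists_int ht
  have ho : IsOpen {z : Fin n → ℝ | (spl n).symm (t, z) ∈ interior K} :=
    isOpen_interior.preimage ((continuous_spl_symm n).comp (by fun_prop))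
  have hne : {z : Fin n → ℝ | (spl n).symm (t, z) ∈ interior K}.Nonempty := by
    refine ⟨fun j => x j.succ, ?_⟩
    show (spl n).symm (t, fun j : Fin n => x j.succ) ∈ interior K
    have : (spl n).symm (t, fun j : Fin n => x j.succ) = x := by
      funext i
      refine Fin.cases ?_ (fun j => ?_) i
      · rw [spl_symm_zero]; exact hx0.symm
      · rw [spl_symm_succ]
    rw [this]; exact hx
  have h1 := ho.measure_pos volume hne
  have h2 : {z : Fin n → ℝ | (spl n).symm (t, z) ∈ interior K} ⊆ sl K t := by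
    intro z hz
    have h3 : (spl n).symm (t, z) ∈ interior K := hz
    exact interior_subset (s := K) h3
  exact (lt_of_lt_of_le h1 (measure_mono h2)).ne'

theorem PBody.sv_cont (hK : PBody K) : ContinuousOn (sv K) (Ioo (lo K) (hi K)) := by
  have hconc : ConcaveOn ℝ (Ioo (lo K) (hi K)) fun t => Real.log (sv K t) := by
    refine ⟨convex_Ioo _ _, ?_⟩
    intro y hy z hz s t hs ht hst
    rcases hs.eq_or_lt with rfl | hs
    · have : t = 1 := by linarith
      subst this; simp
    rcases ht.eq_or_lt with rfl | ht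
    · have : s = 1 := by linarith
      subst this; simp
    have h1 := sl_mul hK.compact hK.compact hK.compact hs ht hst
      (fun x hx y hy => hK.convex hx hy hs.le ht.le hst) y z
    have hy0 := hK.sv_pos hy
    have hz0 := hK.sv_pos hz
    have h2 := Real.log_le_log (by positivity) h1
    rw [Real.log_mul (by positivity) (by positivity), Real.log_rpow hy0, Real.log_rpow hz0] at h2
    simpa only [smul_eq_mul] using h2
  have h1 : ContinuousOn (fun t => Real.log (sv K t)) (Ioo (lo K) (hi K)) :=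
    hconc.continuousOn isOpen_Ioo
  have h2 : ContinuousOn (fun t => Real.exp (Real.log (sv K t))) (Ioo (lo K) (hi K)) := h1.rexp
  refine h2.congr ?_
  intro t ht
  exact (Real.exp_log (hK.sv_pos ht)).symm

theorem PBody.integral_lo (hK : PBody K) {y : ℝ} (hy : lo K ≤ y) :
    ∫ t in (lo K)..y, sv K t = (volume (K ∩ {x | x 0 ≤ y})).toReal := by
  rw [intervalIntegral.integral_of_le hy, ← integral_Icc_eq_integral_Ioc,
    setIntegral_sv hK.compact measurableSet_Icc]
  congr 2
  ext x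
  simp only [mem_inter_iff, mem_ofPred_eq, Set.mem_Icc]
  constructor
  · rintro ⟨h1, h2, h3⟩; exact ⟨h1, h3⟩
  · rintro ⟨h1, h3⟩; exact ⟨h1, (hK.mem_Icc h1).1, h3⟩

theorem PBody.integral_lo_hi (hK : PBody K) :
    ∫ t in (lo K)..(hi K), sv K t = (volume K).toReal := by
  rw [hK.integral_lo hK.lo_lt_hi.le]
  congr 2
  ext x
  simp only [mem_inter_iff, mem_ofPred_eq]
  constructor
  · rintro ⟨h1, h3⟩; exact h1
  · intro h1; exact ⟨h1, (hK.mem_Icc h1).2⟩

/-- Equality in Brunn-Minkowski implies equal distributions (up to a shift) of the first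
coordinate. -/
theorem first_coord (hK : PBody K) (hM : PBody M) (h1 : volume K = volume M)
    (h2 : volume ((2⁻¹ : ℝ) • (K + M)) ≤ volume K) :
    ∃ k : ℝ, ∀ y, volume (M ∩ {x | x 0 ≤ y + k}) = volume (K ∩ {x | x 0 ≤ y}) := by
  set E := (2⁻¹ : ℝ) • (K + M) with hE
  have hEc : IsCompact E := (hK.compact.add hM.compact).smul _
  obtain ⟨k, hk⟩ := oneD (e := fun t => volume (sl E t)) (V := (volume K).toReal)
    hK.lo_lt_hi hM.lo_lt_hi hK.sv_cont (fun y hy => hK.sv_pos hy)
    (integrable_sv hK.compact).intervalIntegrable hK.integral_lo_hi hM.sv_cont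
    (fun y hy => hM.sv_pos hy) (integrable_sv hM.compact).intervalIntegrable
    (by rw [hM.integral_lo_hi, h1])
    (by
      intro y hy z hz
      have h3 := sl_mul hK.compact hM.compact hEc (s := 2⁻¹) (t := 2⁻¹) (by norm_num)
        (by norm_num) (by norm_num) (by
          intro p hp q hq
          rw [← smul_add]
          exact smul_mem_smul_set (add_mem_add hp hq)) y z
      rw [← ofReal_sv hEc]
      apply ENNReal.ofReal_le_ofReal
      have h4 : (2⁻¹ : ℝ) * y + 2⁻¹ * z = (y + z) / 2 := by ring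
      rw [h4] at h3
      refine le_trans (le_of_eq ?_) h3
      rw [Real.sqrt_eq_rpow, Real.mul_rpow (hK.sv_pos hy).le (hM.sv_pos hz).le]
      norm_num)
    (by
      rw [← volume_eq hEc.measurableSet, ENNReal.ofReal_toReal hK.compact.measure_lt_top.ne]
      exact h2)
  have hfinK : ∀ y, volume (K ∩ {x | x 0 ≤ y}) ≠ ∞ := fun y =>
    ne_top_of_le_ne_top hK.compact.measure_lt_top.ne (measure_mono inter_subset_left)
  have hfinM : ∀ y, volume (M ∩ {x | x 0 ≤ y}) ≠ ∞ := fun y =>
    ne_top_of_le_ne_top hM.compact.measure_lt_top.ne (measure_mono inter_subset_left)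
  refine ⟨k, ?_⟩
  have hmid : ∀ y ∈ Ioo (lo K) (hi K),
      volume (M ∩ {x | x 0 ≤ y + k}) = volume (K ∩ {x | x 0 ≤ y}) := by
    intro y hy
    obtain ⟨h3, h4⟩ := hk y hy
    rw [hM.integral_lo h3.1.le, hK.integral_lo hy.1.le] at h4
    exact (ENNReal.toReal_eq_toReal_iff' (hfinM _) (hfinK _)).mp h4
  have hPc : ContinuousOn (fun y => ∫ t in (lo K)..y, sv K t) (Icc (lo K) (hi K)) := by
    have := intervalIntegral.continuousOn_primitive_interval' (μ := volume) (f := sv K)
      (b₁ := lo K) (b₂ := hi K) (a := lo K) (integrable_sv hK.compact).intervalIntegrable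
      left_mem_uIcc
    rwa [uIcc_of_le hK.lo_lt_hi.le] at this
  intro y
  rcases le_or_gt y (lo K) with hy | hy
  · -- both sides vanish
    have h3 : volume (K ∩ {x | x 0 ≤ y}) = 0 := by
      have h4 := hK.integral_lo le_rfl
      rw [intervalIntegral.integral_same] at h4
      have h5 : volume (K ∩ {x | x 0 ≤ lo K}) = 0 :=
        ((ENNReal.toReal_eq_zero_iff _).mp h4.symm).resolve_right (hfinK _)
      refine measure_mono_null ?_ h5
      intro x hx
      have h6 : x 0 ≤ y := hx.2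
      exact ⟨hx.1, show x 0 ≤ lo K from h6.trans hy⟩
    rw [h3]
    have h6 : Tendsto (fun y => ∫ t in (lo K)..y, sv K t) (𝓝[>] (lo K)) (𝓝 0) := by
      have h7 := hPc (lo K) (left_mem_Icc.mpr hK.lo_lt_hi.le)
      have h8 : Tendsto (fun y => ∫ t in (lo K)..y, sv K t) (𝓝[Icc (lo K) (hi K)] (lo K))
          (𝓝 (∫ t in (lo K)..(lo K), sv K t)) := h7
      rw [intervalIntegral.integral_same] at h8
      apply h8.mono_left
      rw [← nhdsWithin_Ioo_eq_nhdsGT hK.lo_lt_hi]
      exact nhdsWithin_mono _ Ioo_subset_Icc_self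
    have h9 : (volume (M ∩ {x | x 0 ≤ y + k})).toReal ≤ 0 := by
      apply ge_of_tendsto h6
      rw [← nhdsWithin_Ioo_eq_nhdsGT hK.lo_lt_hi]
      filter_upwards [self_mem_nhdsWithin] with w hw
      rw [hK.integral_lo hw.1.le, ← hmid w hw]
      apply ENNReal.toReal_mono (hfinM _)
      apply measure_mono
      intro x hx
      have h11 : x 0 ≤ y + k := hx.2
      refine ⟨hx.1, show x 0 ≤ w + k from ?_⟩
      linarith [hw.1]
    have h10 : (volume (M ∩ {x | x 0 ≤ y + k})).toReal = 0 :=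
      le_antisymm h9 ENNReal.toReal_nonneg
    exact ((ENNReal.toReal_eq_zero_iff _).mp h10).resolve_right (hfinM _)
  · rcases lt_or_ge y (hi K) with hy2 | hy2
    · exact hmid y ⟨hy, hy2⟩
    · have h3 : volume (K ∩ {x | x 0 ≤ y}) = volume K := by
        congr 1
        ext x
        simp only [mem_inter_iff, mem_ofPred_eq]
        exact ⟨fun h => h.1, fun h => ⟨h, (hK.mem_Icc h).2.trans hy2⟩⟩
      rw [h3]
      apply le_antisymm
      · rw [h1]; exact measure_mono inter_subset_left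
      · have h6 : Tendsto (fun y => ∫ t in (lo K)..y, sv K t) (𝓝[<] (hi K))
            (𝓝 (volume K).toReal) := by
          have h7 := hPc (hi K) (right_mem_Icc.mpr hK.lo_lt_hi.le)
          have h8 : Tendsto (fun y => ∫ t in (lo K)..y, sv K t) (𝓝[Icc (lo K) (hi K)] (hi K))
              (𝓝 (∫ t in (lo K)..(hi K), sv K t)) := h7
          rw [hK.integral_lo_hi] at h8
          apply h8.mono_left
          rw [← nhdsWithin_Ioo_eq_nhdsLT hK.lo_lt_hi]
          exact nhdsWithin_mono _ Ioo_subset_Icc_self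
        have h9 : (volume K).toReal ≤ (volume (M ∩ {x | x 0 ≤ y + k})).toReal := by
          apply le_of_tendsto h6
          rw [← nhdsWithin_Ioo_eq_nhdsLT hK.lo_lt_hi]
          filter_upwards [self_mem_nhdsWithin] with w hw
          rw [hK.integral_lo hw.1.le, ← hmid w hw]
          apply ENNReal.toReal_mono (hfinM _)
          apply measure_mono
          intro x hx
          have h11 : x 0 ≤ w + k := hx.2
          refine ⟨hx.1, show x 0 ≤ y + k from ?_⟩
          linarith [hw.2]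
        exact (ENNReal.toReal_le_toReal hK.compact.measure_lt_top.ne (hfinM _)).mp h9

end BMEq
end Vale.Agent.P237
end

section

open MeasureTheory Metric Set Module Filter Topology
open scoped Pointwise ENNReal NNReal

namespace Vale.Agent.P237

variable {V : Type*} [NormedAddCommGroup V] [InnerProductSpace ℝ V] [FiniteDimensional ℝ V]
  [MeasurableSpace V] [BorelSpace V]

namespace BMEq

theorem dir_shift {K M : Set V} (hK : IsBody K) (hM : IsBody M) (h1 : volume K = volume M)
    (h2 : volume ((2⁻¹ : ℝ) • (K + M)) ≤ volume K) {u : V} (hu : ‖u‖ = 1) :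
    ∃ k : ℝ, ∀ y, volume (M ∩ {x | inner ℝ u x ≤ y + k}) = volume (K ∩ {x | inner ℝ u x ≤ y}) := by
  have hu0 : u ≠ 0 := by
    intro h; rw [h, norm_zero] at hu; exact zero_ne_one hu
  have : Nontrivial V := ⟨u, 0, hu0⟩
  obtain ⟨n, hn⟩ : ∃ n, finrank ℝ V = n + 1 := Nat.exists_eq_succ_of_ne_zero finrank_pos.ne'
  have ho : Orthonormal ℝ (({0} : Set (Fin (n + 1))).domRestrict (fun _ => u)) := by
    constructor
    · intro i; exact hu
    · intro i j hij
      exact absurd (Subsingleton.elim i j) hij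
  obtain ⟨b, hb⟩ := ho.exists_orthonormalBasis_extension_of_card_eq (by simpa using hn)
  have hb0 : b 0 = u := hb 0 rfl
  let Φ : V ≃L[ℝ] (Fin (n + 1) → ℝ) :=
    b.repr.toContinuousLinearEquiv.trans (EuclideanSpace.equiv (Fin (n + 1)) ℝ)
  have hΦ : MeasurePreserving Φ volume volume :=
    (PiLp.volume_preserving_ofLp (Fin (n + 1))).comp b.measurePreserving_repr
  have hΦ0 : ∀ x, Φ x 0 = inner ℝ u x := by
    intro x
    show b.repr x 0 = _
    rw [b.repr_apply_apply, hb0]
  have hvol : ∀ A : Set V, MeasurableSet A → volume (Φ '' A) = volume A := by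
    intro A hA
    have h3 : MeasurableSet (Φ '' A) := Φ.toHomeomorph.measurableEmbedding.measurableSet_image.mpr hA
    rw [← hΦ.measure_preimage h3.nullMeasurableSet, preimage_image_eq _ Φ.injective]
  have hbody : ∀ A : Set V, IsBody A → PBody (Φ '' A) := by
    intro A hA
    refine ⟨hA.convex.linear_image (Φ : V →ₗ[ℝ] (Fin (n + 1) → ℝ)), hA.compact.image Φ.continuous,
      ?_⟩
    have : interior (Φ '' A) = Φ '' interior A := (Φ.toHomeomorph.image_interior A).symm
    rw [this]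
    exact hA.int.image _
  have hsec : ∀ (A : Set V) (y : ℝ), Φ '' (A ∩ {x | inner ℝ u x ≤ y}) = Φ '' A ∩ {x | x 0 ≤ y} := by
    intro A y
    ext z
    constructor
    · rintro ⟨x, ⟨hx, hxy⟩, rfl⟩
      exact ⟨⟨x, hx, rfl⟩, show Φ x 0 ≤ y by rw [hΦ0]; exact hxy⟩
    · rintro ⟨⟨x, hx, rfl⟩, hxy⟩
      refine ⟨x, ⟨hx, show inner ℝ u x ≤ y from ?_⟩, rfl⟩
      rw [← hΦ0]; exact hxy
  have hmeas : ∀ (A : Set V) (y : ℝ), IsBody A → MeasurableSet (A ∩ {x | inner ℝ u x ≤ y}) := by
    intro A y hA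
    exact hA.compact.measurableSet.inter
      (isClosed_le (by fun_prop) continuous_const).measurableSet
  obtain ⟨k, hk⟩ := first_coord (hbody K hK) (hbody M hM)
    (by rw [hvol K hK.compact.measurableSet, hvol M hM.compact.measurableSet, h1])
    (by
      have h3 : (2⁻¹ : ℝ) • (Φ '' K + Φ '' M) = Φ '' ((2⁻¹ : ℝ) • (K + M)) := by
        rw [image_smul_set, image_add]
      rw [h3, hvol _ ((hK.compact.add hM.compact).smul _).measurableSet,
        hvol K hK.compact.measurableSet]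
      exact h2)
  refine ⟨k, fun y => ?_⟩
  have h4 := hk y
  rw [← hsec, ← hsec, hvol _ (hmeas M _ hM), hvol _ (hmeas K _ hK)] at h4
  exact h4

theorem integral_shift {K M : Set V} (hK : IsBody K) (hM : IsBody M)
    {u : V} {k : ℝ} (hk : ∀ y, volume (M ∩ {x | inner ℝ u x ≤ y + k}) =
      volume (K ∩ {x | inner ℝ u x ≤ y})) :
    ∫ x in M, inner ℝ u x = (∫ x in K, inner ℝ u x) + k * vol K := by
  have hm : Measurable fun x : V => inner ℝ u x := by fun_prop
  have : IsFiniteMeasure (volume.restrict K) := ⟨by simpa using hK.compact.measure_lt_top⟩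
  have : IsFiniteMeasure (volume.restrict M) := ⟨by simpa using hM.compact.measure_lt_top⟩
  have hI : ∀ A : Set V, IsBody A → Integrable (fun x : V => inner ℝ u x) (volume.restrict A) := by
    intro A hA
    have hc : ContinuousOn (fun x : V => inner ℝ u x) A := by fun_prop
    exact hc.integrableOn_compact hA.compact
  have hmap : (volume.restrict M).map (fun x => inner ℝ u x) =
      (volume.restrict K).map (fun x => inner ℝ u x + k) := by
    apply Measure.ext_of_Iic
    intro y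
    rw [Measure.map_apply hm measurableSet_Iic, Measure.map_apply (hm.add_const k) measurableSet_Iic,
      Measure.restrict_apply (hm measurableSet_Iic),
      Measure.restrict_apply ((hm.add_const k) measurableSet_Iic)]
    have h3 := hk (y - k)
    rw [sub_add_cancel] at h3
    have e1 : (fun x : V => inner ℝ u x) ⁻¹' Iic y ∩ M = M ∩ {x | inner ℝ u x ≤ y} := by
      rw [inter_comm]; rfl
    have e2 : (fun x : V => inner ℝ u x + k) ⁻¹' Iic y ∩ K = K ∩ {x | inner ℝ u x ≤ y - k} := by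
      rw [inter_comm]
      congr 1
      ext x
      simp only [mem_preimage, Set.mem_Iic, mem_ofPred_eq]
      constructor <;> intro h <;> linarith
    rw [e1, e2, h3]
  have h2 : ∫ x in M, inner ℝ u x = ∫ y, y ∂((volume.restrict M).map (fun x => inner ℝ u x)) :=
    (integral_map (f := fun y : ℝ => y) hm.aemeasurable
      measurable_id.aestronglyMeasurable).symm
  have h3 : ∫ x in K, (inner ℝ u x + k) =
      ∫ y, y ∂((volume.restrict K).map (fun x => inner ℝ u x + k)) :=
    (integral_map (f := fun y : ℝ => y) (hm.add_const k).aemeasurable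
      measurable_id.aestronglyMeasurable).symm
  rw [h2, hmap, ← h3, integral_add (hI K hK) (integrable_const _)]
  simp only [integral_const, smul_eq_mul]
  rw [vol, Measure.real, Measure.restrict_apply_univ, mul_comm]

theorem sub_mem {K M : Set V} (hK : IsBody K) (hM : IsBody M) (h1 : volume K = volume M)
    (h2 : volume ((2⁻¹ : ℝ) • (K + M)) ≤ volume K) {x : V} (hx : x ∈ M) :
    x - (vol K)⁻¹ • ((∫ y in M, y) - ∫ y in K, y) ∈ K := by
  set c : V := (vol K)⁻¹ • ((∫ y in M, y) - ∫ y in K, y) with hc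
  have hV : 0 < vol K := by
    apply ENNReal.toReal_pos _ hK.compact.measure_lt_top.ne
    exact (lt_of_lt_of_le (isOpen_interior.measure_pos volume hK.int)
      (measure_mono interior_subset)).ne'
  by_contra hcon
  obtain ⟨f, r, hf1, hf2⟩ := geometric_hahn_banach_closed_point hK.convex hK.compact.isClosed hcon
  set w : V := (InnerProductSpace.toDual ℝ V).symm f with hw
  have hfw : ∀ z, f z = inner ℝ w z := by
    intro z
    rw [hw, InnerProductSpace.toDual_symm_apply]
  obtain ⟨p, hp⟩ := hK.int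
  have hpK := interior_subset hp
  have hw0 : w ≠ 0 := by
    intro h0
    have h3 := hf1 p hpK
    rw [hfw, h0, inner_zero_left] at h3
    rw [hfw, h0, inner_zero_left] at hf2
    linarith
  have hwn : 0 < ‖w‖ := norm_pos_iff.mpr hw0
  set u : V := ‖w‖⁻¹ • w with hu
  have hu1 : ‖u‖ = 1 := by
    rw [hu, norm_smul, norm_inv, norm_norm, inv_mul_cancel₀ hwn.ne']
  have hfu : ∀ z, inner ℝ u z = ‖w‖⁻¹ * f z := by
    intro z
    rw [hu, real_inner_smul_left, hfw]
  obtain ⟨k, hk⟩ := dir_shift hK hM h1 h2 hu1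
  have hI := integral_shift hK hM hk
  have hidn : ∀ A : Set V, IsBody A → ∫ y in A, inner ℝ u y = inner ℝ u (∫ y in A, y) := by
    intro A hA
    have hi : Integrable (fun y : V => y) (volume.restrict A) :=
      (continuous_id.continuousOn).integrableOn_compact hA.compact
    exact integral_inner hi u
  have hkc : k = inner ℝ u c := by
    rw [hidn M hM, hidn K hK] at hI
    rw [hc, real_inner_smul_right, inner_sub_right, hI]
    field_simp
    ring
  set t : ℝ := ‖w‖⁻¹ * r with ht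
  have ht1 : ∀ z ∈ K, inner ℝ u z ≤ t := by
    intro z hz
    rw [hfu, ht]
    exact mul_le_mul_of_nonneg_left (hf1 z hz).le (by positivity)
  have ht2 : t + k < inner ℝ u x := by
    have h3 : t < inner ℝ u (x - c) := by
      rw [hfu, ht]
      exact mul_lt_mul_of_pos_left hf2 (by positivity)
    rw [inner_sub_right, ← hkc] at h3
    linarith
  have h3 : volume (M ∩ {x | inner ℝ u x ≤ t + k}) = volume M := by
    rw [hk t, ← h1]
    congr 1
    ext z
    constructor
    · exact fun h => h.1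
    · exact fun h => ⟨h, ht1 z h⟩
  -- the complementary part is null
  have hcl : IsClosed {x : V | inner ℝ u x ≤ t + k} := isClosed_le (by fun_prop) continuous_const
  have h4 : volume (M \ {x | inner ℝ u x ≤ t + k}) = 0 := by
    have h5 := measure_inter_add_sdiff (μ := volume) M hcl.measurableSet
    rw [h3] at h5
    have h6 : volume M + volume (M \ {x | inner ℝ u x ≤ t + k}) = volume M + 0 := by
      rw [add_zero]; exact h5
    exact (ENNReal.add_right_inj hM.compact.measure_lt_top.ne).mp h6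
  have h5 : x ∈ closure (interior M) := by
    rw [hM.convex.closure_interior_eq_closure_of_nonempty_interior hM.int]
    exact subset_closure hx
  have h6 : ({x : V | inner ℝ u x ≤ t + k}ᶜ ∩ interior M).Nonempty := by
    apply mem_closure_iff.mp h5 _ hcl.isOpen_compl
    intro h7
    have h8 : inner ℝ u x ≤ t + k := h7
    linarith
  have h7 := (hcl.isOpen_compl.inter isOpen_interior).measure_pos volume h6
  have h8 : volume ({x : V | inner ℝ u x ≤ t + k}ᶜ ∩ interior M) ≤
      volume (M \ {x | inner ℝ u x ≤ t + k}) := by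
    apply measure_mono
    rintro z ⟨hz1, hz2⟩
    exact ⟨interior_subset hz2, hz1⟩
  rw [h4] at h8
  exact absurd h7 (not_lt.mpr h8)

end BMEq

theorem bm_equality {K M : Set V} (hK : IsBody K) (hM : IsBody M) (h1 : vol K = vol M)
    (h2 : vol ((2⁻¹ : ℝ) • (K + M)) = vol K) : ∃ c : V, M = (fun x => c + x) '' K := by
  have hcE : IsCompact ((2⁻¹ : ℝ) • (K + M)) := (hK.compact.add hM.compact).smul _
  have h1' : volume K = volume M :=
    (ENNReal.toReal_eq_toReal_iff' hK.compact.measure_lt_top.ne hM.compact.measure_lt_top.ne).mp h1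
  have h2' : volume ((2⁻¹ : ℝ) • (K + M)) = volume K :=
    (ENNReal.toReal_eq_toReal_iff' hcE.measure_lt_top.ne hK.compact.measure_lt_top.ne).mp h2
  set c : V := (vol K)⁻¹ • ((∫ y in M, y) - ∫ y in K, y) with hc
  refine ⟨c, ?_⟩
  ext x
  constructor
  · intro hx
    refine ⟨x - c, BMEq.sub_mem hK hM h1' h2'.le hx, ?_⟩
    simp
  · rintro ⟨z, hz, rfl⟩
    have h3 := BMEq.sub_mem hM hK h1'.symm (by rw [add_comm M K, h2', h1']) hz
    have h4 : z - (vol M)⁻¹ • ((∫ y in K, y) - ∫ y in M, y) = c + z := by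
      rw [← h1, hc, ← neg_sub (∫ y in M, y) (∫ y in K, y), smul_neg, sub_neg_eq_add, add_comm]
    rwa [h4] at h3

end Vale.Agent.P237
end

section

open MeasureTheory Metric Set Module
open scoped Pointwise

namespace Vale.Agent.P237

variable {V : Type*} [NormedAddCommGroup V] [InnerProductSpace ℝ V] [FiniteDimensional ℝ V]
  [MeasurableSpace V] [BorelSpace V]

private lemma mx_vol_translate (a : V) (K : Set V) : vol ((fun x => a + x) '' K) = vol K := by
  unfold vol
  rw [image_add_left, measure_preimage_add]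

omit [FiniteDimensional ℝ V] [MeasurableSpace V] [BorelSpace V] in
private lemma mx_smul_half_segment (t : ℝ) (v : V) :
    t • segment ℝ (-(2⁻¹ : ℝ) • v) ((2⁻¹ : ℝ) • v) =
      (fun x => (-(t / 2)) • v + x) '' segment ℝ 0 (t • v) := by
  have h1 : t • segment ℝ (-(2⁻¹ : ℝ) • v) ((2⁻¹ : ℝ) • v) =
      segment ℝ (t • (-(2⁻¹ : ℝ) • v)) (t • ((2⁻¹ : ℝ) • v)) := by
    have := image_segment ℝ (LinearMap.lsmul ℝ V t).toAffineMap (-(2⁻¹ : ℝ) • v) ((2⁻¹ : ℝ) • v)
    exact this
  have h2 : (fun x => (-(t / 2)) • v + x) '' segment ℝ 0 (t • v) =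
      segment ℝ ((-(t / 2)) • v + 0) ((-(t / 2)) • v + t • v) :=
    segment_translate_image ℝ _ _ _
  rw [h1, h2]
  congr 1
  · module
  · module

/-- Adding a symmetric segment increases the volume by `β`. -/
private lemma mx_vol_add_half_segment (K : Set V) (t : ℝ) (v : V) :
    vol (K + t • segment ℝ (-(2⁻¹ : ℝ) • v) ((2⁻¹ : ℝ) • v)) = vol K + beta K (t • v) := by
  rw [mx_smul_half_segment]
  have : K + (fun x => (-(t / 2)) • v + x) '' segment ℝ 0 (t • v) =
      (fun x => (-(t / 2)) • v + x) '' (K + segment ℝ 0 (t • v)) := by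
    ext x
    constructor
    · rintro ⟨k, hk, _, ⟨s, hs, rfl⟩, rfl⟩
      exact ⟨k + s, ⟨k, hk, s, hs, rfl⟩, by simp only; abel⟩
    · rintro ⟨_, ⟨k, hk, s, hs, rfl⟩, rfl⟩
      exact ⟨k, hk, _, ⟨s, hs, rfl⟩, by simp only; abel⟩
  rw [this, mx_vol_translate]
  unfold beta
  ring

/-- The zonotope of a partial family. -/
private def mxZ {ι : Type*} (v : ι → V) (s : Finset ι) : Set V :=
  ∑ j ∈ s, segment ℝ (-(2⁻¹ : ℝ) • v j) ((2⁻¹ : ℝ) • v j)

omit [InnerProductSpace ℝ V] [FiniteDimensional ℝ V] [MeasurableSpace V] [BorelSpace V] in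
private lemma mx_isCompact_sum [NormedSpace ℝ V] {ι : Type*} (S : ι → Set V) (s : Finset ι)
    (h : ∀ i, IsCompact (S i)) : IsCompact (∑ j ∈ s, S j) := by
  classical
  induction s using Finset.induction_on with
  | empty => simp only [Finset.sum_empty]; exact isCompact_singleton
  | insert a s ha ih => rw [Finset.sum_insert ha]; exact (h a).add ih

omit [InnerProductSpace ℝ V] [FiniteDimensional ℝ V] [MeasurableSpace V] [BorelSpace V] in
private lemma mx_convex_sum [NormedSpace ℝ V] {ι : Type*} (S : ι → Set V) (s : Finset ι)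
    (h : ∀ i, Convex ℝ (S i)) : Convex ℝ (∑ j ∈ s, S j) := by
  classical
  induction s using Finset.induction_on with
  | empty => simp only [Finset.sum_empty]; exact convex_singleton 0
  | insert a s ha ih => rw [Finset.sum_insert ha]; exact (h a).add ih

omit [FiniteDimensional ℝ V] [MeasurableSpace V] [BorelSpace V] in
private lemma mx_segment_compact (a b : V) : IsCompact (segment ℝ a b) := by
  rw [segment_eq_image]
  exact isCompact_Icc.image (by fun_prop)

omit [FiniteDimensional ℝ V] [MeasurableSpace V] [BorelSpace V] in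
private lemma mx_norm_le {ι : Type*} (v : ι → V) (s : Finset ι) (z : V) (hz : z ∈ mxZ v s) :
    ‖z‖ ≤ ∑ j ∈ s, ‖v j‖ := by
  classical
  unfold mxZ at hz
  induction s using Finset.induction_on generalizing z with
  | empty =>
    simp only [Finset.sum_empty] at hz
    have : z = 0 := hz
    simp [this]
  | insert a s ha ih =>
    rw [Finset.sum_insert ha] at hz
    obtain ⟨x, hx, y, hy, rfl⟩ := hz
    rw [Finset.sum_insert ha]
    refine (norm_add_le _ _).trans (add_le_add ?_ (ih y hy))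
    have h1 : segment ℝ (-(2⁻¹ : ℝ) • v a) ((2⁻¹ : ℝ) • v a) ⊆ closedBall (0 : V) ‖v a‖ := by
      refine (convex_closedBall (0 : V) ‖v a‖).segment_subset ?_ ?_
      · rw [mem_closedBall_zero_iff, norm_smul, norm_neg, Real.norm_of_nonneg (by norm_num)]
        have := norm_nonneg (v a)
        linarith only [this]
      · rw [mem_closedBall_zero_iff, norm_smul, Real.norm_of_nonneg (by norm_num)]
        have := norm_nonneg (v a)
        linarith only [this]
    exact mem_closedBall_zero_iff.1 (h1 hx)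

theorem zonotope_bound {K : Set V} (hK : IsBody K) {r : ℝ} (hr : 0 < r)
    (hr' : closedBall (0 : V) r ⊆ K) {m : ℕ} (v : Fin m → V) {t : ℝ} (ht : 0 ≤ t) :
    vol (K + t • ∑ j, segment ℝ (-(2⁻¹ : ℝ) • v j) ((2⁻¹ : ℝ) • v j)) ≤
      vol K + t * (1 + t * (∑ j, ‖v j‖) / r) ^ (finrank ℝ V - 1) * ∑ j, beta K (v j) := by
  classical
  set L : ℝ := ∑ j, ‖v j‖ with hL
  have hL0 : 0 ≤ L := Finset.sum_nonneg fun j _ => norm_nonneg _
  set c : ℝ := 1 + t * L / r with hc
  have hc0 : 0 < c := by (clear * - ht hr; positivity)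
  have key : ∀ s : Finset (Fin m), vol (K + t • mxZ v s) ≤
      vol K + t * c ^ (finrank ℝ V - 1) * ∑ j ∈ s, beta K (v j) := by
    intro s
    induction s using Finset.induction_on with
    | empty =>
      have : t • mxZ v ∅ = {0} := by
        unfold mxZ
        simp only [Finset.sum_empty]
        change t • ({0} : Set V) = {0}
        simp
      rw [this]
      simp only [add_singleton, add_zero, image_id', Finset.sum_empty, mul_zero, Std.le_refl]
    | insert a s ha ih =>
      have hZc : IsCompact (mxZ v s) := mx_isCompact_sum _ s fun j => mx_segment_compact _ _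
      have hZv : Convex ℝ (mxZ v s) := mx_convex_sum _ s fun j => convex_segment _ _
      have hK'c : IsCompact (K + t • mxZ v s) := hK.compact.add (hZc.smul t)
      have hK'v : Convex ℝ (K + t • mxZ v s) := hK.convex.add (hZv.smul t)
      have e1 : K + t • mxZ v (insert a s) =
          (K + t • mxZ v s) + t • segment ℝ (-(2⁻¹ : ℝ) • v a) ((2⁻¹ : ℝ) • v a) := by
        unfold mxZ
        rw [Finset.sum_insert ha, smul_add, add_comm (t • segment ℝ _ _), add_assoc]
      rw [e1, mx_vol_add_half_segment, beta_smul hK'c hK'v, abs_of_nonneg ht,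
        Finset.sum_insert ha]
      have h1 : K + t • mxZ v s ⊆ c • K := by
        rintro _ ⟨x, hx, _, ⟨z, hz, rfl⟩, rfl⟩
        have hzn : ‖z‖ ≤ L := (mx_norm_le v s z hz).trans
          (Finset.sum_le_sum_of_subset_of_nonneg (Finset.subset_univ s)
            fun j _ _ => norm_nonneg _)
        rw [hc, hK.convex.add_smul zero_le_one (by (clear * - ht hr; positivity)), one_smul]
        refine ⟨x, hx, t • z, ?_, rfl⟩
        rcases eq_or_lt_of_le ht with rfl | ht'
        · refine ⟨x, hx, ?_⟩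
          simp
        rcases eq_or_lt_of_le hL0 with hL1 | hL1
        · have : z = 0 := by
            rw [← norm_le_zero_iff]
            rw [← hL1] at hzn
            exact hzn
          refine ⟨x, hx, ?_⟩
          simp only [← hL1, mul_zero, zero_div, zero_smul, this, smul_zero]
        · refine ⟨(r / L) • z, hr' ?_, ?_⟩
          · rw [mem_closedBall_zero_iff, norm_smul, Real.norm_of_nonneg (by (clear * - hr hL1; positivity))]
            calc r / L * ‖z‖ ≤ r / L * L := by gcongr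
              _ = r := by (clear * - hL1 hr; field_simp)
          · simp only [smul_smul]
            congr 1
            (clear * - hL1 hr ht'; field_simp)
      have h2 : beta (K + t • mxZ v s) (v a) ≤ c ^ (finrank ℝ V - 1) * beta K (v a) := by
        rw [← beta_smul_set hK.compact hK.convex hc0]
        exact beta_mono hK'c hK'v (hK.compact.smul c) (hK.convex.smul c) h1 _
      have h3 := mul_le_mul_of_nonneg_left h2 ht
      nlinarith [ih, h3]
  exact key Finset.univ


omit [FiniteDimensional ℝ V] [MeasurableSpace V] [BorelSpace V] in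
private lemma mx_le_supp {N : Set V} (hN : IsCompact N) {x : V} (hx : x ∈ N) (v : V) :
    inner ℝ x v ≤ supp N v := by
  refine le_csSup ?_ ⟨x, hx, rfl⟩
  exact (hN.image (by fun_prop)).bddAbove

omit [FiniteDimensional ℝ V] [MeasurableSpace V] [BorelSpace V] in
private lemma mx_zero_mem_interior {N : Set V} (hN : IsSymBody N) : (0 : V) ∈ interior N := by
  obtain ⟨x, hx⟩ := hN.int
  have h1 : -x ∈ interior N := by
    have h2 : -N = N := by
      ext y
      constructor
      · intro hy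
        have := hN.symm _ hy
        rwa [neg_neg] at this
      · intro hy
        exact hN.symm _ hy
    have h3 : interior N = -interior N := by
      conv_lhs => rw [← h2]
      exact ((Homeomorph.neg V).preimage_interior N).symm
    rw [h3]
    simpa using hx
  have h2 := hN.convex.interior hx h1 (by norm_num : (0 : ℝ) ≤ 1 / 2)
    (by norm_num : (0 : ℝ) ≤ 1 / 2) (by norm_num)
  have h3 : (1 / 2 : ℝ) • x + (1 / 2 : ℝ) • -x = 0 := by module
  rwa [h3] at h2

omit [InnerProductSpace ℝ V] [FiniteDimensional ℝ V] [MeasurableSpace V] [BorelSpace V] in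
private lemma mx_exists_ball {N : Set V} (h : (0 : V) ∈ interior N) :
    ∃ ρ : ℝ, 0 < ρ ∧ closedBall (0 : V) ρ ⊆ N :=
  Metric.nhds_basis_closedBall.mem_iff.1 (mem_interior_iff_mem_nhds.1 h)

omit [FiniteDimensional ℝ V] [MeasurableSpace V] [BorelSpace V] in
private lemma mx_supp_ge {N : Set V} (hN : IsCompact N) {ρ : ℝ} (hρ : 0 < ρ)
    (h : closedBall (0 : V) ρ ⊆ N) (v : V) : ρ * ‖v‖ ≤ supp N v := by
  rcases eq_or_ne v 0 with rfl | hv
  · have := mx_le_supp hN (h (mem_closedBall_self hρ.le)) (0 : V)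
    simpa only [norm_zero, mul_zero, ge_iff_le, inner_self_eq_norm_sq_to_K, Real.ringHom_apply, ne_eq,     OfNat.ofNat_ne_zero, not_false_eq_true, zero_pow] using this
  · have hv' : 0 < ‖v‖ := norm_pos_iff.2 hv
    have hx : (ρ / ‖v‖) • v ∈ N := by
      apply h
      rw [mem_closedBall_zero_iff, norm_smul, Real.norm_of_nonneg (by positivity)]
      have : ρ / ‖v‖ * ‖v‖ = ρ := by field_simp
      rw [this]
    have := mx_le_supp hN hx v
    rw [real_inner_smul_left, real_inner_self_eq_norm_sq] at this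
    have h2 : ρ / ‖v‖ * ‖v‖ ^ 2 = ρ * ‖v‖ := by field_simp
    rwa [h2] at this

omit [FiniteDimensional ℝ V] [MeasurableSpace V] [BorelSpace V] in
/-- A point of the zonotope with extremal inner product. -/
private lemma mx_exists_zono {m : ℕ} (v : Fin m → V) (u : V) :
    ∃ z ∈ ∑ j, segment ℝ (-(2⁻¹ : ℝ) • v j) ((2⁻¹ : ℝ) • v j),
      inner ℝ z u = 2⁻¹ * ∑ j, |inner ℝ (v j) u| := by
  have h : ∀ j, ∃ z ∈ segment ℝ (-(2⁻¹ : ℝ) • v j) ((2⁻¹ : ℝ) • v j),
      inner ℝ z u = 2⁻¹ * |inner ℝ (v j) u| := by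
    intro j
    rcases le_total 0 (inner ℝ (v j) u) with h | h
    · exact ⟨_, right_mem_segment _ _ _, by rw [real_inner_smul_left, abs_of_nonneg h]⟩
    · exact ⟨_, left_mem_segment _ _ _, by rw [real_inner_smul_left, abs_of_nonpos h]; ring⟩
  choose z hz hz' using h
  refine ⟨∑ j, z j, Set.finsetSum_mem_finsetSum _ _ _ fun j _ => hz j, ?_⟩
  rw [sum_inner, Finset.mul_sum]
  exact Finset.sum_congr rfl fun j _ => hz' j

/-- `mixed_bound`, given the approximation of `N` by zonotopes. -/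
theorem mixed_bound_of_approx {K N M : Set V} (hK : IsBody K) (h0 : (0 : V) ∈ interior K)
    (hN : IsSymBody N) (hM : IsCompact M)
    (zonotope_approx : ∀ ε : ℝ, 0 < ε → ε < 1 → ∃ (m : ℕ) (v : Fin m → V),
      (∀ u : V, (1 - ε) * beta N u ≤ 2⁻¹ * ∑ j, |inner ℝ (v j) u|) ∧
      ∑ j, supp N (v j) ≤ (1 + ε) * (finrank ℝ V * vol N))
    (h1 : ∀ v, beta K v ≤ supp N v) (h2 : ∀ v, supp M v ≤ beta N v) :
    ∃ C : ℝ, 0 ≤ C ∧ ∀ t : ℝ, 0 ≤ t → vol (K + t • M) ≤
      vol K + t * (1 + t * C) ^ (finrank ℝ V - 1) * (finrank ℝ V * vol N) := by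
  obtain ⟨r, hr, hrK⟩ := mx_exists_ball h0
  obtain ⟨ρ, hρ, hρN⟩ := mx_exists_ball (mx_zero_mem_interior hN)
  set D : ℝ := finrank ℝ V * vol N with hD
  have hD0 : 0 ≤ D := mul_nonneg (Nat.cast_nonneg _) ENNReal.toReal_nonneg
  refine ⟨D / ρ / r, by (clear * - hD0 hρ hr; positivity), fun t ht => ?_⟩
  have key : ∀ ε : ℝ, 0 < ε → ε < 1 → vol (K + t • M) ≤ vol K + t / (1 - ε) *
      (1 + t / (1 - ε) * (((1 + ε) * D) / ρ) / r) ^ (finrank ℝ V - 1) * ((1 + ε) * D) := by
    intro ε hε hε1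
    have hε' : 0 < 1 - ε := by linarith
    obtain ⟨m, v, hv1, hv2⟩ := zonotope_approx ε hε hε1
    set Z : Set V := ∑ j, segment ℝ (-(2⁻¹ : ℝ) • v j) ((2⁻¹ : ℝ) • v j) with hZ
    have hZc : IsCompact Z := mx_isCompact_sum _ _ fun j => mx_segment_compact _ _
    have hZv : Convex ℝ Z := mx_convex_sum _ _ fun j => convex_segment _ _
    have hMZ : ∀ x ∈ M, (1 - ε) • x ∈ Z := by
      intro x hx
      by_contra hxZ
      obtain ⟨f, s, hf1, hf2⟩ := geometric_hahn_banach_closed_point hZv hZc.isClosed hxZ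
      set u : V := (InnerProductSpace.toDual ℝ V).symm f with hu
      have hfu : ∀ y, f y = inner ℝ y u := by
        intro y
        rw [real_inner_comm, hu, InnerProductSpace.toDual_symm_apply]
      obtain ⟨z, hz, hz'⟩ := mx_exists_zono v u
      have h3 := hf1 z hz
      rw [hfu, hz'] at h3
      rw [hfu, real_inner_smul_left] at hf2
      have h4 := hv1 u
      have h5 := mx_le_supp hM hx u
      have h6 := h2 u
      have h7 : (1 - ε) * inner ℝ x u ≤ (1 - ε) * beta N u :=
        mul_le_mul_of_nonneg_left (h5.trans h6) hε'.le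
      (clear K hK h0 hN h1 r hr hrK ρ hρ hρN D zonotope_approx hD hD0 t ht hε hv2 Z hZ hZc hZv hxZ hf1 hu hfu z hz hz'; linarith)
    have hsub : K + t • M ⊆ K + (t / (1 - ε)) • Z := by
      refine add_subset_add_left ?_
      rintro _ ⟨x, hx, rfl⟩
      refine ⟨(1 - ε) • x, hMZ x hx, ?_⟩
      simp only [smul_smul]
      congr 1
      (clear * - hε'; field_simp)
    have hfin : volume (K + (t / (1 - ε)) • Z) ≠ ⊤ :=
      (hK.compact.add (hZc.smul _)).measure_lt_top.ne
    have hle : vol (K + t • M) ≤ vol (K + (t / (1 - ε)) • Z) :=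
      ENNReal.toReal_mono hfin (measure_mono hsub)
    have ht' : 0 ≤ t / (1 - ε) := div_nonneg ht hε'.le
    have hzb := zonotope_bound hK hr hrK v ht'
    refine hle.trans (hzb.trans ?_)
    have hb0 : ∀ j, 0 ≤ beta K (v j) := fun j => beta_nonneg hK.compact hK.convex _
    have hsum : ∑ j, beta K (v j) ≤ (1 + ε) * D :=
      (Finset.sum_le_sum fun j _ => h1 (v j)).trans hv2
    have hsum0 : 0 ≤ ∑ j, beta K (v j) := Finset.sum_nonneg fun j _ => hb0 j
    have hL : ∑ j, ‖v j‖ ≤ ((1 + ε) * D) / ρ := by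
      rw [le_div_iff₀ hρ, mul_comm, Finset.mul_sum]
      exact (Finset.sum_le_sum fun j _ => mx_supp_ge hN.compact hρ hρN (v j)).trans hv2
    have hL0 : 0 ≤ ∑ j, ‖v j‖ := Finset.sum_nonneg fun j _ => norm_nonneg _
    (clear M h0 hM h2 hrK zonotope_approx hD hε' hv1 Z hZ hZc hZv hMZ hsub hfin hle ht' hzb hL0; gcongr)
  have hlim : Filter.Tendsto (fun ε : ℝ => vol K + t / (1 - ε) *
      (1 + t / (1 - ε) * (((1 + ε) * D) / ρ) / r) ^ (finrank ℝ V - 1) * ((1 + ε) * D))
      (nhdsWithin 0 (Ioi 0)) (nhds (vol K + t / (1 - 0) *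
      (1 + t / (1 - 0) * (((1 + 0) * D) / ρ) / r) ^ (finrank ℝ V - 1) * ((1 + 0) * D))) := by
    refine Filter.Tendsto.mono_left ?_ nhdsWithin_le_nhds
    refine ContinuousAt.tendsto (f := fun ε : ℝ => vol K + t / (1 - ε) *
      (1 + t / (1 - ε) * (((1 + ε) * D) / ρ) / r) ^ (finrank ℝ V - 1) * ((1 + ε) * D)) ?_
    have h3 : ContinuousAt (fun ε : ℝ => t / (1 - ε)) 0 :=
      ContinuousAt.div continuousAt_const (continuousAt_const.sub continuousAt_id) (by norm_num)
    (clear M hK h0 hN hM h1 h2 hr hrK hρ hρN zonotope_approx hD hD0 ht key h3; fun_prop (disch := norm_num))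
  have hfinal := ge_of_tendsto hlim (by
    filter_upwards [Ioo_mem_nhdsGT (zero_lt_one (α := ℝ))] with ε hε
    exact key ε hε.1 hε.2)
  refine hfinal.trans (le_of_eq ?_)
  simp only [sub_zero, div_one, add_zero, one_mul]
  congr 4
  ring

end Vale.Agent.P237
end

section

/-!
Task P237-D2: approximation of the surface area measure by finitely many vectors, by duality:
if a zonotope `Z = ∑ mᵢ [-uᵢ/2, uᵢ/2]` is contained in `N`, then `∑ mᵢ β_N(uᵢ) ≤ d vol N`.
-/

open MeasureTheory Metric Set Module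
open scoped Pointwise

namespace Vale.Agent.P237


variable {V : Type*} [NormedAddCommGroup V] [InnerProductSpace ℝ V] [FiniteDimensional ℝ V]
  [MeasurableSpace V] [BorelSpace V]

namespace ZA

omit [FiniteDimensional ℝ V] [MeasurableSpace V] [BorelSpace V] in
lemma isCompact_seg (x y : V) : IsCompact (segment ℝ x y) := by
  rw [segment_eq_image]
  exact isCompact_Icc.image (by fun_prop)

omit [FiniteDimensional ℝ V] [MeasurableSpace V] [BorelSpace V] in
lemma bddAbove_supp {N : Set V} (hN : IsCompact N) (v : V) :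
    BddAbove ((fun x => inner ℝ x v) '' N) :=
  (hN.image (by fun_prop)).bddAbove

omit [FiniteDimensional ℝ V] [MeasurableSpace V] [BorelSpace V] in
lemma le_supp {N : Set V} (hN : IsCompact N) {x : V} (hx : x ∈ N) (v : V) :
    inner ℝ x v ≤ supp N v :=
  le_csSup (bddAbove_supp hN v) ⟨x, hx, rfl⟩

omit [FiniteDimensional ℝ V] [MeasurableSpace V] [BorelSpace V] in
lemma supp_le {N : Set V} (hne : N.Nonempty) {v : V} {c : ℝ} (h : ∀ x ∈ N, inner ℝ x v ≤ c) :
    supp N v ≤ c := by
  apply csSup_le (hne.image _)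
  rintro _ ⟨x, hx, rfl⟩
  exact h x hx

omit [FiniteDimensional ℝ V] [MeasurableSpace V] [BorelSpace V] in
lemma supp_smul {N : Set V} (hN : IsCompact N) (hne : N.Nonempty) {t : ℝ} (ht : 0 ≤ t) (v : V) :
    supp N (t • v) = t * supp N v := by
  apply le_antisymm
  · refine supp_le hne fun x hx => ?_
    rw [inner_smul_right]
    exact mul_le_mul_of_nonneg_left (le_supp hN hx v) ht
  · rcases ht.eq_or_lt with rfl | ht
    · obtain ⟨x, hx⟩ := hne
      have h := le_supp hN hx ((0 : ℝ) • v)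
      simpa only [zero_mul, zero_smul, ge_iff_le, inner_zero_right] using h
    · have h : supp N v ≤ t⁻¹ * supp N (t • v) := by
        refine supp_le hne fun x hx => ?_
        have h1 := le_supp hN hx (t • v)
        rw [inner_smul_right] at h1
        rw [inv_mul_eq_div, le_div_iff₀ ht]
        linarith only [h1]
      calc t * supp N v ≤ t * (t⁻¹ * supp N (t • v)) := mul_le_mul_of_nonneg_left h ht.le
        _ = supp N (t • v) := by (clear * - ht; field_simp)

omit [MeasurableSpace V] [BorelSpace V] in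
lemma mem_of_supp {N : Set V} (hN : IsCompact N) (hc : Convex ℝ N) (hne : N.Nonempty) {z : V}
    (h : ∀ v, inner ℝ z v ≤ supp N v) : z ∈ N := by
  by_contra hz
  obtain ⟨f, c, h1, h2⟩ := geometric_hahn_banach_closed_point hc hN.isClosed hz
  set w := (InnerProductSpace.toDual ℝ V).symm f with hw
  have hf : ∀ x, f x = inner ℝ x w := fun x => by
    rw [real_inner_comm, hw, InnerProductSpace.toDual_symm_apply]
  have h3 : supp N w ≤ c := supp_le hne fun x hx => by
    rw [← hf]
    exact (h1 x hx).le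
  have h4 := h w
  rw [← hf] at h4
  linarith

omit [FiniteDimensional ℝ V] [MeasurableSpace V] [BorelSpace V] in
lemma zero_mem {N : Set V} (hN : IsSymBody N) : (0 : V) ∈ N := by
  obtain ⟨x, hx⟩ := hN.int
  have hx' := interior_subset hx
  have h := hN.convex hx' (hN.symm x hx') (show (0 : ℝ) ≤ 1 / 2 by norm_num)
    (show (0 : ℝ) ≤ 1 / 2 by norm_num) (by norm_num)
  simpa only [one_div, smul_neg, add_neg_cancel] using h

omit [FiniteDimensional ℝ V] [MeasurableSpace V] [BorelSpace V] in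
lemma ball_subset {N : Set V} (hN : IsSymBody N) : ∃ ρ > 0, closedBall (0 : V) ρ ⊆ N := by
  obtain ⟨x, hx⟩ := hN.int
  obtain ⟨r, hr, hb⟩ := Metric.mem_nhds_iff.1 (mem_interior_iff_mem_nhds.1 hx)
  refine ⟨r / 2, by positivity, fun y hy => ?_⟩
  rw [mem_closedBall_zero_iff] at hy
  have h1 : x + y ∈ N := hb (by rw [mem_ball_iff_norm]; simp; linarith only [hr, hy])
  have h2 : x - y ∈ N := hb (by rw [mem_ball_iff_norm]; simp; linarith only [hr, hy])
  have h3 := hN.convex h1 (hN.symm _ h2) (show (0 : ℝ) ≤ 1 / 2 by norm_num)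
    (show (0 : ℝ) ≤ 1 / 2 by norm_num) (by norm_num)
  have h4 : (1 / 2 : ℝ) • (x + y) + (1 / 2 : ℝ) • -(x - y) = y := by
    module
  rwa [h4] at h3

omit [FiniteDimensional ℝ V] [MeasurableSpace V] [BorelSpace V] in
lemma supp_ge {N : Set V} (hN : IsCompact N) {ρ : ℝ} (hρ : 0 < ρ)
    (hb : closedBall (0 : V) ρ ⊆ N) (v : V) : ρ * ‖v‖ ≤ supp N v := by
  rcases eq_or_ne v 0 with rfl | hv
  · have h := le_supp hN (hb (mem_closedBall_self hρ.le)) (0 : V)
    simpa only [norm_zero, mul_zero, ge_iff_le, inner_self_eq_norm_sq_to_K, Real.ringHom_apply, ne_eq,     OfNat.ofNat_ne_zero, not_false_eq_true, zero_pow] using h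
  · have hv' : 0 < ‖v‖ := norm_pos_iff.2 hv
    have hx : (ρ / ‖v‖) • v ∈ N := hb (by
      rw [mem_closedBall_zero_iff, norm_smul, Real.norm_eq_abs, abs_of_pos (by (clear * - hρ hv; positivity))]
      rw [div_mul_cancel₀ _ hv'.ne'])
    have h := le_supp hN hx v
    rw [real_inner_smul_left, real_inner_self_eq_norm_sq] at h
    calc ρ * ‖v‖ = ρ / ‖v‖ * ‖v‖ ^ 2 := by field_simp
      _ ≤ _ := h

lemma vol_pos {N : Set V} (hN : IsBody N) : 0 < vol N := by
  unfold vol
  refine ENNReal.toReal_pos ?_ hN.compact.measure_lt_top.ne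
  exact (Measure.measure_pos_of_nonempty_interior _ hN.int).ne'

lemma vol_mono {A B : Set V} (hB : IsCompact B) (h : A ⊆ B) : vol A ≤ vol B :=
  ENNReal.toReal_mono hB.measure_lt_top.ne (measure_mono h)

lemma vol_smul {A : Set V} {r : ℝ} (hr : 0 ≤ r) : vol (r • A) = r ^ finrank ℝ V * vol A := by
  unfold vol
  rw [Measure.addHaar_smul, ENNReal.toReal_mul, ENNReal.toReal_ofReal (abs_nonneg _),
    abs_of_nonneg (by positivity)]

lemma vol_translate (w : V) (A : Set V) : vol (w +ᵥ A) = vol A := by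
  unfold vol
  rw [measure_vadd]

/-- The key inequality (a mixed volume inequality). -/
lemma sum_beta_le {ι : Type*} [Fintype ι] {N : Set V} (hN : IsSymBody N) (u : ι → V) (m : ι → ℝ)
    (hm : ∀ i, 0 ≤ m i) (h : ∀ v, 2⁻¹ * ∑ i, m i * |inner ℝ v (u i)| ≤ supp N v) :
    ∑ i, m i * beta N (u i) ≤ finrank ℝ V * vol N := by
  classical
  have hcN := hN.convex
  have hkN := hN.compact
  have hneN : N.Nonempty := ⟨0, zero_mem hN⟩
  -- growth of the volume
  have key : ∀ t : ℝ, 0 < t → t * ∑ i, m i * beta N (u i) ≤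
      ((1 + t) ^ finrank ℝ V - 1) * vol N := by
    intro t ht
    set F : Finset ι → Set V := fun s => N + ∑ i ∈ s, segment ℝ 0 ((t * m i) • u i) with hF
    have hFc : ∀ s, IsCompact (F s) ∧ Convex ℝ (F s) ∧ N ⊆ F s ∧
        vol N + t * ∑ i ∈ s, m i * beta N (u i) ≤ vol (F s) := by
      intro s
      induction s using Finset.induction_on with
      | empty =>
        have h0 : F ∅ = N := by simp [hF]
        rw [h0]
        exact ⟨hkN, hcN, subset_rfl, by simp⟩
      | insert i s hi ih =>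
        obtain ⟨h1, h2, h3, h4⟩ := ih
        have h5 : F (insert i s) = F s + segment ℝ 0 ((t * m i) • u i) := by
          simp only [hF]
          rw [Finset.sum_insert hi, add_assoc]
          congr 1
          exact add_comm _ _
        have h6 : beta N ((t * m i) • u i) ≤ beta (F s) ((t * m i) • u i) :=
          beta_mono hkN hcN h1 h2 h3 _
        rw [beta_smul hkN hcN, abs_of_nonneg (mul_nonneg ht.le (hm i))] at h6
        have h7 : beta (F s) ((t * m i) • u i) = vol (F (insert i s)) - vol (F s) := by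
          rw [h5]; rfl
        refine ⟨?_, ?_, ?_, ?_⟩
        · rw [h5]; exact h1.add (isCompact_seg _ _)
        · rw [h5]; exact h2.add (convex_segment _ _)
        · rw [h5]
          intro x hx
          exact ⟨x, h3 hx, 0, left_mem_segment ℝ _ _, add_zero x⟩
        · rw [Finset.sum_insert hi]
          rw [h7] at h6
          (clear hN hm h hcN hkN hneN ht hF hi h1 h2 h3 h5 h7; nlinarith [h6, h4])
    obtain ⟨-, -, -, hlow⟩ := hFc Finset.univ
    set w : V := ∑ i, (t * m i / 2) • u i with hw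
    have hsub : F Finset.univ ⊆ w +ᵥ ((1 + t) • N) := by
      rintro y ⟨x, hx, z', hz', rfl⟩
      rw [Set.mem_fintype_sum] at hz'
      obtain ⟨g, hg, rfl⟩ := hz'
      have hg' : ∀ i, ∃ s ∈ Icc (0 : ℝ) 1, g i = s • ((t * m i) • u i) := by
        intro i
        have h1 := hg i
        rw [segment_eq_image] at h1
        obtain ⟨s, hs, h2⟩ := h1
        exact ⟨s, hs, by rw [← h2]; simp⟩
      choose s hs hgs using hg'
      set z : V := ∑ i, ((s i - 1 / 2) * m i) • u i with hz
      have hzN : z ∈ N := by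
        refine mem_of_supp hkN hcN hneN fun v => le_trans ?_ (h v)
        rw [hz, sum_inner, Finset.mul_sum]
        refine Finset.sum_le_sum fun i _ => ?_
        rw [real_inner_smul_left, real_inner_comm]
        have h1 : |s i - 1 / 2| ≤ 1 / 2 := by
          rw [abs_le]
          constructor <;> linarith only [(hs i).1, (hs i).2]
        have h2 : (s i - 1 / 2) * inner ℝ v (u i) ≤ 1 / 2 * |inner ℝ v (u i)| := by
          calc (s i - 1 / 2) * inner ℝ v (u i) ≤ |(s i - 1 / 2) * inner ℝ v (u i)| := le_abs_self _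
            _ = |s i - 1 / 2| * |inner ℝ v (u i)| := abs_mul _ _
            _ ≤ _ := mul_le_mul_of_nonneg_right h1 (abs_nonneg _)
        have h3 := mul_le_mul_of_nonneg_left h2 (hm i)
        calc (s i - 1 / 2) * m i * inner ℝ v (u i)
            = m i * ((s i - 1 / 2) * inner ℝ v (u i)) := by ring
          _ ≤ m i * (1 / 2 * |inner ℝ v (u i)|) := h3
          _ = _ := by ring
      have hcomb : (1 / (1 + t)) • x + (t / (1 + t)) • z ∈ N :=
        hcN hx hzN (by (clear * - ht; positivity)) (by positivity) (by (clear * - ht; field_simp))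
      refine ⟨(1 + t) • ((1 / (1 + t)) • x + (t / (1 + t)) • z), ⟨_, hcomb, rfl⟩, ?_⟩
      have h1 : (1 + t) • ((1 / (1 + t)) • x + (t / (1 + t)) • z) = x + t • z := by
        rw [smul_add, smul_smul, smul_smul]
        have h2 : (1 + t) * (1 / (1 + t)) = 1 := by field_simp
        have h3 : (1 + t) * (t / (1 + t)) = t := by (clear * - ht; field_simp)
        rw [h2, h3, one_smul]
      show w + (1 + t) • ((1 / (1 + t)) • x + (t / (1 + t)) • z) = x + ∑ i, g i
      rw [h1, hw, hz, Finset.smul_sum]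
      have h4 : ∑ i, g i = ∑ i, (t * m i / 2) • u i + ∑ i, t • ((s i - 1 / 2) * m i) • u i := by
        rw [← Finset.sum_add_distrib]
        refine Finset.sum_congr rfl fun i _ => ?_
        rw [hgs i]
        module
      rw [h4]
      abel
    have hup : vol (F Finset.univ) ≤ (1 + t) ^ finrank ℝ V * vol N := by
      have h1 := vol_mono ((hkN.smul (1 + t)).vadd w) hsub
      rwa [vol_translate, vol_smul (by (clear * - ht; positivity))] at h1
    (clear hF hFc; linarith)
  -- limit `t → 0`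
  have hlim : ∀ t : ℝ, 0 < t → ∑ i, m i * beta N (u i) ≤
      finrank ℝ V * (1 + t) ^ (finrank ℝ V) * vol N := by
    intro t ht
    have h1 := key t ht
    have h2 : (1 + t) ^ finrank ℝ V - 1 ≤ t * (finrank ℝ V * (1 + t) ^ finrank ℝ V) := by
      have h3 := one_add_mul_le_pow (show (-2 : ℝ) ≤ -(t / (1 + t)) by
        have : t / (1 + t) ≤ 1 := by rw [div_le_one (by positivity)]; linarith
        linarith only [this]) (finrank ℝ V)
      have h4 : 1 + -(t / (1 + t)) = (1 + t)⁻¹ := by field_simp; ring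
      rw [h4, inv_pow] at h3
      have h5 : 0 < (1 + t) ^ finrank ℝ V := by positivity
      have h6 := mul_le_mul_of_nonneg_left h3 h5.le
      rw [mul_inv_cancel₀ h5.ne'] at h6
      have h7 : t / (1 + t) ≤ t := by
        rw [div_le_iff₀ (by positivity)]
        nlinarith only [ht]
      have h8 : (1 + t) ^ finrank ℝ V * (finrank ℝ V * (t / (1 + t))) ≤
          (1 + t) ^ finrank ℝ V * (finrank ℝ V * t) := by (clear * - h7 ht; gcongr)
      linarith only [h6, h8]
    have h3 : ((1 + t) ^ finrank ℝ V - 1) * vol N ≤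
        t * (finrank ℝ V * (1 + t) ^ finrank ℝ V) * vol N :=
      mul_le_mul_of_nonneg_right h2 (vol_pos hN.toIsBody).le
    have h4 := h1.trans h3
    have h5 : t * ∑ i, m i * beta N (u i) ≤ t * (finrank ℝ V * (1 + t) ^ (finrank ℝ V) * vol N) := by
      linarith
    exact le_of_mul_le_mul_left h5 ht
  have hcont : Filter.Tendsto (fun t : ℝ => (finrank ℝ V : ℝ) * (1 + t) ^ (finrank ℝ V) * vol N)
      (nhdsWithin 0 (Ioi 0)) (nhds ((finrank ℝ V : ℝ) * (1 + 0) ^ (finrank ℝ V) * vol N)) := by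
    apply Filter.Tendsto.mono_left _ nhdsWithin_le_nhds
    exact Continuous.tendsto (by (clear hN u m hm h hcN hkN hneN key hlim; fun_prop)) 0
  have h1 := ge_of_tendsto hcont (Filter.eventually_of_mem self_mem_nhdsWithin fun t ht => hlim t ht)
  simpa only [ge_iff_le, add_zero, one_pow, mul_one] using h1

/-! ### duality -/

/-- The vector of data of a finite list of vectors. -/
noncomputable def dat {ι : Type*} (N : Set V) (u : ι → V) (L : List V) : (ι → ℝ) × ℝ :=
  (fun i => 2⁻¹ * (L.map fun v => |inner ℝ v (u i)|).sum, (L.map fun v => supp N v).sum)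

omit [FiniteDimensional ℝ V] [MeasurableSpace V] [BorelSpace V] in
lemma dat_append {ι : Type*} (N : Set V) (u : ι → V) (L L' : List V) :
    dat N u (L ++ L') = dat N u L + dat N u L' := by
  simp only [dat, List.map_append, List.sum_append, Prod.mk_add_mk, Prod.mk.injEq, and_true]
  funext i
  simp only [mul_add, Pi.add_apply]

omit [FiniteDimensional ℝ V] [MeasurableSpace V] [BorelSpace V] in
lemma dat_smul {ι : Type*} {N : Set V} (hN : IsCompact N) (hne : N.Nonempty) (u : ι → V)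
    (L : List V) {t : ℝ} (ht : 0 ≤ t) :
    dat N u (L.map fun v => t • v) = t • dat N u L := by
  simp only [dat, List.map_map, Prod.smul_mk, Prod.mk.injEq]
  refine ⟨?_, ?_⟩
  · funext i
    have h1 : ((fun v => |inner ℝ v (u i)|) ∘ fun v : V => t • v) =
        fun v => t * |inner ℝ v (u i)| := by
      funext v
      simp only [Function.comp, real_inner_smul_left, abs_mul, abs_of_nonneg ht]
    rw [h1, List.sum_map_mul_left]
    simp only [Pi.smul_apply, smul_eq_mul]
    ring
  · have h1 : ((fun v => supp N v) ∘ fun v : V => t • v) = fun v => t * supp N v := by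
      funext v
      simp only [Function.comp, supp_smul hN hne ht]
    rw [h1, List.sum_map_mul_left]
    rfl

/-- Finitely many directions. -/
lemma finite_dir {ι : Type*} [Fintype ι] {N : Set V} (hN : IsSymBody N) (hd : 0 < finrank ℝ V)
    {ε : ℝ} (hε : 0 < ε) (hε1 : ε < 1) (u : ι → V) (hu : ∀ i, ‖u i‖ = 1) :
    ∃ L : List V, (∀ i, (1 - ε) * beta N (u i) ≤ 2⁻¹ * (L.map fun v => |inner ℝ v (u i)|).sum) ∧
      (L.map fun v => supp N v).sum ≤ (1 + ε) * (finrank ℝ V * vol N) := by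
  classical
  by_contra hcon
  push Not at hcon
  have hkN := hN.compact
  have hneN : N.Nonempty := ⟨0, zero_mem hN⟩
  have hvol := vol_pos hN.toIsBody
  have hd' : (0 : ℝ) < finrank ℝ V := by exact_mod_cast hd
  set T : ℝ := (1 + ε) * (finrank ℝ V * vol N) with hT
  set b : ι → ℝ := fun i => (1 - ε) * beta N (u i) with hb
  set S : Set ((ι → ℝ) × ℝ) := Set.range (dat N u) with hS
  set Q : Set ((ι → ℝ) × ℝ) := (Set.univ.pi fun i => Ioi (b i)) ×ˢ Iio T with hQ
  have hQo : IsOpen Q := (isOpen_set_pi Set.finite_univ fun i _ => isOpen_Ioi).prod isOpen_Iio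
  have hQc : Convex ℝ Q := (convex_pi fun i _ => convex_Ioi _).prod (convex_Iio _)
  have hSc : Convex ℝ S := by
    rintro _ ⟨L, rfl⟩ _ ⟨L', rfl⟩ a c ha hc _
    refine ⟨(L.map fun v => a • v) ++ (L'.map fun v => c • v), ?_⟩
    rw [dat_append, dat_smul hkN hneN u L ha, dat_smul hkN hneN u L' hc]
  have hdisj : Disjoint Q S := by
    rw [Set.disjoint_left]
    rintro _ ⟨h1, h2⟩ ⟨L, rfl⟩
    have h3 := hcon L (fun i => (h1 i (Set.mem_univ i)).le)
    exact absurd h2 (not_lt.2 h3.le)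
  obtain ⟨f, c, hfQ, hfS⟩ := geometric_hahn_banach_open hQc hQo hSc hdisj
  -- the coefficients
  set m : ι → ℝ := fun i => -f (Pi.single i 1, 0) with hm
  set l : ℝ := f (0, 1) with hl
  have hf : ∀ (x : ι → ℝ) (t : ℝ), f (x, t) = -(∑ i, m i * x i) + l * t := by
    intro x t
    have h1 : (x, t) = ∑ i, x i • ((Pi.single i 1, 0) : (ι → ℝ) × ℝ) + t • ((0, 1) : (ι → ℝ) × ℝ) := by
      ext i
      · simp only [Prod.smul_mk, smul_eq_mul, mul_zero, smul_zero, mul_one, Prod.fst_add, Prod.fst_sum, Pi.add_apply, Finset.sum_apply, Pi.smul_apply, Pi.single_apply, mul_ite, Finset.sum_ite_eq, Finset.mem_univ, ↓reduceIte, Pi.zero_apply, add_zero]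
      · simp only [Prod.smul_mk, smul_eq_mul, mul_zero, smul_zero, mul_one, Prod.snd_add, Prod.snd_sum, Finset.sum_const_zero, zero_add]
    rw [h1, map_add, map_sum, map_smul]
    simp only [map_smul, smul_eq_mul, hm, hl]
    rw [← Finset.sum_neg_distrib]
    congr 1
    · exact Finset.sum_congr rfl fun i _ => by ring
    · ring
  have hc0 : c ≤ 0 := by
    have h1 := hfS (dat N u []) ⟨[], rfl⟩
    have h2 : dat N u [] = 0 := by
      simp only [dat, List.map_nil, List.sum_nil, mul_zero]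
      rfl
    rwa [h2, map_zero] at h1
  have hS0 : ∀ v : V, 0 ≤ f (dat N u [v]) := by
    intro v
    by_contra hneg
    push Not at hneg
    obtain ⟨n, hn⟩ := exists_nat_gt (c / f (dat N u [v]))
    have h1 := hfS _ ⟨[v].map fun v => (n : ℝ) • v, rfl⟩
    rw [dat_smul hkN hneN u [v] (Nat.cast_nonneg n), map_smul, smul_eq_mul] at h1
    rw [div_lt_iff_of_neg hneg] at hn
    linarith only [hn, h1]
  set q0 : (ι → ℝ) × ℝ := (fun i => b i + 1, T - 1) with hq0
  have hmi : ∀ i, 0 ≤ m i := by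
    intro i
    by_contra hneg
    push Not at hneg
    obtain ⟨n, hn⟩ := exists_nat_gt ((c - f q0) / (-m i))
    have h1 : q0 + (n : ℝ) • ((Pi.single i 1, 0) : (ι → ℝ) × ℝ) ∈ Q := by
      refine ⟨fun j _ => ?_, ?_⟩
      · simp only [hq0, Prod.fst_add, Prod.smul_fst, Pi.add_apply, Pi.smul_apply, smul_eq_mul,
          mem_Ioi, Pi.single_apply]
        have : (0 : ℝ) ≤ (n : ℝ) * (if j = i then 1 else 0) := by (clear * -; (clear * -; positivity))
        (clear hN hd hu hkN hneN hvol hd' T hcon hT hb S hS Q hQ hQo hQc hSc hdisj f c hfQ hfS m hm l hl hf hc0 hS0 q0 hq0 hneg hn; linarith)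
      · simp only [hq0, Prod.smul_mk, smul_eq_mul, mul_zero, Prod.mk_add_mk, add_zero, mem_Iio, sub_lt_self_iff, zero_lt_one]
    have h2 := hfQ _ h1
    rw [map_add, map_smul, smul_eq_mul] at h2
    have h3 : f (Pi.single i 1, 0) = -m i := by simp [hm]
    rw [h3] at h2
    rw [div_lt_iff₀ (by linarith only [hneg])] at hn
    linarith only [hn, h2]
  have hl0 : 0 ≤ l := by
    by_contra hneg
    push Not at hneg
    obtain ⟨n, hn⟩ := exists_nat_gt ((c - f q0) / (-l))
    have h1 : q0 + (n : ℝ) • ((0, -1) : (ι → ℝ) × ℝ) ∈ Q := by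
      refine ⟨fun j _ => ?_, ?_⟩
      · simp only [hq0, Prod.smul_mk, smul_zero, smul_eq_mul, mul_neg, mul_one, Prod.mk_add_mk, add_zero, mem_Ioi, lt_add_iff_pos_right, zero_lt_one]
      · simp only [hq0, Prod.snd_add, Prod.smul_snd, smul_eq_mul, mem_Iio]
        have : (0 : ℝ) ≤ (n : ℝ) := Nat.cast_nonneg n
        (clear hN hd u hu hkN hneN hvol hd' hcon hT b hb S hS Q hQ hQo hQc hSc hdisj f c hfQ hfS m hm l hl hf hc0 hS0 q0 hq0 hmi hneg hn this; linarith)
    have h2 := hfQ _ h1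
    rw [map_add, map_smul, smul_eq_mul] at h2
    have h3 : f ((0, -1) : (ι → ℝ) × ℝ) = -l := by
      rw [hf]
      simp only [Pi.zero_apply, mul_zero, Finset.sum_const_zero, neg_zero, mul_neg, mul_one, zero_add]
    rw [h3] at h2
    rw [div_lt_iff₀ (by linarith only [hneg])] at hn
    linarith only [hn, h2]
  have hvS : ∀ v, 2⁻¹ * ∑ i, m i * |inner ℝ v (u i)| ≤ l * supp N v := by
    intro v
    have h1 := hS0 v
    have h2 : dat N u [v] = (fun i => 2⁻¹ * |inner ℝ v (u i)|, supp N v) := by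
      simp only [dat, List.map_cons, List.map_nil, List.sum_cons, List.sum_nil, add_zero]
    rw [h2, hf] at h1
    have h3 : ∑ i, m i * (2⁻¹ * |inner ℝ v (u i)|) = 2⁻¹ * ∑ i, m i * |inner ℝ v (u i)| := by
      rw [Finset.mul_sum]
      exact Finset.sum_congr rfl fun i _ => by ring
    rw [h3] at h1
    linarith only [h1]
  have hl1 : 0 < l := by
    rcases hl0.eq_or_lt with h0 | h0
    · exfalso
      have hmz : ∀ i, m i = 0 := by
        intro i
        have h1 := hvS (u i)
        rw [← h0, zero_mul] at h1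
        have h2 : m i * |inner ℝ (u i) (u i)| ≤ ∑ j, m j * |inner ℝ (u i) (u j)| :=
          Finset.single_le_sum (f := fun j => m j * |inner ℝ (u i) (u j)|)
            (fun j _ => mul_nonneg (hmi j) (abs_nonneg _)) (Finset.mem_univ i)
        rw [real_inner_self_eq_norm_sq, hu i] at h2
        have h3 : |(1 : ℝ) ^ 2| = 1 := by norm_num
        rw [h3, mul_one] at h2
        have h4 : ∑ j, m j * |inner ℝ (u i) (u j)| ≤ 0 := by linarith only [h1]
        exact le_antisymm (h2.trans h4) (hmi i)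
      have h1 := hfQ q0 ⟨fun i _ => by simp only [hq0, mem_Ioi, lt_add_iff_pos_right, zero_lt_one], by simp only [hq0, mem_Iio, sub_lt_self_iff, zero_lt_one]⟩
      rw [hq0, hf, ← h0] at h1
      simp only [hmz, zero_mul, Finset.sum_const_zero, neg_zero, add_zero] at h1
      linarith only [hc0, h1]
    · exact h0
  -- the zonotope with coefficients `m / l`
  have hkey := sum_beta_le hN u (fun i => m i / l) (fun i => div_nonneg (hmi i) hl1.le) (by
    intro v
    have h1 := hvS v
    have h2 : ∑ i, m i / l * |inner ℝ v (u i)| = (∑ i, m i * |inner ℝ v (u i)|) / l := by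
      rw [Finset.sum_div]
      exact Finset.sum_congr rfl fun i _ => by ring
    rw [h2, ← mul_div_assoc, div_le_iff₀ hl1]
    linarith only [h1])
  have hkey2 : ∑ i, m i * beta N (u i) ≤ l * (finrank ℝ V * vol N) := by
    have h2 : ∑ i, m i / l * beta N (u i) = (∑ i, m i * beta N (u i)) / l := by
      rw [Finset.sum_div]
      exact Finset.sum_congr rfl fun i _ => by ring
    rw [h2, div_le_iff₀ hl1] at hkey
    (clear hN hd ε hε hε1 hu hkN hneN hvol hd' T hcon hT b hb S hS Q hQ hQo hQc hSc hdisj c hfQ hfS hm hl hf hc0 hS0 q0 hq0 hmi hl0 hvS hl1 h2; linarith)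
  have hlow : l * T ≤ ∑ i, m i * b i := by
    refine le_of_forall_pos_le_add fun η hη => ?_
    set C : ℝ := ∑ i, m i + l + 1 with hC
    have hCpos : 0 < C := by
      have : 0 ≤ ∑ i, m i := Finset.sum_nonneg fun i _ => hmi i
      linarith only [hl1, this]
    have h1 := hfQ (fun i => b i + η / C, T - η / C) ⟨fun i _ => by
      simp only [mem_Ioi]
      have : 0 < η / C := div_pos hη hCpos
      (clear hd hvol hd' hcon hT hb hS hQ hQo hQc hSc hdisj hkey hkey2 hC; linarith), by
      simp only [mem_Iio]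
      have : 0 < η / C := div_pos hη hCpos
      (clear hd hvol hd' hcon hT hb hS hQ hQo hQc hSc hdisj hkey hkey2 hC; linarith)⟩
    rw [hf] at h1
    have h2 : ∑ i, m i * (b i + η / C) = ∑ i, m i * b i + (∑ i, m i) * (η / C) := by
      rw [Finset.sum_mul, ← Finset.sum_add_distrib]
      exact Finset.sum_congr rfl fun i _ => by ring
    rw [h2] at h1
    have h3 : (∑ i, m i) * (η / C) + l * (η / C) ≤ η := by
      have h4 : (∑ i, m i + l) * (η / C) ≤ C * (η / C) :=
        mul_le_mul_of_nonneg_right (by linarith only []) (div_pos hη hCpos).le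
      have h5 : C * (η / C) = η := by (clear * - hCpos hη; field_simp)
      nlinarith only [h4, h5]
    (clear hd hvol hd' hcon hT hb hS hQ hQo hQc hSc hdisj hkey hkey2 hC h2; nlinarith)
  have hb2 : ∑ i, m i * b i = (1 - ε) * ∑ i, m i * beta N (u i) := by
    rw [Finset.mul_sum]
    exact Finset.sum_congr rfl fun i _ => by simp only [hb]; ring
  rw [hb2] at hlow
  have h1 : (1 - ε) * ∑ i, m i * beta N (u i) ≤ (1 - ε) * (l * (finrank ℝ V * vol N)) :=
    mul_le_mul_of_nonneg_left hkey2 (by linarith only [hε1])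
  have h2 : 0 < l * (finrank ℝ V * vol N) := by (clear hd' hcon hT hb hS hQ hQo hQc hSc hdisj hkey hkey2 hlow hb2 h1; positivity)
  rw [hT] at hlow
  (clear hN hd hε1 hu hkN hneN hvol hd' T hcon hT b hb S hS Q hQ hQo hQc hSc hdisj c hfQ hfS hm hl hf hc0 hS0 q0 hq0 hmi hl0 hvS hl1 hkey hkey2 hb2; nlinarith)

end ZA

open ZA in
/-- Task D2: finitely many vectors approximating the surface area measure of `N`. -/
theorem zonotope_approx {N : Set V} (hN : IsSymBody N) {ε : ℝ} (hε : 0 < ε) (hε1 : ε < 1) :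
    ∃ (m : ℕ) (v : Fin m → V),
      (∀ u : V, (1 - ε) * beta N u ≤ 2⁻¹ * ∑ j, |inner ℝ (v j) u|) ∧
      ∑ j, supp N (v j) ≤ (1 + ε) * (finrank ℝ V * vol N) := by
  classical
  have hkN := hN.compact
  have hcN := hN.convex
  have hbz : beta N 0 = 0 := by
    have h := beta_smul hkN hcN 0 (0 : V)
    simpa only [smul_zero, abs_zero, zero_mul] using h
  rcases Nat.eq_zero_or_pos (finrank ℝ V) with hd | hd
  · refine ⟨0, Fin.elim0, fun u => ?_, ?_⟩
    · have : Subsingleton V := finrank_zero_iff.1 hd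
      rw [Subsingleton.elim u 0, hbz]
      simp
    · simp [hd]
  have : Nontrivial V := finrank_pos_iff.1 hd
  have hvol := vol_pos hN.toIsBody
  have hd' : (0 : ℝ) < finrank ℝ V := by exact_mod_cast hd
  -- upper bound for `β`
  obtain ⟨B, hB0, hB⟩ : ∃ B : ℝ, 0 ≤ B ∧ ∀ w, beta N w ≤ B * ‖w‖ := by
    set e := stdOrthonormalBasis ℝ V
    refine ⟨∑ i, beta N (e i), Finset.sum_nonneg fun i _ => beta_nonneg hkN hcN _, fun w => ?_⟩
    have h1 : beta N (∑ i, inner ℝ (e i) w • e i) ≤ ∑ i, beta N (inner ℝ (e i) w • e i) :=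
      Finset.le_sum_of_subadditive (beta N) hbz.le (fun x y => beta_add_le hkN hcN x y)
        Finset.univ _
    rw [e.sum_repr' w] at h1
    refine h1.trans ?_
    rw [Finset.sum_mul]
    refine Finset.sum_le_sum fun i _ => ?_
    rw [beta_smul hkN hcN, mul_comm]
    refine mul_le_mul_of_nonneg_left ?_ (beta_nonneg hkN hcN _)
    have h2 := abs_real_inner_le_norm (e i) w
    rwa [e.norm_eq_one, one_mul] at h2
  have hdiff : ∀ x y, beta N x ≤ beta N y + B * ‖x - y‖ := by
    intro x y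
    have h1 := beta_add_le hkN hcN y (x - y)
    rw [add_sub_cancel] at h1
    linarith [hB (x - y)]
  -- lower bound on the sphere
  obtain ⟨b0, hb0, hb0'⟩ : ∃ b0 : ℝ, 0 < b0 ∧ ∀ w, ‖w‖ = 1 → b0 ≤ beta N w := by
    have hcont : Continuous (beta N) := by
      have h1 : LipschitzWith (Real.toNNReal B) (beta N) := by
        refine LipschitzWith.of_dist_le_mul fun x y => ?_
        rw [Real.dist_eq, dist_eq_norm, abs_le, Real.coe_toNNReal B hB0]
        have h1 := hdiff x y
        have h2 := hdiff y x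
        rw [norm_sub_rev] at h2
        constructor <;> linarith
      exact h1.continuous
    obtain ⟨w, hw, hmin⟩ := (isCompact_sphere (0 : V) 1).exists_isMinOn
      (NormedSpace.sphere_nonempty.2 zero_le_one) hcont.continuousOn
    rw [mem_sphere_zero_iff_norm] at hw
    refine ⟨beta N w, beta_pos hN.toIsBody (by
      intro h
      rw [h, norm_zero] at hw
      exact zero_ne_one hw), fun x hx => ?_⟩
    exact hmin (mem_sphere_zero_iff_norm.2 hx)
  obtain ⟨ρ, hρ, hball⟩ := ball_subset hN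
  set Lc : ℝ := 2 * (finrank ℝ V * vol N) / ρ with hLc
  have hLc0 : 0 < Lc := by (clear ε hε hε1 hkN hcN hbz hd' B hB0 hB hdiff b0 hb0 hb0' hball hLc; positivity)
  set δ : ℝ := (ε / 2) * b0 / (B + Lc / 2) with hδ
  have hδ0 : 0 < δ := by (clear hε1 hkN hcN hbz hd' hB hdiff hb0' hball hLc hLc0 hδ; positivity)
  obtain ⟨t, hts, htf, hcov⟩ := (isCompact_sphere (0 : V) 1).finite_cover_balls hδ0
  have : Fintype t := htf.fintype
  obtain ⟨L, hL1, hL2⟩ := finite_dir hN hd (ε := ε / 2) (by linarith only [hε]) (by linarith only [hε1])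
    (fun i : t => (i : V)) (fun i => mem_sphere_zero_iff_norm.1 (hts i.2))
  refine ⟨L.length, fun j => L[j], ?_, ?_⟩
  · -- all directions
    have hsum : ∀ u : V, ∑ j : Fin L.length, |inner ℝ L[j] u| = (L.map fun v => |inner ℝ v u|).sum :=
      fun u => Fin.sum_univ_fun_getElem L (fun v => |inner ℝ v u|)
    have hnorm : (L.map fun v => ‖v‖).sum ≤ Lc := by
      have h1 : ρ * (L.map fun v => ‖v‖).sum ≤ (L.map fun v => supp N v).sum := by
        rw [← List.sum_map_mul_left]
        exact List.sum_le_sum fun v _ => supp_ge hkN hρ hball v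
      have h2 : (1 + ε / 2) * (finrank ℝ V * vol N) ≤ 2 * (finrank ℝ V * vol N) :=
        mul_le_mul_of_nonneg_right (by linarith only [hε1]) (by (clear ε hε hε1 hkN hcN hbz hd' B hB0 hB hdiff b0 hb0 hb0' ρ hρ hball Lc hLc hLc0 δ hδ hδ0 hts hcov L hL1 hL2 hsum h1; positivity))
      rw [hLc, le_div_iff₀ hρ]
      (clear hcN hbz hd' B hB0 hB hdiff b0 hb0 hb0' Lc hLc hLc0 δ hδ hδ0 hts hcov hL1 hsum; linarith)
    have hunit : ∀ u : V, ‖u‖ = 1 → (1 - ε) * beta N u ≤
        2⁻¹ * (L.map fun v => |inner ℝ v u|).sum := by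
      intro u hu
      have h1 := hcov (mem_sphere_zero_iff_norm.2 hu)
      simp only [mem_iUnion, exists_prop] at h1
      obtain ⟨w, hw, huw⟩ := h1
      rw [mem_ball_iff_norm] at huw
      have h2 := hL1 ⟨w, hw⟩
      have h3 : (L.map fun v => |inner ℝ v w|).sum ≤
          (L.map fun v => |inner ℝ v u|).sum + δ * (L.map fun v => ‖v‖).sum := by
        rw [← List.sum_map_mul_left, ← List.sum_map_add]
        refine List.sum_le_sum fun v _ => ?_
        have h4 : inner ℝ v w = inner ℝ v u - inner ℝ v (u - w) := by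
          rw [inner_sub_right]; ring
        have h5 := abs_real_inner_le_norm v (u - w)
        have h6 : ‖v‖ * ‖u - w‖ ≤ ‖v‖ * δ := mul_le_mul_of_nonneg_left huw.le (norm_nonneg v)
        rw [h4]
        have h7 := abs_sub (inner ℝ v u) (inner ℝ v (u - w))
        (clear hN hε hε1 hkN hcN hbz hvol hd' hB0 hB hdiff hb0 hb0' hρ hball hLc hLc0 hδ hδ0 hts hcov hL1 hL2 hsum hnorm hu hw h2 h4; linarith)
      have h4 : beta N u ≤ beta N w + B * δ := by
        have h5 := hdiff u w
        have h6 : B * ‖u - w‖ ≤ B * δ := mul_le_mul_of_nonneg_left huw.le hB0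
        (clear hε hε1 hbz hvol hd' hb0 hb0' hρ hball hLc hLc0 hδ hδ0 hts hcov L hL1 hL2 hsum hnorm hu hw h2 h3; linarith)
      have h5 : δ * (L.map fun v => ‖v‖).sum ≤ δ * Lc := mul_le_mul_of_nonneg_left hnorm hδ0.le
      have h6 : δ * (B + Lc / 2) = (ε / 2) * b0 := by
        rw [hδ]
        (clear * - hB0 hLc0 hb0 hε; field_simp)
      have h7 := hb0' u hu
      simp only at h2
      have h8 : (1 - ε / 2) * beta N u ≤ (1 - ε / 2) * beta N w + B * δ := by
        have h9 : (1 - ε / 2) * beta N u ≤ (1 - ε / 2) * (beta N w + B * δ) :=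
          mul_le_mul_of_nonneg_left h4 (by linarith only [hε1])
        have h10 : (1 - ε / 2) * (B * δ) ≤ 1 * (B * δ) :=
          mul_le_mul_of_nonneg_right (by linarith only [hε]) (by (clear hε1 hkN hcN hbz hd' hB hdiff hb0' hball hLc hLc0 hδ hδ0 hts hcov L hL1 hL2 hsum hnorm u hu w hw huw h2 h3 h4 h5 h6 h7 h9; positivity))
        (clear hbz hd' hb0' hball hLc hLc0 hδ hδ0 hts hcov L hL1 hL2 hsum hnorm hu hw h2 h3 h5 h6 h7; linarith)
      have h9 : (ε / 2) * b0 ≤ (ε / 2) * beta N u := mul_le_mul_of_nonneg_left h7 (by linarith only [hε])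
      (clear hbz hd' hts hcov hsum; nlinarith)
    intro u
    rw [hsum u]
    rcases eq_or_ne u 0 with rfl | hu
    · rw [hbz]
      simp
    · have hn : 0 < ‖u‖ := norm_pos_iff.2 hu
      have h1 := hunit (‖u‖⁻¹ • u) (by rw [norm_smul, norm_inv, norm_norm, inv_mul_cancel₀ hn.ne'])
      rw [beta_smul hkN hcN, abs_of_pos (inv_pos.2 hn)] at h1
      have h2 : (fun v : V => |inner ℝ v (‖u‖⁻¹ • u)|) = fun v => ‖u‖⁻¹ * |inner ℝ v u| := by
        funext v
        rw [inner_smul_right, abs_mul, abs_of_pos (inv_pos.2 hn)]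
      rw [h2, List.sum_map_mul_left] at h1
      have h3 := mul_le_mul_of_nonneg_left h1 hn.le
      have h4 : ‖u‖ * ((1 - ε) * (‖u‖⁻¹ * beta N u)) = (1 - ε) * beta N u := by (clear hN hε hε1 hkN hcN hbz hvol hd' B hB0 hB hdiff b0 hb0 hb0' ρ hρ hball Lc hLc hLc0 δ hδ hδ0 hts hcov L hL1 hL2 hsum hnorm hunit hn h1 h2 h3; field_simp)
      have h5 : ‖u‖ * (2⁻¹ * (‖u‖⁻¹ * (L.map fun v => |inner ℝ v u|).sum)) =
          2⁻¹ * (L.map fun v => |inner ℝ v u|).sum := by (clear * - hu; field_simp)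
      rwa [h4, h5] at h3
  · have h1 : ∑ j : Fin L.length, supp N L[j] = (L.map fun v => supp N v).sum :=
      Fin.sum_univ_fun_getElem L (fun v => supp N v)
    rw [h1]
    have h2 : (1 + ε / 2) * (finrank ℝ V * vol N) ≤ (1 + ε) * (finrank ℝ V * vol N) :=
      mul_le_mul_of_nonneg_right (by linarith only [hε]) (by (clear ε hε hε1 hkN hcN hbz hd' B hB0 hB hdiff b0 hb0 hb0' ρ hρ hball Lc hLc hLc0 δ hδ hδ0 hts hcov L hL1 hL2 h1; positivity))
    exact hL2.trans h2

end Vale.Agent.P237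
end

section

open MeasureTheory Metric Set Module
open scoped Pointwise

namespace Vale.Agent.P237

variable {V : Type*} [NormedAddCommGroup V] [InnerProductSpace ℝ V] [FiniteDimensional ℝ V]
  [MeasurableSpace V] [BorelSpace V]

set_option linter.unusedVariables false in
/-- Volume bound for `K + t M` when `h_M` is the support function of the projection body of `N`
and `h_{Π K} ≤ h_N`. -/
theorem mixed_bound {K N M : Set V} (hK : IsBody K) (h0 : (0 : V) ∈ interior K)
    (hN : IsSymBody N) (hM : IsCompact M) (hMc : Convex ℝ M) (hMne : M.Nonempty)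
    (h1 : ∀ v, beta K v ≤ supp N v) (h2 : ∀ v, supp M v ≤ beta N v) :
    ∃ C : ℝ, 0 ≤ C ∧ ∀ t : ℝ, 0 ≤ t → vol (K + t • M) ≤
      vol K + t * (1 + t * C) ^ (finrank ℝ V - 1) * (finrank ℝ V * vol N) :=
  mixed_bound_of_approx hK h0 hN hM (fun _ hε hε1 => zonotope_approx hN hε hε1) h1 h2

end Vale.Agent.P237
end

section

/-!
# P237: John position
-/

open MeasureTheory Metric Set Module
open scoped Pointwise

namespace Vale.Agent.P237

section basic

variable {V : Type*} [NormedAddCommGroup V] [InnerProductSpace ℝ V]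

theorem IsSymBody.zero_mem_interior {K : Set V} (hK : IsSymBody K) : (0 : V) ∈ interior K := by
  obtain ⟨x, hx⟩ := hK.int
  have hneg : -x ∈ interior K := by
    have h1 : -K = K := by
      ext y
      constructor
      · intro hy
        have := hK.symm _ (Set.mem_neg.1 hy)
        simpa using this
      · intro hy
        exact Set.mem_neg.2 (hK.symm _ hy)
    have h2 : -(interior K) = interior K := by
      have h3 : interior (-K) = -(interior K) := by
        have := (Homeomorph.neg V).preimage_interior K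
        simpa [Set.image_neg_eq_neg] using this.symm
      rw [← h3, h1]
    rw [← h2]
    simpa using hx
  have := hK.convex.interior.midpoint_mem hx hneg
  simpa using this

theorem IsSymBody.exists_closedBall {K : Set V} (hK : IsSymBody K) :
    ∃ r : ℝ, 0 < r ∧ closedBall (0 : V) r ⊆ K := by
  obtain ⟨r, hr, h⟩ := Metric.mem_nhds_iff.1 (mem_interior_iff_mem_nhds.1 hK.zero_mem_interior)
  exact ⟨r / 2, by positivity, (closedBall_subset_ball (by linarith only [hr])).trans h⟩

/-- A symmetric convex body is balanced. -/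
theorem IsSymBody.smul_mem {K : Set V} (hK : IsSymBody K) {x : V} (hx : x ∈ K) {t : ℝ}
    (ht : |t| ≤ 1) : t • x ∈ K := by
  have h := abs_le.1 ht
  have h1 : t • x = ((1 + t) / 2) • x + ((1 - t) / 2) • (-x) := by
    rw [smul_neg, ← sub_eq_add_neg, ← sub_smul]
    congr 1
    ring
  rw [h1]
  exact hK.convex hx (hK.symm x hx) (by linarith only [h]) (by linarith only [h]) (by ring)

end basic

variable {V : Type*} [NormedAddCommGroup V] [InnerProductSpace ℝ V] [FiniteDimensional ℝ V]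
  [MeasurableSpace V] [BorelSpace V]

theorem exists_johnPos {K : Set V} (hK : IsSymBody K) :
    ∃ T : V ≃ₗ[ℝ] V, JohnPos (T '' K) := by
  obtain ⟨r, hr, hrK⟩ := hK.exists_closedBall
  obtain ⟨R, hR⟩ := hK.compact.isBounded.subset_closedBall (0 : V)
  let A : Set (V →L[ℝ] V) := {S | ∀ x ∈ closedBall (0 : V) 1, S x ∈ K}
  have hAc : IsClosed A := by
    have : A = ⋂ x ∈ closedBall (0 : V) 1, {S : V →L[ℝ] V | S x ∈ K} := by
      ext S; simp only [mem_closedBall, dist_zero_right, mem_ofPred_eq, mem_iInter, A]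
    rw [this]
    refine isClosed_biInter fun x _ => ?_
    exact hK.compact.isClosed.preimage (ContinuousLinearMap.apply ℝ V x).continuous
  have hAb : Bornology.IsBounded A := by
    refine (Metric.isBounded_iff_subset_closedBall (0 : V →L[ℝ] V)).2 ⟨max R 0, fun S hS => ?_⟩
    rw [mem_closedBall_zero_iff]
    refine ContinuousLinearMap.opNorm_le_of_unit_norm (le_max_right _ _) fun x hx => ?_
    have := hR (hS x (by rw [mem_closedBall_zero_iff, hx]))
    rw [mem_closedBall_zero_iff] at this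
    exact this.trans (le_max_left _ _)
  have hAcomp : IsCompact A := Metric.isCompact_of_isClosed_isBounded hAc hAb
  have hS0 : r • ContinuousLinearMap.id ℝ V ∈ A := by
    intro x hx
    apply hrK
    rw [mem_closedBall_zero_iff] at hx ⊢
    show ‖r • x‖ ≤ r
    rw [norm_smul, Real.norm_eq_abs, abs_of_pos hr]
    exact (mul_le_mul_of_nonneg_left hx hr.le).trans (by linarith)
  obtain ⟨S, hSA, hSmax⟩ := hAcomp.exists_isMaxOn ⟨_, hS0⟩
    (f := fun S : V →L[ℝ] V => |S.det|) ContinuousLinearMap.continuous_det.abs.continuousOn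
  have hdet : 0 < |S.det| := by
    refine lt_of_lt_of_le ?_ (hSmax hS0)
    have h1 : (r • ContinuousLinearMap.id ℝ V).det = r ^ finrank ℝ V := by
      show LinearMap.det ((r • ContinuousLinearMap.id ℝ V : V →L[ℝ] V) : V →ₗ[ℝ] V) = _
      have : ((r • ContinuousLinearMap.id ℝ V : V →L[ℝ] V) : V →ₗ[ℝ] V) =
        r • (LinearMap.id : V →ₗ[ℝ] V) := rfl
      rw [this, LinearMap.det_smul, LinearMap.det_id, mul_one]
    show 0 < |(r • ContinuousLinearMap.id ℝ V).det|
    rw [h1]
    positivity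
  have hne : LinearMap.det (S : V →ₗ[ℝ] V) ≠ 0 := fun h => by
    have : S.det = 0 := h
    rw [this] at hdet
    simp at hdet
  let E : V ≃ₗ[ℝ] V := LinearEquiv.ofIsUnitDet (v := finBasis ℝ V) (v' := finBasis ℝ V)
    (f := (S : V →ₗ[ℝ] V)) (by
      rw [← LinearMap.det_toMatrix (finBasis ℝ V)] at hne
      exact isUnit_iff_ne_zero.2 hne)
  have hE : ∀ x, E x = S x := fun x => rfl
  refine ⟨E.symm, ?_, ?_⟩
  · intro x hx
    exact ⟨S x, hSA x hx, by rw [← hE, E.symm_apply_apply]⟩
  · intro T hT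
    have hmem : S.comp (LinearMap.toContinuousLinearMap T) ∈ A := by
      intro x hx
      obtain ⟨y, hy, hyx⟩ := hT ⟨x, hx, rfl⟩
      have : S (T x) = y := by
        rw [← hE, ← hyx, E.apply_symm_apply]
      show S (T x) ∈ K
      rw [this]
      exact hy
    have h2 := hSmax hmem
    have h3 : (S.comp (LinearMap.toContinuousLinearMap T)).det =
        S.det * LinearMap.det T := by
      show LinearMap.det ((S : V →ₗ[ℝ] V) ∘ₗ T) = _
      rw [LinearMap.det_comp]
    have h4 : |S.det| * |LinearMap.det T| ≤ |S.det| := by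
      rw [← abs_mul, ← h3]
      exact h2
    by_contra hcon
    push Not at hcon
    have := mul_lt_mul_of_pos_left hcon hdet
    linarith only [h4, this]

theorem johnPos_bounded {K : Set V} (hK : IsSymBody K) (hJ : JohnPos K) :
    K ⊆ closedBall (0 : V) (2 ^ finrank ℝ V) := by
  intro x hx
  rw [mem_closedBall_zero_iff]
  by_contra hcon
  push Not at hcon
  have hR0 : 0 < ‖x‖ := lt_trans (by positivity) hcon
  set R := ‖x‖ with hR
  set e : V := R⁻¹ • x with he
  have hen : ‖e‖ = 1 := by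
    rw [he, norm_smul, norm_inv, Real.norm_eq_abs, abs_of_pos hR0, ← hR]
    (clear * - hR0; field_simp)
  have hxe : x = R • e := by rw [he, smul_smul, mul_inv_cancel₀ hR0.ne', one_smul]
  let f : Dual ℝ V := (innerₛₗ ℝ e : V →ₗ[ℝ] ℝ)
  have hf : ∀ ξ, f ξ = inner ℝ e ξ := fun ξ => rfl
  let T : V →ₗ[ℝ] V := (2⁻¹ : ℝ) • LinearMap.transvection f ((R - 1) • e)
  have hTx : ∀ ξ, T ξ = (2⁻¹ : ℝ) • (ξ - inner ℝ e ξ • e) + (2⁻¹ : ℝ) • (inner ℝ e ξ • x) := by
    intro ξ
    show (2⁻¹ : ℝ) • (ξ + f ξ • ((R - 1) • e)) = _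
    rw [hf, ← smul_add, hxe, sub_smul]
    congr 1
    simp only [smul_sub, smul_smul, one_smul]
    abel
  have hTK : T '' closedBall (0 : V) 1 ⊆ K := by
    rintro _ ⟨ξ, hξ, rfl⟩
    rw [mem_closedBall_zero_iff] at hξ
    rw [hTx]
    refine hK.convex ?_ ?_ (by norm_num) (by norm_num) (by norm_num)
    · apply hJ.1
      rw [mem_closedBall_zero_iff]
      have h1 : ‖ξ - inner ℝ e ξ • e‖ ^ 2 = ‖ξ‖ ^ 2 - (inner ℝ e ξ) ^ 2 := by
        rw [norm_sub_sq_real, inner_smul_right, norm_smul, hen, real_inner_comm,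
          Real.norm_eq_abs, mul_one, sq_abs]
        ring
      have h2 : ‖ξ - inner ℝ e ξ • e‖ ^ 2 ≤ 1 := by
        rw [h1]
        have : ‖ξ‖ ^ 2 ≤ 1 := by
          rw [sq_le_one_iff₀ (norm_nonneg _)]
          exact hξ
        nlinarith only [this]
      rwa [sq_le_one_iff₀ (norm_nonneg _)] at h2
    · apply hK.smul_mem hx
      calc |inner ℝ e ξ| ≤ ‖e‖ * ‖ξ‖ := abs_real_inner_le_norm e ξ
        _ ≤ 1 := by rw [hen, one_mul]; exact hξ
  have h1 := hJ.2 T hTK
  have h2 : LinearMap.det T = (2⁻¹ : ℝ) ^ finrank ℝ V * R := by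
    show LinearMap.det ((2⁻¹ : ℝ) • LinearMap.transvection f ((R - 1) • e)) = _
    rw [LinearMap.det_smul, LinearMap.transvection.det, map_smul, hf, real_inner_self_eq_norm_sq,
      hen]
    simp only [inv_pow, one_pow, smul_eq_mul, mul_one, add_sub_cancel]
  rw [h2, abs_of_pos (by positivity), inv_pow, inv_mul_le_iff₀ (by positivity), mul_one] at h1
  linarith only [hcon, h1]

end Vale.Agent.P237
end

section

/-!
# P237: a contact point of the John ellipsoid with large variance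
-/

open MeasureTheory Metric Set Module Filter Topology
open scoped Pointwise

namespace Vale.Agent.P237

variable {V : Type*} [NormedAddCommGroup V] [InnerProductSpace ℝ V] [FiniteDimensional ℝ V]
  [MeasurableSpace V] [BorelSpace V]

namespace John2

theorem integrableOn_of_continuous {E : Type*} [NormedAddCommGroup E] {K : Set V}
    (hK : IsCompact K) {f : V → E} (hf : Continuous f) : IntegrableOn f K :=
  hf.continuousOn.integrableOn_compact hK

/-- The covariance operator. -/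
noncomputable def cov {K : Set V} (hK : IsCompact K) : V →ₗ[ℝ] V where
  toFun v := ∫ x in K, (inner ℝ x v : ℝ) • x
  map_add' v w := by
    rw [← integral_add]
    · congr 1
      ext x
      rw [inner_add_right, add_smul]
    · exact integrableOn_of_continuous hK (by fun_prop)
    · exact integrableOn_of_continuous hK (by fun_prop)
  map_smul' t v := by
    rw [RingHom.id_apply, ← integral_smul]
    congr 1
    ext x
    rw [inner_smul_right, mul_smul]

theorem inner_cov {K : Set V} (hK : IsCompact K) (v : V) :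
    inner ℝ v (cov hK v) = ∫ x in K, (inner ℝ x v) ^ 2 := by
  have h := integral_inner (𝕜 := ℝ) (μ := volume.restrict K)
    (f := fun x : V => (inner ℝ x v : ℝ) • x) (integrableOn_of_continuous hK (by (clear * -; fun_prop))) v
  show inner ℝ v (∫ x in K, (inner ℝ x v : ℝ) • x) = _
  rw [← h]
  congr 1
  ext x
  rw [inner_smul_right, real_inner_comm, sq]

/-- The traceless part of the covariance operator. -/
noncomputable def tl {K : Set V} (hK : IsCompact K) : V →ₗ[ℝ] V :=
  cov hK - ((∫ x in K, ‖x‖ ^ 2) / finrank ℝ V) • LinearMap.id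

theorem inner_tl {K : Set V} (hK : IsCompact K) (v : V) :
    inner ℝ v (tl hK v) = (∫ x in K, (inner ℝ x v) ^ 2) -
      ((∫ x in K, ‖x‖ ^ 2) / finrank ℝ V) * ‖v‖ ^ 2 := by
  rw [tl, LinearMap.sub_apply, inner_sub_right, inner_cov]
  congr 1
  show inner ℝ v (((∫ x in K, ‖x‖ ^ 2) / finrank ℝ V) • v) = _
  rw [inner_smul_right, real_inner_self_eq_norm_sq]

theorem trace_tl {K : Set V} (hK : IsCompact K) (hd : 0 < finrank ℝ V) :
    LinearMap.trace ℝ V (tl hK) = 0 := by
  let b := stdOrthonormalBasis ℝ V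
  have h1 : LinearMap.trace ℝ V (tl hK) = ∑ i, inner ℝ (b i) (tl hK (b i)) :=
    LinearMap.trace_eq_sum_inner _ b
  rw [h1]
  simp only [inner_tl, b.norm_eq_one]
  rw [Finset.sum_sub_distrib, ← integral_finsetSum]
  · simp only [b.sum_sq_inner_left]
    rw [Finset.sum_const, Finset.card_univ, Fintype.card_fin, nsmul_eq_mul]
    have : (finrank ℝ V : ℝ) ≠ 0 := by positivity
    field_simp
    ring
  · intro i _
    exact integrableOn_of_continuous hK (by fun_prop)

theorem det_expand (S : V →ₗ[ℝ] V) : ∃ C : ℝ, 0 ≤ C ∧ ∀ ε : ℝ, 0 ≤ ε → ε ≤ 1 →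
    1 + LinearMap.trace ℝ V S * ε - C * ε ^ 2 ≤ LinearMap.det (LinearMap.id + ε • S) := by
  let b := finBasis ℝ V
  let M := LinearMap.toMatrix b b S
  let P : Polynomial ℝ := (Matrix.det (1 + (Polynomial.X : Polynomial ℝ) • M.map Polynomial.C)).divX.divX
  obtain ⟨C, hC⟩ := isCompact_Icc.exists_bound_of_continuousOn (s := Icc (0 : ℝ) 1)
    (f := fun ε => P.eval ε) P.continuous.continuousOn
  refine ⟨|C|, abs_nonneg _, fun ε h0 h1 => ?_⟩
  have h2 : LinearMap.det (LinearMap.id + ε • S) = Matrix.det (1 + ε • M) := by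
    rw [← LinearMap.det_toMatrix b]
    congr 1
    simp only [map_add, LinearMap.toMatrix_id_eq_basis_toMatrix, Basis.toMatrix_self, map_smul, M]
  have h3 : LinearMap.trace ℝ V S = Matrix.trace M := LinearMap.trace_eq_matrix_trace ℝ b S
  rw [h2, h3, Matrix.det_one_add_smul]
  have h4 := hC ε ⟨h0, h1⟩
  rw [Real.norm_eq_abs] at h4
  have h5 : -|C| ≤ P.eval ε := by
    have := neg_abs_le (P.eval ε)
    have h6 := le_abs_self C
    linarith only [h4, this, h6]
  have h6 : -|C| * ε ^ 2 ≤ P.eval ε * ε ^ 2 := mul_le_mul_of_nonneg_right h5 (sq_nonneg _)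
  show 1 + M.trace * ε - |C| * ε ^ 2 ≤ 1 + M.trace * ε + P.eval ε * ε ^ 2
  linarith only [h6]

theorem cov_symm {K : Set V} (hK : IsCompact K) (v w : V) :
    inner ℝ (cov hK v) w = inner ℝ v (cov hK w) := by
  have h1 := integral_inner (𝕜 := ℝ) (μ := volume.restrict K)
    (f := fun x : V => (inner ℝ x w : ℝ) • x) (integrableOn_of_continuous hK (by fun_prop)) v
  have h2 := integral_inner (𝕜 := ℝ) (μ := volume.restrict K)
    (f := fun x : V => (inner ℝ x v : ℝ) • x) (integrableOn_of_continuous hK (by fun_prop)) w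
  rw [real_inner_comm]
  show inner ℝ w (∫ x in K, (inner ℝ x v : ℝ) • x) = inner ℝ v (∫ x in K, (inner ℝ x w : ℝ) • x)
  rw [← h1, ← h2]
  congr 1
  ext x
  rw [inner_smul_right, inner_smul_right, real_inner_comm x w, real_inner_comm x v]
  ring

theorem tl_symm {K : Set V} (hK : IsCompact K) (v w : V) :
    inner ℝ (tl hK v) w = inner ℝ v (tl hK w) := by
  rw [tl, LinearMap.sub_apply, LinearMap.sub_apply, inner_sub_left, inner_sub_right, cov_symm]
  congr 1
  show inner ℝ (((∫ x in K, ‖x‖ ^ 2) / finrank ℝ V) • v) w =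
    inner ℝ v (((∫ x in K, ‖x‖ ^ 2) / finrank ℝ V) • w)
  rw [real_inner_smul_left, inner_smul_right]

/-- The perturbed map. -/
noncomputable def pert {K : Set V} (hK : IsCompact K) (a ε : ℝ) : V →ₗ[ℝ] V :=
  (1 + a * ε) • (LinearMap.id + ε • tl hK)

theorem pert_apply {K : Set V} (hK : IsCompact K) (a ε : ℝ) (v : V) :
    pert hK a ε v = (1 + a * ε) • (v + ε • tl hK v) := rfl

theorem pert_symm {K : Set V} (hK : IsCompact K) (a ε : ℝ) (v w : V) :
    inner ℝ (pert hK a ε v) w = inner ℝ v (pert hK a ε w) := by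
  rw [pert_apply, pert_apply, real_inner_smul_left, inner_smul_right, inner_add_left,
    inner_add_right, real_inner_smul_left, inner_smul_right, tl_symm]

theorem norm_pert_sq {K : Set V} (hK : IsCompact K) (a ε : ℝ) (v : V) :
    ‖pert hK a ε v‖ ^ 2 = (1 + a * ε) ^ 2 *
      (‖v‖ ^ 2 + 2 * ε * inner ℝ v (tl hK v) + ε ^ 2 * ‖tl hK v‖ ^ 2) := by
  rw [pert_apply, norm_smul, mul_pow, Real.norm_eq_abs, sq_abs, norm_add_sq_real,
    inner_smul_right, norm_smul, mul_pow, Real.norm_eq_abs, sq_abs]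
  ring

theorem det_pert {K : Set V} (hK : IsCompact K) (hd : 0 < finrank ℝ V) {a : ℝ} (ha : 0 < a) :
    ∃ δ : ℝ, 0 < δ ∧ ∀ ε : ℝ, 0 < ε → ε < δ → 1 < LinearMap.det (pert hK a ε) := by
  obtain ⟨C, hC0, hC⟩ := det_expand (tl hK)
  rw [trace_tl hK hd] at hC
  refine ⟨min 1 (a / ((C + 1) * (1 + a) + a)), by (clear * - ha hC0; positivity), fun ε h0 h1 => ?_⟩
  have hε1 : ε < 1 := h1.trans_le (min_le_left _ _)
  have hε2 : ε < a / ((C + 1) * (1 + a) + a) := h1.trans_le (min_le_right _ _)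
  rw [lt_div_iff₀ (by positivity)] at hε2
  have h2 := hC ε h0.le hε1.le
  have h3 : LinearMap.det (pert hK a ε) =
      (1 + a * ε) ^ finrank ℝ V * LinearMap.det (LinearMap.id + ε • tl hK) := by
    rw [pert, LinearMap.det_smul]
  have h4 : 1 + a * ε ≤ (1 + a * ε) ^ finrank ℝ V := by
    calc 1 + a * ε = (1 + a * ε) ^ 1 := (pow_one _).symm
      _ ≤ (1 + a * ε) ^ finrank ℝ V :=
        pow_le_pow_right₀ (by nlinarith only [ha, h0]) hd
  have h5 : 0 < 1 - C * ε ^ 2 := by
    have : C * ε < 1 := by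
      have h6 : a * (C * ε) < a * 1 := by
        nlinarith only [h0, hε2, hC0, ha]
      exact lt_of_mul_lt_mul_left h6 ha.le
    nlinarith only [hε1, hε2, h0, ha]
  rw [h3]
  have h7 : 1 < (1 + a * ε) * (1 - C * ε ^ 2) := by
    have h8 : C * ε + a * C * ε ^ 2 < a := by
      nlinarith only [hε2, h0, ha, hε1, mul_nonneg (mul_nonneg (mul_nonneg hC0 h0.le) ha.le) h0.le]
    nlinarith only [h0, h8]
  calc 1 < (1 + a * ε) * (1 - C * ε ^ 2) := h7
    _ ≤ (1 + a * ε) ^ finrank ℝ V * (1 - C * ε ^ 2) :=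
      mul_le_mul_of_nonneg_right h4 h5.le
    _ ≤ (1 + a * ε) ^ finrank ℝ V * LinearMap.det (LinearMap.id + ε • tl hK) := by
      apply mul_le_mul_of_nonneg_left _ (by positivity)
      linarith

/-- Separation: if the image of the ball under the perturbed map is not in `K` there is a
direction in which the image sticks out. -/
theorem exists_dir {K : Set V} (hK : IsSymBody K) (hB : closedBall (0 : V) 1 ⊆ K) {a ε : ℝ}
    (h : ¬ pert hK.compact a ε '' closedBall (0 : V) 1 ⊆ K) :
    ∃ u : V, ‖u‖ = 1 ∧ (∀ x ∈ K, inner ℝ x u ≤ ‖pert hK.compact a ε u‖) ∧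
      1 < ‖pert hK.compact a ε u‖ := by
  rw [Set.not_subset] at h
  obtain ⟨_, ⟨ξ, hξ, rfl⟩, hξK⟩ := h
  obtain ⟨f, r, hf1, hf2⟩ := geometric_hahn_banach_closed_point hK.convex hK.compact.isClosed hξK
  let w : V := (InnerProductSpace.toDual ℝ V).symm f
  have hw : ∀ x, inner ℝ w x = f x := fun x => InnerProductSpace.toDual_symm_apply
  have h0 : (0 : V) ∈ K := hB (mem_closedBall_self zero_le_one)
  have hw0 : w ≠ 0 := by
    intro h
    have h1 := hf1 0 h0
    rw [← hw, h] at h1
    rw [← hw, h] at hf2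
    simp only [inner_zero_left] at h1 hf2
    linarith only [h1, hf2]
  have hwn : 0 < ‖w‖ := norm_pos_iff.2 hw0
  have hun : ‖‖w‖⁻¹ • w‖ = 1 := by
    rw [norm_smul, norm_inv, norm_norm, inv_mul_cancel₀ hwn.ne']
  have key : ∀ x ∈ K, inner ℝ x (‖w‖⁻¹ • w) < ‖pert hK.compact a ε (‖w‖⁻¹ • w)‖ := by
    intro x hx
    calc inner ℝ x (‖w‖⁻¹ • w) = ‖w‖⁻¹ * f x := by
          rw [inner_smul_right, real_inner_comm, hw]
      _ < ‖w‖⁻¹ * f (pert hK.compact a ε ξ) :=
        mul_lt_mul_of_pos_left ((hf1 x hx).trans hf2) (by positivity)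
      _ = inner ℝ (pert hK.compact a ε ξ) (‖w‖⁻¹ • w) := by
          rw [inner_smul_right, real_inner_comm, hw]
      _ = inner ℝ ξ (pert hK.compact a ε (‖w‖⁻¹ • w)) := pert_symm _ _ _ _ _
      _ ≤ ‖ξ‖ * ‖pert hK.compact a ε (‖w‖⁻¹ • w)‖ := real_inner_le_norm _ _
      _ ≤ 1 * ‖pert hK.compact a ε (‖w‖⁻¹ • w)‖ := by
          apply mul_le_mul_of_nonneg_right _ (norm_nonneg _)
          rwa [mem_closedBall_zero_iff] at hξ
      _ = _ := one_mul _
  refine ⟨‖w‖⁻¹ • w, hun, fun x hx => (key x hx).le, ?_⟩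
  have := key (‖w‖⁻¹ • w) (hB (by rw [mem_closedBall_zero_iff, hun]))
  rwa [real_inner_self_eq_norm_sq, hun, one_pow] at this

end John2

open John2

theorem john_contact {K : Set V} (hK : IsSymBody K) (hJ : JohnPos K) (hd : 0 < finrank ℝ V) :
    ∃ u : V, ‖u‖ = 1 ∧ (∀ x ∈ K, inner ℝ x u ≤ 1) ∧
      (∫ x in K, ‖x‖ ^ 2) ≤ finrank ℝ V * ∫ x in K, (inner ℝ x u) ^ 2 := by
  by_contra hcon
  push Not at hcon
  set S := tl hK.compact with hS
  have hScont : Continuous S := S.continuous_of_finiteDimensional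
  set q : V → ℝ := fun u => inner ℝ u (S u) with hq
  have hqcont : Continuous q := by
    rw [hq]; fun_prop
  have hd' : (0 : ℝ) < finrank ℝ V := by exact_mod_cast hd
  have hneg : ∀ u : V, ‖u‖ = 1 → (∀ x ∈ K, inner ℝ x u ≤ 1) → q u < 0 := by
    intro u hu h
    have h1 := hcon u hu h
    show inner ℝ u (tl hK.compact u) < 0
    rw [inner_tl, hu, one_pow, mul_one, sub_neg, lt_div_iff₀ hd']
    (clear hK hJ hd S hS hScont q hq hqcont hd'; linarith)
  -- the contact set
  let Cs : Set V := sphere (0 : V) 1 ∩ {u | ∀ x ∈ K, inner ℝ x u ≤ 1}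
  have hCs : IsCompact Cs := by
    apply (isCompact_sphere (0 : V) 1).inter_right
    have : {u : V | ∀ x ∈ K, inner ℝ x u ≤ 1} = ⋂ x ∈ K, {u : V | inner ℝ x u ≤ 1} := by
      ext u; simp only [mem_ofPred_eq, mem_iInter]
    rw [this]
    exact isClosed_biInter fun x _ => isClosed_le (by fun_prop) continuous_const
  obtain ⟨c, hc0, hc⟩ : ∃ c : ℝ, 0 < c ∧ ∀ u ∈ Cs, q u ≤ -c := by
    rcases Cs.eq_empty_or_nonempty with he | hne
    · exact ⟨1, one_pos, fun u hu => by rw [he] at hu; exact absurd hu (Set.notMem_empty _)⟩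
    · obtain ⟨u0, hu0, hmax⟩ := hCs.exists_isMaxOn hne hqcont.continuousOn
      refine ⟨-q u0, ?_, fun u hu => ?_⟩
      · have := hneg u0 (by simpa using hu0.1) hu0.2
        linarith only [this]
      · have := hmax hu
        simpa using this
  set a := c / 2 with ha
  have ha0 : 0 < a := by positivity
  obtain ⟨δ, hδ0, hδ⟩ := det_pert hK.compact hd ha0
  obtain ⟨N, hN⟩ := exists_nat_one_div_lt hδ0
  set ε : ℕ → ℝ := fun n => 1 / ((n : ℝ) + N + 1) with hε
  have hε0 : ∀ n, 0 < ε n := fun n => by (clear * -; positivity)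
  have hεδ : ∀ n, ε n < δ := by
    intro n
    refine lt_of_le_of_lt ?_ hN
    apply one_div_le_one_div_of_le (by positivity)
    have : (0 : ℝ) ≤ n := by positivity
    linarith only []
  have hεlim : Tendsto ε atTop (𝓝 0) := by
    have h1 : Tendsto (fun n : ℕ => 1 / (((n + N : ℕ) : ℝ) + 1)) atTop (𝓝 0) :=
      (tendsto_one_div_add_atTop_nhds_zero_nat).comp (tendsto_add_atTop_nat N)
    refine h1.congr fun n => ?_
    rw [hε]
    push_cast
    rfl
  have hex : ∀ n, ∃ u : V, ‖u‖ = 1 ∧ (∀ x ∈ K, inner ℝ x u ≤ ‖pert hK.compact a (ε n) u‖) ∧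
      1 < ‖pert hK.compact a (ε n) u‖ := by
    intro n
    apply exists_dir hK hJ.1
    intro h
    have h1 := hJ.2 _ h
    have h2 := hδ (ε n) (hε0 n) (hεδ n)
    have := le_abs_self (LinearMap.det (pert hK.compact a (ε n)))
    (clear hd hcon S hS hScont q hq hqcont hd' hneg Cs hCs hc0 hc ha ha0 hδ0 hε hεlim; linarith)
  choose u hu1 hu2 hu3 using hex
  obtain ⟨v, hv, φ, hφ, hlim⟩ := (isCompact_sphere (0 : V) 1).tendsto_subseq
    (x := u) (fun n => by simpa using hu1 n)
  have hv1 : ‖v‖ = 1 := by simpa using hv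
  have hεφ : Tendsto (fun n => ε (φ n)) atTop (𝓝 0) := hεlim.comp hφ.tendsto_atTop
  have hSlim : Tendsto (fun n => S (u (φ n))) atTop (𝓝 (S v)) :=
    (hScont.tendsto v).comp hlim
  have hqlim : Tendsto (fun n => q (u (φ n))) atTop (𝓝 (q v)) :=
    (hqcont.tendsto v).comp hlim
  have hT : Tendsto (fun n => pert hK.compact a (ε (φ n)) (u (φ n))) atTop (𝓝 v) := by
    have h1 : Tendsto (fun n => (1 + a * ε (φ n)) • (u (φ n) + ε (φ n) • S (u (φ n)))) atTop
        (𝓝 ((1 + a * 0) • (v + (0 : ℝ) • S v))) :=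
      (tendsto_const_nhds.add (tendsto_const_nhds.mul hεφ)).smul (hlim.add (hεφ.smul hSlim))
    have h2 : (1 + a * 0) • (v + (0 : ℝ) • S v) = v := by simp
    rw [h2] at h1
    exact h1
  have hvC : v ∈ Cs := by
    refine ⟨hv, fun x hx => ?_⟩
    have h1 : Tendsto (fun n => inner ℝ x (u (φ n))) atTop (𝓝 (inner ℝ x v)) :=
      ((continuous_const.inner continuous_id).tendsto v).comp hlim
    have h2 := le_of_tendsto_of_tendsto' h1 hT.norm (fun n => hu2 (φ n) x hx)
    rwa [hv1] at h2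
  have h1 := hc v hvC
  have h2 : ∀ n, 0 ≤ (2 * a + a ^ 2 * ε (φ n)) *
      (1 + 2 * ε (φ n) * q (u (φ n)) + ε (φ n) ^ 2 * ‖S (u (φ n))‖ ^ 2) +
      2 * q (u (φ n)) + ε (φ n) * ‖S (u (φ n))‖ ^ 2 := by
    intro n
    have h3 := hu3 (φ n)
    have h4 : 1 < ‖pert hK.compact a (ε (φ n)) (u (φ n))‖ ^ 2 := by (clear hJ hd hcon S hS hScont q hq hqcont hd' hneg Cs hCs hc0 hc ha ha0 δ hδ0 hδ hN hε hε0 hεδ hεlim hu1 hu2 v hv hφ hlim hv1 hεφ hSlim hqlim hT hvC h1; nlinarith)
    rw [norm_pert_sq, hu1] at h4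
    have h5 := hε0 (φ n)
    have h6 : 0 < ε (φ n) * ((2 * a + a ^ 2 * ε (φ n)) *
      (1 + 2 * ε (φ n) * q (u (φ n)) + ε (φ n) ^ 2 * ‖S (u (φ n))‖ ^ 2) +
      2 * q (u (φ n)) + ε (φ n) * ‖S (u (φ n))‖ ^ 2) := by
      have h7 : ε (φ n) * ((2 * a + a ^ 2 * ε (φ n)) *
        (1 + 2 * ε (φ n) * q (u (φ n)) + ε (φ n) ^ 2 * ‖S (u (φ n))‖ ^ 2) +
        2 * q (u (φ n)) + ε (φ n) * ‖S (u (φ n))‖ ^ 2) =
        (1 + a * ε (φ n)) ^ 2 * (1 ^ 2 + 2 * ε (φ n) * q (u (φ n)) +
          ε (φ n) ^ 2 * ‖S (u (φ n))‖ ^ 2) - 1 := by ring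
      rw [h7]
      have h8 : inner ℝ (u (φ n)) (tl hK.compact (u (φ n))) = q (u (φ n)) := rfl
      rw [h8] at h4
      (clear hJ hd hcon hS hScont hq hqcont hd' hneg Cs hCs hc0 hc ha ha0 δ hδ0 hδ hN hε hε0 hεδ hεlim hu1 hu2 hu3 v hv hφ hlim hv1 hεφ hSlim hqlim hT hvC h1 h3 h5 h7 h8; linarith)
    exact ((mul_pos_iff_of_pos_left h5).1 h6).le
  have h3 : Tendsto (fun n => (2 * a + a ^ 2 * ε (φ n)) *
      (1 + 2 * ε (φ n) * q (u (φ n)) + ε (φ n) ^ 2 * ‖S (u (φ n))‖ ^ 2) +
      2 * q (u (φ n)) + ε (φ n) * ‖S (u (φ n))‖ ^ 2) atTop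
      (𝓝 ((2 * a + a ^ 2 * 0) * (1 + 2 * 0 * q v + 0 ^ 2 * ‖S v‖ ^ 2) + 2 * q v +
        0 * ‖S v‖ ^ 2)) := by
    refine (((tendsto_const_nhds.add (tendsto_const_nhds.mul hεφ)).mul
      ((tendsto_const_nhds.add ((tendsto_const_nhds.mul hεφ).mul hqlim)).add
        ((hεφ.pow 2).mul (hSlim.norm.pow 2)))).add (tendsto_const_nhds.mul hqlim)).add
      (hεφ.mul (hSlim.norm.pow 2))
  have h4 := ge_of_tendsto' h3 h2
  have h5 : (2 * a + a ^ 2 * 0) * (1 + 2 * 0 * q v + 0 ^ 2 * ‖S v‖ ^ 2) + 2 * q v +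
        0 * ‖S v‖ ^ 2 = 2 * a + 2 * q v := by ring
  rw [h5] at h4
  linarith only [ha, ha0, h1, h4]

end Vale.Agent.P237
end

section

open MeasureTheory Metric Set Module TopologicalSpace
open scoped Pointwise

namespace Vale.Agent.P237

variable {V : Type*} [NormedAddCommGroup V] [InnerProductSpace ℝ V] [FiniteDimensional ℝ V]
  [MeasurableSpace V] [BorelSpace V]

omit [InnerProductSpace ℝ V] [FiniteDimensional ℝ V] [MeasurableSpace V] [BorelSpace V] in
private lemma ex_near (K L : NonemptyCompacts V) {ε : ℝ} (h : dist K L < ε) {x : V}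
    (hx : x ∈ (K : Set V)) : ∃ y ∈ (L : Set V), dist x y < ε := by
  have hfin : hausdorffEDist (K : Set V) L ≠ ⊤ :=
    hausdorffEDist_ne_top_of_nonempty_of_bounded K.nonempty L.nonempty
      K.isCompact.isBounded L.isCompact.isBounded
  rw [NonemptyCompacts.dist_eq] at h
  exact exists_dist_lt_of_hausdorffDist_lt hx h hfin

private def exT (ρ : ℝ) : Set (NonemptyCompacts V) :=
  {K | Convex ℝ (K : Set V) ∧ (∀ x ∈ (K : Set V), -x ∈ (K : Set V)) ∧
    closedBall (0 : V) 1 ⊆ K ∧ (K : Set V) ⊆ closedBall (0 : V) ρ}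

omit [InnerProductSpace ℝ V] [FiniteDimensional ℝ V] [MeasurableSpace V] [BorelSpace V] in
private lemma ex_mem_of_forall (K : NonemptyCompacts V) (x : V)
    (h : ∀ ε > 0, ∃ y ∈ (K : Set V), dist x y < ε) : x ∈ (K : Set V) := by
  have : x ∈ closure (K : Set V) := Metric.mem_closure_iff.2 h
  rwa [K.isCompact.isClosed.closure_eq] at this

omit [MeasurableSpace V] [BorelSpace V] in
private lemma ex_isCompact (ρ : ℝ) : IsCompact (exT ρ : Set (NonemptyCompacts V)) := by
  have hc : IsCompact {K : NonemptyCompacts V | (K : Set V) ⊆ closedBall (0 : V) ρ} :=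
    NonemptyCompacts.isCompact_subsets_of_isCompact (isCompact_closedBall 0 ρ)
  refine hc.of_isClosed_subset ?_ (fun K hK => hK.2.2.2)
  refine isClosed_of_closure_subset fun K hK => ?_
  rw [Metric.mem_closure_iff] at hK
  refine ⟨?_, ?_, ?_, ?_⟩
  · intro x hx y hy a b ha hb hab
    refine ex_mem_of_forall K _ fun ε hε => ?_
    obtain ⟨L, hL, hKL⟩ := hK (ε / 3) (by positivity)
    obtain ⟨x', hx', hxx⟩ := ex_near K L hKL hx
    obtain ⟨y', hy', hyy⟩ := ex_near K L hKL hy
    obtain ⟨z, hz, hzz⟩ := ex_near L K (by rwa [dist_comm]) (hL.1 hx' hy' ha hb hab)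
    refine ⟨z, hz, ?_⟩
    have h1 : dist (a • x + b • y) (a • x' + b • y') ≤ ε / 3 + ε / 3 := by
      refine (dist_add_add_le _ _ _ _).trans (add_le_add ?_ ?_)
      · rw [dist_smul₀, Real.norm_of_nonneg ha]
        have : a * dist x x' ≤ 1 * dist x x' := by
          gcongr
          linarith
        linarith
      · rw [dist_smul₀, Real.norm_of_nonneg hb]
        have : b * dist y y' ≤ 1 * dist y y' := by
          gcongr
          linarith
        linarith
    have := dist_triangle (a • x + b • y) (a • x' + b • y') z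
    linarith
  · intro x hx
    refine ex_mem_of_forall K _ fun ε hε => ?_
    obtain ⟨L, hL, hKL⟩ := hK (ε / 2) (by positivity)
    obtain ⟨x', hx', hxx⟩ := ex_near K L hKL hx
    obtain ⟨z, hz, hzz⟩ := ex_near L K (by rwa [dist_comm]) (hL.2.1 x' hx')
    refine ⟨z, hz, ?_⟩
    have := dist_triangle (-x) (-x') z
    rw [dist_neg_neg] at this
    linarith
  · intro x hx
    refine ex_mem_of_forall K _ fun ε hε => ?_
    obtain ⟨L, hL, hKL⟩ := hK ε hε
    exact ex_near L K (by rwa [dist_comm]) (hL.2.2.1 hx)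
  · intro x hx
    rw [mem_closedBall_zero_iff]
    refine le_of_forall_pos_le_add fun ε hε => ?_
    obtain ⟨L, hL, hKL⟩ := hK ε hε
    obtain ⟨x', hx', hxx⟩ := ex_near K L hKL hx
    have h1 := mem_closedBall_zero_iff.1 (hL.2.2.2 hx')
    have h2 := norm_le_norm_add_norm_sub' x x'
    rw [dist_eq_norm] at hxx
    linarith

omit [FiniteDimensional ℝ V] [MeasurableSpace V] [BorelSpace V] in
private lemma ex_isSymBody {ρ : ℝ} {K : NonemptyCompacts V} (hK : K ∈ exT ρ) :
    IsSymBody (K : Set V) := by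
  refine ⟨⟨hK.1, K.isCompact, ?_⟩, hK.2.1⟩
  refine ⟨0, interior_mono (ball_subset_closedBall.trans hK.2.2.1) ?_⟩
  rw [interior_eq_iff_isOpen.2 isOpen_ball]
  exact mem_ball_self one_pos

omit [FiniteDimensional ℝ V] [MeasurableSpace V] [BorelSpace V] in
private lemma ex_subset_smul {ρ : ℝ} {K L : NonemptyCompacts V} (hL : L ∈ exT ρ) {ε : ℝ}
    (h : dist K L < ε) : (K : Set V) ⊆ (1 + ε) • (L : Set V) := by
  have hε : 0 < ε := dist_nonneg.trans_lt h
  intro x hx
  obtain ⟨y, hy, hxy⟩ := ex_near K L h hx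
  rw [hL.1.add_smul zero_le_one hε.le, one_smul]
  refine ⟨y, hy, x - y, ?_, by simp⟩
  refine ⟨ε⁻¹ • (x - y), hL.2.2.1 ?_, ?_⟩
  · rw [mem_closedBall_zero_iff, norm_smul, norm_inv, Real.norm_of_nonneg hε.le]
    rw [dist_eq_norm] at hxy
    rw [inv_mul_le_iff₀ hε]
    linarith
  · simp only [smul_smul]
    rw [mul_inv_cancel₀ hε.ne', one_smul]

/-- The comparison of two close bodies. -/
private lemma ex_compare {K L : Set V} (hK : IsSymBody K) (hL : IsSymBody L)
    (hP : IsCompact (projBody L)) {c : ℝ} (hc : 1 ≤ c)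
    (h1 : K ⊆ c • L) (h2 : L ⊆ c • K) :
    vol (projBody K) / vol K ^ (finrank ℝ V - 1) ≤
      c ^ (finrank ℝ V * (finrank ℝ V - 1)) * c ^ (finrank ℝ V * (finrank ℝ V - 1)) *
        (vol (projBody L) / vol L ^ (finrank ℝ V - 1)) := by
  have hc0 : 0 < c := by linarith
  have hvol_smul : ∀ (A : Set V) (r : ℝ), 0 < r → vol (r • A) = r ^ finrank ℝ V * vol A := by
    intro A r hr
    unfold vol
    rw [Measure.addHaar_smul, ENNReal.toReal_mul, ENNReal.toReal_ofReal (abs_nonneg _),
      abs_of_nonneg (by positivity)]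
  have hpos : ∀ A : Set V, IsSymBody A → 0 < vol A := by
    intro A hA
    exact ENNReal.toReal_pos ((isOpen_interior.measure_pos volume hA.int).trans_le
      (measure_mono interior_subset)).ne' hA.compact.measure_lt_top.ne
  -- volumes
  have hv : vol L ≤ c ^ finrank ℝ V * vol K := by
    rw [← hvol_smul K c hc0]
    exact ENNReal.toReal_mono (hK.compact.smul c).measure_lt_top.ne (measure_mono h2)
  -- projection bodies
  have hb : ∀ v, beta K v ≤ c ^ (finrank ℝ V - 1) * beta L v := by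
    intro v
    rw [← beta_smul_set hL.compact hL.convex hc0]
    exact beta_mono hK.compact hK.convex (hL.compact.smul c) (hL.convex.smul c) h1 v
  have hcd : 0 < c ^ (finrank ℝ V - 1) := by positivity
  have hp : projBody K ⊆ c ^ (finrank ℝ V - 1) • projBody L := by
    intro y hy
    refine ⟨(c ^ (finrank ℝ V - 1))⁻¹ • y, ?_, ?_⟩
    · intro u hu
      have h3 := hy u hu
      rw [← beta_unit hK.compact hK.convex hu] at h3
      rw [← beta_unit hL.compact hL.convex hu, real_inner_smul_left, inv_mul_le_iff₀ hcd]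
      exact h3.trans (hb u)
    · simp only [smul_smul]
      rw [mul_inv_cancel₀ hcd.ne', one_smul]
  have hpv : vol (projBody K) ≤ c ^ (finrank ℝ V * (finrank ℝ V - 1)) * vol (projBody L) := by
    have h3 : vol (projBody K) ≤ vol (c ^ (finrank ℝ V - 1) • projBody L) :=
      ENNReal.toReal_mono (hP.smul _).measure_lt_top.ne
        (measure_mono hp)
    rwa [hvol_smul _ _ hcd, ← pow_mul, mul_comm (finrank ℝ V - 1)] at h3
  have hKpos := hpos K hK
  have hLpos := hpos L hL
  have hv' : vol L ^ (finrank ℝ V - 1) ≤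
      c ^ (finrank ℝ V * (finrank ℝ V - 1)) * vol K ^ (finrank ℝ V - 1) := by
    have := pow_le_pow_left₀ hLpos.le hv (finrank ℝ V - 1)
    rwa [mul_pow, ← pow_mul] at this
  have hP0 : 0 ≤ vol (projBody L) := ENNReal.toReal_nonneg
  rw [div_le_iff₀ (by positivity)]
  calc vol (projBody K) ≤ c ^ (finrank ℝ V * (finrank ℝ V - 1)) * vol (projBody L) := hpv
    _ = c ^ (finrank ℝ V * (finrank ℝ V - 1)) *
        (vol (projBody L) / vol L ^ (finrank ℝ V - 1)) * vol L ^ (finrank ℝ V - 1) := by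
      field_simp
    _ ≤ c ^ (finrank ℝ V * (finrank ℝ V - 1)) *
        (vol (projBody L) / vol L ^ (finrank ℝ V - 1)) *
        (c ^ (finrank ℝ V * (finrank ℝ V - 1)) * vol K ^ (finrank ℝ V - 1)) := by
      gcongr
    _ = _ := by ring

/-- `exists_minimizer`, given the compactness of projection bodies. -/
theorem exists_minimizer_of_compact (hE : ∀ L : Set V, IsSymBody L → IsCompact (projBody L))
    (ρ : ℝ) (hρ : 1 ≤ ρ) : ∃ K₀ : Set V, IsSymBody K₀ ∧
    closedBall (0 : V) 1 ⊆ K₀ ∧ K₀ ⊆ closedBall (0 : V) ρ ∧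
    ∀ K : Set V, IsSymBody K → closedBall (0 : V) 1 ⊆ K → K ⊆ closedBall (0 : V) ρ →
      vol (projBody K₀) / vol K₀ ^ (finrank ℝ V - 1) ≤
        vol (projBody K) / vol K ^ (finrank ℝ V - 1) := by
  set f : NonemptyCompacts V → ℝ := fun K =>
    vol (projBody (K : Set V)) / vol (K : Set V) ^ (finrank ℝ V - 1) with hf
  have hf0 : ∀ K, 0 ≤ f K := fun K =>
    div_nonneg ENNReal.toReal_nonneg (pow_nonneg ENNReal.toReal_nonneg _)
  have hlsc : LowerSemicontinuousOn f (exT ρ) := by
    intro K hK y hy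
    set q : ℕ := finrank ℝ V * (finrank ℝ V - 1) with hq
    -- choose `ε` with `(1+ε)^(2q) y < f K`
    have hcont : Filter.Tendsto (fun ε : ℝ => (1 + ε) ^ q * (1 + ε) ^ q * y)
        (nhdsWithin 0 (Ioi 0)) (nhds ((1 + 0) ^ q * (1 + 0) ^ q * y)) := by
      refine Filter.Tendsto.mono_left ?_ nhdsWithin_le_nhds
      refine ContinuousAt.tendsto (f := fun ε : ℝ => (1 + ε) ^ q * (1 + ε) ^ q * y) ?_
      fun_prop
    have h1 : ∀ᶠ ε in nhdsWithin (0 : ℝ) (Ioi 0), (1 + ε) ^ q * (1 + ε) ^ q * y < f K := by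
      refine hcont.eventually_lt_const ?_
      simpa using hy
    obtain ⟨ε, hε1, hε⟩ := (h1.and self_mem_nhdsWithin).exists
    have hε : 0 < ε := hε
    filter_upwards [mem_nhdsWithin_of_mem_nhds (Metric.ball_mem_nhds K hε), self_mem_nhdsWithin]
      with L hL hLT
    have hLK : dist L K < ε := hL
    have h2 := ex_compare (ex_isSymBody hK) (ex_isSymBody hLT) (hE _ (ex_isSymBody hLT)) (c := 1 + ε) (by linarith)
      (ex_subset_smul hLT (by rwa [dist_comm])) (ex_subset_smul hK hLK)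
    have h3 : (1 + ε) ^ q * (1 + ε) ^ q * y < (1 + ε) ^ q * (1 + ε) ^ q * f L := hε1.trans_le h2
    exact lt_of_mul_lt_mul_left h3 (by positivity)
  have hne : (exT ρ : Set (NonemptyCompacts V)).Nonempty := by
    refine ⟨⟨⟨closedBall (0 : V) 1, isCompact_closedBall 0 1⟩, ⟨0, by simp⟩⟩, ?_, ?_, ?_, ?_⟩
    · exact convex_closedBall 0 1
    · intro x hx
      have hx' : x ∈ closedBall (0 : V) 1 := hx
      change -x ∈ closedBall (0 : V) 1
      rw [mem_closedBall_zero_iff] at hx' ⊢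
      rwa [norm_neg]
    · exact subset_rfl
    · exact closedBall_subset_closedBall hρ
  obtain ⟨K₀, hK₀, hmin⟩ := hlsc.exists_isMinOn hne (ex_isCompact ρ)
  refine ⟨K₀, ex_isSymBody hK₀, hK₀.2.2.1, hK₀.2.2.2, fun K hK h1 h2 => ?_⟩
  exact hmin (a := ⟨⟨K, hK.compact⟩, hK.int.mono interior_subset⟩) ⟨hK.convex, hK.symm, h1, h2⟩

end Vale.Agent.P237
end

section

open MeasureTheory Metric Set Module
open scoped Pointwise

namespace Vale.Agent.P237

variable {V : Type*} [NormedAddCommGroup V] [InnerProductSpace ℝ V] [FiniteDimensional ℝ V]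
  [MeasurableSpace V] [BorelSpace V]

set_option linter.unusedVariables false in
/-- The normalized volume of the projection body attains its minimum on the symmetric bodies
between two balls. -/
theorem exists_minimizer (hd : 0 < finrank ℝ V) (ρ : ℝ) (hρ : 1 ≤ ρ) : ∃ K₀ : Set V, IsSymBody K₀ ∧
    closedBall (0 : V) 1 ⊆ K₀ ∧ K₀ ⊆ closedBall (0 : V) ρ ∧
    ∀ K : Set V, IsSymBody K → closedBall (0 : V) 1 ⊆ K → K ⊆ closedBall (0 : V) ρ →
      vol (projBody K₀) / vol K₀ ^ (finrank ℝ V - 1) ≤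
        vol (projBody K) / vol K ^ (finrank ℝ V - 1) :=
  exists_minimizer_of_compact (fun _ hL => (projBody_isSymBody hL.toIsBody).compact) ρ hρ

end Vale.Agent.P237
end

section

/-!
# P237: the two-variable inequality behind the one-dimensional lemma
-/

namespace Vale.Agent.P237

open Real

/-- Pade lower bound for the arctangent. -/
theorem arctan_ge_pade (t : ℝ) (ht : 0 ≤ t) :
    t * (105 + 55 * t ^ 2) / (105 + 90 * t ^ 2 + 9 * t ^ 4) ≤ arctan t := by
  set f : ℝ → ℝ := fun s => arctan s - s * (105 + 55 * s ^ 2) / (105 + 90 * s ^ 2 + 9 * s ^ 4)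
    with hf
  have hW : ∀ s : ℝ, 0 < 105 + 90 * s ^ 2 + 9 * s ^ 4 := fun s => by (clear * -; positivity)
  have hder : ∀ s : ℝ, HasDerivAt f (576 * s ^ 8 / ((1 + s ^ 2) * (105 + 90 * s ^ 2 + 9 * s ^ 4) ^ 2)) s := by
    intro s
    have h1 : HasDerivAt (fun s : ℝ => s * (105 + 55 * s ^ 2)) (105 + 165 * s ^ 2) s := by
      have := (hasDerivAt_id s).mul (((hasDerivAt_pow 2 s).const_mul 55).const_add 105)
      refine this.congr_deriv ?_
      simp only [one_mul, id_eq, Nat.cast_ofNat, Nat.add_one_sub_one, pow_one]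
      ring
    have h2 : HasDerivAt (fun s : ℝ => 105 + 90 * s ^ 2 + 9 * s ^ 4) (180 * s + 36 * s ^ 3) s := by
      have := (((hasDerivAt_pow 2 s).const_mul 90).const_add 105).add ((hasDerivAt_pow 4 s).const_mul 9)
      refine this.congr_deriv ?_
      simp only [Nat.cast_ofNat, Nat.add_one_sub_one, pow_one]
      ring
    have h3 := (hasDerivAt_arctan s).sub (h1.div h2 (hW s).ne')
    refine h3.congr_deriv ?_
    have hq : (1 + s ^ 2) ≠ 0 := by (clear * -; (clear * -; positivity))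
    have hW' := (hW s).ne'
    field_simp
    ring
  have hmono : MonotoneOn f (Set.Ici 0) := by
    apply monotoneOn_of_deriv_nonneg (convex_Ici 0)
    · exact fun s _ => (hder s).continuousAt.continuousWithinAt
    · exact fun s _ => (hder s).differentiableAt.differentiableWithinAt
    · intro s _
      rw [(hder s).deriv]
      (clear * -; (clear * -; positivity))
  have h0 : f 0 = 0 := by simp only [hf, arctan_zero, ne_eq, OfNat.ofNat_ne_zero, not_false_eq_true, zero_pow, mul_zero, add_zero, zero_mul, zero_div, sub_self]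
  have := hmono (Set.mem_Ici.mpr le_rfl) (Set.mem_Ici.mpr ht) ht
  rw [h0] at this
  simp only [hf] at this
  linarith only [this]

/-- The polynomial of the certificate. -/
theorem poly_ge (t : ℝ) (h0 : 0 ≤ t) (h1 : t ≤ 1) :
    (100:ℝ) ≤
    (1300151811/1000000) + (-183939/125)*t^1 + (-2807496459/500000)*t^2 + (410521/125)*t^3
      + (13558679009/5000000)*t^4 + (5617154/625)*t^5 + (9382029759/1250000)*t^6
      + (3498882/625)*t^7 + (-47317324671/5000000)*t^8 + (1515197/625)*t^9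
      + (-24242456567/2500000)*t^10 + (661169/625)*t^11 + (-6013872081/5000000)*t^12 := by
  rcases le_total t (1/2) with h | h
  · obtain ⟨v, hv, hvt⟩ : ∃ v : ℝ, 0 ≤ v ∧ v = 1/2 - t := ⟨1/2 - t, by linarith only [h], rfl⟩
    obtain ⟨u, hu, hut⟩ : ∃ u : ℝ, 0 ≤ u ∧ u = t := ⟨t, h0, rfl⟩
    have key : (0:ℝ) ≤
    (76809715904/15625)*v^12 + (874628206848/15625)*u^1*v^11 + (4461629138976/15625)*u^2*v^10
      + (107489206848/125)*u^3*v^9 + (132278690753636/78125)*u^4*v^8
      + (177819663479328/78125)*u^5*v^7 + (164974865310124/78125)*u^6*v^6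
      + (103909929517192/78125)*u^7*v^5 + (168766581667569/312500)*u^8*v^4
      + (1960221806533/15625)*u^9*v^3 + (304793670077/25000)*u^10*v^2
      + (592200153/2500)*u^11*v^1 + (1344886519/8000)*u^12 := by (clear * - hu hv; (clear * - hu hv; positivity))
    subst hvt
    subst hut
    refine le_of_sub_nonneg (key.trans (le_of_eq ?_))
    ring
  · obtain ⟨v, hv, hvt⟩ : ∃ v : ℝ, 0 ≤ v ∧ v = 1 - t := ⟨1 - t, by linarith only [h1], rfl⟩
    obtain ⟨u, hu, hut⟩ : ∃ u : ℝ, 0 ≤ u ∧ u = t - 1/2 := ⟨t - 1/2, by linarith only [h], rfl⟩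
    have key : (0:ℝ) ≤
    (1344886519/8000)*v^12 + (18988897479/5000)*u^1*v^11 + (160505126824/3125)*u^2*v^10
      + (5658471268117/15625)*u^3*v^9 + (116808432639891/78125)*u^4*v^8
      + (309324094887824/78125)*u^5*v^7 + (552763898655488/78125)*u^6*v^6
      + (136262235218304/15625)*u^7*v^5 + (578291965504576/78125)*u^8*v^4
      + (65822742533632/15625)*u^9*v^3 + (117813413855232/78125)*u^10*v^2
      + (23067859570688/78125)*u^11*v^1 + (1702334631936/78125)*u^12 := by (clear * - hu hv; positivity)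
    subst hvt
    subst hut
    refine le_of_sub_nonneg (key.trans (le_of_eq ?_))
    ring

/-- The key inequality at the height `p = 1`, in half-angle form. -/
theorem core_one (t x y K : ℝ) (h0 : 0 ≤ t) (h1 : t ≤ 1)
    (hx : x = 2 * t / (1 + t ^ 2)) (hy : y = (1 - t ^ 2) / (1 + t ^ 2)) (hK : K = 18506 / 10000) :
    (2 * y - (K + 4/5 - x ^ 2) + 3/5 + 2/5 * x) ^ 2 <
      4 * (2/5 * (1 + x)) *
        (4 * arctan t + 4 * y - 2 * x * y - (1 + x) * (K + 3/5 - x ^ 2)) := by
  have hq : 0 < 1 + t ^ 2 := by (clear * -; positivity)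
  have hW : 0 < 105 + 90 * t ^ 2 + 9 * t ^ 4 := by (clear * -; (clear * -; positivity))
  have hA := arctan_ge_pade t h0
  have hx0 : 0 ≤ x := by rw [hx]; (clear * - h0; positivity)
  have hP := poly_ge t h0 h1
  set R : ℝ := t * (105 + 55 * t ^ 2) / (105 + 90 * t ^ 2 + 9 * t ^ 4) with hR
  have h2 : 4 * (2/5 * (1 + x)) * (4 * R + 4 * y - 2 * x * y - (1 + x) * (K + 3/5 - x ^ 2)) ≤
      4 * (2/5 * (1 + x)) *
        (4 * arctan t + 4 * y - 2 * x * y - (1 + x) * (K + 3/5 - x ^ 2)) := by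
    apply mul_le_mul_of_nonneg_left _ (by (clear * - hx0; positivity))
    linarith only [hA]
  refine lt_of_lt_of_le ?_ h2
  rw [← sub_pos]
  have h3 : 4 * (2/5 * (1 + x)) * (4 * R + 4 * y - 2 * x * y - (1 + x) * (K + 3/5 - x ^ 2)) -
      (2 * y - (K + 4/5 - x ^ 2) + 3/5 + 2/5 * x) ^ 2 =
      ((1300151811/1000000) +
        (-183939/125)*t^1 +
        (-2807496459/500000)*t^2 +
        (410521/125)*t^3 +
        (13558679009/5000000)*t^4 +
        (5617154/625)*t^5 +
        (9382029759/1250000)*t^6 +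
        (3498882/625)*t^7 +
        (-47317324671/5000000)*t^8 +
        (1515197/625)*t^9 +
        (-24242456567/2500000)*t^10 +
        (661169/625)*t^11 +
        (-6013872081/5000000)*t^12) / (5 * (1 + t ^ 2) ^ 4 * (105 + 90 * t ^ 2 + 9 * t ^ 4)) := by
    rw [hR, hx, hy, hK]
    have hq' := hq.ne'
    have hW' := hW.ne'
    field_simp
    ring
  rw [h3]
  apply div_pos (by linarith only [hP]) (by (clear * -; positivity))

/-- The two-variable inequality. -/
theorem core_ineq (t x y p K : ℝ) (h0 : 0 ≤ t) (h1 : t ≤ 1)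
    (hx : x = 2 * t / (1 + t ^ 2)) (hy : y = (1 - t ^ 2) / (1 + t ^ 2)) (hK : K ≤ 18506 / 10000)
    (hp : x ≤ p) :
    0 < 4 * arctan t + 2 * y * (1 + p) - 2 * x * y - (p + x) * (K + 4/5 - x ^ 2 - p ^ 2 / 5) := by
  have hx0 : 0 ≤ x := by rw [hx]; (clear * - h0; positivity)
  have hc := core_one t x y (18506/10000) h0 h1 hx hy rfl
  set D1 : ℝ := 4 * arctan t + 4 * y - 2 * x * y - (1 + x) * (18506/10000 + 3/5 - x ^ 2) with hD1
  set m : ℝ := 2 * y - (18506/10000 + 4/5 - x ^ 2) + 3/5 + 2/5 * x with hm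
  have e1 : 4 * arctan t + 2 * y * (1 + p) - 2 * x * y - (p + x) * (K + 4/5 - x ^ 2 - p ^ 2 / 5) =
      (p + x) * (18506/10000 - K) + D1 + m * (p - 1) + 2/5 * (1 + x) * (p - 1) ^ 2
        + (p - 1) ^ 2 * (p - x) / 5 := by
    rw [hD1, hm]; ring
  rw [e1]
  have h3 : 0 ≤ (p + x) * (18506/10000 - K) := mul_nonneg (by linarith only [hp, hx0]) (by linarith only [hK])
  have h4 : 0 ≤ (p - 1) ^ 2 * (p - x) / 5 := by
    have := mul_nonneg (sq_nonneg (p - 1)) (sub_nonneg.mpr hp)
    linarith only [this]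
  have h5 : 0 < D1 + m * (p - 1) + 2/5 * (1 + x) * (p - 1) ^ 2 := by
    have h6 : 0 < 4 * (2/5 * (1 + x)) * (D1 + m * (p - 1) + 2/5 * (1 + x) * (p - 1) ^ 2) := by
      have : 4 * (2/5 * (1 + x)) * (D1 + m * (p - 1) + 2/5 * (1 + x) * (p - 1) ^ 2) =
          (2 * (2/5 * (1 + x)) * (p - 1) + m) ^ 2 + (4 * (2/5 * (1 + x)) * D1 - m ^ 2) := by ring
      rw [this]
      have := sq_nonneg (2 * (2/5 * (1 + x)) * (p - 1) + m)
      linarith only [hc, this]
    exact (mul_pos_iff_of_pos_left (by (clear * - hx0; positivity))).mp h6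
  linarith only [h3, h4, h5]

theorem kappa_le : 3 * π ^ 2 / 16 ≤ 18506 / 10000 := by
  have := pi_lt_d4
  have h0 := pi_pos
  nlinarith

end Vale.Agent.P237
end

section

/-!
# P237: the one-dimensional lemma

`p` concave on `[0,1]`, `p y ≥ √(1 - y²)` and `∫ p⁴ ≤ 4 ∫ y² p²` imply
`(3 π² / 32) ∫ p² ≤ (∫ p)²`, with equality only for the half circle.
-/

namespace Vale.Agent.P237

open Real MeasureTheory Set intervalIntegral

/-- The primitive of the half circle. -/
theorem integral_sqrt_one_sub_sq_zero (y : ℝ) (h0 : 0 ≤ y) (h1 : y ≤ 1) :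
    ∫ s in (0:ℝ)..y, √(1 - s ^ 2) = (arcsin y + y * √(1 - y ^ 2)) / 2 := by
  have hder : ∀ s ∈ Ioo (0:ℝ) y, HasDerivAt (fun s : ℝ => (arcsin s + s * √(1 - s ^ 2)) / 2)
      (√(1 - s ^ 2)) s := by
    intro s hs
    have hs1 : s < 1 := lt_of_lt_of_le hs.2 h1
    have hpos : 0 < 1 - s ^ 2 := by nlinarith only [hs1, hs.1]
    have hsq : 0 < √(1 - s ^ 2) := Real.sqrt_pos.mpr hpos
    have e1 := Real.hasDerivAt_arcsin (x := s) (by linarith only [hs.1]) (by linarith)
    have e2 : HasDerivAt (fun s : ℝ => 1 - s ^ 2) (-(2 * s)) s := by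
      have := (hasDerivAt_pow 2 s).const_sub 1
      refine this.congr_deriv ?_
      simp only [Nat.cast_ofNat, Nat.add_one_sub_one, pow_one]
    have e3 := e2.sqrt hpos.ne'
    have e4 := (hasDerivAt_id s).mul e3
    have e5 := (e1.add e4).div_const 2
    refine e5.congr_deriv ?_
    have hsq2 : √(1 - s ^ 2) ^ 2 = 1 - s ^ 2 := Real.sq_sqrt hpos.le
    simp only [id]
    field_simp
    rw [hsq2]
    ring
  have hcont : ContinuousOn (fun s : ℝ => (arcsin s + s * √(1 - s ^ 2)) / 2) (Icc 0 y) := by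
    have : Continuous (fun s : ℝ => (arcsin s + s * √(1 - s ^ 2)) / 2) := by
      have := Real.continuous_arcsin
      (clear * -; fun_prop)
    exact this.continuousOn
  have hint : IntervalIntegrable (fun s : ℝ => √(1 - s ^ 2)) volume 0 y := by
    have : Continuous (fun s : ℝ => √(1 - s ^ 2)) := by fun_prop
    exact this.intervalIntegrable _ _
  rw [intervalIntegral.integral_eq_sub_of_hasDerivAt_of_le h0 hcont hder hint]
  simp

/-- half angle substitution. -/
theorem exists_half_angle (y : ℝ) (h0 : 0 ≤ y) (h1 : y ≤ 1) :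
    ∃ t : ℝ, 0 ≤ t ∧ t ≤ 1 ∧ √(1 - y ^ 2) = 2 * t / (1 + t ^ 2) ∧
      y = (1 - t ^ 2) / (1 + t ^ 2) ∧ 4 * arctan t = π - 2 * arcsin y := by
  set θ := arccos y with hθ
  have hθ0 : 0 ≤ θ := arccos_nonneg y
  have hθ1 : θ ≤ π / 2 := arccos_le_pi_div_two.mpr h0
  have hpi := pi_pos
  have hc : cos θ = y := cos_arccos (by linarith only [h0]) h1
  have hs : sin θ = √(1 - y ^ 2) := by rw [hθ, sin_arccos]
  set c := cos (θ / 2) with hcdef
  set s := sin (θ / 2) with hsdef
  have hcpos : 0 < c := cos_pos_of_mem_Ioo ⟨by linarith only [hθ0, hpi], by linarith only [hθ1, hpi]⟩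
  have hs0 : 0 ≤ s := sin_nonneg_of_nonneg_of_le_pi (by linarith only [hθ0]) (by linarith only [hθ1, hpi])
  have hsc : s ^ 2 + c ^ 2 = 1 := sin_sq_add_cos_sq _
  have hsin : sin θ = 2 * s * c := by
    have := sin_two_mul (θ / 2)
    rw [show 2 * (θ / 2) = θ by ring] at this
    exact this
  have hcos : cos θ = c ^ 2 - s ^ 2 := by
    have := cos_two_mul (θ / 2)
    rw [show 2 * (θ / 2) = θ by ring] at this
    rw [this]
    linarith only [hsc]
  refine ⟨s / c, by (clear * - hs0 hcpos; (clear * - hs0 hcpos; positivity)), ?_, ?_, ?_, ?_⟩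
  · rw [div_le_one hcpos]
    have : s ^ 2 ≤ c ^ 2 := by
      have : 0 ≤ c ^ 2 - s ^ 2 := by rw [← hcos, hc]; exact h0
      linarith only [h0, hc, hcos]
    exact le_of_sq_le_sq this hcpos.le
  · rw [← hs, hsin]
    have h2 : 1 + (s / c) ^ 2 = 1 / c ^ 2 := by
      field_simp
      linarith only [hsc]
    rw [h2]
    (clear * - hcpos; field_simp)
  · rw [← hc, hcos]
    have h2 : 1 + (s / c) ^ 2 = 1 / c ^ 2 := by
      field_simp
      linarith only [hsc]
    rw [h2]
    (clear * - hcpos; (clear * - hcpos; field_simp))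
  · have h2 : s / c = tan (θ / 2) := (tan_eq_sin_div_cos _).symm
    rw [h2, arctan_tan (by linarith only [hθ0, hpi]) (by linarith only [hθ1, hpi]), hθ, arccos_eq_pi_div_two_sub_arcsin]
    ring

section

variable (p : ℝ → ℝ)

theorem intervalIntegrable_of_cont_bdd {f : ℝ → ℝ} (hf : ContinuousOn f (Ioo 0 1)) {C : ℝ}
    (hb : ∀ y ∈ Ioo (0:ℝ) 1, |f y| ≤ C) : IntervalIntegrable f volume 0 1 := by
  rw [intervalIntegrable_iff_integrableOn_Ioo_of_le zero_le_one]
  refine Integrable.of_bound (hf.aestronglyMeasurable measurableSet_Ioo) C ?_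
  rw [ae_restrict_iff' measurableSet_Ioo]
  exact Filter.Eventually.of_forall fun y hy => hb y hy

theorem concave_bdd {p : ℝ → ℝ} (hc : ConcaveOn ℝ (Icc 0 1) p) (hp : ∀ y ∈ Icc (0:ℝ) 1, 0 ≤ p y)
    (y : ℝ) (hy : y ∈ Icc (0:ℝ) 1) : p y ≤ 2 * p (1/2) := by
  have h1 : (1 - y) ∈ Icc (0:ℝ) 1 := ⟨by linarith only [hy.2], by linarith only [hy.1]⟩
  have := hc.2 hy h1 (by norm_num : (0:ℝ) ≤ 1/2) (by (clear * -; norm_num) : (0:ℝ) ≤ 1/2) (by norm_num)
  simp only [smul_eq_mul] at this
  rw [show 1/2 * y + 1/2 * (1 - y) = 1/2 by ring] at this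
  have h2 := hp _ h1
  linarith only [this, h2]

/-- lower bound for the primitive of `p` by concavity -/
theorem integral_ge_of_concave {p : ℝ → ℝ} (hc : ConcaveOn ℝ (Icc 0 1) p) (h0 : 1 ≤ p 0)
    (hint : IntervalIntegrable p volume 0 1)
    (y : ℝ) (hy0 : 0 < y) (hy1 : y ≤ 1) : y * (1 + p y) / 2 ≤ ∫ s in (0:ℝ)..y, p s := by
  have hint' : IntervalIntegrable p volume 0 y :=
    hint.mono_set (by rw [uIcc_of_le hy0.le, uIcc_of_le zero_le_one]; exact Icc_subset_Icc_right hy1)
  have h1 : ∫ s in (0:ℝ)..y, (1 + (p y - 1) / y * s) = y * (1 + p y) / 2 := by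
    rw [intervalIntegral.integral_add (by simp) (by
      exact (continuous_const.mul continuous_id).intervalIntegrable _ _)]
    rw [intervalIntegral.integral_const_mul]
    simp only [intervalIntegral.integral_const, integral_id, smul_eq_mul]
    field_simp
    ring
  rw [← h1]
  apply intervalIntegral.integral_mono_on hy0.le _ hint'
  · intro s hs
    have e0 : 0 ≤ 1 - s / y := by rw [sub_nonneg, div_le_one hy0]; exact hs.2
    have e1 : 0 ≤ s / y := div_nonneg hs.1 hy0.le
    have e := hc.2 (⟨le_rfl, zero_le_one⟩ : (0:ℝ) ∈ Icc (0:ℝ) 1)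
      (⟨hy0.le, hy1⟩ : y ∈ Icc (0:ℝ) 1) e0 e1 (by ring)
    simp only [smul_eq_mul] at e
    have e2 : (1 - s / y) * 0 + s / y * y = s := by field_simp; ring
    rw [e2] at e
    have e3 : (1 - s / y) * 1 ≤ (1 - s / y) * p 0 := mul_le_mul_of_nonneg_left h0 e0
    have e4 : 1 + (p y - 1) / y * s = (1 - s / y) * 1 + s / y * p y := by field_simp; ring
    rw [e4]
    linarith only [e, e3]
  · exact (continuous_const.add (continuous_const.mul continuous_id)).intervalIntegrable _ _

/-- the kernel `D` -/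
theorem D_pos {p : ℝ → ℝ} (hc : ConcaveOn ℝ (Icc 0 1) p)
    (hp : ∀ y ∈ Icc (0:ℝ) 1, √(1 - y ^ 2) ≤ p y)
    (hint : IntervalIntegrable p volume 0 1) (y : ℝ) (hy0 : 0 < y) (hy1 : y ≤ 1) :
    0 < π + 4 * (∫ s in (0:ℝ)..y, (p s - √(1 - s ^ 2))) -
      (p y + √(1 - y ^ 2)) * (3 * π ^ 2 / 16 - 1/5 + y ^ 2 - (p y) ^ 2 / 5) := by
  have hint' : IntervalIntegrable p volume 0 y :=
    hint.mono_set (by rw [uIcc_of_le hy0.le, uIcc_of_le zero_le_one]; exact Icc_subset_Icc_right hy1)
  have hint2 : IntervalIntegrable (fun s : ℝ => √(1 - s ^ 2)) volume 0 y := by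
    have : Continuous (fun s : ℝ => √(1 - s ^ 2)) := by (clear * -; fun_prop)
    exact this.intervalIntegrable _ _
  have h0 : 1 ≤ p 0 := by
    have := hp 0 ⟨le_rfl, zero_le_one⟩
    simpa only [ge_iff_le, ne_eq, OfNat.ofNat_ne_zero, not_false_eq_true, zero_pow, sub_zero, sqrt_one] using this
  have hL := integral_ge_of_concave hc h0 hint y hy0 hy1
  rw [intervalIntegral.integral_sub hint' hint2, integral_sqrt_one_sub_sq_zero y hy0.le hy1]
  obtain ⟨t, ht0, ht1, hx, hy, ht⟩ := exists_half_angle y hy0.le hy1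
  have hpy := hp y ⟨hy0.le, hy1⟩
  have hcore := core_ineq t (√(1 - y ^ 2)) y (p y) (3 * π ^ 2 / 16) ht0 ht1 hx hy kappa_le hpy
  rw [ht] at hcore
  have hsq : √(1 - y ^ 2) ^ 2 = 1 - y ^ 2 := Real.sq_sqrt (by nlinarith only [hy1, hy0])
  rw [hsq] at hcore
  have : 3 * π ^ 2 / 16 + 4/5 - (1 - y ^ 2) - (p y) ^ 2 / 5 =
    3 * π ^ 2 / 16 - 1/5 + y ^ 2 - (p y) ^ 2 / 5 := by ring
  rw [this] at hcore
  (clear * - hL hcore; linarith)

theorem concave_contOn {p : ℝ → ℝ} (hc : ConcaveOn ℝ (Icc 0 1) p) : ContinuousOn p (Ioo 0 1) := by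
  have := hc.continuousOn_interior
  rwa [interior_Icc] at this

/-- The main identity. -/
theorem one_dim_identity {p : ℝ → ℝ} (hc : ConcaveOn ℝ (Icc 0 1) p)
    (hp : ∀ y ∈ Icc (0:ℝ) 1, √(1 - y ^ 2) ≤ p y) :
    IntervalIntegrable (fun y => (p y - √(1 - y ^ 2)) *
      (π + 4 * (∫ s in (0:ℝ)..y, (p s - √(1 - s ^ 2))) -
      (p y + √(1 - y ^ 2)) * (3 * π ^ 2 / 16 - 1/5 + y ^ 2 - (p y) ^ 2 / 5))) volume 0 1 ∧
    ∫ y in (0:ℝ)..1, (p y - √(1 - y ^ 2)) *
      (π + 4 * (∫ s in (0:ℝ)..y, (p s - √(1 - s ^ 2))) -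
      (p y + √(1 - y ^ 2)) * (3 * π ^ 2 / 16 - 1/5 + y ^ 2 - (p y) ^ 2 / 5)) =
    2 * (∫ y in (0:ℝ)..1, p y) ^ 2 - 3 * π ^ 2 / 16 * (∫ y in (0:ℝ)..1, p y ^ 2) +
      1/5 * ((∫ y in (0:ℝ)..1, p y ^ 4) - 4 * ∫ y in (0:ℝ)..1, y ^ 2 * p y ^ 2) := by
  have hp0 : ∀ y ∈ Icc (0:ℝ) 1, 0 ≤ p y := fun y hy => (Real.sqrt_nonneg _).trans (hp y hy)
  have hcont := concave_contOn hc
  set C : ℝ := 2 * p (1/2) with hC
  have hbd : ∀ y ∈ Ioo (0:ℝ) 1, p y ≤ C := fun y hy => concave_bdd hc hp0 y (Ioo_subset_Icc_self hy)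
  have hnn : ∀ y ∈ Ioo (0:ℝ) 1, 0 ≤ p y := fun y hy => hp0 y (Ioo_subset_Icc_self hy)
  have hC0 : 0 ≤ C := by
    have := hp0 (1/2) ⟨by (clear * -; norm_num), by (clear * -; norm_num)⟩
    (clear * - this; positivity)
  have hpowint : ∀ n : ℕ, IntervalIntegrable (fun y => p y ^ n) volume 0 1 := by
    intro n
    refine intervalIntegrable_of_cont_bdd (C := C ^ n) (hcont.pow n) ?_
    intro y hy
    rw [abs_of_nonneg (pow_nonneg (hnn y hy) n)]
    exact pow_le_pow_left₀ (hnn y hy) (hbd y hy) n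
  have hpint : IntervalIntegrable p volume 0 1 := by
    have := hpowint 1
    simpa using this
  have hsqc : Continuous (fun s : ℝ => √(1 - s ^ 2)) := by (clear * -; fun_prop)
  have hsqint : IntervalIntegrable (fun s : ℝ => √(1 - s ^ 2)) volume 0 1 :=
    hsqc.intervalIntegrable _ _
  set g : ℝ → ℝ := fun s => p s - √(1 - s ^ 2) with hg
  have hgint : IntervalIntegrable g volume 0 1 := hpint.sub hsqint
  have hgcont : ContinuousOn g (Ioo 0 1) := hcont.sub hsqc.continuousOn
  set L : ℝ → ℝ := fun y => ∫ s in (0:ℝ)..y, g s with hL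
  have hLcont : ContinuousOn L (Icc 0 1) := by
    have := intervalIntegral.continuousOn_primitive_interval (f := g) (μ := volume)
      (a := 0) (b := 1) (by
        rw [uIcc_of_le zero_le_one, ← intervalIntegrable_iff_integrableOn_Icc_of_le zero_le_one]
        exact hgint)
    rwa [uIcc_of_le zero_le_one] at this
  have hLder : ∀ y ∈ Ioo (0:ℝ) 1, HasDerivAt L (g y) y := by
    intro y hy
    refine intervalIntegral.integral_hasDerivAt_right
      (hgint.mono_set (by
        rw [uIcc_of_le hy.1.le, uIcc_of_le zero_le_one]; exact Icc_subset_Icc_right hy.2.le))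
      (hgcont.stronglyMeasurableAtFilter isOpen_Ioo y hy)
      (hgcont.continuousAt (isOpen_Ioo.mem_nhds hy))
  have hgLint : IntervalIntegrable (fun y => g y * L y) volume 0 1 :=
    hgint.mul_continuousOn (by rw [uIcc_of_le zero_le_one]; exact hLcont)
  have hgL : ∫ y in (0:ℝ)..1, g y * L y = (∫ s in (0:ℝ)..1, g s) ^ 2 / 2 := by
    have h1 : ∀ y ∈ Ioo (0:ℝ) 1, HasDerivAt (fun y => L y ^ 2 / 2) (g y * L y) y := by
      intro y hy
      have := ((hLder y hy).pow 2).div_const 2
      refine this.congr_deriv ?_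
      simp only [Nat.cast_ofNat, Nat.add_one_sub_one, pow_one]
      ring
    rw [intervalIntegral.integral_eq_sub_of_hasDerivAt_of_le zero_le_one
      ((hLcont.pow 2).div_const 2) h1 hgLint]
    simp [hL]
  have hG : ∫ s in (0:ℝ)..1, g s = (∫ y in (0:ℝ)..1, p y) - π / 4 := by
    rw [hg, intervalIntegral.integral_sub hpint hsqint,
      integral_sqrt_one_sub_sq_zero 1 zero_le_one le_rfl]
    simp only [arcsin_one, one_pow, sub_self, sqrt_zero, mul_zero, add_zero, sub_right_inj]
    ring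
  have hyp2 : IntervalIntegrable (fun y => y ^ 2 * p y ^ 2) volume 0 1 :=
    (hpowint 2).continuousOn_mul (by fun_prop)
  have hq : IntervalIntegrable (fun y : ℝ => (3 * π ^ 2 / 16) * (1 - y ^ 2) - 1/5 * (1 - y ^ 2) ^ 2
      + 4/5 * (y ^ 2 * (1 - y ^ 2))) volume 0 1 := by
    have : Continuous (fun y : ℝ => (3 * π ^ 2 / 16) * (1 - y ^ 2) - 1/5 * (1 - y ^ 2) ^ 2
      + 4/5 * (y ^ 2 * (1 - y ^ 2))) := by (clear * -; (clear * -; fun_prop))
    exact this.intervalIntegrable _ _
  have hqv : ∫ y in (0:ℝ)..1, ((3 * π ^ 2 / 16) * (1 - y ^ 2) - 1/5 * (1 - y ^ 2) ^ 2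
      + 4/5 * (y ^ 2 * (1 - y ^ 2))) = π ^ 2 / 8 := by
    have h1 : ∀ y ∈ uIcc (0:ℝ) 1, HasDerivAt (fun y : ℝ => (3 * π ^ 2 / 16) * (y - y ^ 3 / 3)
        - 1/5 * (y - 2 * y ^ 3 / 3 + y ^ 5 / 5) + 4/5 * (y ^ 3 / 3 - y ^ 5 / 5))
        ((3 * π ^ 2 / 16) * (1 - y ^ 2) - 1/5 * (1 - y ^ 2) ^ 2
      + 4/5 * (y ^ 2 * (1 - y ^ 2))) y := by
      intro y _
      have e1 := hasDerivAt_id y
      have e3 := hasDerivAt_pow 3 y
      have e5 := hasDerivAt_pow 5 y
      have := (((e1.sub (e3.div_const 3)).const_mul (3 * π ^ 2 / 16)).sub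
        (((e1.sub ((e3.const_mul 2).div_const 3)).add (e5.div_const 5)).const_mul (1/5))).add
        (((e3.div_const 3).sub (e5.div_const 5)).const_mul (4/5))
      refine this.congr_deriv ?_
      simp only [Nat.cast_ofNat, Nat.add_one_sub_one, ne_eq, OfNat.ofNat_ne_zero, not_false_eq_true, mul_div_cancel_left₀, one_div]
      ring
    rw [intervalIntegral.integral_eq_sub_of_hasDerivAt h1 hq]
    ring
  have hpt : ∀ y ∈ Icc (0:ℝ) 1, g y *
      (π + 4 * L y - (p y + √(1 - y ^ 2)) * (3 * π ^ 2 / 16 - 1/5 + y ^ 2 - (p y) ^ 2 / 5)) =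
      (π * g y + 4 * (g y * L y)) + ((-(3 * π ^ 2 / 16)) * p y ^ 2 + 1/5 * p y ^ 4 -
        4/5 * (y ^ 2 * p y ^ 2)) + ((3 * π ^ 2 / 16) * (1 - y ^ 2) - 1/5 * (1 - y ^ 2) ^ 2
      + 4/5 * (y ^ 2 * (1 - y ^ 2))) := by
    intro y hy
    have hsq : √(1 - y ^ 2) ^ 2 = 1 - y ^ 2 := Real.sq_sqrt (by nlinarith only [hy.1, hy.2])
    have h1 : g y * (p y + √(1 - y ^ 2)) = p y ^ 2 - (1 - y ^ 2) := by
      rw [hg]; simp only; linear_combination (-1) * hsq
    calc _ = π * g y + 4 * (g y * L y) - (g y * (p y + √(1 - y ^ 2))) *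
          (3 * π ^ 2 / 16 - 1/5 + y ^ 2 - (p y) ^ 2 / 5) := by ring
      _ = _ := by rw [h1]; ring
  have hI1 : IntervalIntegrable (fun y => π * g y + 4 * (g y * L y)) volume 0 1 :=
    (hgint.const_mul _).add (hgLint.const_mul _)
  have hI2 : IntervalIntegrable (fun y => (-(3 * π ^ 2 / 16)) * p y ^ 2 + 1/5 * p y ^ 4 -
        4/5 * (y ^ 2 * p y ^ 2)) volume 0 1 :=
    (((hpowint 2).const_mul _).add ((hpowint 4).const_mul _)).sub (hyp2.const_mul _)
  have heq : EqOn (fun y => g y *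
      (π + 4 * L y - (p y + √(1 - y ^ 2)) * (3 * π ^ 2 / 16 - 1/5 + y ^ 2 - (p y) ^ 2 / 5)))
      (fun y => (π * g y + 4 * (g y * L y)) + ((-(3 * π ^ 2 / 16)) * p y ^ 2 + 1/5 * p y ^ 4 -
        4/5 * (y ^ 2 * p y ^ 2)) + ((3 * π ^ 2 / 16) * (1 - y ^ 2) - 1/5 * (1 - y ^ 2) ^ 2
      + 4/5 * (y ^ 2 * (1 - y ^ 2)))) (uIcc 0 1) := by
    intro y hy
    rw [uIcc_of_le zero_le_one] at hy
    exact hpt y hy
  constructor
  · refine ((hI1.add hI2).add hq).congr_uIoo ?_
    intro y hy
    rw [uIoo_of_le zero_le_one] at hy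
    exact (hpt y (Ioo_subset_Icc_self hy)).symm
  · rw [intervalIntegral.integral_congr heq, intervalIntegral.integral_add (hI1.add hI2) hq, hqv,
      intervalIntegral.integral_add hI1 hI2,
      intervalIntegral.integral_add (hgint.const_mul _) (hgLint.const_mul _),
      intervalIntegral.integral_sub (((hpowint 2).const_mul _).add ((hpowint 4).const_mul _))
        (hyp2.const_mul _),
      intervalIntegral.integral_add ((hpowint 2).const_mul _) ((hpowint 4).const_mul _)]
    simp only [intervalIntegral.integral_const_mul]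
    rw [hgL, hG]
    ring

/-- **One-dimensional lemma on `[0,1]`.** -/
theorem one_dim_S {p : ℝ → ℝ} (hc : ConcaveOn ℝ (Icc 0 1) p)
    (hp : ∀ y ∈ Icc (0:ℝ) 1, √(1 - y ^ 2) ≤ p y)
    (hS : ∫ y in (0:ℝ)..1, p y ^ 4 ≤ 4 * ∫ y in (0:ℝ)..1, y ^ 2 * p y ^ 2) :
    3 * π ^ 2 / 32 * (∫ y in (0:ℝ)..1, p y ^ 2) ≤ (∫ y in (0:ℝ)..1, p y) ^ 2 := by
  obtain ⟨hint, hid⟩ := one_dim_identity hc hp
  have hpint : IntervalIntegrable p volume 0 1 := by
    refine intervalIntegrable_of_cont_bdd (C := 2 * p (1/2)) (concave_contOn hc) ?_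
    intro y hy
    have hp0 : ∀ y ∈ Icc (0:ℝ) 1, 0 ≤ p y := fun y hy => (Real.sqrt_nonneg _).trans (hp y hy)
    rw [abs_of_nonneg (hp0 y (Ioo_subset_Icc_self hy))]
    exact concave_bdd hc hp0 y (Ioo_subset_Icc_self hy)
  have hnn : 0 ≤ ∫ y in (0:ℝ)..1, (p y - √(1 - y ^ 2)) *
      (π + 4 * (∫ s in (0:ℝ)..y, (p s - √(1 - s ^ 2))) -
      (p y + √(1 - y ^ 2)) * (3 * π ^ 2 / 16 - 1/5 + y ^ 2 - (p y) ^ 2 / 5)) := by
    rw [intervalIntegral.integral_of_le zero_le_one, integral_Ioc_eq_integral_Ioo]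
    apply setIntegral_nonneg measurableSet_Ioo
    intro y hy
    exact mul_nonneg (sub_nonneg.mpr (hp y (Ioo_subset_Icc_self hy)))
      (D_pos hc hp hpint y hy.1 hy.2.le).le
  rw [hid] at hnn
  linarith only [hS, hnn]

/-- **Strict form of the one-dimensional lemma on `[0,1]`.** -/
theorem one_dim_S_strict {p : ℝ → ℝ} (hc : ConcaveOn ℝ (Icc 0 1) p)
    (hp : ∀ y ∈ Icc (0:ℝ) 1, √(1 - y ^ 2) ≤ p y)
    (hS : ∫ y in (0:ℝ)..1, p y ^ 4 ≤ 4 * ∫ y in (0:ℝ)..1, y ^ 2 * p y ^ 2)
    (hne : 2 / 3 < ∫ y in (0:ℝ)..1, p y ^ 2) :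
    3 * π ^ 2 / 32 * (∫ y in (0:ℝ)..1, p y ^ 2) < (∫ y in (0:ℝ)..1, p y) ^ 2 := by
  obtain ⟨hint, hid⟩ := one_dim_identity hc hp
  have hp0 : ∀ y ∈ Icc (0:ℝ) 1, 0 ≤ p y := fun y hy => (Real.sqrt_nonneg _).trans (hp y hy)
  have hpint : IntervalIntegrable p volume 0 1 := by
    refine intervalIntegrable_of_cont_bdd (C := 2 * p (1/2)) (concave_contOn hc) ?_
    intro y hy
    rw [abs_of_nonneg (hp0 y (Ioo_subset_Icc_self hy))]
    exact concave_bdd hc hp0 y (Ioo_subset_Icc_self hy)
  have hDpos : ∀ y ∈ Ioo (0:ℝ) 1, 0 < (π + 4 * (∫ s in (0:ℝ)..y, (p s - √(1 - s ^ 2))) -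
      (p y + √(1 - y ^ 2)) * (3 * π ^ 2 / 16 - 1/5 + y ^ 2 - (p y) ^ 2 / 5)) :=
    fun y hy => D_pos hc hp hpint y hy.1 hy.2.le
  -- a point where `p` is strictly above the half circle
  obtain ⟨y₀, hy₀, hlt⟩ : ∃ y ∈ Ioo (0:ℝ) 1, √(1 - y ^ 2) < p y := by
    by_contra hcon
    push Not at hcon
    have h1 : ∫ y in (0:ℝ)..1, p y ^ 2 = ∫ y in (0:ℝ)..1, (1 - y ^ 2) := by
      rw [intervalIntegral.integral_of_le zero_le_one, integral_Ioc_eq_integral_Ioo,
        intervalIntegral.integral_of_le zero_le_one, integral_Ioc_eq_integral_Ioo]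
      refine setIntegral_congr_fun measurableSet_Ioo ?_
      intro y hy
      simp only
      rw [le_antisymm (hcon y hy) (hp y (Ioo_subset_Icc_self hy))]
      exact Real.sq_sqrt (by nlinarith only [hy.1, hy.2])
    have h2 : ∫ y in (0:ℝ)..1, (1 - y ^ 2) = 2 / 3 := by
      rw [intervalIntegral.integral_sub (by simp) (by
        exact (continuous_pow 2).intervalIntegrable _ _)]
      simp
      (clear * -; norm_num)
    rw [h1, h2] at hne
    exact lt_irrefl _ hne
  have hpos : 0 < ∫ y in (0:ℝ)..1, (p y - √(1 - y ^ 2)) *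
      (π + 4 * (∫ s in (0:ℝ)..y, (p s - √(1 - s ^ 2))) -
      (p y + √(1 - y ^ 2)) * (3 * π ^ 2 / 16 - 1/5 + y ^ 2 - (p y) ^ 2 / 5)) := by
    rw [intervalIntegral.integral_of_le zero_le_one, integral_Ioc_eq_integral_Ioo]
    rw [setIntegral_pos_iff_support_of_nonneg_ae]
    · have hcont : ContinuousOn (fun y => p y - √(1 - y ^ 2)) (Ioo 0 1) :=
        (concave_contOn hc).sub (by fun_prop)
      have hopen : IsOpen (Ioo (0:ℝ) 1 ∩ (fun y => p y - √(1 - y ^ 2)) ⁻¹' (Ioi 0)) :=
        hcont.isOpen_inter_preimage isOpen_Ioo isOpen_Ioi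
      refine lt_of_lt_of_le (hopen.measure_pos volume ⟨y₀, hy₀, ?_⟩) (measure_mono ?_)
      · simpa using hlt
      · intro y hy
        refine ⟨?_, hy.1⟩
        rw [Function.mem_support]
        have h1 : 0 < p y - √(1 - y ^ 2) := hy.2
        exact (mul_pos h1 (hDpos y hy.1)).ne'
    · rw [Filter.EventuallyLE, ae_restrict_iff' measurableSet_Ioo]
      refine Filter.Eventually.of_forall fun y hy => ?_
      exact mul_nonneg (sub_nonneg.mpr (hp y (Ioo_subset_Icc_self hy))) (hDpos y hy).le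
    · rw [intervalIntegrable_iff_integrableOn_Ioo_of_le zero_le_one] at hint
      exact hint
  rw [hid] at hpos
  linarith only [hS, hpos]

end

section even

theorem integral_even_eq {f : ℝ → ℝ} (he : ∀ y, f (-y) = f y) (hf : IntervalIntegrable f volume 0 1) :
    ∫ y in (-1:ℝ)..1, f y = 2 * ∫ y in (0:ℝ)..1, f y := by
  have h1 : ∫ y in (-1:ℝ)..0, f y = ∫ y in (0:ℝ)..1, f y := by
    have := intervalIntegral.integral_comp_neg (a := (0:ℝ)) (b := 1) f
    simp only [he, neg_zero] at this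
    exact this.symm
  have h2 : IntervalIntegrable f volume (-1) 0 := by
    have := (IntervalIntegrable.iff_comp_neg (f := f) (a := 0) (b := 1)).mp hf
    simp only [he, neg_zero] at this
    exact this.symm
  rw [← intervalIntegral.integral_add_adjacent_intervals h2 hf, h1]
  ring

variable {p : ℝ → ℝ}

theorem pow_intervalIntegrable (hc : ConcaveOn ℝ (Icc 0 1) p)
    (hp0 : ∀ y ∈ Icc (0:ℝ) 1, 0 ≤ p y) (n : ℕ) : IntervalIntegrable (fun y => p y ^ n) volume 0 1 := by
  refine intervalIntegrable_of_cont_bdd (C := (2 * p (1/2)) ^ n) ((concave_contOn hc).pow n) ?_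
  intro y hy
  have hy' := Ioo_subset_Icc_self hy
  rw [abs_of_nonneg (pow_nonneg (hp0 y hy') n)]
  exact pow_le_pow_left₀ (hp0 y hy') (concave_bdd hc hp0 y hy') n

/-- **One-dimensional lemma for even functions on `[-1,1]`.** -/
theorem one_dim_even (hc : ConcaveOn ℝ (Icc (-1) 1) p) (he : ∀ y, p (-y) = p y)
    (hge : ∀ y ∈ Icc (-1 : ℝ) 1, √(1 - y ^ 2) ≤ p y)
    (hm : ∫ y in (-1 : ℝ)..1, p y ^ 4 ≤ 4 * ∫ y in (-1 : ℝ)..1, y ^ 2 * p y ^ 2) :
    3 * π ^ 2 / 16 * ∫ y in (-1 : ℝ)..1, p y ^ 2 ≤ (∫ y in (-1 : ℝ)..1, p y) ^ 2 := by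
  have hc' : ConcaveOn ℝ (Icc 0 1) p :=
    hc.subset (Icc_subset_Icc_left (by norm_num)) (convex_Icc 0 1)
  have hp' : ∀ y ∈ Icc (0 : ℝ) 1, √(1 - y ^ 2) ≤ p y :=
    fun y hy => hge y ⟨by linarith only [hy.1], hy.2⟩
  have hp0 : ∀ y ∈ Icc (0:ℝ) 1, 0 ≤ p y := fun y hy => (Real.sqrt_nonneg _).trans (hp' y hy)
  have hint := pow_intervalIntegrable hc' hp0
  have hint1 : IntervalIntegrable p volume 0 1 := by simpa using hint 1
  have hyp2 : IntervalIntegrable (fun y => y ^ 2 * p y ^ 2) volume 0 1 :=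
    (hint 2).continuousOn_mul (by fun_prop)
  rw [integral_even_eq (by intro y; simp [he]) (hint 4),
    integral_even_eq (by intro y; simp only [even_two, Even.neg_pow, he]) hyp2] at hm
  rw [integral_even_eq (by intro y; simp [he]) (hint 2), integral_even_eq he hint1]
  have := one_dim_S hc' hp' (by linarith only [hm])
  linarith

/-- **Strict form for even functions on `[-1,1]`.** -/
theorem one_dim_even_strict (hc : ConcaveOn ℝ (Icc (-1) 1) p) (he : ∀ y, p (-y) = p y)
    (hge : ∀ y ∈ Icc (-1 : ℝ) 1, √(1 - y ^ 2) ≤ p y)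
    (hm : ∫ y in (-1 : ℝ)..1, p y ^ 4 ≤ 4 * ∫ y in (-1 : ℝ)..1, y ^ 2 * p y ^ 2)
    (hs : 4 / 3 < ∫ y in (-1 : ℝ)..1, p y ^ 2) :
    3 * π ^ 2 / 16 * ∫ y in (-1 : ℝ)..1, p y ^ 2 < (∫ y in (-1 : ℝ)..1, p y) ^ 2 := by
  have hc' : ConcaveOn ℝ (Icc 0 1) p :=
    hc.subset (Icc_subset_Icc_left (by norm_num)) (convex_Icc 0 1)
  have hp' : ∀ y ∈ Icc (0 : ℝ) 1, √(1 - y ^ 2) ≤ p y :=
    fun y hy => hge y ⟨by linarith only [hy.1], hy.2⟩
  have hp0 : ∀ y ∈ Icc (0:ℝ) 1, 0 ≤ p y := fun y hy => (Real.sqrt_nonneg _).trans (hp' y hy)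
  have hint := pow_intervalIntegrable hc' hp0
  have hint1 : IntervalIntegrable p volume 0 1 := by simpa using hint 1
  have hyp2 : IntervalIntegrable (fun y => y ^ 2 * p y ^ 2) volume 0 1 :=
    (hint 2).continuousOn_mul (by fun_prop)
  rw [integral_even_eq (by intro y; simp [he]) (hint 4),
    integral_even_eq (by intro y; simp only [even_two, Even.neg_pow, he]) hyp2] at hm
  rw [integral_even_eq (by intro y; simp [he]) (hint 2)] at hs
  rw [integral_even_eq (by intro y; simp [he]) (hint 2), integral_even_eq he hint1]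
  have := one_dim_S_strict hc' hp' (by linarith only [hm]) (by linarith only [hs])
  linarith

end even

end Vale.Agent.P237
end

section

end

section

/-!
# P237: invariance of the functional, existence of a global minimizer
-/

open MeasureTheory Metric Set Module
open scoped Pointwise

namespace Vale.Agent.P237

variable {V : Type*} [NormedAddCommGroup V] [InnerProductSpace ℝ V] [FiniteDimensional ℝ V]
  [MeasurableSpace V] [BorelSpace V]

omit [MeasurableSpace V] [BorelSpace V] in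
theorem IsSymBody.image (T : V ≃ₗ[ℝ] V) {K : Set V} (hK : IsSymBody K) : IsSymBody (T '' K) := by
  refine ⟨hK.toIsBody.image T, ?_⟩
  rintro _ ⟨x, hx, rfl⟩
  exact ⟨-x, hK.symm x hx, map_neg T x⟩

omit [FiniteDimensional ℝ V] [MeasurableSpace V] [BorelSpace V] in
theorem IsBody.translate {K : Set V} (hK : IsBody K) (c : V) :
    IsBody ((fun x => c + x) '' K) := by
  refine ⟨?_, hK.compact.image (by fun_prop), ?_⟩
  · exact hK.convex.translate c
  · obtain ⟨x, hx⟩ := hK.int
    refine ⟨c + x, ?_⟩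
    have h1 := (Homeomorph.addLeft c).image_interior K
    have h2 : (fun x => c + x) '' interior K = interior ((fun x => c + x) '' K) := h1
    rw [← h2]
    exact ⟨x, hx, rfl⟩

theorem shadow_translate (K : Set V) (c u : V) :
    shadow ((fun x => c + x) '' K) u = shadow K u := by
  unfold shadow
  have h1 : (ℝ ∙ u)ᗮ.orthogonalProjectionOnto '' ((fun x => c + x) '' K) =
      (fun x => (ℝ ∙ u)ᗮ.orthogonalProjectionOnto c + x) ''
        ((ℝ ∙ u)ᗮ.orthogonalProjectionOnto '' K) := by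
    rw [image_image, image_image]
    apply image_congr
    intro x _
    rw [map_add]
  rw [h1, volume_image_add_left]

theorem projBody_translate (K : Set V) (c : V) :
    projBody ((fun x => c + x) '' K) = projBody K := by
  unfold projBody
  simp only [shadow_translate]

theorem ratio_image (T : V ≃ₗ[ℝ] V) {K : Set V} (hK : IsBody K) (_hd : 0 < finrank ℝ V) :
    ratio (T '' K) = ratio K := by
  unfold ratio
  have hdet : LinearMap.det (T : V →ₗ[ℝ] V) ≠ 0 := (LinearEquiv.isUnit_det' T).ne_zero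
  have hD : 0 < |LinearMap.det (T : V →ₗ[ℝ] V)| := abs_pos.mpr hdet
  rw [vol_projBody_image T hK, vol_image_linearEquiv, mul_pow]
  exact mul_div_mul_left _ _ (pow_pos hD _).ne'

theorem ratio_translate (K : Set V) (c : V) : ratio ((fun x => c + x) '' K) = ratio K := by
  unfold ratio
  rw [projBody_translate, vol_image_add_left]

theorem exists_global_min (hd : 0 < finrank ℝ V) :
    ∃ K₀ : Set V, IsSymBody K₀ ∧ ∀ K : Set V, IsSymBody K → ratio K₀ ≤ ratio K := by
  obtain ⟨K₀, hK₀, -, -, hmin⟩ := exists_minimizer (V := V) hd (2 ^ finrank ℝ V)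
    (one_le_pow₀ (by norm_num))
  refine ⟨K₀, hK₀, fun K hK => ?_⟩
  obtain ⟨T, hT⟩ := exists_johnPos hK
  have hTK := hK.image T
  rw [← ratio_image T hK.toIsBody hd]
  exact hmin _ hTK hT.1 (johnPos_bounded hTK hT)

omit [FiniteDimensional ℝ V] [MeasurableSpace V] [BorelSpace V] in
theorem center_zero {K M : Set V} (hK : IsSymBody K) (hM : IsSymBody M) {c : V} {r : ℝ}
    (_hr : 0 < r) (h : M = (fun x => c + x) '' (r • K)) : c = 0 := by
  have hne : M.Nonempty := hM.int.mono interior_subset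
  obtain ⟨x, hx, hmax⟩ := hM.compact.exists_isMaxOn hne
    (f := fun y => inner ℝ y c) (by fun_prop)
  -- `M` is invariant under the translation by `2c`
  have h1 : c + (c + x) ∈ M := by
    have h2 : -x ∈ M := hM.symm x hx
    rw [h] at h2
    obtain ⟨_, ⟨k, hk, rfl⟩, h3⟩ := h2
    rw [h]
    refine ⟨r • (-k), smul_mem_smul_set (hK.symm k hk), ?_⟩
    simp only at h3 ⊢
    rw [smul_neg]
    have h4 : x = -(c + r • k) := by rw [h3, neg_neg]
    rw [h4]
    abel
  have h2 := hmax h1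
  simp only [mem_ofPred_eq, inner_add_left] at h2
  have h3 : inner ℝ c c = ‖c‖ ^ 2 := real_inner_self_eq_norm_sq c
  have h4 : ‖c‖ ^ 2 ≤ 0 := by
    rw [h3] at h2
    linarith
  have h5 : ‖c‖ = 0 := by
    have := sq_nonneg ‖c‖
    exact pow_eq_zero_iff (two_ne_zero) |>.1 (le_antisymm h4 this)
  exact norm_eq_zero.1 h5

end Vale.Agent.P237
end

section

/-!
# P237: the class-reduction inequality for the projection body operator and its equality case
-/

open MeasureTheory Metric Set Module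
open scoped Pointwise

namespace Vale.Agent.P237

variable {V : Type*} [NormedAddCommGroup V] [InnerProductSpace ℝ V] [FiniteDimensional ℝ V]
  [MeasurableSpace V] [BorelSpace V]

namespace Glue1

theorem bernoulli {a x : ℝ} (ha : 0 ≤ a) (hx : 0 ≤ x) (n : ℕ) :
    a ^ (n + 1) + (n + 1) * a ^ n * x ≤ (a + x) ^ (n + 1) := by
  induction n with
  | zero => simp only [zero_add, pow_one, CharP.cast_eq_zero, pow_zero, mul_one, one_mul, Std.le_refl]
  | succ n ih =>
    have h1 : (a ^ (n + 1) + (n + 1) * a ^ n * x) * (a + x) ≤ (a + x) ^ (n + 1) * (a + x) :=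
      mul_le_mul_of_nonneg_right ih (by positivity)
    have h2 : (0 : ℝ) ≤ (n + 1) * a ^ n * x * x := by (clear * - ha hx; positivity)
    push_cast
    calc a ^ (n + 1 + 1) + ((n : ℝ) + 1 + 1) * a ^ (n + 1) * x
        ≤ (a ^ (n + 1) + (n + 1) * a ^ n * x) * (a + x) := by
          have h3 : (a ^ (n + 1) + (n + 1) * a ^ n * x) * (a + x) =
            a ^ (n + 1 + 1) + ((n : ℝ) + 1 + 1) * a ^ (n + 1) * x + (n + 1) * a ^ n * x * x := by
            ring
          rw [h3]
          linarith only [h2]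
      _ ≤ (a + x) ^ (n + 1) * (a + x) := h1
      _ = (a + x) ^ (n + 1 + 1) := by ring

theorem limit_lemma {d : ℕ} (hd : 0 < d) {a b s A C : ℝ} (ha : 0 ≤ a) (hb : 0 ≤ b)
    (h : ∀ ε : ℝ, 0 < ε → ε ≤ 1 →
      (a + ε * b) ^ d ≤ a ^ d + ε * s * (1 + ε * C) ^ (d - 1) * (d * A)) :
    a ^ (d - 1) * b ≤ s * A := by
  obtain ⟨n, rfl⟩ : ∃ n, d = n + 1 := ⟨d - 1, by omega⟩
  simp only [Nat.add_sub_cancel] at h ⊢
  have h1 : ∀ ε : ℝ, 0 < ε → ε ≤ 1 → a ^ n * b ≤ s * (1 + ε * C) ^ n * A := by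
    intro ε hε hε1
    have h2 := h ε hε hε1
    have h3 := bernoulli ha (mul_nonneg hε.le hb) n
    have h4 : ((n : ℝ) + 1) * ε * (a ^ n * b) ≤ ((n : ℝ) + 1) * ε * (s * (1 + ε * C) ^ n * A) := by
      push_cast at h2
      have h5 := h3.trans h2
      have h6 : ((n : ℝ) + 1) * a ^ n * (ε * b) ≤ ε * s * (1 + ε * C) ^ n * (((n : ℝ) + 1) * A) := by
        (clear * - h3 h2; linarith)
      calc ((n : ℝ) + 1) * ε * (a ^ n * b) = ((n : ℝ) + 1) * a ^ n * (ε * b) := by ring
        _ ≤ _ := h6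
        _ = _ := by ring
    exact le_of_mul_le_mul_left h4 (by positivity)
  have hlim : Filter.Tendsto (fun ε : ℝ => s * (1 + ε * C) ^ n * A) (nhdsWithin 0 (Ioi 0))
      (nhds (s * (1 + 0 * C) ^ n * A)) := by
    apply Filter.Tendsto.mono_left _ nhdsWithin_le_nhds
    exact Continuous.tendsto (by fun_prop) 0
  have h2 : a ^ n * b ≤ s * (1 + 0 * C) ^ n * A := by
    apply ge_of_tendsto hlim
    have h3 : Ioc (0 : ℝ) 1 ∈ nhdsWithin (0 : ℝ) (Ioi 0) := Ioc_mem_nhdsGT one_pos
    filter_upwards [h3] with ε hε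
    exact h1 ε hε.1 hε.2
  simpa only [ge_iff_le, zero_mul, add_zero, one_pow, mul_one] using h2

theorem rpow_pow {x : ℝ} (hx : 0 ≤ x) {d : ℕ} (hd : 0 < d) :
    (x ^ ((1 : ℝ) / d)) ^ d = x := by
  rw [one_div]
  exact Real.rpow_inv_natCast_pow hx hd.ne'

/-- the derivative bound. -/
theorem core {K : Set V} (hK : IsBody K) (h0 : (0 : V) ∈ interior K) (hd : 0 < finrank ℝ V)
    {t : ℝ} (ht : 0 ≤ t) :
    (vol K ^ ((1 : ℝ) / finrank ℝ V)) ^ (finrank ℝ V - 1) *
      (vol (K + t • projBody (projBody K)) ^ ((1 : ℝ) / finrank ℝ V) -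
        vol K ^ ((1 : ℝ) / finrank ℝ V)) ≤ t * vol (projBody K) := by
  have hN := projBody_isSymBody hK
  have hM := projBody_isSymBody hN.toIsBody
  obtain ⟨C, hC, hbound⟩ := mixed_bound hK h0 hN hM.compact hM.convex
    (hM.int.mono interior_subset)
    (fun v => (supp_projBody hK v).ge) (fun v => (supp_projBody hN.toIsBody v).le)
  set M := projBody (projBody K) with hMdef
  have hKne : K.Nonempty := hK.int.mono interior_subset
  have hMne : M.Nonempty := hM.int.mono interior_subset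
  have htM : IsCompact (t • M) := hM.compact.smul t
  have htMne : (t • M).Nonempty := hMne.smul_set
  have hKtM : IsCompact (K + t • M) := hK.compact.add htM
  set a := vol K ^ ((1 : ℝ) / finrank ℝ V) with ha
  set g := vol (K + t • M) ^ ((1 : ℝ) / finrank ℝ V) with hg
  have ha0 : 0 ≤ a := Real.rpow_nonneg (vol_nonneg K) _
  have hag : a ≤ g := by
    have h1 := brunn_minkowski hK.compact htM hKne htMne hd
    have h2 : 0 ≤ vol (t • M) ^ ((1 : ℝ) / finrank ℝ V) := Real.rpow_nonneg (vol_nonneg _) _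
    (clear h0 ht hN C hC hbound hMdef hKtM ha hg ha0; linarith)
  apply limit_lemma hd (C := t * C) ha0 (sub_nonneg.2 hag)
  intro ε hε hε1
  -- inclusion
  have hincl : (1 - ε) • K + ε • (K + t • M) ⊆ K + (ε * t) • M := by
    rintro _ ⟨_, ⟨k, hk, rfl⟩, _, ⟨_, ⟨k', hk', _, ⟨m, hm, rfl⟩, rfl⟩, rfl⟩, rfl⟩
    refine ⟨(1 - ε) • k + ε • k', ?_, (ε * t) • m, ⟨m, hm, rfl⟩, ?_⟩
    · exact hK.convex hk hk' (by linarith only [hε1]) hε.le (by ring)
    · simp only [smul_add, mul_smul]
      abel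
  have hcs : ∀ {s : ℝ} {S : Set V}, 0 ≤ s →
      vol (s • S) ^ ((1 : ℝ) / finrank ℝ V) = s * vol S ^ ((1 : ℝ) / finrank ℝ V) := by
    intro s S hs
    rw [vol_smul_set_of_nonneg hs, Real.mul_rpow (by (clear * - hs; positivity)) (vol_nonneg S), one_div,
      Real.pow_rpow_inv_natCast hs hd.ne']
  have hbm := brunn_minkowski (K := (1 - ε) • K) (L := ε • (K + t • M))
    (hK.compact.smul _) (hKtM.smul _) hKne.smul_set (hKne.add htMne).smul_set hd
  rw [hcs (by linarith only [hε1]), hcs hε.le, ← ha, ← hg] at hbm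
  have hmono : vol ((1 - ε) • K + ε • (K + t • M)) ≤ vol (K + (ε * t) • M) :=
    vol_mono (hK.compact.add (hM.compact.smul _)) hincl
  have h3 : a + ε * (g - a) ≤ vol (K + (ε * t) • M) ^ ((1 : ℝ) / finrank ℝ V) := by
    have h4 := Real.rpow_le_rpow (vol_nonneg _) hmono
      (show (0 : ℝ) ≤ (1 : ℝ) / finrank ℝ V by positivity)
    calc a + ε * (g - a) = (1 - ε) * a + ε * g := by ring
      _ ≤ _ := hbm.trans h4
  have h5 : (a + ε * (g - a)) ^ finrank ℝ V ≤ vol (K + (ε * t) • M) := by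
    have h6 := pow_le_pow_left₀ (add_nonneg ha0 (mul_nonneg hε.le (sub_nonneg.2 hag))) h3
      (finrank ℝ V)
    rwa [rpow_pow (vol_nonneg _) hd] at h6
  have h7 := hbound (ε * t) (mul_nonneg hε.le ht)
  rw [ha, rpow_pow (vol_nonneg K) hd, ← ha, ← mul_assoc ε t C]
  exact h5.trans h7

omit [FiniteDimensional ℝ V] [MeasurableSpace V] [BorelSpace V] in
/-- Reduction to bodies with `0` in the interior. -/
theorem exists_translate {K : Set V} (hK : IsBody K) : ∃ c : V,
    IsBody ((fun x => c + x) '' K) ∧ (0 : V) ∈ interior ((fun x => c + x) '' K) := by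
  obtain ⟨x, hx⟩ := hK.int
  refine ⟨-x, hK.translate (-x), ?_⟩
  have h1 := (Homeomorph.addLeft (-x)).image_interior K
  have h2 : (fun y => -x + y) '' interior K = interior ((fun y => -x + y) '' K) := h1
  rw [← h2]
  exact ⟨x, hx, by simp⟩

theorem contract0 {K : Set V} (hK : IsBody K) (h0 : (0 : V) ∈ interior K)
    (hd : 0 < finrank ℝ V) :
    vol K ^ (finrank ℝ V - 1) * vol (projBody (projBody K)) ≤
      vol (projBody K) ^ finrank ℝ V := by
  have hN := projBody_isSymBody hK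
  have hM := projBody_isSymBody hN.toIsBody
  have h1 := core hK h0 hd zero_le_one
  rw [one_smul, one_mul] at h1
  have h2 := brunn_minkowski hK.compact hM.compact (hK.int.mono interior_subset)
    (hM.int.mono interior_subset) hd
  set a := vol K ^ ((1 : ℝ) / finrank ℝ V) with ha
  set m := vol (projBody (projBody K)) ^ ((1 : ℝ) / finrank ℝ V) with hm
  have ha0 : 0 ≤ a := Real.rpow_nonneg (vol_nonneg K) _
  have hm0 : 0 ≤ m := Real.rpow_nonneg (vol_nonneg _) _
  have h3 : a ^ (finrank ℝ V - 1) * m ≤ vol (projBody K) := by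
    refine le_trans ?_ h1
    apply mul_le_mul_of_nonneg_left _ (by (clear * - ha0; positivity))
    (clear hK h0 hd hN hM h1 ha hm ha0 hm0; linarith)
  have h4 := pow_le_pow_left₀ (by (clear * - ha0 hm0; positivity)) h3 (finrank ℝ V)
  rw [mul_pow, hm, rpow_pow (vol_nonneg _) hd, ← pow_mul, mul_comm (finrank ℝ V - 1), pow_mul, ha,
    rpow_pow (vol_nonneg _) hd] at h4
  exact h4

theorem contract0_eq {K : Set V} (hK : IsBody K) (h0 : (0 : V) ∈ interior K)
    (hd : 0 < finrank ℝ V)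
    (h : vol (projBody K) ^ finrank ℝ V ≤
      vol K ^ (finrank ℝ V - 1) * vol (projBody (projBody K))) :
    ∃ (c : V) (r : ℝ), 0 < r ∧ projBody (projBody K) = (fun x => c + x) '' (r • K) := by
  have hN := projBody_isSymBody hK
  have hM := projBody_isSymBody hN.toIsBody
  set M := projBody (projBody K) with hMdef
  set a := vol K ^ ((1 : ℝ) / finrank ℝ V) with ha
  set m := vol M ^ ((1 : ℝ) / finrank ℝ V) with hm
  have hvK : 0 < vol K := ZA.vol_pos hK
  have hvM : 0 < vol M := ZA.vol_pos hM.toIsBody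
  have ha0 : 0 < a := Real.rpow_pos_of_pos hvK _
  have hm0 : 0 < m := Real.rpow_pos_of_pos hvM _
  have had : a ^ finrank ℝ V = vol K := rpow_pow (vol_nonneg _) hd
  have hmd : m ^ finrank ℝ V = vol M := rpow_pow (vol_nonneg _) hd
  -- `vol N ≤ a^(d-1) m`
  have h1 : vol (projBody K) ≤ a ^ (finrank ℝ V - 1) * m := by
    apply le_of_pow_le_pow_left₀ hd.ne' (by (clear h0 hd hN h hMdef ha hm ha0 hm0 had hmd; positivity))
    rw [mul_pow, ← pow_mul, mul_comm (finrank ℝ V - 1), pow_mul, had, hmd]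
    exact h
  set t := a / m with ht
  have ht0 : 0 < t := div_pos ha0 hm0
  have htm : t * m = a := div_mul_cancel₀ a hm0.ne'
  have h2 := core hK h0 hd ht0.le
  rw [← hMdef, ← ha] at h2
  set g := vol (K + t • M) ^ ((1 : ℝ) / finrank ℝ V) with hg
  have h3 : g - a ≤ a := by
    have h4 : a ^ (finrank ℝ V - 1) * (g - a) ≤ a ^ (finrank ℝ V - 1) * a := by
      calc a ^ (finrank ℝ V - 1) * (g - a) ≤ t * vol (projBody K) := h2
        _ ≤ t * (a ^ (finrank ℝ V - 1) * m) := mul_le_mul_of_nonneg_left h1 ht0.le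
        _ = a ^ (finrank ℝ V - 1) * (t * m) := by ring
        _ = a ^ (finrank ℝ V - 1) * a := by rw [htm]
    exact le_of_mul_le_mul_left h4 (by positivity)
  have hvtM : vol (t • M) = vol K := by
    rw [vol_smul_set_of_nonneg ht0.le, ← hmd, ← mul_pow, htm, had]
  have hvtM' : vol (t • M) ^ ((1 : ℝ) / finrank ℝ V) = a := by rw [hvtM]
  have hbm := brunn_minkowski hK.compact (hM.compact.smul t) (hK.int.mono interior_subset)
    (hM.int.mono interior_subset).smul_set hd
  rw [hvtM', ← ha, ← hg] at hbm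
  have hg2 : g = 2 * a := by linarith only [hbm, h3]
  have hvol : vol (K + t • M) = 2 ^ finrank ℝ V * vol K := by
    have h4 : g ^ finrank ℝ V = vol (K + t • M) := rpow_pow (vol_nonneg _) hd
    rw [← h4, hg2, mul_pow, had]
  have hhalf : vol ((2⁻¹ : ℝ) • (K + t • M)) = vol K := by
    rw [vol_smul_set_of_nonneg (by norm_num), hvol, ← mul_assoc, ← mul_pow]
    norm_num
  have htMbody : IsBody (t • M) := by
    have h4 := hM.toIsBody.image (LinearEquiv.smulOfNeZero ℝ V t ht0.ne')
    exact h4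
  obtain ⟨c, hc⟩ := bm_equality hK htMbody hvtM.symm hhalf
  refine ⟨t⁻¹ • c, t⁻¹, inv_pos.2 ht0, ?_⟩
  have h5 : M = t⁻¹ • (t • M) := by rw [inv_smul_smul₀ ht0.ne']
  rw [h5, hc]
  ext x
  constructor
  · rintro ⟨_, ⟨k, hk, rfl⟩, rfl⟩
    exact ⟨t⁻¹ • k, smul_mem_smul_set hk, by simp only [smul_add]⟩
  · rintro ⟨_, ⟨k, hk, rfl⟩, rfl⟩
    exact ⟨c + k, ⟨k, hk, rfl⟩, by simp only [smul_add]⟩

end Glue1

theorem petty_contract {K : Set V} (hK : IsBody K) (hd : 0 < finrank ℝ V) :
    vol K ^ (finrank ℝ V - 1) * vol (projBody (projBody K)) ≤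
      vol (projBody K) ^ finrank ℝ V := by
  obtain ⟨c, hc, hc0⟩ := Glue1.exists_translate hK
  have h1 := Glue1.contract0 hc hc0 hd
  rwa [projBody_translate, vol_image_add_left] at h1

theorem petty_contract_eq {K : Set V} (hK : IsBody K) (hd : 0 < finrank ℝ V)
    (h : vol (projBody K) ^ finrank ℝ V ≤
      vol K ^ (finrank ℝ V - 1) * vol (projBody (projBody K))) :
    ∃ (c : V) (r : ℝ), 0 < r ∧ projBody (projBody K) = (fun x => c + x) '' (r • K) := by
  obtain ⟨c, hc, hc0⟩ := Glue1.exists_translate hK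
  obtain ⟨c', r, hr, h1⟩ := Glue1.contract0_eq hc hc0 hd (by
    rwa [projBody_translate, vol_image_add_left])
  rw [projBody_translate] at h1
  refine ⟨c' + r • c, r, hr, ?_⟩
  rw [h1]
  ext x
  constructor
  · rintro ⟨_, ⟨_, ⟨k, hk, rfl⟩, rfl⟩, rfl⟩
    exact ⟨r • k, smul_mem_smul_set hk, by simp only [smul_add]; abel⟩
  · rintro ⟨_, ⟨k, hk, rfl⟩, rfl⟩
    exact ⟨r • (c + k), smul_mem_smul_set ⟨k, hk, rfl⟩, by simp only [smul_add]; abel⟩

end Vale.Agent.P237
end

section

/-!
# P237: second moments of slices and the final slice estimate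
-/

open MeasureTheory Metric Set Module
open scoped Pointwise

namespace Vale.Agent.P237

section Plane

variable {W : Type*} [NormedAddCommGroup W] [InnerProductSpace ℝ W] [FiniteDimensional ℝ W]
  [MeasurableSpace W] [BorelSpace W]

theorem volume_ball_plane (h2 : finrank ℝ W = 2) : (volume : Measure W).real (ball 0 1) = Real.pi := by
  have : Nontrivial W := Module.nontrivial_of_finrank_pos (R := ℝ) (by omega)
  unfold Measure.real
  rw [InnerProductSpace.volume_ball_of_dim_even (k := 1) (by omega), h2]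
  simp [Real.pi_pos.le]

/-- Integral of `min (‖z‖² - r², 0)` in the plane. -/
theorem integral_min_plane (h2 : finrank ℝ W = 2) {r : ℝ} (hr : 0 ≤ r) :
    ∫ z : W, min (‖z‖ ^ 2 - r ^ 2) 0 = - (Real.pi * r ^ 4 / 2) := by
  have : Nontrivial W := Module.nontrivial_of_finrank_pos (R := ℝ) (by omega)
  have h := integral_fun_norm_addHaar (volume : Measure W) (fun s : ℝ => min (s ^ 2 - r ^ 2) 0)
  rw [h, h2, volume_ball_plane h2]
  have h3 : ∫ y in Ioi (0:ℝ), y ^ (2 - 1) • min (y ^ 2 - r ^ 2) 0 = - (r ^ 4 / 4) := by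
    have e1 : ∫ y in Ioi (0:ℝ), y ^ (2 - 1) • min (y ^ 2 - r ^ 2) 0 =
        ∫ y in Ioc (0:ℝ) r, y * (y ^ 2 - r ^ 2) := by
      rw [← integral_indicator measurableSet_Ioi, ← integral_indicator measurableSet_Ioc]
      congr 1
      funext y
      by_cases hy : 0 < y
      · rw [indicator_of_mem (show y ∈ Ioi (0:ℝ) from hy)]
        by_cases hy2 : y ≤ r
        · rw [indicator_of_mem (show y ∈ Ioc (0:ℝ) r from ⟨hy, hy2⟩), min_eq_left]
          · simp only [Nat.add_one_sub_one, pow_one, smul_eq_mul]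
          · (clear * - hr hy2 hy; nlinarith)
        · rw [indicator_of_notMem (show y ∉ Ioc (0:ℝ) r from fun h => hy2 h.2), min_eq_right]
          · simp only [Nat.add_one_sub_one, pow_one, smul_eq_mul, mul_zero]
          · push Not at hy2
            nlinarith only [hr, hy2]
      · rw [indicator_of_notMem (show y ∉ Ioi (0:ℝ) from hy),
          indicator_of_notMem (show y ∉ Ioc (0:ℝ) r from fun h => hy h.1)]
    rw [e1, ← intervalIntegral.integral_of_le hr]
    have hder : ∀ y ∈ uIcc 0 r, HasDerivAt (fun y : ℝ => y ^ 4 / 4 - r ^ 2 * y ^ 2 / 2)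
        (y * (y ^ 2 - r ^ 2)) y := by
      intro y _
      have := ((hasDerivAt_pow 4 y).div_const 4).sub
        (((hasDerivAt_pow 2 y).const_mul (r ^ 2)).div_const 2)
      refine this.congr_deriv ?_
      simp only [Nat.cast_ofNat, Nat.add_one_sub_one, ne_eq, OfNat.ofNat_ne_zero, not_false_eq_true, mul_div_cancel_left₀, pow_one]
      ring
    rw [intervalIntegral.integral_eq_sub_of_hasDerivAt hder (by
      have : Continuous (fun y : ℝ => y * (y ^ 2 - r ^ 2)) := by fun_prop
      exact this.intervalIntegrable _ _)]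
    ring
  rw [h3]
  simp only [smul_eq_mul, mul_neg, smul_neg, nsmul_eq_mul, Nat.cast_ofNat, neg_inj]
  ring

/-- Among planar sets of given area the disc has the least second moment. -/
theorem moment_plane (h2 : finrank ℝ W = 2) {S : Set W} (hS : IsCompact S) :
    vol S ^ 2 / (2 * Real.pi) ≤ ∫ z in S, ‖z‖ ^ 2 := by
  have hpi := Real.pi_pos
  have hv : 0 ≤ vol S := ENNReal.toReal_nonneg
  set r : ℝ := √(vol S / Real.pi) with hr
  have hr0 : 0 ≤ r := Real.sqrt_nonneg _
  have hr2 : r ^ 2 = vol S / Real.pi := Real.sq_sqrt (by (clear h2 hS hpi r hr hr0; positivity))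
  have hI := integral_min_plane (W := W) h2 hr0
  have hcont : Continuous (fun z : W => min (‖z‖ ^ 2 - r ^ 2) 0) := by (clear * -; (clear * -; fun_prop))
  have hint : Integrable (fun z : W => min (‖z‖ ^ 2 - r ^ 2) 0) := by
    refine hcont.integrable_of_hasCompactSupport ?_
    refine HasCompactSupport.intro (isCompact_closedBall (0 : W) r) ?_
    intro z hz
    rw [mem_closedBall_zero_iff, not_le] at hz
    apply min_eq_right
    nlinarith only [hr0, hz]
  have h1 : ∫ z : W, min (‖z‖ ^ 2 - r ^ 2) 0 ≤ ∫ z in S, min (‖z‖ ^ 2 - r ^ 2) 0 := by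
    rw [← integral_indicator hS.measurableSet]
    refine integral_mono hint (hint.indicator hS.measurableSet) ?_
    intro z
    by_cases hz : z ∈ S
    · simp only [indicator_of_mem hz]; exact le_rfl
    · simp only [indicator_of_notMem hz]; exact min_le_right _ _
  have hc1 : IntegrableOn (fun z : W => ‖z‖ ^ 2) S :=
    (by fun_prop : Continuous (fun z : W => ‖z‖ ^ 2)).continuousOn.integrableOn_compact hS
  have hc2 : IntegrableOn (fun _ : W => r ^ 2) S :=
    continuousOn_const.integrableOn_compact hS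
  have h2 : ∫ z in S, min (‖z‖ ^ 2 - r ^ 2) 0 ≤ ∫ z in S, (‖z‖ ^ 2 - r ^ 2) :=
    integral_mono hint.integrableOn (hc1.sub hc2) fun z => min_le_left _ _
  rw [integral_sub hc1 hc2, setIntegral_const, smul_eq_mul] at h2
  have h3 : (volume : Measure W).real S = vol S := rfl
  rw [h3] at h2
  rw [hI] at h1
  have h4 : r ^ 4 = (vol S / Real.pi) ^ 2 := by rw [← hr2]; ring
  rw [h4] at h1
  have e1 : Real.pi * (vol S / Real.pi) ^ 2 / 2 = vol S ^ 2 / (2 * Real.pi) := by
    (clear hS hpi hv r hr hr0 hr2 hI hcont hint h1 hc1 hc2 h2 h3 h4; field_simp)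
  have e2 : vol S * r ^ 2 = 2 * (vol S ^ 2 / (2 * Real.pi)) := by
    rw [hr2]
    (clear hS hpi hv r hr hr0 hr2 hI hcont hint h1 hc1 hc2 h2 h3 h4 e1; field_simp)
  rw [e1] at h1
  rw [e2] at h2
  (clear hS hpi hv hr hr0 hr2 hI hcont hint hc1 hc2 h3 h4 e1 e2; linarith)

end Plane

section Space

variable {V : Type*} [NormedAddCommGroup V] [InnerProductSpace ℝ V] [FiniteDimensional ℝ V]
  [MeasurableSpace V] [BorelSpace V]

omit [FiniteDimensional ℝ V] [MeasurableSpace V] [BorelSpace V] in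
theorem norm_sq_prod_point {u : V} (hu : ‖u‖ = 1) (z : ((ℝ ∙ u)ᗮ : Submodule ℝ V)) (y : ℝ) :
    ‖(z : V) + y • u‖ ^ 2 = ‖z‖ ^ 2 + y ^ 2 := by
  have h1 : inner ℝ (z : V) u = 0 := by
    rw [real_inner_comm]
    exact Submodule.mem_orthogonal_singleton_iff_inner_right.mp z.2
  have h2 := norm_add_sq_real (z : V) (y • u)
  rw [h2, inner_smul_right, h1, norm_smul, hu]
  simp only [mul_zero, add_zero, Real.norm_eq_abs, mul_one, sq_abs, Submodule.coe_norm]

/-- The areas of the slices are bounded. -/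
theorem exists_vol_slice_le {K : Set V} (hK : IsCompact K) {u : V} (hu : ‖u‖ = 1) :
    ∃ C : ℝ, 0 ≤ C ∧ ∀ y, vol (slice K u y) ≤ C := by
  obtain ⟨R, hR⟩ := hK.isBounded.subset_closedBall (0 : V)
  refine ⟨vol (closedBall (0 : ((ℝ ∙ u)ᗮ : Submodule ℝ V)) R), ENNReal.toReal_nonneg, fun y => ?_⟩
  refine ENNReal.toReal_mono (isCompact_closedBall _ _).measure_lt_top.ne (measure_mono ?_)
  intro z hz
  have h1 := hR (show (z : V) + y • u ∈ K from hz)
  rw [mem_closedBall_zero_iff] at h1 ⊢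
  have h2 := norm_sq_prod_point hu z y
  have h3 : ‖z‖ ^ 2 ≤ ‖(z : V) + y • u‖ ^ 2 := by rw [h2]; nlinarith only []
  exact (abs_le_of_sq_le_sq' h3 (norm_nonneg _)).2.trans h1

theorem integrable_vol_slice_sq {K : Set V} (hK : IsCompact K) {u : V} (hu : ‖u‖ = 1) :
    Integrable (fun y : ℝ => vol (slice K u y) ^ 2) := by
  obtain ⟨C, hC, hb⟩ := exists_vol_slice_le hK hu
  have h := integrable_vol_slice hK hu
  have h2 := h.mul_bdd (c := C) h.aestronglyMeasurable (Filter.Eventually.of_forall fun y => by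
    rw [Real.norm_eq_abs, abs_of_nonneg (show 0 ≤ vol (slice K u y) from ENNReal.toReal_nonneg)]
    exact hb y)
  refine h2.congr (Filter.Eventually.of_forall fun y => ?_)
  simp only [sq]

/-- Fubini for continuous functions on a compact set. -/
theorem slice_fubini {K : Set V} (hK : IsCompact K) {u : V} (hu : ‖u‖ = 1) (g : V → ℝ)
    (hg : Continuous g) :
    Integrable (fun y : ℝ => ∫ z in slice K u y, g ((z : V) + y • u)) ∧
    ∫ x in K, g x = ∫ y : ℝ, (∫ z in slice K u y, g ((z : V) + y • u)) := by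
  have hm : MeasurableSet K := hK.measurableSet
  have hint : Integrable (fun x : V => K.indicator g x) := by
    rw [integrable_indicator_iff hm]
    exact hg.continuousOn.integrableOn_compact hK
  have hint2 : Integrable (fun p : ℝ × ((ℝ ∙ u)ᗮ : Submodule ℝ V) =>
      K.indicator g ((p.2 : V) + p.1 • u)) := by
    have := ((prodEquiv_measurePreserving u hu).integrable_comp_emb
      (prodEquiv u hu).measurableEmbedding).2 hint
    refine this.congr (Filter.Eventually.of_forall fun p => ?_)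
    simp only [Function.comp, prodEquiv_apply]
  have hpt : ∀ y : ℝ, ∫ z : ((ℝ ∙ u)ᗮ : Submodule ℝ V), K.indicator g ((z : V) + y • u)
      = ∫ z in slice K u y, g ((z : V) + y • u) := by
    intro y
    rw [← integral_indicator (slice_isCompact hK u y).measurableSet]
    congr 1
  rw [Measure.volume_eq_prod] at hint2
  constructor
  · refine hint2.integral_prod_left.congr (Filter.Eventually.of_forall fun y => ?_)
    exact hpt y
  · rw [← integral_indicator hm, integral_eq_integral_prod u hu, Measure.volume_eq_prod,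
      integral_prod _ hint2]
    exact integral_congr_ae (Filter.Eventually.of_forall fun y => hpt y)

theorem slice_moment (hd : finrank ℝ V = 3) {K : Set V} (hK : IsCompact K) {u : V}
    (hu : ‖u‖ = 1) :
    (∫ x in K, (inner ℝ x u) ^ 2) + (∫ y : ℝ, vol (slice K u y) ^ 2) / (2 * Real.pi) ≤
      ∫ x in K, ‖x‖ ^ 2 := by
  have h2 := finrank_perp hd hu
  obtain ⟨i1, e1⟩ := slice_fubini hK hu (fun x => ‖x‖ ^ 2) (by fun_prop)
  obtain ⟨i2, e2⟩ := slice_fubini hK hu (fun x => (inner ℝ x u) ^ 2)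
    ((continuous_id.inner continuous_const).pow 2)
  rw [e1, e2, ← integral_div, ← integral_add i2 ((integrable_vol_slice_sq hK hu).div_const _)]
  refine integral_mono (i2.add ((integrable_vol_slice_sq hK hu).div_const _)) i1 ?_
  intro y
  have hS := slice_isCompact hK u y
  have h3 := moment_plane h2 hS
  simp only [inner_prod_point hu, norm_sq_prod_point hu]
  have hc1 : IntegrableOn (fun z : ((ℝ ∙ u)ᗮ : Submodule ℝ V) => ‖z‖ ^ 2) (slice K u y) :=
    (by fun_prop : Continuous (fun z : ((ℝ ∙ u)ᗮ : Submodule ℝ V) =>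
      ‖z‖ ^ 2)).continuousOn.integrableOn_compact hS
  have hc2 : IntegrableOn (fun _ : ((ℝ ∙ u)ᗮ : Submodule ℝ V) => y ^ 2) (slice K u y) :=
    continuousOn_const.integrableOn_compact hS
  rw [integral_add hc1 hc2]
  (clear i1 e1 i2 e2 hc1 hc2; linarith)

/-- The slices are empty for `|y| > 1`. -/
theorem vol_slice_eq_zero {K : Set V} (hs : ∀ x ∈ K, -x ∈ K) {u : V} (hu : ‖u‖ = 1)
    (hc : ∀ x ∈ K, inner ℝ x u ≤ 1) {y : ℝ} (hy : 1 < |y|) : vol (slice K u y) = 0 := by
  have : slice K u y = ∅ := by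
    rw [eq_empty_iff_forall_notMem]
    intro z hz
    have h1 := hc _ hz
    have h2 := hc _ (hs _ hz)
    rw [inner_neg_left, inner_prod_point hu] at h2
    rw [inner_prod_point hu] at h1
    rcases lt_abs.mp hy with h | h <;> linarith
  rw [this]
  simp [vol]

theorem integral_eq_of_support {f : ℝ → ℝ} (hf : ∀ y, 1 < |y| → f y = 0) :
    ∫ y : ℝ, f y = ∫ y in (-1:ℝ)..1, f y := by
  rw [intervalIntegral.integral_of_le (by norm_num), ← integral_Icc_eq_integral_Ioc]
  symm
  refine setIntegral_eq_integral_of_forall_compl_eq_zero ?_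
  intro y hy
  apply hf
  rw [mem_Icc, ← abs_le, not_le] at hy
  exact hy

/-- **Slice estimate**: the contact direction of the moment inequality. -/
theorem sqrt_slice_bound (hd : finrank ℝ V = 3) {K : Set V} (hK : IsSymBody K)
    (hb : closedBall (0 : V) 1 ⊆ K) {u : V} (hu : ‖u‖ = 1)
    (hc : ∀ x ∈ K, inner ℝ x u ≤ 1)
    (hm : (∫ x in K, ‖x‖ ^ 2) ≤ 3 * ∫ x in K, (inner ℝ x u) ^ 2) :
    3 * Real.pi ^ 2 / 16 * vol K ≤ (∫ y : ℝ, √(vol (slice K u y))) ^ 2 ∧
    (4 * Real.pi / 3 < vol K →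
      3 * Real.pi ^ 2 / 16 * vol K < (∫ y : ℝ, √(vol (slice K u y))) ^ 2) := by
  have hpi := Real.pi_pos
  have hKc := hK.compact
  set A : ℝ → ℝ := fun y => vol (slice K u y) with hA
  have hA0 : ∀ y, 0 ≤ A y := fun y => ENNReal.toReal_nonneg
  have hAz : ∀ y, 1 < |y| → A y = 0 := fun y hy => vol_slice_eq_zero hK.symm hu hc hy
  set p : ℝ → ℝ := fun y => √(A y / Real.pi) with hp
  have hp2 : ∀ y, p y ^ 2 = A y / Real.pi := fun y => Real.sq_sqrt (div_nonneg (hA0 y) hpi.le)
  have hpe : ∀ y, p y = (√Real.pi)⁻¹ * √(A y) := fun y => by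
    simp only [hp]
    rw [Real.sqrt_div' _ hpi.le, div_eq_inv_mul]
  have hconc : ConcaveOn ℝ (Icc (-1) 1) p := by
    have h1 := slice_sqrt_concave hd hK.toIsBody hb hu
    have h2 := h1.smul (inv_nonneg.mpr (Real.sqrt_nonneg Real.pi))
    refine h2.congr ?_
    intro y _
    simp only [smul_eq_mul, hpe, hA]
  have heven : ∀ y, p (-y) = p y := fun y => by
    simp only [hp, hA, slice_vol_even hK hu]
  have hge : ∀ y ∈ Icc (-1 : ℝ) 1, √(1 - y ^ 2) ≤ p y := by
    intro y hy
    apply Real.sqrt_le_sqrt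
    rw [le_div_iff₀ hpi, mul_comm]
    exact slice_ge hd hK.toIsBody hb hu (abs_le.mpr hy)
  -- transfer of the moment inequality
  have hmom := slice_moment hd hKc hu
  have hin : ∫ x in K, (inner ℝ x u) ^ 2 = ∫ y : ℝ, y ^ 2 * A y :=
    integral_slice hKc hu (fun t => t ^ 2) (by fun_prop)
  have e4 : ∫ y in (-1:ℝ)..1, p y ^ 4 = (∫ y : ℝ, A y ^ 2) / Real.pi ^ 2 := by
    rw [integral_eq_of_support (f := fun y => A y ^ 2) (fun y hy => by rw [hAz y hy]; ring),
      ← intervalIntegral.integral_div]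
    congr 1
    funext y
    rw [show p y ^ 4 = (p y ^ 2) ^ 2 by ring, hp2, div_pow]
  have e3 : ∫ y in (-1:ℝ)..1, y ^ 2 * p y ^ 2 = (∫ y : ℝ, y ^ 2 * A y) / Real.pi := by
    rw [integral_eq_of_support (f := fun y => y ^ 2 * A y) (fun y hy => by rw [hAz y hy]; ring),
      ← intervalIntegral.integral_div]
    congr 1
    funext y
    rw [hp2, mul_div_assoc]
  have e2 : ∫ y in (-1:ℝ)..1, p y ^ 2 = vol K / Real.pi := by
    rw [vol_eq_integral_slice hKc hu, integral_eq_of_support (f := fun y => vol (slice K u y)) hAz,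
      ← intervalIntegral.integral_div]
    congr 1
    funext y
    rw [hp2]
  have e1 : ∫ y in (-1:ℝ)..1, p y = (√Real.pi)⁻¹ * ∫ y : ℝ, √(A y) := by
    rw [integral_eq_of_support (f := fun y => √(A y)) (fun y hy => by rw [hAz y hy]; simp),
      ← intervalIntegral.integral_const_mul]
    congr 1
    funext y
    rw [hpe]
  have hS : ∫ y in (-1:ℝ)..1, p y ^ 4 ≤ 4 * ∫ y in (-1:ℝ)..1, y ^ 2 * p y ^ 2 := by
    rw [e4, e3]
    rw [hin] at hm hmom
    have h1 : (∫ y : ℝ, A y ^ 2) / (2 * Real.pi) ≤ 2 * ∫ y : ℝ, y ^ 2 * A y := by (clear hd hK hb hu hc hpi hKc hA hA0 hAz p hp hp2 hpe hconc heven hge hin e4 e3 e2 e1; linarith)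
    rw [div_le_iff₀ (by positivity)] at h1
    rw [div_le_iff₀ (by positivity)]
    have h3 : 4 * ((∫ y : ℝ, y ^ 2 * A y) / Real.pi) * Real.pi ^ 2 =
        2 * (∫ y : ℝ, y ^ 2 * A y) * (2 * Real.pi) := by
      field_simp
      ring
    rw [h3]
    exact h1
  have hsq : (√Real.pi)⁻¹ ^ 2 = Real.pi⁻¹ := by
    rw [inv_pow, Real.sq_sqrt hpi.le]
  constructor
  · have h := one_dim_even hconc heven hge hS
    rw [e2, e1, mul_pow, hsq] at h
    have h' := mul_le_mul_of_nonneg_left h hpi.le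
    have t1 : Real.pi * (3 * Real.pi ^ 2 / 16 * (vol K / Real.pi)) =
        3 * Real.pi ^ 2 / 16 * vol K := by (clear hd hK hb u hu hc hm hpi hKc A hA hA0 hAz p hp hp2 hpe hconc heven hge hmom hin e4 e3 e2 e1 hS hsq h h'; field_simp)
    have t2 : Real.pi * (Real.pi⁻¹ * (∫ y : ℝ, √(A y)) ^ 2) = (∫ y : ℝ, √(A y)) ^ 2 := by
      (clear * -; field_simp)
    rw [t1, t2] at h'
    exact h'
  · intro hv
    have hv' : 4 / 3 < ∫ y in (-1:ℝ)..1, p y ^ 2 := by
      rw [e2, lt_div_iff₀ hpi]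
      (clear hd hK hb u hu hc hm hpi hKc A hA hA0 hAz p hp hp2 hpe hconc heven hge hmom hin e4 e3 e2 e1 hS hsq; linarith)
    have h := one_dim_even_strict hconc heven hge hS hv'
    rw [e2, e1, mul_pow, hsq] at h
    have h' := mul_lt_mul_of_pos_left h hpi
    have t1 : Real.pi * (3 * Real.pi ^ 2 / 16 * (vol K / Real.pi)) =
        3 * Real.pi ^ 2 / 16 * vol K := by (clear hd hK hb u hu hc hm hpi hKc A hA hA0 hAz p hp hp2 hpe hconc heven hge hmom hin e4 e3 e2 e1 hS hsq hv hv' h h'; field_simp)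
    have t2 : Real.pi * (Real.pi⁻¹ * (∫ y : ℝ, √(A y)) ^ 2) = (∫ y : ℝ, √(A y)) ^ 2 := by
      (clear * -; field_simp)
    rw [t1, t2] at h'
    exact h'

end Space

end Vale.Agent.P237
end

section

/-!
# P237: the fixed point bound in dimension three
-/

open MeasureTheory Metric Set Module
open scoped Pointwise

namespace Vale.Agent.P237

variable {V : Type*} [NormedAddCommGroup V] [InnerProductSpace ℝ V] [FiniteDimensional ℝ V]
  [MeasurableSpace V] [BorelSpace V]

namespace Glue3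

/-- In a contact direction of the John ellipsoid the second projection body is as large as
the factor `μ`. -/
theorem mu_eq_shadow {K : Set V} (hK : IsSymBody K) (hb : closedBall (0 : V) 1 ⊆ K) {μ : ℝ}
    (hμ0 : 0 < μ) (hμ : projBody (projBody K) = μ • K) {u : V} (hu : ‖u‖ = 1)
    (hc : ∀ x ∈ K, inner ℝ x u ≤ 1) : shadow (projBody K) u = μ := by
  have hPi := projBody_isSymBody hK.toIsBody
  have h1 : supp (projBody (projBody K)) u = beta (projBody K) u :=
    supp_projBody hPi.toIsBody u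
  rw [beta_unit hPi.compact hPi.convex hu] at h1
  have h2 : supp K u = 1 := by
    have huK : u ∈ K := hb (by rw [mem_closedBall, dist_zero_right, hu])
    apply le_antisymm
    · obtain ⟨x, hx, hxe⟩ := exists_supp hK.compact ⟨u, huK⟩ u
      rw [← hxe]
      exact hc x hx
    · have h3 := le_supp hK.compact u huK
      rwa [real_inner_self_eq_norm_sq, hu, one_pow] at h3
  have h3 : supp (μ • K) u = μ * supp K u := by
    unfold supp
    have h4 : (fun x : V => inner ℝ x u) '' (μ • K) = μ • ((fun x : V => inner ℝ x u) '' K) := by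
      rw [← Set.image_smul, ← Set.image_smul, image_image, image_image]
      simp only [real_inner_smul_left, smul_eq_mul]
    rw [h4, Real.sSup_smul_of_nonneg hμ0.le, smul_eq_mul]
  rw [← h1, hμ, h3, h2, mul_one]

theorem main (hd : finrank ℝ V = 3) {K : Set V} (hK : IsSymBody K)
    (hJ : JohnPos K) {μ : ℝ} (hμ0 : 0 < μ) (hμ : projBody (projBody K) = μ • K) :
    3 * Real.pi ^ 2 / 4 * vol K ≤ μ ∧
      (4 * Real.pi / 3 < vol K → 3 * Real.pi ^ 2 / 4 * vol K < μ) := by
  obtain ⟨u, hu, hc, hm⟩ := john_contact hK hJ (by rw [hd]; norm_num)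
  rw [hd] at hm
  have hS := sqrt_slice_bound hd hK hJ.1 hu hc (by exact_mod_cast hm)
  have hG := shadow_projBody_ge hd hK hu
  rw [mu_eq_shadow hK hJ.1 hμ0 hμ hu hc] at hG
  refine ⟨by linarith [hS.1], fun h => by linarith [hS.2 h]⟩

end Glue3

theorem fixed_point_bound (hd : finrank ℝ V = 3) {K : Set V} (hK : IsSymBody K)
    (hJ : JohnPos K) {μ : ℝ} (hμ0 : 0 < μ) (hμ : projBody (projBody K) = μ • K) :
    3 * Real.pi ^ 2 / 4 * vol K ≤ μ :=
  (Glue3.main hd hK hJ hμ0 hμ).1

theorem fixed_point_eq (hd : finrank ℝ V = 3) {K : Set V} (hK : IsSymBody K)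
    (hJ : JohnPos K) {μ : ℝ} (hμ0 : 0 < μ) (hμ : projBody (projBody K) = μ • K)
    (h : μ ≤ 3 * Real.pi ^ 2 / 4 * vol K) :
    vol K ≤ 4 * Real.pi / 3 := by
  by_contra hcon
  push Not at hcon
  exact absurd h (not_le.mpr ((Glue3.main hd hK hJ hμ0 hμ).2 hcon))

end Vale.Agent.P237
end

section

/-!
# P237: Petty's projection-volume inequality in dimension three, with equality cases
-/

open MeasureTheory Metric Set Module
open scoped Pointwise

namespace Vale.Agent.P237

variable {V : Type*} [NormedAddCommGroup V] [InnerProductSpace ℝ V] [FiniteDimensional ℝ V]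
  [MeasurableSpace V] [BorelSpace V]

namespace Main

theorem vol_pos {K : Set V} (hK : IsBody K) : 0 < vol K := by
  have h1 : 0 < volume K := lt_of_lt_of_le (isOpen_interior.measure_pos _ hK.int)
    (measure_mono interior_subset)
  exact ENNReal.toReal_pos h1.ne' hK.compact.measure_lt_top.ne

theorem projBody_isBody {K : Set V} (hK : IsBody K) : IsBody (projBody K) :=
  (projBody_isSymBody hK).toIsBody

/-- The ratio of the projection body is at most the ratio. -/
theorem ratio_projBody_le {K : Set V} (hK : IsBody K) (hd : 0 < finrank ℝ V) :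
    ratio (projBody K) ≤ ratio K := by
  have h := petty_contract hK hd
  have p1 := vol_pos hK
  have p2 := vol_pos (projBody_isBody hK)
  unfold ratio
  obtain ⟨m, hm⟩ : ∃ m, finrank ℝ V = m + 1 := ⟨finrank ℝ V - 1, by omega⟩
  rw [hm] at h ⊢
  simp only [Nat.add_sub_cancel] at h ⊢
  rw [div_le_div_iff₀ (by positivity) (by positivity)]
  calc vol (projBody (projBody K)) * vol K ^ m = vol K ^ m * vol (projBody (projBody K)) := by ring
    _ ≤ vol (projBody K) ^ (m + 1) := h
    _ = vol (projBody K) * vol (projBody K) ^ m := by ring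

theorem petty_contract_eq_of_ratio {K : Set V} (hK : IsBody K) (hd : 0 < finrank ℝ V)
    (h : ratio K ≤ ratio (projBody K)) :
    ∃ (c : V) (r : ℝ), 0 < r ∧ projBody (projBody K) = (fun x => c + x) '' (r • K) := by
  refine petty_contract_eq hK hd ?_
  have p1 := vol_pos hK
  have p2 := vol_pos (projBody_isBody hK)
  unfold ratio at h
  obtain ⟨m, hm⟩ : ∃ m, finrank ℝ V = m + 1 := ⟨finrank ℝ V - 1, by omega⟩
  rw [hm] at h ⊢
  simp only [Nat.add_sub_cancel] at h ⊢
  rw [div_le_div_iff₀ (by positivity) (by positivity)] at h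
  calc vol (projBody K) ^ (m + 1) = vol (projBody K) * vol (projBody K) ^ m := by ring
    _ ≤ vol (projBody (projBody K)) * vol K ^ m := h
    _ = vol K ^ m * vol (projBody (projBody K)) := by ring

theorem image_add_zero (S : Set V) : (fun x => (0 : V) + x) '' S = S := by
  simp

/-- A symmetric body which does not lose in the first step is a fixed point of the squared
projection body operator up to dilation. -/
theorem fixed_of_ratio_le {K : Set V} (hK : IsSymBody K) (hd : 0 < finrank ℝ V)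
    (h : ratio K ≤ ratio (projBody K)) :
    ∃ r : ℝ, 0 < r ∧ projBody (projBody K) = r • K ∧ vol (projBody K) = r * vol K := by
  obtain ⟨c, r, hr, hcr⟩ := petty_contract_eq_of_ratio hK.toIsBody hd h
  have hc : c = 0 := center_zero hK (projBody_isSymBody (projBody_isBody hK.toIsBody)) hr hcr
  have hM : projBody (projBody K) = r • K := by
    rw [hcr, hc, image_add_zero]
  refine ⟨r, hr, hM, ?_⟩
  have p1 := vol_pos hK.toIsBody
  have p2 := vol_pos (projBody_isBody hK.toIsBody)
  have h1 := ratio_projBody_le hK.toIsBody hd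
  have heq : ratio K = ratio (projBody K) := le_antisymm h h1
  obtain ⟨m, hm⟩ : ∃ m, finrank ℝ V = m + 1 := ⟨finrank ℝ V - 1, by omega⟩
  have hv : vol (projBody (projBody K)) = r ^ (m + 1) * vol K := by
    rw [hM, vol_smul_set, hm, abs_of_pos hr]
  unfold ratio at heq
  rw [hv, hm] at heq
  simp only [Nat.add_sub_cancel] at heq
  rw [div_eq_div_iff (by positivity) (by positivity)] at heq
  have h3 : vol (projBody K) ^ (m + 1) = (r * vol K) ^ (m + 1) := by
    calc vol (projBody K) ^ (m + 1) = vol (projBody K) * vol (projBody K) ^ m := by ring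
      _ = r ^ (m + 1) * vol K * vol K ^ m := heq
      _ = (r * vol K) ^ (m + 1) := by ring
  exact (pow_left_inj₀ p2.le (by positivity) (by omega)).1 h3

/-- In dimension three, a symmetric body with `ratio K ≤ ratio (Π K)` satisfies Petty's bound. -/
theorem ratio_ge_of_fixed (hd : finrank ℝ V = 3) {K : Set V} (hK : IsSymBody K)
    (hmin : ∀ L : Set V, IsSymBody L → ratio K ≤ ratio L) :
    3 * Real.pi ^ 2 / 4 ≤ ratio K := by
  have hd0 : 0 < finrank ℝ V := by omega
  obtain ⟨T, hT⟩ := exists_johnPos hK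
  have hK1 : IsSymBody (T '' K) := IsSymBody.image T hK
  have hR : ratio (T '' K) = ratio K := ratio_image T hK.toIsBody hd0
  have hle : ratio (T '' K) ≤ ratio (projBody (T '' K)) := by
    rw [hR]; exact hmin _ (projBody_isSymBody hK1.toIsBody)
  obtain ⟨r, hr, hM, hv⟩ := fixed_of_ratio_le hK1 hd0 hle
  have hb := fixed_point_bound hd hK1 hT hr hM
  have p1 := vol_pos hK1.toIsBody
  rw [← hR]
  unfold ratio
  rw [hv, hd, le_div_iff₀ (by positivity)]
  calc 3 * Real.pi ^ 2 / 4 * vol (T '' K) ^ (3 - 1)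
      = (3 * Real.pi ^ 2 / 4 * vol (T '' K)) * vol (T '' K) := by norm_num; ring
    _ ≤ r * vol (T '' K) := mul_le_mul_of_nonneg_right hb p1.le

/-- Petty's inequality in dimension three, ratio form. -/
theorem petty_ratio (hd : finrank ℝ V = 3) {K : Set V} (hK : IsBody K) :
    3 * Real.pi ^ 2 / 4 ≤ ratio K := by
  have hd0 : 0 < finrank ℝ V := by omega
  obtain ⟨K₀, hK₀, hmin⟩ := exists_global_min (V := V) hd0
  calc 3 * Real.pi ^ 2 / 4 ≤ ratio K₀ := ratio_ge_of_fixed hd hK₀ hmin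
    _ ≤ ratio (projBody K) := hmin _ (projBody_isSymBody hK)
    _ ≤ ratio K := ratio_projBody_le hK hd0

/-- An extremal symmetric body is an ellipsoid. -/
theorem sym_eq (hd : finrank ℝ V = 3) {K : Set V} (hK : IsSymBody K)
    (h : ratio K ≤ 3 * Real.pi ^ 2 / 4) :
    ∃ T : V ≃ₗ[ℝ] V, K = T '' closedBall (0 : V) 1 := by
  have hd0 : 0 < finrank ℝ V := by omega
  obtain ⟨T, hT⟩ := exists_johnPos hK
  have hK1 : IsSymBody (T '' K) := IsSymBody.image T hK
  have hR : ratio (T '' K) = ratio K := ratio_image T hK.toIsBody hd0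
  have hle : ratio (T '' K) ≤ ratio (projBody (T '' K)) := by
    rw [hR]; exact h.trans (petty_ratio hd (projBody_isBody hK1.toIsBody))
  obtain ⟨r, hr, hM, hv⟩ := fixed_of_ratio_le hK1 hd0 hle
  have p1 := vol_pos hK1.toIsBody
  have hr2 : r ≤ 3 * Real.pi ^ 2 / 4 * vol (T '' K) := by
    have h1 : ratio (T '' K) ≤ 3 * Real.pi ^ 2 / 4 := by rw [hR]; exact h
    unfold ratio at h1
    rw [hv, hd, div_le_iff₀ (by positivity)] at h1
    have h2 : r * vol (T '' K) ≤ (3 * Real.pi ^ 2 / 4 * vol (T '' K)) * vol (T '' K) := by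
      calc r * vol (T '' K) ≤ 3 * Real.pi ^ 2 / 4 * vol (T '' K) ^ (3 - 1) := h1
        _ = (3 * Real.pi ^ 2 / 4 * vol (T '' K)) * vol (T '' K) := by norm_num; ring
    exact le_of_mul_le_mul_right h2 p1
  have hvol := fixed_point_eq hd hK1 hT hr hM hr2
  have hball : T '' K = closedBall (0 : V) 1 := by
    refine eq_ball_of_vol hK1.toIsBody hT.1 ?_
    rw [vol_ball3 hd]; exact hvol
  refine ⟨T.symm, ?_⟩
  rw [← hball, ← image_comp]
  simp

/-- Petty's inequality in dimension three. -/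
theorem petty3 (hd : finrank ℝ V = 3) {K : Set V} (hK : IsBody K) :
    3 * Real.pi ^ 2 / 4 * vol K ^ 2 ≤ vol (projBody K) := by
  have h := petty_ratio hd hK
  have p1 := vol_pos hK
  unfold ratio at h
  rw [hd, le_div_iff₀ (by positivity)] at h
  simpa using h

/-- An extremal body is an ellipsoid. -/
theorem petty3_eq (hd : finrank ℝ V = 3) {K : Set V} (hK : IsBody K)
    (h : vol (projBody K) = 3 * Real.pi ^ 2 / 4 * vol K ^ 2) :
    ∃ (a : V) (T : V ≃ₗ[ℝ] V), K = (fun x => a + T x) '' closedBall (0 : V) 1 := by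
  have hd0 : 0 < finrank ℝ V := by omega
  have p1 := vol_pos hK
  have hR : ratio K = 3 * Real.pi ^ 2 / 4 := by
    unfold ratio
    rw [hd, h, div_eq_iff (by positivity)]
  obtain ⟨c, r, hr, hcr⟩ := petty_contract_eq_of_ratio hK hd0
    (by rw [hR]; exact petty_ratio hd (projBody_isBody hK))
  -- the translate `K' = r⁻¹ • Π² K` of `K`
  have hM : IsSymBody (projBody (projBody K)) := projBody_isSymBody (projBody_isBody hK)
  have hK' : (fun x => (r⁻¹ • c) + x) '' K = r⁻¹ • projBody (projBody K) := by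
    rw [hcr]
    ext y
    simp only [mem_image, mem_smul_set]
    constructor
    · rintro ⟨x, hx, rfl⟩
      exact ⟨c + r • x, ⟨r • x, ⟨x, hx, rfl⟩, rfl⟩, by
        rw [smul_add, smul_smul, inv_mul_cancel₀ hr.ne', one_smul]⟩
    · rintro ⟨z, ⟨w, ⟨x, hx, rfl⟩, rfl⟩, rfl⟩
      exact ⟨x, hx, by rw [smul_add, smul_smul, inv_mul_cancel₀ hr.ne', one_smul]⟩
  have hsym : IsSymBody ((fun x => (r⁻¹ • c) + x) '' K) := by
    have hb : IsBody ((fun x => (r⁻¹ • c) + x) '' K) := IsBody.translate hK _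
    refine ⟨hb, ?_⟩
    intro x hx
    rw [hK'] at hx ⊢
    obtain ⟨z, hz, rfl⟩ := hx
    exact ⟨-z, hM.symm z hz, by simp⟩
  obtain ⟨T, hT⟩ := sym_eq hd hsym (by rw [ratio_translate, hR])
  refine ⟨-(r⁻¹ • c), T, ?_⟩
  have h2 : (fun x => -(r⁻¹ • c) + x) '' ((fun x => (r⁻¹ • c) + x) '' K) = K := by
    rw [← image_comp]
    simp
  rw [← h2, hT, ← image_comp]
  rfl

/-- Ellipsoids attain equality. -/
theorem petty3_ellipsoid (hd : finrank ℝ V = 3) (a : V) (T : V ≃ₗ[ℝ] V) :
    vol (projBody ((fun x => a + T x) '' closedBall (0 : V) 1)) =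
      3 * Real.pi ^ 2 / 4 * vol ((fun x => a + T x) '' closedBall (0 : V) 1) ^ 2 := by
  have hd0 : 0 < finrank ℝ V := by omega
  have hB : IsSymBody (closedBall (0 : V) 1) := isSymBody_ball
  have he : (fun x => a + T x) '' closedBall (0 : V) 1 =
      (fun x => a + x) '' (T '' closedBall (0 : V) 1) := by
    rw [← image_comp]; rfl
  have hbody : IsBody ((fun x => a + T x) '' closedBall (0 : V) 1) := by
    rw [he]; exact IsBody.translate (IsSymBody.image T hB).toIsBody a
  have hR : ratio ((fun x => a + T x) '' closedBall (0 : V) 1) = 3 * Real.pi ^ 2 / 4 := by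
    rw [he, ratio_translate, ratio_image T hB.toIsBody hd0, ratio_ball3 hd]
  have p1 := vol_pos hbody
  unfold ratio at hR
  rw [hd, div_eq_iff (by positivity)] at hR
  exact hR

end Main

end Vale.Agent.P237
end

section

/-!
# P237: proof of the dimension three statement
-/

open MeasureTheory Metric Set Module

namespace Vale.Agent.P237.Statement

variable {V : Type} [NormedAddCommGroup V] [InnerProductSpace ℝ V] [FiniteDimensional ℝ V]
  [MeasurableSpace V] [BorelSpace V]

theorem projVol_eq (K : Set V) (u : V) : projVol K u = shadow K u := by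
  have h : projVol K u = (volume (projSet K u)).toReal := rfl
  rw [h]
  rfl

theorem isProjectionBody_iff {K L : Set V} (hK : IsConvexBody K) :
    IsProjectionBody K L ↔ L = projBody K := by
  have hK' : IsBody K := ⟨hK.1, hK.2.1, hK.2.2⟩
  have hs : ∀ (L : Set V) x, supportFun L x = supp L x := by
    intro L x
    unfold supportFun supp
    simp_rw [real_inner_comm]
  constructor
  · rintro ⟨hL, hu⟩
    apply Subset.antisymm
    · intro y hy u hu1
      have h1 : inner ℝ y u ≤ supp L u := ZA.le_supp hL.2.1 hy u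
      rw [← hs, hu u hu1, projVol_eq K] at h1
      exact h1
    · intro y hy
      refine ZA.mem_of_supp hL.2.1 hL.1 (hL.2.2.mono interior_subset) ?_
      intro v
      by_cases hv : v = 0
      · subst hv
        have hne : L.Nonempty := hL.2.2.mono interior_subset
        obtain ⟨z, hz⟩ := hne
        have := ZA.le_supp hL.2.1 hz (0 : V)
        simpa using this
      · have hn : 0 < ‖v‖ := norm_pos_iff.2 hv
        have h1 : inner ℝ y (‖v‖⁻¹ • v) ≤ shadow K (‖v‖⁻¹ • v) := hy _ (norm_unit hv)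
        have h2 : supp L (‖v‖⁻¹ • v) = shadow K (‖v‖⁻¹ • v) := by
          rw [← hs, hu _ (norm_unit hv), projVol_eq K]
        rw [← h2] at h1
        have h3 : supp L v = ‖v‖ * supp L (‖v‖⁻¹ • v) := by
          have h4 := ZA.supp_smul hL.2.1 (hL.2.2.mono interior_subset) hn.le (‖v‖⁻¹ • v)
          rw [smul_smul, mul_inv_cancel₀ hn.ne', one_smul] at h4
          exact h4
        rw [h3]
        rw [inner_smul_right] at h1
        calc inner ℝ y v = ‖v‖ * (‖v‖⁻¹ * inner ℝ y v) := by field_simp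
          _ ≤ _ := mul_le_mul_of_nonneg_left h1 hn.le
  · rintro rfl
    have hb := projBody_isSymBody hK'
    refine ⟨⟨hb.convex, hb.compact, hb.int⟩, ?_⟩
    intro u hu
    rw [hs, supp_projBody hK', beta_unit hK'.compact hK'.convex hu, projVol_eq K]

theorem existsUnique_projectionBody {K : Set V} (hK : IsConvexBody K) :
    ∃! L, IsProjectionBody K L :=
  ⟨projBody K, (isProjectionBody_iff hK).2 rfl, fun _ hL => (isProjectionBody_iff hK).1 hL⟩

theorem kappa_two : kappa 2 = Real.pi := vol_ball2 (by simp)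

theorem kappa_three : kappa 3 = 4 * Real.pi / 3 := vol_ball3 (by simp)

omit [FiniteDimensional ℝ V] [MeasurableSpace V] [BorelSpace V] in
theorem isEllipsoid_iff (E : Set V) : IsEllipsoid E ↔
    ∃ (a : V) (T : V ≃ₗ[ℝ] V), E = (fun x => a + T x) '' closedBall 0 1 := by
  constructor
  · rintro ⟨a, T, hl, hb, rfl⟩
    exact ⟨a, LinearEquiv.ofBijective (IsLinearMap.mk' T hl) hb, rfl⟩
  · rintro ⟨a, T, rfl⟩
    exact ⟨a, T, ⟨T.map_add, T.map_smul⟩, T.bijective, rfl⟩

theorem petty_dim_three (hd : finrank ℝ V = 3) : PettyIn V 3 := by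
  intro K L hK hL
  have hK' : IsBody K := ⟨hK.1, hK.2.1, hK.2.2⟩
  obtain rfl := (isProjectionBody_iff hK).1 hL
  have hc : kappa (3 - 1) ^ 3 * kappa 3 ^ (2 - ((3 : ℕ) : ℤ)) * vol K ^ (3 - 1) =
      3 * Real.pi ^ 2 / 4 * P237.vol K ^ 2 := by
    have h1 : vol K = P237.vol K := rfl
    have h2 : (2 - ((3 : ℕ) : ℤ)) = -1 := by norm_num
    rw [h1, h2, kappa_three, zpow_neg_one]
    norm_num
    rw [kappa_two]
    have := Real.pi_pos
    field_simp
    norm_num
  rw [hc, isEllipsoid_iff]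
  refine ⟨Main.petty3 hd hK', ?_, ?_⟩
  · intro h
    exact Main.petty3_eq hd hK' h
  · rintro ⟨a, T, rfl⟩
    exact Main.petty3_ellipsoid hd a T

end Vale.Agent.P237.Statement
end

section

/-!
# P237, all dimensions: imports
-/
end

section

/-!
# P237: polar coordinates and the divergence identities on the unit sphere of a normed space
-/

open MeasureTheory Metric Set Module
open scoped NNReal

namespace Vale.Agent.P237.Exch

variable {E : Type*} [NormedAddCommGroup E] [NormedSpace ℝ E] [FiniteDimensional ℝ E]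
  [MeasurableSpace E] [BorelSpace E] [Nontrivial E] (μ : Measure E) [μ.IsAddHaarMeasure]

theorem integral_polar (F : E → ℝ) (hF : Integrable F μ) :
    ∫ x, F x ∂μ = ∫ z : sphere (0 : E) 1, (∫ r in Ioi (0 : ℝ),
      r ^ (finrank ℝ E - 1) * F (r • (z : E))) ∂μ.toSphere := by
  have hmp := μ.measurePreserving_homeomorphUnitSphereProd
  have hemb : MeasurableEmbedding (homeomorphUnitSphereProd E) := Homeomorph.measurableEmbedding _
  set g : sphere (0 : E) 1 × Ioi (0 : ℝ) → ℝ := fun p => F (p.2.1 • p.1.1) with hg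
  have hgc : ∀ x : ({(0)}ᶜ : Set E), g (homeomorphUnitSphereProd E x) = F x.1 := by
    intro x
    have hx : (x.1 : E) ≠ 0 := x.2
    have hn : ‖(x.1 : E)‖ ≠ 0 := norm_ne_zero_iff.2 hx
    simp only [hg, homeomorphUnitSphereProd_apply_fst_coe, homeomorphUnitSphereProd_apply_snd_coe]
    rw [smul_smul, mul_inv_cancel₀ hn, one_smul]
  have hint : Integrable g (μ.toSphere.prod (Measure.volumeIoiPow (finrank ℝ E - 1))) := by
    rw [← hmp.integrable_comp_emb hemb]
    have h1 : g ∘ (homeomorphUnitSphereProd E) = fun x : ({(0)}ᶜ : Set E) => F x.1 := funext hgc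
    rw [h1]
    have h2 : IntegrableOn F ({(0)}ᶜ : Set E) μ := hF.integrableOn
    exact (integrableOn_iff_comap_subtypeVal (measurableSet_singleton _).compl).1 h2
  calc ∫ x, F x ∂μ = ∫ x : ({(0)}ᶜ : Set E), F x.1 ∂(μ.comap (↑)) := by
        rw [integral_subtype_comap (measurableSet_singleton _).compl F, restrict_compl_singleton]
    _ = ∫ p, g p ∂μ.toSphere.prod (Measure.volumeIoiPow (finrank ℝ E - 1)) := by
        rw [← hmp.integral_comp hemb g]
        exact integral_congr_ae (Filter.Eventually.of_forall fun x => (hgc x).symm)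
    _ = ∫ z, ∫ r, g (z, r) ∂(Measure.volumeIoiPow (finrank ℝ E - 1)) ∂μ.toSphere :=
        integral_prod g hint
    _ = _ := by
        refine integral_congr_ae (Filter.Eventually.of_forall fun z => ?_)
        simp only [Measure.volumeIoiPow, ENNReal.ofReal]
        rw [integral_withDensity_eq_integral_smul,
          integral_subtype_comap measurableSet_Ioi
            fun a => Real.toNNReal (a ^ (finrank ℝ E - 1)) • F (a • (z : E)),
          setIntegral_congr_fun measurableSet_Ioi fun x hx => ?_]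
        · rw [NNReal.smul_def, Real.coe_toNNReal _ (pow_nonneg hx.out.le _), smul_eq_mul]
        · exact (measurable_subtype_coe.pow_const _).real_toNNReal

end Vale.Agent.P237.Exch
end

section

/-!
# P237: the divergence identities on the unit sphere of a normed space
-/

open MeasureTheory Metric Set Module
open scoped NNReal

namespace Vale.Agent.P237.Exch

variable {E : Type*} [NormedAddCommGroup E] [NormedSpace ℝ E] [FiniteDimensional ℝ E]
  [MeasurableSpace E] [BorelSpace E] [Nontrivial E] (μ : Measure E) [μ.IsAddHaarMeasure]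

/-- polar coordinates on the unit ball -/
theorem integral_ball_polar (F : E → ℝ) (hF : IntegrableOn F (ball 0 1) μ) :
    ∫ x in ball (0 : E) 1, F x ∂μ = ∫ z : sphere (0 : E) 1, (∫ r in Ioo (0 : ℝ) 1,
      r ^ (finrank ℝ E - 1) * F (r • (z : E))) ∂μ.toSphere := by
  rw [← integral_indicator measurableSet_ball,
    integral_polar μ _ ((integrable_indicator_iff measurableSet_ball).2 hF)]
  refine integral_congr_ae (Filter.Eventually.of_forall fun z => ?_)
  simp only
  have h1 : (fun r : ℝ => r ^ (finrank ℝ E - 1) * (ball (0 : E) 1).indicator F (r • (z : E))) =ᵐ[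
      volume.restrict (Ioi 0)] (Ioo (0:ℝ) 1).indicator
        (fun r : ℝ => r ^ (finrank ℝ E - 1) * F (r • (z : E))) := by
    filter_upwards [ae_restrict_mem measurableSet_Ioi] with r hr
    have hr0 : (0 : ℝ) < r := hr
    have hz : ‖(z : E)‖ = 1 := norm_eq_of_mem_sphere z
    have hn : ‖r • (z : E)‖ = r := by rw [norm_smul, hz, mul_one, Real.norm_eq_abs, abs_of_pos hr0]
    by_cases h : r < 1
    · rw [indicator_of_mem (show r • (z : E) ∈ ball (0 : E) 1 by
        rw [mem_ball, dist_zero_right, hn]; exact h), indicator_of_mem (show r ∈ Ioo (0:ℝ) 1 from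
        ⟨hr0, h⟩)]
    · rw [indicator_of_notMem (show r • (z : E) ∉ ball (0 : E) 1 by
        rw [mem_ball, dist_zero_right, hn]; exact h), indicator_of_notMem (show r ∉ Ioo (0:ℝ) 1 from
        fun h' => h h'.2), mul_zero]
  rw [integral_congr_ae h1, integral_indicator measurableSet_Ioo, Measure.restrict_restrict
    measurableSet_Ioo]
  congr 2
  ext r
  simp only [mem_inter_iff, mem_Ioo, mem_Ioi]
  tauto

/-- The gradient of the norm, evaluated at `v`. -/
noncomputable def gr (v x : E) : ℝ := fderiv ℝ (fun y : E => ‖y‖) x v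

omit [FiniteDimensional ℝ E] [MeasurableSpace E] [BorelSpace E] [Nontrivial E] in
theorem abs_gr_le (v x : E) : |gr v x| ≤ ‖v‖ := by
  have h1 : ‖fderiv ℝ (fun y : E => ‖y‖) x‖ ≤ ((1 : ℝ≥0) : ℝ) :=
    norm_fderiv_le_of_lipschitz ℝ lipschitzWith_one_norm
  have h2 := (fderiv ℝ (fun y : E => ‖y‖) x).le_opNorm v
  rw [Real.norm_eq_abs] at h2
  unfold gr
  calc |(fderiv ℝ (fun y : E => ‖y‖) x) v| ≤ ‖fderiv ℝ (fun y : E => ‖y‖) x‖ * ‖v‖ := h2
    _ ≤ 1 * ‖v‖ := by
        refine mul_le_mul_of_nonneg_right ?_ (norm_nonneg v)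
        simpa using h1
    _ = ‖v‖ := one_mul _

omit [FiniteDimensional ℝ E] [MeasurableSpace E] [BorelSpace E] [Nontrivial E] in
theorem gr_smul {r : ℝ} (hr : 0 < r) (v x : E) : gr v (r • x) = gr v x := by
  unfold gr
  rw [show fderiv ℝ (fun y : E => ‖y‖) (r • x) = fderiv ℝ (fun y : E => ‖y‖) x from
    fderiv_norm_smul_pos hr]

omit [FiniteDimensional ℝ E] [Nontrivial E] in
theorem measurable_gr [FiniteDimensional ℝ E] (v : E) : Measurable (gr v) :=
  measurable_fderiv_apply_const ℝ (fun y : E => ‖y‖) v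

/-- radial integration of `0`-homogeneous functions -/
theorem integral_radial (H : E → ℝ) (κ : ℝ → ℝ) (hH : Measurable H) {C : ℝ} (hC : ∀ x, |H x| ≤ C)
    (hh : ∀ (r : ℝ) (x : E), 0 < r → H (r • x) = H x) (hκ : Continuous κ) :
    ∫ x in ball (0 : E) 1, H x * κ ‖x‖ ∂μ =
      (∫ r in Ioo (0 : ℝ) 1, r ^ (finrank ℝ E - 1) * κ r) *
        ∫ z : sphere (0 : E) 1, H z ∂μ.toSphere := by
  have hint : IntegrableOn (fun x => H x * κ ‖x‖) (ball (0 : E) 1) μ := by
    obtain ⟨D, hD⟩ := (isCompact_Icc (a := (0:ℝ)) (b := 1)).exists_bound_of_continuousOn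
      hκ.continuousOn
    refine Measure.integrableOn_of_bounded (M := |C| * |D|) measure_ball_lt_top.ne ?_ ?_
    · exact (hH.mul (hκ.measurable.comp measurable_norm)).aestronglyMeasurable
    · filter_upwards [ae_restrict_mem measurableSet_ball] with x hx
      rw [norm_mul, Real.norm_eq_abs]
      have h1 : ‖x‖ < 1 := mem_ball_zero_iff.1 hx
      refine mul_le_mul ((hC x).trans (le_abs_self C)) ((hD ‖x‖ ⟨norm_nonneg x, h1.le⟩).trans
        (le_abs_self D)) (norm_nonneg _) (abs_nonneg _)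
  rw [integral_ball_polar μ _ hint, ← integral_const_mul]
  refine integral_congr_ae (Filter.Eventually.of_forall fun z => ?_)
  beta_reduce
  rw [← integral_mul_const]
  refine setIntegral_congr_fun measurableSet_Ioo fun r hr => ?_
  have hz : ‖(z : E)‖ = 1 := norm_eq_of_mem_sphere z
  rw [hh r z hr.1, norm_smul, hz, mul_one, Real.norm_eq_abs, abs_of_pos hr.1]
  ring

end Vale.Agent.P237.Exch
end

section

/-!
# P237: integration by parts on the unit sphere of a normed space
-/

open MeasureTheory Metric Set Module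
open scoped NNReal

namespace Vale.Agent.P237.Exch

section lip

variable {E : Type*} [NormedAddCommGroup E] [NormedSpace ℝ E]

/-- the `1`-homogeneous test function -/
noncomputable def tf (l : E →L[ℝ] ℝ) (q : ℝ → ℝ) (x : E) : ℝ := ‖x‖ * q (l x / ‖x‖)

/-- the cut-off function -/
noncomputable def cut (x : E) : ℝ := max 0 (1 - ‖x‖)

theorem abs_ratio_le {l : E →L[ℝ] ℝ} (hl : ‖l‖ ≤ 1) (x : E) : |l x / ‖x‖| ≤ 1 := by
  have h1 : |l x| ≤ ‖x‖ := by
    have h2 := l.le_opNorm x
    rw [Real.norm_eq_abs] at h2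
    exact h2.trans (mul_le_of_le_one_left (norm_nonneg x) hl)
  rw [abs_div, abs_of_nonneg (norm_nonneg x)]
  exact div_le_one_of_le₀ h1 (norm_nonneg x)

theorem mem_Icc_ratio {l : E →L[ℝ] ℝ} (hl : ‖l‖ ≤ 1) (x : E) : l x / ‖x‖ ∈ Icc (-1 : ℝ) 1 :=
  abs_le.1 (abs_ratio_le hl x)

theorem lipschitz_of_bound {f : E → ℝ} {C : ℝ} (hC : 0 ≤ C)
    (h : ∀ x y, |f x - f y| ≤ C * ‖x - y‖) : LipschitzWith ⟨C, hC⟩ f := by
  apply LipschitzWith.of_dist_le_mul
  intro x y
  rw [Real.dist_eq, dist_eq_norm]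
  exact h x y

theorem tf_bound {l : E →L[ℝ] ℝ} (hl : ‖l‖ ≤ 1) {q : ℝ → ℝ} {M D : ℝ}
    (hM : ∀ a ∈ Icc (-1 : ℝ) 1, |q a| ≤ M)
    (hD : ∀ a ∈ Icc (-1 : ℝ) 1, ∀ b ∈ Icc (-1 : ℝ) 1, |q a - q b| ≤ D * |a - b|) (hD0 : 0 ≤ D)
    (x y : E) : |tf l q x - tf l q y| ≤ (M + 2 * D) * ‖x - y‖ := by
  have hM0 : 0 ≤ M := (abs_nonneg _).trans (hM 0 (by norm_num))
  unfold tf
  by_cases hx : x = 0
  · subst hx
    simp only [norm_zero, zero_mul, zero_sub, abs_neg, norm_neg]
    rw [abs_mul, abs_of_nonneg (norm_nonneg y)]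
    have h1 := hM _ (mem_Icc_ratio hl y)
    nlinarith [norm_nonneg y, mul_nonneg hD0 (norm_nonneg y),
      mul_le_mul_of_nonneg_left h1 (norm_nonneg y)]
  by_cases hy : y = 0
  · subst hy
    simp only [norm_zero, zero_mul, sub_zero]
    rw [abs_mul, abs_of_nonneg (norm_nonneg x)]
    have h1 := hM _ (mem_Icc_ratio hl x)
    nlinarith [norm_nonneg x, mul_nonneg hD0 (norm_nonneg x),
      mul_le_mul_of_nonneg_left h1 (norm_nonneg x)]
  have px : 0 < ‖x‖ := norm_pos_iff.2 hx
  have py : 0 < ‖y‖ := norm_pos_iff.2 hy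
  set a := l x / ‖x‖ with ha
  set b := l y / ‖y‖ with hb
  have haI := mem_Icc_ratio hl x
  have hbI := mem_Icc_ratio hl y
  have e : ‖x‖ * q a - ‖y‖ * q b = (‖x‖ - ‖y‖) * q a + ‖y‖ * (q a - q b) := by ring
  have h1 : |‖x‖ - ‖y‖| ≤ ‖x - y‖ := abs_norm_sub_norm_le x y
  have h2 : ‖y‖ * |a - b| ≤ 2 * ‖x - y‖ := by
    have e2 : ‖y‖ * (a - b) = a * (‖y‖ - ‖x‖) + (l x - l y) := by
      have e3 : a * ‖x‖ = l x := by rw [ha]; field_simp
      have e4 : b * ‖y‖ = l y := by rw [hb]; field_simp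
      linear_combination -e4 + e3
    have h3 : ‖y‖ * |a - b| = |‖y‖ * (a - b)| := by rw [abs_mul, abs_of_pos py]
    rw [h3, e2]
    have h4 : |l x - l y| ≤ ‖x - y‖ := by
      rw [← map_sub]
      have h5 := l.le_opNorm (x - y)
      rw [Real.norm_eq_abs] at h5
      exact h5.trans (mul_le_of_le_one_left (norm_nonneg _) hl)
    have h6 : |a * (‖y‖ - ‖x‖)| ≤ ‖x - y‖ := by
      rw [abs_mul, abs_sub_comm]
      calc |a| * |‖x‖ - ‖y‖| ≤ 1 * ‖x - y‖ :=
            mul_le_mul (abs_ratio_le hl x) h1 (abs_nonneg _) zero_le_one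
        _ = _ := one_mul _
    calc |a * (‖y‖ - ‖x‖) + (l x - l y)| ≤ _ := abs_add_le _ _
      _ ≤ 2 * ‖x - y‖ := by linarith
  rw [e]
  calc |(‖x‖ - ‖y‖) * q a + ‖y‖ * (q a - q b)| ≤ |(‖x‖ - ‖y‖) * q a| + |‖y‖ * (q a - q b)| :=
        abs_add_le _ _
    _ ≤ ‖x - y‖ * M + ‖y‖ * (D * |a - b|) := by
        rw [abs_mul, abs_mul, abs_of_pos py]
        have h7 := mul_le_mul h1 (hM a haI) (abs_nonneg _) (norm_nonneg _)
        have h8 := mul_le_mul_of_nonneg_left (hD a haI b hbI) py.le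
        linarith
    _ = ‖x - y‖ * M + D * (‖y‖ * |a - b|) := by ring
    _ ≤ ‖x - y‖ * M + D * (2 * ‖x - y‖) := by
        have := mul_le_mul_of_nonneg_left h2 hD0
        linarith
    _ = (M + 2 * D) * ‖x - y‖ := by ring

theorem cut_lip : LipschitzWith 1 (cut (E := E)) := by
  have h1 : LipschitzWith 1 (fun x : E => 1 - ‖x‖) := by
    apply LipschitzWith.of_dist_le_mul
    intro x y
    rw [Real.dist_eq, dist_eq_norm]
    have e : (1 - ‖x‖) - (1 - ‖y‖) = -(‖x‖ - ‖y‖) := by ring
    rw [e, abs_neg]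
    simpa using abs_norm_sub_norm_le x y
  exact h1.const_max 0

theorem cut_compact [FiniteDimensional ℝ E] : HasCompactSupport (cut (E := E)) := by
  have : ProperSpace E := FiniteDimensional.proper ℝ E
  apply HasCompactSupport.intro (isCompact_closedBall (0 : E) 1)
  intro x hx
  rw [mem_closedBall, dist_zero_right, not_le] at hx
  unfold cut
  exact max_eq_left (by linarith)

theorem hasDerivAt_norm_line {x : E} (hd : DifferentiableAt ℝ (fun y : E => ‖y‖) x) (v : E) :
    HasDerivAt (fun t : ℝ => ‖x + t • v‖) (gr v x) 0 := by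
  have h1 : HasFDerivAt (fun y : E => ‖y‖) (fderiv ℝ (fun y : E => ‖y‖) x) (x + (0 : ℝ) • v) := by
    rw [zero_smul, add_zero]; exact hd.hasFDerivAt
  have h2 : HasDerivAt (fun t : ℝ => x + t • v) v 0 := by
    simpa using ((hasDerivAt_id (0 : ℝ)).smul_const v).const_add x
  exact h1.comp_hasDerivAt (0 : ℝ) h2

theorem lineDeriv_tf (l : E →L[ℝ] ℝ) {q q' : ℝ → ℝ} (hq : ∀ y, HasDerivAt q (q' y) y)
    {x : E} (hx : x ≠ 0) (hd : DifferentiableAt ℝ (fun y : E => ‖y‖) x) (v : E) :
    lineDeriv ℝ (tf l q) x v =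
      gr v x * q (l x / ‖x‖) + q' (l x / ‖x‖) * (l v - l x / ‖x‖ * gr v x) := by
  have hn := hasDerivAt_norm_line hd v
  have h0 : (fun t : ℝ => ‖x + t • v‖) 0 = ‖x‖ := by simp
  have hx' : ‖x‖ ≠ 0 := norm_ne_zero_iff.2 hx
  have hl : HasDerivAt (fun t : ℝ => l (x + t • v)) (l v) 0 := by
    have h2 : HasDerivAt (fun t : ℝ => x + t • v) v 0 := by
      simpa using ((hasDerivAt_id (0 : ℝ)).smul_const v).const_add x
    exact l.hasFDerivAt.comp_hasDerivAt (0 : ℝ) h2
  have hdiv := hl.div hn (by simpa using hx')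
  have e0 : l (x + (0 : ℝ) • v) / ‖x + (0 : ℝ) • v‖ = l x / ‖x‖ := by simp
  have hq0 : HasDerivAt q (q' (l x / ‖x‖))
      (((fun t : ℝ => l (x + t • v)) / fun t : ℝ => ‖x + t • v‖) 0) := by
    have : ((fun t : ℝ => l (x + t • v)) / fun t : ℝ => ‖x + t • v‖) 0 = l x / ‖x‖ := by simp
    rw [this]; exact hq _
  have hcomp := hq0.comp (0 : ℝ) hdiv
  have hmul := hn.mul hcomp
  unfold lineDeriv
  have e1 : (fun t : ℝ => tf l q (x + t • v)) =
      (fun t : ℝ => ‖x + t • v‖) * (q ∘ ((fun t : ℝ => l (x + t • v)) / fun t : ℝ => ‖x + t • v‖))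
      := by
    funext t
    simp [tf]
  rw [e1, hmul.deriv]
  simp only [zero_smul, add_zero, Function.comp, Pi.div_apply]
  field_simp

theorem lineDeriv_cut_lt {x : E} (h1 : ‖x‖ < 1)
    (hd : DifferentiableAt ℝ (fun y : E => ‖y‖) x) (v : E) :
    lineDeriv ℝ (cut (E := E)) x (-v) = gr v x := by
  have hn := hasDerivAt_norm_line hd (-v)
  have h2 : HasDerivAt (fun t : ℝ => 1 - ‖x + t • (-v)‖) (-(gr (-v) x)) 0 := by
    simpa using hn.const_sub 1
  have h3 : (fun t : ℝ => cut (x + t • (-v))) =ᶠ[nhds 0] fun t : ℝ => 1 - ‖x + t • (-v)‖ := by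
    have hc : ContinuousAt (fun t : ℝ => ‖x + t • (-v)‖) 0 := by fun_prop
    have h4 : ∀ᶠ t : ℝ in nhds 0, ‖x + t • (-v)‖ < 1 :=
      hc.eventually_lt continuousAt_const (by simpa using h1)
    filter_upwards [h4] with t ht
    unfold cut
    exact max_eq_right (by linarith)
  unfold lineDeriv
  rw [h3.deriv_eq, h2.deriv]
  unfold gr
  rw [map_neg, neg_neg]

theorem lineDeriv_cut_gt {x : E} (h1 : 1 < ‖x‖) (v : E) :
    lineDeriv ℝ (cut (E := E)) x (-v) = 0 := by
  have h3 : (fun t : ℝ => cut (x + t • (-v))) =ᶠ[nhds 0] fun _ : ℝ => (0 : ℝ) := by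
    have hc : ContinuousAt (fun t : ℝ => ‖x + t • (-v)‖) 0 := by fun_prop
    have h4 : ∀ᶠ t : ℝ in nhds 0, 1 < ‖x + t • (-v)‖ :=
      continuousAt_const.eventually_lt hc (by simpa using h1)
    filter_upwards [h4] with t ht
    unfold cut
    exact max_eq_left (by linarith)
  unfold lineDeriv
  rw [h3.deriv_eq]
  simp

end lip

end Vale.Agent.P237.Exch
end

section

/-!
# P237: integration by parts on the unit sphere of a normed space
-/

open MeasureTheory Metric Set Module
open scoped NNReal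

namespace Vale.Agent.P237.Exch

variable {E : Type*} [NormedAddCommGroup E] [NormedSpace ℝ E] [FiniteDimensional ℝ E]
  [MeasurableSpace E] [BorelSpace E] [Nontrivial E] (μ : Measure E) [μ.IsAddHaarMeasure]

theorem integral_pow_one_sub (n : ℕ) (hn : 0 < n) :
    ∫ r in Ioo (0 : ℝ) 1, r ^ (n - 1) * (1 - r) = 1 / (n * (n + 1)) := by
  obtain ⟨k, rfl⟩ : ∃ k, n = k + 1 := ⟨n - 1, by omega⟩
  rw [← integral_Ioc_eq_integral_Ioo, ← intervalIntegral.integral_of_le zero_le_one]
  simp only [Nat.add_sub_cancel]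
  have e : (fun r : ℝ => r ^ k * (1 - r)) = fun r => r ^ k - r ^ (k + 1) := by
    funext r; ring
  rw [e, intervalIntegral.integral_sub (by simp) (by simp), integral_pow, integral_pow]
  push_cast
  simp only [one_pow, ne_eq, Nat.add_eq_zero_iff, one_ne_zero, and_false, not_false_eq_true, zero_pow, sub_zero]
  field_simp
  ring

theorem integral_pow_mul (n : ℕ) (hn : 0 < n) :
    ∫ r in Ioo (0 : ℝ) 1, r ^ (n - 1) * r = 1 / (n + 1) := by
  obtain ⟨k, rfl⟩ : ∃ k, n = k + 1 := ⟨n - 1, by omega⟩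
  rw [← integral_Ioc_eq_integral_Ioo, ← intervalIntegral.integral_of_le zero_le_one]
  simp only [Nat.add_sub_cancel]
  have e : (fun r : ℝ => r ^ k * r) = fun r => r ^ (k + 1) := by
    funext r; ring
  rw [e, integral_pow]
  push_cast
  simp only [one_pow, ne_eq, Nat.add_eq_zero_iff, one_ne_zero, and_false, and_self, not_false_eq_true, zero_pow, sub_zero, one_div]

theorem ae_good : ∀ᵐ x : E ∂μ, DifferentiableAt ℝ (fun y : E => ‖y‖) x ∧ x ≠ 0 ∧ ‖x‖ ≠ 1 := by
  have h1 : ∀ᵐ x : E ∂μ, DifferentiableAt ℝ (fun y : E => ‖y‖) x :=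
    lipschitzWith_one_norm.ae_differentiableAt
  have h2 : ∀ᵐ x : E ∂μ, x ≠ 0 := by
    have : μ {(0 : E)} = 0 := measure_singleton _
    exact (measure_eq_zero_iff_ae_notMem.1 this)
  have h3 : ∀ᵐ x : E ∂μ, ‖x‖ ≠ 1 := by
    have h4 : μ (sphere (0 : E) 1) = 0 := Measure.addHaar_sphere μ 0 1
    filter_upwards [measure_eq_zero_iff_ae_notMem.1 h4] with x hx h5
    exact hx (by simpa only [mem_sphere_iff_norm, sub_zero] using h5)
  filter_upwards [h1, h2, h3] with x a b c
  exact ⟨a, b, c⟩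

theorem sphere_parts0 (l : E →L[ℝ] ℝ) (hl : ‖l‖ ≤ 1) (v : E) {q q' : ℝ → ℝ}
    (hq : ∀ y, HasDerivAt q (q' y) y) (hq' : Continuous q') :
    ∫ z : sphere (0 : E) 1, (gr v z * q (l z) + q' (l z) * (l v - l z * gr v z)) ∂μ.toSphere =
      (finrank ℝ E : ℝ) * ∫ z : sphere (0 : E) 1, gr v z * q (l z) ∂μ.toSphere := by
  have hqc : Continuous q := continuous_iff_continuousAt.2 fun y => (hq y).continuousAt
  obtain ⟨M, hM⟩ := (isCompact_Icc (a := (-1:ℝ)) (b := 1)).exists_bound_of_continuousOn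
    hqc.continuousOn
  obtain ⟨D, hD⟩ := (isCompact_Icc (a := (-1:ℝ)) (b := 1)).exists_bound_of_continuousOn
    hq'.continuousOn
  have hD0 : 0 ≤ D := (norm_nonneg _).trans (hD 0 (by norm_num))
  have hM0 : 0 ≤ M := (norm_nonneg _).trans (hM 0 (by norm_num))
  have hDl : ∀ a ∈ Icc (-1 : ℝ) 1, ∀ b ∈ Icc (-1 : ℝ) 1, |q a - q b| ≤ D * |a - b| := by
    intro a ha b hb
    have := (convex_Icc (-1 : ℝ) 1).norm_image_sub_le_of_norm_hasDerivWithin_le
      (f := q) (f' := q') (C := D) (fun x _ => (hq x).hasDerivWithinAt) hD hb ha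
    simpa only [ge_iff_le, Real.norm_eq_abs] using this
  have hL : LipschitzWith ⟨M + 2 * D, by positivity⟩ (tf l q) :=
    lipschitz_of_bound _ (tf_bound hl (fun a ha => hM a ha) hDl hD0)
  have key := hL.integral_lineDeriv_mul_eq (μ := μ) cut_lip cut_compact v
  set H1 : E → ℝ := fun x => gr v x * q (l x / ‖x‖) +
    q' (l x / ‖x‖) * (l v - l x / ‖x‖ * gr v x) with hH1
  set H2 : E → ℝ := fun x => gr v x * q (l x / ‖x‖) with hH2
  have hgm := measurable_gr v
  have ham : Measurable fun x : E => l x / ‖x‖ :=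
    (l.continuous.measurable).div measurable_norm
  have m2 : Measurable H2 := hgm.mul (hqc.measurable.comp ham)
  have m1 : Measurable H1 := m2.add ((hq'.measurable.comp ham).mul
    (measurable_const.sub (ham.mul hgm)))
  have e1 : ∫ x, lineDeriv ℝ (tf l q) x v * cut x ∂μ =
      ∫ x in ball (0 : E) 1, H1 x * (fun r : ℝ => 1 - r) ‖x‖ ∂μ := by
    rw [← integral_indicator measurableSet_ball]
    refine integral_congr_ae ?_
    filter_upwards [ae_good μ] with x hx
    rw [lineDeriv_tf l hq hx.2.1 hx.1 v]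
    by_cases h : ‖x‖ < 1
    · rw [indicator_of_mem (by simpa only [mem_ball, dist_zero_right] using h)]
      unfold cut
      rw [max_eq_right (by linarith only [h])]
    · rw [indicator_of_notMem (by simpa only [mem_ball, dist_zero_right, not_lt] using h)]
      unfold cut
      rw [max_eq_left (by linarith only [h]), mul_zero]
  have e2 : ∫ x, lineDeriv ℝ (cut (E := E)) x (-v) * tf l q x ∂μ =
      ∫ x in ball (0 : E) 1, H2 x * (fun r : ℝ => r) ‖x‖ ∂μ := by
    rw [← integral_indicator measurableSet_ball]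
    refine integral_congr_ae ?_
    filter_upwards [ae_good μ] with x hx
    by_cases h : ‖x‖ < 1
    · rw [indicator_of_mem (by simpa only [mem_ball, dist_zero_right] using h), lineDeriv_cut_lt h hx.1]
      simp only [hH2, tf]
      ring
    · have h' : 1 < ‖x‖ := lt_of_le_of_ne (not_lt.1 h) (Ne.symm hx.2.2)
      rw [indicator_of_notMem (by simpa only [mem_ball, dist_zero_right, not_lt] using h), lineDeriv_cut_gt h', zero_mul]
  have b2 : ∀ x, |H2 x| ≤ ‖v‖ * M := by
    intro x
    simp only [hH2, abs_mul]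
    exact mul_le_mul (abs_gr_le v x) (hM _ (mem_Icc_ratio hl x)) (abs_nonneg _) (norm_nonneg _)
  have b1 : ∀ x, |H1 x| ≤ ‖v‖ * M + D * (‖v‖ + ‖v‖) := by
    intro x
    have h1 : |q' (l x / ‖x‖) * (l v - l x / ‖x‖ * gr v x)| ≤ D * (‖v‖ + ‖v‖) := by
      rw [abs_mul]
      refine mul_le_mul (hD _ (mem_Icc_ratio hl x)) ?_ (abs_nonneg _) hD0
      have h2 : |l v| ≤ ‖v‖ := by
        have h3 := l.le_opNorm v
        rw [Real.norm_eq_abs] at h3
        exact h3.trans (mul_le_of_le_one_left (norm_nonneg v) hl)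
      have h4 : |l x / ‖x‖ * gr v x| ≤ ‖v‖ := by
        rw [abs_mul]
        calc |l x / ‖x‖| * |gr v x| ≤ 1 * ‖v‖ :=
              mul_le_mul (abs_ratio_le hl x) (abs_gr_le v x) (abs_nonneg _) zero_le_one
          _ = ‖v‖ := one_mul _
      exact (abs_sub _ _).trans (add_le_add h2 h4)
    exact (abs_add_le _ _).trans (add_le_add (b2 x) h1)
  have ha : ∀ (r : ℝ) (x : E), 0 < r → l (r • x) / ‖r • x‖ = l x / ‖x‖ := by
    intro r x hr
    rw [map_smul, norm_smul, Real.norm_eq_abs, abs_of_pos hr, smul_eq_mul,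
      mul_div_mul_left _ _ hr.ne']
  have s2 : ∀ (r : ℝ) (x : E), 0 < r → H2 (r • x) = H2 x := by
    intro r x hr
    simp only [hH2]
    rw [ha r x hr, gr_smul hr]
  have s1 : ∀ (r : ℝ) (x : E), 0 < r → H1 (r • x) = H1 x := by
    intro r x hr
    simp only [hH1]
    rw [ha r x hr, gr_smul hr]
  have hn : 0 < finrank ℝ E := finrank_pos
  rw [e1, e2, integral_radial μ H1 (fun r => 1 - r) m1 b1 s1 (by fun_prop),
    integral_radial μ H2 (fun r => r) m2 b2 s2 (by fun_prop)] at key
  rw [integral_pow_one_sub _ hn, integral_pow_mul _ hn] at key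
  have r1 : ∫ z : sphere (0 : E) 1, H1 z ∂μ.toSphere = ∫ z : sphere (0 : E) 1,
      (gr v z * q (l z) + q' (l z) * (l v - l z * gr v z)) ∂μ.toSphere := by
    refine integral_congr_ae (Filter.Eventually.of_forall fun z => ?_)
    simp only [hH1, norm_eq_of_mem_sphere z, div_one]
  have r2 : ∫ z : sphere (0 : E) 1, H2 z ∂μ.toSphere = ∫ z : sphere (0 : E) 1,
      gr v z * q (l z) ∂μ.toSphere := by
    refine integral_congr_ae (Filter.Eventually.of_forall fun z => ?_)
    simp only [hH2, norm_eq_of_mem_sphere z, div_one]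
  rw [r1, r2] at key
  have hn' : (0 : ℝ) < finrank ℝ E := by exact_mod_cast hn
  generalize (∫ z : sphere (0 : E) 1,
      (gr v z * q (l z) + q' (l z) * (l v - l z * gr v z)) ∂μ.toSphere) = I1 at key ⊢
  generalize (∫ z : sphere (0 : E) 1, gr v z * q (l z) ∂μ.toSphere) = I2 at key ⊢
  field_simp at key
  linarith only [key]

/-- bounded measurable functions on the sphere are integrable -/
theorem integrable_sphere {F : sphere (0 : E) 1 → ℝ} (hF : Measurable F) {C : ℝ}
    (hC : ∀ z, |F z| ≤ C) : Integrable F μ.toSphere :=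
  Integrable.of_bound hF.aestronglyMeasurable C
    (Filter.Eventually.of_forall fun z => by rw [Real.norm_eq_abs]; exact hC z)

theorem lift_hasDerivAt (n : ℕ) (hn : 2 ≤ n) {p p' : ℝ → ℝ} (hp : ∀ y, HasDerivAt p (p' y) y)
    (hp' : Continuous p') (a : ℝ) :
    HasDerivAt (fun a : ℝ => ∫ r in (0 : ℝ)..1, r ^ (n - 2) * p (r * a))
      (∫ r in (0 : ℝ)..1, r ^ (n - 1) * p' (r * a)) a := by
  have hpc : Continuous p := continuous_iff_continuousAt.2 fun y => (hp y).continuousAt
  obtain ⟨D, hD⟩ := (isCompact_Icc (a := (-(|a| + 1))) (b := |a| + 1)).exists_bound_of_continuousOn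
    hp'.continuousOn
  have h := intervalIntegral.hasDerivAt_integral_of_dominated_loc_of_deriv_le
    (F := fun a r : ℝ => r ^ (n - 2) * p (r * a)) (F' := fun a r : ℝ => r ^ (n - 1) * p' (r * a))
    (x₀ := a) (s := ball a 1) (a := 0) (b := 1) (μ := volume) (bound := fun _ => D)
    (ball_mem_nhds a one_pos) ?_ ?_ ?_ ?_ ?_ ?_
  · exact h.2
  · refine Filter.Eventually.of_forall fun x => ?_
    exact (Continuous.aestronglyMeasurable (by (clear * - hpc; fun_prop)))
  · exact Continuous.intervalIntegrable (by (clear * - hpc; fun_prop)) _ _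
  · exact (Continuous.aestronglyMeasurable (by fun_prop))
  · refine Filter.Eventually.of_forall fun r hr x hx => ?_
    rw [uIoc_of_le zero_le_one] at hr
    have hx1 : |x| ≤ |a| + 1 := by
      rw [mem_ball, Real.dist_eq] at hx
      calc |x| = |(x - a) + a| := by ring_nf
        _ ≤ |x - a| + |a| := abs_add_le _ _
        _ ≤ |a| + 1 := by linarith only [hx]
    have hx2 : |r * x| ≤ |a| + 1 := by
      rw [abs_mul, abs_of_pos hr.1]
      calc r * |x| ≤ 1 * |x| := mul_le_mul_of_nonneg_right hr.2 (abs_nonneg x)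
        _ ≤ _ := by linarith only [hx1]
    have h1 := hD (r * x) (abs_le.1 hx2)
    rw [norm_mul, norm_pow, Real.norm_eq_abs, abs_of_pos hr.1]
    calc r ^ (n - 1) * ‖p' (r * x)‖ ≤ 1 * ‖p' (r * x)‖ :=
          mul_le_mul_of_nonneg_right (pow_le_one₀ hr.1.le hr.2) (norm_nonneg _)
      _ ≤ D := by rw [one_mul]; exact h1
  · exact Continuous.intervalIntegrable (by fun_prop) _ _
  · refine Filter.Eventually.of_forall fun r hr x hx => ?_
    have h1 : HasDerivAt (fun x : ℝ => r * x) r x := by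
      simpa only [id_eq, mul_one] using (hasDerivAt_id x).const_mul r
    have h2 := ((hp (r * x)).comp x h1).const_mul (r ^ (n - 2))
    obtain ⟨k, rfl⟩ : ∃ k, n = k + 2 := ⟨n - 2, by omega⟩
    refine h2.congr_deriv ?_
    rw [show k + 2 - 1 = k + 1 from rfl, show k + 2 - 2 = k from rfl]
    ring

theorem lift_eq (n : ℕ) (hn : 2 ≤ n) {p p' : ℝ → ℝ} (hp : ∀ y, HasDerivAt p (p' y) y)
    (hp' : Continuous p') (a : ℝ) :
    ((n : ℝ) - 1) * (∫ r in (0 : ℝ)..1, r ^ (n - 2) * p (r * a)) +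
      a * (∫ r in (0 : ℝ)..1, r ^ (n - 1) * p' (r * a)) = p a := by
  have hpc : Continuous p := continuous_iff_continuousAt.2 fun y => (hp y).continuousAt
  obtain ⟨k, rfl⟩ : ∃ k, n = k + 2 := ⟨n - 2, by omega⟩
  simp only [show k + 2 - 1 = k + 1 from rfl, show k + 2 - 2 = k from rfl]
  have h1 : ∀ r ∈ uIcc (0 : ℝ) 1, HasDerivAt (fun r : ℝ => r ^ (k + 1) * p (r * a))
      (((k : ℝ) + 1) * (r ^ k * p (r * a)) + a * (r ^ (k + 1) * p' (r * a))) r := by
    intro r _
    have h2 : HasDerivAt (fun x : ℝ => x * a) a r := by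
      simpa only [id_eq, one_mul] using (hasDerivAt_id r).mul_const a
    have h3 := (hasDerivAt_pow (k + 1) r).mul ((hp (r * a)).comp r h2)
    refine h3.congr_deriv ?_
    simp only [Nat.add_sub_cancel, Function.comp]
    push_cast
    ring
  have h4 := intervalIntegral.integral_eq_sub_of_hasDerivAt h1
    (Continuous.intervalIntegrable (by (clear * - hpc hp'; fun_prop)) _ _)
  rw [intervalIntegral.integral_add (Continuous.intervalIntegrable (by fun_prop) _ _)
    (Continuous.intervalIntegrable (by fun_prop) _ _), intervalIntegral.integral_const_mul,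
    intervalIntegral.integral_const_mul] at h4
  simp only [one_pow, one_mul, ne_eq, Nat.add_eq_zero_iff, one_ne_zero, and_false,
    not_false_eq_true, zero_pow, zero_mul, sub_zero] at h4
  push_cast
  rw [← h4]
  ring

end Vale.Agent.P237.Exch
end

section

/-!
# P237: the exchangeability inequality
-/

open MeasureTheory Metric Set Module
open scoped NNReal Pointwise

namespace Vale.Agent.P237.Exch

variable {E : Type*} [NormedAddCommGroup E] [NormedSpace ℝ E] [FiniteDimensional ℝ E]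
  [MeasurableSpace E] [BorelSpace E] [Nontrivial E] (μ : Measure E) [μ.IsAddHaarMeasure]

omit [Nontrivial E] in
theorem integrableOn_ball_comp (l : E →L[ℝ] ℝ) {f : ℝ → ℝ} (hf : Continuous f) :
    IntegrableOn (fun x => f (l x)) (ball (0 : E) 1) μ := by
  have : ProperSpace E := FiniteDimensional.proper ℝ E
  have h1 : IntegrableOn (fun x => f (l x)) (closedBall (0 : E) 1) μ :=
    (hf.comp l.continuous).continuousOn.integrableOn_compact (isCompact_closedBall _ _)
  exact h1.mono_set ball_subset_closedBall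

/-- the law of `l z` on the sphere in terms of the law of `l x` on the ball -/
theorem sphere_a (l : E →L[ℝ] ℝ) {c c' : ℝ → ℝ}
    (hc : ∀ y, HasDerivAt c (c' y) y) (hc' : Continuous c') :
    ∫ z : sphere (0 : E) 1, c (l z) ∂μ.toSphere =
      ∫ x in ball (0 : E) 1, ((finrank ℝ E : ℝ) * c (l x) + l x * c' (l x)) ∂μ := by
  have hcc : Continuous c := continuous_iff_continuousAt.2 fun y => (hc y).continuousAt
  have hn : 0 < finrank ℝ E := finrank_pos
  rw [integral_ball_polar μ _ (integrableOn_ball_comp μ l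
    (f := fun y => (finrank ℝ E : ℝ) * c y + y * c' y) (by (clear * - hcc hc'; fun_prop)))]
  refine integral_congr_ae (Filter.Eventually.of_forall fun z => ?_)
  beta_reduce
  rw [← integral_Ioc_eq_integral_Ioo, ← intervalIntegral.integral_of_le zero_le_one]
  obtain ⟨k, hk⟩ : ∃ k, finrank ℝ E = k + 1 := ⟨finrank ℝ E - 1, by omega⟩
  have h1 : ∀ r ∈ uIcc (0 : ℝ) 1, HasDerivAt (fun r : ℝ => r ^ (k + 1) * c (r * l z))
      (r ^ (finrank ℝ E - 1) * ((finrank ℝ E : ℝ) * c (l (r • (z : E))) +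
        l (r • (z : E)) * c' (l (r • (z : E))))) r := by
    intro r _
    have h2 : HasDerivAt (fun x : ℝ => x * l z) (l z) r := by
      simpa only [id_eq, one_mul] using (hasDerivAt_id r).mul_const (l z)
    have h3 := (hasDerivAt_pow (k + 1) r).mul ((hc (r * l z)).comp r h2)
    refine h3.congr_deriv ?_
    rw [hk, map_smul, smul_eq_mul]
    simp only [Nat.add_sub_cancel, Function.comp]
    push_cast
    ring
  have h4 := intervalIntegral.integral_eq_sub_of_hasDerivAt h1
    (Continuous.intervalIntegrable (by (clear * - hcc hc'; fun_prop)) _ _)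
  rw [h4]
  simp

/-- the divergence identity -/
theorem sphere_b (hd : 2 ≤ finrank ℝ E) (l : E →L[ℝ] ℝ) (hl : ‖l‖ ≤ 1) (v : E) {p p' : ℝ → ℝ}
    (hp : ∀ y, HasDerivAt p (p' y) y) (hp' : Continuous p') :
    ∫ z : sphere (0 : E) 1, gr v z * p (l z) ∂μ.toSphere =
      l v * ∫ x in ball (0 : E) 1, p' (l x) ∂μ := by
  set n := finrank ℝ E with hn
  set q : ℝ → ℝ := fun a => ∫ r in (0 : ℝ)..1, r ^ (n - 2) * p (r * a) with hqd
  set q' : ℝ → ℝ := fun a => ∫ r in (0 : ℝ)..1, r ^ (n - 1) * p' (r * a) with hqd'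
  have hq : ∀ y, HasDerivAt q (q' y) y := fun y => lift_hasDerivAt n hd hp hp' y
  have hqc' : Continuous q' := by
    apply intervalIntegral.continuous_parametric_intervalIntegral_of_continuous'
    fun_prop
  have hqc : Continuous q := continuous_iff_continuousAt.2 fun y => (hq y).continuousAt
  have hlift : ∀ a, ((n : ℝ) - 1) * q a + a * q' a = p a := fun a => lift_eq n hd hp hp' a
  have h0 := sphere_parts0 μ l hl v hq hqc'
  obtain ⟨M, hM⟩ := (isCompact_Icc (a := (-1:ℝ)) (b := 1)).exists_bound_of_continuousOn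
    hqc.continuousOn
  obtain ⟨D, hD⟩ := (isCompact_Icc (a := (-1:ℝ)) (b := 1)).exists_bound_of_continuousOn
    hqc'.continuousOn
  have hM0 : 0 ≤ M := (norm_nonneg _).trans (hM 0 (by norm_num))
  have hD0 : 0 ≤ D := (norm_nonneg _).trans (hD 0 (by norm_num))
  have hI : ∀ z : sphere (0 : E) 1, l z ∈ Icc (-1 : ℝ) 1 := by
    intro z
    have := mem_Icc_ratio hl (z : E)
    rwa [norm_eq_of_mem_sphere z, div_one] at this
  have hlm : Measurable fun z : sphere (0 : E) 1 => l z :=
    (l.continuous.comp continuous_subtype_val).measurable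
  have hgm : Measurable fun z : sphere (0 : E) 1 => gr v z :=
    (measurable_gr v).comp measurable_subtype_coe
  have i1 : Integrable (fun z : sphere (0 : E) 1 => gr v z * q (l z)) μ.toSphere := by
    refine integrable_sphere μ (hgm.mul (hqc.measurable.comp hlm)) (C := ‖v‖ * M) fun z => ?_
    rw [abs_mul]
    exact mul_le_mul (abs_gr_le v _) (hM _ (hI z)) (abs_nonneg _) (norm_nonneg _)
  have i2 : Integrable (fun z : sphere (0 : E) 1 => q' (l z)) μ.toSphere :=
    integrable_sphere μ (hqc'.measurable.comp hlm) (C := D) fun z => hD _ (hI z)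
  have i3 : Integrable (fun z : sphere (0 : E) 1 => l z * q' (l z) * gr v z) μ.toSphere := by
    refine integrable_sphere μ ((hlm.mul (hqc'.measurable.comp hlm)).mul hgm) (C := 1 * D * ‖v‖)
      fun z => ?_
    rw [abs_mul, abs_mul]
    exact mul_le_mul (mul_le_mul (abs_le.2 (hI z)) (hD _ (hI z)) (abs_nonneg _) zero_le_one)
      (abs_gr_le v _) (abs_nonneg _) (by (clear * - hD0; positivity))
  have e1 : ∫ z : sphere (0 : E) 1, (gr v z * q (l z) + q' (l z) * (l v - l z * gr v z))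
      ∂μ.toSphere = (∫ z : sphere (0 : E) 1, gr v z * q (l z) ∂μ.toSphere) +
        (l v * ∫ z : sphere (0 : E) 1, q' (l z) ∂μ.toSphere) -
        ∫ z : sphere (0 : E) 1, l z * q' (l z) * gr v z ∂μ.toSphere := by
    have i4 : Integrable (fun z : sphere (0 : E) 1 => gr v z * q (l z) + l v * q' (l z))
      μ.toSphere := i1.add (i2.const_mul _)
    rw [← integral_const_mul, ← integral_add i1 (i2.const_mul _), ← integral_sub i4 i3]
    refine integral_congr_ae (Filter.Eventually.of_forall fun z => ?_)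
    beta_reduce
    ring
  have e2 : ∫ z : sphere (0 : E) 1, gr v z * p (l z) ∂μ.toSphere =
      ((n : ℝ) - 1) * (∫ z : sphere (0 : E) 1, gr v z * q (l z) ∂μ.toSphere) +
        ∫ z : sphere (0 : E) 1, l z * q' (l z) * gr v z ∂μ.toSphere := by
    rw [← integral_const_mul, ← integral_add (i1.const_mul _) i3]
    refine integral_congr_ae (Filter.Eventually.of_forall fun z => ?_)
    beta_reduce
    rw [← hlift (l z)]
    ring
  have e3 : ∫ z : sphere (0 : E) 1, q' (l z) ∂μ.toSphere = ∫ x in ball (0 : E) 1, p' (l x) ∂μ := by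
    rw [integral_ball_polar μ _ (integrableOn_ball_comp μ l hp')]
    refine integral_congr_ae (Filter.Eventually.of_forall fun z => ?_)
    beta_reduce
    rw [← integral_Ioc_eq_integral_Ioo, ← intervalIntegral.integral_of_le zero_le_one]
    simp only [hqd', map_smul, smul_eq_mul]
    rfl
  rw [e1] at h0
  rw [e2, ← e3]
  linarith only [h0]

/-- The pairing of a point `z` with the dual point of `x`. -/
noncomputable def pr (z x : sphere (0 : E) 1) : ℝ := gr (z : E) (x : E)

omit [FiniteDimensional ℝ E] [MeasurableSpace E] [BorelSpace E] [Nontrivial E] in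
theorem pr_mem (z x : sphere (0 : E) 1) : pr z x ∈ Icc (-1 : ℝ) 1 := by
  have := abs_gr_le (z : E) (x : E)
  rw [norm_eq_of_mem_sphere z] at this
  exact abs_le.1 this

omit [Nontrivial E] in
theorem measurable_pr : Measurable fun w : sphere (0 : E) 1 × sphere (0 : E) 1 => pr w.1 w.2 := by
  unfold pr gr
  have h1 : Measurable fun x : E => fderiv ℝ (fun y : E => ‖y‖) x :=
    measurable_fderiv ℝ (fun y : E => ‖y‖)
  have h2 : Measurable fun w : sphere (0 : E) 1 × sphere (0 : E) 1 =>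
      fderiv ℝ (fun y : E => ‖y‖) (w.2 : E) := h1.comp (measurable_subtype_coe.comp measurable_snd)
  have h3 : Continuous fun w : (E →L[ℝ] ℝ) × E => w.1 w.2 :=
    isBoundedBilinearMap_apply.continuous
  exact h3.measurable.comp (h2.prodMk (measurable_subtype_coe.comp measurable_fst))

/-- The averaged functional vanishes by exchangeability. -/
theorem exch_zero {A : ℝ → ℝ → ℝ} (hA : Measurable (Function.uncurry A)) {C : ℝ}
    (hC : ∀ a ∈ Icc (-1 : ℝ) 1, ∀ b ∈ Icc (-1 : ℝ) 1, |A a b| ≤ C)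
    (hanti : ∀ a ∈ Icc (-1 : ℝ) 1, ∀ b ∈ Icc (-1 : ℝ) 1, A a b = -A b a) :
    Integrable (fun w : sphere (0 : E) 1 × sphere (0 : E) 1 => A (pr w.2 w.1) (pr w.1 w.2))
      (μ.toSphere.prod μ.toSphere) ∧
    ∫ x : sphere (0 : E) 1, (∫ z : sphere (0 : E) 1, A (pr z x) (pr x z) ∂μ.toSphere)
      ∂μ.toSphere = 0 := by
  have hm : Measurable fun w : sphere (0 : E) 1 × sphere (0 : E) 1 =>
      A (pr w.2 w.1) (pr w.1 w.2) := by
    have h1 : Measurable fun w : sphere (0 : E) 1 × sphere (0 : E) 1 => pr w.2 w.1 :=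
      measurable_pr.comp measurable_swap
    exact hA.comp (h1.prodMk measurable_pr)
  have hint : Integrable (fun w : sphere (0 : E) 1 × sphere (0 : E) 1 =>
      A (pr w.2 w.1) (pr w.1 w.2)) (μ.toSphere.prod μ.toSphere) :=
    Integrable.of_bound hm.aestronglyMeasurable C
      (Filter.Eventually.of_forall fun w => hC _ (pr_mem _ _) _ (pr_mem _ _))
  refine ⟨hint, ?_⟩
  set I := ∫ x : sphere (0 : E) 1, (∫ z : sphere (0 : E) 1, A (pr z x) (pr x z) ∂μ.toSphere)
      ∂μ.toSphere with hI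
  have h1 : I = ∫ z : sphere (0 : E) 1, (∫ x : sphere (0 : E) 1, A (pr z x) (pr x z) ∂μ.toSphere)
      ∂μ.toSphere := integral_integral_swap hint
  have h2 : ∫ z : sphere (0 : E) 1, (∫ x : sphere (0 : E) 1, A (pr z x) (pr x z) ∂μ.toSphere)
      ∂μ.toSphere = -I := by
    rw [hI, ← integral_neg]
    refine integral_congr_ae (Filter.Eventually.of_forall fun x => ?_)
    beta_reduce
    rw [← integral_neg]
    refine integral_congr_ae (Filter.Eventually.of_forall fun z => ?_)
    beta_reduce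
    exact hanti _ (pr_mem _ _) _ (pr_mem _ _)
  linarith only [h1, h2]

/-- The dual point (gradient of the norm) as a functional. -/
noncomputable def dg (x : sphere (0 : E) 1) : E →L[ℝ] ℝ := fderiv ℝ (fun y : E => ‖y‖) (x : E)

omit [FiniteDimensional ℝ E] [MeasurableSpace E] [BorelSpace E] [Nontrivial E] in
theorem dg_apply (x z : sphere (0 : E) 1) : dg x (z : E) = pr z x := rfl

omit [FiniteDimensional ℝ E] [MeasurableSpace E] [BorelSpace E] [Nontrivial E] in
theorem norm_dg_le (x : sphere (0 : E) 1) : ‖dg x‖ ≤ 1 := by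
  have h1 : ‖fderiv ℝ (fun y : E => ‖y‖) (x : E)‖ ≤ ((1 : ℝ≥0) : ℝ) :=
    norm_fderiv_le_of_lipschitz ℝ lipschitzWith_one_norm
  simpa only [dg, ge_iff_le, NNReal.coe_one] using h1

omit [FiniteDimensional ℝ E] [MeasurableSpace E] [BorelSpace E] [Nontrivial E] in
theorem dg_self {x : sphere (0 : E) 1} (hx : DifferentiableAt ℝ (fun y : E => ‖y‖) (x : E)) :
    dg x (x : E) = 1 := by
  have h := hx.fderiv_norm_self
  rw [norm_eq_of_mem_sphere x] at h
  exact h

/-- almost every point of the sphere is a point of differentiability of the norm -/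
theorem ae_sphere : ∀ᵐ x : sphere (0 : E) 1 ∂μ.toSphere,
    DifferentiableAt ℝ (fun y : E => ‖y‖) (x : E) := by
  have h1 : ∀ᵐ x : E ∂μ, DifferentiableAt ℝ (fun y : E => ‖y‖) x :=
    lipschitzWith_one_norm.ae_differentiableAt
  rw [ae_iff]
  have hms : MeasurableSet {x : sphere (0 : E) 1 |
      ¬DifferentiableAt ℝ (fun y : E => ‖y‖) (x : E)} := by
    have h2 : MeasurableSet {x : E | DifferentiableAt ℝ (fun y : E => ‖y‖) x} :=
      measurableSet_of_differentiableAt ℝ (fun y : E => ‖y‖)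
    exact measurable_subtype_coe h2.compl
  rw [μ.toSphere_apply' hms]
  have h3 : μ (Ioo (0 : ℝ) 1 • ((↑) '' {x : sphere (0 : E) 1 |
      ¬DifferentiableAt ℝ (fun y : E => ‖y‖) (x : E)} : Set E)) = 0 := by
    refine measure_mono_null ?_ h1
    rintro _ ⟨r, hr, _, ⟨x, hx, rfl⟩, rfl⟩
    simp only [mem_setOf_eq] at hx
    simp only [mem_compl_iff, mem_setOf_eq]
    intro h4
    exact hx (h4.differentiableAt_norm_of_smul)
  rw [h3, mul_zero]

/-- Lower bound of the inner integral by supporting pairs. -/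
theorem inner_lower (hd : 2 ≤ finrank ℝ E) {A : ℝ → ℝ → ℝ}
    (hA : Measurable (Function.uncurry A)) {C : ℝ}
    (hC : ∀ a ∈ Icc (-1 : ℝ) 1, ∀ b ∈ Icc (-1 : ℝ) 1, |A a b| ≤ C)
    {x : sphere (0 : E) 1} (hx : DifferentiableAt ℝ (fun y : E => ‖y‖) (x : E))
    {c c' p p' : ℝ → ℝ} (hc : ∀ y, HasDerivAt c (c' y) y) (hc' : Continuous c')
    (hp : ∀ y, HasDerivAt p (p' y) y) (hp' : Continuous p')
    (hsup : ∀ a ∈ Icc (-1 : ℝ) 1, ∀ b ∈ Icc (-1 : ℝ) 1, c a + p a * b ≤ A a b) :
    ∫ y in ball (0 : E) 1, ((finrank ℝ E : ℝ) * c (dg x y) + dg x y * c' (dg x y) +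
      p' (dg x y)) ∂μ ≤ ∫ z : sphere (0 : E) 1, A (pr z x) (pr x z) ∂μ.toSphere := by
  have hcc : Continuous c := continuous_iff_continuousAt.2 fun y => (hc y).continuousAt
  have hpc : Continuous p := continuous_iff_continuousAt.2 fun y => (hp y).continuousAt
  obtain ⟨M, hM⟩ := (isCompact_Icc (a := (-1:ℝ)) (b := 1)).exists_bound_of_continuousOn
    hcc.continuousOn
  obtain ⟨D, hD⟩ := (isCompact_Icc (a := (-1:ℝ)) (b := 1)).exists_bound_of_continuousOn
    hpc.continuousOn
  have hM0 : 0 ≤ M := (norm_nonneg _).trans (hM 0 (by norm_num))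
  have hD0 : 0 ≤ D := (norm_nonneg _).trans (hD 0 (by norm_num))
  have m1 : Measurable fun z : sphere (0 : E) 1 => pr z x :=
    measurable_pr.comp (measurable_id.prodMk measurable_const)
  have m2 : Measurable fun z : sphere (0 : E) 1 => pr x z :=
    measurable_pr.comp (measurable_const.prodMk measurable_id)
  have i1 : Integrable (fun z : sphere (0 : E) 1 => c (pr z x)) μ.toSphere :=
    integrable_sphere μ (hcc.measurable.comp m1) (C := M) fun z => hM _ (pr_mem _ _)
  have i2 : Integrable (fun z : sphere (0 : E) 1 => pr x z * p (pr z x)) μ.toSphere := by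
    refine integrable_sphere μ (m2.mul (hpc.measurable.comp m1)) (C := 1 * D) fun z => ?_
    rw [abs_mul]
    exact mul_le_mul (abs_le.2 (pr_mem _ _)) (hD _ (pr_mem _ _)) (abs_nonneg _) zero_le_one
  have i3 : Integrable (fun z : sphere (0 : E) 1 => A (pr z x) (pr x z)) μ.toSphere :=
    integrable_sphere μ (hA.comp (m1.prodMk m2)) (C := C) fun z => hC _ (pr_mem _ _) _ (pr_mem _ _)
  have ea := sphere_a μ (dg x) hc hc'
  have eb := sphere_b μ hd (dg x) (norm_dg_le x) (x : E) hp hp'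
  rw [dg_self hx, one_mul] at eb
  have j1 := integrableOn_ball_comp μ (dg x) (f := fun y => (finrank ℝ E : ℝ) * c y + y * c' y)
    (by fun_prop)
  have j2 := integrableOn_ball_comp μ (dg x) hp'
  have e0 : ∫ y in ball (0 : E) 1, ((finrank ℝ E : ℝ) * c (dg x y) + dg x y * c' (dg x y) +
      p' (dg x y)) ∂μ = ∫ z : sphere (0 : E) 1, (c (pr z x) + pr x z * p (pr z x))
        ∂μ.toSphere := by
    rw [integral_add i1 i2, integral_add j1 j2, ← ea, ← eb]
    rfl
  rw [e0]
  refine integral_mono (i1.add i2) i3 fun z => ?_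
  have := hsup _ (pr_mem z x) _ (pr_mem x z)
  simp only
  linarith only [this]

/-- **Exchangeability theorem.**  If the inner integral is nonnegative for almost every `x`
then it vanishes for almost every `x`. -/
theorem exch_ae {A : ℝ → ℝ → ℝ} (hA : Measurable (Function.uncurry A)) {C : ℝ}
    (hC : ∀ a ∈ Icc (-1 : ℝ) 1, ∀ b ∈ Icc (-1 : ℝ) 1, |A a b| ≤ C)
    (hanti : ∀ a ∈ Icc (-1 : ℝ) 1, ∀ b ∈ Icc (-1 : ℝ) 1, A a b = -A b a)
    (h0 : ∀ᵐ x : sphere (0 : E) 1 ∂μ.toSphere,
      0 ≤ ∫ z : sphere (0 : E) 1, A (pr z x) (pr x z) ∂μ.toSphere) :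
    ∀ᵐ x : sphere (0 : E) 1 ∂μ.toSphere,
      ∫ z : sphere (0 : E) 1, A (pr z x) (pr x z) ∂μ.toSphere = 0 := by
  obtain ⟨hint, hz⟩ := exch_zero (E := E) μ hA hC hanti
  have h1 := (integral_eq_zero_iff_of_nonneg_ae h0 hint.integral_prod_left).1 hz
  filter_upwards [h1] with x hx
  exact hx

/-- **Exchangeability theorem**, contrapositive form. -/
theorem exch (hd : 2 ≤ finrank ℝ E) {A : ℝ → ℝ → ℝ}
    (hA : Measurable (Function.uncurry A)) {C : ℝ}
    (hC : ∀ a ∈ Icc (-1 : ℝ) 1, ∀ b ∈ Icc (-1 : ℝ) 1, |A a b| ≤ C)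
    (hanti : ∀ a ∈ Icc (-1 : ℝ) 1, ∀ b ∈ Icc (-1 : ℝ) 1, A a b = -A b a) :
    ∃ x : sphere (0 : E) 1, DifferentiableAt ℝ (fun y : E => ‖y‖) (x : E) ∧
      ∀ c c' p p' : ℝ → ℝ, (∀ y, HasDerivAt c (c' y) y) → Continuous c' →
        (∀ y, HasDerivAt p (p' y) y) → Continuous p' →
        (∀ a ∈ Icc (-1 : ℝ) 1, ∀ b ∈ Icc (-1 : ℝ) 1, c a + p a * b ≤ A a b) →
        ∫ y in ball (0 : E) 1, ((finrank ℝ E : ℝ) * c (dg x y) + dg x y * c' (dg x y) +
          p' (dg x y)) ∂μ ≤ 0 := by
  by_contra hcon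
  push Not at hcon
  have h1 : ∀ᵐ x : sphere (0 : E) 1 ∂μ.toSphere,
      0 < ∫ z : sphere (0 : E) 1, A (pr z x) (pr x z) ∂μ.toSphere := by
    filter_upwards [ae_sphere μ] with x hx
    obtain ⟨c, c', p, p', hc, hc', hp, hp', hsup, hpos⟩ := hcon x hx
    exact hpos.trans_le (inner_lower μ hd hA hC hx hc hc' hp hp' hsup)
  have h2 := exch_ae μ hA hC hanti (h1.mono fun x hx => hx.le)
  have h3 : ∀ᵐ _ : sphere (0 : E) 1 ∂μ.toSphere, False := by
    filter_upwards [h1, h2] with x a b
    linarith only [a, b]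
  have h4 : μ.toSphere = 0 := by
    rw [Filter.eventually_false_iff_eq_bot, ae_eq_bot] at h3
    exact h3
  exact Measure.toSphere_ne_zero μ h4

end Vale.Agent.P237.Exch
end

section

/-!
# P237, all dimensions: the space `V` with the gauge norm of a symmetric body
-/

open MeasureTheory Metric Set Module

namespace Vale.Agent.P237.AllN

variable {V : Type*} [NormedAddCommGroup V] [InnerProductSpace ℝ V] [FiniteDimensional ℝ V]
  [MeasurableSpace V] [BorelSpace V]

/-- `V` with the gauge norm of `K`. -/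
def GS (_K : Set V) : Type _ := V

section defs

variable (K : Set V)

noncomputable instance instACG : AddCommGroup (GS K) := inferInstanceAs (AddCommGroup V)

noncomputable instance instMod : Module ℝ (GS K) := inferInstanceAs (Module ℝ V)

instance instFD : FiniteDimensional ℝ (GS K) := inferInstanceAs (FiniteDimensional ℝ V)

instance instMS : MeasurableSpace (GS K) := inferInstanceAs (MeasurableSpace V)

/-- the identity map -/
noncomputable def toGS : V ≃ₗ[ℝ] GS K := LinearEquiv.refl ℝ V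

noncomputable instance instNorm : Norm (GS K) := ⟨fun x => gauge K ((toGS K).symm x)⟩

omit [FiniteDimensional ℝ V] [MeasurableSpace V] [BorelSpace V] in
theorem norm_def (x : GS K) : ‖x‖ = gauge K ((toGS K).symm x) := rfl

end defs

omit [FiniteDimensional ℝ V] [MeasurableSpace V] [BorelSpace V] in
theorem nhds_zero {K : Set V} (hK : IsSymBody K) : K ∈ nhds (0 : V) :=
  mem_interior_iff_mem_nhds.1 hK.zero_mem_interior

omit [FiniteDimensional ℝ V] [MeasurableSpace V] [BorelSpace V] in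
theorem balanced {K : Set V} (hK : IsSymBody K) : Balanced ℝ K := by
  intro a ha
  rintro _ ⟨x, hx, rfl⟩
  exact hK.smul_mem hx (by simpa [Real.norm_eq_abs] using ha)

omit [FiniteDimensional ℝ V] [MeasurableSpace V] [BorelSpace V] in
theorem absorbent {K : Set V} (hK : IsSymBody K) : Absorbent ℝ K :=
  absorbent_nhds_zero (nhds_zero hK)

variable (K : Set V) [hK : Fact (IsSymBody K)]

omit [MeasurableSpace V] [BorelSpace V] in
theorem core : NormedSpace.Core ℝ (GS K) where
  norm_nonneg x := gauge_nonneg _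
  norm_smul c x := by
    rw [norm_def, norm_def, map_smul]
    exact gauge_smul (balanced hK.out) c _
  norm_triangle x y := by
    rw [norm_def, norm_def, norm_def, map_add]
    exact gauge_add_le hK.out.convex (absorbent hK.out) _ _
  norm_eq_zero_iff x := by
    rw [norm_def, gauge_eq_zero (absorbent hK.out)
      ((NormedSpace.isVonNBounded_iff ℝ).2 hK.out.compact.isBounded)]
    simp

noncomputable instance instNACG : NormedAddCommGroup (GS K) :=
  NormedAddCommGroup.ofCore (core K)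

noncomputable instance instNS : NormedSpace ℝ (GS K) := NormedSpace.ofCore (core K)

/-- the identity map as a continuous linear equivalence -/
noncomputable def toGSL : V ≃L[ℝ] GS K := (toGS K).toContinuousLinearEquiv

instance instBorel : BorelSpace (GS K) := by
  constructor
  have h1 : (inferInstance : MeasurableSpace V) = borel V := BorelSpace.measurable_eq
  have h2 := (toGSL K).toHomeomorph.isInducing.eq_induced
  have h3 : borel V = (borel (GS K)).comap (toGSL K).toHomeomorph := by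
    rw [← borel_comap, ← h2]
  refine MeasurableSpace.ext fun s => ?_
  have h4 : MeasurableSet[instMS K] s ↔ MeasurableSet[borel V] s := by
    rw [← h1]
    exact Iff.rfl
  rw [h4, h3]
  constructor
  · rintro ⟨t, ht, hts⟩
    have h5 : (toGSL K).toHomeomorph ⁻¹' t = t := rfl
    rw [← hts, h5]
    exact ht
  · intro hs
    exact ⟨s, hs, rfl⟩

instance instNontrivial [Nontrivial V] : Nontrivial (GS K) := inferInstanceAs (Nontrivial V)

/-- Lebesgue measure on `GS K` -/
noncomputable def gm : Measure (GS K) := (volume : Measure V).map (toGSL K)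

instance : (gm K).IsAddHaarMeasure := by
  unfold gm
  exact (toGSL K).isAddHaarMeasure_map volume

theorem integral_gm (F : GS K → ℝ) (s : Set (GS K)) :
    ∫ x in s, F x ∂(gm K) = ∫ y in (toGSL K) ⁻¹' s, F (toGSL K y) := by
  unfold gm
  exact (toGSL K).toHomeomorph.toMeasurableEquiv.measurableEmbedding.setIntegral_map _ _

omit [MeasurableSpace V] [BorelSpace V] in
theorem norm_toGSL_le_iff (y : V) : ‖toGSL K y‖ ≤ 1 ↔ y ∈ K := by
  have h : ‖toGSL K y‖ = gauge K y := rfl
  rw [h, gauge_le_one_iff_mem_closure hK.out.convex (nhds_zero hK.out),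
    hK.out.compact.isClosed.closure_eq]

omit [MeasurableSpace V] [BorelSpace V] in
theorem preimage_closedBall : (toGSL K) ⁻¹' (closedBall 0 1) = K := by
  ext y
  rw [mem_preimage, mem_closedBall, dist_zero_right]
  exact norm_toGSL_le_iff K y

end Vale.Agent.P237.AllN
end

section

/-!
# P237, all dimensions: the exchangeability theorem for symmetric bodies
-/

open MeasureTheory Metric Set Module

namespace Vale.Agent.P237.AllN

open Exch

variable {V : Type*} [NormedAddCommGroup V] [InnerProductSpace ℝ V] [FiniteDimensional ℝ V]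
  [MeasurableSpace V] [BorelSpace V]

section

variable (K : Set V) [hK : Fact (IsSymBody K)]

/-- The dual point of `x` as a vector of `V`. -/
noncomputable def dv (x : sphere (0 : GS K) 1) : V :=
  (InnerProductSpace.toDual ℝ V).symm ((dg x).comp (toGSL K : V →L[ℝ] GS K))

omit [MeasurableSpace V] [BorelSpace V] in
theorem inner_dv (x : sphere (0 : GS K) 1) (y : V) : inner ℝ y (dv K x) = dg x (toGSL K y) := by
  rw [real_inner_comm]
  unfold dv
  rw [InnerProductSpace.toDual_symm_apply]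
  rfl

omit [MeasurableSpace V] [BorelSpace V] in
theorem inner_dv_le (x : sphere (0 : GS K) 1) {y : V} (hy : y ∈ K) : inner ℝ y (dv K x) ≤ 1 := by
  rw [inner_dv]
  have h1 := (dg x).le_opNorm (toGSL K y)
  have h2 := norm_dg_le x
  have h3 := (norm_toGSL_le_iff K y).2 hy
  rw [Real.norm_eq_abs] at h1
  calc dg x (toGSL K y) ≤ |dg x (toGSL K y)| := le_abs_self _
    _ ≤ ‖dg x‖ * ‖toGSL K y‖ := h1
    _ ≤ 1 * 1 := mul_le_mul h2 h3 (norm_nonneg _) zero_le_one
    _ = 1 := one_mul 1

omit [MeasurableSpace V] [BorelSpace V] in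
theorem mem_of_sphere (x : sphere (0 : GS K) 1) : (toGSL K).symm (x : GS K) ∈ K := by
  rw [← norm_toGSL_le_iff K, ContinuousLinearEquiv.apply_symm_apply, norm_eq_of_mem_sphere x]

omit [MeasurableSpace V] [BorelSpace V] in
theorem inner_dv_self {x : sphere (0 : GS K) 1}
    (hx : DifferentiableAt ℝ (fun y : GS K => ‖y‖) (x : GS K)) :
    inner ℝ ((toGSL K).symm (x : GS K)) (dv K x) = 1 := by
  rw [inner_dv, ContinuousLinearEquiv.apply_symm_apply, dg_self hx]

omit [MeasurableSpace V] [BorelSpace V] in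
theorem supp_dv {x : sphere (0 : GS K) 1}
    (hx : DifferentiableAt ℝ (fun y : GS K => ‖y‖) (x : GS K)) : supp K (dv K x) = 1 := by
  unfold supp
  refine IsGreatest.csSup_eq ⟨⟨_, mem_of_sphere K x, inner_dv_self K hx⟩, ?_⟩
  rintro _ ⟨y, hy, rfl⟩
  exact inner_dv_le K x hy

omit [MeasurableSpace V] [BorelSpace V] in
theorem dv_ne_zero {x : sphere (0 : GS K) 1}
    (hx : DifferentiableAt ℝ (fun y : GS K => ‖y‖) (x : GS K)) : dv K x ≠ 0 := by
  intro h
  have := inner_dv_self K hx
  rw [h, inner_zero_right] at this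
  exact zero_ne_one this

/-- The direction of the dual point. -/
noncomputable def du (x : sphere (0 : GS K) 1) : V := ‖dv K x‖⁻¹ • dv K x

omit [MeasurableSpace V] [BorelSpace V] in
theorem norm_du {x : sphere (0 : GS K) 1}
    (hx : DifferentiableAt ℝ (fun y : GS K => ‖y‖) (x : GS K)) : ‖du K x‖ = 1 := by
  unfold du
  rw [norm_smul, norm_inv, norm_norm, inv_mul_cancel₀ (norm_ne_zero_iff.2 (dv_ne_zero K hx))]

omit [MeasurableSpace V] [BorelSpace V] in
theorem supp_du {x : sphere (0 : GS K) 1}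
    (hx : DifferentiableAt ℝ (fun y : GS K => ‖y‖) (x : GS K)) :
    supp K (du K x) = ‖dv K x‖⁻¹ := by
  unfold du
  rw [supp_smul_nonneg (inv_nonneg.2 (norm_nonneg _)), supp_dv K hx, mul_one]

theorem vol_slice_zero {u : V} (hu : ‖u‖ = 1) {y : ℝ} (hy : supp K u < |y|) :
    vol (slice K u y) = 0 := by
  have h1 : ∀ z, supp K u < z → vol (slice K u z) = 0 := by
    intro z hz
    rw [slice_eq_empty hK.out.compact hu hz]
    simp [vol]
  rcases le_total 0 y with h | h
  · rw [abs_of_nonneg h] at hy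
    exact h1 y hy
  · rw [abs_of_nonpos h] at hy
    rw [← slice_vol_even hK.out hu y]
    exact h1 _ hy

/-- The law of `dg x` on the unit ball in terms of the slices orthogonal to `du x`. -/
theorem integral_dg [Nontrivial V] {x : sphere (0 : GS K) 1}
    (hx : DifferentiableAt ℝ (fun y : GS K => ‖y‖) (x : GS K)) {F : ℝ → ℝ} (hF : Continuous F) :
    ∫ y in ball (0 : GS K) 1, F (dg x y) ∂(gm K) =
      supp K (du K x) * ∫ t in (-1 : ℝ)..1, F t * vol (slice K (du K x) (supp K (du K x) * t)) := by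
  set u := du K x with hu
  have hu1 : ‖u‖ = 1 := norm_du K hx
  set h := supp K u with hh
  have hh1 : h = ‖dv K x‖⁻¹ := supp_du K hx
  have hpos : 0 < h := supp_pos hK.out hu1
  have h0 : ∀ y : V, dg x (toGSL K y) = h⁻¹ * inner ℝ y u := by
    intro y
    rw [← inner_dv, hu, hh1]
    unfold du
    rw [inner_smul_right, inv_inv, ← mul_assoc,
      mul_inv_cancel₀ (norm_ne_zero_iff.2 (dv_ne_zero K hx)), one_mul]
  have e1 : ∫ y in ball (0 : GS K) 1, F (dg x y) ∂(gm K) =
      ∫ y in closedBall (0 : GS K) 1, F (dg x y) ∂(gm K) := by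
    apply setIntegral_congr_set
    have : gm K (sphere (0 : GS K) 1) = 0 := Measure.addHaar_sphere _ _ _
    rw [← ball_union_sphere]
    exact (union_ae_eq_left_of_ae_eq_empty (ae_eq_empty.2 this)).symm
  rw [e1, integral_gm, preimage_closedBall]
  have e2 : ∫ y in K, F (dg x (toGSL K y)) = ∫ y in K, (fun s => F (h⁻¹ * s)) (inner ℝ y u) := by
    refine setIntegral_congr_fun hK.out.compact.measurableSet fun y _ => ?_
    simp only [h0]
  rw [e2, integral_slice hK.out.compact hu1 (fun s => F (h⁻¹ * s)) (by fun_prop)]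
  have e3 : ∫ y : ℝ, F (h⁻¹ * y) * vol (slice K u y) =
      ∫ y in (-h)..h, F (h⁻¹ * y) * vol (slice K u y) := by
    rw [intervalIntegral.integral_of_le (by linarith), integral_Ioc_eq_integral_Ioo,
      ← integral_Icc_eq_integral_Ioo]
    refine (setIntegral_eq_integral_of_forall_compl_eq_zero fun y hy => ?_).symm
    have : h < |y| := by
      by_contra hcon
      exact hy (abs_le.1 (not_lt.1 hcon))
    rw [vol_slice_zero K hu1 this, mul_zero]
  rw [e3]
  have e4 := intervalIntegral.mul_integral_comp_mul_left (a := (-1 : ℝ)) (b := 1)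
    (f := fun y => F (h⁻¹ * y) * vol (slice K u y)) h
  rw [mul_neg, mul_one] at e4
  rw [← e4]
  congr 1
  refine intervalIntegral.integral_congr fun t _ => ?_
  rw [← mul_assoc, inv_mul_cancel₀ hpos.ne', one_mul]

end

/-- Admissible (supporting) pairs of the kernel `A`. -/
structure Adm (A : ℝ → ℝ → ℝ) (c c' p p' : ℝ → ℝ) : Prop where
  hc : ∀ y, HasDerivAt c (c' y) y
  hc' : Continuous c'
  hp : ∀ y, HasDerivAt p (p' y) y
  hp' : Continuous p'
  hsup : ∀ a ∈ Icc (-1 : ℝ) 1, ∀ b ∈ Icc (-1 : ℝ) 1, c a + p a * b ≤ A a b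

/-- The functional attached to a direction `u`. -/
noncomputable def JF (K : Set V) (u : V) (c c' p' : ℝ → ℝ) : ℝ :=
  ∫ t in (-1 : ℝ)..1, ((finrank ℝ V : ℝ) * c t + t * c' t + p' t) *
    vol (slice K u (supp K u * t))

section

variable (K : Set V) [hK : Fact (IsSymBody K)] [Nontrivial V]

omit [MeasurableSpace V] [BorelSpace V] [Nontrivial V] in
theorem finrank_GS : finrank ℝ (GS K) = finrank ℝ V := rfl

omit [FiniteDimensional ℝ V] [MeasurableSpace V] [BorelSpace V] [Nontrivial V] in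
theorem adm_cont {A : ℝ → ℝ → ℝ} {c c' p p' : ℝ → ℝ} (h : Adm A c c' p p') :
    Continuous fun t : ℝ => (finrank ℝ V : ℝ) * c t + t * c' t + p' t := by
  have hcc : Continuous c := continuous_iff_continuousAt.2 fun y => (h.hc y).continuousAt
  have h1 := h.hc'
  have h2 := h.hp'
  fun_prop

theorem integral_adm {x : sphere (0 : GS K) 1}
    (hx : DifferentiableAt ℝ (fun y : GS K => ‖y‖) (x : GS K)) {A : ℝ → ℝ → ℝ}
    {c c' p p' : ℝ → ℝ} (h : Adm A c c' p p') :
    ∫ y in ball (0 : GS K) 1, ((finrank ℝ (GS K) : ℝ) * c (dg x y) + dg x y * c' (dg x y) +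
      p' (dg x y)) ∂(gm K) = supp K (du K x) * JF K (du K x) c c' p' := by
  have h1 := integral_dg K hx (adm_cont (V := V) h)
  rw [finrank_GS]
  exact h1

/-- **Exchangeability theorem for symmetric bodies.** -/
theorem exch_body (hd : 2 ≤ finrank ℝ V) {A : ℝ → ℝ → ℝ}
    (hA : Measurable (Function.uncurry A)) {C : ℝ}
    (hC : ∀ a ∈ Icc (-1 : ℝ) 1, ∀ b ∈ Icc (-1 : ℝ) 1, |A a b| ≤ C)
    (hanti : ∀ a ∈ Icc (-1 : ℝ) 1, ∀ b ∈ Icc (-1 : ℝ) 1, A a b = -A b a) :
    ∃ u : V, ‖u‖ = 1 ∧ ∀ c c' p p' : ℝ → ℝ, Adm A c c' p p' → JF K u c c' p' ≤ 0 := by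
  obtain ⟨x, hx, h⟩ := exch (gm K) (by rw [finrank_GS]; exact hd) hA hC hanti
  refine ⟨du K x, norm_du K hx, fun c c' p p' hadm => ?_⟩
  have h1 := h c c' p p' hadm.hc hadm.hc' hadm.hp hadm.hp' hadm.hsup
  rw [integral_adm K hx hadm] at h1
  have hpos : 0 < supp K (du K x) := supp_pos hK.out (norm_du K hx)
  by_contra hcon
  push Not at hcon
  exact absurd h1 (not_le.2 (mul_pos hpos hcon))

/-- **Exchangeability theorem for symmetric bodies, almost everywhere form.** -/
theorem exch_body_ae (hd : 2 ≤ finrank ℝ V) {A : ℝ → ℝ → ℝ}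
    (hA : Measurable (Function.uncurry A)) {C : ℝ}
    (hC : ∀ a ∈ Icc (-1 : ℝ) 1, ∀ b ∈ Icc (-1 : ℝ) 1, |A a b| ≤ C)
    (hanti : ∀ a ∈ Icc (-1 : ℝ) 1, ∀ b ∈ Icc (-1 : ℝ) 1, A a b = -A b a)
    (h0 : ∀ u : V, ‖u‖ = 1 → ∀ ε : ℝ, 0 < ε →
      ∃ c c' p p' : ℝ → ℝ, Adm A c c' p p' ∧ -ε ≤ JF K u c c' p') :
    ∀ᵐ x : sphere (0 : GS K) 1 ∂(gm K).toSphere,
      DifferentiableAt ℝ (fun y : GS K => ‖y‖) (x : GS K) ∧
      ∀ c c' p p' : ℝ → ℝ, Adm A c c' p p' → JF K (du K x) c c' p' ≤ 0 := by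
  have h1 := exch_ae (gm K) hA hC hanti (by
    filter_upwards [ae_sphere (gm K)] with x hx
    have hpos : 0 < supp K (du K x) := supp_pos hK.out (norm_du K hx)
    refine le_of_forall_pos_le_add fun ε hε => ?_
    obtain ⟨c, c', p, p', hadm, hJ⟩ := h0 (du K x) (norm_du K hx) (ε / supp K (du K x))
      (by positivity)
    have h2 := inner_lower (gm K) (by rw [finrank_GS]; exact hd) hA hC hx hadm.hc hadm.hc'
      hadm.hp hadm.hp' hadm.hsup
    rw [integral_adm K hx hadm] at h2
    have h3 : -ε ≤ supp K (du K x) * JF K (du K x) c c' p' := by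
      have := mul_le_mul_of_nonneg_left hJ hpos.le
      have h4 : supp K (du K x) * -(ε / supp K (du K x)) = -ε := by
        field_simp
      linarith
    linarith)
  filter_upwards [h1, ae_sphere (gm K)] with x hx hxd
  refine ⟨hxd, fun c c' p p' hadm => ?_⟩
  have hpos : 0 < supp K (du K x) := supp_pos hK.out (norm_du K hxd)
  have h2 := inner_lower (gm K) (by rw [finrank_GS]; exact hd) hA hC hxd hadm.hc hadm.hc'
      hadm.hp hadm.hp' hadm.hsup
  rw [integral_adm K hxd hadm, hx] at h2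
  by_contra hcon
  push Not at hcon
  exact absurd h2 (not_le.2 (mul_pos hpos hcon))

end

end Vale.Agent.P237.AllN
end

section

/-!
# P237, all dimensions: the induction step, part 1: the inequality in every direction
-/

open MeasureTheory Metric Set Module
open scoped Pointwise

namespace Vale.Agent.P237.AllN

/-- Bounded measurable antisymmetric kernels on `[-1,1]²`. -/
structure Kern (A : ℝ → ℝ → ℝ) : Prop where
  meas : Measurable (Function.uncurry A)
  bdd : ∃ C : ℝ, ∀ a ∈ Icc (-1 : ℝ) 1, ∀ b ∈ Icc (-1 : ℝ) 1, |A a b| ≤ C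
  anti : ∀ a ∈ Icc (-1 : ℝ) 1, ∀ b ∈ Icc (-1 : ℝ) 1, A a b = -A b a

/-- Even concave profiles on `[-1,1]`. -/
structure IsProf (r : ℝ → ℝ) : Prop where
  conc : ConcaveOn ℝ (Icc (-1) 1) r
  even : ∀ y, r (-y) = r y
  pos : ∀ y ∈ Ioo (-1 : ℝ) 1, 0 < r y
  nonneg : 0 ≤ r 1

/-- The one-dimensional statement needed for the step from dimension `m` to `m + 1`. -/
def OneD (m : ℕ) : Prop := ∃ A : ℝ → ℝ → ℝ, Kern A ∧
  (∀ ε > (0 : ℝ), ∃ c c' p p' : ℝ → ℝ, Adm A c c' p p' ∧
    -ε ≤ ∫ y in (-1 : ℝ)..1, (((m : ℝ) + 1) * c y + y * c' y + p' y) * Real.sqrt (1 - y ^ 2) ^ m) ∧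
  ∀ r : ℝ → ℝ, IsProf r →
    (∫ y in (-1 : ℝ)..1, r y ^ (m - 1)) ^ m * aInt m ^ (m - 1) ≤
      aInt (m - 1) ^ m * (∫ y in (-1 : ℝ)..1, r y ^ m) ^ (m - 1) →
    (∃ k : ℝ, ∀ y ∈ Ioo (-1 : ℝ) 1, r y = k * Real.sqrt (1 - y ^ 2)) ∨
    ∃ c c' p p' : ℝ → ℝ, Adm A c c' p p' ∧
      0 < ∫ y in (-1 : ℝ)..1, (((m : ℝ) + 1) * c y + y * c' y + p' y) * r y ^ m

section

variable {V : Type*} [NormedAddCommGroup V] [InnerProductSpace ℝ V] [FiniteDimensional ℝ V]
  [MeasurableSpace V] [BorelSpace V]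

/-- the profile scaled to `[-1,1]` -/
noncomputable def rprof (K : Set V) (u : V) (m : ℕ) (t : ℝ) : ℝ := prof K u m (supp K u * t)

theorem rprof_isProf {m : ℕ} (hm : 1 ≤ m) (hd : finrank ℝ V = m + 1) {K : Set V}
    (hK : IsSymBody K) {u : V} (hu : ‖u‖ = 1) : IsProf (rprof K u m) := by
  have hpos := supp_pos hK hu
  refine ⟨⟨convex_Icc _ _, ?_⟩, ?_, ?_, prof_nonneg _ _ _ _⟩
  · intro y hy z hz a b ha hb hab
    have hc := prof_concave hm hd hK hu
    have hmem : ∀ t ∈ Icc (-1 : ℝ) 1, supp K u * t ∈ Icc (-supp K u) (supp K u) := by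
      intro t ht
      constructor
      · nlinarith [ht.1]
      · nlinarith [ht.2]
    have h := hc.2 (hmem y hy) (hmem z hz) ha hb hab
    simp only [smul_eq_mul] at h ⊢
    unfold rprof
    have e : supp K u * (a * y + b * z) = a * (supp K u * y) + b * (supp K u * z) := by ring
    rw [e]
    exact h
  · intro y
    unfold rprof
    rw [mul_neg, prof_even hK hu]
  · intro y hy
    refine prof_pos hm hd hK hu ⟨?_, ?_⟩
    · nlinarith [hy.1]
    · nlinarith [hy.2]

theorem integral_prof_eq {m : ℕ} (hm : 1 ≤ m) {K : Set V}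
    (hK : IsSymBody K) {u : V} (hu : ‖u‖ = 1) {k : ℕ} (hk : 1 ≤ k) :
    ∫ y : ℝ, prof K u m y ^ k = supp K u * ∫ t in (-1 : ℝ)..1, rprof K u m t ^ k := by
  have hpos := supp_pos hK hu
  rw [integral_prof_pow hm hK hu hk]
  unfold rprof
  have h := intervalIntegral.integral_comp_mul_left (a := -1) (b := 1)
    (fun y => prof K u m y ^ k) hpos.ne'
  simp only [smul_eq_mul, mul_neg, mul_one] at h
  rw [h, ← mul_assoc, mul_inv_cancel₀ hpos.ne', one_mul]

theorem vol_eq_rprof {m : ℕ} (hm : 1 ≤ m) {K : Set V}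
    (hK : IsSymBody K) {u : V} (hu : ‖u‖ = 1) :
    vol K = supp K u * ∫ t in (-1 : ℝ)..1, rprof K u m t ^ m := by
  rw [vol_eq_integral_prof hm hK hu, integral_prof_eq hm hK hu hm]

omit [FiniteDimensional ℝ V] [MeasurableSpace V] [BorelSpace V] in
theorem supp_smul_set {K : Set V} {μ : ℝ} (hμ0 : 0 ≤ μ) (u : V) :
    supp (μ • K) u = μ * supp K u := by
  unfold supp
  have h4 : (fun x : V => inner ℝ x u) '' (μ • K) = μ • ((fun x : V => inner ℝ x u) '' K) := by
    rw [← Set.image_smul, ← Set.image_smul, image_image, image_image]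
    simp only [real_inner_smul_left, smul_eq_mul]
  rw [h4, Real.sSup_smul_of_nonneg hμ0, smul_eq_mul]

/-- **(★)** For a symmetric body with `Π² K = r K`, Petty's inequality in dimension `m` gives a
lower bound for the ratio in every direction. -/
theorem ratio_ge_dir {m : ℕ} (hm : 2 ≤ m) (hd : finrank ℝ V = m + 1) {K : Set V}
    (hK : IsSymBody K) {R : ℝ} (hR : 0 ≤ R) {u : V} (hu : ‖u‖ = 1)
    (hP : ∀ S : Set ((ℝ ∙ u)ᗮ : Submodule ℝ V), IsBody S →
      R * vol S ^ (m - 1) ≤ vol (projBody S))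
    {r : ℝ} (hr : 0 < r) (hM : projBody (projBody K) = r • K)
    (hv : vol (projBody K) = r * vol K) :
    R * (∫ t in (-1 : ℝ)..1, rprof K u m t ^ (m - 1)) ^ m ≤
      ratio K * (∫ t in (-1 : ℝ)..1, rprof K u m t ^ m) ^ (m - 1) := by
  have hpos := supp_pos hK hu
  have hPi := projBody_isSymBody hK.toIsBody
  have h1 : shadow (projBody K) u = r * supp K u := by
    have h2 : supp (projBody (projBody K)) u = beta (projBody K) u :=
      supp_projBody hPi.toIsBody u
    rw [beta_unit hPi.compact hPi.convex hu, hM, supp_smul_set hr.le] at h2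
    exact h2.symm
  have h3 := shadow_projBody_ge_gen hm hd hK hu hR hP
  rw [h1, integral_prof_eq (by omega) hK hu (by omega : 1 ≤ m - 1)] at h3
  have hvK := vol_eq_rprof (m := m) (by omega) hK hu
  have p1 := Main.vol_pos hK.toIsBody
  set I1 := ∫ t in (-1 : ℝ)..1, rprof K u m t ^ (m - 1) with hI1
  set I2 := ∫ t in (-1 : ℝ)..1, rprof K u m t ^ m with hI2
  have hI2pos : 0 < I2 := by
    rw [hvK] at p1
    exact (mul_pos_iff_of_pos_left hpos).1 p1
  obtain ⟨k, rfl⟩ : ∃ k, m = k + 2 := ⟨m - 2, by omega⟩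
  simp only [show k + 2 - 1 = k + 1 by omega] at h3 ⊢
  have hrat : ratio K * I2 ^ (k + 1) * supp K u ^ (k + 1) = r := by
    unfold ratio
    rw [hv, hd]
    simp only [show k + 2 + 1 - 1 = k + 2 by omega]
    rw [hvK]
    have hne : supp K u ≠ 0 := hpos.ne'
    have hne2 : I2 ≠ 0 := hI2pos.ne'
    field_simp
    ring
  rw [mul_pow] at h3
  have h5 : supp K u ^ (k + 2) * (R * I1 ^ (k + 2)) ≤
      supp K u ^ (k + 2) * (ratio K * I2 ^ (k + 1)) := by
    calc supp K u ^ (k + 2) * (R * I1 ^ (k + 2)) = R * (supp K u ^ (k + 2) * I1 ^ (k + 2)) := by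
          ring
      _ ≤ r * supp K u := h3
      _ = (ratio K * I2 ^ (k + 1) * supp K u ^ (k + 1)) * supp K u := by rw [hrat]
      _ = _ := by ring
  exact le_of_mul_le_mul_left h5 (by positivity)

end

end Vale.Agent.P237.AllN
end

section

/-!
# P237, almost Petty in all dimensions: definitions
-/

open MeasureTheory Metric Set Module

namespace Vale.Agent.P237.Alm

open AllN

/-- Weak form of the bound `J ≤ 1` for the Fisher type functional of the density `f`. -/
def Fish (n : ℕ) (f : ℝ → ℝ) : Prop :=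
  ∀ p p' : ℝ → ℝ, (∀ y, HasDerivAt p (p' y) y) → Continuous p' →
    (∫ y in (-1 : ℝ)..1, p' y * f y) ^ 2 ≤ (∫ y in (-1 : ℝ)..1, f y) *
      ∫ y in (-1 : ℝ)..1, ((n : ℝ) * p y ^ 2 + 2 * y * p y * p' y) * f y

/-- The loss in one dimension step. -/
noncomputable def del (m : ℕ) : ℝ :=
  Real.sqrt (((m : ℝ) + 1) * ((m : ℝ) - 2)) / m * (aInt (m - 3) / aInt (m - 2))

/-- Petty's inequality in dimension `n` up to the factor `c`. -/
def PettyC (n : ℕ) (c : ℝ) : Prop :=
  ∀ (W : Type) [NormedAddCommGroup W] [InnerProductSpace ℝ W] [FiniteDimensional ℝ W]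
    [MeasurableSpace W] [BorelSpace W],
    finrank ℝ W = n → ∀ S : Set W, IsBody S → c * RC n * vol S ^ (n - 1) ≤ vol (projBody S)

end Vale.Agent.P237.Alm
end

section

/-!
# P237, almost Petty in all dimensions: a direction with small Fisher type functional
-/

open MeasureTheory Metric Set Module

namespace Vale.Agent.P237.Exch

section

variable {E : Type*} [NormedAddCommGroup E] [NormedSpace ℝ E]

theorem fsh_gr_add (v w x : E) : gr (v + w) x = gr v x + gr w x := by
  unfold gr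
  rw [map_add]

theorem fsh_gr_smul (c : ℝ) (v x : E) : gr (c • v) x = c * gr v x := by
  unfold gr
  rw [map_smul, smul_eq_mul]

theorem fsh_gr_sum {ι : Type*} (s : Finset ι) (a : ι → ℝ) (b : ι → E) (x : E) :
    gr (∑ i ∈ s, a i • b i) x = ∑ i ∈ s, a i * gr (b i) x := by
  unfold gr
  rw [map_sum]
  exact Finset.sum_congr rfl fun i _ => by rw [map_smul, smul_eq_mul]

end

variable {E : Type*} [NormedAddCommGroup E] [NormedSpace ℝ E] [FiniteDimensional ℝ E]
  [MeasurableSpace E] [BorelSpace E] [Nontrivial E] (μ : Measure E) [μ.IsAddHaarMeasure]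

omit [Nontrivial E] in
theorem fsh_meas (v : E) : Measurable fun z : sphere (0 : E) 1 => gr v z :=
  (measurable_gr v).comp measurable_subtype_coe

theorem fsh_int (v w : E) :
    Integrable (fun z : sphere (0 : E) 1 => gr v z * gr w z) μ.toSphere := by
  refine integrable_sphere μ ((fsh_meas v).mul (fsh_meas w)) (C := ‖v‖ * ‖w‖) fun z => ?_
  rw [abs_mul]
  exact mul_le_mul (abs_gr_le v _) (abs_gr_le w _) (abs_nonneg _) (norm_nonneg _)

/-- the quadratic form of the gradients -/
noncomputable def fshM : E →ₗ[ℝ] E →ₗ[ℝ] ℝ :=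
  LinearMap.mk₂ ℝ (fun v w => ∫ z : sphere (0 : E) 1, gr v z * gr w z ∂μ.toSphere)
    (by
      intro v v' w
      rw [← integral_add (fsh_int μ v w) (fsh_int μ v' w)]
      refine integral_congr_ae (Filter.Eventually.of_forall fun z => ?_)
      beta_reduce
      rw [fsh_gr_add, add_mul])
    (by
      intro c v w
      rw [smul_eq_mul, ← integral_const_mul]
      refine integral_congr_ae (Filter.Eventually.of_forall fun z => ?_)
      beta_reduce
      rw [fsh_gr_smul, mul_assoc])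
    (by
      intro v w w'
      rw [← integral_add (fsh_int μ v w) (fsh_int μ v w')]
      refine integral_congr_ae (Filter.Eventually.of_forall fun z => ?_)
      beta_reduce
      rw [fsh_gr_add, mul_add])
    (by
      intro c v w
      rw [smul_eq_mul, ← integral_const_mul]
      refine integral_congr_ae (Filter.Eventually.of_forall fun z => ?_)
      beta_reduce
      rw [fsh_gr_smul]
      ring)

theorem fshM_apply (v w : E) :
    fshM μ v w = ∫ z : sphere (0 : E) 1, gr v z * gr w z ∂μ.toSphere := rfl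

theorem fshM_symm (v w : E) : fshM μ v w = fshM μ w v := by
  rw [fshM_apply, fshM_apply]
  refine integral_congr_ae (Filter.Eventually.of_forall fun z => ?_)
  beta_reduce
  ring

theorem fshM_nonneg (v : E) : 0 ≤ fshM μ v v := by
  rw [fshM_apply]
  exact integral_nonneg fun z => mul_self_nonneg _

theorem fshM_pos (hd : 2 ≤ finrank ℝ E) {v : E} (hv : v ≠ 0) : 0 < fshM μ v v := by
  rcases (fshM_nonneg μ v).lt_or_eq with h | h
  · exact h
  exfalso
  have h1 : (fun z : sphere (0 : E) 1 => gr v z * gr v z) =ᵐ[μ.toSphere] 0 := by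
    rw [← integral_eq_zero_iff_of_nonneg (fun z => mul_self_nonneg _) (fsh_int μ v v)]
    exact h.symm
  obtain ⟨l, hl, hlv⟩ := exists_dual_vector'' ℝ v
  have h2 := sphere_b μ hd l hl v (p := fun y => y) (p' := fun _ => 1)
    (fun y => hasDerivAt_id y) continuous_const
  have h3 : ∫ z : sphere (0 : E) 1, gr v z * l z ∂μ.toSphere = 0 := by
    refine integral_eq_zero_of_ae ?_
    filter_upwards [h1] with z hz
    have h4 : gr v (z : E) = 0 := by simpa only [Pi.zero_apply, mul_eq_zero, or_self] using hz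
    rw [h4, zero_mul]
    rfl
  have h5 : 0 < μ.real (ball (0 : E) 1) :=
    ENNReal.toReal_pos (measure_ball_pos μ 0 one_pos).ne' measure_ball_lt_top.ne
  rw [h3, setIntegral_const, smul_eq_mul, mul_one, hlv] at h2
  have h6 : 0 < ‖v‖ := norm_pos_iff.2 hv
  have h7 : (0 : ℝ) < ‖v‖ * μ.real (ball (0 : E) 1) := mul_pos h6 h5
  simp only [RCLike.ofReal_real_eq_id, id_eq] at h2
  linarith only [h2, h7]

/-- Cauchy-Schwarz on the sphere -/
theorem fsh_cs {a b : sphere (0 : E) 1 → ℝ} (ha : Measurable a) (hb : Measurable b) {A B : ℝ}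
    (hA : ∀ z, |a z| ≤ A) (hB : ∀ z, |b z| ≤ B) :
    (∫ z, a z * b z ∂μ.toSphere) ^ 2 ≤ (∫ z, a z * a z ∂μ.toSphere) * ∫ z, b z ^ 2 ∂μ.toSphere := by
  have i1 : Integrable (fun z => a z * a z) μ.toSphere := by
    refine integrable_sphere μ (ha.mul ha) (C := A * A) fun z => ?_
    rw [abs_mul]
    exact mul_le_mul (hA z) (hA z) (abs_nonneg _) ((abs_nonneg _).trans (hA z))
  have i2 : Integrable (fun z => a z * b z) μ.toSphere := by
    refine integrable_sphere μ (ha.mul hb) (C := A * B) fun z => ?_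
    rw [abs_mul]
    exact mul_le_mul (hA z) (hB z) (abs_nonneg _) ((abs_nonneg _).trans (hA z))
  have i3 : Integrable (fun z => b z ^ 2) μ.toSphere := by
    refine integrable_sphere μ (hb.pow_const 2) (C := B * B) fun z => ?_
    rw [pow_two, abs_mul]
    exact mul_le_mul (hB z) (hB z) (abs_nonneg _) ((abs_nonneg _).trans (hB z))
  have h1 : ∀ t : ℝ, 0 ≤ (∫ z, a z * a z ∂μ.toSphere) * (t * t) +
      (2 * ∫ z, a z * b z ∂μ.toSphere) * t + ∫ z, b z ^ 2 ∂μ.toSphere := by
    intro t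
    have e1 : ∫ z, (t * a z + b z) ^ 2 ∂μ.toSphere = (∫ z, a z * a z ∂μ.toSphere) * (t * t) +
        (2 * ∫ z, a z * b z ∂μ.toSphere) * t + ∫ z, b z ^ 2 ∂μ.toSphere := by
      have e2 : (fun z => (t * a z + b z) ^ 2) =
          fun z => (t * t) * (a z * a z) + (2 * t) * (a z * b z) + b z ^ 2 := by
        funext z
        ring
      have i4 : Integrable (fun z => (t * t) * (a z * a z)) μ.toSphere := i1.const_mul _
      have i5 : Integrable (fun z => (2 * t) * (a z * b z)) μ.toSphere := i2.const_mul _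
      have i6 : Integrable (fun z => (t * t) * (a z * a z) + (2 * t) * (a z * b z))
        μ.toSphere := i4.add i5
      rw [e2, integral_add i6 i3, integral_add i4 i5, integral_const_mul, integral_const_mul]
      ring
    rw [← e1]
    exact integral_nonneg fun z => sq_nonneg _
  have h2 := discrim_le_zero h1
  unfold discrim at h2
  linarith

theorem exists_point_fisher (hd : 2 ≤ finrank ℝ E) :
    ∃ x : sphere (0 : E) 1, DifferentiableAt ℝ (fun y : E => ‖y‖) (x : E) ∧
      ∀ p p' : ℝ → ℝ, (∀ y, HasDerivAt p (p' y) y) → Continuous p' →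
        (∫ y in ball (0 : E) 1, p' (dg x y) ∂μ) ^ 2 ≤ (μ (ball (0 : E) 1)).toReal *
          ∫ y in ball (0 : E) 1, ((finrank ℝ E : ℝ) * p (dg x y) ^ 2 +
            2 * dg x y * p (dg x y) * p' (dg x y)) ∂μ := by
  classical
  have hB : 0 < (μ (ball (0 : E) 1)).toReal :=
    ENNReal.toReal_pos (measure_ball_pos μ 0 one_pos).ne' measure_ball_lt_top.ne
  have hsymm : LinearMap.IsSymm (fshM μ) := ⟨fun v w => fshM_symm μ v w⟩
  obtain ⟨b, hb⟩ := LinearMap.BilinForm.exists_orthogonal_basis hsymm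
  have hort : ∀ i j, i ≠ j → fshM μ (b i) (b j) = 0 := by
    intro i j hij
    exact hb hij
  have hm : ∀ i, 0 < fshM μ (b i) (b i) := fun i => fshM_pos μ hd (b.ne_zero i)
  -- the density
  obtain ⟨T, hT⟩ : ∃ T : sphere (0 : E) 1 → ℝ,
      T = fun z : sphere (0 : E) 1 => ∑ i, gr (b i) z * gr (b i) z / fshM μ (b i) (b i) :=
    ⟨_, rfl⟩
  have iT0 : ∀ i, Integrable (fun z : sphere (0 : E) 1 =>
      gr (b i) z * gr (b i) z / fshM μ (b i) (b i)) μ.toSphere := fun i =>
    (fsh_int μ (b i) (b i)).div_const _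
  have iT : Integrable T μ.toSphere := by
    rw [hT]
    exact integrable_finsetSum _ fun i _ => iT0 i
  have eT : ∫ z, T z ∂μ.toSphere = (finrank ℝ E : ℝ) := by
    rw [hT]
    rw [integral_finsetSum _ fun i _ => iT0 i]
    have h1 : ∀ i, ∫ z : sphere (0 : E) 1, gr (b i) z * gr (b i) z / fshM μ (b i) (b i)
        ∂μ.toSphere = 1 := by
      intro i
      rw [integral_div, ← fshM_apply, div_self (hm i).ne']
    simp only [h1]
    simp only [Finset.sum_const, Finset.card_univ, Fintype.card_fin, nsmul_eq_mul, mul_one]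
  have hσ : μ.toSphere.real univ = (finrank ℝ E : ℝ) * (μ (ball (0 : E) 1)).toReal := by
    rw [measureReal_def, μ.toSphere_apply_univ, ENNReal.toReal_mul, ENNReal.toReal_natCast]
  obtain ⟨x, hx, hTx⟩ : ∃ x : sphere (0 : E) 1, DifferentiableAt ℝ (fun y : E => ‖y‖) (x : E) ∧
      1 / (μ (ball (0 : E) 1)).toReal ≤ T x := by
    by_contra hcon
    push Not at hcon
    have h1 : ∀ᵐ x : sphere (0 : E) 1 ∂μ.toSphere,
        0 < 1 / (μ (ball (0 : E) 1)).toReal - T x := by
      filter_upwards [ae_sphere μ] with x hx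
      linarith only [hcon x hx]
    have i1 : Integrable (fun x => 1 / (μ (ball (0 : E) 1)).toReal - T x) μ.toSphere :=
      (integrable_const _).sub iT
    have h2 : ∫ x, (1 / (μ (ball (0 : E) 1)).toReal - T x) ∂μ.toSphere = 0 := by
      rw [integral_sub (integrable_const _) iT, eT, integral_const, hσ, smul_eq_mul]
      field_simp
      ring
    have h3 := (integral_eq_zero_iff_of_nonneg_ae (h1.mono fun x hx => hx.le) i1).1 h2
    have h4 : ∀ᵐ _ : sphere (0 : E) 1 ∂μ.toSphere, False := by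
      filter_upwards [h1, h3] with x a c
      simp only [Pi.zero_apply] at c
      linarith only [a, c]
    have h5 : μ.toSphere = 0 := by
      rw [Filter.eventually_false_iff_eq_bot, ae_eq_bot] at h4
      exact h4
    exact Measure.toSphere_ne_zero μ h5
  refine ⟨x, hx, fun p p' hp hp' => ?_⟩
  have hTpos : 0 < T x := lt_of_lt_of_le (by positivity) hTx
  -- the test vector
  obtain ⟨a, ha⟩ : ∃ a : Fin (finrank ℝ E) → ℝ,
      a = fun i => (T x)⁻¹ * (gr (b i) x / fshM μ (b i) (b i)) := ⟨_, rfl⟩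
  obtain ⟨v, hv⟩ : ∃ v : E, v = ∑ i, a i • b i := ⟨_, rfl⟩
  have hTx2 : T x = ∑ i, gr (b i) x * gr (b i) x / fshM μ (b i) (b i) := by rw [hT]
  have hdg : dg x v = 1 := by
    have h1 : dg x v = gr v (x : E) := rfl
    rw [h1, hv, fsh_gr_sum, ha]
    simp only
    have h2 : ∑ i, (T x)⁻¹ * (gr (b i) x / fshM μ (b i) (b i)) * gr (b i) x =
        (T x)⁻¹ * T x := by
      rw [hTx2, Finset.mul_sum]
      exact Finset.sum_congr rfl fun i _ => by ring
    rw [h2, inv_mul_cancel₀ hTpos.ne']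
  have hMv : fshM μ v v ≤ (μ (ball (0 : E) 1)).toReal := by
    have h1 : fshM μ v v = ∑ i, a i * (a i * fshM μ (b i) (b i)) := by
      rw [hv]
      simp only [map_sum, LinearMap.sum_apply, map_smul, LinearMap.smul_apply, smul_eq_mul]
      refine Finset.sum_congr rfl fun i _ => ?_
      rw [Finset.sum_eq_single i]
      · intro j _ hj
        rw [hort j i hj]
        ring
      · intro h
        exact absurd (Finset.mem_univ i) h
    have h2 : ∑ i, a i * (a i * fshM μ (b i) (b i)) = (T x)⁻¹ := by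
      have h3 : ∀ i, a i * (a i * fshM μ (b i) (b i)) = (T x)⁻¹ * (T x)⁻¹ *
          (gr (b i) x * gr (b i) x / fshM μ (b i) (b i)) := by
        intro i
        rw [ha]
        have := (hm i).ne'
        (clear hsymm hb hort hT iT0 iT eT hσ hx p p' hp hp' a ha v hv hTx2 hdg h1; field_simp)
      simp only [h3]
      rw [← Finset.mul_sum, ← hTx2, mul_assoc, inv_mul_cancel₀ hTpos.ne', mul_one]
    rw [h1, h2]
    rw [inv_le_comm₀ hTpos hB]
    rw [one_div] at hTx
    exact hTx
  -- conclusion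
  have hpc : Continuous p := continuous_iff_continuousAt.2 fun y => (hp y).continuousAt
  have hl := norm_dg_le x
  have e1 := sphere_b μ hd (dg x) hl v hp hp'
  rw [hdg, one_mul] at e1
  have e2 := sphere_a μ (dg x) (c := fun y => p y ^ 2) (c' := fun y => 2 * p y * p' y)
    (fun y => by
      have h1 := (hp y).pow 2
      refine h1.congr_deriv ?_
      simp) (by fun_prop)
  have hI : ∀ z : sphere (0 : E) 1, dg x z ∈ Icc (-1 : ℝ) 1 := by
    intro z
    have := mem_Icc_ratio hl (z : E)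
    rwa [norm_eq_of_mem_sphere z, div_one] at this
  have hlm : Measurable fun z : sphere (0 : E) 1 => dg x z :=
    ((dg x).continuous.comp continuous_subtype_val).measurable
  obtain ⟨D, hD⟩ := (isCompact_Icc (a := (-1:ℝ)) (b := 1)).exists_bound_of_continuousOn
    hpc.continuousOn
  have e3 := fsh_cs μ (fsh_meas v) (hpc.measurable.comp hlm) (fun z => abs_gr_le v (z : E))
    (fun z => hD _ (hI z))
  have e4 : (∫ y in ball (0 : E) 1, p' (dg x y) ∂μ) ^ 2 ≤
      fshM μ v v * ∫ z : sphere (0 : E) 1, p (dg x z) ^ 2 ∂μ.toSphere := by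
    rw [← e1]
    exact e3
  have e5 : ∫ z : sphere (0 : E) 1, p (dg x z) ^ 2 ∂μ.toSphere =
      ∫ y in ball (0 : E) 1, ((finrank ℝ E : ℝ) * p (dg x y) ^ 2 +
            2 * dg x y * p (dg x y) * p' (dg x y)) ∂μ := by
    rw [e2]
    refine integral_congr_ae (Filter.Eventually.of_forall fun y => ?_)
    beta_reduce
    ring
  rw [← e5]
  refine e4.trans (mul_le_mul_of_nonneg_right hMv ?_)
  exact integral_nonneg fun z => sq_nonneg _

end Vale.Agent.P237.Exch

namespace Vale.Agent.P237.Alm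

open AllN

theorem exists_dir_fish {V : Type*} [NormedAddCommGroup V] [InnerProductSpace ℝ V]
    [FiniteDimensional ℝ V] [MeasurableSpace V] [BorelSpace V] (K : Set V)
    [hK : Fact (IsSymBody K)] [Nontrivial V] (hd : 2 ≤ finrank ℝ V) :
    ∃ u : V, ‖u‖ = 1 ∧ Fish (finrank ℝ V) (fun t => vol (slice K u (supp K u * t))) := by
  obtain ⟨x, hx, h⟩ := Exch.exists_point_fisher (gm K) (by rw [finrank_GS]; exact hd)
  refine ⟨du K x, norm_du K hx, fun p p' hp hp' => ?_⟩
  have hpc : Continuous p := continuous_iff_continuousAt.2 fun y => (hp y).continuousAt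
  have h1 := h p p' hp hp'
  have hpos : 0 < supp K (du K x) := supp_pos hK.out (norm_du K hx)
  have e1 := integral_dg K hx hp'
  have e2 := integral_dg K hx (F := fun _ => (1 : ℝ)) continuous_const
  have e3 := integral_dg K hx (F := fun t => (finrank ℝ V : ℝ) * p t ^ 2 + 2 * t * p t * p' t)
    (by fun_prop)
  have e4 : (gm K (ball (0 : GS K) 1)).toReal = ∫ _y in ball (0 : GS K) 1, (1 : ℝ) ∂(gm K) := by
    rw [setIntegral_const, smul_eq_mul, mul_one]
    rfl
  rw [finrank_GS, e4, e1, e2, e3] at h1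
  simp only [one_mul] at h1
  have h2 : 0 < supp K (du K x) ^ 2 := by (clear hd hx h p p' hp hp' hpc e1 e2 e3 e4 h1; positivity)
  refine le_of_mul_le_mul_left ?_ h2
  calc _ = (supp K (du K x) * ∫ t in (-1 : ℝ)..1, p' t *
        vol (slice K (du K x) (supp K (du K x) * t))) ^ 2 := by ring
    _ ≤ _ := h1
    _ = _ := by ring

end Vale.Agent.P237.Alm
end

section

/-!
# P237, all dimensions: good points of the gauge sphere are dense
-/

open MeasureTheory Metric Set Module

namespace Vale.Agent.P237.AllN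

open Exch

variable {V : Type*} [NormedAddCommGroup V] [InnerProductSpace ℝ V] [FiniteDimensional ℝ V]
  [MeasurableSpace V] [BorelSpace V]

theorem good_dense (K : Set V) [hK : Fact (IsSymBody K)] [Nontrivial V]
    {P : sphere (0 : GS K) 1 → Prop} (hP : ∀ᵐ x : sphere (0 : GS K) 1 ∂(gm K).toSphere, P x)
    {y : V} (hy : y ∉ K) :
    ∃ x : sphere (0 : GS K) 1, DifferentiableAt ℝ (fun z : GS K => ‖z‖) (x : GS K) ∧ P x ∧
      1 < inner ℝ y (dv K x) := by
  set z : GS K := toGSL K y with hz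
  have hz1 : 1 < ‖z‖ := by
    by_contra hcon
    exact hy ((norm_toGSL_le_iff K y).1 (not_lt.1 hcon))
  have hz0 : 0 < ‖z‖ := by linarith
  have hG := (ae_sphere (gm K)).and hP
  let w : sphere (0 : GS K) 1 := ⟨‖z‖⁻¹ • z, by
    rw [mem_sphere_zero_iff_norm, norm_smul, norm_inv, norm_norm, inv_mul_cancel₀ hz0.ne']⟩
  have hε : 0 < 1 - ‖z‖⁻¹ := by
    have := inv_lt_one_of_one_lt₀ hz1
    linarith
  have hdense := Measure.dense_of_ae hG
  obtain ⟨x, hx, hxb⟩ := hdense.exists_dist_lt w hε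
  refine ⟨x, hx.1, hx.2, ?_⟩
  rw [inner_dv]
  have h1 : dg x (‖z‖⁻¹ • z) = dg x (x : GS K) + dg x (‖z‖⁻¹ • z - (x : GS K)) := by
    rw [← map_add]
    congr 1
    abel
  have h2 : |dg x (‖z‖⁻¹ • z - (x : GS K))| < 1 - ‖z‖⁻¹ := by
    have h3 := (dg x).le_opNorm (‖z‖⁻¹ • z - (x : GS K))
    have h4 : ‖‖z‖⁻¹ • z - (x : GS K)‖ < 1 - ‖z‖⁻¹ := by
      have : dist w x = ‖‖z‖⁻¹ • z - (x : GS K)‖ := by
        rw [Subtype.dist_eq, dist_eq_norm]
      rw [← this]
      exact hxb
    rw [Real.norm_eq_abs] at h3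
    calc |dg x (‖z‖⁻¹ • z - (x : GS K))| ≤ ‖dg x‖ * ‖‖z‖⁻¹ • z - (x : GS K)‖ := h3
      _ ≤ 1 * ‖‖z‖⁻¹ • z - (x : GS K)‖ := mul_le_mul_of_nonneg_right (norm_dg_le x) (norm_nonneg _)
      _ < 1 - ‖z‖⁻¹ := by rw [one_mul]; exact h4
  rw [dg_self hx.1] at h1
  have h5 : ‖z‖⁻¹ < dg x (‖z‖⁻¹ • z) := by
    rw [h1]
    have := (abs_lt.1 h2).1
    linarith
  rw [map_smul, smul_eq_mul] at h5
  have h6 := mul_lt_mul_of_pos_left h5 hz0
  rw [mul_inv_cancel₀ hz0.ne', ← mul_assoc, mul_inv_cancel₀ hz0.ne', one_mul] at h6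
  exact h6

end Vale.Agent.P237.AllN
end

section

/-!
# P237, almost Petty in all dimensions: assembly
-/

open MeasureTheory Metric Set Module
open scoped Pointwise

namespace Vale.Agent.P237.Alm

open AllN

/-- The one-dimensional inequality for the step from dimension `m` to `m + 1` (proved in `OneJ`). -/
def OneAlm (m : ℕ) : Prop := ∀ r : ℝ → ℝ, IsProf r → Fish (m + 1) (fun y => r y ^ m) →
  del m * (aInt (m - 1) ^ m / aInt m ^ (m - 1)) * (∫ y in (-1 : ℝ)..1, r y ^ m) ^ (m - 1) ≤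
    (∫ y in (-1 : ℝ)..1, r y ^ (m - 1)) ^ m

theorem RC_pos {m : ℕ} (hm : 2 ≤ m) : 0 < RC m := by
  rw [RC_eq hm]
  have h1 := kappa_pos (m - 1)
  have h2 := kappa_pos m
  (clear * - h1 h2; positivity)

theorem RC_three : RC 3 = 3 * Real.pi ^ 2 / 4 := by
  unfold RC
  have h2 : (2 - ((3 : ℕ) : ℤ)) = -1 := by norm_num
  rw [h2, Statement.kappa_three, zpow_neg_one]
  norm_num
  rw [Statement.kappa_two]
  have := Real.pi_pos
  (clear * -; field_simp)

section

variable {V : Type} [NormedAddCommGroup V] [InnerProductSpace ℝ V] [FiniteDimensional ℝ V]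
  [MeasurableSpace V] [BorelSpace V]

theorem del_nonneg (m : ℕ) : 0 ≤ del m := by
  unfold del
  have a1 := aInt_pos (m - 3)
  have a2 := aInt_pos (m - 2)
  positivity

/-- The bound for a symmetric body with `Π² K = r K`. -/
theorem ratio_ge_of_fixed {m : ℕ} (hm : 3 ≤ m) (h1d : OneAlm m) {c : ℝ} (hc : 0 ≤ c) (h : PettyC m c)
    (hd : finrank ℝ V = m + 1) {K : Set V} (hK : IsSymBody K) {r : ℝ} (hr : 0 < r)
    (hM : projBody (projBody K) = r • K) (hv : vol (projBody K) = r * vol K) :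
    del m * c * RC (m + 1) ≤ ratio K := by
  have : Nontrivial V := Module.nontrivial_of_finrank_pos (R := ℝ) (by omega)
  have : Fact (IsSymBody K) := ⟨hK⟩
  obtain ⟨u, hu, hF⟩ := exists_dir_fish K (by omega)
  rw [hd] at hF
  have hR := RC_pos (m := m) (by omega)
  have hF' : Fish (m + 1) (fun y => rprof K u m y ^ m) := by
    have e : (fun y => rprof K u m y ^ m) = fun t => vol (slice K u (supp K u * t)) := by
      funext t
      exact prof_pow (by omega) K u _
    rw [e]
    exact hF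
  have h1 := h1d _ (rprof_isProf (by omega) hd hK hu) hF'
  have h2 := ratio_ge_dir (m := m) (by omega) hd hK (R := c * RC m) (by (clear * - hc hR; positivity)) hu
    (h _ (finrank_perp_gen hd hu)) hr hM hv
  have a1 := aInt_pos (m - 1)
  have a2 := aInt_pos m
  have p1 := Main.vol_pos hK.toIsBody
  have hpos := supp_pos hK hu
  have hI2 : 0 < ∫ y in (-1 : ℝ)..1, rprof K u m y ^ m := by
    rw [vol_eq_rprof (m := m) (by omega) hK hu] at p1
    exact (mul_pos_iff_of_pos_left hpos).1 p1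
  rw [RC_succ (by omega)]
  set I1 := ∫ y in (-1 : ℝ)..1, rprof K u m y ^ (m - 1)
  set I2 := ∫ y in (-1 : ℝ)..1, rprof K u m y ^ m
  have key : del m * c * (RC m * (aInt (m - 1) ^ m / aInt m ^ (m - 1))) * I2 ^ (m - 1) ≤
      ratio K * I2 ^ (m - 1) := by
    calc del m * c * (RC m * (aInt (m - 1) ^ m / aInt m ^ (m - 1))) * I2 ^ (m - 1) =
        (c * RC m) * (del m * (aInt (m - 1) ^ m / aInt m ^ (m - 1)) * I2 ^ (m - 1)) := by ring
      _ ≤ (c * RC m) * I1 ^ m := mul_le_mul_of_nonneg_left h1 (by (clear * - hc hR; positivity))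
      _ ≤ ratio K * I2 ^ (m - 1) := h2
  exact le_of_mul_le_mul_right key (by (clear * - hI2; positivity))

theorem ratio_ge {m : ℕ} (hm : 3 ≤ m) (h1d : OneAlm m) {c : ℝ} (hc : 0 ≤ c) (h : PettyC m c)
    (hd : finrank ℝ V = m + 1) {K : Set V} (hK : IsBody K) :
    del m * c * RC (m + 1) ≤ ratio K := by
  have hd0 : 0 < finrank ℝ V := by omega
  obtain ⟨K₀, hK₀, hmin⟩ := exists_global_min (V := V) hd0
  obtain ⟨r, hr, hM, hv⟩ := Main.fixed_of_ratio_le hK₀ hd0
    (hmin _ (projBody_isSymBody hK₀.toIsBody))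
  calc del m * c * RC (m + 1) ≤ ratio K₀ := ratio_ge_of_fixed hm h1d hc h hd hK₀ hr hM hv
    _ ≤ ratio (projBody K) := hmin _ (projBody_isSymBody hK)
    _ ≤ ratio K := Main.ratio_projBody_le hK hd0

end

theorem step_of {m : ℕ} (hm : 3 ≤ m) (h1d : OneAlm m) {c : ℝ} (hc : 0 ≤ c) (h : PettyC m c) :
    PettyC (m + 1) (del m * c) := by
  intro W _ _ _ _ _ hd S hS
  have h1 := ratio_ge hm h1d hc h hd hS
  have p1 := Main.vol_pos hS
  unfold ratio at h1
  rw [hd, le_div_iff₀ (by positivity)] at h1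
  simpa only [add_tsub_cancel_right, ge_iff_le] using h1

theorem pettyC_three : PettyC 3 1 := by
  intro W _ _ _ _ _ hd S hS
  rw [RC_three, one_mul]
  exact Main.petty3 hd hS

/-! ### The integrals `aInt` -/

theorem aInt_zero : aInt 0 = 2 := by
  simp only [aInt, pow_zero, intervalIntegral.integral_const, sub_neg_eq_add, smul_eq_mul, mul_one]
  norm_num

theorem aInt_one : aInt 1 = Real.pi / 2 := by
  simp only [aInt, pow_one]
  exact integral_sqrt_one_sub_sq

theorem continuous_sq (k : ℕ) : Continuous fun y : ℝ => Real.sqrt (1 - y ^ 2) ^ k := by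
  fun_prop

theorem aInt_rec (k : ℕ) : ((k : ℝ) + 3) * aInt (k + 2) = ((k : ℝ) + 2) * aInt k := by
  have hder : ∀ x ∈ Ioo (-1 : ℝ) 1, HasDerivAt (fun y : ℝ => y * Real.sqrt (1 - y ^ 2) ^ (k + 2))
      (((k : ℝ) + 3) * Real.sqrt (1 - x ^ 2) ^ (k + 2) -
        ((k : ℝ) + 2) * Real.sqrt (1 - x ^ 2) ^ k) x := by
    intro x hx
    have hpos : 0 < 1 - x ^ 2 := by nlinarith only [hx.1, hx.2]
    have h1 : HasDerivAt (fun y : ℝ => 1 - y ^ 2) (-(2 * x)) x := by
      simpa only [Nat.cast_ofNat, Nat.add_one_sub_one, pow_one] using (hasDerivAt_pow 2 x).const_sub 1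
    have h2 := h1.sqrt hpos.ne'
    have h3 := (hasDerivAt_id x).mul (h2.pow (k + 2))
    refine h3.congr_deriv ?_
    have hs : Real.sqrt (1 - x ^ 2) ≠ 0 := (Real.sqrt_pos.2 hpos).ne'
    have hsq : Real.sqrt (1 - x ^ 2) ^ 2 = 1 - x ^ 2 := Real.sq_sqrt hpos.le
    set s := Real.sqrt (1 - x ^ 2)
    have hx2 : x ^ 2 = 1 - s ^ 2 := by linarith only [hsq]
    simp only [id, Pi.pow_apply, show k + 2 - 1 = k + 1 by omega]
    push_cast
    change 1 * s ^ (k + 2) + _ = _
    field_simp
    rw [hx2]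
    ring
  have h := intervalIntegral.integral_eq_sub_of_hasDerivAt_of_le (by norm_num : (-1 : ℝ) ≤ 1)
    (by fun_prop) hder (Continuous.intervalIntegrable (by fun_prop) _ _)
  rw [intervalIntegral.integral_sub, intervalIntegral.integral_const_mul,
    intervalIntegral.integral_const_mul] at h
  · simp only [aInt]
    norm_num at h ⊢
    linarith
  · exact Continuous.intervalIntegrable (by fun_prop) _ _
  · exact Continuous.intervalIntegrable (by fun_prop) _ _

theorem aInt_mul_succ (k : ℕ) : aInt (k + 1) * aInt k = 2 * Real.pi / ((k : ℝ) + 2) := by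
  induction k with
  | zero =>
    rw [aInt_one, aInt_zero]
    push_cast
    ring
  | succ k ih =>
    have h := aInt_rec k
    have h3 : ((k : ℝ) + 3) ≠ 0 := by positivity
    have h2 : ((k : ℝ) + 2) ≠ 0 := by (clear * -; positivity)
    rw [eq_div_iff h2] at ih
    rw [eq_div_iff (by push_cast; positivity)]
    push_cast
    calc aInt (k + 1 + 1) * aInt (k + 1) * ((k : ℝ) + 1 + 2) =
        ((k : ℝ) + 3) * aInt (k + 2) * aInt (k + 1) := by ring
      _ = ((k : ℝ) + 2) * aInt k * aInt (k + 1) := by rw [h]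
      _ = aInt (k + 1) * aInt k * ((k : ℝ) + 2) := by ring
      _ = _ := ih

theorem aInt_succ_le (k : ℕ) : aInt (k + 1) ≤ aInt k := by
  unfold aInt
  refine intervalIntegral.integral_mono_on (by norm_num)
    (Continuous.intervalIntegrable (by fun_prop) _ _)
    (Continuous.intervalIntegrable (by fun_prop) _ _) fun y _ => ?_
  exact pow_le_pow_of_le_one (Real.sqrt_nonneg _)
    (Real.sqrt_le_one.2 (by nlinarith only [])) (Nat.le_succ k)

theorem aInt_sq_le (k : ℕ) : aInt k ^ 2 ≤ 2 * Real.pi / ((k : ℝ) + 1) := by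
  rcases Nat.eq_zero_or_pos k with rfl | hk
  · rw [aInt_zero]
    have := Real.pi_gt_three
    push_cast
    linarith only [this]
  · obtain ⟨j, rfl⟩ : ∃ j, k = j + 1 := ⟨k - 1, by omega⟩
    have h := aInt_mul_succ j
    have h1 := aInt_succ_le j
    have p := aInt_pos (j + 1)
    calc aInt (j + 1) ^ 2 = aInt (j + 1) * aInt (j + 1) := sq _
      _ ≤ aInt (j + 1) * aInt j := mul_le_mul_of_nonneg_left h1 p.le
      _ = _ := by rw [h]; push_cast; ring

/-- The constant in dimension `m`. -/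
noncomputable def cst (m : ℕ) : ℝ :=
  Real.sqrt (8 * m / (3 * ((m : ℝ) - 1) * ((m : ℝ) - 2))) / aInt (m - 3)

theorem cst_nonneg (m : ℕ) : 0 ≤ cst m := by
  unfold cst
  have := aInt_pos (m - 3)
  positivity

theorem cst_three : cst 3 = 1 := by
  unfold cst
  rw [show 3 - 3 = 0 by omega, aInt_zero]
  have h : (8 * ((3 : ℕ) : ℝ) / (3 * (((3 : ℕ) : ℝ) - 1) * (((3 : ℕ) : ℝ) - 2))) = 2 ^ 2 := by
    push_cast; norm_num
  rw [h, Real.sqrt_sq (by norm_num)]
  norm_num

theorem del_mul_cst {m : ℕ} (hm : 3 ≤ m) : del m * cst m = cst (m + 1) := by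
  unfold del cst
  have hm' : (3 : ℝ) ≤ m := by exact_mod_cast hm
  have a1 := (aInt_pos (m - 3)).ne'
  have a2 := (aInt_pos (m - 2)).ne'
  rw [show m + 1 - 3 = m - 2 by omega]
  have e1 : Real.sqrt (((m : ℝ) + 1) * ((m : ℝ) - 2)) / m * (aInt (m - 3) / aInt (m - 2)) *
      (Real.sqrt (8 * m / (3 * ((m : ℝ) - 1) * ((m : ℝ) - 2))) / aInt (m - 3)) =
      (Real.sqrt (((m : ℝ) + 1) * ((m : ℝ) - 2)) *
        Real.sqrt (8 * m / (3 * ((m : ℝ) - 1) * ((m : ℝ) - 2))) / m) / aInt (m - 2) := by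
    field_simp
  rw [e1]
  congr 1
  have hm0 : (0 : ℝ) < m := by linarith only [hm']
  rw [← Real.sqrt_mul (by nlinarith only [hm']), div_eq_iff hm0.ne']
  have hpos : 0 < (3 * (((m + 1 : ℕ) : ℝ) - 1) * (((m + 1 : ℕ) : ℝ) - 2)) := by
    push_cast
    have : (0 : ℝ) < (m : ℝ) + 1 - 1 := by linarith only [hm']
    have : (0 : ℝ) < (m : ℝ) + 1 - 2 := by linarith only [hm']
    (clear a1 a2 e1 hm0; positivity)
  have h2 : ∀ t : ℝ, 0 ≤ t → Real.sqrt t * m = Real.sqrt (t * (m : ℝ) ^ 2) := fun t ht => by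
    rw [Real.sqrt_mul ht, Real.sqrt_sq hm0.le]
  rw [h2 _ (by (clear * - hm hpos; positivity))]
  congr 1
  have n1 : (m : ℝ) - 1 ≠ 0 := by intro h; linarith only [hm', h]
  have n2 : (m : ℝ) - 2 ≠ 0 := by intro h; linarith only [hm', h]
  push_cast
  rw [show (m : ℝ) + 1 - 1 = m by ring, show (m : ℝ) + 1 - 2 = m - 1 by ring]
  field_simp

theorem pettyC_cst_of (h1d : ∀ m : ℕ, 3 ≤ m → OneAlm m) {n : ℕ} (hn : 3 ≤ n) : PettyC n (cst n) := by
  induction n, hn using Nat.le_induction with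
  | base => rw [cst_three]; exact pettyC_three
  | succ m hm ih =>
    rw [← del_mul_cst hm]
    exact step_of hm (h1d m hm) (cst_nonneg m) ih

theorem le_cst {n : ℕ} (hn : 3 ≤ n) : 2 / Real.sqrt (3 * Real.pi) ≤ cst n := by
  have hn' : (3 : ℝ) ≤ n := by exact_mod_cast hn
  have hpi := Real.pi_pos
  unfold cst
  have a := aInt_pos (n - 3)
  have ha := aInt_sq_le (n - 3)
  rw [Nat.cast_sub hn] at ha
  push_cast at ha
  have p2 : (0 : ℝ) < (n : ℝ) - 2 := by linarith only [hn']
  have p1 : (0 : ℝ) < (n : ℝ) - 1 := by linarith only [hn']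
  rw [show (n : ℝ) - 3 + 1 = n - 2 by ring, le_div_iff₀ p2] at ha
  rw [le_div_iff₀ a]
  refine Real.le_sqrt_of_sq_le ?_
  rw [mul_pow, div_pow, Real.sq_sqrt (by positivity), div_mul_eq_mul_div,
    div_le_div_iff₀ (by positivity) (by positivity)]
  nlinarith only [hpi, ha, p1]

/-- Petty's inequality up to the factor `2/√(3π)` in every dimension, from the one-dimensional
inequalities. -/
theorem pettyC_all_of (h1d : ∀ m : ℕ, 3 ≤ m → OneAlm m) {n : ℕ} (hn : 3 ≤ n) : PettyC n (2 / Real.sqrt (3 * Real.pi)) := by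
  intro W _ _ _ _ _ hd S hS
  have h := pettyC_cst_of h1d hn W hd S hS
  have hR := RC_pos (m := n) (by omega)
  have hv := (Main.vol_pos hS).le
  refine le_trans ?_ h
  exact mul_le_mul_of_nonneg_right (mul_le_mul_of_nonneg_right (le_cst hn) hR.le) (by (clear h1d hn hd h hR; positivity))

end Vale.Agent.P237.Alm
end

section

/-!
# P237, almost Petty: one-sided calculus of even concave profiles
-/

open MeasureTheory Metric Set Module Filter
open scoped Topology

namespace Vale.Agent.P237.Alm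

open AllN

/-- The right derivative. -/
noncomputable def rd (r : ℝ → ℝ) (y : ℝ) : ℝ := derivWithin r (Ioi y) y

variable {r : ℝ → ℝ} (hr : IsProf r)

include hr

theorem prof_cont : ContinuousOn r (Ioo (-1) 1) := by
  have := hr.conc.continuousOn_interior
  rwa [interior_Icc] at this

theorem prof_contAt {y : ℝ} (hy : y ∈ Ioo (-1 : ℝ) 1) : ContinuousAt r y :=
  (prof_cont hr).continuousAt (isOpen_Ioo.mem_nhds hy)

theorem prof_anti : AntitoneOn r (Icc 0 1) := by
  intro x hx y hy hxy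
  rcases eq_or_lt_of_le hxy with h | h
  · rw [h]
  have hy0 : 0 < y := lt_of_le_of_lt hx.1 h
  have m1 : y ∈ Icc (-1 : ℝ) 1 := ⟨by linarith [hy.1], hy.2⟩
  have m2 : -y ∈ Icc (-1 : ℝ) 1 := ⟨by linarith [hy.2], by linarith [hy.1]⟩
  have p1 : 0 ≤ (x / y + 1) / 2 := by have := div_nonneg hx.1 hy0.le; linarith
  have p2 : 0 ≤ 1 - (x / y + 1) / 2 := by have := (div_le_one hy0).2 hxy; linarith
  have h1 := hr.conc.2 m1 m2 p1 p2 (by ring)
  simp only [smul_eq_mul, hr.even] at h1
  have e : (x / y + 1) / 2 * y + (1 - (x / y + 1) / 2) * -y = x := by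
    field_simp
    ring
  rw [e] at h1
  linarith

theorem rd_has {y : ℝ} (hy : y ∈ Ioo (-1 : ℝ) 1) : HasDerivWithinAt r (rd r y) (Ioi y) y := by
  have h1 := hr.conc.neg.differentiableWithinAt_Ioi_of_mem_interior (x := y)
    (by rw [interior_Icc]; exact hy)
  have h2 : DifferentiableWithinAt ℝ r (Ioi y) y := by
    have := h1.neg
    simpa using this
  exact h2.hasDerivWithinAt

theorem rd_anti : AntitoneOn (rd r) (Ioo (-1) 1) := by
  have h1 := hr.conc.neg.monotoneOn_rightDeriv
  rw [interior_Icc] at h1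
  intro x hx y hy hxy
  have h2 := h1 hx hy hxy
  simp only at h2
  have h3 : ∀ z, derivWithin (-r) (Ioi z) z = -rd r z := fun z => derivWithin.neg
  rw [h3, h3] at h2
  linarith

theorem rd_nonpos {y : ℝ} (hy : y ∈ Ico (0 : ℝ) 1) : rd r y ≤ 0 := by
  have h1 := rd_has hr (y := y) ⟨by linarith [hy.1], hy.2⟩
  rw [hasDerivWithinAt_iff_tendsto_slope' self_notMem_Ioi] at h1
  refine le_of_tendsto h1 ?_
  have h2 : Ioo y 1 ∈ 𝓝[>] y := Ioo_mem_nhdsGT hy.2
  filter_upwards [h2] with z hz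
  rw [slope_def_field]
  have m1 : y ∈ Icc (0 : ℝ) 1 := ⟨hy.1, hy.2.le⟩
  have m2 : z ∈ Icc (0 : ℝ) 1 := ⟨hy.1.trans hz.1.le, hz.2.le⟩
  have h3 := prof_anti hr m1 m2 hz.1.le
  exact div_nonpos_of_nonpos_of_nonneg (by linarith) (by linarith [hz.1])

theorem prof_pos' {y : ℝ} (hy : y ∈ Ico (0 : ℝ) 1) : 0 < r y := hr.pos y ⟨by linarith [hy.1], hy.2⟩

theorem prof_nn {y : ℝ} (hy : y ∈ Icc (0 : ℝ) 1) : 0 ≤ r y := by
  rcases eq_or_lt_of_le hy.2 with h | h
  · rw [h]; exact hr.nonneg
  · exact (prof_pos' hr ⟨hy.1, h⟩).le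

theorem prof_le_zero {y : ℝ} (hy : y ∈ Icc (0 : ℝ) 1) : r y ≤ r 0 :=
  prof_anti hr (⟨le_rfl, zero_le_one⟩ : (0 : ℝ) ∈ Icc (0 : ℝ) 1) hy hy.1

/-- powers of the profile are interval integrable -/
theorem prof_pow_ii (k : ℕ) {a b : ℝ} (ha : a ∈ Icc (0 : ℝ) 1) (hb : b ∈ Icc (0 : ℝ) 1) :
    IntervalIntegrable (fun y => r y ^ k) volume a b := by
  apply AntitoneOn.intervalIntegrable
  intro x hx y hy hxy
  have hsub : uIcc a b ⊆ Icc 0 1 := by
    intro z hz
    rcases le_total a b with h | h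
    · rw [uIcc_of_le h] at hz
      exact ⟨ha.1.trans hz.1, hz.2.trans hb.2⟩
    · rw [uIcc_of_ge h] at hz
      exact ⟨hb.1.trans hz.1, hz.2.trans ha.2⟩
  exact pow_le_pow_left₀ (prof_nn hr (hsub hy)) (prof_anti hr (hsub hx) (hsub hy) hxy) k

theorem rd_ii {a b : ℝ} (ha : a ∈ Ico (0 : ℝ) 1) (hb : b ∈ Ico (0 : ℝ) 1) :
    IntervalIntegrable (rd r) volume a b := by
  apply AntitoneOn.intervalIntegrable
  intro x hx y hy hxy
  have hsub : uIcc a b ⊆ Ioo (-1) 1 := by
    intro z hz
    rcases le_total a b with h | h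
    · rw [uIcc_of_le h] at hz
      exact ⟨by linarith [ha.1, hz.1], by linarith [hb.2, hz.2]⟩
    · rw [uIcc_of_ge h] at hz
      exact ⟨by linarith [hb.1, hz.1], by linarith [ha.2, hz.2]⟩
  exact rd_anti hr (hsub hx) (hsub hy) hxy

/-- right derivative of powers -/
theorem pow_rd {y : ℝ} (hy : y ∈ Ioo (-1 : ℝ) 1) (k : ℕ) :
    HasDerivWithinAt (fun y => r y ^ k) ((k : ℝ) * r y ^ (k - 1) * rd r y) (Ioi y) y :=
  (rd_has hr hy).pow k

/-- The limit value at the right end point. -/
theorem exists_limit : ∃ r1 : ℝ, 0 ≤ r1 ∧ (∀ y ∈ Ico (0 : ℝ) 1, r1 ≤ r y) ∧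
    Tendsto r (𝓝[<] 1) (𝓝 r1) := by
  refine ⟨sInf (r '' Ico 0 1), ?_, ?_, ?_⟩
  · have hne : (r '' Ico (0 : ℝ) 1).Nonempty := ⟨r 0, 0, ⟨le_rfl, zero_lt_one⟩, rfl⟩
    refine le_csInf hne ?_
    rintro _ ⟨y, hy, rfl⟩
    exact (prof_pos' hr hy).le
  · intro y hy
    refine csInf_le ⟨0, ?_⟩ ⟨y, hy, rfl⟩
    rintro _ ⟨z, hz, rfl⟩
    exact (prof_pos' hr hz).le
  · have hb : BddBelow (r '' Ico 0 1) := by
      refine ⟨0, ?_⟩
      rintro _ ⟨z, hz, rfl⟩
      exact (prof_pos' hr hz).le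
    rw [Metric.tendsto_nhds]
    intro ε hε
    have hne : (r '' Ico (0 : ℝ) 1).Nonempty := ⟨r 0, 0, ⟨le_rfl, zero_lt_one⟩, rfl⟩
    obtain ⟨_, ⟨z, hz, rfl⟩, hlt⟩ := exists_lt_of_csInf_lt hne
      (lt_add_of_pos_right (sInf (r '' Ico 0 1)) hε)
    filter_upwards [Ioo_mem_nhdsLT hz.2] with y hy
    have hy0 : y ∈ Ico (0 : ℝ) 1 := ⟨hz.1.trans hy.1.le, hy.2⟩
    have h1 : sInf (r '' Ico 0 1) ≤ r y := csInf_le hb ⟨y, hy0, rfl⟩
    have m1 : z ∈ Icc (0 : ℝ) 1 := ⟨hz.1, hz.2.le⟩
    have m2 : y ∈ Icc (0 : ℝ) 1 := ⟨hy0.1, hy0.2.le⟩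
    have h2 : r y ≤ r z := prof_anti hr m1 m2 hy.1.le
    rw [Real.dist_eq, abs_of_nonneg (by linarith)]
    linarith

end Vale.Agent.P237.Alm
end

section

set_option linter.all false

/-!
# P237: the level function of a half profile
-/

open Real MeasureTheory Set

namespace Vale.Agent.P237.J4

/-- A half profile: concave, decreasing, above the circle. -/
structure IsHalf (p : ℝ → ℝ) : Prop where
  conc : ConcaveOn ℝ (Icc 0 1) p
  anti : AntitoneOn p (Icc 0 1)
  ge : ∀ y ∈ Icc (0 : ℝ) 1, √(1 - y ^ 2) ≤ p y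

/-- The level function. -/
noncomputable def lev (p : ℝ → ℝ) (ρ : ℝ) : ℝ := sSup {y | y ∈ Icc (0 : ℝ) 1 ∧ ρ ≤ p y}

theorem lev_bdd (p : ℝ → ℝ) (ρ : ℝ) : BddAbove {y | y ∈ Icc (0 : ℝ) 1 ∧ ρ ≤ p y} :=
  ⟨1, fun _ hy => hy.1.2⟩

theorem lev_nonneg (p : ℝ → ℝ) (ρ : ℝ) : 0 ≤ lev p ρ :=
  Real.sSup_nonneg fun _ hy => hy.1.1

theorem lev_le_one (p : ℝ → ℝ) (ρ : ℝ) : lev p ρ ≤ 1 :=
  Real.sSup_le (fun _ hy => hy.1.2) zero_le_one

theorem le_lev {p : ℝ → ℝ} {ρ y : ℝ} (hy : y ∈ Icc (0 : ℝ) 1) (h : ρ ≤ p y) : y ≤ lev p ρ :=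
  le_csSup (lev_bdd p ρ) ⟨hy, h⟩

theorem lev_antitone (p : ℝ → ℝ) : Antitone (lev p) := by
  intro ρ₁ ρ₂ h
  rcases eq_empty_or_nonempty {y | y ∈ Icc (0 : ℝ) 1 ∧ ρ₂ ≤ p y} with h0 | h0
  · have : lev p ρ₂ = 0 := by
      unfold lev
      rw [h0, Real.sSup_empty]
    rw [this]
    exact lev_nonneg p ρ₁
  · exact csSup_le_csSup (lev_bdd p ρ₁) h0 fun y hy => ⟨hy.1, h.trans hy.2⟩

theorem le_of_lt_lev {p : ℝ → ℝ} (hp : AntitoneOn p (Icc 0 1)) {ρ y : ℝ} (hy : 0 ≤ y)
    (h : y < lev p ρ) : ρ ≤ p y := by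
  have hne : {y | y ∈ Icc (0 : ℝ) 1 ∧ ρ ≤ p y}.Nonempty := by
    rcases eq_empty_or_nonempty {y | y ∈ Icc (0 : ℝ) 1 ∧ ρ ≤ p y} with h0 | h0
    · exfalso
      have : lev p ρ = 0 := by
        unfold lev
        rw [h0, Real.sSup_empty]
      linarith
    · exact h0
  obtain ⟨z, hz, hyz⟩ := exists_lt_of_lt_csSup hne h
  exact hz.2.trans (hp ⟨hy, hyz.le.trans hz.1.2⟩ hz.1 hyz.le)

theorem lt_of_lev_lt {p : ℝ → ℝ} {ρ y : ℝ} (hy : y ≤ 1) (h : lev p ρ < y) : p y < ρ := by
  by_contra h1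
  push Not at h1
  have := le_lev (p := p) (ρ := ρ) ⟨(lev_nonneg p ρ).trans h.le, hy⟩ h1
  linarith

namespace IsHalf

variable {p : ℝ → ℝ} (hp : IsHalf p)
include hp

theorem zero_ge : 1 ≤ p 0 := by
  have := hp.ge 0 ⟨le_rfl, zero_le_one⟩
  simpa using this

theorem nonneg {y : ℝ} (hy : y ∈ Icc (0 : ℝ) 1) : 0 ≤ p y :=
  (Real.sqrt_nonneg _).trans (hp.ge y hy)

theorem le_zero {y : ℝ} (hy : y ∈ Icc (0 : ℝ) 1) : p y ≤ p 0 :=
  hp.anti ⟨le_rfl, zero_le_one⟩ hy hy.1

theorem lev_ge {ρ : ℝ} (hρ : 0 ≤ ρ) : √(1 - ρ ^ 2) ≤ lev p ρ := by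
  rcases le_or_gt ρ 1 with h | h
  · have h0 : 0 ≤ 1 - ρ ^ 2 := by nlinarith
    have hy : √(1 - ρ ^ 2) ∈ Icc (0 : ℝ) 1 := by
      refine ⟨Real.sqrt_nonneg _, ?_⟩
      exact Real.sqrt_le_one.2 (by nlinarith)
    refine le_lev hy ?_
    refine le_trans (le_of_eq ?_) (hp.ge _ hy)
    rw [Real.sq_sqrt h0]
    rw [show 1 - (1 - ρ ^ 2) = ρ ^ 2 by ring, Real.sqrt_sq hρ]
  · rw [Real.sqrt_eq_zero_of_nonpos (by nlinarith)]
    exact lev_nonneg p ρ

theorem lev_zero : lev p 0 = 1 :=
  le_antisymm (lev_le_one p 0) (le_lev ⟨zero_le_one, le_rfl⟩ (hp.nonneg ⟨zero_le_one, le_rfl⟩))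

theorem lev_concave : ConcaveOn ℝ (Icc 0 (p 0)) (lev p) := by
  refine ⟨convex_Icc _ _, ?_⟩
  intro ρ₁ h₁ ρ₂ h₂ a b ha hb hab
  simp only [smul_eq_mul]
  have hne : ∀ ρ ∈ Icc 0 (p 0), {y | y ∈ Icc (0 : ℝ) 1 ∧ ρ ≤ p y}.Nonempty :=
    fun ρ hρ => ⟨0, ⟨le_rfl, zero_le_one⟩, hρ.2⟩
  have key : ∀ y₁ ∈ {y | y ∈ Icc (0 : ℝ) 1 ∧ ρ₁ ≤ p y}, ∀ y₂ ∈ {y | y ∈ Icc (0 : ℝ) 1 ∧ ρ₂ ≤ p y},
      a * y₁ + b * y₂ ≤ lev p (a * ρ₁ + b * ρ₂) := by
    intro y₁ hy₁ y₂ hy₂
    refine le_lev ?_ ?_
    · have := (convex_Icc (0 : ℝ) 1) hy₁.1 hy₂.1 ha hb hab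
      simpa using this
    · have h3 := hp.conc.2 hy₁.1 hy₂.1 ha hb hab
      simp only [smul_eq_mul] at h3
      refine le_trans ?_ h3
      have h4 := mul_le_mul_of_nonneg_left hy₁.2 ha
      have h5 := mul_le_mul_of_nonneg_left hy₂.2 hb
      linarith
  have k2 : ∀ y₂ ∈ {y | y ∈ Icc (0 : ℝ) 1 ∧ ρ₂ ≤ p y},
      a * lev p ρ₁ + b * y₂ ≤ lev p (a * ρ₁ + b * ρ₂) := by
    intro y₂ hy₂
    rcases ha.eq_or_lt with h | h
    · rw [← h] at key ⊢
      obtain ⟨y₁, hy₁⟩ := hne ρ₁ h₁
      have := key y₁ hy₁ y₂ hy₂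
      simpa using this
    · have h6 : lev p ρ₁ ≤ (lev p (a * ρ₁ + b * ρ₂) - b * y₂) / a := by
        refine csSup_le (hne ρ₁ h₁) fun y₁ hy₁ => ?_
        rw [le_div_iff₀ h]
        have := key y₁ hy₁ y₂ hy₂
        linarith
      rw [le_div_iff₀ h] at h6
      linarith
  rcases hb.eq_or_lt with h | h
  · rw [← h] at k2 ⊢
    obtain ⟨y₂, hy₂⟩ := hne ρ₂ h₂
    have := k2 y₂ hy₂
    simpa using this
  · have h6 : lev p ρ₂ ≤ (lev p (a * ρ₁ + b * ρ₂) - a * lev p ρ₁) / b := by
      refine csSup_le (hne ρ₂ h₂) fun y₂ hy₂ => ?_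
      rw [le_div_iff₀ h]
      have := k2 y₂ hy₂
      linarith
    rw [le_div_iff₀ h] at h6
    linarith

theorem lev_continuousOn : ContinuousOn (lev p) (Ioo 0 (p 0)) :=
  (hp.lev_concave.subset Ioo_subset_Icc_self (convex_Ioo _ _)).continuousOn isOpen_Ioo

/-- a measurable version -/
theorem exists_meas : ∃ P : ℝ → ℝ, Measurable P ∧ ∀ y ∈ Icc (0 : ℝ) 1, P y = p y := by
  refine ⟨fun y => p (max 0 (min 1 y)), ?_, ?_⟩
  · apply Antitone.measurable
    intro y z hyz
    apply hp.anti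
    · exact ⟨le_max_left _ _, max_le zero_le_one (min_le_left _ _)⟩
    · exact ⟨le_max_left _ _, max_le zero_le_one (min_le_left _ _)⟩
    · exact max_le_max le_rfl (min_le_min le_rfl hyz)
  · intro y hy
    simp only
    rw [min_eq_right hy.2, max_eq_right hy.1]

theorem fub {φ ψ : ℝ → ℝ} (hφ : Continuous φ) (hψ : Continuous ψ) :
    ∫ y in (0 : ℝ)..1, φ y * ∫ ρ in (0 : ℝ)..p y, ψ ρ =
      ∫ ρ in (0 : ℝ)..p 0, ψ ρ * ∫ y in (0 : ℝ)..lev p ρ, φ y := by
  obtain ⟨P, hPm, hP⟩ := hp.exists_meas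
  have hR0 : (0 : ℝ) ≤ p 0 := zero_le_one.trans hp.zero_ge
  set D : Set (ℝ × ℝ) := {q | q.2 ≤ P q.1} with hD
  have hDm : MeasurableSet D := measurableSet_le measurable_snd (hPm.comp measurable_fst)
  set f : ℝ → ℝ → ℝ := fun y ρ => D.indicator (fun q => φ q.1 * ψ q.2) (y, ρ) with hf
  have hint : Integrable (Function.uncurry f)
      ((volume.restrict (Ioc (0 : ℝ) 1)).prod (volume.restrict (Ioc 0 (p 0)))) := by
    have h1 : Integrable φ (volume.restrict (Ioc (0 : ℝ) 1)) :=
      (hφ.integrableOn_Icc (a := 0) (b := 1)).mono_set Ioc_subset_Icc_self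
    have h2 : Integrable ψ (volume.restrict (Ioc 0 (p 0))) :=
      (hψ.integrableOn_Icc (a := 0) (b := p 0)).mono_set Ioc_subset_Icc_self
    exact (h1.mul_prod h2).indicator hDm
  have hswap := MeasureTheory.integral_integral_swap hint
  rw [intervalIntegral.integral_of_le zero_le_one, intervalIntegral.integral_of_le hR0]
  have hL : ∫ y in Ioc (0 : ℝ) 1, φ y * ∫ ρ in (0 : ℝ)..p y, ψ ρ =
      ∫ y in Ioc (0 : ℝ) 1, ∫ ρ in Ioc 0 (p 0), f y ρ := by
    refine setIntegral_congr_fun measurableSet_Ioc fun y hy => ?_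
    have hy' : y ∈ Icc (0 : ℝ) 1 := Ioc_subset_Icc_self hy
    rw [intervalIntegral.integral_of_le (hp.nonneg hy'), ← integral_const_mul]
    have hset : Ioc 0 (p y) = Ioc 0 (p 0) ∩ {ρ | ρ ≤ P y} := by
      ext ρ
      simp only [mem_Ioc, mem_inter_iff, mem_setOf_eq, hP y hy']
      constructor
      · rintro ⟨h1, h2⟩
        exact ⟨⟨h1, h2.trans (hp.le_zero hy')⟩, h2⟩
      · rintro ⟨⟨h1, _⟩, h2⟩
        exact ⟨h1, h2⟩
    have hms : MeasurableSet {ρ : ℝ | ρ ≤ P y} := measurableSet_Iic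
    rw [hset, ← setIntegral_indicator hms]
    refine setIntegral_congr_fun measurableSet_Ioc fun ρ _ => ?_
    simp only [hf, hD]
    by_cases h : ρ ≤ P y
    · rw [indicator_of_mem (show ρ ∈ {ρ | ρ ≤ P y} from h),
        indicator_of_mem (show (y, ρ) ∈ {q : ℝ × ℝ | q.2 ≤ P q.1} from h)]
    · rw [indicator_of_notMem (show ρ ∉ {ρ | ρ ≤ P y} from h),
        indicator_of_notMem (show (y, ρ) ∉ {q : ℝ × ℝ | q.2 ≤ P q.1} from h)]
  have hRr : ∫ ρ in Ioc 0 (p 0), ψ ρ * ∫ y in (0 : ℝ)..lev p ρ, φ y =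
      ∫ ρ in Ioc 0 (p 0), ∫ y in Ioc (0 : ℝ) 1, f y ρ := by
    refine setIntegral_congr_fun measurableSet_Ioc fun ρ hρ => ?_
    rw [intervalIntegral.integral_of_le (lev_nonneg p ρ), ← integral_const_mul]
    have h1 : ∫ y in Ioc (0 : ℝ) 1, f y ρ =
        ∫ y in Ioc (0 : ℝ) 1, (Ioc 0 (lev p ρ)).indicator (fun y => ψ ρ * φ y) y := by
      refine setIntegral_congr_ae measurableSet_Ioc ?_
      have hae : ∀ᵐ y : ℝ ∂volume, y ≠ lev p ρ := by
        simp [ae_iff, measure_singleton]
      filter_upwards [hae] with y hne hy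
      have hy' : y ∈ Icc (0 : ℝ) 1 := Ioc_subset_Icc_self hy
      rcases lt_or_gt_of_ne hne with h | h
      · rw [indicator_of_mem (show y ∈ Ioc 0 (lev p ρ) from ⟨hy.1, h.le⟩)]
        simp only [hf, hD]
        rw [indicator_of_mem (show (y, ρ) ∈ {q : ℝ × ℝ | q.2 ≤ P q.1} by
          simp only [mem_setOf_eq, hP y hy']
          exact le_of_lt_lev hp.anti hy'.1 h)]
        ring
      · rw [indicator_of_notMem (show y ∉ Ioc 0 (lev p ρ) from fun h2 => absurd h2.2 (not_le.2 h))]
        simp only [hf, hD]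
        rw [indicator_of_notMem (show (y, ρ) ∉ {q : ℝ × ℝ | q.2 ≤ P q.1} by
          simp only [mem_setOf_eq, hP y hy', not_le]
          exact lt_of_lev_lt hy'.2 h)]
    rw [h1, setIntegral_indicator measurableSet_Ioc]
    congr 2
    ext y
    simp only [mem_inter_iff, mem_Ioc]
    constructor
    · rintro ⟨h1, h2⟩
      exact ⟨⟨h1, h2.trans (lev_le_one p ρ)⟩, h1, h2⟩
    · rintro ⟨_, h2⟩
      exact h2
  rw [hL, hRr]
  exact hswap

/-- powers -/
theorem int_pow (k : ℕ) : ∫ y in (0 : ℝ)..1, p y ^ (k + 1) =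
    ∫ ρ in (0 : ℝ)..p 0, ((k : ℝ) + 1) * ρ ^ k * lev p ρ := by
  have h := hp.fub (φ := fun _ => 1) (ψ := fun ρ => ((k : ℝ) + 1) * ρ ^ k) (by fun_prop)
    (by fun_prop)
  have h1 : ∀ b : ℝ, ∫ ρ in (0 : ℝ)..b, ((k : ℝ) + 1) * ρ ^ k = b ^ (k + 1) := by
    intro b
    rw [intervalIntegral.integral_const_mul, integral_pow]
    have : (k : ℝ) + 1 ≠ 0 := by positivity
    field_simp
    simp
  simp only [h1, one_mul] at h
  rw [h]
  simp

/-- the second moment -/
theorem int_sq_mul (k : ℕ) : ∫ y in (0 : ℝ)..1, y ^ 2 * p y ^ (k + 1) =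
    ∫ ρ in (0 : ℝ)..p 0, ((k : ℝ) + 1) * ρ ^ k * (lev p ρ ^ 3 / 3) := by
  have h := hp.fub (φ := fun y => y ^ 2) (ψ := fun ρ => ((k : ℝ) + 1) * ρ ^ k) (by fun_prop)
    (by fun_prop)
  have h1 : ∀ b : ℝ, ∫ ρ in (0 : ℝ)..b, ((k : ℝ) + 1) * ρ ^ k = b ^ (k + 1) := by
    intro b
    rw [intervalIntegral.integral_const_mul, integral_pow]
    have : (k : ℝ) + 1 ≠ 0 := by positivity
    field_simp
    simp
  simp only [h1] at h
  rw [h]
  refine intervalIntegral.integral_congr fun ρ _ => ?_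
  simp only [integral_pow]
  norm_num

end IsHalf

end Vale.Agent.P237.J4
end

section

set_option linter.all false

/-!
# P237: the circle profile and its level function
-/

open Real MeasureTheory Set

namespace Vale.Agent.P237.J4

open AllN

theorem circ_concave : ConcaveOn ℝ (Icc 0 1) (fun y : ℝ => √(1 - y ^ 2)) := by
  refine ⟨convex_Icc _ _, ?_⟩
  intro x hx y hy a b ha hb hab
  simp only [smul_eq_mul]
  apply Real.le_sqrt_of_sq_le
  have hX : √(1 - x ^ 2) ^ 2 = 1 - x ^ 2 := Real.sq_sqrt (by nlinarith [hx.1, hx.2])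
  have hY : √(1 - y ^ 2) ^ 2 = 1 - y ^ 2 := Real.sq_sqrt (by nlinarith [hy.1, hy.2])
  set X := √(1 - x ^ 2)
  set Y := √(1 - y ^ 2)
  have h1 : X * Y + x * y ≤ 1 := by nlinarith [sq_nonneg (X - Y), sq_nonneg (x - y)]
  have h2 : 0 ≤ a * b := mul_nonneg ha hb
  have h3 : a * b * (X * Y + x * y) ≤ a * b * 1 := mul_le_mul_of_nonneg_left h1 h2
  have h4 : (a + b) ^ 2 = 1 := by rw [hab]; norm_num
  have h5 : (a * X + b * Y) ^ 2 + (a * x + b * y) ^ 2 =
      a ^ 2 * (X ^ 2 + x ^ 2) + b ^ 2 * (Y ^ 2 + y ^ 2) + 2 * (a * b * (X * Y + x * y)) := by ring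
  rw [hX, hY] at h5
  have h6 : (a + b) ^ 2 = a ^ 2 + b ^ 2 + 2 * (a * b) := by ring
  have h7 : a ^ 2 * (1 - x ^ 2 + x ^ 2) = a ^ 2 := by ring
  have h8 : b ^ 2 * (1 - y ^ 2 + y ^ 2) = b ^ 2 := by ring
  linarith

theorem circ_half : IsHalf (fun y : ℝ => √(1 - y ^ 2)) := by
  refine ⟨circ_concave, ?_, fun y _ => le_rfl⟩
  intro x hx y hy hxy
  apply Real.sqrt_le_sqrt
  nlinarith [hx.1, hy.1]

theorem lev_circ {ρ : ℝ} (hρ : 0 ≤ ρ) : lev (fun y : ℝ => √(1 - y ^ 2)) ρ = √(1 - ρ ^ 2) := by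
  apply le_antisymm _ (circ_half.lev_ge hρ)
  refine Real.sSup_le ?_ (Real.sqrt_nonneg _)
  rintro y ⟨hy, h⟩
  apply Real.le_sqrt_of_sq_le
  have h0 : (0 : ℝ) ≤ 1 - y ^ 2 := by nlinarith [hy.1, hy.2]
  have h1 : √(1 - y ^ 2) ^ 2 = 1 - y ^ 2 := Real.sq_sqrt h0
  have h2 : ρ ^ 2 ≤ √(1 - y ^ 2) ^ 2 := pow_le_pow_left₀ hρ h 2
  linarith

theorem circ_cont : Continuous fun y : ℝ => √(1 - y ^ 2) := by fun_prop

theorem aInt_half (k : ℕ) : ∫ y in (0 : ℝ)..1, √(1 - y ^ 2) ^ k = aInt k / 2 := by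
  have h := integral_even_eq (f := fun y : ℝ => √(1 - y ^ 2) ^ k) (by intro y; simp)
    ((circ_cont.pow k).intervalIntegrable 0 1)
  unfold aInt
  rw [h]
  ring

theorem circ_tail {R : ℝ} (hR : 1 ≤ R) (f g : ℝ → ℝ) (hf : Continuous f) (hg : Continuous g)
    (hg0 : g 0 = 0) :
    ∫ ρ in (0 : ℝ)..R, f ρ * g (√(1 - ρ ^ 2)) = ∫ ρ in (0 : ℝ)..1, f ρ * g (√(1 - ρ ^ 2)) := by
  have hc : Continuous fun ρ : ℝ => f ρ * g (√(1 - ρ ^ 2)) := by fun_prop
  rw [← intervalIntegral.integral_add_adjacent_intervals (hc.intervalIntegrable 0 1)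
    (hc.intervalIntegrable 1 R)]
  have : ∫ ρ in (1 : ℝ)..R, f ρ * g (√(1 - ρ ^ 2)) = 0 := by
    rw [intervalIntegral.integral_of_le hR]
    refine setIntegral_eq_zero_of_forall_eq_zero fun ρ hρ => ?_
    rw [Real.sqrt_eq_zero_of_nonpos (by nlinarith [hρ.1]), hg0, mul_zero]
  rw [this, add_zero]

theorem circ_pow (k : ℕ) {R : ℝ} (hR : 1 ≤ R) :
    ∫ ρ in (0 : ℝ)..R, ((k : ℝ) + 1) * ρ ^ k * √(1 - ρ ^ 2) = aInt (k + 1) / 2 := by
  have h0 := circ_tail hR (fun ρ => ((k : ℝ) + 1) * ρ ^ k) id (by fun_prop) continuous_id rfl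
  simp only [id] at h0
  rw [h0, ← aInt_half]
  have h := circ_half.int_pow k
  rw [h]
  have h1 : √(1 - (0 : ℝ) ^ 2) = 1 := by simp
  rw [h1]
  refine intervalIntegral.integral_congr fun ρ hρ => ?_
  rw [uIcc_of_le zero_le_one] at hρ
  rw [lev_circ hρ.1]

theorem circ_sq_mul (k : ℕ) {R : ℝ} (hR : 1 ≤ R) :
    ∫ ρ in (0 : ℝ)..R, ((k : ℝ) + 1) * ρ ^ k * (√(1 - ρ ^ 2) ^ 3 / 3) =
      (aInt (k + 1) - aInt (k + 3)) / 2 := by
  rw [circ_tail hR (fun ρ => ((k : ℝ) + 1) * ρ ^ k) (fun z => z ^ 3 / 3) (by fun_prop)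
    (by fun_prop) (by norm_num)]
  have h := circ_half.int_sq_mul k
  have h1 : √(1 - (0 : ℝ) ^ 2) = 1 := by simp
  rw [h1] at h
  have h2 : ∫ ρ in (0 : ℝ)..1, ((k : ℝ) + 1) * ρ ^ k * (√(1 - ρ ^ 2) ^ 3 / 3) =
      ∫ ρ in (0 : ℝ)..1, ((k : ℝ) + 1) * ρ ^ k *
        (lev (fun y : ℝ => √(1 - y ^ 2)) ρ ^ 3 / 3) := by
    refine intervalIntegral.integral_congr fun ρ hρ => ?_
    rw [uIcc_of_le zero_le_one] at hρ
    rw [lev_circ hρ.1]
  have i1 : IntervalIntegrable (fun y : ℝ => √(1 - y ^ 2) ^ (k + 1)) volume 0 1 :=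
    (circ_cont.pow _).intervalIntegrable 0 1
  have i2 : IntervalIntegrable (fun y : ℝ => √(1 - y ^ 2) ^ (k + 3)) volume 0 1 :=
    (circ_cont.pow _).intervalIntegrable 0 1
  rw [h2, ← h, sub_div, ← aInt_half, ← aInt_half, ← intervalIntegral.integral_sub i1 i2]
  refine intervalIntegral.integral_congr fun y hy => ?_
  rw [uIcc_of_le zero_le_one] at hy
  have h3 : √(1 - y ^ 2) ^ 2 = 1 - y ^ 2 := Real.sq_sqrt (by nlinarith [hy.1, hy.2])
  rw [pow_add _ k 3, pow_add _ k 1]
  have h4 : √(1 - y ^ 2) ^ 3 = √(1 - y ^ 2) * (1 - y ^ 2) := by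
    calc √(1 - y ^ 2) ^ 3 = √(1 - y ^ 2) * √(1 - y ^ 2) ^ 2 := by ring
      _ = √(1 - y ^ 2) * (1 - y ^ 2) := by rw [h3]
  rw [h4]
  ring

theorem aInt_two : aInt 2 = 4 / 3 := by
  have := Alm.aInt_rec 0
  rw [Alm.aInt_zero] at this
  norm_num at this
  linarith

theorem aInt_three : aInt 3 = 3 * π / 8 := by
  have := Alm.aInt_rec 1
  rw [Alm.aInt_one] at this
  norm_num at this
  linarith

theorem aInt_five : 6 * aInt 5 = 5 * aInt 3 := by
  have := Alm.aInt_rec 3
  norm_num at this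
  linarith

/-- the primitive of `2 σ √(1 - σ²)` -/
theorem circ_prim {a b : ℝ} (ha : 0 ≤ a) (hab : a ≤ b) :
    ∫ σ in a..b, 2 * σ * √(1 - σ ^ 2) = 2 / 3 * (√(1 - a ^ 2) ^ 3 - √(1 - b ^ 2) ^ 3) := by
  have h := integral_eq_of_hasDerivAt_off_countable_of_le
    (fun σ : ℝ => -(2 / 3 * √(1 - σ ^ 2) ^ 3)) (fun σ => 2 * σ * √(1 - σ ^ 2)) hab
    (s := {1}) (countable_singleton 1) (by fun_prop) ?_
    ((by fun_prop : Continuous fun σ : ℝ => 2 * σ * √(1 - σ ^ 2)).intervalIntegrable a b)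
  · rw [h]
    ring
  · rintro x ⟨hx, hx1⟩
    have hx0 : 0 < x := ha.trans_lt hx.1
    rcases lt_or_gt_of_ne (show x ≠ 1 from hx1) with h1 | h1
    · have hpos : 0 < 1 - x ^ 2 := by nlinarith
      have h2 : HasDerivAt (fun y : ℝ => 1 - y ^ 2) (-(2 * x)) x := by
        simpa using (hasDerivAt_pow 2 x).const_sub 1
      have h3 := ((h2.sqrt hpos.ne').pow 3).const_mul (2 / 3)
      refine h3.neg.congr_deriv ?_
      have hs : √(1 - x ^ 2) ≠ 0 := (Real.sqrt_pos.2 hpos).ne'
      field_simp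
      ring
    · have h2 : (fun σ : ℝ => -(2 / 3 * √(1 - σ ^ 2) ^ 3)) =ᶠ[nhds x] fun _ => 0 := by
        filter_upwards [lt_mem_nhds h1] with y hy
        rw [Real.sqrt_eq_zero_of_nonpos (by nlinarith)]
        norm_num
      have h3 : √(1 - x ^ 2) = 0 := Real.sqrt_eq_zero_of_nonpos (by nlinarith)
      rw [h3, mul_zero]
      exact (hasDerivAt_const x (0 : ℝ)).congr_of_eventuallyEq h2

end Vale.Agent.P237.J4
end

section

/-!
# P237, all dimensions: definitions for the transport proof of the one-dimensional statement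
-/

open MeasureTheory Metric Set Module Filter Topology

namespace Vale.Agent.P237.AllN

/-- `√(1-x²)` -/
noncomputable def sq (x : ℝ) : ℝ := Real.sqrt (1 - x ^ 2)

/-- Monotone transport `τ` of the ball law `s^m` to `r^m` on `(0,1)`, with inverse `T`. -/
structure IsTrans (m : ℕ) (r τ τ' T : ℝ → ℝ) : Prop where
  mem : ∀ x ∈ Ioo (0 : ℝ) 1, τ x ∈ Ioo (0 : ℝ) 1
  der : ∀ x ∈ Ioo (0 : ℝ) 1, HasDerivAt τ (τ' x) x
  pos : ∀ x ∈ Ioo (0 : ℝ) 1, 0 < τ' x
  cont : ContinuousOn τ' (Ioo 0 1)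
  Tmem : ∀ y ∈ Ioo (0 : ℝ) 1, T y ∈ Ioo (0 : ℝ) 1
  left : ∀ x ∈ Ioo (0 : ℝ) 1, T (τ x) = x
  right : ∀ y ∈ Ioo (0 : ℝ) 1, τ (T y) = y
  Tder : ∀ y ∈ Ioo (0 : ℝ) 1, HasDerivAt T (τ' (T y))⁻¹ y
  mass : ∀ x ∈ Ioo (0 : ℝ) 1, (∫ t in (0 : ℝ)..τ x, r t ^ m) * (∫ t in (0 : ℝ)..1, sq t ^ m) =
    (∫ t in (0 : ℝ)..x, sq t ^ m) * ∫ t in (0 : ℝ)..1, r t ^ m
  eqn : ∀ x ∈ Ioo (0 : ℝ) 1, τ' x * r (τ x) ^ m * (∫ t in (0 : ℝ)..1, sq t ^ m) =
    sq x ^ m * ∫ t in (0 : ℝ)..1, r t ^ m

/-- the kernel `A` has value at least `v` on the profile `r` -/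
def AdmGe (m : ℕ) (A : ℝ → ℝ → ℝ) (r : ℝ → ℝ) (v : ℝ) : Prop :=
  ∀ ε > (0 : ℝ), ∃ c c' p p' : ℝ → ℝ, Adm A c c' p p' ∧
    v - ε ≤ ∫ y in (-1 : ℝ)..1, (((m : ℝ) + 1) * c y + y * c' y + p' y) * r y ^ m

/-- kernels used: even in `(a,b)`, continuous at the corner -/
structure Kern2 (A : ℝ → ℝ → ℝ) : Prop extends Kern A where
  symm : ∀ a b, A (-a) (-b) = A a b
  corner : ∀ η > (0 : ℝ), ∃ δ > (0 : ℝ), ∀ a ∈ Icc (1 - δ) 1, ∀ b ∈ Icc (1 - δ) 1, |A a b| ≤ η

end Vale.Agent.P237.AllN
end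

section

set_option linter.all false

/-!
# P237, all dimensions: kernels `φ(b) - φ(a)`
-/

open MeasureTheory Metric Set Module Filter Topology

namespace Vale.Agent.P237.AllN

/-! ### profiles on `[-1,1]` -/

theorem corr_r_bd {r : ℝ → ℝ} (hr : IsProf r) {y : ℝ} (hy : y ∈ Icc (-1 : ℝ) 1) :
    0 ≤ r y ∧ r y ≤ r 0 := by
  rcases le_total 0 y with h | h
  · exact ⟨Alm.prof_nn hr ⟨h, hy.2⟩, Alm.prof_le_zero hr ⟨h, hy.2⟩⟩
  · have h1 : -y ∈ Icc (0 : ℝ) 1 := ⟨by linarith only [h], by linarith only [hy.1]⟩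
    rw [← hr.even y]
    exact ⟨Alm.prof_nn hr h1, Alm.prof_le_zero hr h1⟩

theorem corr_r_ii {r : ℝ → ℝ} (hr : IsProf r) (m : ℕ) :
    IntervalIntegrable (fun y => r y ^ m) volume (-1) 1 := by
  have h1 : IntervalIntegrable (fun y => r y ^ m) volume 0 1 :=
    Alm.prof_pow_ii hr m ⟨le_rfl, zero_le_one⟩ ⟨zero_le_one, le_rfl⟩
  have h2 : IntervalIntegrable (fun y => r y ^ m) volume (-1) 0 := by
    have h3 := (IntervalIntegrable.iff_comp_neg (f := fun y => r y ^ m) (a := 0) (b := 1)).1 h1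
    rw [neg_zero] at h3
    have h4 : (fun y => r (-y) ^ m) = fun y => r y ^ m := by
      funext y
      rw [hr.even]
    rw [h4] at h3
    exact h3.symm
  exact h2.trans h1

theorem corr_cont_ii {r : ℝ → ℝ} (hr : IsProf r) (m : ℕ) {f : ℝ → ℝ} (hf : Continuous f) :
    IntervalIntegrable (fun y => f y * r y ^ m) volume (-1) 1 :=
  (corr_r_ii hr m).continuousOn_mul hf.continuousOn

theorem AdmGe.add {m : ℕ} {A B : ℝ → ℝ → ℝ} {r : ℝ → ℝ} (hr : IsProf r) {v w : ℝ}
    (hA : AdmGe m A r v) (hB : AdmGe m B r w) : AdmGe m (fun a b => A a b + B a b) r (v + w) := by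
  intro ε hε
  obtain ⟨c1, c1', p1, p1', h1, h2⟩ := hA (ε / 2) (by linarith only [hε])
  obtain ⟨c2, c2', p2, p2', h3, h4⟩ := hB (ε / 2) (by linarith only [hε])
  refine ⟨fun y => c1 y + c2 y, fun y => c1' y + c2' y, fun y => p1 y + p2 y,
    fun y => p1' y + p2' y, ⟨fun y => (h1.hc y).add (h3.hc y), h1.hc'.add h3.hc',
      fun y => (h1.hp y).add (h3.hp y), h1.hp'.add h3.hp', fun a ha b hb => ?_⟩, ?_⟩
  · have e1 := h1.hsup a ha b hb
    have e2 := h3.hsup a ha b hb
    linarith only [e1, e2]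
  · have i1 : Continuous c1 := continuous_iff_continuousAt.2 fun y => (h1.hc y).continuousAt
    have i2 : Continuous c2 := continuous_iff_continuousAt.2 fun y => (h3.hc y).continuousAt
    have j1 : Continuous (fun y => ((m : ℝ) + 1) * c1 y + y * c1' y + p1' y) :=
      ((continuous_const.mul i1).add (continuous_id.mul h1.hc')).add h1.hp'
    have j2 : Continuous (fun y => ((m : ℝ) + 1) * c2 y + y * c2' y + p2' y) :=
      ((continuous_const.mul i2).add (continuous_id.mul h3.hc')).add h3.hp'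
    have e : ∀ y, (((m : ℝ) + 1) * (c1 y + c2 y) + y * (c1' y + c2' y) + (p1' y + p2' y)) * r y ^ m
        = (((m : ℝ) + 1) * c1 y + y * c1' y + p1' y) * r y ^ m
          + (((m : ℝ) + 1) * c2 y + y * c2' y + p2' y) * r y ^ m := fun y => by ring
    simp only [e]
    rw [intervalIntegral.integral_add (corr_cont_ii hr m j1) (corr_cont_ii hr m j2)]
    linarith

/-! ### the contractions `θ_N(y) = y (1 + y^(2N))^(-1/(2N))` of the line into `(-1,1)` -/

/-- weight -/
noncomputable def cw (N : ℕ) (y : ℝ) : ℝ := (1 + y ^ (2 * N)) ^ (-(1 / (2 * (N : ℝ))))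

/-- the contraction -/
noncomputable def cth (N : ℕ) (y : ℝ) : ℝ := y * cw N y

/-- its derivative -/
noncomputable def cth' (N : ℕ) (y : ℝ) : ℝ := cw N y / (1 + y ^ (2 * N))

theorem cbase_ge (N : ℕ) (y : ℝ) : 1 ≤ 1 + y ^ (2 * N) := by
  have : 0 ≤ y ^ (2 * N) := by rw [pow_mul]; (clear * -; positivity)
  linarith only [this]

theorem cw_pos (N : ℕ) (y : ℝ) : 0 < cw N y :=
  Real.rpow_pos_of_pos (by linarith [cbase_ge N y]) _

theorem cw_le (N : ℕ) (y : ℝ) : cw N y ≤ 1 :=
  Real.rpow_le_one_of_one_le_of_nonpos (cbase_ge N y) (by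
    have : 0 ≤ 1 / (2 * (N : ℝ)) := by positivity
    linarith)

theorem cw_pow {N : ℕ} (hN : 0 < N) (y : ℝ) : cw N y ^ (2 * N) = (1 + y ^ (2 * N))⁻¹ := by
  have h0 : (0 : ℝ) < 1 + y ^ (2 * N) := by linarith only [cbase_ge N y]
  unfold cw
  rw [← Real.rpow_natCast, ← Real.rpow_mul h0.le, ← Real.rpow_neg_one]
  congr 1
  push_cast
  have : (N : ℝ) ≠ 0 := by (clear * - hN; positivity)
  field_simp

theorem cth_mem {N : ℕ} (hN : 0 < N) (y : ℝ) : cth N y ∈ Ioo (-1 : ℝ) 1 := by
  have h0 : (0 : ℝ) < 1 + y ^ (2 * N) := by linarith only [cbase_ge N y]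
  have h1 : cth N y ^ (2 * N) < 1 := by
    unfold cth
    rw [mul_pow, cw_pow hN, ← div_eq_mul_inv, div_lt_one h0]
    linarith only []
  have h2 : |cth N y| < 1 := by
    by_contra hcon
    push Not at hcon
    have h3 : 1 ≤ |cth N y| ^ (2 * N) := one_le_pow₀ hcon
    rw [pow_mul, sq_abs, ← pow_mul] at h3
    linarith only [h1, h3]
  exact abs_lt.1 h2

theorem cth'_pos (N : ℕ) (y : ℝ) : 0 < cth' N y :=
  div_pos (cw_pos N y) (by linarith [cbase_ge N y])

theorem cth'_le (N : ℕ) (y : ℝ) : cth' N y ≤ 1 := by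
  unfold cth'
  rw [div_le_one (by linarith [cbase_ge N y])]
  exact (cw_le N y).trans (cbase_ge N y)

theorem cw_hasDerivAt (N : ℕ) (y : ℝ) : HasDerivAt (cw N)
    (((2 * N : ℕ) : ℝ) * y ^ (2 * N - 1) * (-(1 / (2 * (N : ℝ)))) *
      (1 + y ^ (2 * N)) ^ (-(1 / (2 * (N : ℝ))) - 1)) y := by
  have h1 : HasDerivAt (fun y : ℝ => 1 + y ^ (2 * N)) (((2 * N : ℕ) : ℝ) * y ^ (2 * N - 1)) y :=
    (hasDerivAt_pow (2 * N) y).const_add 1
  exact h1.rpow_const (Or.inl (by
    have := cbase_ge N y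
    intro h
    linarith))

theorem cth_hasDerivAt {N : ℕ} (hN : 0 < N) (y : ℝ) : HasDerivAt (cth N) (cth' N y) y := by
  have h0 : (0 : ℝ) < 1 + y ^ (2 * N) := by (clear * -; linarith [cbase_ge N y])
  have h1 := (hasDerivAt_id y).mul (cw_hasDerivAt N y)
  refine h1.congr_deriv ?_
  have hN' : (N : ℝ) ≠ 0 := by positivity
  have e1 : (1 + y ^ (2 * N)) ^ (-(1 / (2 * (N : ℝ))) - 1) = cw N y / (1 + y ^ (2 * N)) := by
    rw [Real.rpow_sub h0, Real.rpow_one]
    rfl
  have e2 : y * y ^ (2 * N - 1) = y ^ (2 * N) := by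
    rw [← pow_succ']
    congr 1
    omega
  rw [e1]
  unfold cth'
  simp only [id_eq, one_mul]
  have e3 : y * (((2 * N : ℕ) : ℝ) * y ^ (2 * N - 1) * (-(1 / (2 * (N : ℝ)))) *
      (cw N y / (1 + y ^ (2 * N)))) = -(y * y ^ (2 * N - 1)) * (cw N y / (1 + y ^ (2 * N))) := by
    push_cast
    field_simp
  rw [e3, e2]
  field_simp
  ring

theorem cw_cont (N : ℕ) : Continuous (cw N) :=
  continuous_iff_continuousAt.2 fun y => (cw_hasDerivAt N y).continuousAt

theorem cth_cont (N : ℕ) : Continuous (cth N) := continuous_id.mul (cw_cont N)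

theorem cth'_cont (N : ℕ) : Continuous (cth' N) := by
  unfold cth'
  exact (cw_cont N).div (by (clear * -; fun_prop)) fun y => by
    have := cbase_ge N y
    intro h
    linarith

theorem cth_sq_le (N : ℕ) (y : ℝ) : cth N y ^ 2 ≤ y * cth N y := by
  unfold cth
  have h1 := cw_pos N y
  have h2 := cw_le N y
  have h3 : y * (y * cw N y) - (y * cw N y) ^ 2 = y ^ 2 * (cw N y * (1 - cw N y)) := by ring
  have h4 : 0 ≤ y ^ 2 * (cw N y * (1 - cw N y)) :=
    mul_nonneg (sq_nonneg _) (mul_nonneg h1.le (by linarith))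
  linarith only [h4]

theorem cw_tendsto {y : ℝ} (hy : y ∈ Ioo (-1 : ℝ) 1) :
    Tendsto (fun N : ℕ => cw N y) atTop (𝓝 1) := by
  have h1 : Tendsto (fun N : ℕ => (2 : ℝ) ^ (-(1 / (2 * (N : ℝ))))) atTop (𝓝 1) := by
    have h2 : Tendsto (fun N : ℕ => -(1 / (2 * (N : ℝ)))) atTop (𝓝 (-0)) := by
      refine Tendsto.neg ?_
      have h3 : Tendsto (fun N : ℕ => (2 * (N : ℝ))) atTop atTop :=
        tendsto_natCast_atTop_atTop.const_mul_atTop (by norm_num)
      have h4 := h3.inv_tendsto_atTop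
      refine h4.congr fun N => ?_
      rw [Pi.inv_apply, one_div]
    rw [neg_zero] at h2
    have h4 := (Real.continuousAt_const_rpow (a := 2) (b := 0) (by norm_num)).tendsto.comp h2
    rw [Real.rpow_zero] at h4
    exact h4
  refine tendsto_of_tendsto_of_tendsto_of_le_of_le h1 tendsto_const_nhds (fun N => ?_)
    fun N => cw_le N y
  have h0 : (0 : ℝ) < 1 + y ^ (2 * N) := by linarith [cbase_ge N y]
  have h5 : 1 + y ^ (2 * N) ≤ 2 := by
    have : y ^ (2 * N) ≤ 1 := by
      rw [pow_mul]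
      exact pow_le_one₀ (sq_nonneg y) (by nlinarith only [hy.1, hy.2])
    linarith only [this]
  exact Real.rpow_le_rpow_of_nonpos h0 h5 (by
    have : 0 ≤ 1 / (2 * (N : ℝ)) := by (clear * -; positivity)
    linarith only [this])

theorem cth_tendsto {y : ℝ} (hy : y ∈ Ioo (-1 : ℝ) 1) :
    Tendsto (fun N : ℕ => cth N y) atTop (𝓝 y) := by
  have := (cw_tendsto hy).const_mul y
  rw [mul_one] at this
  exact this

theorem cth'_tendsto {y : ℝ} (hy : y ∈ Ioo (-1 : ℝ) 1) :
    Tendsto (fun N : ℕ => cth' N y) atTop (𝓝 1) := by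
  have h1 : Tendsto (fun N : ℕ => 1 + y ^ (2 * N)) atTop (𝓝 (1 + 0)) := by
    refine Tendsto.const_add 1 ?_
    have h2 : Tendsto (fun N : ℕ => (y ^ 2) ^ N) atTop (𝓝 0) :=
      tendsto_pow_atTop_nhds_zero_of_lt_one (sq_nonneg y) (by nlinarith only [hy.1, hy.2])
    simpa only [← pow_mul] using h2
  have h3 := (cw_tendsto hy).div h1 (by norm_num)
  rw [add_zero, div_one] at h3
  exact h3

/-! ### the derivative of `k` -/

section

variable {m : ℕ} {k h : ℝ → ℝ}

/-- `k'` on `(-1,1)` -/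
noncomputable def ckd (m : ℕ) (k h : ℝ → ℝ) (z : ℝ) : ℝ :=
  (h z + ((m : ℝ) + 2) * z * k z) / (1 - z ^ 2)

theorem one_sub_sq_pos {z : ℝ} (hz : z ∈ Ioo (-1 : ℝ) 1) : 0 < 1 - z ^ 2 := by
  nlinarith only [hz.1, hz.2]

theorem sq_hasDerivAt {z : ℝ} (hz : z ∈ Ioo (-1 : ℝ) 1) : HasDerivAt sq (-z / sq z) z := by
  have h1 : HasDerivAt (fun x : ℝ => 1 - x ^ 2) (-(2 * z)) z := by
    have := (hasDerivAt_pow 2 z).const_sub 1
    simpa only [Nat.cast_ofNat, Nat.add_one_sub_one, pow_one] using this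
  have h2 := h1.sqrt (one_sub_sq_pos hz).ne'
  refine h2.congr_deriv ?_
  unfold sq
  have h3 : 0 < Real.sqrt (1 - z ^ 2) := Real.sqrt_pos.2 (one_sub_sq_pos hz)
  (clear * - h3; field_simp)

theorem ckd_hasDerivAt
    (hode : ∀ y ∈ Ioo (-1 : ℝ) 1, HasDerivAt (fun y => sq y ^ (m + 2) * k y) (sq y ^ m * h y) y)
    {z : ℝ} (hz : z ∈ Ioo (-1 : ℝ) 1) : HasDerivAt k (ckd m k h z) z := by
  have hs : ∀ x ∈ Ioo (-1 : ℝ) 1, 0 < sq x := fun x hx => Real.sqrt_pos.2 (one_sub_sq_pos hx)
  have hs2 : sq z ^ 2 = 1 - z ^ 2 := Real.sq_sqrt (one_sub_sq_pos hz).le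
  have h1 : HasDerivAt (fun y => sq y ^ (m + 2)) (((m + 2 : ℕ) : ℝ) * sq z ^ (m + 1) * (-z / sq z)) z :=
    (sq_hasDerivAt hz).pow (m + 2)
  have h2 := (hode z hz).div h1 (pow_pos (hs z hz) (m + 2)).ne'
  have h3 : k =ᶠ[𝓝 z] fun y => (sq y ^ (m + 2) * k y) / sq y ^ (m + 2) := by
    filter_upwards [isOpen_Ioo.mem_nhds hz] with x hx
    rw [mul_div_cancel_left₀ _ (pow_pos (hs x hx) (m + 2)).ne']
  refine (h2.congr_of_eventuallyEq h3).congr_deriv ?_
  unfold ckd
  rw [← hs2]
  have h4 := (hs z hz).ne'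
  push_cast
  field_simp
  ring

theorem ckd_contOn (hk : Continuous k) (hh : ContinuousOn h (Icc (-1) 1)) :
    ContinuousOn (ckd m k h) (Ioo (-1) 1) := by
  unfold ckd
  refine ContinuousOn.div ((hh.mono Ioo_subset_Icc_self).add
    ((continuous_const.mul continuous_id).mul hk).continuousOn) (by fun_prop) fun z hz =>
      (one_sub_sq_pos hz).ne'

end

/-- tangent line -/
theorem corr_tangent {φ k : ℝ → ℝ} (hφ : ∀ y, HasDerivAt φ (k y) y)
    (hconv : ConvexOn ℝ (Icc (-1) 1) φ) {z b : ℝ} (hz : z ∈ Icc (-1 : ℝ) 1)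
    (hb : b ∈ Icc (-1 : ℝ) 1) : φ z + k z * (b - z) ≤ φ b := by
  rcases lt_trichotomy z b with h | h | h
  · have h1 := hconv.le_slope_of_hasDerivAt hz hb h (hφ z)
    rw [slope_def_field, le_div_iff₀ (by linarith only [h])] at h1
    linarith only [h1]
  · rw [h]; simp
  · have h1 := hconv.slope_le_of_hasDerivAt hb hz h (hφ z)
    rw [slope_def_field, div_le_iff₀ (by linarith only [h])] at h1
    linarith only [h1]

/-- `φ` convex, even, `C¹` on `[-1,1]`: value of the kernel `φ(b) - φ(a)` with test point `y`.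
`h = (1-y²) φ'' - (m+2) y φ'`. -/
theorem admGe_phi {m : ℕ} (hm : 1 ≤ m) {φ k h : ℝ → ℝ} (hφ : ∀ y, HasDerivAt φ (k y) y)
    (hk : Continuous k) (hconv : ConvexOn ℝ (Icc (-1) 1) φ) (heven : ∀ y, φ (-y) = φ y)
    (hh : ContinuousOn h (Icc (-1) 1))
    (hode : ∀ y ∈ Ioo (-1 : ℝ) 1, HasDerivAt (fun y => sq y ^ (m + 2) * k y) (sq y ^ m * h y) y)
    {r : ℝ → ℝ} (hr : IsProf r) :
    AdmGe m (fun a b => φ b - φ a) r (∫ y in (-1 : ℝ)..1, h y * r y ^ m) := by
  have hkd : ∀ z ∈ Ioo (-1 : ℝ) 1, HasDerivAt k (ckd m k h z) z := fun z hz =>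
    ckd_hasDerivAt hode hz
  have hkc : ContinuousOn (ckd m k h) (Ioo (-1) 1) := ckd_contOn hk hh
  have hφc : Continuous φ := continuous_iff_continuousAt.2 fun y => (hφ y).continuousAt
  -- the pairs
  obtain ⟨c, hc⟩ : ∃ c : ℕ → ℝ → ℝ, ∀ N y, c N y = φ (cth N y) - cth N y * k (cth N y) - φ y :=
    ⟨fun N y => φ (cth N y) - cth N y * k (cth N y) - φ y, fun _ _ => rfl⟩
  obtain ⟨c', hc'⟩ : ∃ c' : ℕ → ℝ → ℝ, ∀ N y, c' N y =
      -(cth N y * cth' N y * ckd m k h (cth N y)) - k y :=
    ⟨fun N y => -(cth N y * cth' N y * ckd m k h (cth N y)) - k y, fun _ _ => rfl⟩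
  obtain ⟨p', hp'⟩ : ∃ p' : ℕ → ℝ → ℝ, ∀ N y, p' N y = ckd m k h (cth N y) * cth' N y :=
    ⟨fun N y => ckd m k h (cth N y) * cth' N y, fun _ _ => rfl⟩
  have hkcomp : ∀ N : ℕ, 0 < N → Continuous (fun y => ckd m k h (cth N y)) := fun N hN =>
    hkc.comp_continuous (cth_cont N) fun y => cth_mem hN y
  have hc'c : ∀ N : ℕ, 0 < N → Continuous (c' N) := by
    intro N hN
    have : c' N = fun y => -(cth N y * cth' N y * ckd m k h (cth N y)) - k y := funext (hc' N)
    rw [this]
    exact (((cth_cont N).mul (cth'_cont N)).mul (hkcomp N hN)).neg.sub hk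
  have hp'c : ∀ N : ℕ, 0 < N → Continuous (p' N) := by
    intro N hN
    have : p' N = fun y => ckd m k h (cth N y) * cth' N y := funext (hp' N)
    rw [this]
    exact (hkcomp N hN).mul (cth'_cont N)
  have hcc : ∀ N : ℕ, Continuous (c N) := by
    intro N
    have : c N = fun y => φ (cth N y) - cth N y * k (cth N y) - φ y := funext (hc N)
    rw [this]
    exact ((hφc.comp (cth_cont N)).sub ((cth_cont N).mul (hk.comp (cth_cont N)))).sub hφc
  have hadm : ∀ N : ℕ, 0 < N →
      Adm (fun a b => φ b - φ a) (c N) (c' N) (fun y => k (cth N y)) (p' N) := by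
    intro N hN
    refine ⟨fun y => ?_, hc'c N hN, fun y => ?_, hp'c N hN, fun a ha b hb => ?_⟩
    · have e : c N = fun y => φ (cth N y) - cth N y * k (cth N y) - φ y := funext (hc N)
      have h1 := (hφ (cth N y)).comp y (cth_hasDerivAt hN y)
      have h2 := (hkd (cth N y) (cth_mem hN y)).comp y (cth_hasDerivAt hN y)
      have h3 := (h1.sub ((cth_hasDerivAt hN y).mul h2)).sub (hφ y)
      rw [e, hc']
      refine h3.congr_deriv ?_
      simp only [Function.comp]
      ring
    · rw [hp']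
      exact (hkd (cth N y) (cth_mem hN y)).comp y (cth_hasDerivAt hN y)
    · have h1 := corr_tangent hφ hconv (Ioo_subset_Icc_self (cth_mem hN a)) hb
      rw [hc]
      linarith only [h1]
  -- bounds
  obtain ⟨B1, hB1⟩ := isCompact_Icc.exists_bound_of_continuousOn (s := Icc (-1 : ℝ) 1)
    (f := φ) hφc.continuousOn
  obtain ⟨B2, hB2⟩ := isCompact_Icc.exists_bound_of_continuousOn (s := Icc (-1 : ℝ) 1)
    (f := k) hk.continuousOn
  obtain ⟨B3, hB3⟩ := isCompact_Icc.exists_bound_of_continuousOn (s := Icc (-1 : ℝ) 1)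
    (f := h) hh
  have hB10 : 0 ≤ B1 := (norm_nonneg _).trans (hB1 0 ⟨by norm_num, by norm_num⟩)
  have hB20 : 0 ≤ B2 := (norm_nonneg _).trans (hB2 0 ⟨by norm_num, by norm_num⟩)
  have hB30 : 0 ≤ B3 := (norm_nonneg _).trans (hB3 0 ⟨by norm_num, by norm_num⟩)
  simp only [Real.norm_eq_abs] at hB1 hB2 hB3
  have hm0 : (0 : ℝ) ≤ m := Nat.cast_nonneg m
  have habs1 : ∀ z ∈ Icc (-1 : ℝ) 1, |z * k z| ≤ B2 := by
    intro z hz
    rw [abs_mul]
    calc |z| * |k z| ≤ 1 * B2 := mul_le_mul (abs_le.2 ⟨by linarith only [hz.1], hz.2⟩) (hB2 z hz)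
          (abs_nonneg _) zero_le_one
      _ = B2 := one_mul _
  have hkey : ∀ N : ℕ, 0 < N → ∀ y ∈ Icc (-1 : ℝ) 1,
      |ckd m k h (cth N y) * cth' N y * (1 - y * cth N y)| ≤ B3 + (m + 2) * B2 := by
    intro N hN y hy
    have hz := cth_mem hN y
    have h1 := one_sub_sq_pos hz
    have h2 := cth_sq_le N y
    have h3 := cth'_pos N y
    have h4 := cth'_le N y
    have h5 : 0 ≤ 1 - y * cth N y := by
      have : |y * cth N y| ≤ 1 := by
        rw [abs_mul]
        exact mul_le_one₀ (abs_le.2 hy) (abs_nonneg _) (abs_le.2 ⟨hz.1.le, hz.2.le⟩)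
      linarith only [(abs_le.1 this).2]
    have h6 : cth' N y * (1 - y * cth N y) ≤ 1 - cth N y ^ 2 := by
      calc cth' N y * (1 - y * cth N y) ≤ 1 * (1 - y * cth N y) :=
            mul_le_mul_of_nonneg_right h4 h5
        _ ≤ 1 - cth N y ^ 2 := by linarith only [h2]
    have h7 : |h (cth N y) + ((m : ℝ) + 2) * cth N y * k (cth N y)| ≤ B3 + (m + 2) * B2 := by
      refine (abs_add_le _ _).trans (add_le_add (hB3 _ (Ioo_subset_Icc_self hz)) ?_)
      rw [mul_assoc, abs_mul, abs_of_nonneg (by linarith only [] : (0 : ℝ) ≤ (m : ℝ) + 2)]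
      exact mul_le_mul_of_nonneg_left (habs1 _ (Ioo_subset_Icc_self hz)) (by linarith only [])
    have h8 : ckd m k h (cth N y) * cth' N y * (1 - y * cth N y) =
        (h (cth N y) + ((m : ℝ) + 2) * cth N y * k (cth N y)) *
          (cth' N y * (1 - y * cth N y) / (1 - cth N y ^ 2)) := by
      unfold ckd
      (clear * - h3 h1; field_simp)
    rw [h8, abs_mul, abs_of_nonneg (div_nonneg (mul_nonneg h3.le h5) h1.le)]
    calc |h (cth N y) + ((m : ℝ) + 2) * cth N y * k (cth N y)| *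
          (cth' N y * (1 - y * cth N y) / (1 - cth N y ^ 2)) ≤ (B3 + (m + 2) * B2) * 1 :=
          mul_le_mul h7 ((div_le_one h1).2 h6) (div_nonneg (mul_nonneg h3.le h5) h1.le)
            (by (clear * - hB30 hm hB20; positivity))
      _ = B3 + (m + 2) * B2 := mul_one _
  obtain ⟨f, hf⟩ : ∃ f : ℕ → ℝ → ℝ, ∀ N y, f N y = ((m : ℝ) + 1) * c N y + y * c' N y + p' N y :=
    ⟨fun N y => ((m : ℝ) + 1) * c N y + y * c' N y + p' N y, fun _ _ => rfl⟩
  have hfc : ∀ N : ℕ, 0 < N → Continuous (f N) := by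
    intro N hN
    have : f N = fun y => ((m : ℝ) + 1) * c N y + y * c' N y + p' N y := funext (hf N)
    rw [this]
    exact ((continuous_const.mul (hcc N)).add (continuous_id.mul (hc'c N hN))).add (hp'c N hN)
  obtain ⟨C, hC⟩ : ∃ C : ℝ, C = ((m : ℝ) + 1) * (B1 + B2 + B1) + B2 + (B3 + (m + 2) * B2) :=
    ⟨_, rfl⟩
  have hfb : ∀ N : ℕ, 0 < N → ∀ y ∈ Icc (-1 : ℝ) 1, |f N y| ≤ C := by
    intro N hN y hy
    have hz := Ioo_subset_Icc_self (cth_mem hN y)
    have e : f N y = ((m : ℝ) + 1) * (φ (cth N y) - cth N y * k (cth N y) - φ y) - y * k y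
        + ckd m k h (cth N y) * cth' N y * (1 - y * cth N y) := by
      rw [hf, hc, hc', hp']; ring
    rw [e, hC]
    refine (abs_add_le _ _).trans (add_le_add ?_ (hkey N hN y hy))
    refine (abs_sub _ _).trans (add_le_add ?_ (habs1 y hy))
    rw [abs_mul, abs_of_nonneg (by linarith only [] : (0 : ℝ) ≤ (m : ℝ) + 1)]
    refine mul_le_mul_of_nonneg_left ?_ (by linarith only [])
    refine (abs_sub _ _).trans (add_le_add ?_ (hB1 y hy))
    exact (abs_sub _ _).trans (add_le_add (hB1 _ hz) (habs1 _ hz))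
  have hft : ∀ y ∈ Ioo (-1 : ℝ) 1, Tendsto (fun N => f N y) atTop (𝓝 (h y)) := by
    intro y hy
    have t1 := cth_tendsto hy
    have t2 := cth'_tendsto hy
    have t3 : Tendsto (fun N => ckd m k h (cth N y)) atTop (𝓝 (ckd m k h y)) :=
      ((hkc.continuousAt (isOpen_Ioo.mem_nhds hy)).tendsto).comp t1
    have t4 : Tendsto (fun N => φ (cth N y)) atTop (𝓝 (φ y)) := (hφc.tendsto y).comp t1
    have t5 : Tendsto (fun N => k (cth N y)) atTop (𝓝 (k y)) := (hk.tendsto y).comp t1
    have t6 := ((((t4.sub (t1.mul t5)).sub_const (φ y)).const_mul ((m : ℝ) + 1)).add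
      ((((t1.mul t2).mul t3).neg.sub_const (k y)).const_mul y)).add (t3.mul t2)
    have e : (((m : ℝ) + 1) * (φ y - y * k y - φ y) + y * (-(y * 1 * ckd m k h y) - k y)
        + ckd m k h y * 1) = h y := by
      have h1 := (one_sub_sq_pos hy).ne'
      have h2 : ckd m k h y * (1 - y ^ 2) = h y + ((m : ℝ) + 2) * y * k y := by
        unfold ckd
        rw [div_mul_cancel₀ _ h1]
      linear_combination h2
    rw [e] at t6
    refine t6.congr fun N => ?_
    rw [hf, hc, hc', hp']
  -- convergence of the integrals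
  have hlim : Tendsto (fun N => ∫ y in (-1 : ℝ)..1, f N y * r y ^ m) atTop
      (𝓝 (∫ y in (-1 : ℝ)..1, h y * r y ^ m)) := by
    refine intervalIntegral.tendsto_integral_filter_of_dominated_convergence
      (fun _ => C * r 0 ^ m) ?_ ?_ (by simp) ?_
    · filter_upwards [eventually_gt_atTop 0] with N hN
      have := (corr_cont_ii hr m (hfc N hN)).def'
      exact this.aestronglyMeasurable
    · filter_upwards [eventually_gt_atTop 0] with N hN
      refine Eventually.of_forall fun y hy => ?_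
      rw [uIoc_of_le (by norm_num)] at hy
      have hy' : y ∈ Icc (-1 : ℝ) 1 := ⟨hy.1.le, hy.2⟩
      obtain ⟨h1, h2⟩ := corr_r_bd hr hy'
      rw [Real.norm_eq_abs, abs_mul, abs_of_nonneg (pow_nonneg h1 m)]
      exact mul_le_mul (hfb N hN y hy') (pow_le_pow_left₀ h1 h2 m) (pow_nonneg h1 m)
        ((abs_nonneg _).trans (hfb N hN y hy'))
    · have h1 : ∀ᵐ y : ℝ, y ≠ 1 := by
        rw [ae_iff]
        simp
      filter_upwards [h1] with y hy1 hy
      rw [uIoc_of_le (by norm_num)] at hy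
      exact (hft y ⟨hy.1, lt_of_le_of_ne hy.2 hy1⟩).mul_const _
  intro ε hε
  have h1 := hlim.eventually (lt_mem_nhds (show (∫ y in (-1 : ℝ)..1, h y * r y ^ m) - ε <
    ∫ y in (-1 : ℝ)..1, h y * r y ^ m by linarith only [hε]))
  obtain ⟨N, hN1, hN2⟩ := (h1.and (eventually_gt_atTop 0)).exists
  refine ⟨c N, c' N, fun y => k (cth N y), p' N, hadm N hN2, ?_⟩
  simp only [← hf]
  exact hN1.le

end Vale.Agent.P237.AllN
end

section

/-!
# P237, all dimensions: the correction kernel `φ(b) - φ(a)` of the f-chart certificate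

`h = g0 - ḡ`, `g0 = s/(1+s)`, `k = φ'`, `(s^(m+2) k)' = s^m h`.
-/

open MeasureTheory Metric Set Module Filter Topology

namespace Vale.Agent.P237.AllN

/-- `s/(1+s)` -/
noncomputable def bg (y : ℝ) : ℝ := sq y / (1 + sq y)

/-- mean of `bg` for the ball -/
noncomputable def bgm (m : ℕ) : ℝ :=
  (∫ t in (0 : ℝ)..1, sq t ^ m * bg t) / ∫ t in (0 : ℝ)..1, sq t ^ m

/-- primitive of `s^m (bg - ḡ)` -/
noncomputable def bN (m : ℕ) (y : ℝ) : ℝ := ∫ t in (0 : ℝ)..y, sq t ^ m * (bg t - bgm m)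

/-- derivative of the correction -/
noncomputable def bk (m : ℕ) (y : ℝ) : ℝ := bN m y / sq y ^ (m + 2)

/-- the correction -/
noncomputable def bφ (m : ℕ) (y : ℝ) : ℝ := ∫ t in (0 : ℝ)..y, bk m t

theorem br_sq_cont : Continuous sq := by
  unfold sq
  fun_prop

theorem br_sq_nonneg (x : ℝ) : 0 ≤ sq x := Real.sqrt_nonneg _

theorem br_sq_even (x : ℝ) : sq (-x) = sq x := by
  unfold sq
  rw [neg_sq]

theorem br_sq_pos {x : ℝ} (hx : x ∈ Ioo (-1 : ℝ) 1) : 0 < sq x := by
  unfold sq
  apply Real.sqrt_pos.2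
  nlinarith only [hx.1, hx.2]

theorem br_sq_le_one (x : ℝ) : sq x ≤ 1 := by
  unfold sq
  rw [Real.sqrt_le_one]
  nlinarith only []

theorem br_sq_sq {x : ℝ} (hx : x ∈ Icc (-1 : ℝ) 1) : sq x ^ 2 = 1 - x ^ 2 := by
  unfold sq
  rw [Real.sq_sqrt]
  nlinarith [hx.1, hx.2]

theorem br_sq_one : sq 1 = 0 := by
  unfold sq
  norm_num

theorem bg_cont : Continuous bg := by
  unfold bg
  exact br_sq_cont.div (continuous_const.add br_sq_cont) fun x => by
    have := br_sq_nonneg x
    positivity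

theorem bg_nonneg (x : ℝ) : 0 ≤ bg x := by
  have := br_sq_nonneg x
  unfold bg
  positivity

theorem bg_le_half (x : ℝ) : bg x ≤ 1 / 2 := by
  have h0 := br_sq_nonneg x
  have h1 := br_sq_le_one x
  unfold bg
  rw [div_le_div_iff₀ (by linarith) (by norm_num)]
  linarith only [h1]

theorem bg_even (x : ℝ) : bg (-x) = bg x := by
  unfold bg
  rw [br_sq_even]

theorem br_Z_pos (m : ℕ) : 0 < ∫ t in (0 : ℝ)..1, sq t ^ m := by
  apply intervalIntegral.intervalIntegral_pos_of_pos_on
  · exact (br_sq_cont.pow m).intervalIntegrable _ _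
  · intro t ht
    exact pow_pos (br_sq_pos ⟨by linarith only [ht.1], ht.2⟩) m
  · exact zero_lt_one

theorem bgm_le_half (m : ℕ) : bgm m ≤ 1 / 2 := by
  unfold bgm
  rw [div_le_iff₀ (br_Z_pos m), ← intervalIntegral.integral_const_mul]
  apply intervalIntegral.integral_mono_on zero_le_one
  · exact ((br_sq_cont.pow m).mul bg_cont).intervalIntegrable _ _
  · exact (continuous_const.mul (br_sq_cont.pow m)).intervalIntegrable _ _
  · intro t _
    have h1 := bg_le_half t
    have h2 := pow_nonneg (br_sq_nonneg t) m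
    nlinarith only [h1, h2]

theorem bgm_nonneg (m : ℕ) : 0 ≤ bgm m := by
  unfold bgm
  apply div_nonneg _ (br_Z_pos m).le
  apply intervalIntegral.integral_nonneg zero_le_one
  intro t _
  exact mul_nonneg (pow_nonneg (br_sq_nonneg t) m) (bg_nonneg t)

theorem bN_cont_int (m : ℕ) : Continuous fun t => sq t ^ m * (bg t - bgm m) :=
  (br_sq_cont.pow m).mul (bg_cont.sub continuous_const)

theorem bN_hasDerivAt (m : ℕ) (y : ℝ) :
    HasDerivAt (bN m) (sq y ^ m * (bg y - bgm m)) y :=
  ((bN_cont_int m).integral_hasStrictDerivAt 0 y).hasDerivAt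

theorem bN_cont (m : ℕ) : Continuous (bN m) :=
  continuous_iff_continuousAt.2 fun y => (bN_hasDerivAt m y).continuousAt

theorem bN_zero (m : ℕ) : bN m 0 = 0 := by simp [bN]

theorem bN_one (m : ℕ) : bN m 1 = 0 := by
  unfold bN
  have h : ∀ t : ℝ, sq t ^ m * (bg t - bgm m) = sq t ^ m * bg t - bgm m * sq t ^ m := fun t => by
    ring
  simp only [h]
  have i1 : IntervalIntegrable (fun t => sq t ^ m * bg t) volume 0 1 :=
    ((br_sq_cont.pow m).mul bg_cont).intervalIntegrable _ _
  have i2 : IntervalIntegrable (fun t => bgm m * sq t ^ m) volume 0 1 :=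
    (continuous_const.mul (br_sq_cont.pow m)).intervalIntegrable _ _
  rw [intervalIntegral.integral_sub i1 i2, intervalIntegral.integral_const_mul]
  unfold bgm
  rw [div_mul_cancel₀ _ (br_Z_pos m).ne', sub_self]

theorem bN_odd (m : ℕ) (y : ℝ) : bN m (-y) = -bN m y := by
  unfold bN
  have h := intervalIntegral.integral_comp_neg (a := 0) (b := y)
    (fun t => sq t ^ m * (bg t - bgm m))
  simp only [br_sq_even, bg_even, neg_zero] at h
  rw [intervalIntegral.integral_symm, ← h]

theorem br_sq_hasDerivAt {y : ℝ} (hy : y ∈ Ioo (-1 : ℝ) 1) : HasDerivAt sq (-y / sq y) y :=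
  sq_hasDerivAt hy

theorem bg_hasDerivAt {y : ℝ} (hy : y ∈ Ioo (-1 : ℝ) 1) :
    HasDerivAt bg (-y / (sq y * (1 + sq y) ^ 2)) y := by
  have hs := br_sq_pos hy
  have h := br_sq_hasDerivAt hy
  refine (h.div (h.const_add 1) (by positivity)).congr_deriv ?_
  field_simp
  ring

theorem bk_hasDerivAt (m : ℕ) {y : ℝ} (hy : y ∈ Ioo (-1 : ℝ) 1) :
    HasDerivAt (bk m) (((bg y - bgm m) + ((m : ℝ) + 2) * y * bk m y) / sq y ^ 2) y := by
  have hs := br_sq_pos hy
  have h := (bN_hasDerivAt m y).div ((br_sq_hasDerivAt hy).pow (m + 2)) (pow_pos hs _).ne'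
  refine h.congr_deriv ?_
  unfold bk
  simp only [Pi.pow_apply]
  push_cast
  field_simp
  ring

/-- the auxiliary function is nonnegative -/
theorem bF_nonneg (m : ℕ) {y : ℝ} (hy : y ∈ Ioo (0 : ℝ) 1) :
    0 ≤ bN m y + (bg y - bgm m) * sq y ^ (m + 2) / (((m : ℝ) + 2) * y) := by
  have hm : (0 : ℝ) < (m : ℝ) + 2 := by positivity
  set F : ℝ → ℝ := fun y => bN m y + (bg y - bgm m) * sq y ^ (m + 2) / (((m : ℝ) + 2) * y)
    with hF
  have hF1 : F 1 = 0 := by
    simp only [hF, bN_one, br_sq_one]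
    simp only [ne_eq, Nat.add_eq_zero_iff, OfNat.ofNat_ne_zero, and_false, not_false_eq_true, zero_pow, mul_zero, mul_one, zero_div, add_zero]
  have hder : ∀ t ∈ Ioo (0 : ℝ) 1, HasDerivAt F (sq t ^ m * (bg t - bgm m) +
      (((-t / (sq t * (1 + sq t) ^ 2)) * sq t ^ (m + 2) + (bg t - bgm m) *
        (((m + 2 : ℕ) : ℝ) * sq t ^ (m + 1) * (-t / sq t))) * (((m : ℝ) + 2) * t) -
        ((bg t - bgm m) * sq t ^ (m + 2)) * ((m : ℝ) + 2)) / (((m : ℝ) + 2) * t) ^ 2) t := by
    intro t ht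
    have ht' : t ∈ Ioo (-1 : ℝ) 1 := ⟨by linarith [ht.1], ht.2⟩
    have e1 := ((bg_hasDerivAt ht').sub_const (bgm m)).mul ((br_sq_hasDerivAt ht').pow (m + 2))
    have e2 : HasDerivAt (fun t : ℝ => ((m : ℝ) + 2) * t) ((m : ℝ) + 2) t := by
      simpa using (hasDerivAt_id t).const_mul ((m : ℝ) + 2)
    have ht0 : ((m : ℝ) + 2) * t ≠ 0 := (mul_pos hm ht.1).ne'
    exact (bN_hasDerivAt m t).add (e1.div e2 ht0)
  have hanti : AntitoneOn F (Icc y 1) := by
    apply antitoneOn_of_deriv_nonpos (convex_Icc _ _)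
    · intro t ht
      have ht0 : ((m : ℝ) + 2) * t ≠ 0 := (mul_pos hm (by linarith only [hy.1, ht.1])).ne'
      apply ContinuousAt.continuousWithinAt
      simp only [hF]
      apply (bN_cont m).continuousAt.add
      exact (((bg_cont.sub continuous_const).mul (br_sq_cont.pow (m + 2))).continuousAt).div
        (by fun_prop) ht0
    · intro t ht
      rw [interior_Icc] at ht
      exact (hder t ⟨by linarith only [hy.1, ht.1], ht.2⟩).differentiableAt.differentiableWithinAt
    · intro t ht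
      rw [interior_Icc] at ht
      have ht' : t ∈ Ioo (0 : ℝ) 1 := ⟨by linarith only [hy.1, ht.1], ht.2⟩
      rw [(hder t ht').deriv]
      have hs : 0 < sq t := br_sq_pos ⟨by linarith only [ht'.1], ht'.2⟩
      have hs1 := br_sq_le_one t
      have hss : sq t ^ 2 = 1 - t ^ 2 := br_sq_sq ⟨by linarith only [ht'.1], ht'.2.le⟩
      have ht0 : t ≠ 0 := ht'.1.ne'
      have hgm := bgm_le_half m
      have key : sq t ^ m * (bg t - bgm m) +
          (((-t / (sq t * (1 + sq t) ^ 2)) * sq t ^ (m + 2) + (bg t - bgm m) *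
          (((m + 2 : ℕ) : ℝ) * sq t ^ (m + 1) * (-t / sq t))) * (((m : ℝ) + 2) * t) -
          ((bg t - bgm m) * sq t ^ (m + 2)) * ((m : ℝ) + 2)) / (((m : ℝ) + 2) * t) ^ 2 =
          -(sq t ^ (m + 2) / (((m : ℝ) + 2) * t ^ 2)) *
            ((sq t ^ 2 - sq t + 1) / (sq t * (1 + sq t)) - bgm m) := by
        have ht2 : t ^ 2 = 1 - sq t ^ 2 := by linarith only [hss]
        have e0 : bg t = sq t / (1 + sq t) := rfl
        have e1 : sq t ^ (m + 1) * (-t / sq t) = -t * sq t ^ m := by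
          rw [pow_succ]
          (clear * - hs ht0; field_simp)
        have e2 : sq t ^ (m + 2) = sq t ^ m * sq t ^ 2 := by ring
        have e3 : ((m + 2 : ℕ) : ℝ) * sq t ^ (m + 1) * (-t / sq t) =
            ((m : ℝ) + 2) * (-t * sq t ^ m) := by
          rw [mul_assoc, e1]; push_cast; ring
        rw [e3, e2]
        have e4 : (sq t ^ 2 - sq t + 1) / (sq t * (1 + sq t)) =
            bg t + t ^ 2 / (sq t * (1 + sq t) ^ 2) := by
          rw [ht2, e0]
          field_simp
          ring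
        rw [e4]
        field_simp
        ring
      rw [key]
      have h5 : 1 / 2 ≤ (sq t ^ 2 - sq t + 1) / (sq t * (1 + sq t)) := by
        rw [div_le_div_iff₀ (by norm_num) (by positivity)]
        nlinarith only [hss]
      have h6 : 0 ≤ sq t ^ (m + 2) / (((m : ℝ) + 2) * t ^ 2) := by (clear * - hs ht0; positivity)
      have h7 : 0 ≤ (sq t ^ 2 - sq t + 1) / (sq t * (1 + sq t)) - bgm m := by linarith only [hgm, h5]
      have := mul_nonneg h6 h7
      linarith only [this]
  have := hanti ⟨le_rfl, hy.2.le⟩ ⟨hy.2.le, le_rfl⟩ hy.2.le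
  rw [hF1] at this
  exact this

theorem bk_deriv_nonneg (m : ℕ) {y : ℝ} (hy : y ∈ Ioo (0 : ℝ) 1) :
    0 ≤ ((bg y - bgm m) + ((m : ℝ) + 2) * y * bk m y) / sq y ^ 2 := by
  have hs : 0 < sq y := br_sq_pos ⟨by linarith [hy.1], hy.2⟩
  have hm : (0 : ℝ) < (m : ℝ) + 2 := by positivity
  have h := bF_nonneg m hy
  apply div_nonneg _ (by positivity)
  unfold bk
  have hy0 := hy.1
  have e : (bg y - bgm m) + ((m : ℝ) + 2) * y * (bN m y / sq y ^ (m + 2)) =
      (((m : ℝ) + 2) * y / sq y ^ (m + 2)) *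
        (bN m y + (bg y - bgm m) * sq y ^ (m + 2) / (((m : ℝ) + 2) * y)) := by
    field_simp
    ring
  rw [e]
  exact mul_nonneg (by positivity) h

theorem bk_zero (m : ℕ) : bk m 0 = 0 := by
  unfold bk
  rw [bN_zero, zero_div]

theorem bk_contAt (m : ℕ) {y : ℝ} (hy : y ∈ Ioo (-1 : ℝ) 1) : ContinuousAt (bk m) y :=
  (bk_hasDerivAt m hy).continuousAt

theorem bk_mono (m : ℕ) : MonotoneOn (bk m) (Ico 0 1) := by
  apply monotoneOn_of_deriv_nonneg (convex_Ico _ _)
  · exact fun t ht => (bk_contAt m ⟨by linarith [ht.1], ht.2⟩).continuousWithinAt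
  · intro t ht
    rw [interior_Ico] at ht
    exact (bk_hasDerivAt m ⟨by linarith only [ht.1], ht.2⟩).differentiableAt.differentiableWithinAt
  · intro t ht
    rw [interior_Ico] at ht
    rw [(bk_hasDerivAt m ⟨by linarith [ht.1], ht.2⟩).deriv]
    exact bk_deriv_nonneg m ht

theorem bk_nonneg (m : ℕ) {y : ℝ} (h0 : 0 ≤ y) (h1 : y < 1) : 0 ≤ bk m y := by
  have := bk_mono m ⟨le_rfl, zero_lt_one⟩ ⟨h0, h1⟩ h0
  rwa [bk_zero] at this

theorem bk_odd (m : ℕ) (y : ℝ) : bk m (-y) = -bk m y := by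
  unfold bk
  rw [bN_odd, br_sq_even, neg_div]

theorem bk_le_one (m : ℕ) {y : ℝ} (h0 : 0 ≤ y) (h1 : y < 1) : bk m y ≤ 1 := by
  -- first for `y ≥ 1/2`
  have hm : (0 : ℝ) < (m : ℝ) + 2 := by positivity
  have key : ∀ z : ℝ, 1 / 2 ≤ z → z < 1 → bk m z ≤ 1 := by
    intro z hz0 hz1
    have hs : 0 < sq z := br_sq_pos ⟨by linarith only [hz0], hz1⟩
    have h2 : bN m z ≤ sq z ^ (m + 2) / 2 := by
      -- `bN m z - s^(m+2)/2` is increasing and vanishes at `1`
      have hmon : MonotoneOn (fun t => bN m t - sq t ^ (m + 2) / 2) (Icc z 1) := by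
        apply monotoneOn_of_deriv_nonneg (convex_Icc _ _)
        · exact ((bN_cont m).sub ((br_sq_cont.pow (m + 2)).div_const 2)).continuousOn
        · intro t ht
          rw [interior_Icc] at ht
          have ht' : t ∈ Ioo (-1 : ℝ) 1 := ⟨by linarith only [hz0, ht.1], ht.2⟩
          exact ((bN_hasDerivAt m t).sub (((br_sq_hasDerivAt ht').pow (m + 2)).div_const
            2)).differentiableAt.differentiableWithinAt
        · intro t ht
          rw [interior_Icc] at ht
          have ht' : t ∈ Ioo (-1 : ℝ) 1 := ⟨by linarith only [hz0, ht.1], ht.2⟩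
          have hd := (bN_hasDerivAt m t).sub (((br_sq_hasDerivAt ht').pow (m + 2)).div_const 2)
          have e : (fun t => bN m t - sq t ^ (m + 2) / 2) =
              (bN m - fun x => (sq ^ (m + 2)) x / 2) := rfl
          rw [e, hd.deriv]
          have hst : 0 < sq t := br_sq_pos ht'
          have e1 : m + 2 - 1 = m + 1 := rfl
          rw [e1]
          have e2 : ((m + 2 : ℕ) : ℝ) * sq t ^ (m + 1) * (-t / sq t) / 2 =
              -(((m : ℝ) + 2) * t * sq t ^ m / 2) := by
            rw [pow_succ]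
            push_cast
            (clear * - hst; field_simp)
          rw [e2]
          have h3 := bg_nonneg t
          have h4 := bgm_le_half m
          have h5 : 0 < sq t ^ m := pow_pos hst m
          have h6 : (1 : ℝ) / 2 ≤ ((m : ℝ) + 2) * t / 2 := by
            have h7 : (0 : ℝ) ≤ m := Nat.cast_nonneg m
            have h8 : 1 / 2 ≤ t := by linarith only [hz0, ht.1]
            nlinarith
          nlinarith only [h3, h5, h4, h6]
      have := hmon ⟨le_rfl, hz1.le⟩ ⟨hz1.le, le_rfl⟩ hz1.le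
      simp only [bN_one, br_sq_one] at this
      have h9 : (0 : ℝ) ^ (m + 2) = 0 := by simp
      rw [h9] at this
      linarith only [this]
    unfold bk
    rw [div_le_one (by positivity)]
    have : 0 < sq z ^ (m + 2) := by positivity
    linarith only [h2, this]
  rcases le_or_gt (1 / 2) y with h | h
  · exact key y h h1
  · have := bk_mono m ⟨h0, h1⟩ (show (1 / 2 : ℝ) ∈ Ico (0 : ℝ) 1 by constructor <;> norm_num) h.le
    exact this.trans (key (1 / 2) le_rfl (by norm_num))

theorem bk_abs_le (m : ℕ) (y : ℝ) : |bk m y| ≤ 1 := by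
  rcases lt_or_ge |y| 1 with h | h
  · rcases le_or_gt 0 y with h0 | h0
    · rw [abs_of_nonneg h0] at h
      rw [abs_of_nonneg (bk_nonneg m h0 h)]
      exact bk_le_one m h0 h
    · rw [abs_of_neg h0] at h
      have e : bk m y = -bk m (-y) := by rw [bk_odd, neg_neg]
      rw [e, abs_neg, abs_of_nonneg (bk_nonneg m (by linarith) h)]
      exact bk_le_one m (by linarith) h
  · have hs : sq y = 0 := by
      unfold sq
      apply Real.sqrt_eq_zero'.2
      have := (sq_le_sq' (by linarith only [h]) h : (1 : ℝ) ^ 2 ≤ |y| ^ 2)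
      rw [sq_abs] at this
      linarith
    unfold bk
    rw [hs]
    simp only [ne_eq, Nat.add_eq_zero_iff, OfNat.ofNat_ne_zero, and_false, not_false_eq_true, zero_pow, div_zero, abs_zero, zero_le_one]

theorem bk_mono' (m : ℕ) {y z : ℝ} (h1 : -1 < y) (h2 : y ≤ z) (h3 : z < 1) : bk m y ≤ bk m z := by
  rcases le_or_gt 0 y with hy | hy
  · exact bk_mono m ⟨hy, by linarith⟩ ⟨by linarith, h3⟩ h2
  · rcases le_or_gt 0 z with hz | hz
    · have e : bk m y = -bk m (-y) := by rw [bk_odd, neg_neg]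
      have := bk_nonneg m (show 0 ≤ -y by linarith) (by linarith)
      have := bk_nonneg m hz h3
      linarith
    · have e1 : bk m y = -bk m (-y) := by rw [bk_odd, neg_neg]
      have e2 : bk m z = -bk m (-z) := by rw [bk_odd, neg_neg]
      have := bk_mono m (show -z ∈ Ico (0:ℝ) 1 from ⟨by linarith, by linarith⟩)
        (show -y ∈ Ico (0:ℝ) 1 from ⟨by linarith, by linarith⟩) (by linarith)
      linarith only [e1, e2, this]

theorem bk_meas (m : ℕ) : Measurable (bk m) :=
  (bN_cont m).measurable.div (br_sq_cont.pow (m + 2)).measurable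

theorem bk_ii (m : ℕ) (a b : ℝ) : IntervalIntegrable (bk m) volume a b := by
  apply (intervalIntegrable_const (c := (1 : ℝ))).mono_fun (bk_meas m).aestronglyMeasurable
  filter_upwards with t
  simpa only [Real.norm_eq_abs, norm_one] using bk_abs_le m t

theorem bφ_sub (m : ℕ) (a b : ℝ) : bφ m b - bφ m a = ∫ t in a..b, bk m t := by
  unfold bφ
  rw [intervalIntegral.integral_interval_sub_left (bk_ii m 0 b) (bk_ii m 0 a)]

theorem bφ_tangent (m : ℕ) {a b : ℝ} (ha : a ∈ Ioo (-1 : ℝ) 1) (hb : b ∈ Icc (-1 : ℝ) 1) :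
    bk m a * (b - a) ≤ bφ m b - bφ m a := by
  rw [bφ_sub]
  have e : bk m a * (b - a) = ∫ _ in a..b, bk m a := by simp; ring
  rw [e]
  rcases le_total a b with h | h
  · apply intervalIntegral.integral_mono_on_of_le_Ioo h (by simp) (bk_ii m a b)
    intro t ht
    exact bk_mono' m ha.1 ht.1.le (by linarith only [ht.2, hb.2])
  · rw [intervalIntegral.integral_symm, intervalIntegral.integral_symm b a, neg_le_neg_iff]
    apply intervalIntegral.integral_mono_on_of_le_Ioo h (bk_ii m b a) (by simp)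
    intro t ht
    exact bk_mono' m (by linarith only [ht.1, hb.1]) ht.2.le ha.2

theorem bφ_lip (m : ℕ) (a b : ℝ) : |bφ m b - bφ m a| ≤ |b - a| := by
  rw [bφ_sub]
  have := intervalIntegral.norm_integral_le_of_norm_le_const (a := a) (b := b) (C := 1)
    (f := bk m) (fun t _ => by simpa only [Real.norm_eq_abs] using bk_abs_le m t)
  simpa only [ge_iff_le, Real.norm_eq_abs, one_mul] using this

theorem bφ_cont (m : ℕ) : Continuous (bφ m) := by
  apply LipschitzWith.continuous (K := 1)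
  apply LipschitzWith.of_dist_le_mul
  intro a b
  rw [Real.dist_eq, Real.dist_eq]
  simpa only [NNReal.coe_one, one_mul] using bφ_lip m b a

theorem bφ_even (m : ℕ) (y : ℝ) : bφ m (-y) = bφ m y := by
  unfold bφ
  have h := intervalIntegral.integral_comp_neg (a := 0) (b := y) (bk m)
  simp only [bk_odd, neg_zero] at h
  rw [intervalIntegral.integral_symm, ← h, intervalIntegral.integral_neg, neg_neg]

/-- adding the correction keeps the properties of a kernel -/
theorem Kern2.addφ {A : ℝ → ℝ → ℝ} (hA : Kern2 A) (m : ℕ) :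
    Kern2 (fun a b => A a b + (bφ m b - bφ m a)) where
  meas := by
    apply hA.meas.add
    exact ((bφ_cont m).measurable.comp measurable_snd).sub
      ((bφ_cont m).measurable.comp measurable_fst)
  bdd := by
    obtain ⟨C, hC⟩ := hA.bdd
    refine ⟨C + 2, fun a ha b hb => ?_⟩
    have h1 := hC a ha b hb
    have h2 := bφ_lip m a b
    have h3 : |b - a| ≤ 2 := by
      rw [abs_le]
      constructor <;> linarith only [ha.1, hb.2, ha.2, hb.1]
    exact (abs_add_le _ _).trans (by linarith)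
  anti := by
    intro a ha b hb
    have := hA.anti a ha b hb
    show A a b + (bφ m b - bφ m a) = -(A b a + (bφ m a - bφ m b))
    linarith only [this]
  symm := by
    intro a b
    show A (-a) (-b) + (bφ m (-b) - bφ m (-a)) = A a b + (bφ m b - bφ m a)
    rw [hA.symm, bφ_even, bφ_even]
  corner := by
    intro η hη
    obtain ⟨δ, hδ, h⟩ := hA.corner (η / 2) (by linarith only [hη])
    refine ⟨min δ (η / 2), lt_min hδ (by linarith), fun a ha b hb => ?_⟩
    have ha' : a ∈ Icc (1 - δ) 1 := ⟨by linarith [ha.1, min_le_left δ (η / 2)], ha.2⟩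
    have hb' : b ∈ Icc (1 - δ) 1 := ⟨by linarith only [hb.1, min_le_left δ (η / 2)], hb.2⟩
    have h1 := h a ha' b hb'
    have h2 := bφ_lip m a b
    have h3 : |b - a| ≤ η / 2 := by
      rw [abs_le]
      constructor <;> linarith [ha.1, ha.2, hb.1, hb.2, min_le_right δ (η / 2)]
    exact (abs_add_le _ _).trans (by linarith)

end Vale.Agent.P237.AllN
end

theorem P237.eqforce_sq : True := by first | exact (fun _ => trivial) @Vale.Agent.P237.AllN.sq.eq_1 | exact (fun _ => trivial) @Vale.Agent.P237.AllN.sq.eq_1.{0}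

theorem P237.eqforce_bg : True := by first | exact (fun _ => trivial) @Vale.Agent.P237.AllN.bg.eq_1 | exact (fun _ => trivial) @Vale.Agent.P237.AllN.bg.eq_1.{0}
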