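import Mathlib

set_option linter.all false

section

/-!
# Kernel-checked positivity of polynomials on boxes

`Poly1 = List ℤ`, `Poly2 = List (List ℤ)`, `Poly3 = List (List (List ℤ))`; the outermost list is the
first variable.  The checks are meant for `by decide +kernel`.
-/

namespace Vale.Agent.P237.AllN.PolyPos

/-! ## generic coefficient modules -/

/-- coefficient modules: integers and iterated lists -/
structure Ops (M : Type) where
  zero : M
  add : M → M → M
  smul : ℤ → M → M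

/-- operations on integers -/
def opsZ : Ops ℤ := ⟨0, fun a b => a + b, fun a b => a * b⟩

/-- addition of coefficient lists -/
def addL {M : Type} (o : Ops M) : List M → List M → List M
  | [], q => q
  | a :: p, [] => a :: p
  | a :: p, b :: q => o.add a b :: addL o p q

/-- operations on lists -/
def opsL {M : Type} (o : Ops M) : Ops (List M) :=
  ⟨[], addL o, fun c p => p.map (o.smul c)⟩

/-- tail of the product with `A + B t` -/
def mulLinAux {M : Type} (o : Ops M) (A B : ℤ) : M → List M → List M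
  | prev, [] => [o.smul B prev]
  | prev, a :: p => o.add (o.smul A a) (o.smul B prev) :: mulLinAux o A B a p

/-- product with `A + B t` -/
def mulLin {M : Type} (o : Ops M) (A B : ℤ) : List M → List M
  | [] => []
  | a :: p => o.smul A a :: mulLinAux o A B a p

/-- Moebius transform: `(D (1+t))^n p((A+Bt)/(D(1+t)))` together with `(D(1+t))^n`. -/
def tr {M : Type} (o : Ops M) (A B D : ℤ) : M → List M → List M × List ℤ
  | a, [] => ([a], [1])
  | a, b :: p =>
    let r := tr o A B D b p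
    let w := mulLin opsZ D D r.2
    (addL o (w.map fun c => o.smul c a) (mulLin o A B r.1), w)

/-- evaluation of a coefficient list -/
noncomputable def evL {M : Type} (e : M → ℝ) (t : ℝ) : List M → ℝ
  | [] => 0
  | a :: p => e a + t * evL e t p

/-- `e` is linear for the operations `o` -/
structure Lin {M : Type} (o : Ops M) (e : M → ℝ) : Prop where
  zero : e o.zero = 0
  add : ∀ a b, e (o.add a b) = e a + e b
  smul : ∀ c a, e (o.smul c a) = (c : ℝ) * e a

theorem lin_opsZ : Lin opsZ (fun a : ℤ => (a : ℝ)) where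
  zero := by simp [opsZ]
  add a b := by simp [opsZ]
  smul c a := by simp [opsZ]

theorem evL_addL {M : Type} {o : Ops M} {e : M → ℝ} (h : Lin o e) (t : ℝ) :
    ∀ p q : List M, evL e t (addL o p q) = evL e t p + evL e t q
  | [], q => by simp [addL, evL]
  | a :: p, [] => by simp [addL, evL]
  | a :: p, b :: q => by
    simp only [addL, evL, h.add, evL_addL h t p q]
    ring

theorem evL_map_smul {M : Type} {o : Ops M} {e : M → ℝ} (h : Lin o e) (t : ℝ) (c : ℤ) :
    ∀ p : List M, evL e t (p.map (o.smul c)) = (c : ℝ) * evL e t p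
  | [] => by simp [evL]
  | a :: p => by
    simp only [List.map_cons, evL, h.smul, evL_map_smul h t c p]
    ring

theorem lin_opsL {M : Type} {o : Ops M} {e : M → ℝ} (h : Lin o e) (t : ℝ) :
    Lin (opsL o) (evL e t) where
  zero := by simp [opsL, evL]
  add a b := evL_addL h t a b
  smul c a := evL_map_smul h t c a

theorem evL_mulLinAux {M : Type} {o : Ops M} {e : M → ℝ} (h : Lin o e) (t : ℝ) (A B : ℤ) :
    ∀ (prev : M) (p : List M), evL e t (mulLinAux o A B prev p) =
      (B : ℝ) * e prev + (A + B * t) * evL e t p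
  | prev, [] => by simp [mulLinAux, evL, h.smul]
  | prev, a :: p => by
    simp only [mulLinAux, evL, h.smul, h.add, evL_mulLinAux h t A B a p]
    ring

theorem evL_mulLin {M : Type} {o : Ops M} {e : M → ℝ} (h : Lin o e) (t : ℝ) (A B : ℤ) :
    ∀ p : List M, evL e t (mulLin o A B p) = ((A : ℝ) + B * t) * evL e t p
  | [] => by simp [mulLin, evL]
  | a :: p => by
    simp only [mulLin, evL, h.smul, evL_mulLinAux h t A B a p]
    ring

theorem evL_map_const {M : Type} {o : Ops M} {e : M → ℝ} (h : Lin o e) (t : ℝ) (a : M) :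
    ∀ w : List ℤ, evL e t (w.map fun c => o.smul c a) =
      evL (fun c : ℤ => (c : ℝ)) t w * e a
  | [] => by simp [evL]
  | c :: w => by
    simp only [List.map_cons, evL, h.smul, evL_map_const h t a w]
    ring

theorem evL_tr {M : Type} {o : Ops M} {e : M → ℝ} (h : Lin o e) (t : ℝ) (A B D : ℤ) {x : ℝ}
    (hx : (D : ℝ) * (1 + t) * x = A + B * t) :
    ∀ (a : M) (p : List M),
      evL e t (tr o A B D a p).1 = ((D : ℝ) * (1 + t)) ^ p.length * evL e x (a :: p) ∧
      evL (fun c : ℤ => (c : ℝ)) t (tr o A B D a p).2 = ((D : ℝ) * (1 + t)) ^ p.length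
  | a, [] => by simp [tr, evL]
  | a, b :: p => by
    obtain ⟨h1, h2⟩ := evL_tr h t A B D hx b p
    have h3 : evL (fun c : ℤ => (c : ℝ)) t (mulLin opsZ D D (tr o A B D b p).2) =
        ((D : ℝ) * (1 + t)) ^ (b :: p).length := by
      rw [evL_mulLin lin_opsZ, h2, List.length_cons, pow_succ]
      ring
    refine ⟨?_, h3⟩
    simp only [tr]
    rw [evL_addL h, evL_map_const h, evL_mulLin h, h1, h3]
    simp only [evL, List.length_cons, pow_succ]
    linear_combination (-(((D : ℝ) * (1 + t)) ^ p.length * (e b + x * evL e x p))) * hx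

/-- nonnegativity of all the coefficients implies nonnegativity -/
theorem evL_nonneg {M : Type} {e : M → ℝ} {t : ℝ} (ht : 0 ≤ t) :
    ∀ p : List M, (∀ a ∈ p, 0 ≤ e a) → 0 ≤ evL e t p
  | [], _ => by simp [evL]
  | a :: p, h => by
    simp only [evL]
    have h1 := h a (by simp)
    have h2 := evL_nonneg ht p fun b hb => h b (by simp [hb])
    have := mul_nonneg ht h2
    linarith

/-- generic step: coefficientwise check after the transform -/
theorem nonneg_of_tr {M : Type} {o : Ops M} {e : M → ℝ} (h : Lin o e) {A B D : ℤ} (hD : 0 < D)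
    {a : M} {p : List M} (hc : ∀ b ∈ (tr o A B D a p).1, 0 ≤ e b) {x : ℝ}
    (h0 : (A : ℝ) ≤ D * x) (h1 : (D : ℝ) * x < B) : 0 ≤ evL e x (a :: p) := by
  have hD' : (0 : ℝ) < D := by exact_mod_cast hD
  set t : ℝ := (D * x - A) / (B - D * x) with ht
  have hd : 0 < (B : ℝ) - D * x := by linarith
  have ht0 : 0 ≤ t := div_nonneg (by linarith) hd.le
  have h1t : 1 + t = ((B : ℝ) - A) / (B - D * x) := by
    rw [ht]
    field_simp
    ring
  have hx : (D : ℝ) * (1 + t) * x = A + B * t := by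
    rw [h1t, ht]
    field_simp
    ring
  have h2 := (evL_tr h t A B D hx a p).1
  have h3 := evL_nonneg ht0 _ hc
  rw [h2] at h3
  have h4 : 0 < ((D : ℝ) * (1 + t)) ^ p.length := by
    apply pow_pos
    apply mul_pos hD'
    linarith
  exact nonneg_of_mul_nonneg_right h3 h4

/-! ## closed intervals, one variable, by continuity -/

theorem continuous_evL {M : Type} {e : M → ℝ} :
    ∀ p : List M, Continuous fun x : ℝ => evL e x p
  | [] => by simpa [evL] using continuous_const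
  | a :: p => by
    simp only [evL]
    exact continuous_const.add (continuous_id.mul (continuous_evL p))

/-! ## coefficient check with one big integer (Kronecker substitution, one bit mask) -/

/-- sum of absolute values -/
def nrmK : List ℤ → ℕ
  | [] => 0
  | a :: p => a.natAbs + nrmK p

/-- evaluation at an integer -/
def evK (b : ℤ) : List ℤ → ℤ
  | [] => 0
  | a :: p => a + b * evK b p

/-- digit check -/
def digK (b M : ℕ) : ℕ → ℕ → Bool
  | 0, n => Nat.beq n 0
  | f + 1, n => Nat.beq n 0 || (Nat.ble (n % b) M && digK b M f (n / b))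

theorem digK_succ (b M f n : ℕ) :
    digK b M (f + 1) n = (Nat.beq n 0 || (Nat.ble (n % b) M && digK b M f (n / b))) := rfl

theorem digK_zero_right (b M : ℕ) : ∀ f, digK b M f 0 = true
  | 0 => rfl
  | f + 1 => by rw [digK_succ]; rfl

theorem digK_sound {b M : ℕ} (hb : 2 * M < b) : ∀ (p : List ℤ) (f n : ℕ), nrmK p ≤ M →
    evK b p = n → digK b M f n = true → ∀ c ∈ p, 0 ≤ c
  | [], _, _, _, _, _ => by simp
  | a :: p, f, n, hM, hn, hd => by
    have hM1 : a.natAbs ≤ M := by simp only [nrmK] at hM; omega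
    have hM2 : nrmK p ≤ M := by simp only [nrmK] at hM; omega
    simp only [evK] at hn
    have hb0 : (0 : ℤ) < b := by omega
    have hzero : n = 0 → ∀ c ∈ a :: p, 0 ≤ c := by
      intro h0
      rw [h0] at hn
      have ha : a = 0 := by
        have hdvd : (b : ℤ) ∣ a := ⟨-evK b p, by push_cast at hn; linarith⟩
        by_contra hne
        have := Int.le_of_dvd (a := (b : ℤ)) (b := a.natAbs) (by omega)
          (by rwa [Int.dvd_natAbs])
        omega
      have hp0 : evK b p = ((0 : ℕ) : ℤ) := by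
        rw [ha] at hn
        push_cast at hn ⊢
        have : (b : ℤ) * evK b p = 0 := by linarith
        rcases mul_eq_zero.1 this with h | h
        · omega
        · exact h
      have h := digK_sound hb p 0 0 hM2 hp0 (digK_zero_right b M 0)
      intro c hc
      rcases List.mem_cons.1 hc with rfl | hc
      · omega
      · exact h c hc
    cases f with
    | zero =>
      exact hzero (Nat.eq_of_beq_eq_true hd)
    | succ f =>
      rw [digK_succ, Bool.or_eq_true, Bool.and_eq_true] at hd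
      rcases hd with hd | ⟨h1, h2⟩
      · exact hzero (Nat.eq_of_beq_eq_true hd)
      · have h1 := Nat.le_of_ble_eq_true h1
        have hmod : ((n % b : ℕ) : ℤ) = a % b := by
          push_cast
          rw [← hn]
          exact Int.add_mul_emod_self_left a b (evK b p)
        have ha0 : 0 ≤ a := by
          by_contra hneg
          have h3 : a % b = a + b := by
            rw [← Int.add_emod_right]
            exact Int.emod_eq_of_lt (by omega) (by omega)
          omega
        have hamod : a % b = a := Int.emod_eq_of_lt ha0 (by omega)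
        have hdiv : evK b p = ((n / b : ℕ) : ℤ) := by
          push_cast
          rw [← hn, Int.add_mul_ediv_left _ _ hb0.ne', Int.ediv_eq_zero_of_lt ha0 (by omega)]
          ring
        have h := digK_sound hb p f (n / b) hM2 hdiv h2
        intro c hc
        rcases List.mem_cons.1 hc with rfl | hc
        · exact ha0
        · exact h c hc

/-- `n` has at most `T` digits in base `b = 2^k` and all of them are smaller than `b / 2` -/
def mskK (b T n : ℕ) : Bool :=
  Nat.ble (n + 1) (b ^ T) && Nat.beq (Nat.land n ((b / 2) * ((b ^ T - 1) / (b - 1)))) 0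

theorem mskK_dig {k b : ℕ} (hb : b = 2 ^ (k + 1)) : ∀ T n : ℕ, n < b ^ T →
    n &&& ((b / 2) * ∑ i ∈ Finset.range T, b ^ i) = 0 → digK b (b / 2 - 1) T n = true
  | 0, n, hn, _ => by
    have h0 : n = 0 := by
      rw [pow_zero] at hn
      omega
    rw [h0]
    exact digK_zero_right _ _ _
  | T + 1, n, hn, hl => by
    have hb2 : b / 2 = 2 ^ k := by
      rw [hb, pow_succ]
      exact Nat.mul_div_cancel _ (by norm_num)
    have hk : 0 < 2 ^ k := pow_pos (by norm_num) k
    have hbk : b = 2 * 2 ^ k := by rw [hb, pow_succ, mul_comm]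
    have hb0 : 0 < b := by omega
    have hmask : (b / 2) * ∑ i ∈ Finset.range (T + 1), b ^ i =
        b / 2 + b * ((b / 2) * ∑ i ∈ Finset.range T, b ^ i) := by
      rw [Finset.sum_range_succ', pow_zero, Nat.mul_add, mul_one, add_comm]
      congr 1
      rw [Finset.mul_sum, Finset.mul_sum, Finset.mul_sum]
      refine Finset.sum_congr rfl fun i _ => ?_
      rw [pow_succ]
      ring
    rw [hmask] at hl
    have hlt : b / 2 < b := by omega
    have hdv : (b / 2 + b * ((b / 2) * ∑ i ∈ Finset.range T, b ^ i)) / b =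
        (b / 2) * ∑ i ∈ Finset.range T, b ^ i := by
      rw [Nat.add_mul_div_left _ _ hb0, Nat.div_eq_of_lt hlt, zero_add]
    have hmd : (b / 2 + b * ((b / 2) * ∑ i ∈ Finset.range T, b ^ i)) % b = b / 2 := by
      rw [Nat.add_mul_mod_self_left, Nat.mod_eq_of_lt hlt]
    have h1 : n / b &&& ((b / 2) * ∑ i ∈ Finset.range T, b ^ i) = 0 := by
      have h := congrArg (fun z => z / 2 ^ (k + 1)) hl
      simp only [Nat.and_div_two_pow, Nat.zero_div] at h
      rw [← hb, hdv] at h
      exact h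
    have h2 : n % b &&& 2 ^ k = 0 := by
      have h := congrArg (fun z => z % 2 ^ (k + 1)) hl
      simp only [Nat.and_mod_two_pow, Nat.zero_mod] at h
      rw [← hb, hmd, hb2] at h
      exact h
    have h3 : n % b < 2 ^ k := by
      refine Nat.lt_pow_two_of_testBit _ fun i hi => ?_
      rcases Nat.eq_or_lt_of_le hi with h | h
      · rw [Nat.and_two_pow] at h2
        rw [← h]
        rcases Nat.mul_eq_zero.1 h2 with h4 | h4
        · cases hx : (n % b).testBit k with
          | false => rfl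
          | true =>
            rw [hx] at h4
            exact absurd h4 (by decide)
        · omega
      · refine Nat.testBit_lt_two_pow (lt_of_lt_of_le (Nat.mod_lt _ hb0) ?_)
        rw [hb]
        exact Nat.pow_le_pow_right (by norm_num) h
    have h5 : n / b < b ^ T := by
      rw [pow_succ, mul_comm] at hn
      exact Nat.div_lt_of_lt_mul hn
    have h6 := mskK_dig hb T (n / b) h5 h1
    rw [digK_succ, Bool.or_eq_true, Bool.and_eq_true]
    exact Or.inr ⟨Nat.ble_eq_true_of_le (by omega), h6⟩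

theorem mskK_sound {k M T n : ℕ} (h : mskK (2 ^ (k + 1)) T n = true)
    (hM : 2 * M + 1 ≤ 2 ^ (k + 1)) {p : List ℤ} (hp : nrmK p ≤ M)
    (hev : evK ((2 ^ (k + 1) : ℕ) : ℤ) p = n) : ∀ c ∈ p, 0 ≤ c := by
  simp only [mskK, Bool.and_eq_true] at h
  obtain ⟨h3, h4⟩ := h
  have h3 := Nat.le_of_ble_eq_true h3
  have h4 : n &&& ((2 ^ (k + 1) / 2) * (((2 ^ (k + 1)) ^ T - 1) / (2 ^ (k + 1) - 1))) = 0 :=
    Nat.eq_of_beq_eq_true h4
  have h7 : 0 < 2 ^ k := pow_pos (by norm_num) k
  have h6 : 2 ^ (k + 1) = 2 * 2 ^ k := by rw [pow_succ, mul_comm]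
  have h1 : 2 ≤ 2 ^ (k + 1) := by omega
  rw [← Nat.geomSum_eq h1] at h4
  have h5 := mskK_dig rfl T n (by omega) h4
  exact digK_sound (M := 2 ^ (k + 1) / 2 - 1) (by omega) p T n (by omega) hev h5

/-- value at `b` of the transform and of `(D (1+t))^n`; `u = D (1 + b)`, `v = A + B b` -/
def trK (u v : ℤ) : ℤ → List ℤ → ℤ × ℤ
  | a, [] => (a, 1)
  | a, c :: p =>
    let r := trK u v c p
    let w := u * r.2
    (w * a + v * r.1, w)

/-- norms of the transform and of `(D (1+t))^n`; `u = 2 |D|`, `v = |A| + |B|` -/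
def trM (u v : ℕ) : ℤ → List ℤ → ℕ × ℕ
  | a, [] => (a.natAbs, 1)
  | a, c :: p =>
    let r := trM u v c p
    let w := u * r.2
    (w * a.natAbs + v * r.1, w)

theorem evK_addL (b : ℤ) : ∀ p q : List ℤ, evK b (addL opsZ p q) = evK b p + evK b q
  | [], q => by simp [addL, evK]
  | a :: p, [] => by simp [addL, evK]
  | a :: p, c :: q => by
    show (a + c) + b * evK b (addL opsZ p q) = (a + b * evK b p) + (c + b * evK b q)
    rw [evK_addL b p q]
    ring

theorem evK_map (b a : ℤ) : ∀ w : List ℤ, evK b (w.map fun c => opsZ.smul c a) = evK b w * a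
  | [] => by simp [evK]
  | c :: w => by
    have h := evK_map b a w
    simp only [opsZ] at h
    simp only [List.map_cons, evK, opsZ, h]
    ring

theorem evK_mulLinAux (b A B : ℤ) : ∀ (prev : ℤ) (p : List ℤ),
    evK b (mulLinAux opsZ A B prev p) = B * prev + (A + B * b) * evK b p
  | prev, [] => by simp [mulLinAux, evK, opsZ]
  | prev, a :: p => by
    show (A * a + B * prev) + b * evK b (mulLinAux opsZ A B a p) =
      B * prev + (A + B * b) * (a + b * evK b p)
    rw [evK_mulLinAux b A B a p]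
    ring

theorem evK_mulLin (b A B : ℤ) : ∀ p : List ℤ,
    evK b (mulLin opsZ A B p) = (A + B * b) * evK b p
  | [] => by simp [mulLin, evK]
  | a :: p => by
    show A * a + b * evK b (mulLinAux opsZ A B a p) = (A + B * b) * (a + b * evK b p)
    rw [evK_mulLinAux b A B a p]
    ring

theorem evK_tr (A B D b : ℤ) : ∀ (a : ℤ) (p : List ℤ),
    evK b (tr opsZ A B D a p).1 = (trK (D * (1 + b)) (A + B * b) a p).1 ∧
    evK b (tr opsZ A B D a p).2 = (trK (D * (1 + b)) (A + B * b) a p).2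
  | a, [] => by simp [tr, trK, evK]
  | a, c :: p => by
    obtain ⟨h1, h2⟩ := evK_tr A B D b c p
    have h3 : evK b (mulLin opsZ D D (tr opsZ A B D c p).2) =
        D * (1 + b) * (trK (D * (1 + b)) (A + B * b) c p).2 := by
      rw [evK_mulLin, h2]
      ring
    refine ⟨?_, h3⟩
    simp only [tr, trK]
    rw [evK_addL, evK_map, h3, evK_mulLin, h1]

theorem nrmK_addL : ∀ p q : List ℤ, nrmK (addL opsZ p q) ≤ nrmK p + nrmK q
  | [], q => by simp [addL, nrmK]
  | a :: p, [] => by simp [addL, nrmK]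
  | a :: p, b :: q => by
    have h := nrmK_addL p q
    have h1 := Int.natAbs_add_le a b
    simp only [addL, opsZ, nrmK] at h ⊢
    omega

theorem nrmK_map (a : ℤ) : ∀ w : List ℤ,
    nrmK (w.map fun c => opsZ.smul c a) = nrmK w * a.natAbs
  | [] => by simp [nrmK]
  | c :: w => by
    have h := nrmK_map a w
    simp only [opsZ] at h
    simp only [List.map_cons, nrmK, opsZ, h, Int.natAbs_mul]
    ring

theorem nrmK_mulLinAux (A B : ℤ) : ∀ (prev : ℤ) (p : List ℤ),
    nrmK (mulLinAux opsZ A B prev p) ≤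
      B.natAbs * prev.natAbs + (A.natAbs + B.natAbs) * nrmK p
  | prev, [] => by simp [mulLinAux, nrmK, opsZ, Int.natAbs_mul]
  | prev, a :: p => by
    have h := nrmK_mulLinAux A B a p
    have h1 := Int.natAbs_add_le (A * a) (B * prev)
    rw [Int.natAbs_mul, Int.natAbs_mul] at h1
    simp only [mulLinAux, nrmK, opsZ] at h ⊢
    calc _ ≤ (A.natAbs * a.natAbs + B.natAbs * prev.natAbs) +
          (B.natAbs * a.natAbs + (A.natAbs + B.natAbs) * nrmK p) := Nat.add_le_add h1 h
      _ = _ := by ring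

theorem nrmK_mulLin (A B : ℤ) : ∀ p : List ℤ,
    nrmK (mulLin opsZ A B p) ≤ (A.natAbs + B.natAbs) * nrmK p
  | [] => by simp [mulLin, nrmK]
  | a :: p => by
    have h := nrmK_mulLinAux A B a p
    simp only [mulLin, nrmK, opsZ, Int.natAbs_mul] at h ⊢
    calc _ ≤ A.natAbs * a.natAbs + (B.natAbs * a.natAbs + (A.natAbs + B.natAbs) * nrmK p) :=
          Nat.add_le_add_left h _
      _ = _ := by ring

theorem nrmK_tr (A B D : ℤ) : ∀ (a : ℤ) (p : List ℤ),
    nrmK (tr opsZ A B D a p).1 ≤ (trM (2 * D.natAbs) (A.natAbs + B.natAbs) a p).1 ∧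
    nrmK (tr opsZ A B D a p).2 ≤ (trM (2 * D.natAbs) (A.natAbs + B.natAbs) a p).2
  | a, [] => by simp [tr, trM, nrmK]
  | a, c :: p => by
    obtain ⟨h1, h2⟩ := nrmK_tr A B D c p
    have h3 : nrmK (mulLin opsZ D D (tr opsZ A B D c p).2) ≤
        2 * D.natAbs * (trM (2 * D.natAbs) (A.natAbs + B.natAbs) c p).2 := by
      refine (nrmK_mulLin D D _).trans ?_
      rw [← two_mul]
      exact Nat.mul_le_mul_left _ h2
    refine ⟨?_, h3⟩
    simp only [tr, trM]
    refine (nrmK_addL _ _).trans (Nat.add_le_add ?_ ?_)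
    · rw [nrmK_map]
      exact Nat.mul_le_mul_right _ h3
    · exact (nrmK_mulLin A B _).trans (Nat.mul_le_mul_left _ h1)

/-- exponent of a sufficiently large power of two -/
def bsK (M : ℕ) : ℕ → ℕ → ℕ
  | 0, k => k
  | f + 1, k => cond (Nat.ble (2 * M + 1) (2 ^ (k + 1))) k (bsK M f (k + k / 2))

/-- the check for the exponent `k` -/
def chkK (A B D : ℤ) (a : ℤ) (p : List ℤ) (M k : ℕ) : Bool :=
  Nat.ble (2 * M + 1) (2 ^ (k + 1)) &&
    (decide (0 ≤ (trK (D * (1 + ((2 ^ (k + 1) : ℕ) : ℤ))) (A + B * ((2 ^ (k + 1) : ℕ) : ℤ)) a p).1) &&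
      mskK (2 ^ (k + 1)) (p.length + 2)
        (trK (D * (1 + ((2 ^ (k + 1) : ℕ) : ℤ))) (A + B * ((2 ^ (k + 1) : ℕ) : ℤ)) a p).1.toNat)

theorem chkK_sound {A B D a : ℤ} {p : List ℤ} {k : ℕ}
    (h : chkK A B D a p (trM (2 * D.natAbs) (A.natAbs + B.natAbs) a p).1 k = true) :
    ∀ c ∈ (tr opsZ A B D a p).1, 0 ≤ c := by
  simp only [chkK, Bool.and_eq_true, decide_eq_true_eq] at h
  obtain ⟨c1, c2, c3⟩ := h
  have c1 := Nat.le_of_ble_eq_true c1
  refine mskK_sound c3 c1 (nrmK_tr A B D a p).1 ?_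
  rw [(evK_tr A B D _ a p).1]
  exact (Int.toNat_of_nonneg c2).symm

/-- check for one variable on `[A/D, B/D]` -/
def check1 (A B D : ℤ) : List ℤ → Bool
  | [] => true
  | a :: p => chkK A B D a p (trM (2 * D.natAbs) (A.natAbs + B.natAbs) a p).1
      (bsK (trM (2 * D.natAbs) (A.natAbs + B.natAbs) a p).1 40 63)

/-- two variables -/
def check2 (A B D A' B' D' : ℤ) : List (List ℤ) → Bool
  | [] => true
  | a :: p => (tr (opsL opsZ) A B D a p).1.all (check1 A' B' D')

/-- three variables -/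
def check3 (A B D A' B' D' A'' B'' D'' : ℤ) : List (List (List ℤ)) → Bool
  | [] => true
  | a :: p => (tr (opsL (opsL opsZ)) A B D a p).1.all (check2 A' B' D' A'' B'' D'')

/-- evaluation in one, two, three variables -/
noncomputable def ev1 (p : List ℤ) (x : ℝ) : ℝ := evL (fun c : ℤ => (c : ℝ)) x p

/-- evaluation in two variables -/
noncomputable def ev2 (p : List (List ℤ)) (x y : ℝ) : ℝ := evL (fun q => ev1 q y) x p

/-- evaluation in three variables -/
noncomputable def ev3 (p : List (List (List ℤ))) (x y z : ℝ) : ℝ := evL (fun q => ev2 q y z) x p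

theorem check1_sound {A B D : ℤ} (hD : 0 < D) {p : List ℤ} (h : check1 A B D p = true) {x : ℝ}
    (h0 : (A : ℝ) ≤ D * x) (h1 : (D : ℝ) * x < B) : 0 ≤ ev1 p x := by
  cases p with
  | nil => simp [ev1, evL]
  | cons a p =>
    refine nonneg_of_tr lin_opsZ hD ?_ h0 h1
    intro b hb
    exact_mod_cast chkK_sound h b hb

theorem check2_sound {A B D A' B' D' : ℤ} (hD : 0 < D) (hD' : 0 < D') {p : List (List ℤ)}
    (h : check2 A B D A' B' D' p = true) {x y : ℝ} (h0 : (A : ℝ) ≤ D * x) (h1 : (D : ℝ) * x < B)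
    (h0' : (A' : ℝ) ≤ D' * y) (h1' : (D' : ℝ) * y < B') : 0 ≤ ev2 p x y := by
  cases p with
  | nil => simp [ev2, evL]
  | cons a p =>
    refine nonneg_of_tr (lin_opsL lin_opsZ y) hD ?_ h0 h1
    intro b hb
    simp only [check2, List.all_eq_true] at h
    exact check1_sound hD' (h b hb) h0' h1'

theorem check3_sound {A B D A' B' D' A'' B'' D'' : ℤ} (hD : 0 < D) (hD' : 0 < D') (hD'' : 0 < D'')
    {p : List (List (List ℤ))}
    (h : check3 A B D A' B' D' A'' B'' D'' p = true) {x y z : ℝ}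
    (h0 : (A : ℝ) ≤ D * x) (h1 : (D : ℝ) * x < B)
    (h0' : (A' : ℝ) ≤ D' * y) (h1' : (D' : ℝ) * y < B')
    (h0'' : (A'' : ℝ) ≤ D'' * z) (h1'' : (D'' : ℝ) * z < B'') : 0 ≤ ev3 p x y z := by
  cases p with
  | nil => simp [ev3, evL]
  | cons a p =>
    refine nonneg_of_tr (lin_opsL (lin_opsL lin_opsZ z) y) hD ?_ h0 h1
    intro b hb
    simp only [check3, List.all_eq_true] at h
    exact check2_sound hD' hD'' (h b hb) h0' h1' h0'' h1''

/-! ## adaptive subdivision -/

/-- one variable, adaptive bisection with fuel -/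
def auto1 : ℕ → ℤ → ℤ → ℤ → List ℤ → Bool
  | 0, A, B, D, p => check1 A B D p
  | n + 1, A, B, D, p =>
    check1 A B D p || (auto1 n (2 * A) (A + B) (2 * D) p && auto1 n (A + B) (2 * B) (2 * D) p)

/-- two variables, adaptive bisection (`k` = number of the next splitting direction) -/
def auto2 : ℕ → Bool → ℤ → ℤ → ℤ → ℤ → ℤ → ℤ → List (List ℤ) → Bool
  | 0, _, A, B, D, A', B', D', p => check2 A B D A' B' D' p
  | n + 1, true, A, B, D, A', B', D', p =>
    check2 A B D A' B' D' p ||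
      (auto2 n false (2 * A) (A + B) (2 * D) A' B' D' p &&
        auto2 n false (A + B) (2 * B) (2 * D) A' B' D' p)
  | n + 1, false, A, B, D, A', B', D', p =>
    check2 A B D A' B' D' p ||
      (auto2 n true A B D (2 * A') (A' + B') (2 * D') p &&
        auto2 n true A B D (A' + B') (2 * B') (2 * D') p)

theorem auto1_sound {n : ℕ} : ∀ {A B D : ℤ}, 0 < D → ∀ {p : List ℤ}, auto1 n A B D p = true →
    ∀ {x : ℝ}, (A : ℝ) ≤ D * x → (D : ℝ) * x < B → 0 ≤ ev1 p x := by
  induction n with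
  | zero =>
    intro A B D hD p h x h0 h1
    exact check1_sound hD h h0 h1
  | succ n ih =>
    intro A B D hD p h x h0 h1
    simp only [auto1, Bool.or_eq_true, Bool.and_eq_true] at h
    rcases h with h | ⟨h2, h3⟩
    · exact check1_sound hD h h0 h1
    · rcases lt_or_ge (((2 * D : ℤ) : ℝ) * x) ((A + B : ℤ) : ℝ) with h4 | h4
      · exact ih (by omega) h2 (by push_cast at *; linarith) h4
      · exact ih (by omega) h3 h4 (by push_cast at *; linarith)

theorem auto2_sound {n : ℕ} : ∀ {k : Bool} {A B D A' B' D' : ℤ}, 0 < D → 0 < D' →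
    ∀ {p : List (List ℤ)}, auto2 n k A B D A' B' D' p = true →
    ∀ {x y : ℝ}, (A : ℝ) ≤ D * x → (D : ℝ) * x < B → (A' : ℝ) ≤ D' * y → (D' : ℝ) * y < B' →
      0 ≤ ev2 p x y := by
  induction n with
  | zero =>
    intro k A B D A' B' D' hD hD' p h x y h0 h1 h0' h1'
    exact check2_sound hD hD' h h0 h1 h0' h1'
  | succ n ih =>
    intro k A B D A' B' D' hD hD' p h x y h0 h1 h0' h1'
    cases k with
    | true =>
      simp only [auto2, Bool.or_eq_true, Bool.and_eq_true] at h
      rcases h with h | ⟨h2, h3⟩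
      · exact check2_sound hD hD' h h0 h1 h0' h1'
      · rcases lt_or_ge (((2 * D : ℤ) : ℝ) * x) ((A + B : ℤ) : ℝ) with h4 | h4
        · exact ih (by omega) hD' h2 (by push_cast at *; linarith) h4 h0' h1'
        · exact ih (by omega) hD' h3 h4 (by push_cast at *; linarith) h0' h1'
    | false =>
      simp only [auto2, Bool.or_eq_true, Bool.and_eq_true] at h
      rcases h with h | ⟨h2, h3⟩
      · exact check2_sound hD hD' h h0 h1 h0' h1'
      · rcases lt_or_ge (((2 * D' : ℤ) : ℝ) * y) ((A' + B' : ℤ) : ℝ) with h4 | h4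
        · exact ih hD (by omega) h2 h0 h1 (by push_cast at *; linarith) h4
        · exact ih hD (by omega) h3 h0 h1 h4 (by push_cast at *; linarith)

/-- closed intervals by continuity, one variable -/
theorem ev1_closed {p : List ℤ} {a b : ℝ} (hab : a < b)
    (h : ∀ x, a ≤ x → x < b → 0 ≤ ev1 p x) {x : ℝ} (h0 : a ≤ x) (h1 : x ≤ b) : 0 ≤ ev1 p x := by
  have hc : Continuous fun x => ev1 p x := continuous_evL p
  have hcl : IsClosed {x : ℝ | 0 ≤ ev1 p x} := isClosed_le continuous_const hc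
  have hsub : Set.Ico a b ⊆ {x : ℝ | 0 ≤ ev1 p x} := fun x hx => h x hx.1 hx.2
  have := hcl.closure_subset_iff.2 hsub
  rw [closure_Ico hab.ne] at this
  exact this ⟨h0, h1⟩

theorem continuous_evL_param {M : Type} {e : ℝ → M → ℝ} (he : ∀ a, Continuous fun y => e y a)
    (x : ℝ) : ∀ p : List M, Continuous fun y : ℝ => evL (e y) x p
  | [] => by simpa [evL] using continuous_const
  | a :: p => by
    simp only [evL]
    exact (he a).add (continuous_const.mul (continuous_evL_param he x p))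

/-- closed boxes by continuity, two variables -/
theorem ev2_closed {p : List (List ℤ)} {a b c d : ℝ} (hab : a < b) (hcd : c < d)
    (h : ∀ x y, a ≤ x → x < b → c ≤ y → y < d → 0 ≤ ev2 p x y) {x y : ℝ} (h0 : a ≤ x) (h1 : x ≤ b)
    (h2 : c ≤ y) (h3 : y ≤ d) : 0 ≤ ev2 p x y := by
  have hstep : ∀ x, a ≤ x → x < b → 0 ≤ ev2 p x y := by
    intro x hx0 hx1
    have hc : Continuous fun y => ev2 p x y :=
      continuous_evL_param (fun q => continuous_evL q) x p
    have hcl : IsClosed {y : ℝ | 0 ≤ ev2 p x y} := isClosed_le continuous_const hc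
    have hsub : Set.Ico c d ⊆ {y : ℝ | 0 ≤ ev2 p x y} := fun y hy => h x y hx0 hx1 hy.1 hy.2
    have := hcl.closure_subset_iff.2 hsub
    rw [closure_Ico hcd.ne] at this
    exact this ⟨h2, h3⟩
  have hc : Continuous fun x => ev2 p x y := continuous_evL p
  have hcl : IsClosed {x : ℝ | 0 ≤ ev2 p x y} := isClosed_le continuous_const hc
  have hsub : Set.Ico a b ⊆ {x : ℝ | 0 ≤ ev2 p x y} := fun x hx => hstep x hx.1 hx.2
  have := hcl.closure_subset_iff.2 hsub
  rw [closure_Ico hab.ne] at this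
  exact this ⟨h0, h1⟩

end Vale.Agent.P237.AllN.PolyPos
end

section

/-!
# Arithmetic of integer coefficient lists (one variable), for kernel computation
-/

namespace Vale.Agent.P237.AllN.PolyPos

/-- sum -/
def padd (p q : List ℤ) : List ℤ := addL opsZ p q

/-- scalar multiple -/
def psm (c : ℤ) (p : List ℤ) : List ℤ := p.map fun a => c * a

/-- product -/
def pmul : List ℤ → List ℤ → List ℤ
  | [], _ => []
  | a :: p, q => padd (psm a q) (0 :: pmul p q)

/-- power -/
def ppow (p : List ℤ) : ℕ → List ℤ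
  | 0 => [1]
  | n + 1 => pmul p (ppow p n)

theorem ev1_nil (x : ℝ) : ev1 [] x = 0 := by simp [ev1, evL]

theorem ev1_cons (a : ℤ) (p : List ℤ) (x : ℝ) : ev1 (a :: p) x = a + x * ev1 p x := by
  simp [ev1, evL]

theorem ev1_padd (p q : List ℤ) (x : ℝ) : ev1 (padd p q) x = ev1 p x + ev1 q x :=
  evL_addL lin_opsZ x p q

theorem ev1_psm (c : ℤ) (p : List ℤ) (x : ℝ) : ev1 (psm c p) x = c * ev1 p x :=
  evL_map_smul lin_opsZ x c p

theorem ev1_pmul (p q : List ℤ) (x : ℝ) : ev1 (pmul p q) x = ev1 p x * ev1 q x := by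
  induction p with
  | nil => simp [pmul, ev1_nil]
  | cons a p ih =>
    rw [pmul, ev1_padd, ev1_psm, ev1_cons, ih, ev1_cons]
    push_cast
    ring

theorem ev1_ppow (p : List ℤ) (n : ℕ) (x : ℝ) : ev1 (ppow p n) x = ev1 p x ^ n := by
  induction n with
  | zero => simp [ppow, ev1, evL]
  | succ n ih => rw [ppow, ev1_pmul, ih, pow_succ]; ring

end Vale.Agent.P237.AllN.PolyPos
end

section

/-!
# Arithmetic of integer coefficient lists in two variables and certified positivity on trees of boxes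
-/

namespace Vale.Agent.P237.AllN.PolyPos

/-- two-variable coefficient lists -/
abbrev P2 := List (List ℤ)

/-- sum -/
def p2add (p q : P2) : P2 := addL (opsL opsZ) p q

/-- scalar multiple -/
def p2sm (c : ℤ) (p : P2) : P2 := p.map (psm c)

/-- difference -/
def p2sub (p q : P2) : P2 := p2add p (p2sm (-1) q)

/-- product -/
def p2mul : P2 → P2 → P2
  | [], _ => []
  | a :: p, q => p2add (q.map (pmul a)) ([] :: p2mul p q)

theorem ev2_nil (x y : ℝ) : ev2 [] x y = 0 := by simp [ev2, evL]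

theorem ev2_cons (a : List ℤ) (p : P2) (x y : ℝ) :
    ev2 (a :: p) x y = ev1 a y + x * ev2 p x y := by simp [ev2, evL]

theorem ev2_add (p q : P2) (x y : ℝ) : ev2 (p2add p q) x y = ev2 p x y + ev2 q x y :=
  evL_addL (lin_opsL lin_opsZ y) x p q

theorem ev2_sm (c : ℤ) (p : P2) (x y : ℝ) : ev2 (p2sm c p) x y = c * ev2 p x y := by
  induction p with
  | nil => simp [p2sm, ev2_nil]
  | cons a p ih =>
    simp only [p2sm, List.map_cons, ev2_cons, ev1_psm] at ih ⊢
    rw [ih]
    ring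

theorem ev2_sub (p q : P2) (x y : ℝ) : ev2 (p2sub p q) x y = ev2 p x y - ev2 q x y := by
  rw [p2sub, ev2_add, ev2_sm]
  push_cast
  ring

theorem ev2_map_pmul (a : List ℤ) (q : P2) (x y : ℝ) :
    ev2 (q.map (pmul a)) x y = ev1 a y * ev2 q x y := by
  induction q with
  | nil => simp [ev2_nil]
  | cons b q ih =>
    simp only [List.map_cons, ev2_cons, ev1_pmul, ih]
    ring

theorem ev2_mul (p q : P2) (x y : ℝ) : ev2 (p2mul p q) x y = ev2 p x y * ev2 q x y := by
  induction p with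
  | nil => simp [p2mul, ev2_nil]
  | cons a p ih =>
    rw [p2mul, ev2_add, ev2_map_pmul, ev2_cons, ih, ev2_cons, ev1_nil]
    ring

/-- subdivision trees; `leaf i` uses the `i`-th family -/
inductive PT
  | leaf (i : ℕ)
  | out
  | sx (l r : PT)
  | sy (l r : PT)

/-- check on a box `[A/D, B/D) × [A'/D', B'/D')`: on leaves all members of one family are
nonnegative, on `out` boxes the region polynomial is at least `1` -/
def tchk (F : List (List P2)) (Lo : P2) : PT → ℤ → ℤ → ℤ → ℤ → ℤ → ℤ → Bool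
  | .leaf i, A, B, D, A', B', D' => (F.getD i [[[-1]]]).all (check2 A B D A' B' D')
  | .out, A, B, D, A', B', D' => check2 A B D A' B' D' (p2sub Lo [[1]])
  | .sx l r, A, B, D, A', B', D' =>
    tchk F Lo l (2 * A) (A + B) (2 * D) A' B' D' && tchk F Lo r (A + B) (2 * B) (2 * D) A' B' D'
  | .sy l r, A, B, D, A', B', D' =>
    tchk F Lo l A B D (2 * A') (A' + B') (2 * D') && tchk F Lo r A B D (A' + B') (2 * B') (2 * D')

theorem tchk_sound {F : List (List P2)} {Lo : P2} {x y : ℝ} (hLo : ev2 Lo x y ≤ 0) :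
    ∀ (t : PT) (A B D A' B' D' : ℤ), 0 < D → 0 < D' → tchk F Lo t A B D A' B' D' = true →
      (A : ℝ) ≤ D * x → (D : ℝ) * x < B → (A' : ℝ) ≤ D' * y → (D' : ℝ) * y < B' →
      ∃ i, ∀ p ∈ F.getD i [[[-1]]], 0 ≤ ev2 p x y
  | .leaf i, A, B, D, A', B', D', hD, hD', h, h0, h1, h2, h3 => by
    refine ⟨i, fun p hp => ?_⟩
    simp only [tchk, List.all_eq_true] at h
    exact check2_sound hD hD' (h p hp) h0 h1 h2 h3
  | .out, A, B, D, A', B', D', hD, hD', h, h0, h1, h2, h3 => by
    exfalso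
    have h4 := check2_sound hD hD' (by simpa [tchk] using h) h0 h1 h2 h3
    rw [ev2_sub] at h4
    simp only [ev2, ev1, evL] at h4 hLo
    norm_num at h4
    linarith
  | .sx l r, A, B, D, A', B', D', hD, hD', h, h0, h1, h2, h3 => by
    simp only [tchk, Bool.and_eq_true] at h
    rcases lt_or_ge (((2 * D : ℤ) : ℝ) * x) ((A + B : ℤ) : ℝ) with h4 | h4
    · exact tchk_sound hLo l _ _ _ _ _ _ (by omega) hD' h.1 (by push_cast at *; linarith) h4 h2 h3
    · exact tchk_sound hLo r _ _ _ _ _ _ (by omega) hD' h.2 h4 (by push_cast at *; linarith) h2 h3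
  | .sy l r, A, B, D, A', B', D', hD, hD', h, h0, h1, h2, h3 => by
    simp only [tchk, Bool.and_eq_true] at h
    rcases lt_or_ge (((2 * D' : ℤ) : ℝ) * y) ((A' + B' : ℤ) : ℝ) with h4 | h4
    · exact tchk_sound hLo l _ _ _ _ _ _ hD (by omega) h.1 h0 h1 (by push_cast at *; linarith) h4
    · exact tchk_sound hLo r _ _ _ _ _ _ hD (by omega) h.2 h0 h1 h4 (by push_cast at *; linarith)

/-- the four polynomials of the psd test: `a - e`, `ab - Wd²`, `ac - Wf²`, determinant -/
def psdP (a b c d f g W e : P2) : List P2 :=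
  let dd := p2mul d d
  let ff := p2mul f f
  [p2sub a e, p2sub (p2mul a b) (p2mul W dd), p2sub (p2mul a c) (p2mul W ff),
    p2sub (p2mul a (p2sub (p2mul b c) (p2mul g g)))
      (p2mul W (p2add (p2sub (p2mul c dd) (p2sm 2 (p2mul g (p2mul d f)))) (p2mul b ff)))]

theorem psdP_sound {a b c d f g W e : P2} {x y : ℝ}
    (h : ∀ p ∈ psdP a b c d f g W e, 0 ≤ ev2 p x y) :
    ev2 e x y ≤ ev2 a x y ∧ 0 ≤ ev2 a x y * ev2 b x y - ev2 W x y * ev2 d x y ^ 2 ∧
    0 ≤ ev2 a x y * ev2 c x y - ev2 W x y * ev2 f x y ^ 2 ∧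
    0 ≤ ev2 a x y * (ev2 b x y * ev2 c x y - ev2 g x y ^ 2) - ev2 W x y *
      (ev2 c x y * ev2 d x y ^ 2 - 2 * ev2 g x y * ev2 d x y * ev2 f x y +
        ev2 b x y * ev2 f x y ^ 2) := by
  simp only [psdP, List.mem_cons, List.not_mem_nil, or_false, forall_eq_or_imp, forall_eq,
    ev2_sub, ev2_add, ev2_mul, ev2_sm] at h
  obtain ⟨h1, h2, h3, h4⟩ := h
  push_cast at h4
  refine ⟨by linarith, by linarith, by linarith, by linarith⟩

end Vale.Agent.P237.AllN.PolyPos
end

section

/-!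
# Two-variable polynomials with rational coefficients (common denominators), for kernel computation
-/

namespace Vale.Agent.P237.AllN.PolyPos

/-- fractions `n / (d + 1)` -/
structure Fr where
  n : ℤ
  d : ℕ

/-- value of a fraction -/
noncomputable def Fr.R (a : Fr) : ℝ := a.n / ((a.d : ℝ) + 1)

/-- polynomials in two variables with common denominator `d + 1` -/
structure Q2 where
  p : P2
  d : ℕ

/-- evaluation -/
noncomputable def evQ (q : Q2) (x y : ℝ) : ℝ := ev2 q.p x y / ((q.d : ℝ) + 1)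

/-- constants -/
def Q2.c (a : Fr) : Q2 := ⟨[[a.n]], a.d⟩

/-- first variable -/
def Q2.X : Q2 := ⟨[[], [1]], 0⟩

/-- second variable -/
def Q2.Y : Q2 := ⟨[[0, 1]], 0⟩

/-- sum -/
def Q2.add (q r : Q2) : Q2 :=
  ⟨p2add (p2sm ((Nat.lcm (q.d + 1) (r.d + 1) / (q.d + 1) : ℕ) : ℤ) q.p)
    (p2sm ((Nat.lcm (q.d + 1) (r.d + 1) / (r.d + 1) : ℕ) : ℤ) r.p),
    Nat.lcm (q.d + 1) (r.d + 1) - 1⟩

/-- difference -/
def Q2.sub (q r : Q2) : Q2 :=
  ⟨p2add (p2sm ((Nat.lcm (q.d + 1) (r.d + 1) / (q.d + 1) : ℕ) : ℤ) q.p)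
    (p2sm (-((Nat.lcm (q.d + 1) (r.d + 1) / (r.d + 1) : ℕ) : ℤ)) r.p),
    Nat.lcm (q.d + 1) (r.d + 1) - 1⟩

/-- product -/
def Q2.mul (q r : Q2) : Q2 := ⟨p2mul q.p r.p, (q.d + 1) * (r.d + 1) - 1⟩

instance : Add Q2 := ⟨Q2.add⟩
instance : Sub Q2 := ⟨Q2.sub⟩
instance : Mul Q2 := ⟨Q2.mul⟩

theorem evQ_c (a : Fr) (x y : ℝ) : evQ (Q2.c a) x y = a.R := by
  simp only [evQ, ev2, ev1, Q2.c, evL, mul_zero, add_zero, Fr.R]

theorem evQ_X (x y : ℝ) : evQ Q2.X x y = x := by
  simp only [evQ, ev2, ev1, Q2.X, evL, Int.cast_one, mul_zero, add_zero, mul_one, zero_add, CharP.cast_eq_zero, div_one]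

theorem evQ_Y (x y : ℝ) : evQ Q2.Y x y = y := by
  simp only [evQ, ev2, ev1, Q2.Y, evL, Int.cast_zero, Int.cast_one, mul_zero, add_zero, mul_one, zero_add, CharP.cast_eq_zero, div_one]

theorem evQ_lcm1 (a b : ℕ) : (((Nat.lcm (a + 1) (b + 1) / (a + 1) : ℕ) : ℝ)) /
    (((Nat.lcm (a + 1) (b + 1) - 1 : ℕ) : ℝ) + 1) = 1 / ((a : ℝ) + 1) := by
  obtain ⟨k, hk⟩ := Nat.dvd_lcm_left (a + 1) (b + 1)
  have hpos : 0 < Nat.lcm (a + 1) (b + 1) := Nat.lcm_pos (by omega) (by omega)
  have h1 : Nat.lcm (a + 1) (b + 1) / (a + 1) = k := by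
    rw [hk]
    exact Nat.mul_div_cancel_left _ (by omega)
  have h2 : (((Nat.lcm (a + 1) (b + 1) - 1 : ℕ) : ℝ) + 1) = ((a : ℝ) + 1) * k := by
    have : Nat.lcm (a + 1) (b + 1) - 1 + 1 = (a + 1) * k := by omega
    exact_mod_cast this
  have hk0 : (k : ℝ) ≠ 0 := by
    intro h
    have : k = 0 := by exact_mod_cast h
    rw [this] at hk
    omega
  rw [h1, h2]
  (clear * - hk0; field_simp)

theorem evQ_lcm2 (a b : ℕ) : (((Nat.lcm (a + 1) (b + 1) / (b + 1) : ℕ) : ℝ)) /
    (((Nat.lcm (a + 1) (b + 1) - 1 : ℕ) : ℝ) + 1) = 1 / ((b : ℝ) + 1) := by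
  rw [Nat.lcm_comm]
  exact evQ_lcm1 b a

theorem evQ_add (q r : Q2) (x y : ℝ) : evQ (q + r) x y = evQ q x y + evQ r x y := by
  show evQ (Q2.add q r) x y = _
  unfold evQ Q2.add
  simp only
  rw [ev2_add, ev2_sm, ev2_sm, add_div, mul_div_right_comm, mul_div_right_comm, Int.cast_natCast,
    Int.cast_natCast, evQ_lcm1, evQ_lcm2]
  ring

theorem evQ_sub (q r : Q2) (x y : ℝ) : evQ (q - r) x y = evQ q x y - evQ r x y := by
  show evQ (Q2.sub q r) x y = _
  unfold evQ Q2.sub
  simp only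
  rw [ev2_add, ev2_sm, ev2_sm, add_div, mul_div_right_comm, mul_div_right_comm, Int.cast_neg,
    Int.cast_natCast, Int.cast_natCast, neg_div, evQ_lcm1, evQ_lcm2]
  ring

theorem evQ_mul (q r : Q2) (x y : ℝ) : evQ (q * r) x y = evQ q x y * evQ r x y := by
  show evQ (Q2.mul q r) x y = _
  unfold evQ Q2.mul
  simp only
  rw [ev2_mul]
  have h : (((q.d + 1) * (r.d + 1) - 1 : ℕ) : ℝ) + 1 = ((q.d : ℝ) + 1) * ((r.d : ℝ) + 1) := by
    have : (q.d + 1) * (r.d + 1) - 1 + 1 = (q.d + 1) * (r.d + 1) :=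
      Nat.sub_add_cancel (Nat.mul_pos (by omega) (by omega))
    exact_mod_cast this
  rw [h]
  (clear * -; field_simp)

theorem evQ_nonneg {q : Q2} {x y : ℝ} (h : 0 ≤ ev2 q.p x y) : 0 ≤ evQ q x y := by
  unfold evQ
  positivity

/-- the entries of a quadratic form, weight `W`, lower bound `e` of `a` -/
structure Ent (α : Type) where
  a : α
  b : α
  c : α
  d : α
  f : α
  g : α
  W : α
  e : α

/-- the four polynomials of the psd test: `a - e`, `ab - Wd²`, `ac - Wf²`, determinant -/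
def psdQ (E : Ent Q2) : List P2 :=
  let dd := E.d * E.d
  let ff := E.f * E.f
  [(E.a - E.e).p, (E.a * E.b - E.W * dd).p, (E.a * E.c - E.W * ff).p,
    (E.a * (E.b * E.c - E.g * E.g) -
      E.W * (E.c * dd - Q2.c ⟨2, 0⟩ * (E.g * (E.d * E.f)) + E.b * ff)).p]

theorem psdQ_sound {E : Ent Q2} {x y : ℝ} (h : ∀ p ∈ psdQ E, 0 ≤ ev2 p x y) :
    evQ E.e x y ≤ evQ E.a x y ∧
    0 ≤ evQ E.a x y * evQ E.b x y - evQ E.W x y * evQ E.d x y ^ 2 ∧
    0 ≤ evQ E.a x y * evQ E.c x y - evQ E.W x y * evQ E.f x y ^ 2 ∧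
    0 ≤ evQ E.a x y * (evQ E.b x y * evQ E.c x y - evQ E.g x y ^ 2) - evQ E.W x y *
      (evQ E.c x y * evQ E.d x y ^ 2 - 2 * evQ E.g x y * evQ E.d x y * evQ E.f x y +
        evQ E.b x y * evQ E.f x y ^ 2) := by
  simp only [psdQ, List.mem_cons, List.not_mem_nil, or_false, forall_eq_or_imp, forall_eq] at h
  obtain ⟨h1, h2, h3, h4⟩ := h
  have h1 := evQ_nonneg h1
  have h2 := evQ_nonneg h2
  have h3 := evQ_nonneg h3
  have h4 := evQ_nonneg h4
  simp only [evQ_sub, evQ_add, evQ_mul, evQ_c] at h1 h2 h3 h4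
  have e2 : Fr.R ⟨2, 0⟩ = 2 := by simp [Fr.R]
  rw [e2] at h4
  refine ⟨by linarith only [h1], by linarith only [h2], by linarith only [h3], by linarith only [h4]⟩

/-- closed boxes -/
theorem check2_closed {A B D A' B' D' : ℤ} (hD : 0 < D) (hD' : 0 < D') (hAB : A < B)
    (hAB' : A' < B') {p : P2} (h : check2 A B D A' B' D' p = true) {x y : ℝ}
    (h0 : (A : ℝ) ≤ D * x) (h1 : (D : ℝ) * x ≤ B) (h2 : (A' : ℝ) ≤ D' * y)
    (h3 : (D' : ℝ) * y ≤ B') : 0 ≤ ev2 p x y := by
  have hDr : (0 : ℝ) < D := by exact_mod_cast hD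
  have hDr' : (0 : ℝ) < D' := by exact_mod_cast hD'
  have hABr : (A : ℝ) < B := by exact_mod_cast hAB
  have hABr' : (A' : ℝ) < B' := by exact_mod_cast hAB'
  refine ev2_closed (a := A / D) (b := B / D) (c := A' / D') (d := B' / D')
    (div_lt_div_of_pos_right hABr hDr) (div_lt_div_of_pos_right hABr' hDr') ?_ ?_ ?_ ?_ ?_
  · intro x y k0 k1 k2 k3
    refine check2_sound hD hD' h ?_ ?_ ?_ ?_
    · rw [div_le_iff₀ hDr] at k0
      linarith only [k0]
    · rw [lt_div_iff₀ hDr] at k1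
      linarith only [k1]
    · rw [div_le_iff₀ hDr'] at k2
      linarith only [k2]
    · rw [lt_div_iff₀ hDr'] at k3
      linarith only [k3]
  · rw [div_le_iff₀ hDr]
    linarith only [h0]
  · rw [le_div_iff₀ hDr]
    linarith only [h1]
  · rw [div_le_iff₀ hDr']
    linarith only [h2]
  · rw [le_div_iff₀ hDr']
    linarith only [h3]

theorem tchk_closed {F : List (List P2)} {Lo : P2} {x y : ℝ} (hLo : ev2 Lo x y ≤ 0) :
    ∀ (t : PT) (A B D A' B' D' : ℤ), 0 < D → 0 < D' → A < B → A' < B' →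
      tchk F Lo t A B D A' B' D' = true →
      (A : ℝ) ≤ D * x → (D : ℝ) * x ≤ B → (A' : ℝ) ≤ D' * y → (D' : ℝ) * y ≤ B' →
      ∃ i, ∀ p ∈ F.getD i [[[-1]]], 0 ≤ ev2 p x y
  | .leaf i, A, B, D, A', B', D', hD, hD', hA, hA', h, h0, h1, h2, h3 => by
    refine ⟨i, fun p hp => ?_⟩
    simp only [tchk, List.all_eq_true] at h
    exact check2_closed hD hD' hA hA' (h p hp) h0 h1 h2 h3
  | .out, A, B, D, A', B', D', hD, hD', hA, hA', h, h0, h1, h2, h3 => by
    exfalso
    have h4 := check2_closed hD hD' hA hA' (by simpa [tchk] using h) h0 h1 h2 h3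
    rw [ev2_sub] at h4
    simp only [ev2, ev1, evL] at h4 hLo
    norm_num at h4
    linarith
  | .sx l r, A, B, D, A', B', D', hD, hD', hA, hA', h, h0, h1, h2, h3 => by
    simp only [tchk, Bool.and_eq_true] at h
    rcases lt_or_ge (((2 * D : ℤ) : ℝ) * x) ((A + B : ℤ) : ℝ) with h4 | h4
    · exact tchk_closed hLo l _ _ _ _ _ _ (by omega) hD' (by omega) hA' h.1
        (by push_cast at *; linarith only [h0]) h4.le h2 h3
    · exact tchk_closed hLo r _ _ _ _ _ _ (by omega) hD' (by omega) hA' h.2 h4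
        (by push_cast at *; linarith only [h1]) h2 h3
  | .sy l r, A, B, D, A', B', D', hD, hD', hA, hA', h, h0, h1, h2, h3 => by
    simp only [tchk, Bool.and_eq_true] at h
    rcases lt_or_ge (((2 * D' : ℤ) : ℝ) * y) ((A' + B' : ℤ) : ℝ) with h4 | h4
    · exact tchk_closed hLo l _ _ _ _ _ _ hD (by omega) hA (by omega) h.1 h0 h1
        (by push_cast at *; linarith only [h2]) h4.le
    · exact tchk_closed hLo r _ _ _ _ _ _ hD (by omega) hA (by omega) h.2 h0 h1 h4
        (by push_cast at *; linarith only [h3])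

end Vale.Agent.P237.AllN.PolyPos
end

section

/-!
# Kernel-checked positivity of polynomial expressions on boxes by Kronecker substitution

A polynomial in `(t, τ)` with integer coefficients is represented by its value at `(e, b)`,
`e = b ^ L`, `b` large, together with a bound of the sum of the absolute values of its
coefficients.  Its coefficients are nonnegative if all base-`b` digits of the value are small.
-/

namespace Vale.Agent.P237.AllN.PolyPos

/-! ## norms and widths of coefficient lists -/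

/-- sum of absolute values -/
def nrm1 : List ℤ → ℕ
  | [] => 0
  | a :: p => a.natAbs + nrm1 p

/-- sum of absolute values, two variables -/
def nrm2 : P2 → ℕ
  | [] => 0
  | a :: p => nrm1 a + nrm2 p

theorem nrm1_padd : ∀ p q : List ℤ, nrm1 (padd p q) ≤ nrm1 p + nrm1 q
  | [], q => by simp [padd, addL, nrm1]
  | a :: p, [] => by simp [padd, addL, nrm1]
  | a :: p, b :: q => by
    have h := nrm1_padd p q
    have h1 := Int.natAbs_add_le a b
    simp only [padd, addL, opsZ, nrm1] at h ⊢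
    omega

theorem nrm1_psm (c : ℤ) : ∀ p : List ℤ, nrm1 (psm c p) = c.natAbs * nrm1 p
  | [] => by simp [psm, nrm1]
  | a :: p => by
    have h := nrm1_psm c p
    simp only [psm, List.map_cons, nrm1, Int.natAbs_mul] at h ⊢
    rw [h]
    ring

theorem nrm1_pmul : ∀ p q : List ℤ, nrm1 (pmul p q) ≤ nrm1 p * nrm1 q
  | [], q => by simp [pmul, nrm1]
  | a :: p, q => by
    have h := nrm1_pmul p q
    have h1 := nrm1_padd (psm a q) (0 :: pmul p q)
    rw [nrm1_psm] at h1
    simp only [pmul, nrm1, Int.natAbs_zero, zero_add] at h h1 ⊢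
    calc _ ≤ a.natAbs * nrm1 q + nrm1 (pmul p q) := h1
      _ ≤ a.natAbs * nrm1 q + nrm1 p * nrm1 q := by omega
      _ = (a.natAbs + nrm1 p) * nrm1 q := by ring

theorem nrm2_add : ∀ p q : P2, nrm2 (p2add p q) ≤ nrm2 p + nrm2 q
  | [], q => by simp [p2add, addL, nrm2]
  | a :: p, [] => by simp [p2add, addL, nrm2]
  | a :: p, b :: q => by
    have h := nrm2_add p q
    have h1 := nrm1_padd a b
    simp only [p2add, addL, nrm2, padd] at h h1 ⊢
    have h2 : nrm1 ((opsL opsZ).add a b) = nrm1 (addL opsZ a b) := rfl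
    omega

theorem nrm2_sm (c : ℤ) : ∀ p : P2, nrm2 (p2sm c p) = c.natAbs * nrm2 p
  | [] => by simp [p2sm, nrm2]
  | a :: p => by
    have h := nrm2_sm c p
    simp only [p2sm, List.map_cons, nrm2, nrm1_psm] at h ⊢
    rw [h]
    ring

theorem nrm2_map_pmul (a : List ℤ) : ∀ q : P2, nrm2 (q.map (pmul a)) ≤ nrm1 a * nrm2 q
  | [] => by simp [nrm2]
  | b :: q => by
    have h := nrm2_map_pmul a q
    have h1 := nrm1_pmul a b
    simp only [List.map_cons, nrm2]
    calc _ ≤ nrm1 a * nrm1 b + nrm1 a * nrm2 q := by omega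
      _ = _ := by ring

theorem nrm2_mul : ∀ p q : P2, nrm2 (p2mul p q) ≤ nrm2 p * nrm2 q
  | [], q => by simp [p2mul, nrm2]
  | a :: p, q => by
    have h := nrm2_mul p q
    have h1 := nrm2_add (q.map (pmul a)) ([] :: p2mul p q)
    have h2 := nrm2_map_pmul a q
    simp only [p2mul, nrm2, nrm1, zero_add] at h h1 ⊢
    calc _ ≤ nrm1 a * nrm2 q + nrm2 p * nrm2 q := by omega
      _ = _ := by ring

/-- all rows have length at most `w + 1` -/
def WD (p : P2) (w : ℕ) : Prop := ∀ r ∈ p, r.length ≤ w + 1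

theorem WD.mono {p : P2} {w w' : ℕ} (h : WD p w) (hw : w ≤ w') : WD p w' :=
  fun r hr => (h r hr).trans (by omega)

theorem length_padd : ∀ p q : List ℤ, (padd p q).length = max p.length q.length
  | [], q => by simp [padd, addL]
  | a :: p, [] => by simp [padd, addL]
  | a :: p, b :: q => by
    have h := length_padd p q
    simp only [padd, addL, List.length_cons] at h ⊢
    omega

theorem length_pmul : ∀ (p q : List ℤ) (w w' : ℕ), p.length ≤ w + 1 → q.length ≤ w' + 1 →
    (pmul p q).length ≤ w + w' + 1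
  | [], q, w, w', _, _ => by simp [pmul]
  | a :: p, q, 0, w', h, h' => by
    have hp : p = [] := by
      cases p with
      | nil => rfl
      | cons b p => simp at h
    subst hp
    simp only [pmul, length_padd, psm, List.length_map, List.length_cons, List.length_nil]
    omega
  | a :: p, q, w + 1, w', h, h' => by
    have h1 := length_pmul p q w w' (by simpa using h) h'
    simp only [pmul, length_padd, psm, List.length_map, List.length_cons]
    omega

theorem WD.add : ∀ {p q : P2} {w : ℕ}, WD p w → WD q w → WD (p2add p q) w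
  | [], q, w, _, hq => by simpa [p2add, addL] using hq
  | a :: p, [], w, hp, _ => by simpa [p2add, addL] using hp
  | a :: p, b :: q, w, hp, hq => by
    have h := WD.add (p := p) (q := q) (fun r hr => hp r (by simp [hr]))
      (fun r hr => hq r (by simp [hr]))
    intro r hr
    simp only [p2add, addL, List.mem_cons] at hr
    rcases hr with hr | hr
    · rw [hr]
      have h1 : ((opsL opsZ).add a b).length = (padd a b).length := rfl
      rw [h1, length_padd]
      have := hp a (by simp)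
      have := hq b (by simp)
      omega
    · exact h r hr

theorem WD.sm {c : ℤ} {p : P2} {w : ℕ} (h : WD p w) : WD (p2sm c p) w := by
  intro r hr
  simp only [p2sm, List.mem_map] at hr
  obtain ⟨a, ha, rfl⟩ := hr
  simpa [psm] using h a ha

theorem WD.mul : ∀ {p q : P2} {w w' : ℕ}, WD p w → WD q w' → WD (p2mul p q) (w + w')
  | [], q, w, w', _, _ => by
    intro r hr
    simp [p2mul] at hr
  | a :: p, q, w, w', hp, hq => by
    have h := WD.mul (p := p) (q := q) (fun r hr => hp r (by simp [hr])) hq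
    rw [p2mul]
    apply WD.add
    · intro r hr
      simp only [List.mem_map] at hr
      obtain ⟨b, hb, rfl⟩ := hr
      exact length_pmul a b w w' (hp a (by simp)) (hq b hb)
    · intro r hr
      simp only [List.mem_cons] at hr
      rcases hr with rfl | hr
      · simp
      · exact h r hr

/-! ## digits -/

/-- digit check -/
def dig (b M : ℕ) (fuel : ℕ) : ℕ → Bool :=
  Nat.rec (fun n => Nat.beq n 0)
    (fun _ ih n => Nat.beq n 0 || (Nat.ble (n % b) M && ih (n / b))) fuel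

theorem dig_succ (b M f n : ℕ) :
    dig b M (f + 1) n = (Nat.beq n 0 || (Nat.ble (n % b) M && dig b M f (n / b))) := rfl

theorem dig_zero_right (b M : ℕ) : ∀ f, dig b M f 0 = true
  | 0 => rfl
  | f + 1 => by rw [dig_succ]; rfl

/-- integer evaluation -/
def evZ (b : ℤ) : List ℤ → ℤ
  | [] => 0
  | a :: p => a + b * evZ b p

theorem evZ_cast (b : ℤ) : ∀ p : List ℤ, ((evZ b p : ℤ) : ℝ) = ev1 p b
  | [] => by simp [evZ, ev1, evL]
  | a :: p => by
    have h := evZ_cast b p
    simp only [evZ, ev1, evL] at h ⊢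
    push_cast
    rw [h]

theorem dig_sound {b M : ℕ} (hb : 2 * M < b) : ∀ (p : List ℤ) (f n : ℕ), nrm1 p ≤ M →
    evZ b p = n → dig b M f n = true → ∀ c ∈ p, 0 ≤ c
  | [], _, _, _, _, _ => by simp
  | a :: p, f, n, hM, hn, hd => by
    have hM1 : a.natAbs ≤ M := by simp only [nrm1] at hM; omega
    have hM2 : nrm1 p ≤ M := by simp only [nrm1] at hM; omega
    simp only [evZ] at hn
    have hb0 : (0 : ℤ) < b := by omega
    -- the case `n = 0`
    have hzero : n = 0 → ∀ c ∈ a :: p, 0 ≤ c := by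
      intro h0
      rw [h0] at hn
      have ha : a = 0 := by
        have hdvd : (b : ℤ) ∣ a := ⟨-evZ b p, by push_cast at hn; linarith⟩
        by_contra hne
        have := Int.le_of_dvd (a := (b : ℤ)) (b := a.natAbs) (by omega)
          (by rwa [Int.dvd_natAbs])
        omega
      have hp0 : evZ b p = ((0 : ℕ) : ℤ) := by
        rw [ha] at hn
        push_cast at hn ⊢
        have : (b : ℤ) * evZ b p = 0 := by linarith
        rcases mul_eq_zero.1 this with h | h
        · omega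
        · exact h
      have h := dig_sound hb p 0 0 hM2 hp0 (dig_zero_right b M 0)
      intro c hc
      rcases List.mem_cons.1 hc with rfl | hc
      · omega
      · exact h c hc
    cases f with
    | zero =>
      exact hzero (Nat.eq_of_beq_eq_true hd)
    | succ f =>
      rw [dig_succ, Bool.or_eq_true, Bool.and_eq_true] at hd
      rcases hd with hd | ⟨h1, h2⟩
      · exact hzero (Nat.eq_of_beq_eq_true hd)
      · have h1 := Nat.le_of_ble_eq_true h1
        have hmod : ((n % b : ℕ) : ℤ) = a % b := by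
          push_cast
          rw [← hn]
          exact Int.add_mul_emod_self_left a b (evZ b p)
        have ha0 : 0 ≤ a := by
          by_contra hneg
          have h3 : a % b = a + b := by
            rw [← Int.add_emod_right]
            exact Int.emod_eq_of_lt (by omega) (by omega)
          omega
        have hamod : a % b = a := Int.emod_eq_of_lt ha0 (by omega)
        have hdiv : evZ b p = ((n / b : ℕ) : ℤ) := by
          push_cast
          rw [← hn, Int.add_mul_ediv_left _ _ hb0.ne', Int.ediv_eq_zero_of_lt ha0 (by omega)]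
          ring
        have h := dig_sound hb p f (n / b) hM2 hdiv h2
        intro c hc
        rcases List.mem_cons.1 hc with rfl | hc
        · exact ha0
        · exact h c hc

/-! ## flattening -/

/-- concatenation of the rows padded to length `L` -/
def flat (L : ℕ) : P2 → List ℤ
  | [] => []
  | r :: p => r ++ (List.replicate (L - r.length) 0 ++ flat L p)

theorem ev1_append (a b : List ℤ) (x : ℝ) :
    ev1 (a ++ b) x = ev1 a x + x ^ a.length * ev1 b x := by
  induction a with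
  | nil => simp [ev1_nil]
  | cons c a ih =>
    rw [List.cons_append, ev1_cons, ih, ev1_cons, List.length_cons, pow_succ]
    ring

theorem ev1_replicate (n : ℕ) (x : ℝ) : ev1 (List.replicate n 0) x = 0 := by
  induction n with
  | zero => simp [ev1_nil]
  | succ n ih => rw [List.replicate_succ, ev1_cons, ih]; simp

theorem nrm1_append (a b : List ℤ) : nrm1 (a ++ b) = nrm1 a + nrm1 b := by
  induction a with
  | nil => simp [nrm1]
  | cons c a ih => simp only [List.cons_append, nrm1, ih]; omega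

theorem nrm1_replicate (n : ℕ) : nrm1 (List.replicate n 0) = 0 := by
  induction n with
  | zero => simp [nrm1]
  | succ n ih => simp [List.replicate_succ, nrm1, ih]

theorem ev1_flat {L : ℕ} (b : ℝ) : ∀ {p : P2}, (∀ r ∈ p, r.length ≤ L) →
    ev1 (flat L p) b = ev2 p (b ^ L) b
  | [], _ => by simp [flat, ev1_nil, ev2_nil]
  | r :: p, h => by
    have h1 := h r (by simp)
    rw [flat, ev1_append, ev1_append, ev1_replicate, ev2_cons,
      ev1_flat b (p := p) (fun s hs => h s (by simp [hs])), List.length_replicate, zero_add,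
      ← mul_assoc, ← pow_add]
    congr 3
    omega

theorem nrm1_flat (L : ℕ) : ∀ p : P2, nrm1 (flat L p) = nrm2 p
  | [] => by simp [flat, nrm1, nrm2]
  | r :: p => by
    rw [flat, nrm1_append, nrm1_append, nrm1_replicate, nrm1_flat L p, nrm2]
    omega

theorem mem_flat {L : ℕ} : ∀ {p : P2} {r : List ℤ} {c : ℤ}, r ∈ p → c ∈ r → c ∈ flat L p
  | [], r, c, hr, _ => by simp at hr
  | s :: p, r, c, hr, hc => by
    rw [flat]
    rcases List.mem_cons.1 hr with rfl | hr
    · exact List.mem_append_left _ hc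
    · exact List.mem_append_right _ (List.mem_append_right _ (mem_flat hr hc))

theorem ev2_nonneg {p : P2} (h : ∀ r ∈ p, ∀ c ∈ r, 0 ≤ c) {t s : ℝ} (ht : 0 ≤ t) (hs : 0 ≤ s) :
    0 ≤ ev2 p t s :=
  evL_nonneg ht p fun r hr => evL_nonneg hs r fun c hc => by exact_mod_cast h r hr c hc

/-! ## encoded values -/

/-- encoded value: numerator `N` at `(e, b)`, norm bound `M`, width `w`, denominator
`(1+t)^i (1+τ)^j (d+1)` -/
structure KV where
  N : ℤ
  M : ℕ
  w : ℕ
  i : ℕ
  j : ℕ
  d : ℕ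

/-- semantics -/
def Sem (b e : ℕ) (v : KV) (f : ℝ → ℝ → ℝ) : Prop :=
  ∃ p : P2, WD p v.w ∧ ev2 p e b = v.N ∧ nrm2 p ≤ v.M ∧ ∀ t s : ℝ, 0 ≤ t → 0 ≤ s →
    ev2 p t s = f t s * ((1 + t) ^ v.i * (1 + s) ^ v.j * ((v.d : ℝ) + 1))

/-- constants -/
def KV.c (a : Fr) : KV := ⟨a.n, a.n.natAbs, 0, 0, 0, a.d⟩

/-- `(A + B t) / (D (1 + t))` -/
def KV.x (e : ℕ) (A B : ℤ) (D : ℕ) : KV := ⟨A + B * e, A.natAbs + B.natAbs, 0, 1, 0, D - 1⟩

/-- `(A + B τ) / (D (1 + τ))` -/
def KV.y (b : ℕ) (A B : ℤ) (D : ℕ) : KV := ⟨A + B * b, A.natAbs + B.natAbs, 1, 0, 1, D - 1⟩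

/-- product -/
def KV.mul (p q : KV) : KV :=
  ⟨p.N * q.N, p.M * q.M, p.w + q.w, p.i + q.i, p.j + q.j, (p.d + 1) * (q.d + 1) - 1⟩

/-- multiplier for the common denominator -/
def KV.f (b e i j D : ℕ) (p : KV) : ℕ :=
  (1 + e) ^ (i - p.i) * (1 + b) ^ (j - p.j) * (D / (p.d + 1))

/-- norm of the multiplier -/
def KV.g (i j D : ℕ) (p : KV) : ℕ := 2 ^ (i - p.i) * 2 ^ (j - p.j) * (D / (p.d + 1))

/-- `p + σ q`, `σ = ±1` -/
def KV.lin (b e : ℕ) (σ : ℤ) (p q : KV) : KV :=
  ⟨(KV.f b e (max p.i q.i) (max p.j q.j) (Nat.lcm (p.d + 1) (q.d + 1)) p : ℕ) * p.N +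
      σ * ((KV.f b e (max p.i q.i) (max p.j q.j) (Nat.lcm (p.d + 1) (q.d + 1)) q : ℕ) * q.N),
    KV.g (max p.i q.i) (max p.j q.j) (Nat.lcm (p.d + 1) (q.d + 1)) p * p.M +
      KV.g (max p.i q.i) (max p.j q.j) (Nat.lcm (p.d + 1) (q.d + 1)) q * q.M,
    max (p.w + (max p.j q.j - p.j)) (q.w + (max p.j q.j - q.j)), max p.i q.i, max p.j q.j,
    Nat.lcm (p.d + 1) (q.d + 1) - 1⟩

theorem sem_c (b e : ℕ) (a : Fr) : Sem b e (KV.c a) (fun _ _ => a.R) := by
  refine ⟨[[a.n]], ?_, ?_, ?_, ?_⟩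
  · intro r hr
    simp only [List.mem_singleton] at hr
    subst hr
    simp
  · simp [ev2, ev1, evL, KV.c]
  · simp [nrm2, nrm1, KV.c]
  · intro t s _ _
    have : (a.d : ℝ) + 1 ≠ 0 := by positivity
    simp [ev2, ev1, evL, KV.c, Fr.R]
    field_simp

theorem sem_x (b e : ℕ) (A B : ℤ) {D : ℕ} (hD : 0 < D) :
    Sem b e (KV.x e A B D) (fun t _ => (A + B * t) / (D * (1 + t))) := by
  refine ⟨[[A], [B]], ?_, ?_, ?_, ?_⟩
  · intro r hr
    simp only [List.mem_cons, List.not_mem_nil, or_false] at hr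
    rcases hr with rfl | rfl <;> simp
  · simp [ev2, ev1, evL, KV.x]
    ring
  · simp [nrm2, nrm1, KV.x]
  · intro t s ht _
    have hD' : ((D - 1 : ℕ) : ℝ) + 1 = D := by
      have : D - 1 + 1 = D := by omega
      exact_mod_cast this
    have h1 : (D : ℝ) ≠ 0 := by exact_mod_cast hD.ne'
    have h2 : 1 + t ≠ 0 := by positivity
    simp only [ev2, ev1, evL, KV.x, pow_one, pow_zero, hD']
    field_simp
    ring

theorem sem_y (b e : ℕ) (A B : ℤ) {D : ℕ} (hD : 0 < D) :
    Sem b e (KV.y b A B D) (fun _ s => (A + B * s) / (D * (1 + s))) := by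
  refine ⟨[[A, B]], ?_, ?_, ?_, ?_⟩
  · intro r hr
    simp only [List.mem_cons, List.not_mem_nil, or_false] at hr
    rcases hr with rfl
    simp [KV.y]
  · simp [ev2, ev1, evL, KV.y]
    ring
  · simp [nrm2, nrm1, KV.y]
  · intro t s _ hs
    have hD' : ((D - 1 : ℕ) : ℝ) + 1 = D := by
      have : D - 1 + 1 = D := by omega
      exact_mod_cast this
    have h1 : (D : ℝ) ≠ 0 := by exact_mod_cast hD.ne'
    have h2 : 1 + s ≠ 0 := by positivity
    simp only [ev2, ev1, evL, KV.y, pow_one, pow_zero, hD']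
    field_simp
    ring

theorem sem_mul {b e : ℕ} {v v' : KV} {f g : ℝ → ℝ → ℝ} (h : Sem b e v f) (h' : Sem b e v' g) :
    Sem b e (KV.mul v v') (fun t s => f t s * g t s) := by
  obtain ⟨p, p1, p2, p3, p4⟩ := h
  obtain ⟨q, q1, q2, q3, q4⟩ := h'
  refine ⟨p2mul p q, p1.mul q1, ?_, (nrm2_mul p q).trans (Nat.mul_le_mul p3 q3), ?_⟩
  · rw [ev2_mul, p2, q2]
    simp [KV.mul]
  · intro t s ht hs
    have hd : (((v.d + 1) * (v'.d + 1) - 1 : ℕ) : ℝ) + 1 = ((v.d : ℝ) + 1) * ((v'.d : ℝ) + 1) := by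
      have : (v.d + 1) * (v'.d + 1) - 1 + 1 = (v.d + 1) * (v'.d + 1) :=
        Nat.sub_add_cancel (Nat.mul_pos (by omega) (by omega))
      exact_mod_cast this
    rw [ev2_mul, p4 t s ht hs, q4 t s ht hs]
    simp only [KV.mul, hd, pow_add]
    ring

/-- the polynomial `(1+t)^i (1+τ)^j` -/
theorem powPoly (i j : ℕ) : ∃ p : P2, WD p j ∧ nrm2 p ≤ 2 ^ i * 2 ^ j ∧
    ∀ t s : ℝ, ev2 p t s = (1 + t) ^ i * (1 + s) ^ j := by
  induction i with
  | zero =>
    induction j with
    | zero =>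
      refine ⟨[[1]], ?_, ?_, ?_⟩
      · intro r hr
        simp only [List.mem_singleton] at hr
        subst hr
        simp
      · simp [nrm2, nrm1]
      · intro t s
        simp [ev2, ev1, evL]
    | succ j ih =>
      obtain ⟨p, h1, h2, h3⟩ := ih
      have hV : WD [[1, 1]] 1 := by
        intro r hr
        simp only [List.mem_singleton] at hr
        subst hr
        simp
      refine ⟨p2mul p [[1, 1]], h1.mul hV, ?_, ?_⟩
      · refine (nrm2_mul _ _).trans ?_
        have : nrm2 [[1, 1]] = 2 := rfl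
        rw [this, pow_succ]
        nlinarith
      · intro t s
        rw [ev2_mul, h3]
        simp [ev2, ev1, evL]
        ring
  | succ i ih =>
    obtain ⟨p, h1, h2, h3⟩ := ih
    have hU : WD [[1], [1]] 0 := by
      intro r hr
      simp only [List.mem_cons, List.not_mem_nil, or_false] at hr
      rcases hr with rfl | rfl <;> simp
    refine ⟨p2mul p [[1], [1]], h1.mul hU, ?_, ?_⟩
    · refine (nrm2_mul _ _).trans ?_
      have : nrm2 [[1], [1]] = 2 := rfl
      rw [this, pow_succ]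
      nlinarith
    · intro t s
      rw [ev2_mul, h3]
      simp [ev2, ev1, evL]
      ring

/-- bringing a value to a common denominator -/
theorem sem_scale {b e : ℕ} {v : KV} {f : ℝ → ℝ → ℝ} (h : Sem b e v f) {i j D : ℕ}
    (hi : v.i ≤ i) (hj : v.j ≤ j) (hD : (v.d + 1) ∣ D) :
    ∃ p : P2, WD p (v.w + (j - v.j)) ∧ ev2 p e b = (KV.f b e i j D v : ℕ) * (v.N : ℝ) ∧
      nrm2 p ≤ KV.g i j D v * v.M ∧ ∀ t s : ℝ, 0 ≤ t → 0 ≤ s →
        ev2 p t s = f t s * ((1 + t) ^ i * (1 + s) ^ j * (D : ℝ)) := by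
  obtain ⟨p, p1, p2, p3, p4⟩ := h
  obtain ⟨q, q1, q2, q3⟩ := powPoly (i - v.i) (j - v.j)
  obtain ⟨k, hk⟩ := hD
  have hdiv : D / (v.d + 1) = k := by
    rw [hk]
    exact Nat.mul_div_cancel_left _ (by omega)
  refine ⟨p2sm (k : ℤ) (p2mul p q), (p1.mul q1).sm, ?_, ?_, ?_⟩
  · rw [ev2_sm, ev2_mul, p2, q3]
    simp only [KV.f, hdiv]
    push_cast
    ring
  · rw [nrm2_sm]
    simp only [KV.g, hdiv, Int.natAbs_natCast]
    calc k * nrm2 (p2mul p q) ≤ k * (nrm2 p * nrm2 q) := Nat.mul_le_mul_left _ (nrm2_mul p q)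
      _ ≤ k * (v.M * (2 ^ (i - v.i) * 2 ^ (j - v.j))) :=
          Nat.mul_le_mul_left _ (Nat.mul_le_mul p3 q2)
      _ = _ := by ring
  · intro t s ht hs
    rw [ev2_sm, ev2_mul, q3, p4 t s ht hs]
    have e1 : (1 + t) ^ i = (1 + t) ^ v.i * (1 + t) ^ (i - v.i) := by
      rw [← pow_add]
      congr 1
      omega
    have e2 : (1 + s) ^ j = (1 + s) ^ v.j * (1 + s) ^ (j - v.j) := by
      rw [← pow_add]
      congr 1
      omega
    have e3 : (D : ℝ) = ((v.d : ℝ) + 1) * k := by
      rw [hk]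
      push_cast
      ring
    rw [e1, e2, e3]
    push_cast
    ring

theorem sem_lin {b e : ℕ} {v v' : KV} {f g : ℝ → ℝ → ℝ} {σ : ℤ} (hσ : σ.natAbs = 1)
    (h : Sem b e v f) (h' : Sem b e v' g) :
    Sem b e (KV.lin b e σ v v') (fun t s => f t s + σ * g t s) := by
  have hD0 : 0 < Nat.lcm (v.d + 1) (v'.d + 1) := Nat.lcm_pos (by omega) (by omega)
  obtain ⟨p, p1, p2, p3, p4⟩ := sem_scale h (i := max v.i v'.i) (j := max v.j v'.j)
    (le_max_left _ _) (le_max_left _ _) (Nat.dvd_lcm_left (v.d + 1) (v'.d + 1))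
  obtain ⟨q, q1, q2, q3, q4⟩ := sem_scale h' (i := max v.i v'.i) (j := max v.j v'.j)
    (le_max_right _ _) (le_max_right _ _) (Nat.dvd_lcm_right (v.d + 1) (v'.d + 1))
  refine ⟨p2add p (p2sm σ q), WD.add (p1.mono (le_max_left _ _)) (q1.mono (le_max_right _ _)).sm,
    ?_, ?_, ?_⟩
  · rw [ev2_add, ev2_sm, p2, q2]
    simp [KV.lin]
  · refine (nrm2_add _ _).trans ?_
    rw [nrm2_sm, hσ, one_mul]
    exact Nat.add_le_add p3 q3
  · intro t s ht hs
    rw [ev2_add, ev2_sm, p4 t s ht hs, q4 t s ht hs]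
    have hd : ((Nat.lcm (v.d + 1) (v'.d + 1) - 1 : ℕ) : ℝ) + 1 =
        (Nat.lcm (v.d + 1) (v'.d + 1) : ℕ) := by
      have : Nat.lcm (v.d + 1) (v'.d + 1) - 1 + 1 = Nat.lcm (v.d + 1) (v'.d + 1) := by omega
      exact_mod_cast this
    simp only [KV.lin, hd]
    ring

/-! ## digit check by one bit mask -/

/-- `b` is a power of two, `n` has at most `T` digits in base `b` and all of them are smaller than `b / 2` -/
def msk (b T n : ℕ) : Bool :=
  Nat.ble 2 b && Nat.beq (Nat.land b (b - 1)) 0 && Nat.ble (n + 1) (b ^ T) &&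
    Nat.beq (Nat.land n ((b / 2) * ((b ^ T - 1) / (b - 1)))) 0

theorem msk_dig {k b : ℕ} (hb : b = 2 ^ (k + 1)) : ∀ T n : ℕ, n < b ^ T →
    n &&& ((b / 2) * ∑ i ∈ Finset.range T, b ^ i) = 0 → dig b (b / 2 - 1) T n = true
  | 0, n, hn, _ => by
    have h0 : n = 0 := by
      rw [pow_zero] at hn
      omega
    rw [h0]
    exact dig_zero_right _ _ _
  | T + 1, n, hn, hl => by
    have hb2 : b / 2 = 2 ^ k := by
      rw [hb, pow_succ]
      exact Nat.mul_div_cancel _ (by norm_num)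
    have hk : 0 < 2 ^ k := pow_pos (by norm_num) k
    have hbk : b = 2 * 2 ^ k := by rw [hb, pow_succ, mul_comm]
    have hb0 : 0 < b := by omega
    have hmask : (b / 2) * ∑ i ∈ Finset.range (T + 1), b ^ i =
        b / 2 + b * ((b / 2) * ∑ i ∈ Finset.range T, b ^ i) := by
      rw [Finset.sum_range_succ', pow_zero, Nat.mul_add, mul_one, add_comm]
      congr 1
      rw [Finset.mul_sum, Finset.mul_sum, Finset.mul_sum]
      refine Finset.sum_congr rfl fun i _ => ?_
      rw [pow_succ]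
      ring
    rw [hmask] at hl
    have hlt : b / 2 < b := by omega
    have hdv : (b / 2 + b * ((b / 2) * ∑ i ∈ Finset.range T, b ^ i)) / b =
        (b / 2) * ∑ i ∈ Finset.range T, b ^ i := by
      rw [Nat.add_mul_div_left _ _ hb0, Nat.div_eq_of_lt hlt, zero_add]
    have hmd : (b / 2 + b * ((b / 2) * ∑ i ∈ Finset.range T, b ^ i)) % b = b / 2 := by
      rw [Nat.add_mul_mod_self_left, Nat.mod_eq_of_lt hlt]
    have h1 : n / b &&& ((b / 2) * ∑ i ∈ Finset.range T, b ^ i) = 0 := by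
      have h := congrArg (fun z => z / 2 ^ (k + 1)) hl
      simp only [Nat.and_div_two_pow, Nat.zero_div] at h
      rw [← hb, hdv] at h
      exact h
    have h2 : n % b &&& 2 ^ k = 0 := by
      have h := congrArg (fun z => z % 2 ^ (k + 1)) hl
      simp only [Nat.and_mod_two_pow, Nat.zero_mod] at h
      rw [← hb, hmd, hb2] at h
      exact h
    have h3 : n % b < 2 ^ k := by
      refine Nat.lt_pow_two_of_testBit _ fun i hi => ?_
      rcases Nat.eq_or_lt_of_le hi with h | h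
      · rw [Nat.and_two_pow] at h2
        rw [← h]
        rcases Nat.mul_eq_zero.1 h2 with h4 | h4
        · cases hx : (n % b).testBit k with
          | false => rfl
          | true =>
            rw [hx] at h4
            exact absurd h4 (by decide)
        · omega
      · refine Nat.testBit_lt_two_pow (lt_of_lt_of_le (Nat.mod_lt _ hb0) ?_)
        rw [hb]
        exact Nat.pow_le_pow_right (by norm_num) h
    have h5 : n / b < b ^ T := by
      rw [pow_succ, mul_comm] at hn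
      exact Nat.div_lt_of_lt_mul hn
    have h6 := msk_dig hb T (n / b) h5 h1
    rw [dig_succ, Bool.or_eq_true, Bool.and_eq_true]
    exact Or.inr ⟨Nat.ble_eq_true_of_le (by omega), h6⟩

theorem msk_sound {b M T n : ℕ} (h : msk b T n = true) (hM : 2 * M + 1 ≤ b) :
    2 * (b / 2 - 1) < b ∧ M ≤ b / 2 - 1 ∧ dig b (b / 2 - 1) T n = true := by
  simp only [msk, Bool.and_eq_true] at h
  obtain ⟨⟨⟨h1, h2⟩, h3⟩, h4⟩ := h
  have h1 := Nat.le_of_ble_eq_true h1
  have h2 : b &&& (b - 1) = 0 := Nat.eq_of_beq_eq_true h2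
  have h3 := Nat.le_of_ble_eq_true h3
  have h4 : n &&& ((b / 2) * ((b ^ T - 1) / (b - 1))) = 0 := Nat.eq_of_beq_eq_true h4
  obtain ⟨k, hk⟩ := (Nat.and_sub_one_eq_zero_iff_isPowerOfTwo (by omega)).1 h2
  obtain ⟨j, rfl⟩ : ∃ j, k = j + 1 := by
    cases k with
    | zero => omega
    | succ j => exact ⟨j, rfl⟩
  rw [← Nat.geomSum_eq h1] at h4
  have h5 := msk_dig hk T n (by omega) h4
  have h6 : b = 2 * 2 ^ j := by rw [hk, pow_succ, mul_comm]
  have h7 : 0 < 2 ^ j := pow_pos (by norm_num) j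
  exact ⟨by omega, by omega, h5⟩

/-- positivity check -/
def KV.nn (b L fuel : ℕ) (v : KV) : Bool :=
  Nat.ble (2 * v.M + 1) b && Nat.ble (v.w + 1) L && decide (0 ≤ v.N) &&
    (msk b (L * v.i + v.w + 2) v.N.toNat || dig b v.M fuel v.N.toNat)

theorem nn_sound {b L fuel : ℕ} {v : KV} {f : ℝ → ℝ → ℝ} (h : Sem b (b ^ L) v f)
    (hc : KV.nn b L fuel v = true) {t s : ℝ} (ht : 0 ≤ t) (hs : 0 ≤ s) : 0 ≤ f t s := by
  simp only [KV.nn, Bool.and_eq_true, Bool.or_eq_true, decide_eq_true_eq] at hc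
  obtain ⟨⟨⟨c1, c2⟩, c3⟩, c4⟩ := hc
  have c1 := Nat.le_of_ble_eq_true c1
  have c2 := Nat.le_of_ble_eq_true c2
  obtain ⟨p, p1, p2, p3, p4⟩ := h
  have hlen : ∀ r ∈ p, r.length ≤ L := fun r hr => (p1 r hr).trans c2
  have hev : evZ (b : ℤ) (flat L p) = v.N := by
    have h1 := evZ_cast (b : ℤ) (flat L p)
    have h2 := ev1_flat (L := L) (b : ℝ) hlen
    have h3 : ((evZ (b : ℤ) (flat L p) : ℤ) : ℝ) = (v.N : ℝ) := by
      rw [h1, ← p2]
      push_cast
      rw [h2]
    exact_mod_cast h3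
  have hev' : evZ (b : ℤ) (flat L p) = ((v.N.toNat : ℕ) : ℤ) := by
    rw [hev]
    omega
  have hco : ∀ c ∈ flat L p, 0 ≤ c := by
    rcases c4 with c4 | c4
    · obtain ⟨d1, d2, d3⟩ := msk_sound c4 c1
      exact dig_sound (b := b) (M := b / 2 - 1) d1 (flat L p) _ v.N.toNat
        (by rw [nrm1_flat]; exact p3.trans d2) hev' d3
    · exact dig_sound (b := b) (M := v.M) (by omega) (flat L p) fuel v.N.toNat
        (by rw [nrm1_flat]; exact p3) hev' c4
  have h5 : 0 ≤ ev2 p t s := ev2_nonneg (fun r hr c hc => hco c (mem_flat hr hc)) ht hs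
  rw [p4 t s ht hs] at h5
  have h6 : 0 < (1 + t) ^ v.i * (1 + s) ^ v.j * ((v.d : ℝ) + 1) := by positivity
  exact nonneg_of_mul_nonneg_left h5 h6

end Vale.Agent.P237.AllN.PolyPos
end

section

/-!
# Polynomial expressions in two variables, positivity on trees of boxes
-/

namespace Vale.Agent.P237.AllN.PolyPos

/-- polynomial expressions -/
inductive Ex
  | c (a : Fr)
  | X
  | Y
  | add (a b : Ex)
  | sub (a b : Ex)
  | mul (a b : Ex)

instance : Add Ex := ⟨Ex.add⟩
instance : Sub Ex := ⟨Ex.sub⟩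
instance : Mul Ex := ⟨Ex.mul⟩

/-- real value -/
noncomputable def Ex.R (x y : ℝ) : Ex → ℝ
  | .c a => a.R
  | .X => x
  | .Y => y
  | .add a b => a.R x y + b.R x y
  | .sub a b => a.R x y - b.R x y
  | .mul a b => a.R x y * b.R x y

theorem Ex.R_c (x y : ℝ) (a : Fr) : (Ex.c a).R x y = a.R := rfl
theorem Ex.R_X (x y : ℝ) : Ex.X.R x y = x := rfl
theorem Ex.R_Y (x y : ℝ) : Ex.Y.R x y = y := rfl
theorem Ex.R_add (x y : ℝ) (a b : Ex) : (a + b).R x y = a.R x y + b.R x y := rfl
theorem Ex.R_sub (x y : ℝ) (a b : Ex) : (a - b).R x y = a.R x y - b.R x y := rfl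
theorem Ex.R_mul (x y : ℝ) (a b : Ex) : (a * b).R x y = a.R x y * b.R x y := rfl

/-- encoded value -/
noncomputable def Ex.K (b e : ℕ) (kx ky : KV) (E : Ex) : KV :=
  Ex.rec (motive := fun _ => KV) KV.c kx ky (fun _ _ p q => KV.lin b e 1 p q)
    (fun _ _ p q => KV.lin b e (-1) p q) (fun _ _ p q => KV.mul p q) E

theorem Ex.sem (b e : ℕ) {kx ky : KV} {fx fy : ℝ → ℝ → ℝ} (hx : Sem b e kx fx)
    (hy : Sem b e ky fy) : ∀ E : Ex, Sem b e (Ex.K b e kx ky E) fun t s => E.R (fx t s) (fy t s)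
  | .c a => sem_c b e a
  | .X => hx
  | .Y => hy
  | .add p q => by
    have h := sem_lin (σ := 1) rfl (Ex.sem b e hx hy p) (Ex.sem b e hx hy q)
    simp only [Int.cast_one, one_mul] at h
    exact h
  | .sub p q => by
    have h := sem_lin (σ := -1) rfl (Ex.sem b e hx hy p) (Ex.sem b e hx hy q)
    simp only [Int.cast_neg, Int.cast_one, neg_mul, one_mul, ← sub_eq_add_neg] at h
    exact h
  | .mul p q => sem_mul (Ex.sem b e hx hy p) (Ex.sem b e hx hy q)

/-- positivity check of an expression on a box -/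
noncomputable def Ex.nn (b L fuel : ℕ) (A B : ℤ) (D : ℕ) (A' B' : ℤ) (D' : ℕ) (E : Ex) : Bool :=
  KV.nn b L fuel (Ex.K b (b ^ L) (KV.x (b ^ L) A B D) (KV.y b A' B' D') E)

theorem Ex.nn_sound {b L fuel : ℕ} {A B : ℤ} {D : ℕ} {A' B' : ℤ} {D' : ℕ} {E : Ex}
    (hD : 0 < D) (hD' : 0 < D') (h : Ex.nn b L fuel A B D A' B' D' E = true) {x y : ℝ}
    (h0 : (A : ℝ) ≤ D * x) (h1 : (D : ℝ) * x < B) (h2 : (A' : ℝ) ≤ D' * y)
    (h3 : (D' : ℝ) * y < B') : 0 ≤ E.R x y := by
  have key : ∀ {A B : ℤ} {D : ℕ} {x : ℝ}, 0 < D → (A : ℝ) ≤ D * x → (D : ℝ) * x < B →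
      ∃ t : ℝ, 0 ≤ t ∧ (A + B * t) / (D * (1 + t)) = x := by
    intro A B D x hD h0 h1
    have hD' : (0 : ℝ) < D := by exact_mod_cast hD
    have hd : 0 < (B : ℝ) - D * x := by linarith only [h1]
    refine ⟨(D * x - A) / (B - D * x), div_nonneg (by linarith only [h0]) hd.le, ?_⟩
    have h2 : (1 : ℝ) + (D * x - A) / (B - D * x) = (B - A) / (B - D * x) := by
      field_simp
      ring
    have h3 : (0 : ℝ) < B - A := by linarith only [h0, h1]
    rw [h2]
    field_simp
    ring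
  obtain ⟨t, ht, hxt⟩ := key hD h0 h1
  obtain ⟨s, hs, hys⟩ := key hD' h2 h3
  have hS := Ex.sem b (b ^ L) (sem_x b (b ^ L) A B hD) (sem_y b (b ^ L) A' B' hD') E
  have := PolyPos.nn_sound hS h ht hs
  simpa only [hxt, hys] using this

theorem Ex.continuous_left (y : ℝ) : ∀ E : Ex, Continuous fun x => E.R x y
  | .c _ => continuous_const
  | .X => continuous_id
  | .Y => continuous_const
  | .add p q => (Ex.continuous_left y p).add (Ex.continuous_left y q)
  | .sub p q => (Ex.continuous_left y p).sub (Ex.continuous_left y q)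
  | .mul p q => (Ex.continuous_left y p).mul (Ex.continuous_left y q)

theorem Ex.continuous_right (x : ℝ) : ∀ E : Ex, Continuous fun y => E.R x y
  | .c _ => continuous_const
  | .X => continuous_const
  | .Y => continuous_id
  | .add p q => (Ex.continuous_right x p).add (Ex.continuous_right x q)
  | .sub p q => (Ex.continuous_right x p).sub (Ex.continuous_right x q)
  | .mul p q => (Ex.continuous_right x p).mul (Ex.continuous_right x q)

theorem Ex.nn_closed {b L fuel : ℕ} {A B : ℤ} {D : ℕ} {A' B' : ℤ} {D' : ℕ} {E : Ex}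
    (hD : 0 < D) (hD' : 0 < D') (hAB : A < B) (hAB' : A' < B')
    (h : Ex.nn b L fuel A B D A' B' D' E = true) {x y : ℝ}
    (h0 : (A : ℝ) ≤ D * x) (h1 : (D : ℝ) * x ≤ B) (h2 : (A' : ℝ) ≤ D' * y)
    (h3 : (D' : ℝ) * y ≤ B') : 0 ≤ E.R x y := by
  have hDr : (0 : ℝ) < D := by exact_mod_cast hD
  have hDr' : (0 : ℝ) < D' := by exact_mod_cast hD'
  have hABr : (A : ℝ) / D < B / D := div_lt_div_of_pos_right (by exact_mod_cast hAB) hDr
  have hABr' : (A' : ℝ) / D' < B' / D' := div_lt_div_of_pos_right (by exact_mod_cast hAB') hDr'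
  have base : ∀ x y : ℝ, x ∈ Set.Ico ((A : ℝ) / D) (B / D) → y ∈ Set.Ico ((A' : ℝ) / D') (B' / D') →
      0 ≤ E.R x y := by
    intro x y hx hy
    refine Ex.nn_sound hD hD' h ?_ ?_ ?_ ?_
    · have := hx.1
      rw [div_le_iff₀ hDr] at this
      linarith only [this]
    · have := hx.2
      rw [lt_div_iff₀ hDr] at this
      linarith only [this]
    · have := hy.1
      rw [div_le_iff₀ hDr'] at this
      linarith only [this]
    · have := hy.2
      rw [lt_div_iff₀ hDr'] at this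
      linarith only [this]
  have hy : y ∈ Set.Icc ((A' : ℝ) / D') (B' / D') := by
    refine ⟨?_, ?_⟩
    · rw [div_le_iff₀ hDr']
      linarith only [h2]
    · rw [le_div_iff₀ hDr']
      linarith only [h3]
  have hx : x ∈ Set.Icc ((A : ℝ) / D) (B / D) := by
    refine ⟨?_, ?_⟩
    · rw [div_le_iff₀ hDr]
      linarith only [h0]
    · rw [le_div_iff₀ hDr]
      linarith only [h1]
  have hstep : ∀ x ∈ Set.Ico ((A : ℝ) / D) (B / D), 0 ≤ E.R x y := by
    intro x hx
    have hcl : IsClosed {y : ℝ | 0 ≤ E.R x y} :=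
      isClosed_le continuous_const (Ex.continuous_right x E)
    have hsub : Set.Ico ((A' : ℝ) / D') (B' / D') ⊆ {y : ℝ | 0 ≤ E.R x y} :=
      fun y hy => base x y hx hy
    have := hcl.closure_subset_iff.2 hsub
    rw [closure_Ico hABr'.ne] at this
    exact this hy
  have hcl : IsClosed {x : ℝ | 0 ≤ E.R x y} :=
    isClosed_le continuous_const (Ex.continuous_left y E)
  have := hcl.closure_subset_iff.2 (fun x hx => hstep x hx)
  rw [closure_Ico hABr.ne] at this
  exact this hx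

/-- check on a tree of boxes: on leaves all members of one family are nonnegative, on `out` boxes
the region expression is positive -/
noncomputable def tchkE (b L fuel : ℕ) (F : List (List Ex)) (Lo : Ex) (t : PT) :
    ℤ → ℤ → ℕ → ℤ → ℤ → ℕ → Bool :=
  PT.rec (motive := fun _ => ℤ → ℤ → ℕ → ℤ → ℤ → ℕ → Bool)
    (fun i A B D A' B' D' => (F.getD i [Ex.c ⟨-1, 0⟩]).all (Ex.nn b L fuel A B D A' B' D'))
    (fun A B D A' B' D' => Ex.nn b L fuel A B D A' B' D' (Lo - Ex.c ⟨1, 999999⟩))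
    (fun _ _ l r A B D A' B' D' =>
      l (2 * A) (A + B) (2 * D) A' B' D' && r (A + B) (2 * B) (2 * D) A' B' D')
    (fun _ _ l r A B D A' B' D' =>
      l A B D (2 * A') (A' + B') (2 * D') && r A B D (A' + B') (2 * B') (2 * D')) t

theorem tchkE_sound {b L fuel : ℕ} {F : List (List Ex)} {Lo : Ex} {x y : ℝ}
    (hLo : Lo.R x y ≤ 0) :
    ∀ (t : PT) (A B : ℤ) (D : ℕ) (A' B' : ℤ) (D' : ℕ), 0 < D → 0 < D' → A < B → A' < B' →
      tchkE b L fuel F Lo t A B D A' B' D' = true →
      (A : ℝ) ≤ D * x → (D : ℝ) * x ≤ B → (A' : ℝ) ≤ D' * y → (D' : ℝ) * y ≤ B' →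
      ∃ i, ∀ E ∈ F.getD i [Ex.c ⟨-1, 0⟩], 0 ≤ E.R x y
  | .leaf i, A, B, D, A', B', D', hD, hD', hA, hA', h, h0, h1, h2, h3 => by
    refine ⟨i, fun E hE => ?_⟩
    have h : (F.getD i [Ex.c ⟨-1, 0⟩]).all (Ex.nn b L fuel A B D A' B' D') = true := h
    rw [List.all_eq_true] at h
    exact Ex.nn_closed hD hD' hA hA' (h E hE) h0 h1 h2 h3
  | .out, A, B, D, A', B', D', hD, hD', hA, hA', h, h0, h1, h2, h3 => by
    exfalso
    have h : Ex.nn b L fuel A B D A' B' D' (Lo - Ex.c ⟨1, 999999⟩) = true := h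
    have h4 := Ex.nn_closed hD hD' hA hA' h h0 h1 h2 h3
    rw [Ex.R_sub, Ex.R_c] at h4
    have h5 : (0 : ℝ) < Fr.R ⟨1, 999999⟩ := by
      unfold Fr.R
      norm_num
    linarith only [hLo, h4, h5]
  | .sx l r, A, B, D, A', B', D', hD, hD', hA, hA', h, h0, h1, h2, h3 => by
    have h : (tchkE b L fuel F Lo l (2 * A) (A + B) (2 * D) A' B' D' &&
      tchkE b L fuel F Lo r (A + B) (2 * B) (2 * D) A' B' D') = true := h
    rw [Bool.and_eq_true] at h
    rcases lt_or_ge (((2 * D : ℕ) : ℝ) * x) ((A + B : ℤ) : ℝ) with h4 | h4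
    · exact tchkE_sound hLo l _ _ _ _ _ _ (by omega) hD' (by omega) hA' h.1
        (by push_cast at *; linarith only [h0]) h4.le h2 h3
    · exact tchkE_sound hLo r _ _ _ _ _ _ (by omega) hD' (by omega) hA' h.2 h4
        (by push_cast at *; linarith only [h1]) h2 h3
  | .sy l r, A, B, D, A', B', D', hD, hD', hA, hA', h, h0, h1, h2, h3 => by
    have h : (tchkE b L fuel F Lo l A B D (2 * A') (A' + B') (2 * D') &&
      tchkE b L fuel F Lo r A B D (A' + B') (2 * B') (2 * D')) = true := h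
    rw [Bool.and_eq_true] at h
    rcases lt_or_ge (((2 * D' : ℕ) : ℝ) * y) ((A' + B' : ℤ) : ℝ) with h4 | h4
    · exact tchkE_sound hLo l _ _ _ _ _ _ hD (by omega) hA (by omega) h.1 h0 h1
        (by push_cast at *; linarith only [h2]) h4.le
    · exact tchkE_sound hLo r _ _ _ _ _ _ hD (by omega) hA (by omega) h.2 h0 h1 h4
        (by push_cast at *; linarith only [h3])

/-- the four polynomials of the psd test: `a - e`, `ab - Wd²`, `ac - Wf²`, determinant -/
def psdE (E : Ent Ex) : List Ex :=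
  [E.a - E.e, E.a * E.b - E.W * (E.d * E.d), E.a * E.c - E.W * (E.f * E.f),
    E.a * (E.b * E.c - E.g * E.g) -
      E.W * (E.c * (E.d * E.d) - Ex.c ⟨2, 0⟩ * (E.g * (E.d * E.f)) + E.b * (E.f * E.f))]

theorem psdE_sound {E : Ent Ex} {x y : ℝ} (h : ∀ p ∈ psdE E, 0 ≤ p.R x y) :
    E.e.R x y ≤ E.a.R x y ∧
    0 ≤ E.a.R x y * E.b.R x y - E.W.R x y * E.d.R x y ^ 2 ∧
    0 ≤ E.a.R x y * E.c.R x y - E.W.R x y * E.f.R x y ^ 2 ∧
    0 ≤ E.a.R x y * (E.b.R x y * E.c.R x y - E.g.R x y ^ 2) - E.W.R x y *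
      (E.c.R x y * E.d.R x y ^ 2 - 2 * E.g.R x y * E.d.R x y * E.f.R x y +
        E.b.R x y * E.f.R x y ^ 2) := by
  simp only [psdE, List.mem_cons, List.not_mem_nil, or_false, forall_eq_or_imp, forall_eq] at h
  obtain ⟨h1, h2, h3, h4⟩ := h
  simp only [Ex.R_sub, Ex.R_add, Ex.R_mul, Ex.R_c] at h1 h2 h3 h4
  have e2 : Fr.R ⟨2, 0⟩ = 2 := by simp [Fr.R]
  rw [e2] at h4
  refine ⟨by linarith only [h1], by linarith only [h2], by linarith only [h3], by linarith only [h4]⟩

end Vale.Agent.P237.AllN.PolyPos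
end

section

/-!
# P237, all dimensions: hazard bounds for the marginals of the ball

`J n φ = ∫_φ^{π/2} cos^n` and two lower bounds for it; they are used for the slope bounds of the
monotone transport between the marginals of the ball and of a body.
-/

open Real Set MeasureTheory intervalIntegral

namespace Vale.Agent.P237.AllN.Slope

/-- tail integral of `cos ^ n` -/
noncomputable def J (n : ℕ) (φ : ℝ) : ℝ := ∫ t in φ..(π / 2), cos t ^ n

theorem hasDerivAt_J (n : ℕ) (φ : ℝ) : HasDerivAt (J n) (-(cos φ ^ n)) φ := by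
  have hc : Continuous fun t : ℝ => cos t ^ n := by fun_prop
  have h : HasDerivAt (fun u => ∫ t in (π / 2)..u, cos t ^ n) (cos φ ^ n) φ :=
    hc.integral_hasStrictDerivAt (π / 2) φ |>.hasDerivAt
  have e : J n = fun u => -∫ t in (π / 2)..u, cos t ^ n := by
    funext u
    unfold J
    rw [intervalIntegral.integral_symm]
  rw [e]
  exact h.neg

theorem J_pi_div_two (n : ℕ) : J n (π / 2) = 0 := by
  unfold J
  simp

theorem continuous_J (n : ℕ) : Continuous (J n) :=
  continuous_iff_continuousAt.2 fun φ => (hasDerivAt_J n φ).continuousAt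

theorem J_pos (n : ℕ) {φ : ℝ} (h0 : 0 ≤ φ) (h1 : φ < π / 2) : 0 < J n φ := by
  unfold J
  apply intervalIntegral.intervalIntegral_pos_of_pos_on
  · exact (by fun_prop : Continuous fun t : ℝ => cos t ^ n).intervalIntegrable _ _
  · intro t ht
    exact pow_pos (cos_pos_of_mem_Ioo ⟨by linarith only [h0, h1, ht.1], ht.2⟩) n
  · exact h1

/-! ### Wallis -/

theorem J_zero_rec (n : ℕ) : J (n + 2) 0 = ((n : ℝ) + 1) / ((n : ℝ) + 2) * J n 0 := by
  unfold J
  rw [integral_cos_pow]
  simp only [cos_pi_div_two, ne_eq, Nat.add_eq_zero_iff, one_ne_zero, and_false, not_false_eq_true, zero_pow, sin_pi_div_two, mul_one, cos_zero, one_pow, sin_zero, mul_zero, sub_self, zero_div, zero_add]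

theorem J_wallis (n : ℕ) : J n 0 * J (n + 1) 0 = π / (2 * ((n : ℝ) + 1)) := by
  induction n with
  | zero =>
    unfold J
    simp
  | succ n ih =>
    have h2 : (n : ℝ) + 1 ≠ 0 := by positivity
    have h3 : (n : ℝ) + 2 ≠ 0 := by positivity
    have h5 : J (n + 1 + 1) 0 = ((n : ℝ) + 1) / ((n : ℝ) + 2) * J n 0 := J_zero_rec n
    calc J (n + 1) 0 * J (n + 1 + 1) 0
        = ((n : ℝ) + 1) / ((n : ℝ) + 2) * (J n 0 * J (n + 1) 0) := by rw [h5]; ring
      _ = ((n : ℝ) + 1) / ((n : ℝ) + 2) * (π / (2 * ((n : ℝ) + 1))) := by rw [ih]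
      _ = π / (2 * (((n + 1 : ℕ) : ℝ) + 1)) := by
        push_cast
        have h4 : (n : ℝ) + 1 + 1 ≠ 0 := by (clear * -; positivity)
        field_simp
        ring

theorem J_anti (n : ℕ) : J (n + 1) 0 ≤ J n 0 := by
  unfold J
  apply intervalIntegral.integral_mono_on (by positivity)
  · exact (by fun_prop : Continuous fun t : ℝ => cos t ^ (n + 1)).intervalIntegrable _ _
  · exact (by fun_prop : Continuous fun t : ℝ => cos t ^ n).intervalIntegrable _ _
  · intro t ht
    have h0 : 0 ≤ cos t := cos_nonneg_of_mem_Icc ⟨by linarith only [ht.1, pi_pos], ht.2⟩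
    rw [pow_succ]
    have := mul_le_mul_of_nonneg_left (cos_le_one t) (pow_nonneg h0 n)
    linarith only [this]

theorem J_sq_ge (n : ℕ) : π / (2 * ((n : ℝ) + 1)) ≤ J n 0 ^ 2 := by
  rw [← J_wallis, sq]
  have h := J_anti n
  have h0 := J_pos n le_rfl (by positivity : (0 : ℝ) < π / 2)
  exact mul_le_mul_of_nonneg_left h h0.le

theorem J_sq_le (n : ℕ) : J (n + 1) 0 ^ 2 ≤ π / (2 * ((n : ℝ) + 1)) := by
  rw [← J_wallis, sq]
  have h := J_anti n
  have h0 := J_pos (n + 1) le_rfl (by positivity : (0 : ℝ) < π / 2)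
  exact mul_le_mul_of_nonneg_right h h0.le

/-! ### first hazard bound -/

theorem hazard_one (m : ℕ) {φ : ℝ} (h0 : 0 ≤ φ) (h1 : φ ≤ π / 2) :
    (m : ℝ) * (sin φ * cos φ ^ (m + 2)) ≤
      ((m : ℝ) + 1) * (1 + m * sin φ ^ 2) * J (m + 1) φ := by
  set D : ℝ → ℝ := fun t => J (m + 1) t -
    (m : ℝ) / (m + 1) * (sin t * cos t ^ (m + 2) / (1 + m * sin t ^ 2)) with hD
  have hden : ∀ t : ℝ, 0 < 1 + (m : ℝ) * sin t ^ 2 := fun t => by (clear * -; positivity)
  have hm1 : (0 : ℝ) < (m : ℝ) + 1 := by positivity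
  have hder : ∀ t : ℝ, HasDerivAt D (-(cos t ^ (m + 1)) -
      (m : ℝ) / (m + 1) * (((cos t * cos t ^ (m + 2) + sin t * (((m + 2 : ℕ) : ℝ) * cos t ^ (m + 1) * (-sin t))) *
        (1 + m * sin t ^ 2) - (sin t * cos t ^ (m + 2)) * (m * (2 * sin t * cos t))) /
          (1 + m * sin t ^ 2) ^ 2)) t := by
    intro t
    have hs := hasDerivAt_sin t
    have hc := hasDerivAt_cos t
    have e1 := hs.mul (hc.pow (m + 2))
    have e2 : HasDerivAt (fun t : ℝ => 1 + (m : ℝ) * sin t ^ 2) (m * (2 * sin t * cos t)) t := by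
      have := ((hs.pow 2).const_mul (m : ℝ)).const_add 1
      refine this.congr_deriv ?_
      simp only [Nat.cast_ofNat, Nat.add_one_sub_one, pow_one]
    have e3 := (e1.div e2 (hden t).ne').const_mul ((m : ℝ) / (m + 1))
    exact (hasDerivAt_J (m + 1) t).sub e3
  have hanti : AntitoneOn D (Icc φ (π / 2)) := by
    apply antitoneOn_of_deriv_nonpos (convex_Icc _ _)
    · exact fun t _ => (hder t).continuousAt.continuousWithinAt
    · exact fun t _ => (hder t).differentiableAt.differentiableWithinAt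
    · intro t ht
      rw [interior_Icc] at ht
      rw [(hder t).deriv]
      have hct : 0 < cos t := cos_pos_of_mem_Ioo ⟨by linarith only [h0, h1, ht.1], ht.2⟩
      have hcs : cos t ^ 2 = 1 - sin t ^ 2 := by have := sin_sq_add_cos_sq t; linarith only [this]
      have hsl : sin t ^ 2 ≤ 1 := by have := sin_sq_add_cos_sq t; nlinarith only [hcs]
      have key : -(cos t ^ (m + 1)) -
          (m : ℝ) / (m + 1) * (((cos t * cos t ^ (m + 2) + sin t * (((m + 2 : ℕ) : ℝ) * cos t ^ (m + 1) * (-sin t))) *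
          (1 + m * sin t ^ 2) - (sin t * cos t ^ (m + 2)) * (m * (2 * sin t * cos t))) /
          (1 + m * sin t ^ 2) ^ 2) =
          -(cos t ^ (m + 1) * (2 * m + 1 - m * sin t ^ 2)) / ((m + 1) * (1 + m * sin t ^ 2) ^ 2) := by
        have hd := (hden t).ne'
        have hm' := hm1.ne'
        have hp : cos t ^ (m + 2) = cos t ^ (m + 1) * cos t := by ring
        rw [hp]
        have hnum : (cos t * (cos t ^ (m + 1) * cos t) + sin t * (((m + 2 : ℕ) : ℝ) * cos t ^ (m + 1) * (-sin t))) *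
          (1 + m * sin t ^ 2) - (sin t * (cos t ^ (m + 1) * cos t)) * (m * (2 * sin t * cos t)) =
          cos t ^ (m + 1) * (1 - (2 * m + 3) * sin t ^ 2 - m * (m + 1) * (sin t ^ 2) ^ 2) := by
          have e : cos t ^ (m + 1) * ((cos t ^ 2 - ((m : ℝ) + 2) * sin t ^ 2) * (1 + m * sin t ^ 2) -
              2 * m * sin t ^ 2 * cos t ^ 2) = cos t ^ (m + 1) *
              (1 - (2 * m + 3) * sin t ^ 2 - m * (m + 1) * (sin t ^ 2) ^ 2) := by
            rw [hcs]; ring
          rw [← e]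
          push_cast
          ring
        rw [hnum]
        field_simp
        ring
      rw [key]
      apply div_nonpos_of_nonpos_of_nonneg
      · rw [neg_nonpos]
        apply mul_nonneg (pow_nonneg hct.le _)
        have : (0:ℝ) ≤ m := Nat.cast_nonneg m
        nlinarith only [hcs]
      · (clear * -; positivity)
  have hpi : D (π / 2) = 0 := by
    simp only [hD]
    rw [J_pi_div_two]
    simp
  have h := hanti ⟨le_rfl, h1⟩ ⟨h1, le_rfl⟩ h1
  rw [hpi] at h
  simp only [hD] at h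
  have hd := hden φ
  have h2 : (m : ℝ) / (m + 1) * (sin φ * cos φ ^ (m + 2) / (1 + m * sin φ ^ 2)) ≤ J (m + 1) φ := by
    linarith only [h]
  rw [div_mul_div_comm, div_le_iff₀ (by (clear * -; positivity))] at h2
  linarith only [h2]

end Vale.Agent.P237.AllN.Slope
end

section

/-!
# P237, all dimensions: the second hazard bound
-/

open Real Set MeasureTheory intervalIntegral

namespace Vale.Agent.P237.AllN.Slope

/-- the quartic which decides the sign of the derivative in the second hazard bound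
(`N = m + 1`, `k = (N - 1) H / N`) -/
noncomputable def Pq (N H p : ℝ) : ℝ :=
  (4 * H ^ 2 + H * ((N - 1) / N * H) - N) + 4 * H ^ 2 * ((N - 1) / N * H) * p
    + (H ^ 2 * ((N - 1) / N * H) ^ 2 + (3 * N + 1) * H ^ 2 - (N - 1) * (H * ((N - 1) / N * H)) - N) * p ^ 2
    + ((N + 1) * H ^ 2 * ((N - 1) / N * H) - N * H) * p ^ 3 + H ^ 2 * p ^ 4

/-- coefficients estimate -/
theorem Pq_deriv_pos {N H p : ℝ} (hN : 4 ≤ N) (hH : 0 < H) (h1 : N / (2 * π) ≤ H ^ 2)
    (hp : 0 ≤ p) :
    0 ≤ 4 * H ^ 2 * ((N - 1) / N * H)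
      + (H ^ 2 * ((N - 1) / N * H) ^ 2 + (3 * N + 1) * H ^ 2 - (N - 1) * (H * ((N - 1) / N * H)) - N) * (2 * p)
      + ((N + 1) * H ^ 2 * ((N - 1) / N * H) - N * H) * (3 * p ^ 2) + H ^ 2 * (4 * p ^ 3) := by
  have hN0 : 0 < N := by linarith only [hN]
  have hz : 0.159 * N ≤ H ^ 2 := by
    refine le_trans ?_ h1
    rw [le_div_iff₀ (by positivity)]
    have := pi_lt_d4
    nlinarith only [hN, this]
  set z : ℝ := H ^ 2 with hzdef
  have hz0 : 0 < z := by positivity
  set g : ℝ := (N - 1) / N with hg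
  have hg1 : g ≤ 1 := by rw [hg, div_le_one hN0]; linarith only []
  have hg0 : 3 / 4 ≤ g := by rw [hg, le_div_iff₀ hN0]; linarith only [hN]
  have hgN : g * N = N - 1 := by rw [hg]; (clear * - hN; field_simp)
  -- c2
  have hc2 : 3 ≤ z * (g * H) ^ 2 + (3 * N + 1) * z - (N - 1) * (H * (g * H)) - N := by
    have e1 : z * (g * H) ^ 2 = g ^ 2 * z ^ 2 := by rw [hzdef]; ring
    have e2 : (N - 1) * (H * (g * H)) = (N - 1) * g * z := by rw [hzdef]; ring
    rw [e1, e2]
    have h3 : (N - 1) * g * z ≤ (N - 1) * z := by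
      have : 0 ≤ (N - 1) * z := mul_nonneg (by linarith only [hN]) hz0.le
      nlinarith only [hz0, hg0, hgN]
    have h4 : 0 ≤ g ^ 2 * z ^ 2 := by (clear * - hg0 hH; positivity)
    nlinarith
  -- c3 in terms of e
  set e : ℝ := N - z * g * (N + 1) with he
  have hc3 : (N + 1) * z * (g * H) - N * H = -(H * e) := by rw [he]; ring
  rw [hc3]
  have hH4 : 0 ≤ 4 * z * (g * H) := by (clear * - hH hg0; positivity)
  have he2 : e ≤ 1.7 := by
    rw [he]
    have h5 : z * g * (N + 1) ≥ 0.159 * N * g * (N + 1) := by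
      have : 0 ≤ g * (N + 1) := by (clear * - hg0 hN; positivity)
      nlinarith only [hz, hgN, hN, hg0]
    have h6 : 0.159 * N * g * (N + 1) = 0.159 * (N - 1) * (N + 1) := by
      rw [← hgN]; ring
    nlinarith only [h5, hN, hgN]
  have hkey : 0 ≤ 2 * (z * (g * H) ^ 2 + (3 * N + 1) * z - (N - 1) * (H * (g * H)) - N) - 3 * (H * e) * p
      + 4 * z * p ^ 2 := by
    rcases le_or_gt e 0 with h0 | h0
    · have : 0 ≤ -(3 * (H * e) * p) := by
        have : H * e ≤ 0 := mul_nonpos_of_nonneg_of_nonpos hH.le h0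
        nlinarith only [hp, this]
      have h7 : 0 ≤ 4 * z * p ^ 2 := by (clear * - hH; positivity)
      linarith only [hc2, this, h7]
    · have h8 : 0 ≤ (2 * H * p - 3 / 4 * e) ^ 2 := sq_nonneg _
      have h9 : e ^ 2 ≤ 3 := by nlinarith only [he2, h0]
      have h10 : z * p ^ 2 = H ^ 2 * p ^ 2 := by rw [hzdef]
      linarith
  nlinarith only [hH4, hp, hkey]

theorem Pq_mono {N H : ℝ} (hN : 4 ≤ N) (hH : 0 < H) (h1 : N / (2 * π) ≤ H ^ 2) :
    MonotoneOn (Pq N H) (Ici 0) := by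
  have hder : ∀ p : ℝ, HasDerivAt (Pq N H) (4 * H ^ 2 * ((N - 1) / N * H)
      + (H ^ 2 * ((N - 1) / N * H) ^ 2 + (3 * N + 1) * H ^ 2 - (N - 1) * (H * ((N - 1) / N * H)) - N) * (2 * p)
      + ((N + 1) * H ^ 2 * ((N - 1) / N * H) - N * H) * (3 * p ^ 2) + H ^ 2 * (4 * p ^ 3)) p := by
    intro p
    have h1 := hasDerivAt_id p
    have h2 : HasDerivAt (fun p : ℝ => p ^ 2) (2 * p) p := by simpa only [Nat.cast_ofNat, Nat.add_one_sub_one, pow_one] using hasDerivAt_pow 2 p
    have h3 : HasDerivAt (fun p : ℝ => p ^ 3) (3 * p ^ 2) p := by simpa only [Nat.cast_ofNat, Nat.add_one_sub_one] using hasDerivAt_pow 3 p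
    have h4 : HasDerivAt (fun p : ℝ => p ^ 4) (4 * p ^ 3) p := by simpa using hasDerivAt_pow 4 p
    have := ((((h1.const_mul (4 * H ^ 2 * ((N - 1) / N * H))).const_add
      (4 * H ^ 2 + H * ((N - 1) / N * H) - N)).add
      (h2.const_mul (H ^ 2 * ((N - 1) / N * H) ^ 2 + (3 * N + 1) * H ^ 2 -
        (N - 1) * (H * ((N - 1) / N * H)) - N))).add
      (h3.const_mul ((N + 1) * H ^ 2 * ((N - 1) / N * H) - N * H))).add (h4.const_mul (H ^ 2))
    refine this.congr_deriv ?_
    ring
  apply monotoneOn_of_deriv_nonneg (convex_Ici _)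
  · exact fun t _ => (hder t).continuousAt.continuousWithinAt
  · exact fun t _ => (hder t).differentiableAt.differentiableWithinAt
  · intro t ht
    rw [interior_Ici] at ht
    rw [(hder t).deriv]
    exact Pq_deriv_pos hN hH h1 (le_of_lt ht)

/-- denominator of the second hazard bound -/
noncomputable def Wd (N H φ : ℝ) : ℝ :=
  H * (1 + cos φ ^ 2 + (N - 1) / N * H * cos φ * sin φ)
    + N * sin φ * (cos φ + (N - 1) / N * H * sin φ)

theorem Wd_pos {N H φ : ℝ} (hN : 1 ≤ N) (hH : 0 < H) (h0 : 0 ≤ φ) (h1 : φ ≤ π / 2) :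
    0 < Wd N H φ := by
  have hc : 0 ≤ cos φ := cos_nonneg_of_mem_Icc ⟨by linarith only [h0, h1], h1⟩
  have hs : 0 ≤ sin φ := sin_nonneg_of_nonneg_of_le_pi h0 (by linarith [pi_pos])
  have hg : 0 ≤ (N - 1) / N := div_nonneg (by linarith only [hN]) (by linarith only [hN])
  have hN0 : 0 < N := by linarith only [hN]
  unfold Wd
  have h2 : 0 ≤ (N - 1) / N * H * cos φ * sin φ := by (clear * - hN hH hc hs; positivity)
  have h3 : 0 ≤ N * sin φ * (cos φ + (N - 1) / N * H * sin φ) := by positivity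
  have h4 : 0 ≤ cos φ ^ 2 := by positivity
  nlinarith only [hH, h3, h2]

theorem hasDerivAt_Wd (N H φ : ℝ) : HasDerivAt (Wd N H)
    (H * (-(2 * cos φ * sin φ) + (N - 1) / N * H * (cos φ ^ 2 - sin φ ^ 2))
      + N * (cos φ ^ 2 - sin φ ^ 2 + 2 * ((N - 1) / N * H) * sin φ * cos φ)) φ := by
  have hs := hasDerivAt_sin φ
  have hc := hasDerivAt_cos φ
  have e1 := (((hc.pow 2).const_add 1).add ((hc.const_mul ((N - 1) / N * H)).mul hs)).const_mul H
  have e2 := (hs.const_mul N).mul (hc.add (hs.const_mul ((N - 1) / N * H)))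
  refine (e1.add e2).congr_deriv ?_
  simp only [Nat.cast_ofNat, Pi.add_apply]
  ring

/-- second hazard bound -/
theorem hazard_two (m : ℕ) (hm : 3 ≤ m) {φ : ℝ} (h0 : 0 ≤ φ) (h1 : φ < π / 2) {H : ℝ}
    (hH : H = 1 / (2 * J (m + 1) 0)) :
    cos φ ^ (m + 2) * (cos φ + (((m : ℝ) + 1) - 1) / ((m : ℝ) + 1) * H * sin φ) ≤
      Wd ((m : ℝ) + 1) H φ * J (m + 1) φ := by
  have ha : 0 < J (m + 1) 0 := J_pos (m + 1) le_rfl (by positivity)
  have hH0 : 0 < H := by rw [hH]; (clear * - ha; positivity)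
  have hHa : 2 * H * J (m + 1) 0 = 1 := by rw [hH]; field_simp
  have hHsq : ((m : ℝ) + 1) / (2 * π) ≤ H ^ 2 := by
    have h2 := J_sq_le m
    rw [hH, div_pow, one_pow, mul_pow, div_le_div_iff₀ (by positivity) (by positivity)]
    rw [le_div_iff₀ (by (clear * - hm; positivity))] at h2
    linarith
  have hm3 : (3 : ℝ) ≤ m := by exact_mod_cast hm
  set N : ℝ := (m : ℝ) + 1 with hN
  have hN4 : 4 ≤ N := by rw [hN]; linarith only [hm3]
  have hN0 : 0 < N := by linarith only [hm3]
  set k : ℝ := (N - 1) / N * H with hk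
  have hNk : N * k = (N - 1) * H := by rw [hk]; (clear * - hN4 hH0; field_simp)
  have hk0 : 0 < k := by
    rw [hk]
    have : 0 < (N - 1) / N := div_pos (by linarith only [hm3]) hN0
    (clear * - this hH0; positivity)
  set D : ℝ → ℝ := fun t => J (m + 1) t - (cos t ^ (m + 2) * (cos t + k * sin t)) / Wd N H t with hD
  set W' : ℝ → ℝ := fun t => H * (-(2 * cos t * sin t) + k * (cos t ^ 2 - sin t ^ 2))
      + N * (cos t ^ 2 - sin t ^ 2 + 2 * k * sin t * cos t) with hW'
  have hder : ∀ t : ℝ, 0 ≤ t → t ≤ π / 2 → HasDerivAt D (-(cos t ^ (m + 1)) -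
      ((((m + 2 : ℕ) : ℝ) * cos t ^ (m + 1) * (-sin t) * (cos t + k * sin t) +
        cos t ^ (m + 2) * (-sin t + k * cos t)) * Wd N H t -
        (cos t ^ (m + 2) * (cos t + k * sin t)) * W' t) / Wd N H t ^ 2) t := by
    intro t ht0 ht1
    have hs := hasDerivAt_sin t
    have hc := hasDerivAt_cos t
    have e1 := (hc.pow (m + 2)).mul (hc.add (hs.const_mul k))
    have e2 := hasDerivAt_Wd N H t
    have e3 := e1.div e2 (Wd_pos (by linarith only [hm3]) hH0 ht0 ht1).ne'
    exact (hasDerivAt_J (m + 1) t).sub e3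
  have hval : ∀ t : ℝ, 0 < t → t < π / 2 → (-(cos t ^ (m + 1)) -
      ((((m + 2 : ℕ) : ℝ) * cos t ^ (m + 1) * (-sin t) * (cos t + k * sin t) +
        cos t ^ (m + 2) * (-sin t + k * cos t)) * Wd N H t -
        (cos t ^ (m + 2) * (cos t + k * sin t)) * W' t) / Wd N H t ^ 2) =
      -(cos t ^ (m + 1) * cos t ^ 4 * Pq N H (tan t)) / Wd N H t ^ 2 := by
    intro t ht0 ht1
    have hct : 0 < cos t := cos_pos_of_mem_Ioo ⟨by linarith only [ht0, ht1], ht1⟩
    have hW := Wd_pos (N := N) (by linarith only [hm3]) hH0 ht0.le ht1.le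
    have hW2 : Wd N H t = H * (2 * cos t ^ 2 + sin t ^ 2 + k * cos t * sin t)
        + N * sin t * cos t + (N - 1) * H * sin t ^ 2 := by
      unfold Wd
      rw [← hNk, ← hk]
      have := sin_sq_add_cos_sq t
      linear_combination (-H) * this
    have htan : cos t ^ 4 * Pq N H (tan t) =
        (4 * H ^ 2 + H * k - N) * cos t ^ 4 + 4 * H ^ 2 * k * cos t ^ 3 * sin t
        + (H ^ 2 * k ^ 2 + (3 * N + 1) * H ^ 2 - (N - 1) * (H * k) - N) * cos t ^ 2 * sin t ^ 2
        + ((N + 1) * H ^ 2 * k - N * H) * cos t * sin t ^ 3 + H ^ 2 * sin t ^ 4 := by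
      unfold Pq
      rw [tan_eq_sin_div_cos, ← hk]
      (clear * - hct; field_simp)
    have hid : Wd N H t ^ 2 + Wd N H t * (k * cos t ^ 2 - (N + 2) * sin t * cos t
        - (N + 1) * k * sin t ^ 2) - cos t * (cos t + k * sin t) * W' t =
        cos t ^ 4 * Pq N H (tan t) := by
      rw [htan, hW2, hW']
      have hH' : N * k = (N - 1) * H := hNk
      have hkH : k = (N - 1) / N * H := hk
      simp only
      rw [hkH]
      field_simp
      ring
    rw [eq_div_iff (by (clear * - hW; positivity)), sub_mul, div_mul_cancel₀ _ (by (clear * - hW; positivity))]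
    have hp : cos t ^ (m + 2) = cos t ^ (m + 1) * cos t := by ring
    have hc2 : ((m + 2 : ℕ) : ℝ) = N + 1 := by push_cast; rw [hN]; ring
    rw [hp, hc2]
    linear_combination (-(cos t ^ (m + 1))) * hid
  have hD0 : D 0 = 0 := by
    simp only [hD, Wd]
    simp only [cos_zero, sin_zero]
    have : J (m + 1) 0 - 1 / (2 * H) = 0 := by
      rw [sub_eq_zero, eq_div_iff (by positivity)]
      linarith only [hHa]
    norm_num
    have e : (1 : ℝ) / (2 * H) = 1 / 2 * H⁻¹ := by rw [one_div, mul_inv]; norm_num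
    linarith only [this, e]
  have hDpi : D (π / 2) = 0 := by
    simp only [hD]
    rw [J_pi_div_two]
    simp
  have hDφ : 0 ≤ D φ := by
    have hmono := Pq_mono hN4 hH0 hHsq
    have htanφ : 0 ≤ tan φ := tan_nonneg_of_nonneg_of_le_pi_div_two h0 h1.le
    have hcontD : ContinuousOn D (Icc 0 (π / 2)) :=
      fun t ht => (hder t ht.1 ht.2).continuousAt.continuousWithinAt
    rcases le_or_gt (Pq N H (tan φ)) 0 with hs | hs
    · have hmon : MonotoneOn D (Icc 0 φ) := by
        apply monotoneOn_of_deriv_nonneg (convex_Icc _ _)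
        · exact hcontD.mono (Icc_subset_Icc le_rfl h1.le)
        · intro t ht
          rw [interior_Icc] at ht
          exact (hder t ht.1.le (by linarith only [h1, ht.2])).differentiableAt.differentiableWithinAt
        · intro t ht
          rw [interior_Icc] at ht
          have ht1 : t < π / 2 := by linarith only [h1, ht.2]
          rw [(hder t ht.1.le ht1.le).deriv, hval t ht.1 ht1]
          have htt : tan t ≤ tan φ := (tan_lt_tan_of_lt_of_lt_pi_div_two (by linarith only [h0, h1, ht.1]) h1 ht.2).le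
          have ht0 : 0 ≤ tan t := tan_nonneg_of_nonneg_of_le_pi_div_two ht.1.le ht1.le
          have hle := hmono ht0 htanφ htt
          have hct : 0 < cos t := cos_pos_of_mem_Ioo ⟨by linarith only [h0, h1, ht.1], ht1⟩
          apply div_nonneg _ (by (clear * -; positivity))
          rw [neg_nonneg]
          exact mul_nonpos_of_nonneg_of_nonpos (by (clear * - hct; positivity)) (by linarith only [hs, hle])
      have := hmon ⟨le_rfl, h0⟩ ⟨h0, le_rfl⟩ h0
      rw [hD0] at this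
      exact this
    · have hanti : AntitoneOn D (Icc φ (π / 2)) := by
        apply antitoneOn_of_deriv_nonpos (convex_Icc _ _)
        · exact hcontD.mono (Icc_subset_Icc h0 le_rfl)
        · intro t ht
          rw [interior_Icc] at ht
          exact (hder t (by linarith only [h0, ht.1]) ht.2.le).differentiableAt.differentiableWithinAt
        · intro t ht
          rw [interior_Icc] at ht
          have ht0 : 0 < t := by linarith only [h0, ht.1]
          rw [(hder t ht0.le ht.2.le).deriv, hval t ht0 ht.2]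
          have htt : tan φ ≤ tan t := (tan_lt_tan_of_lt_of_lt_pi_div_two (by linarith only [h0, h1]) ht.2 ht.1).le
          have ht0' : 0 ≤ tan t := tan_nonneg_of_nonneg_of_le_pi_div_two ht0.le ht.2.le
          have hle := hmono htanφ ht0' htt
          have hct : 0 < cos t := cos_pos_of_mem_Ioo ⟨by linarith only [h0, h1, ht0], ht.2⟩
          apply div_nonpos_of_nonpos_of_nonneg _ (by (clear * -; positivity))
          rw [neg_nonpos]
          exact mul_nonneg (by (clear * - hct; positivity)) (by linarith only [hs, hle])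
      have := hanti ⟨le_rfl, h1.le⟩ ⟨h1.le, le_rfl⟩ h1.le
      rw [hDpi] at this
      exact this
  simp only [hD] at hDφ
  have hW := Wd_pos (N := N) (by linarith only [hm3]) hH0 h0 h1.le
  rw [sub_nonneg, div_le_iff₀ hW] at hDφ
  rw [mul_comm (Wd N H φ)]
  exact hDφ

end Vale.Agent.P237.AllN.Slope
end

section

/-!
# P237, all dimensions: the root of the tail function of the ball and its logarithmic slope
-/

open Real Set MeasureTheory intervalIntegral

namespace Vale.Agent.P237.AllN.Slope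

/-- `(m+1)`-st root of the normalized tail -/
noncomputable def Gf (m : ℕ) (φ : ℝ) : ℝ := (J (m + 1) φ / J (m + 1) 0) ^ (1 / ((m : ℝ) + 1))

/-- `-Gf'` -/
noncomputable def Cf (m : ℕ) (φ : ℝ) : ℝ :=
  1 / ((m : ℝ) + 1) * (cos φ ^ (m + 1) / J (m + 1) φ) * Gf m φ

theorem Gf_pos (m : ℕ) {φ : ℝ} (h0 : 0 ≤ φ) (h1 : φ < π / 2) : 0 < Gf m φ :=
  rpow_pos_of_pos (div_pos (J_pos _ h0 h1) (J_pos _ le_rfl (by positivity))) _

theorem Cf_pos (m : ℕ) {φ : ℝ} (h0 : 0 ≤ φ) (h1 : φ < π / 2) : 0 < Cf m φ := by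
  have h2 := Gf_pos m h0 h1
  have h3 := J_pos (m + 1) h0 h1
  have h4 : 0 < cos φ := cos_pos_of_mem_Ioo ⟨by linarith only [h0, h1], h1⟩
  unfold Cf
  positivity

theorem Gf_zero (m : ℕ) : Gf m 0 = 1 := by
  unfold Gf
  rw [div_self (J_pos _ le_rfl (by positivity)).ne', one_rpow]

theorem Gf_pow (m : ℕ) {φ : ℝ} (h0 : 0 ≤ φ) (h1 : φ < π / 2) :
    Gf m φ ^ (m + 1) = J (m + 1) φ / J (m + 1) 0 := by
  unfold Gf
  rw [← rpow_natCast, ← rpow_mul (div_pos (J_pos _ h0 h1) (J_pos _ le_rfl (by positivity))).le]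
  push_cast
  rw [one_div, inv_mul_cancel₀ (by positivity), rpow_one]

theorem hasDerivAt_Gf (m : ℕ) {φ : ℝ} (h0 : 0 ≤ φ) (h1 : φ < π / 2) :
    HasDerivAt (Gf m) (-(Cf m φ)) φ := by
  have hJ := J_pos (m + 1) h0 h1
  have ha : 0 < J (m + 1) 0 := J_pos _ le_rfl (by positivity)
  have hq : 0 < J (m + 1) φ / J (m + 1) 0 := div_pos hJ ha
  have e := ((hasDerivAt_J (m + 1) φ).div_const (J (m + 1) 0)).rpow_const
    (p := 1 / ((m : ℝ) + 1)) (Or.inl hq.ne')
  refine e.congr_deriv ?_
  unfold Cf Gf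
  rw [rpow_sub hq, rpow_one]
  field_simp

theorem hasDerivAt_Cf (m : ℕ) {φ : ℝ} (h0 : 0 ≤ φ) (h1 : φ < π / 2) :
    HasDerivAt (Cf m) (Cf m φ * ((m : ℝ) / ((m : ℝ) + 1) * (cos φ ^ (m + 1) / J (m + 1) φ)
      - ((m : ℝ) + 1) * (sin φ / cos φ))) φ := by
  have hJ := J_pos (m + 1) h0 h1
  have hc : 0 < cos φ := cos_pos_of_mem_Ioo ⟨by linarith only [h0, h1], h1⟩
  have e1 := (((hasDerivAt_cos φ).pow (m + 1)).div (hasDerivAt_J (m + 1) φ) hJ.ne').const_mul
    (1 / ((m : ℝ) + 1))
  have e2 := e1.mul (hasDerivAt_Gf m h0 h1)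
  refine e2.congr_deriv ?_
  unfold Cf
  have hn : ((m : ℝ) + 1) ≠ 0 := by positivity
  simp only [Pi.div_apply, Pi.pow_apply]
  push_cast
  field_simp
  ring

theorem G_step (m : ℕ) {T T' : ℝ → ℝ} (hT0 : T 0 = 0)
    (hT : ∀ t, 0 ≤ t → t < π / 2 → HasDerivAt T (T' t) t)
    (hc : ∀ t, 0 < t → t < π / 2 →
      T' t + T t * ((m : ℝ) / ((m : ℝ) + 1) * (cos t ^ (m + 1) / J (m + 1) t)
        - ((m : ℝ) + 1) * (sin t / cos t)) ≤ 1)
    {φ : ℝ} (h0 : 0 ≤ φ) (h1 : φ < π / 2) : Cf m φ * T φ ≤ 1 - Gf m φ := by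
  have hder : ∀ t, 0 ≤ t → t < π / 2 → HasDerivAt (fun t => (1 - Gf m t) - Cf m t * T t)
      (-(-(Cf m t)) - (Cf m t * ((m : ℝ) / ((m : ℝ) + 1) * (cos t ^ (m + 1) / J (m + 1) t)
      - ((m : ℝ) + 1) * (sin t / cos t)) * T t + Cf m t * T' t)) t := by
    intro t ht0 ht1
    exact ((hasDerivAt_Gf m ht0 ht1).const_sub 1).sub ((hasDerivAt_Cf m ht0 ht1).mul (hT t ht0 ht1))
  have hmon : MonotoneOn (fun t => (1 - Gf m t) - Cf m t * T t) (Icc 0 φ) := by
    apply monotoneOn_of_deriv_nonneg (convex_Icc _ _)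
    · exact fun t ht => (hder t ht.1 (by (clear * - h1 ht; linarith [ht.2]))).continuousAt.continuousWithinAt
    · intro t ht
      rw [interior_Icc] at ht
      exact (hder t ht.1.le (by linarith [ht.2])).differentiableAt.differentiableWithinAt
    · intro t ht
      rw [interior_Icc] at ht
      have ht1 : t < π / 2 := by linarith [ht.2]
      rw [(hder t ht.1.le ht1).deriv]
      have h2 := hc t ht.1 ht1
      have h3 := Cf_pos m ht.1.le ht1
      have h4 := mul_le_mul_of_nonneg_left h2 h3.le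
      linarith
  have h := hmon ⟨le_rfl, h0⟩ ⟨h0, le_rfl⟩ h0
  simp only [Gf_zero, hT0] at h
  linarith only [h]

theorem slope_G_one (m : ℕ) {φ : ℝ} (h0 : 0 ≤ φ) (h1 : φ < π / 2) :
    Cf m φ * sin φ ≤ (1 - Gf m φ) * (1 + cos φ) := by
  have hpos : ∀ t : ℝ, 0 ≤ t → t < π / 2 → 0 < 1 + cos t := fun t ht0 ht1 => by
    have : 0 < cos t := cos_pos_of_mem_Ioo ⟨by linarith only [h0, h1, ht0], ht1⟩
    linarith only [this]
  have h := G_step m (T := fun t => sin t / (1 + cos t)) (T' := fun t => 1 / (1 + cos t))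
    (by simp) ?_ ?_ h0 h1
  · have h2 := hpos φ h0 h1
    rw [← mul_div_assoc, div_le_iff₀ h2] at h
    exact h
  · intro t ht0 ht1
    have h2 := hpos t ht0 ht1
    refine ((hasDerivAt_sin t).div ((hasDerivAt_cos t).const_add 1) h2.ne').congr_deriv ?_
    field_simp
    have := sin_sq_add_cos_sq t
    linarith only [this]
  · intro t ht0 ht1
    have h2 := hpos t ht0.le ht1
    have hct : 0 < cos t := cos_pos_of_mem_Ioo ⟨by linarith only [ht0, ht1], ht1⟩
    have hJ := J_pos (m + 1) ht0.le ht1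
    have hz := hazard_one m ht0.le ht1.le
    have h3 : (m : ℝ) / ((m : ℝ) + 1) * (cos t ^ (m + 1) / J (m + 1) t) * sin t ≤
        (1 + m * sin t ^ 2) / cos t := by
      rw [div_mul_div_comm, div_mul_eq_mul_div, div_le_div_iff₀ (by (clear * - hJ; positivity)) hct]
      calc (m : ℝ) * cos t ^ (m + 1) * sin t * cos t = (m : ℝ) * (sin t * cos t ^ (m + 2)) := by ring
        _ ≤ _ := hz
        _ = _ := by ring
    have h4 : (1 + m * sin t ^ 2) / cos t = cos t + (m + 1) * (sin t / cos t) * sin t := by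
      have := sin_sq_add_cos_sq t
      field_simp
      linear_combination (-1 : ℝ) * this
    have h5 : sin t * ((m : ℝ) / ((m : ℝ) + 1) * (cos t ^ (m + 1) / J (m + 1) t)
        - ((m : ℝ) + 1) * (sin t / cos t)) ≤ cos t := by
      rw [h4] at h3
      linarith only [h3]
    have h6 : 1 / (1 + cos t) + sin t / (1 + cos t) * ((m : ℝ) / ((m : ℝ) + 1) * (cos t ^ (m + 1) / J (m + 1) t)
        - ((m : ℝ) + 1) * (sin t / cos t)) = (1 + sin t * ((m : ℝ) / ((m : ℝ) + 1) * (cos t ^ (m + 1) / J (m + 1) t)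
        - ((m : ℝ) + 1) * (sin t / cos t))) / (1 + cos t) := by
      ring
    rw [h6, div_le_one h2]
    linarith only [h3, h4]

theorem slope_G_two (m : ℕ) (hm : 3 ≤ m) {φ : ℝ} (h0 : 0 ≤ φ) (h1 : φ < π / 2) :
    Cf m φ * sin φ ≤ (1 - Gf m φ) *
      (cos φ + (m : ℝ) / (2 * ((m : ℝ) + 1) * J (m + 1) 0) * sin φ) := by
  have ha : 0 < J (m + 1) 0 := J_pos _ le_rfl (by positivity)
  obtain ⟨H, hH⟩ : ∃ H : ℝ, H = 1 / (2 * J (m + 1) 0) := ⟨_, rfl⟩
  obtain ⟨k, hk⟩ : ∃ k : ℝ, k = (m : ℝ) / (2 * ((m : ℝ) + 1) * J (m + 1) 0) := ⟨_, rfl⟩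
  have hkH : k = (((m : ℝ) + 1) - 1) / ((m : ℝ) + 1) * H := by
    rw [hk, hH, add_sub_cancel_right]
    field_simp
  have hk0 : 0 ≤ k := by rw [hk]; positivity
  rw [← hk]
  have hpos : ∀ t : ℝ, 0 ≤ t → t < π / 2 → 0 < cos t + k * sin t := fun t ht0 ht1 => by
    have h2 : 0 < cos t := cos_pos_of_mem_Ioo ⟨by linarith only [h0, h1, ht0], ht1⟩
    have h3 : 0 ≤ sin t := sin_nonneg_of_nonneg_of_le_pi ht0 (by linarith only [h0, h1, ht1])
    (clear * - h2 hk0 h3; positivity)
  have h := G_step m (T := fun t => sin t / (cos t + k * sin t))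
    (T' := fun t => 1 / (cos t + k * sin t) ^ 2) (by simp) ?_ ?_ h0 h1
  · have h2 := hpos φ h0 h1
    rw [← mul_div_assoc, div_le_iff₀ h2] at h
    exact h
  · intro t ht0 ht1
    have h2 := hpos t ht0 ht1
    refine ((hasDerivAt_sin t).div ((hasDerivAt_cos t).add ((hasDerivAt_sin t).const_mul k))
      h2.ne').congr_deriv ?_
    simp only [Pi.add_apply]
    congr 1
    have := sin_sq_add_cos_sq t
    linear_combination this
  · intro t ht0 ht1
    have h2 := hpos t ht0.le ht1
    have hct : 0 < cos t := cos_pos_of_mem_Ioo ⟨by linarith only [ht0, ht1], ht1⟩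
    have hst : 0 ≤ sin t := sin_nonneg_of_nonneg_of_le_pi ht0.le (by linarith only [ht0, ht1])
    have hJ := J_pos (m + 1) ht0.le ht1
    have hz := hazard_two m hm ht0.le ht1 hH
    rw [← hkH] at hz
    have hmW : (m : ℝ) / ((m : ℝ) + 1) * Wd ((m : ℝ) + 1) H t =
        k + (k * cos t + m * sin t) * (cos t + k * sin t) := by
      unfold Wd
      rw [← hkH]
      have hkH' : (m : ℝ) / ((m : ℝ) + 1) * H = k := by rw [hkH]; ring
      have hn : ((m : ℝ) + 1) ≠ 0 := by positivity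
      have e : (m : ℝ) / ((m : ℝ) + 1) * (H * (1 + cos t ^ 2 + k * cos t * sin t) +
          ((m : ℝ) + 1) * sin t * (cos t + k * sin t)) =
          ((m : ℝ) / ((m : ℝ) + 1) * H) * (1 + cos t ^ 2 + k * cos t * sin t) +
          m * sin t * (cos t + k * sin t) := by
        (clear * - hn hm; field_simp)
      rw [e, hkH']
      ring
    have h3 : (m : ℝ) / ((m : ℝ) + 1) * (cos t ^ (m + 1) / J (m + 1) t) ≤
        (k + (k * cos t + m * sin t) * (cos t + k * sin t)) / (cos t * (cos t + k * sin t)) := by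
      rw [← hmW, ← mul_div_assoc, ← mul_div_assoc', ← mul_div_assoc']
      apply mul_le_mul_of_nonneg_left _ (by positivity)
      rw [div_le_div_iff₀ hJ (by (clear * - hct hk0 hst; positivity))]
      calc cos t ^ (m + 1) * (cos t * (cos t + k * sin t)) = cos t ^ (m + 2) * (cos t + k * sin t) := by
            ring
        _ ≤ _ := hz
    have h4 : (k + (k * cos t + m * sin t) * (cos t + k * sin t)) / (cos t * (cos t + k * sin t))
        - ((m : ℝ) + 1) * (sin t / cos t) =
        (k + (k * cos t - sin t) * (cos t + k * sin t)) / (cos t * (cos t + k * sin t)) := by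
      field_simp
      ring
    have h5 : (m : ℝ) / ((m : ℝ) + 1) * (cos t ^ (m + 1) / J (m + 1) t)
        - ((m : ℝ) + 1) * (sin t / cos t) ≤
        (k + (k * cos t - sin t) * (cos t + k * sin t)) / (cos t * (cos t + k * sin t)) := by
      rw [← h4]
      linarith only [h3]
    have h6 : sin t / (cos t + k * sin t) * ((m : ℝ) / ((m : ℝ) + 1) * (cos t ^ (m + 1) / J (m + 1) t)
        - ((m : ℝ) + 1) * (sin t / cos t)) ≤ sin t / (cos t + k * sin t) *
        ((k + (k * cos t - sin t) * (cos t + k * sin t)) / (cos t * (cos t + k * sin t))) :=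
      mul_le_mul_of_nonneg_left h5 (by (clear * - hst hct hk0; positivity))
    have h7 : 1 / (cos t + k * sin t) ^ 2 + sin t / (cos t + k * sin t) *
        ((k + (k * cos t - sin t) * (cos t + k * sin t)) / (cos t * (cos t + k * sin t))) = 1 := by
      have := sin_sq_add_cos_sq t
      have h2' := h2.ne'
      have hct' := hct.ne'
      rw [← sub_eq_zero]
      have e : 1 / (cos t + k * sin t) ^ 2 + sin t / (cos t + k * sin t) *
        ((k + (k * cos t - sin t) * (cos t + k * sin t)) / (cos t * (cos t + k * sin t))) - 1 =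
        (cos t + sin t * (k + (k * cos t - sin t) * (cos t + k * sin t)) -
          cos t * (cos t + k * sin t) ^ 2) / (cos t * (cos t + k * sin t) ^ 2) := by
        (clear * - hct' h2'; field_simp)
      rw [e]
      apply div_eq_zero_iff.2
      left
      linear_combination (-(cos t + k * sin t)) * this
    linarith only [h6, h7]

end Vale.Agent.P237.AllN.Slope
end

section

/-!
# P237, all dimensions: slope bounds for the transport of a concave profile

`r` is a concave nonincreasing nonnegative profile on `[0,1]`, `m ≥ 3`, `x ↦ θ` is the monotone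
transport from the density `√(1-t²)^m` to the density `r^m`.  We prove
`x s^m I ≤ (1 + 1/s) a θ r(θ)^m` and `x s^m I ≤ (1 + k x / s) a θ r(θ)^m`, where
`s = √(1-x²)`, `I = ∫ r^m`, `a = ∫ √(1-t²)^m`, `k = m / (2 (m+1) a)`.
-/

open Real Set MeasureTheory intervalIntegral

namespace Vale.Agent.P237.AllN.Slope

/-- the half of `aInt` -/
noncomputable def am (m : ℕ) : ℝ := ∫ t in (0:ℝ)..1, √(1 - t ^ 2) ^ m

theorem intervalIntegrable_pow_of_anti (m : ℕ) {r : ℝ → ℝ} (hanti : AntitoneOn r (Icc 0 1))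
    (hnn : ∀ t ∈ Icc (0:ℝ) 1, 0 ≤ r t) {a b : ℝ} (ha : 0 ≤ a) (hab : a ≤ b) (hb : b ≤ 1) :
    IntervalIntegrable (fun t => r t ^ m) volume a b := by
  apply AntitoneOn.intervalIntegrable
  rw [uIcc_of_le hab]
  intro x hx y hy hxy
  have hx' : x ∈ Icc (0:ℝ) 1 := ⟨by linarith only [ha, hx.1], by linarith only [hb, hx.2]⟩
  have hy' : y ∈ Icc (0:ℝ) 1 := ⟨by linarith [hy.1], by linarith [hy.2]⟩
  exact pow_le_pow_left₀ (hnn y hy') (hanti hx' hy' hxy) m

/-- `θ r(θ)^m ≤ ∫_0^θ r^m` -/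
theorem le_integral_left (m : ℕ) {r : ℝ → ℝ} (hanti : AntitoneOn r (Icc 0 1))
    (hnn : ∀ t ∈ Icc (0:ℝ) 1, 0 ≤ r t) {θ : ℝ} (h0 : 0 ≤ θ) (h1 : θ ≤ 1) :
    θ * r θ ^ m ≤ ∫ t in (0:ℝ)..θ, r t ^ m := by
  have h := intervalIntegral.integral_mono_on h0 (f := fun _ => r θ ^ m) (g := fun t => r t ^ m)
    (μ := volume) (by simp) (intervalIntegrable_pow_of_anti m hanti hnn le_rfl h0 h1)
    (fun t ht => pow_le_pow_left₀ (hnn θ ⟨h0, h1⟩)
      (hanti ⟨ht.1, by linarith only [h1, ht.2]⟩ ⟨h0, h1⟩ ht.2) m)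
  simpa only [ge_iff_le, intervalIntegral.integral_const, sub_zero, smul_eq_mul] using h

/-- `∫_θ^1 r^m ≤ (1-θ) r(θ)^m` -/
theorem integral_right_le (m : ℕ) {r : ℝ → ℝ} (hanti : AntitoneOn r (Icc 0 1))
    (hnn : ∀ t ∈ Icc (0:ℝ) 1, 0 ≤ r t) {θ : ℝ} (h0 : 0 ≤ θ) (h1 : θ ≤ 1) :
    ∫ t in θ..(1:ℝ), r t ^ m ≤ (1 - θ) * r θ ^ m := by
  have h := intervalIntegral.integral_mono_on h1 (g := fun _ => r θ ^ m) (f := fun t => r t ^ m)
    (μ := volume) (intervalIntegrable_pow_of_anti m hanti hnn h0 h1 le_rfl) (by simp)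
    (fun t ht => pow_le_pow_left₀ (hnn t ⟨by linarith only [h0, ht.1], ht.2⟩)
      (hanti ⟨h0, h1⟩ ⟨by linarith only [h0, ht.1], ht.2⟩ ht.1) m)
  simpa only [ge_iff_le, intervalIntegral.integral_const, smul_eq_mul] using h

/-- tangent line alternative -/
theorem slope_key (m : ℕ) {r : ℝ → ℝ} (hconc : ConcaveOn ℝ (Icc 0 1) r)
    (hanti : AntitoneOn r (Icc 0 1)) (hnn : ∀ t ∈ Icc (0:ℝ) 1, 0 ≤ r t)
    {θ q : ℝ} (h0 : 0 < θ) (h1 : θ < 1) (hq : 0 < q) :
    (∫ t in (0:ℝ)..θ, r t ^ m) ≤ θ * r θ ^ m * (((1 + q) ^ (m + 1) - 1) / (((m : ℝ) + 1) * q)) ∨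
    (∫ t in θ..(1:ℝ), r t ^ m) ≤ θ * r θ ^ m * (1 / (((m : ℝ) + 1) * q)) := by
  have hn : (0 : ℝ) < (m : ℝ) + 1 := by positivity
  have hcv : ∀ x y a b : ℝ, x ∈ Icc (0:ℝ) 1 → y ∈ Icc (0:ℝ) 1 → 0 ≤ a → 0 ≤ b → a + b = 1 →
      a * r x + b * r y ≤ r (a * x + b * y) := by
    intro x y a b hx hy ha hb hab
    exact hconc.2 hx hy ha hb hab
  -- primitive of the power of the line
  have hder : ∀ t : ℝ, HasDerivAt
      (fun t : ℝ => -(θ * r θ ^ m / (((m : ℝ) + 1) * q)) * (1 + q * (1 - t / θ)) ^ (m + 1))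
      ((r θ * (1 + q * (1 - t / θ))) ^ m) t := by
    intro t
    have e1 : HasDerivAt (fun t : ℝ => 1 + q * (1 - t / θ)) (q * (-(1 / θ))) t := by
      have := ((((hasDerivAt_id t).div_const θ).const_sub 1).const_mul q).const_add 1
      simpa using this
    have e2 := (e1.pow (m + 1)).const_mul (-(θ * r θ ^ m / (((m : ℝ) + 1) * q)))
    refine e2.congr_deriv ?_
    push_cast
    rw [mul_pow]
    (clear * - h0 hq; field_simp)
  have hcont : Continuous fun t : ℝ => (r θ * (1 + q * (1 - t / θ))) ^ m := by fun_prop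
  have hint : ∀ a b : ℝ, ∫ t in a..b, (r θ * (1 + q * (1 - t / θ))) ^ m =
      (-(θ * r θ ^ m / (((m : ℝ) + 1) * q)) * (1 + q * (1 - b / θ)) ^ (m + 1)) -
      (-(θ * r θ ^ m / (((m : ℝ) + 1) * q)) * (1 + q * (1 - a / θ)) ^ (m + 1)) := fun a b =>
    integral_eq_sub_of_hasDerivAt (fun t _ => hder t) (hcont.intervalIntegrable _ _)
  by_cases hA : ∀ t ∈ Icc 0 θ, r t ≤ r θ * (1 + q * (1 - t / θ))
  · left
    have h2 : (∫ t in (0:ℝ)..θ, r t ^ m) ≤ ∫ t in (0:ℝ)..θ, (r θ * (1 + q * (1 - t / θ))) ^ m := by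
      apply intervalIntegral.integral_mono_on h0.le
        (intervalIntegrable_pow_of_anti m hanti hnn le_rfl h0.le h1.le)
        (hcont.intervalIntegrable _ _)
      intro t ht
      exact pow_le_pow_left₀ (hnn t ⟨ht.1, by linarith only [h1, ht.2]⟩) (hA t ht) m
    rw [hint] at h2
    refine h2.trans (le_of_eq ?_)
    rw [div_self h0.ne', zero_div, sub_self, mul_zero, add_zero, one_pow, sub_zero, mul_one]
    ring
  · right
    push Not at hA
    obtain ⟨t0, ht0, hlt⟩ := hA
    have ht0θ : t0 < θ := by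
      rcases lt_or_eq_of_le ht0.2 with h | h
      · exact h
      · exfalso
        rw [h, div_self h0.ne'] at hlt
        simp at hlt
    have hline : ∀ t ∈ Icc θ 1, r t ≤ r θ * (1 + q * (1 - t / θ)) := by
      intro t ht
      rcases lt_or_eq_of_le ht.1 with h | h
      · have hd : 0 < t - t0 := by linarith only [ht0θ, h]
        have hc := hcv t0 t ((t - θ) / (t - t0)) ((θ - t0) / (t - t0))
          ⟨ht0.1, by linarith only [h1, ht0θ]⟩ ⟨by linarith only [h0, h], ht.2⟩
          (div_nonneg (by linarith only [h]) hd.le) (div_nonneg (by linarith only [ht0θ]) hd.le)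
          (by rw [← add_div, div_eq_one_iff_eq hd.ne']; ring)
        have e : (t - θ) / (t - t0) * t0 + (θ - t0) / (t - t0) * t = θ := by
          field_simp
          ring
        rw [e, div_mul_eq_mul_div, div_mul_eq_mul_div, ← add_div, div_le_iff₀ hd] at hc
        have h3 : (t - θ) * (r θ * (1 + q * (1 - t0 / θ))) ≤ (t - θ) * r t0 :=
          mul_le_mul_of_nonneg_left hlt.le (by linarith only [h])
        have h4 : (θ - t0) * r t ≤ (θ - t0) * (r θ * (1 + q * (1 - t / θ))) := by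
          have h5 : (θ - t0) * (r θ * (1 + q * (1 - t / θ))) =
              r θ * (t - t0) - (t - θ) * (r θ * (1 + q * (1 - t0 / θ))) := by
            field_simp
            ring
          rw [h5]
          linarith only [hc, h3]
        exact le_of_mul_le_mul_left h4 (by linarith only [ht0θ])
      · rw [← h, div_self h0.ne']
        simp
    have h2 : (∫ t in θ..(1:ℝ), r t ^ m) ≤ ∫ t in θ..(1:ℝ), (r θ * (1 + q * (1 - t / θ))) ^ m := by
      apply intervalIntegral.integral_mono_on h1.le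
        (intervalIntegrable_pow_of_anti m hanti hnn h0.le h1.le le_rfl)
        (hcont.intervalIntegrable _ _)
      intro t ht
      exact pow_le_pow_left₀ (hnn t ⟨by linarith only [h0, ht.1], ht.2⟩) (hline t ht) m
    have hrθ : 0 ≤ r θ := hnn θ ⟨h0.le, h1.le⟩
    rw [hint] at h2
    refine h2.trans ?_
    rw [div_self h0.ne', sub_self, mul_zero, add_zero, one_pow]
    rcases eq_or_lt_of_le hrθ with hz | hz
    · -- r θ = 0
      rcases Nat.eq_zero_or_pos m with rfl | hm
      · -- m = 0: the line is nonnegative ... use that the line value is arbitrary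
        exfalso
        rw [← hz] at hlt
        have := hanti (show t0 ∈ Icc (0:ℝ) 1 from ⟨ht0.1, by linarith only [h1, ht0θ]⟩)
          (show θ ∈ Icc (0:ℝ) 1 from ⟨h0.le, h1.le⟩) ht0.2
        have hc := hline 1 ⟨h1.le, le_rfl⟩
        -- concavity forces `r 1 < 0`
        have hd : 0 < 1 - t0 := by linarith only [h1, ht0θ]
        have hc := hcv t0 1 ((1 - θ) / (1 - t0)) ((θ - t0) / (1 - t0))
          ⟨ht0.1, by linarith only [h1, ht0θ]⟩ ⟨by linarith only [], le_rfl⟩
          (div_nonneg (by linarith only [h1]) hd.le) (div_nonneg (by linarith only [ht0θ]) hd.le)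
          (by rw [← add_div, div_eq_one_iff_eq hd.ne']; ring)
        have e : (1 - θ) / (1 - t0) * t0 + (θ - t0) / (1 - t0) * 1 = θ := by
          field_simp
          ring
        rw [e, div_mul_eq_mul_div, div_mul_eq_mul_div, ← add_div, div_le_iff₀ hd, ← hz] at hc
        have h6 := hnn 1 ⟨zero_le_one, le_rfl⟩
        have h7 : 0 ≤ (θ - t0) * r 1 := mul_nonneg (by linarith only [ht0θ]) h6
        have h8 : 0 < (1 - θ) * r t0 := mul_pos (by linarith only [h1]) (by linarith only [hlt])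
        linarith only [hc, h7, h8]
      · rw [← hz, zero_pow hm.ne']
        simp only [mul_zero, zero_div, neg_zero, one_div, zero_mul, mul_one, sub_self, mul_inv_rev, Std.le_refl]
    · have h3 : 0 ≤ 1 + q * (1 - 1 / θ) := by
        have h4 := hline 1 ⟨h1.le, le_rfl⟩
        have h5 := hnn 1 ⟨zero_le_one, le_rfl⟩
        by_contra hneg
        push Not at hneg
        have := mul_neg_of_pos_of_neg hz hneg
        linarith only [h4, h5, this]
      have h4 : 0 ≤ θ * r θ ^ m / (((m : ℝ) + 1) * q) := by (clear * - h0 hz hq; positivity)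
      have h5 := mul_nonneg h4 (pow_nonneg h3 (m + 1))
      have h6 : θ * r θ ^ m * (1 / (((m : ℝ) + 1) * q)) = θ * r θ ^ m / (((m : ℝ) + 1) * q) := by ring
      rw [h6]
      (clear * - h5; linarith)

/-- substitution `t = sin φ` -/
theorem integral_sqrt_pow (m : ℕ) {α β : ℝ} (h0 : 0 ≤ α) (h01 : α ≤ β) (h1 : β ≤ π / 2) :
    ∫ t in (sin α)..(sin β), √(1 - t ^ 2) ^ m = ∫ u in α..β, cos u ^ (m + 1) := by
  have h := intervalIntegral.integral_comp_mul_deriv (a := α) (b := β) (f := sin) (f' := cos)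
    (g := fun t => √(1 - t ^ 2) ^ m) (fun x _ => hasDerivAt_sin x) continuous_cos.continuousOn
    (by fun_prop)
  rw [← h]
  apply intervalIntegral.integral_congr
  intro t ht
  rw [uIcc_of_le h01] at ht
  have hc : 0 ≤ cos t := cos_nonneg_of_mem_Icc ⟨by linarith only [h0, h01, h1, ht.1], by linarith only [h1, ht.2]⟩
  simp only [Function.comp]
  rw [← abs_cos_eq_sqrt_one_sub_sin_sq, abs_of_nonneg hc, pow_succ]

theorem am_eq (m : ℕ) : am m = J (m + 1) 0 := by
  have h := integral_sqrt_pow m (α := 0) (β := π / 2) le_rfl (by positivity) le_rfl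
  rw [sin_zero, sin_pi_div_two] at h
  unfold am J
  exact h

theorem am_pos (m : ℕ) : 0 < am m := by
  rw [am_eq]; exact J_pos _ le_rfl (by positivity)

theorem slope_aux (m : ℕ) {r : ℝ → ℝ} (hconc : ConcaveOn ℝ (Icc 0 1) r)
    (hanti : AntitoneOn r (Icc 0 1)) (hnn : ∀ t ∈ Icc (0:ℝ) 1, 0 ≤ r t)
    {θ φ : ℝ} (h0 : 0 < θ) (h1 : θ < 1) (hx0 : 0 < φ) (hx1 : φ < π / 2)
    (hθ : (∫ t in (0:ℝ)..θ, r t ^ m) * am m =
      (∫ t in (0:ℝ)..(sin φ), √(1 - t ^ 2) ^ m) * ∫ t in (0:ℝ)..1, r t ^ m) :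
    ((m : ℝ) + 1) * J (m + 1) φ * (1 - Gf m φ) * (∫ t in (0:ℝ)..1, r t ^ m) ≤
      Gf m φ * (am m * θ * r θ ^ m) := by
  have hG := Gf_pos m hx0.le hx1
  have hQ := J_pos (m + 1) hx0.le hx1
  have ha := am_pos m
  have hGp := Gf_pow m hx0.le hx1
  rw [← am_eq] at hGp
  have hP : ∫ t in (0:ℝ)..(sin φ), √(1 - t ^ 2) ^ m = am m - J (m + 1) φ := by
    have h := integral_sqrt_pow m (α := 0) (β := φ) le_rfl hx0.le hx1.le
    rw [sin_zero] at h
    rw [h, am_eq]
    unfold J
    rw [eq_sub_iff_add_eq]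
    have hc : Continuous fun u : ℝ => cos u ^ (m + 1) := by fun_prop
    exact intervalIntegral.integral_add_adjacent_intervals (hc.intervalIntegrable _ _)
      (hc.intervalIntegrable _ _)
  have hJlt : J (m + 1) φ < am m := by
    have h2 : 0 < ∫ u in (0:ℝ)..φ, cos u ^ (m + 1) := by
      apply intervalIntegral.intervalIntegral_pos_of_pos_on
      · exact (by (clear * -; fun_prop) : Continuous fun t : ℝ => cos t ^ (m + 1)).intervalIntegrable _ _
      · intro t ht
        exact pow_pos (cos_pos_of_mem_Ioo ⟨by linarith only [hx0, hx1, ht.1], by (clear * - hx1 ht; linarith [ht.2])⟩) _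
      · exact hx0
    have h := integral_sqrt_pow m (α := 0) (β := φ) le_rfl hx0.le hx1.le
    rw [sin_zero, hP] at h
    linarith only [h2, h]
  have hG1 : Gf m φ < 1 := by
    by_contra hge
    push Not at hge
    have h2 := one_le_pow₀ hge (n := m + 1)
    rw [hGp, one_le_div ha] at h2
    linarith only [hJlt, h2]
  set I := ∫ t in (0:ℝ)..1, r t ^ m with hI
  have hI0 : 0 ≤ I := by
    rw [hI]
    apply intervalIntegral.integral_nonneg zero_le_one
    intro t ht
    exact pow_nonneg (hnn t ht) m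
  set q : ℝ := (1 - Gf m φ) / Gf m φ with hq
  have hq0 : 0 < q := div_pos (by linarith only [hG1]) hG
  have h1q : 1 + q = 1 / Gf m φ := by rw [hq]; field_simp; ring
  have hn : (0 : ℝ) < (m : ℝ) + 1 := by (clear * -; positivity)
  have hr : 0 ≤ θ * r θ ^ m := mul_nonneg h0.le (pow_nonneg (hnn θ ⟨h0.le, h1.le⟩) m)
  have hgoal : ((m : ℝ) + 1) * q * J (m + 1) φ * I ≤ am m * (θ * r θ ^ m) := by
    rcases slope_key m hconc hanti hnn h0 h1 hq0 with h | h
    · have h2 := mul_le_mul_of_nonneg_right h ha.le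
      rw [hθ, hP, h1q] at h2
      have h3 : (1 / Gf m φ) ^ (m + 1) = am m / J (m + 1) φ := by
        rw [one_div, inv_pow, hGp, inv_div]
      rw [h3] at h2
      have h4 : θ * r θ ^ m * ((am m / J (m + 1) φ - 1) / (((m : ℝ) + 1) * q)) * am m =
          (am m - J (m + 1) φ) * (am m * (θ * r θ ^ m) / (((m : ℝ) + 1) * q * J (m + 1) φ)) := by
        (clear * - hQ hq0 ha h0; field_simp)
      rw [h4] at h2
      have h5 := le_of_mul_le_mul_left h2 (by linarith only [hJlt])
      rw [le_div_iff₀ (by (clear * - hG1 hG hQ; positivity))] at h5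
      linarith only [h5]
    · have hsplit : (∫ t in (0:ℝ)..θ, r t ^ m) + (∫ t in θ..(1:ℝ), r t ^ m) = I :=
        intervalIntegral.integral_add_adjacent_intervals
          (intervalIntegrable_pow_of_anti m hanti hnn le_rfl h0.le h1.le)
          (intervalIntegrable_pow_of_anti m hanti hnn h0.le h1.le le_rfl)
      have h2 : (∫ t in θ..(1:ℝ), r t ^ m) * am m = J (m + 1) φ * I := by
        rw [hP] at hθ
        have : (∫ t in θ..(1:ℝ), r t ^ m) = I - ∫ t in (0:ℝ)..θ, r t ^ m := by linarith only [hsplit]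
        rw [this, sub_mul, hθ]
        ring
      have h3 := mul_le_mul_of_nonneg_right h ha.le
      rw [h2, mul_assoc (θ * r θ ^ m), one_div, inv_mul_eq_div, mul_div_assoc',
        le_div_iff₀ (by (clear * - hG1 hG; positivity))] at h3
      linarith only [h3]
  have h6 : ((m : ℝ) + 1) * J (m + 1) φ * (1 - Gf m φ) * I =
      Gf m φ * (((m : ℝ) + 1) * q * J (m + 1) φ * I) := by
    rw [hq]
    (clear * - hG hQ; field_simp)
  rw [h6]
  calc Gf m φ * (((m : ℝ) + 1) * q * J (m + 1) φ * I) ≤ Gf m φ * (am m * (θ * r θ ^ m)) :=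
        mul_le_mul_of_nonneg_left hgoal hG.le
    _ = _ := by ring

theorem slope_gen (m : ℕ) {r : ℝ → ℝ} (hconc : ConcaveOn ℝ (Icc 0 1) r)
    (hanti : AntitoneOn r (Icc 0 1)) (hnn : ∀ t ∈ Icc (0:ℝ) 1, 0 ≤ r t)
    {θ φ A : ℝ} (h0 : 0 < θ) (h1 : θ < 1) (hx0 : 0 < φ) (hx1 : φ < π / 2)
    (hθ : (∫ t in (0:ℝ)..θ, r t ^ m) * am m =
      (∫ t in (0:ℝ)..(sin φ), √(1 - t ^ 2) ^ m) * ∫ t in (0:ℝ)..1, r t ^ m)
    (hA : Cf m φ * sin φ ≤ (1 - Gf m φ) * (cos φ * A)) :
    sin φ * cos φ ^ m * (∫ t in (0:ℝ)..1, r t ^ m) ≤ A * (am m * θ * r θ ^ m) := by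
  have hG := Gf_pos m hx0.le hx1
  have hQ := J_pos (m + 1) hx0.le hx1
  have ha := am_pos m
  have hc : 0 < cos φ := cos_pos_of_mem_Ioo ⟨by linarith only [hx0, hx1], hx1⟩
  have hs : 0 < sin φ := sin_pos_of_pos_of_lt_pi hx0 (by linarith only [hx0, hx1])
  have haux := slope_aux m hconc hanti hnn h0 h1 hx0 hx1 hθ
  set I := ∫ t in (0:ℝ)..1, r t ^ m with hI
  have hI0 : 0 ≤ I := by
    rw [hI]
    apply intervalIntegral.integral_nonneg zero_le_one
    intro t ht
    exact pow_nonneg (hnn t ht) m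
  have hn : (0 : ℝ) < (m : ℝ) + 1 := by (clear * -; positivity)
  -- `Cf` in terms of the others
  have hC : Cf m φ * (((m : ℝ) + 1) * J (m + 1) φ) = cos φ ^ (m + 1) * Gf m φ := by
    unfold Cf
    (clear * - hQ hG hc; field_simp)
  have hC0 := Cf_pos m hx0.le hx1
  -- positivity of `A`
  have hGA : 0 < (1 - Gf m φ) * (cos φ * A) := lt_of_lt_of_le (mul_pos hC0 hs) hA
  have h2 := mul_le_mul_of_nonneg_right hA (by (clear * - hQ; positivity) : 0 ≤ ((m : ℝ) + 1) * J (m + 1) φ)
  have h3 : sin φ * cos φ ^ m * Gf m φ ≤ (1 - Gf m φ) * A * (((m : ℝ) + 1) * J (m + 1) φ) := by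
    have h4 : cos φ * (sin φ * cos φ ^ m * Gf m φ) ≤
        cos φ * ((1 - Gf m φ) * A * (((m : ℝ) + 1) * J (m + 1) φ)) := by
      calc cos φ * (sin φ * cos φ ^ m * Gf m φ) = sin φ * (cos φ ^ (m + 1) * Gf m φ) := by ring
        _ = Cf m φ * sin φ * (((m : ℝ) + 1) * J (m + 1) φ) := by rw [← hC]; ring
        _ ≤ _ := h2
        _ = _ := by ring
    exact le_of_mul_le_mul_left h4 hc
  have hG1 : 0 < (1 - Gf m φ) := by
    -- since `Gf < 1`
    have h5 : Gf m φ < 1 := by
      have h6 := slope_G_one m hx0.le hx1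
      by_contra hge
      push Not at hge
      have h7 : 0 < Cf m φ * sin φ := mul_pos hC0 hs
      have h8 : (1 - Gf m φ) * (1 + cos φ) ≤ 0 :=
        mul_nonpos_of_nonpos_of_nonneg (by linarith only [hge]) (by linarith only [hc])
      linarith only [h6, h7, h8]
    linarith only [h5]
  have hA0 : 0 < A := by
    by_contra hneg
    push Not at hneg
    have : (1 - Gf m φ) * (cos φ * A) ≤ 0 :=
      mul_nonpos_of_nonneg_of_nonpos hG1.le (mul_nonpos_of_nonneg_of_nonpos hc.le hneg)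
    linarith only [hGA, this]
  have h9 := mul_le_mul_of_nonneg_right h3 hI0
  have h10 := mul_le_mul_of_nonneg_left haux hA0.le
  have h11 : Gf m φ * (sin φ * cos φ ^ m * I) ≤ Gf m φ * (A * (am m * θ * r θ ^ m)) := by
    calc Gf m φ * (sin φ * cos φ ^ m * I) = sin φ * cos φ ^ m * Gf m φ * I := by ring
      _ ≤ _ := h9
      _ = A * (((m : ℝ) + 1) * J (m + 1) φ * (1 - Gf m φ) * I) := by ring
      _ ≤ _ := h10
      _ = _ := by ring
  exact le_of_mul_le_mul_left h11 hG

/-- **slope bound 1** -/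
theorem slope_one (m : ℕ) {r : ℝ → ℝ} (hconc : ConcaveOn ℝ (Icc 0 1) r)
    (hanti : AntitoneOn r (Icc 0 1)) (hnn : ∀ t ∈ Icc (0:ℝ) 1, 0 ≤ r t)
    {θ x : ℝ} (h0 : 0 < θ) (h1 : θ < 1) (hx0 : 0 < x) (hx1 : x < 1)
    (hθ : (∫ t in (0:ℝ)..θ, r t ^ m) * am m =
      (∫ t in (0:ℝ)..x, √(1 - t ^ 2) ^ m) * ∫ t in (0:ℝ)..1, r t ^ m) :
    x * √(1 - x ^ 2) ^ m * (∫ t in (0:ℝ)..1, r t ^ m) ≤
      (1 + 1 / √(1 - x ^ 2)) * (am m * θ * r θ ^ m) := by
  have hsin : sin (arcsin x) = x := sin_arcsin (by linarith only [hx0]) hx1.le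
  have hcos : cos (arcsin x) = √(1 - x ^ 2) := cos_arcsin x
  have hφ0 : 0 < arcsin x := arcsin_pos.2 hx0
  have hφ1 : arcsin x < π / 2 := arcsin_lt_pi_div_two.2 hx1
  have hc : 0 < √(1 - x ^ 2) := sqrt_pos.2 (by nlinarith only [hx1, hx0])
  have h := slope_gen m hconc hanti hnn h0 h1 hφ0 hφ1 (A := 1 + 1 / cos (arcsin x))
    (by rw [hsin]; exact hθ) ?_
  · rw [hsin, hcos] at h
    exact h
  · have h2 := slope_G_one m hφ0.le hφ1
    have e : cos (arcsin x) * (1 + 1 / cos (arcsin x)) = 1 + cos (arcsin x) := by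
      rw [hcos]
      field_simp
      ring
    rw [e]
    exact h2

/-- **slope bound 2** -/
theorem slope_two (m : ℕ) (hm : 3 ≤ m) {r : ℝ → ℝ} (hconc : ConcaveOn ℝ (Icc 0 1) r)
    (hanti : AntitoneOn r (Icc 0 1)) (hnn : ∀ t ∈ Icc (0:ℝ) 1, 0 ≤ r t)
    {θ x : ℝ} (h0 : 0 < θ) (h1 : θ < 1) (hx0 : 0 < x) (hx1 : x < 1)
    (hθ : (∫ t in (0:ℝ)..θ, r t ^ m) * am m =
      (∫ t in (0:ℝ)..x, √(1 - t ^ 2) ^ m) * ∫ t in (0:ℝ)..1, r t ^ m) :
    x * √(1 - x ^ 2) ^ m * (∫ t in (0:ℝ)..1, r t ^ m) ≤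
      (1 + (m : ℝ) / (2 * ((m : ℝ) + 1) * am m) * x / √(1 - x ^ 2)) * (am m * θ * r θ ^ m) := by
  have hsin : sin (arcsin x) = x := sin_arcsin (by linarith only [hx0]) hx1.le
  have hcos : cos (arcsin x) = √(1 - x ^ 2) := cos_arcsin x
  have hφ0 : 0 < arcsin x := arcsin_pos.2 hx0
  have hφ1 : arcsin x < π / 2 := arcsin_lt_pi_div_two.2 hx1
  have hc : 0 < √(1 - x ^ 2) := sqrt_pos.2 (by nlinarith only [hx1, hx0])
  have h := slope_gen m hconc hanti hnn h0 h1 hφ0 hφ1
    (A := 1 + (m : ℝ) / (2 * ((m : ℝ) + 1) * am m) * sin (arcsin x) / cos (arcsin x))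
    (by rw [hsin]; exact hθ) ?_
  · rw [hsin, hcos] at h
    exact h
  · have h2 := slope_G_two m hm hφ0.le hφ1
    rw [← am_eq] at h2
    have e : cos (arcsin x) * (1 + (m : ℝ) / (2 * ((m : ℝ) + 1) * am m) * sin (arcsin x) /
        cos (arcsin x)) = cos (arcsin x) + (m : ℝ) / (2 * ((m : ℝ) + 1) * am m) * sin (arcsin x) := by
      rw [hcos]
      (clear * - hm hc; field_simp)
    rw [e]
    exact h2

end Vale.Agent.P237.AllN.Slope
end


theorem P237.eqforce_PolyPos_Ex_R : True := by first | exact (fun _ => trivial) @Vale.Agent.P237.AllN.PolyPos.Ex.R.eq_1 | exact (fun _ => trivial) @Vale.Agent.P237.AllN.PolyPos.Ex.R.eq_1.{0}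

theorem P237.eqforce_ExRdef : True := by first | exact (fun _ => trivial) @Vale.Agent.P237.AllN.PolyPos.Ex.R.eq_def | exact (fun _ => trivial) @Vale.Agent.P237.AllN.PolyPos.Ex.R.eq_def.{0}
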