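import Mathlib

set_option linter.all false

section

/-!
# P237, plain certificate (m ≥ 5): one-variable facts
-/

open Set

namespace Vale.Agent.P237.AllN

/-- the bound of `R` on the left -/
theorem pcn_R {s : ℝ} (h0 : 0 ≤ s) (h1 : s ≤ 1) :
    1 / 2 + 3 / 8 * (1 - s ^ 2) + 1 / 16 * ((1 - s ^ 2) * (1 - s ^ 2)) ≤ 1 - s ^ 2 / (1 + s) := by
  rw [le_sub_iff_add_le, ← le_sub_iff_add_le', div_le_iff₀ (by linarith)]
  have h : 0 ≤ (1 - s) ^ 3 * (1 + 4 * s + s ^ 2) := by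
    have : 0 ≤ 1 - s := by linarith
    positivity
  linarith

/-- `e^y ≥ 1 + y + (11/25) y²` for `y ≥ -9/25` -/
theorem pcn_exp_ge {y : ℝ} (hy : -(9 / 25) ≤ y) : 1 + y + 11 / 25 * y ^ 2 ≤ Real.exp y := by
  rcases le_or_gt 0 y with h | h
  · have := Real.quadratic_le_exp_of_nonneg h
    nlinarith only [this]
  · have h1 := Real.exp_bound (x := y) (by rw [abs_le]; constructor <;> linarith only [h, hy]) (n := 5)
      (by norm_num)
    rw [abs_le] at h1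
    have h2 := h1.1
    simp only [Finset.sum_range_succ, Finset.sum_range_zero, Nat.factorial] at h2
    norm_num at h2
    have h3 : |y| = -y := abs_of_neg h
    rw [h3] at h2
    have h4 : 0 ≤ y ^ 2 * (3 / 50 + y / 6) := by
      apply mul_nonneg (sq_nonneg y)
      linarith only [hy]
    have h5 : 0 ≤ y ^ 4 * (1 / 24 + y / 100) := by
      apply mul_nonneg (by positivity)
      linarith only [hy]
    nlinarith only [h2, h4]

/-- `e^y ≤ 1 + y + (53/100) y²` for `-9/25 ≤ y ≤ 1/8` -/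
theorem pcn_exp_le {y : ℝ} (hy : -(9 / 25) ≤ y) (hy1 : y ≤ 1 / 8) :
    Real.exp y ≤ 1 + y + 53 / 100 * y ^ 2 := by
  have h1 := Real.exp_bound (x := y) (by rw [abs_le]; constructor <;> linarith only [hy1, hy]) (n := 4)
    (by norm_num)
  rw [abs_le] at h1
  have h2 := h1.2
  simp only [Finset.sum_range_succ, Finset.sum_range_zero, Nat.factorial] at h2
  norm_num at h2
  have h3 : |y| ^ 4 = y ^ 4 := by
    rw [show (4 : ℕ) = 2 * 2 from rfl, pow_mul, pow_mul, sq_abs]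
  rw [h3] at h2
  have h4 : 0 ≤ y ^ 2 * (3 / 100 - y / 6 - 5 / 96 * y ^ 2) := by
    apply mul_nonneg (sq_nonneg y)
    nlinarith only [hy1, hy]
  linarith only [h4, h2]

/-- log bound, degree 2: `-log (1 - t) ≤ t + 2 c t²` on `[0, T]`, if true at `T` -/
theorem pcn_log2 {c T : ℝ} (hT1 : T < 1) (hT : 0 ≤ T + 2 * c * T ^ 2 + Real.log (1 - T)) {t : ℝ}
    (h0 : 0 ≤ t) (h1 : t ≤ T) : 0 ≤ t + 2 * c * t ^ 2 + Real.log (1 - t) := by
  set F : ℝ → ℝ := fun t => t + 2 * c * t ^ 2 + Real.log (1 - t) with hF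
  have hd : ∀ t, t < 1 → HasDerivAt F (1 + 4 * c * t - 1 / (1 - t)) t := by
    intro t ht
    have h1 : HasDerivAt (fun t : ℝ => 1 - t) (-1) t := by
      simpa using (hasDerivAt_id t).const_sub 1
    have h2 := h1.log (by linarith : (1 : ℝ) - t ≠ 0)
    have h3 : HasDerivAt (fun t : ℝ => t + 2 * c * t ^ 2) (1 + 2 * c * (2 * t)) t := by
      have := (hasDerivAt_id' t).fun_add (((hasDerivAt_pow 2 t)).const_mul (2 * c))
      simpa only [Nat.cast_ofNat, Nat.add_one_sub_one, pow_one] using this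
    refine (h3.add h2).congr_deriv ?_
    ring
  have hsg : ∀ t, t < 1 → 1 + 4 * c * t - 1 / (1 - t) = t * (4 * c - 1 / (1 - t)) := by
    intro t ht
    have : (1 : ℝ) - t ≠ 0 := by linarith
    field_simp
    ring
  have hcont : ContinuousOn F (Icc 0 T) := fun t ht =>
    (hd t (ht.2.trans_lt hT1)).continuousAt.continuousWithinAt
  have ht1 : t < 1 := h1.trans_lt hT1
  rcases le_or_gt (1 / (1 - t)) (4 * c) with h | h
  · -- increasing on `[0, t]`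
    have hmono : MonotoneOn F (Icc 0 t) := by
      apply monotoneOn_of_deriv_nonneg (convex_Icc 0 t) (hcont.mono (Icc_subset_Icc_right h1))
      · intro y hy
        rw [interior_Icc] at hy
        exact (hd y (hy.2.trans ht1)).differentiableAt.differentiableWithinAt
      · intro y hy
        rw [interior_Icc] at hy
        have hy1 : y < 1 := hy.2.trans ht1
        rw [(hd y hy1).deriv, hsg y hy1]
        apply mul_nonneg hy.1.le
        have : 1 / (1 - y) ≤ 1 / (1 - t) :=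
          one_div_le_one_div_of_le (by linarith) (by linarith [hy.2])
        linarith only [h, this]
    have := hmono (left_mem_Icc.2 h0) (right_mem_Icc.2 h0) h0
    simpa only [ge_iff_le, hF, ne_eq, OfNat.ofNat_ne_zero, not_false_eq_true, zero_pow, mul_zero, add_zero,     sub_zero, Real.log_one] using this
  · -- decreasing on `[t, T]`
    have hanti : AntitoneOn F (Icc t T) := by
      apply antitoneOn_of_deriv_nonpos (convex_Icc t T) (hcont.mono (Icc_subset_Icc_left h0))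
      · intro y hy
        rw [interior_Icc] at hy
        exact (hd y (hy.2.trans hT1)).differentiableAt.differentiableWithinAt
      · intro y hy
        rw [interior_Icc] at hy
        have hy1 : y < 1 := hy.2.trans hT1
        rw [(hd y hy1).deriv, hsg y hy1]
        apply mul_nonpos_of_nonneg_of_nonpos (h0.trans hy.1.le)
        have : 1 / (1 - t) ≤ 1 / (1 - y) :=
          one_div_le_one_div_of_le (by linarith only [hy1]) (by linarith [hy.1])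
        linarith
    have := hanti (left_mem_Icc.2 h1) (right_mem_Icc.2 h1) h1
    exact hT.trans this

/-- log bound, degree 4 -/
theorem pcn_log4 {c T : ℝ} (hT1 : T < 1)
    (hT : 0 ≤ T + T ^ 2 / 2 + T ^ 3 / 3 + 2 * c * T ^ 4 + Real.log (1 - T)) {t : ℝ}
    (h0 : 0 ≤ t) (h1 : t ≤ T) :
    0 ≤ t + t ^ 2 / 2 + t ^ 3 / 3 + 2 * c * t ^ 4 + Real.log (1 - t) := by
  set F : ℝ → ℝ := fun t => t + t ^ 2 / 2 + t ^ 3 / 3 + 2 * c * t ^ 4 + Real.log (1 - t) with hF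
  have hd : ∀ t, t < 1 → HasDerivAt F (1 + t + t ^ 2 + 8 * c * t ^ 3 - 1 / (1 - t)) t := by
    intro t ht
    have h1 : HasDerivAt (fun t : ℝ => 1 - t) (-1) t := by
      simpa only [id_eq] using (hasDerivAt_id t).const_sub 1
    have h2 := h1.log (by linarith only [ht] : (1 : ℝ) - t ≠ 0)
    have h3 : HasDerivAt (fun t : ℝ => t + t ^ 2 / 2 + t ^ 3 / 3 + 2 * c * t ^ 4)
        (1 + (2 * t) / 2 + (3 * t ^ 2) / 3 + 2 * c * (4 * t ^ 3)) t := by
      have := (((hasDerivAt_id' t).fun_add ((hasDerivAt_pow 2 t).div_const 2)).fun_add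
        ((hasDerivAt_pow 3 t).div_const 3)).fun_add ((hasDerivAt_pow 4 t).const_mul (2 * c))
      simpa only [ne_eq, OfNat.ofNat_ne_zero, not_false_eq_true, mul_div_cancel_left₀, Nat.cast_ofNat,     Nat.add_one_sub_one, pow_one] using this
    refine (h3.add h2).congr_deriv ?_
    ring
  have hsg : ∀ t, t < 1 → 1 + t + t ^ 2 + 8 * c * t ^ 3 - 1 / (1 - t) =
      t ^ 3 * (8 * c - 1 / (1 - t)) := by
    intro t ht
    have : (1 : ℝ) - t ≠ 0 := by linarith only [ht]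
    field_simp
    ring
  have hcont : ContinuousOn F (Icc 0 T) := fun t ht =>
    (hd t (ht.2.trans_lt hT1)).continuousAt.continuousWithinAt
  have ht1 : t < 1 := h1.trans_lt hT1
  rcases le_or_gt (1 / (1 - t)) (8 * c) with h | h
  · have hmono : MonotoneOn F (Icc 0 t) := by
      apply monotoneOn_of_deriv_nonneg (convex_Icc 0 t) (hcont.mono (Icc_subset_Icc_right h1))
      · intro y hy
        rw [interior_Icc] at hy
        exact (hd y (hy.2.trans ht1)).differentiableAt.differentiableWithinAt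
      · intro y hy
        rw [interior_Icc] at hy
        have hy1 : y < 1 := hy.2.trans ht1
        rw [(hd y hy1).deriv, hsg y hy1]
        apply mul_nonneg (pow_nonneg hy.1.le 3)
        have : 1 / (1 - y) ≤ 1 / (1 - t) :=
          one_div_le_one_div_of_le (by linarith only [hT1, h1]) (by linarith only [hy.2])
        linarith only [h, this]
    have := hmono (left_mem_Icc.2 h0) (right_mem_Icc.2 h0) h0
    simpa only [ge_iff_le, hF, ne_eq, OfNat.ofNat_ne_zero, not_false_eq_true, zero_pow, zero_div, add_zero,     mul_zero, sub_zero, Real.log_one] using this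
  · have hanti : AntitoneOn F (Icc t T) := by
      apply antitoneOn_of_deriv_nonpos (convex_Icc t T) (hcont.mono (Icc_subset_Icc_left h0))
      · intro y hy
        rw [interior_Icc] at hy
        exact (hd y (hy.2.trans hT1)).differentiableAt.differentiableWithinAt
      · intro y hy
        rw [interior_Icc] at hy
        have hy1 : y < 1 := hy.2.trans hT1
        rw [(hd y hy1).deriv, hsg y hy1]
        apply mul_nonpos_of_nonneg_of_nonpos (pow_nonneg (h0.trans hy.1.le) 3)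
        have : 1 / (1 - t) ≤ 1 / (1 - y) :=
          one_div_le_one_div_of_le (by linarith only [hy1]) (by linarith only [hy.1])
        linarith only [h, this]
    have := hanti (left_mem_Icc.2 h1) (right_mem_Icc.2 h1) h1
    exact hT.trans this

/-- lower bound of the logarithm by a rational certificate -/
theorem pcn_log_ge {q a : ℝ} (hq : 0 ≤ q) (ha : 0 < a)
    (h : 1 / a ≤ ∑ i ∈ Finset.range 12, q ^ i / (i.factorial : ℝ)) : 0 ≤ q + Real.log a := by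
  have h1 : 1 / a ≤ Real.exp q := h.trans (Real.sum_le_exp_of_nonneg hq 12)
  have h2 : Real.log (1 / a) ≤ q := by
    rw [Real.log_le_iff_le_exp (by positivity)]
    exact h1
  rw [one_div, Real.log_inv] at h2
  linarith only [h2]

/-- the tail bound of `l` -/
theorem pcn_tail {x l q t lp D2 : ℝ} (hx : 0 < x) (ht : t = 1 - x ^ 2)
    (hq : 0 < q) (hlp : 0 ≤ 2 * (t * lp) + Real.log (1 - t)) (hD : 2 * q / (2 + q) = t * (2 / D2))
    (h : (1 + q) * (x * Real.exp l) ≤ 1) : l ≤ t * (lp - 2 / D2) := by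
  have h1 : Real.log ((1 + q) * (x * Real.exp l)) ≤ 0 := Real.log_nonpos (by positivity) h
  rw [Real.log_mul (by positivity) (by positivity), Real.log_mul hx.ne' (Real.exp_pos l).ne',
    Real.log_exp] at h1
  have h2 : 2 * q / (q + 2) ≤ Real.log (1 + q) := Real.le_log_one_add_of_nonneg hq.le
  have h3 : Real.log (1 - t) = 2 * Real.log x := by
    rw [ht, show (1 : ℝ) - (1 - x ^ 2) = x ^ 2 by ring, Real.log_pow]
    norm_num
  rw [h3] at hlp
  rw [show q + 2 = 2 + q by ring, hD] at h2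
  rw [mul_sub]
  linarith only [hlp, h1, h2]

end Vale.Agent.P237.AllN
end

section

/-!
# P237, block D (`m ≥ 25`), region `l > 0`: the functionals in real variables

`z = x²`, `s = √(1-z)`, `y = z/s²`, `G` = correction `2(g₀(x e^l) - g₀(x) + z l/(s(1+s)²))`,
`N = m(e^(Y/m) - 1) - l - u`, `Y = l + log(1+u)`, `c = a_m/a_(m-1)`.
-/

namespace Vale.Agent.P237.AllN

/-- one term of the kernel sum: `k` the power, `κz = κ_k z^(k-1)` -/
noncomputable def dpK (m z s l W k κz : ℝ) : ℝ :=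
  κz * ((2 * k - 1) * ((m + 1 + 2 * k) * z - 2 * (k - 1)) / (2 * k) *
      (Real.exp (-(2 * k * l)) - 1 + 2 * k * l) -
    (m + 1 + 2 * k) * z / (2 * k) * (Real.exp (2 * k * l) - 1 - 2 * k * l) -
    2 * k * (k - 1) * ((m + 1 + 2 * k) * z - (2 * k - 1)) * l ^ 2 +
    s ^ 2 * W * (2 * (2 * k - 1) * (Real.exp (-(2 * k * l)) - 1) + 4 * k * (k - 1) * l))

/-- the kernel sum, `k = 2..6` -/
noncomputable def dpS (m z s l W : ℝ) : ℝ :=
  dpK m z s l W 2 (3 / 4 * z) + dpK m z s l W 3 (5 / 8 * z ^ 2) +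
  dpK m z s l W 4 (35 / 64 * z ^ 3) + dpK m z s l W 5 (63 / 128 * z ^ 4) +
  dpK m z s l W 6 (231 / 512 * z ^ 5)

/-- `T` for `l ≥ 0` (convex hybrid, potential `-(3/25)(m+3) z l²`) -/
noncomputable def dpT (m z s l u G N : ℝ) : ℝ :=
  (m + 3) * z * (Real.exp (-(2 * l)) - 1 + 2 * l) +
  (3 * (m - 3) * (z ^ 2 / s ^ 5) - 9 * (z / s ^ 3)) * l ^ 2 +
  (4 / s - 4 * s / (1 + s) - 2 * s ^ 2 + 4 * s ^ 2 * Real.exp (-(2 * l)) - 6 * (z / s ^ 3) * l) *
    (u ^ 2 / (1 + u)) +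
  G + 2 * (m + 1) / ((m - 1) * s) * N + dpS m z s l (u ^ 2 / (1 + u)) +
  3 / 25 * (m + 3) * z * ((m * (z / s ^ 2) - 3) * l ^ 2 - 2 * u * l)

/-- `e₁` -/
noncomputable def dpE (m z s l u c N : ℝ) : ℝ :=
  (m + 3) * z * (Real.exp (-(2 * l)) - 1 + 2 * l) +
  4 * s ^ 2 * Real.exp (-(2 * l)) * (u ^ 2 / (1 + u)) + 2 * c / s * N +
  (2 * c / s - 2 * s ^ 2 + 2 * (1 - c)) * u +
  (2 * c / s - 2 + 2 * (1 - c) * (1 - m * (z / s ^ 2))) * l

/-- `ρ` -/
noncomputable def dpR (m y : ℝ) : ℝ := (2 + 5 * m * y + m * (m - 2) * y ^ 2) / 10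

/-- the `J`-test from a lower bound of `T`, an upper bound `P` of `e - T`, a lower bound of `e` -/
theorem dp_jtest {T T0 e ρ P E : ℝ} (hT : T0 ≤ T) (hT0 : 0 ≤ T0) (hP : e - T ≤ P) (hP0 : 0 ≤ P)
    (hPρ : P ≤ ρ) (h1 : P ^ 2 ≤ T0 * (ρ - P)) (hE : -E ≤ e) (hE0 : 0 ≤ E) (hEρ : E ≤ ρ)
    (h2 : E ^ 2 ≤ T0 * (ρ - E)) : 0 ≤ T ∧ 0 ≤ ρ + e ∧ e ^ 2 ≤ T * (ρ + e) := by
  have hT' : 0 ≤ T := hT0.trans hT
  have h1' : P ^ 2 ≤ T * (ρ - P) := h1.trans (mul_le_mul_of_nonneg_right hT (by linarith))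
  have h2' : E ^ 2 ≤ T * (ρ - E) := h2.trans (mul_le_mul_of_nonneg_right hT (by linarith))
  refine ⟨hT', by linarith, ?_⟩
  rcases le_total 0 e with he | he
  · have key : T * (ρ + e) - e ^ 2 = T * (ρ - (e - T)) - (e - T) ^ 2 := by ring
    rcases le_total 0 (e - T) with hp | hp
    · have h3 : (e - T) ^ 2 ≤ P ^ 2 := pow_le_pow_left₀ hp hP 2
      have h4 : T * (ρ - P) ≤ T * (ρ - (e - T)) := mul_le_mul_of_nonneg_left (by linarith) hT'
      linarith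
    · have key2 : T * (ρ + e) - e ^ 2 = T * ρ + (T - e) * e := by ring
      have h3 : 0 ≤ T * ρ := mul_nonneg hT' (hP0.trans hPρ)
      have h4 : 0 ≤ (T - e) * e := mul_nonneg (by linarith) he
      linarith
  · have h3 : e ^ 2 ≤ E ^ 2 := by
      have : (-e) ^ 2 ≤ E ^ 2 := pow_le_pow_left₀ (by linarith) (by linarith) 2
      simpa using this
    have h4 : T * (ρ - E) ≤ T * (ρ + e) := mul_le_mul_of_nonneg_left (by linarith) hT'
    linarith

end Vale.Agent.P237.AllN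
end

section

/-!
# P237, block D: the pointwise test in the form used by the bridge, with its strict part

`JTest T e ρ u`: `0 < ρ + e`, `e² ≤ T (ρ + e)`, strict if `u ≠ 0`.
-/

namespace Vale.Agent.P237.AllN

/-- the pointwise test used by the bridge -/
def JTest (T e ρ u : ℝ) : Prop :=
  0 < ρ + e ∧ e ^ 2 ≤ T * (ρ + e) ∧ (u ≠ 0 → e ^ 2 < T * (ρ + e))

/-- `T` for `l ≤ 0` (log lines, potential `3 z (1+z) l²/s`) -/
noncomputable def dmT (m z s l u G N : ℝ) : ℝ :=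
  (m + 3) * z * (Real.exp (-(2 * l)) - 1 + 2 * l) +
  3 * (z ^ 3 / s ^ 3) * ((m - 3) * (z / s ^ 2) - 7) * l ^ 2 +
  (4 / s - 4 * s / (1 + s) - 2 * s ^ 2 + 4 * s ^ 2 * Real.exp (-(2 * l)) - 6 * (z / s ^ 3) * l) *
    (u ^ 2 / (1 + u)) +
  6 * (z * (1 + z) / s) * l * u + G + 2 * (m + 1) / ((m - 1) * s) * N

/-- from the nonstrict form: it is enough that `T` can be lowered a little when `u ≠ 0` -/
theorem JTest.of_le {T T' e ρ u : ℝ} (hρ : 0 < ρ) (h1 : 0 ≤ ρ + e) (h2 : e ^ 2 ≤ T' * (ρ + e))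
    (hT : T' ≤ T) (hs : u ≠ 0 → T' < T) : JTest T e ρ u := by
  have h3 : 0 < ρ + e := by
    rcases h1.lt_or_eq with h | h
    · exact h
    · exfalso
      rw [← h, mul_zero] at h2
      have : e = 0 := by nlinarith
      rw [this, add_zero] at h
      exact hρ.ne h
  exact ⟨h3, h2.trans (mul_le_mul_of_nonneg_right hT h1), fun hu =>
    h2.trans_lt (mul_lt_mul_of_pos_right (hs hu) h3)⟩

/-- from the nonstrict form for `T - ε W`, `W = u²/(1+u)` -/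
theorem JTest.of_sub {T e ρ u ε : ℝ} (hρ : 0 < ρ) (hu : 0 < 1 + u) (hε : 0 < ε)
    (h1 : 0 ≤ ρ + e) (h2 : e ^ 2 ≤ (T - ε * (u ^ 2 / (1 + u))) * (ρ + e)) : JTest T e ρ u := by
  refine JTest.of_le hρ h1 h2 ?_ fun h0 => ?_
  · have : 0 ≤ ε * (u ^ 2 / (1 + u)) := by positivity
    linarith
  · have h3 : 0 < u ^ 2 := by positivity
    have : 0 < ε * (u ^ 2 / (1 + u)) := by positivity
    linarith

/-- `dp_jtest` with a factor `θ < 1`: also strict when `0 < T₀` -/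
theorem JTest.of_bounds {T T0 e ρ P E θ u : ℝ} (hT : T0 ≤ T) (hT0 : 0 ≤ T0)
    (hu : u ≠ 0 → 0 < T0) (hθ : θ < 1)
    (hP : e - T ≤ P) (hP0 : 0 ≤ P) (hPρ : P < ρ) (h1 : P ^ 2 ≤ θ * (T0 * (ρ - P)))
    (hE : -E ≤ e) (hE0 : 0 ≤ E) (hEρ : E < ρ) (h2 : E ^ 2 ≤ θ * (T0 * (ρ - E))) :
    JTest T e ρ u := by
  have g1 : 0 ≤ T0 * (ρ - P) := mul_nonneg hT0 (by linarith)
  have g2 : 0 ≤ T0 * (ρ - E) := mul_nonneg hT0 (by linarith)
  have k1 : P ^ 2 ≤ T0 * (ρ - P) := h1.trans (mul_le_of_le_one_left g1 hθ.le)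
  have k2 : E ^ 2 ≤ T0 * (ρ - E) := h2.trans (mul_le_of_le_one_left g2 hθ.le)
  obtain ⟨-, h3, h4⟩ := dp_jtest hT hT0 hP hP0 hPρ.le k1 hE hE0 hEρ.le k2
  refine ⟨by linarith, h4, fun hu0 => ?_⟩
  have hT0' := hu hu0
  have hT' : 0 < T := hT0'.trans_le hT
  have g1' : 0 < T0 * (ρ - P) := mul_pos hT0' (by linarith)
  have g2' : 0 < T0 * (ρ - E) := mul_pos hT0' (by linarith)
  have l1 : P ^ 2 < T * (ρ - P) :=
    (h1.trans_lt (mul_lt_of_lt_one_left g1' hθ)).trans_le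
      (mul_le_mul_of_nonneg_right hT (by linarith))
  have l2 : E ^ 2 < T * (ρ - E) :=
    (h2.trans_lt (mul_lt_of_lt_one_left g2' hθ)).trans_le
      (mul_le_mul_of_nonneg_right hT (by linarith))
  rcases le_total 0 e with he | he
  · have key : T * (ρ + e) - e ^ 2 = T * (ρ - (e - T)) - (e - T) ^ 2 := by ring
    rcases le_total 0 (e - T) with hp | hp
    · have h5 : (e - T) ^ 2 ≤ P ^ 2 := pow_le_pow_left₀ hp hP 2
      have h6 : T * (ρ - P) ≤ T * (ρ - (e - T)) :=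
        mul_le_mul_of_nonneg_left (by linarith) hT'.le
      linarith
    · have key2 : T * (ρ + e) - e ^ 2 = T * ρ + (T - e) * e := by ring
      have h5 : 0 < T * ρ := mul_pos hT' (hP0.trans_lt hPρ)
      have h6 : 0 ≤ (T - e) * e := mul_nonneg (by linarith) he
      linarith
  · have h5 : e ^ 2 ≤ E ^ 2 := by
      have : (-e) ^ 2 ≤ E ^ 2 := pow_le_pow_left₀ (by linarith) (by linarith) 2
      simpa using this
    have h6 : T * (ρ - E) ≤ T * (ρ + e) := mul_le_mul_of_nonneg_left (by linarith) hT'.le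
    linarith

/-- form with constants: `P, E ≤ θ ρ`, `P², E² ≤ θ1 ρ T₀`, `θ + θ1 < 1` -/
theorem JTest.of_theta {T T0 e ρ P E θ θ1 u : ℝ} (hT : T0 ≤ T) (hT0 : 0 ≤ T0)
    (hu : u ≠ 0 → 0 < T0) (hρ : 0 < ρ) (hθ1 : 0 ≤ θ1) (hθ : θ + θ1 < 1)
    (hP : e - T ≤ P) (hP0 : 0 ≤ P) (hPρ : P ≤ θ * ρ) (h1 : P ^ 2 ≤ θ1 * (ρ * T0))
    (hE : -E ≤ e) (hE0 : 0 ≤ E) (hEρ : E ≤ θ * ρ) (h2 : E ^ 2 ≤ θ1 * (ρ * T0)) :
    JTest T e ρ u := by
  have h1θ : 0 < 1 - θ := by linarith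
  have hθρ : θ * ρ < ρ := by linarith only [mul_pos (sub_pos.2 hρ) (sub_pos.2 h1θ)]
  have hlt : θ1 / (1 - θ) < 1 := by rw [div_lt_one h1θ]; linarith
  have key : ∀ X : ℝ, X ≤ θ * ρ → X ^ 2 ≤ θ1 * (ρ * T0) →
      X ^ 2 ≤ θ1 / (1 - θ) * (T0 * (ρ - X)) := by
    intro X hX hX2
    have e1 : θ1 * (ρ * T0) = θ1 / (1 - θ) * (T0 * ((1 - θ) * ρ)) := by
      field_simp
    have e2 : θ1 / (1 - θ) * (T0 * ((1 - θ) * ρ)) ≤ θ1 / (1 - θ) * (T0 * (ρ - X)) := by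
      apply mul_le_mul_of_nonneg_left _ (by positivity)
      apply mul_le_mul_of_nonneg_left _ hT0
      linarith
    linarith
  exact JTest.of_bounds hT hT0 hu hlt hP hP0 (hPρ.trans_lt hθρ) (key P hPρ h1) hE hE0
    (hEρ.trans_lt hθρ) (key E hEρ h2)

end Vale.Agent.P237.AllN
end

section

/-!
# P237, block D, `l > 0`, `m z ≤ 1`: exponential inequalities, the kernel sum
-/

namespace Vale.Agent.P237.AllN

/-! ## exponentials -/

theorem pa_nonneg_of_deriv {f f' : ℝ → ℝ} (h0 : 0 ≤ f 0) (hd : ∀ t : ℝ, HasDerivAt f (f' t) t)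
    (hf : ∀ t : ℝ, 0 ≤ t → 0 ≤ f' t) {t : ℝ} (ht : 0 ≤ t) : 0 ≤ f t := by
  have hm : MonotoneOn f (Set.Ici 0) := by
    apply monotoneOn_of_deriv_nonneg (convex_Ici 0)
    · exact fun t _ => (hd t).continuousAt.continuousWithinAt
    · exact fun t _ => (hd t).differentiableAt.differentiableWithinAt
    · intro t ht
      rw [interior_Ici] at ht
      rw [(hd t).deriv]
      exact hf t (le_of_lt ht)
  exact h0.trans (hm (Set.mem_Ici.2 le_rfl) (Set.mem_Ici.2 ht) ht)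

theorem pa_hexp (t : ℝ) : HasDerivAt (fun t : ℝ => Real.exp (-t)) (-Real.exp (-t)) t := by
  have := (hasDerivAt_neg t).exp
  simpa using this

theorem pa_E1 (t : ℝ) : 1 - t ≤ Real.exp (-t) := by
  have := Real.add_one_le_exp (-t)
  linarith only [this]

theorem pa_E2 {t : ℝ} (ht : 0 ≤ t) : Real.exp (-t) ≤ 1 - t + t ^ 2 / 2 := by
  have h := pa_nonneg_of_deriv (f := fun t => 1 - t + t ^ 2 / 2 - Real.exp (-t))
    (f' := fun t => -1 + t + Real.exp (-t)) (by simp) (fun t => by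
      have h1 := ((((hasDerivAt_const t (1 : ℝ)).sub (hasDerivAt_id t)).add
        ((hasDerivAt_pow 2 t).div_const 2))).sub (pa_hexp t)
      refine h1.congr_deriv ?_
      norm_num) (fun t _ => by have := pa_E1 t; linarith) ht
  linarith only [h]

theorem pa_E3 {t : ℝ} (ht : 0 ≤ t) : 1 - t + t ^ 2 / 2 - t ^ 3 / 6 ≤ Real.exp (-t) := by
  have h := pa_nonneg_of_deriv (f := fun t => Real.exp (-t) - (1 - t + t ^ 2 / 2 - t ^ 3 / 6))
    (f' := fun t => 1 - t + t ^ 2 / 2 - Real.exp (-t)) (by simp) (fun t => by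
      have h1 := (pa_hexp t).sub (((((hasDerivAt_const t (1 : ℝ)).sub (hasDerivAt_id t)).add
        ((hasDerivAt_pow 2 t).div_const 2))).sub ((hasDerivAt_pow 3 t).div_const 6))
      refine h1.congr_deriv ?_
      norm_num
      ring) (fun t ht => by have := pa_E2 ht; linarith only [this]) ht
  linarith only [h]

theorem pa_E4 {t : ℝ} (ht : 0 ≤ t) :
    Real.exp (-t) ≤ 1 - t + t ^ 2 / 2 - t ^ 3 / 6 + t ^ 4 / 24 := by
  have h := pa_nonneg_of_deriv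
    (f := fun t => (1 - t + t ^ 2 / 2 - t ^ 3 / 6 + t ^ 4 / 24) - Real.exp (-t))
    (f' := fun t => Real.exp (-t) - (1 - t + t ^ 2 / 2 - t ^ 3 / 6)) (by simp) (fun t => by
      have h1 := ((((((hasDerivAt_const t (1 : ℝ)).sub (hasDerivAt_id t)).add
        ((hasDerivAt_pow 2 t).div_const 2))).sub ((hasDerivAt_pow 3 t).div_const 6)).add
        ((hasDerivAt_pow 4 t).div_const 24)).sub (pa_hexp t)
      refine h1.congr_deriv ?_
      norm_num
      ring) (fun t ht => by have := pa_E3 ht; linarith only [this]) ht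
  linarith

theorem pa_E5 {t : ℝ} (ht : 0 ≤ t) :
    1 - t + t ^ 2 / 2 - t ^ 3 / 6 + t ^ 4 / 24 - t ^ 5 / 120 ≤ Real.exp (-t) := by
  have h := pa_nonneg_of_deriv
    (f := fun t => Real.exp (-t) - (1 - t + t ^ 2 / 2 - t ^ 3 / 6 + t ^ 4 / 24 - t ^ 5 / 120))
    (f' := fun t => (1 - t + t ^ 2 / 2 - t ^ 3 / 6 + t ^ 4 / 24) - Real.exp (-t)) (by simp)
    (fun t => by
      have h1 := (pa_hexp t).sub (((((((hasDerivAt_const t (1 : ℝ)).sub (hasDerivAt_id t)).add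
        ((hasDerivAt_pow 2 t).div_const 2))).sub ((hasDerivAt_pow 3 t).div_const 6)).add
        ((hasDerivAt_pow 4 t).div_const 24)).sub ((hasDerivAt_pow 5 t).div_const 120))
      refine h1.congr_deriv ?_
      norm_num
      ring) (fun t ht => by have := pa_E4 ht; linarith only [this]) ht
  linarith

/-- `e^t - 1 - t - t²/2 ≤ (t³/6) e^t` -/
theorem pa_ct {t : ℝ} (ht : 0 ≤ t) :
    Real.exp t - 1 - t - t ^ 2 / 2 ≤ t ^ 3 / 6 * Real.exp t := by
  have h := pa_nonneg_of_deriv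
    (f := fun t => Real.exp (-t) * (1 + t + t ^ 2 / 2) - 1 + t ^ 3 / 6)
    (f' := fun t => t ^ 2 / 2 * (1 - Real.exp (-t))) (by simp)
    (fun t => by
      have h1 := (((pa_hexp t).mul (((hasDerivAt_const t (1 : ℝ)).add (hasDerivAt_id t)).add
        ((hasDerivAt_pow 2 t).div_const 2))).sub (hasDerivAt_const t (1 : ℝ))).add
        ((hasDerivAt_pow 3 t).div_const 6)
      refine h1.congr_deriv ?_
      simp only [Pi.add_apply, id_eq, neg_mul, zero_add, Nat.cast_ofNat, Nat.add_one_sub_one, pow_one, ne_eq, OfNat.ofNat_ne_zero, not_false_eq_true, mul_div_cancel_left₀, sub_zero]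
      ring) (fun t ht => by
        have : Real.exp (-t) ≤ 1 := Real.exp_le_one_iff.2 (by linarith)
        have h2 : 0 ≤ 1 - Real.exp (-t) := by linarith
        (clear * - this; positivity)) ht
  have h3 : 0 ≤ Real.exp t * (Real.exp (-t) * (1 + t + t ^ 2 / 2) - 1 + t ^ 3 / 6) :=
    mul_nonneg (Real.exp_pos t).le h
  have h4 : Real.exp t * Real.exp (-t) = 1 := by rw [← Real.exp_add]; simp
  linarith only [mul_eq_zero_of_left (sub_eq_zero.2 h4) (t - (0)), mul_eq_zero_of_left (sub_eq_zero.2 h4) (0 - (0 - (1 * t) ^ 2)), h4, h3]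

/-! ## the kernel sum -/

theorem dpK_zero {m z s l k κz : ℝ} (hk : 0 < k) : dpK m z s l 0 k κz =
    κz / (2 * k) * ((2 * k - 1) * (2 * (k - 1) - (m + 1 + 2 * k) * z) *
      (1 - 2 * k * l + (2 * k * l) ^ 2 / 2 - Real.exp (-(2 * k * l))) -
      (m + 1 + 2 * k) * z * (Real.exp (2 * k * l) - 1 - 2 * k * l - (2 * k * l) ^ 2 / 2)) := by
  unfold dpK
  field_simp
  ring

theorem dpK_split (m z s l W k κz : ℝ) : dpK m z s l W k κz = dpK m z s l 0 k κz +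
    κz * s ^ 2 * (2 * (2 * k - 1) * (Real.exp (-(2 * k * l)) - 1) + 4 * k * (k - 1) * l) * W := by
  unfold dpK
  ring

/-- crude lower bound of one term, `x = e^(2kl)` bounded by `X` -/
theorem dpK_zero_ge {m z s l k κz X : ℝ} (hk : 1 ≤ k) (hκ : 0 ≤ κz) (hl : 0 ≤ l) (hz : 0 ≤ z)
    (hm : 0 ≤ m) (h1 : (m + 1 + 2 * k) * z ≤ 2 * (k - 1)) (hX : Real.exp (2 * k * l) ≤ X) :
    -(κz / (2 * k) * ((m + 1 + 2 * k) * z * ((2 * k * l) ^ 3 / 6 * X))) ≤ dpK m z s l 0 k κz := by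
  have hk0 : 0 < k := by linarith
  rw [dpK_zero hk0]
  have ht : 0 ≤ 2 * k * l := by positivity
  have h2 := pa_ct ht
  have h3 := pa_E2 ht
  have h4 : 0 ≤ (2 * k - 1) * (2 * (k - 1) - (m + 1 + 2 * k) * z) *
      (1 - 2 * k * l + (2 * k * l) ^ 2 / 2 - Real.exp (-(2 * k * l))) :=
    mul_nonneg (mul_nonneg (by linarith only [hk]) (by linarith only [h1])) (by linarith only [h3])
  have h5 : Real.exp (2 * k * l) - 1 - 2 * k * l - (2 * k * l) ^ 2 / 2 ≤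
      (2 * k * l) ^ 3 / 6 * X := h2.trans (mul_le_mul_of_nonneg_left hX (by (clear * - hk hl; positivity)))
  have h6 : 0 ≤ (m + 1 + 2 * k) * z := by positivity
  have h7 := mul_le_mul_of_nonneg_left h5 h6
  have h8 : 0 ≤ κz / (2 * k) := by positivity
  have h9 : -((m + 1 + 2 * k) * z * ((2 * k * l) ^ 3 / 6 * X)) ≤
      (2 * k - 1) * (2 * (k - 1) - (m + 1 + 2 * k) * z) *
      (1 - 2 * k * l + (2 * k * l) ^ 2 / 2 - Real.exp (-(2 * k * l))) -
      (m + 1 + 2 * k) * z * (Real.exp (2 * k * l) - 1 - 2 * k * l - (2 * k * l) ^ 2 / 2) := by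
    linarith only [h4, h7]
  have := mul_le_mul_of_nonneg_left h9 h8
  linarith only [this]

theorem pa_exp_upper {l : ℝ} (h0 : 0 ≤ l) (h1 : l ≤ 1 / 2) :
    Real.exp (4 * l) ≤ 1 + 4 * l + 8 * l ^ 2 + 20 * l ^ 3 := by
  have h2 := Real.exp_bound' (x := 2 * l) (by linarith only [h0]) (by linarith only [h1]) (n := 3) (by norm_num)
  simp only [Finset.sum_range_succ, Finset.sum_range_zero, Nat.factorial] at h2
  have h3 : Real.exp (2 * l) ≤ 1 + 2 * l + 2 * l ^ 2 + 16 / 9 * l ^ 3 := by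
    refine h2.trans (le_of_eq ?_)
    norm_num
    ring
  have h4 : Real.exp (4 * l) = Real.exp (2 * l) ^ 2 := by
    rw [← Real.exp_nat_mul]; congr 1; push_cast; ring
  have h5 : Real.exp (2 * l) ^ 2 ≤ (1 + 2 * l + 2 * l ^ 2 + 16 / 9 * l ^ 3) ^ 2 :=
    pow_le_pow_left₀ (Real.exp_pos _).le h3 2
  rw [h4]
  refine h5.trans ?_
  have h6 : 0 ≤ 1 / 2 - l := by linarith only [h1]
  nlinarith only [h6, pow_nonneg h0 3, pow_nonneg h0 5]

theorem pa_exp_neg_upper {l : ℝ} (h0 : 0 ≤ l) (h1 : l ≤ 1 / 2) :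
    Real.exp (-(4 * l)) ≤ 1 - 4 * l + 8 * l ^ 2 - 34 / 5 * l ^ 3 := by
  have h3 : Real.exp (-(2 * l)) ≤ 1 - 2 * l + 2 * l ^ 2 - 4 / 3 * l ^ 3 + 2 / 3 * l ^ 4 := by
    refine (pa_E4 (t := 2 * l) (by linarith only [h0])).trans (le_of_eq ?_)
    ring
  have h4 : Real.exp (-(4 * l)) = Real.exp (-(2 * l)) ^ 2 := by
    rw [← Real.exp_nat_mul]; congr 1; push_cast; ring
  have h5 : Real.exp (-(2 * l)) ^ 2 ≤
      (1 - 2 * l + 2 * l ^ 2 - 4 / 3 * l ^ 3 + 2 / 3 * l ^ 4) ^ 2 :=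
    pow_le_pow_left₀ (Real.exp_pos _).le h3 2
  rw [h4]
  refine h5.trans ?_
  have h6 : 0 ≤ 1 / 2 - l := by linarith only [h1]
  nlinarith only [mul_nonneg (pow_nonneg h0 7) h6, pow_nonneg h0 5, pow_nonneg h0 6, pow_nonneg h0 8]

end Vale.Agent.P237.AllN
end

section

/-!
# P237, block D, `l > 0`, `m z ≤ 1`: lower bounds of the kernel sum and of the `W`-coefficient
-/

namespace Vale.Agent.P237.AllN

theorem pa_term {m z s l k X A c κ w wb L : ℝ} (hk : 1 ≤ k) (hκ : 0 ≤ κ) (hw : 0 ≤ w)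
    (hwb : w ≤ wb) (hl : 0 ≤ l) (hL : l ≤ L) (hz : 0 ≤ z) (hm : 0 ≤ m)
    (hA : (m + 1 + 2 * k) * z ≤ A) (hA2 : A ≤ 2 * (k - 1)) (hX : Real.exp (2 * k * l) ≤ X)
    (hc : κ * wb / (2 * k) * A * (8 * k ^ 3 * L / 6) * X ≤ c) :
    -(c * (z * l ^ 2)) ≤ dpK m z s l 0 k (κ * w * z) := by
  have hk0 : 0 < k := by linarith only [hk]
  have h1 := dpK_zero_ge (s := s) hk (κz := κ * w * z) (by positivity) hl hz hm (hA.trans hA2) hX
  refine le_trans ?_ h1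
  rw [neg_le_neg_iff]
  have hX0 : 0 ≤ X := (Real.exp_pos _).le.trans hX
  have hM0 : 0 ≤ (m + 1 + 2 * k) * z := by positivity
  have hA0 : 0 ≤ A := hM0.trans hA
  have e : κ * w * z / (2 * k) * ((m + 1 + 2 * k) * z * ((2 * k * l) ^ 3 / 6 * X)) =
      κ * w / (2 * k) * ((m + 1 + 2 * k) * z) * (8 * k ^ 3 * l / 6) * X * (z * l ^ 2) := by
    ring
  rw [e]
  have h2 : κ * w / (2 * k) * ((m + 1 + 2 * k) * z) * (8 * k ^ 3 * l / 6) * X ≤
      κ * wb / (2 * k) * A * (8 * k ^ 3 * L / 6) * X := by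
    have hwb0 : 0 ≤ wb := hw.trans hwb
    (clear * - hwb hκ hk hA hm hz hwb0 hL hl hA0 hX0; gcongr)
  exact mul_le_mul_of_nonneg_right (h2.trans hc) (by (clear * - hz; positivity))

theorem pa_exp1 : Real.exp 1 ≤ 27183 / 10000 := by
  have := Real.exp_one_lt_d9
  norm_num at this ⊢
  linarith

theorem pa_exp1' : 27182 / 10000 ≤ Real.exp 1 := by
  have := Real.exp_one_gt_d9
  norm_num at this ⊢
  linarith only [this]

theorem pa_exp45 : Real.exp (4 / 5) ≤ 22256 / 10000 := by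
  have h := Real.exp_one_lt_d9
  have h1 : Real.exp (4 / 5) ^ 5 = Real.exp 1 ^ 4 := by
    rw [← Real.exp_nat_mul, ← Real.exp_nat_mul]; congr 1; norm_num
  have h2 : Real.exp 1 ^ 4 ≤ (22256 / 10000) ^ 5 :=
    (pow_le_pow_left₀ (Real.exp_pos _).le h.le 4).trans (by norm_num)
  rw [← h1] at h2
  exact le_of_pow_le_pow_left₀ (by norm_num) (by norm_num) h2

theorem pa_exp45' : 22255 / 10000 ≤ Real.exp (4 / 5) := by
  have h := Real.exp_one_gt_d9
  have h1 : Real.exp (4 / 5) ^ 5 = Real.exp 1 ^ 4 := by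
    rw [← Real.exp_nat_mul, ← Real.exp_nat_mul]; congr 1; norm_num
  have h2 : (22255 / 10000) ^ 5 ≤ Real.exp 1 ^ 4 :=
    le_trans (by norm_num) (pow_le_pow_left₀ (by norm_num) h.le 4)
  rw [← h1] at h2
  exact le_of_pow_le_pow_left₀ (by norm_num) (Real.exp_pos _).le h2

theorem pa_expk {l L B : ℝ} {k : ℕ} (hl : l ≤ L) (hB : Real.exp (2 * L) ≤ B) :
    Real.exp (2 * k * l) ≤ B ^ k := by
  have h1 : Real.exp (2 * k * l) ≤ Real.exp (2 * L) ^ k := by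
    rw [← Real.exp_nat_mul]
    apply Real.exp_le_exp.2
    have : (0 : ℝ) ≤ k := Nat.cast_nonneg k
    nlinarith only [hl]
  exact h1.trans (pow_le_pow_left₀ (Real.exp_pos _).le hB k)

/-- kernel sum, `m z ≤ 1`, `l ≤ 2/5` -/
theorem pa_S1 {m z s l : ℝ} (hm : 0 ≤ m) (hz : 0 ≤ z) (hz1 : z ≤ 1 / 25) (hM : m * z ≤ 1)
    (hl : 0 ≤ l) (hl1 : l ≤ 2 / 5) : -(8 / 5 * (z * l ^ 2)) ≤ dpS m z s l 0 := by
  have hB : Real.exp (2 * (2 / 5)) ≤ 22256 / 10000 := by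
    have := pa_exp45; norm_num at this ⊢; exact this
  have x3 : Real.exp (2 * 3 * l) ≤ 11.03 :=
    (pa_expk (k := 3) hl1 hB).trans (by norm_num)
  have x4 : Real.exp (2 * 4 * l) ≤ 24.54 :=
    (pa_expk (k := 4) hl1 hB).trans (by norm_num)
  have x5 : Real.exp (2 * 5 * l) ≤ 54.61 :=
    (pa_expk (k := 5) hl1 hB).trans (by norm_num)
  have x6 : Real.exp (2 * 6 * l) ≤ 121.6 :=
    (pa_expk (k := 6) hl1 hB).trans (by norm_num)
  have k3 := pa_term (m := m) (s := s) (k := 3) (A := 1.28) (c := 0.848) (κ := 5 / 8) (w := z)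
    (by norm_num) (by norm_num) hz hz1 hl hl1 hz hm (by linarith only [hz1, hM]) (by norm_num) x3 (by norm_num)
  have k4 := pa_term (m := m) (s := s) (k := 4) (A := 1.36) (c := 0.125) (κ := 35 / 64)
    (w := z ^ 2) (wb := (1 / 25) ^ 2)
    (by norm_num) (by norm_num) (by positivity) (pow_le_pow_left₀ hz hz1 2) hl hl1 hz hm
    (by linarith only [hz1, hM]) (by norm_num) x4 (by norm_num)
  have k5 := pa_term (m := m) (s := s) (k := 5) (A := 1.44) (c := 0.017) (κ := 63 / 128)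
    (w := z ^ 3) (wb := (1 / 25) ^ 3)
    (by norm_num) (by norm_num) (by positivity) (pow_le_pow_left₀ hz hz1 3) hl hl1 hz hm
    (by linarith only [hz1, hM]) (by norm_num) x5 (by norm_num)
  have k6 := pa_term (m := m) (s := s) (k := 6) (A := 1.52) (c := 0.0021) (κ := 231 / 512)
    (w := z ^ 4) (wb := (1 / 25) ^ 4)
    (by norm_num) (by norm_num) (by positivity) (pow_le_pow_left₀ hz hz1 4) hl hl1 hz hm
    (by linarith only [hz1, hM]) (by norm_num) x6 (by norm_num)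
  have k2 : -(0.576 * (z * l ^ 2)) ≤ dpK m z s l 0 2 (3 / 4 * z) := by
    rw [dpK_zero (by norm_num : (0 : ℝ) < 2)]
    have h1 := pa_exp_upper hl (by linarith only [hl1])
    have h2 := pa_exp_neg_upper hl (by linarith only [hl1])
    have e1 : Real.exp (2 * 2 * l) = Real.exp (4 * l) := by norm_num
    have e2 : Real.exp (-(2 * 2 * l)) = Real.exp (-(4 * l)) := by norm_num
    rw [e1, e2]
    have hA : (m + 1 + 2 * 2) * z ≤ 1.2 := by linarith only [hz1, hM]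
    have hA0 : 0 ≤ (m + 1 + 2 * 2) * z := by (clear * - hm hz; positivity)
    obtain ⟨A, hAe⟩ : ∃ A, A = (m + 1 + 2 * 2) * z := ⟨_, rfl⟩
    rw [← hAe] at hA hA0 ⊢
    have hl3 : 0 ≤ l ^ 3 := by (clear * - hl; positivity)
    have p1 : 34 / 5 * l ^ 3 ≤ 1 - 2 * 2 * l + (2 * 2 * l) ^ 2 / 2 - Real.exp (-(4 * l)) := by
      linarith only [h2]
    have p2 : Real.exp (4 * l) - 1 - 2 * 2 * l - (2 * 2 * l) ^ 2 / 2 ≤ 20 * l ^ 3 := by linarith only [h1]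
    have q1 : (2 * 2 - 1) * (2 * (2 - 1) - A) * (34 / 5 * l ^ 3) ≤ (2 * 2 - 1) * (2 * (2 - 1) - A) *
        (1 - 2 * 2 * l + (2 * 2 * l) ^ 2 / 2 - Real.exp (-(4 * l))) :=
      mul_le_mul_of_nonneg_left p1 (by norm_num at hA ⊢; linarith only [hz1, hM, hAe])
    have q2 := mul_le_mul_of_nonneg_left p2 hA0
    have q3 : -(7.68 * l ^ 3) ≤ (2 * 2 - 1) * (2 * (2 - 1) - A) * (34 / 5 * l ^ 3) -
        A * (20 * l ^ 3) := by
      norm_num at hA ⊢
      nlinarith only [hA, hl3]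
    have q4 : -(7.68 * l ^ 3) ≤ (2 * 2 - 1) * (2 * (2 - 1) - A) *
        (1 - 2 * 2 * l + (2 * 2 * l) ^ 2 / 2 - Real.exp (-(4 * l))) -
        A * (Real.exp (4 * l) - 1 - 2 * 2 * l - (2 * 2 * l) ^ 2 / 2) := by linarith only [q1, q2, q3]
    have q5 := mul_le_mul_of_nonneg_left q4 (by (clear * - hz; positivity) : 0 ≤ 3 / 4 * z / (2 * 2))
    refine le_trans ?_ q5
    have : 0 ≤ z * l ^ 2 * (2 / 5 - l) := by
      have : 0 ≤ 2 / 5 - l := by linarith only [hl1]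
      (clear * - hz hl1; positivity)
    norm_num
    linarith only [this]
  unfold dpS
  have e3 : (5 / 8 * z ^ 2 : ℝ) = 5 / 8 * z * z := by ring
  have e4 : (35 / 64 * z ^ 3 : ℝ) = 35 / 64 * z ^ 2 * z := by ring
  have e5 : (63 / 128 * z ^ 4 : ℝ) = 63 / 128 * z ^ 3 * z := by ring
  have e6 : (231 / 512 * z ^ 5 : ℝ) = 231 / 512 * z ^ 4 * z := by ring
  rw [e3, e4, e5, e6]
  have h0 : 0 ≤ z * l ^ 2 := by (clear * - hz; positivity)
  norm_num at k2 k3 k4 k5 k6 ⊢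
  linarith only [h0, k2, k3, k4, k5, k6]

/-- kernel sum, `m z ≤ 16/25`, `l ≤ 1/2` -/
theorem pa_S2 {m z s l : ℝ} (hm : 0 ≤ m) (hz : 0 ≤ z) (hz1 : z ≤ 16 / 625) (hM : m * z ≤ 16 / 25)
    (hl : 0 ≤ l) (hl1 : l ≤ 1 / 2) : -(9 / 10 * (z * l ^ 2)) ≤ dpS m z s l 0 := by
  have hB : Real.exp (2 * (1 / 2)) ≤ 27183 / 10000 := by
    have := pa_exp1; norm_num at this ⊢; exact this
  have x3 : Real.exp (2 * 3 * l) ≤ 20.09 :=
    (pa_expk (k := 3) hl1 hB).trans (by norm_num)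
  have x4 : Real.exp (2 * 4 * l) ≤ 54.61 :=
    (pa_expk (k := 4) hl1 hB).trans (by norm_num)
  have x5 : Real.exp (2 * 5 * l) ≤ 148.43 :=
    (pa_expk (k := 5) hl1 hB).trans (by norm_num)
  have x6 : Real.exp (2 * 6 * l) ≤ 403.5 :=
    (pa_expk (k := 6) hl1 hB).trans (by norm_num)
  have k3 := pa_term (m := m) (s := s) (k := 3) (A := 0.8192) (c := 0.791) (κ := 5 / 8) (w := z)
    (by norm_num) (by norm_num) hz hz1 hl hl1 hz hm (by linarith only [hz1, hM]) (by norm_num) x3 (by norm_num)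
  have k4 := pa_term (m := m) (s := s) (k := 4) (A := 0.8704) (c := 0.092) (κ := 35 / 64)
    (w := z ^ 2) (wb := (16 / 625) ^ 2)
    (by norm_num) (by norm_num) (by positivity) (pow_le_pow_left₀ hz hz1 2) hl hl1 hz hm
    (by linarith only [hM, hz1]) (by norm_num) x4 (by norm_num)
  have k5 := pa_term (m := m) (s := s) (k := 5) (A := 0.9216) (c := 0.01) (κ := 63 / 128)
    (w := z ^ 3) (wb := (16 / 625) ^ 3)
    (by norm_num) (by norm_num) (by positivity) (pow_le_pow_left₀ hz hz1 3) hl hl1 hz hm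
    (by linarith only [hz1, hM]) (by norm_num) x5 (by norm_num)
  have k6 := pa_term (m := m) (s := s) (k := 6) (A := 0.9728) (c := 0.001) (κ := 231 / 512)
    (w := z ^ 4) (wb := (16 / 625) ^ 4)
    (by norm_num) (by norm_num) (by positivity) (pow_le_pow_left₀ hz hz1 4) hl hl1 hz hm
    (by linarith only [hz1, hM]) (by norm_num) x6 (by norm_num)
  have k2 : 0 ≤ dpK m z s l 0 2 (3 / 4 * z) := by
    rw [dpK_zero (by norm_num : (0 : ℝ) < 2)]
    have h1 := pa_exp_upper hl (by linarith only [hl1])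
    have h2 := pa_exp_neg_upper hl (by linarith only [hl1])
    have e1 : Real.exp (2 * 2 * l) = Real.exp (4 * l) := by norm_num
    have e2 : Real.exp (-(2 * 2 * l)) = Real.exp (-(4 * l)) := by norm_num
    rw [e1, e2]
    have hA : (m + 1 + 2 * 2) * z ≤ 0.768 := by linarith only [hz1, hM]
    have hA0 : 0 ≤ (m + 1 + 2 * 2) * z := by (clear * - hm hz; positivity)
    obtain ⟨A, hAe⟩ : ∃ A, A = (m + 1 + 2 * 2) * z := ⟨_, rfl⟩
    rw [← hAe] at hA hA0 ⊢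
    have hl3 : 0 ≤ l ^ 3 := by (clear * - hl; positivity)
    have p1 : 34 / 5 * l ^ 3 ≤ 1 - 2 * 2 * l + (2 * 2 * l) ^ 2 / 2 - Real.exp (-(4 * l)) := by
      linarith only [h2]
    have p2 : Real.exp (4 * l) - 1 - 2 * 2 * l - (2 * 2 * l) ^ 2 / 2 ≤ 20 * l ^ 3 := by linarith only [h1]
    have q1 : (2 * 2 - 1) * (2 * (2 - 1) - A) * (34 / 5 * l ^ 3) ≤ (2 * 2 - 1) * (2 * (2 - 1) - A) *
        (1 - 2 * 2 * l + (2 * 2 * l) ^ 2 / 2 - Real.exp (-(4 * l))) :=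
      mul_le_mul_of_nonneg_left p1 (by norm_num at hA ⊢; linarith only [hz1, hM, hAe])
    have q2 := mul_le_mul_of_nonneg_left p2 hA0
    have q3 : 0 ≤ (2 * 2 - 1) * (2 * (2 - 1) - A) * (34 / 5 * l ^ 3) -
        A * (20 * l ^ 3) := by
      norm_num at hA ⊢
      nlinarith only [hl3, hA]
    have q4 : 0 ≤ (2 * 2 - 1) * (2 * (2 - 1) - A) *
        (1 - 2 * 2 * l + (2 * 2 * l) ^ 2 / 2 - Real.exp (-(4 * l))) -
        A * (Real.exp (4 * l) - 1 - 2 * 2 * l - (2 * 2 * l) ^ 2 / 2) := by linarith only [q1, q2, q3]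
    exact mul_nonneg (by (clear * - hz; positivity)) q4
  unfold dpS
  have e3 : (5 / 8 * z ^ 2 : ℝ) = 5 / 8 * z * z := by ring
  have e4 : (35 / 64 * z ^ 3 : ℝ) = 35 / 64 * z ^ 2 * z := by ring
  have e5 : (63 / 128 * z ^ 4 : ℝ) = 63 / 128 * z ^ 3 * z := by ring
  have e6 : (231 / 512 * z ^ 5 : ℝ) = 231 / 512 * z ^ 4 * z := by ring
  rw [e3, e4, e5, e6]
  have h0 : 0 ≤ z * l ^ 2 := by (clear * - hz; positivity)
  norm_num at k2 k3 k4 k5 k6 ⊢
  linarith only [h0, k2, k3, k4, k5, k6]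

/-! ## the `W`-coefficient -/

/-- `W`-coefficient of one term -/
noncomputable def dpKW (s l k κz : ℝ) : ℝ :=
  κz * s ^ 2 * (2 * (2 * k - 1) * (Real.exp (-(2 * k * l)) - 1) + 4 * k * (k - 1) * l)

/-- `W`-coefficient of the kernel pair -/
noncomputable def dpC (z s l : ℝ) : ℝ :=
  4 / s - 4 * s / (1 + s) - 2 * s ^ 2 - 6 * (z / s ^ 3) * l + dpKW s l 2 (3 / 4 * z) +
  dpKW s l 3 (5 / 8 * z ^ 2) + dpKW s l 4 (35 / 64 * z ^ 3) + dpKW s l 5 (63 / 128 * z ^ 4) +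
  dpKW s l 6 (231 / 512 * z ^ 5)

/-- `T` in terms of the `W`-coefficient -/
theorem dpT_eq (m z s l u G N : ℝ) : dpT m z s l u G N =
    (m + 3) * z * (Real.exp (-(2 * l)) - 1 + 2 * l) +
    (3 * (m - 3) * (z ^ 2 / s ^ 5) - 9 * (z / s ^ 3)) * l ^ 2 +
    (4 * s ^ 2 * Real.exp (-(2 * l)) + dpC z s l) * (u ^ 2 / (1 + u)) +
    G + 2 * (m + 1) / ((m - 1) * s) * N + dpS m z s l 0 +
    3 / 25 * (m + 3) * z * ((m * (z / s ^ 2) - 3) * l ^ 2 - 2 * u * l) := by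
  unfold dpT dpC dpS dpKW
  rw [dpK_split m z s l (u ^ 2 / (1 + u)) 2, dpK_split m z s l (u ^ 2 / (1 + u)) 3,
    dpK_split m z s l (u ^ 2 / (1 + u)) 4, dpK_split m z s l (u ^ 2 / (1 + u)) 5,
    dpK_split m z s l (u ^ 2 / (1 + u)) 6]
  ring

/-- `4/s - 4s/(1+s) - 2s² ≥ (9/2) z` -/
theorem dp_C00 {z s : ℝ} (hs : 0 < s) (hz : s ^ 2 = 1 - z) :
    9 / 2 * z ≤ 4 / s - 4 * s / (1 + s) - 2 * s ^ 2 := by
  have e : 4 / s - 4 * s / (1 + s) - 2 * s ^ 2 - 9 / 2 * (1 - s ^ 2) =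
      (1 - s) ^ 2 * (8 + 15 * s + 5 * s ^ 2) / (2 * (s * (1 + s))) := by
    field_simp
    ring
  have h : 0 ≤ (1 - s) ^ 2 * (8 + 15 * s + 5 * s ^ 2) / (2 * (s * (1 + s))) := by (clear * - hs; positivity)
  have hz' : z = 1 - s ^ 2 := by linarith only [hz]
  rw [hz']
  linarith only [h, e]

theorem dpKW_ge {z s l k κz : ℝ} (hk : 1 ≤ k) (hκ : 0 ≤ κz) (hl : 0 ≤ l) (hz0 : 0 ≤ z)
    (hz : s ^ 2 = 1 - z) : -(κz * (4 * k ^ 2 * l)) ≤ dpKW s l k κz := by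
  unfold dpKW
  have h1 := pa_E1 (2 * k * l)
  have h2 : -(4 * k ^ 2 * l) ≤
      2 * (2 * k - 1) * (Real.exp (-(2 * k * l)) - 1) + 4 * k * (k - 1) * l := by
    have := mul_le_mul_of_nonneg_left h1 (by linarith only [hk] : 0 ≤ 2 * (2 * k - 1))
    linarith
  have hs2 : 0 ≤ s ^ 2 := sq_nonneg s
  have h3 := mul_le_mul_of_nonneg_left h2 (mul_nonneg hκ hs2)
  have h4 : κz * s ^ 2 * (4 * k ^ 2 * l) ≤ κz * (4 * k ^ 2 * l) := by
    have : 0 ≤ κz * (4 * k ^ 2 * l) := by (clear * - hκ hk hl; positivity)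
    have h5 : κz * s ^ 2 * (4 * k ^ 2 * l) = κz * (4 * k ^ 2 * l) * s ^ 2 := by ring
    rw [h5]
    apply mul_le_of_le_one_right this
    linarith only [hz0, hz]
  linarith only [h3, h4]

end Vale.Agent.P237.AllN
end

section

/-!
# P237, block D, `l > 0`, `m z ≤ 1`: bounds of the coefficients
-/

namespace Vale.Agent.P237.AllN

/-! ## bounds in `s` -/

theorem pa_s_lower {z s : ℝ} (hs0 : 0 < s) (hs : s ^ 2 = 1 - z) (hz0 : 0 ≤ z)
    (hz : z ≤ 1 / 25) : 1 - 51 / 100 * z ≤ s := by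
  apply le_of_pow_le_pow_left₀ (n := 2) (by norm_num) hs0.le
  rw [hs]
  linarith only [mul_nonneg (sub_nonneg.2 hz0) (sub_nonneg.2 hz), mul_nonneg (sub_nonneg.2 hz0) (sub_nonneg.2 hz0)]

theorem pa_s_le {z s : ℝ} (hs0 : 0 < s) (hs : s ^ 2 = 1 - z) (hz0 : 0 ≤ z) :
    s ≤ 1 - z / 2 := by
  rcases le_total s (1 - z / 2) with h | h
  · exact h
  · have hz1 : z < 1 := by linarith only [mul_pos (sub_pos.2 hs0) (sub_pos.2 hs0), hs]
    have h1 : (1 - z / 2) ^ 2 ≤ s ^ 2 := pow_le_pow_left₀ (by linarith only [hz1]) h 2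
    rw [hs] at h1
    have h2 : z = 0 := by nlinarith only [h1]
    subst h2
    have h3 : (s - 1) * (s + 1) = 0 := by nlinarith only [hs]
    rcases mul_eq_zero.1 h3 with h4 | h4 <;> linarith only [h4]

theorem pa_inv_le {z s : ℝ} (hs0 : 0 < s) (hs : s ^ 2 = 1 - z) (hz0 : 0 ≤ z)
    (hz : z ≤ 1 / 25) : 1 / s ≤ 1 + 521 / 1000 * z := by
  rw [div_le_iff₀ hs0]
  have h := pa_s_lower hs0 hs hz0 hz
  nlinarith only [hz0, h, hz]

theorem pa_inv_ge {z s : ℝ} (hs0 : 0 < s) (hs : s ^ 2 = 1 - z) (hz0 : 0 ≤ z) :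
    1 + z / 2 ≤ 1 / s := by
  rw [le_div_iff₀ hs0]
  have h := pa_s_le hs0 hs hz0
  nlinarith

theorem pa_cube {z s A t : ℝ} (hz0 : 0 ≤ z) (hA0 : 0 < A) (hA : A ≤ s) (ht : 1 ≤ t * A ^ 3) :
    z / s ^ 3 ≤ t * z := by
  have hs0 : 0 < s := hA0.trans_le hA
  rw [div_le_iff₀ (by positivity)]
  have h1 : A ^ 3 ≤ s ^ 3 := pow_le_pow_left₀ hA0.le hA 3
  have ht0 : 0 ≤ t := by
    by_contra h
    push Not at h
    linarith only [mul_pos (sub_pos.2 h) (sub_pos.2 (pow_pos hA0 3)), ht]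
  have h2 : 1 ≤ t * s ^ 3 := ht.trans (mul_le_mul_of_nonneg_left h1 ht0)
  linarith only [mul_nonneg (sub_nonneg.2 hz0) (sub_nonneg.2 h2)]

theorem pa_s1 {z s : ℝ} (hs0 : 0 < s) (hs : s ^ 2 = 1 - z) (hz : z ≤ 1 / 25) :
    97979 / 100000 ≤ s := by
  apply le_of_pow_le_pow_left₀ (n := 2) (by norm_num) hs0.le
  rw [hs]
  norm_num
  linarith

theorem pa_s2 {z s : ℝ} (hs0 : 0 < s) (hs : s ^ 2 = 1 - z) (hz : z ≤ 16 / 625) :
    98711 / 100000 ≤ s := by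
  apply le_of_pow_le_pow_left₀ (n := 2) (by norm_num) hs0.le
  rw [hs]
  norm_num
  linarith

theorem pa_cube1 {z s : ℝ} (hs0 : 0 < s) (hs : s ^ 2 = 1 - z) (hz0 : 0 ≤ z) (hz : z ≤ 1 / 25) :
    z / s ^ 3 ≤ 1.0638 * z :=
  pa_cube hz0 (by norm_num) (pa_s1 hs0 hs hz) (by norm_num)

theorem pa_cube2 {z s : ℝ} (hs0 : 0 < s) (hs : s ^ 2 = 1 - z) (hz0 : 0 ≤ z)
    (hz : z ≤ 16 / 625) : z / s ^ 3 ≤ 1.04 * z :=
  pa_cube hz0 (by norm_num) (pa_s2 hs0 hs hz) (by norm_num)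

/-! ## the `W`-coefficient -/

theorem pa_C1 {z s l : ℝ} (hs0 : 0 < s) (hs : s ^ 2 = 1 - z) (hz0 : 0 ≤ z) (hz : z ≤ 1 / 25)
    (hl0 : 0 ≤ l) (hl : l ≤ 2 / 5) : -(3 / 5 * z) ≤ dpC z s l := by
  unfold dpC
  have h00 := dp_C00 hs0 hs
  have hcube := mul_le_mul_of_nonneg_right (pa_cube1 hs0 hs hz0 hz) hl0
  have h3 := dpKW_ge (k := 3) (κz := 5 / 8 * z ^ 2) (by norm_num) (by (clear * -; positivity)) hl0 hz0 hs
  have h4 := dpKW_ge (k := 4) (κz := 35 / 64 * z ^ 3) (by norm_num) (by positivity) hl0 hz0 hs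
  have h5 := dpKW_ge (k := 5) (κz := 63 / 128 * z ^ 4) (by norm_num) (by positivity) hl0 hz0 hs
  have h6 := dpKW_ge (k := 6) (κz := 231 / 512 * z ^ 5) (by norm_num) (by positivity) hl0 hz0 hs
  have h2 : -(12 * z * (l * (1 - 3 * l + 4 * l ^ 2))) ≤ dpKW s l 2 (3 / 4 * z) := by
    unfold dpKW
    have hE := pa_E3 (t := 2 * 2 * l) (by linarith only [hl0])
    have hb : -(16 * (l * (1 - 3 * l + 4 * l ^ 2))) ≤
        2 * (2 * 2 - 1) * (Real.exp (-(2 * 2 * l)) - 1) + 4 * 2 * (2 - 1) * l := by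
      generalize Real.exp (-(2 * 2 * l)) = E at hE ⊢
      clear * - hE
      linarith only [hE]
    have hs2 : s ^ 2 ≤ 1 := by linarith only [hs, hz0]
    have hs20 : 0 ≤ s ^ 2 := sq_nonneg s
    have hpos : 0 ≤ l * (1 - 3 * l + 4 * l ^ 2) := by
      apply mul_nonneg hl0
      linarith only [sq_nonneg (l - 3 / 8)]
    have h7 := mul_le_mul_of_nonneg_left hb (by (clear * - hz0 hs0; positivity) : 0 ≤ 3 / 4 * z * s ^ 2)
    refine le_trans ?_ h7
    have h8 : 3 / 4 * z * s ^ 2 * (16 * (l * (1 - 3 * l + 4 * l ^ 2))) ≤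
        12 * z * (l * (1 - 3 * l + 4 * l ^ 2)) := by
      have : 3 / 4 * z * s ^ 2 * (16 * (l * (1 - 3 * l + 4 * l ^ 2))) =
        12 * z * (l * (1 - 3 * l + 4 * l ^ 2)) * s ^ 2 := by ring
      rw [this]
      exact mul_le_of_le_one_right (by (clear * - hz0 hpos; positivity)) hs2
    linarith only [h8]
  have hz2 : z ^ 2 ≤ 1 / 25 * z := by nlinarith only [hz0, hz]
  have hz3 : z ^ 3 ≤ 1 / 625 * z := by nlinarith only [hz2]
  have hz4 : z ^ 4 ≤ 1 / 15625 * z := by nlinarith only [hz2]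
  have hz5 : z ^ 5 ≤ 1 / 390625 * z := by linarith only [mul_nonneg (sub_nonneg.2 hl) (sub_nonneg.2 hz2), mul_nonneg (sub_nonneg.2 hl0) (sub_nonneg.2 hz2), mul_nonneg (sub_nonneg.2 hz0) (sub_nonneg.2 hz4)]
  have g3 := mul_le_mul_of_nonneg_right hz2 hl0
  have g4 := mul_le_mul_of_nonneg_right hz3 hl0
  have g5 := mul_le_mul_of_nonneg_right hz4 hl0
  have g6 := mul_le_mul_of_nonneg_right hz5 hl0
  have hpoly : 0 ≤ 4.5 - 19.3422 * l + 36 * l ^ 2 - 48 * l ^ 3 + 3 / 5 := by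
    nlinarith only [hl]
  have hz' := mul_nonneg hz0 hpoly
  norm_num at h3 h4 h5 h6 hcube hz' ⊢
  (clear * - h00 h2 g3 g4 g5 g6 h3 h4 h5 h6 hcube hz' hl0; nlinarith)

theorem pa_C2 {z s l : ℝ} (hs0 : 0 < s) (hs : s ^ 2 = 1 - z) (hz0 : 0 ≤ z) (hz : z ≤ 16 / 625)
    (hl0 : 2 / 5 ≤ l) (hl : l ≤ 1 / 2) : 0 ≤ dpC z s l := by
  unfold dpC
  have hl0' : 0 ≤ l := by linarith only [hl0]
  have h00 := dp_C00 hs0 hs
  have hcube := mul_le_mul_of_nonneg_right (pa_cube2 hs0 hs hz0 hz) hl0'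
  have h3 := dpKW_ge (k := 3) (κz := 5 / 8 * z ^ 2) (by norm_num) (by (clear * -; positivity)) hl0' hz0 hs
  have h4 := dpKW_ge (k := 4) (κz := 35 / 64 * z ^ 3) (by norm_num) (by positivity) hl0' hz0 hs
  have h5 := dpKW_ge (k := 5) (κz := 63 / 128 * z ^ 4) (by norm_num) (by positivity) hl0' hz0 hs
  have h6 := dpKW_ge (k := 6) (κz := 231 / 512 * z ^ 5) (by norm_num) (by (clear * - hz0; positivity)) hl0' hz0 hs
  have h2 : -(z * (3.8925 - 6 * l)) ≤ dpKW s l 2 (3 / 4 * z) := by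
    unfold dpKW
    have hE : 0.135 ≤ Real.exp (-(2 * 2 * l)) := by
      have h1 : Real.exp (-2) ≤ Real.exp (-(2 * 2 * l)) := Real.exp_le_exp.2 (by linarith only [hl])
      refine le_trans ?_ h1
      have h2 : Real.exp 1 ^ 2 ≤ (27183 / 10000) ^ 2 :=
        pow_le_pow_left₀ (Real.exp_pos _).le pa_exp1 2
      have h3 : Real.exp (-2) * Real.exp 1 ^ 2 = 1 := by
        rw [← Real.exp_nat_mul, ← Real.exp_add]; norm_num
      have h4 : 0 < Real.exp (-2) := Real.exp_pos _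
      nlinarith only [h2, h3]
    have hb : -(5.19 - 8 * l) ≤
        2 * (2 * 2 - 1) * (Real.exp (-(2 * 2 * l)) - 1) + 4 * 2 * (2 - 1) * l := by
      norm_num at hE ⊢
      linarith only [hE]
    have hs2 : s ^ 2 ≤ 1 := by linarith only [hs, hz0]
    have hs20 : 0 ≤ s ^ 2 := sq_nonneg s
    have hpos : 0 ≤ 5.19 - 8 * l := by norm_num; linarith only [hl]
    have h7 := mul_le_mul_of_nonneg_left hb (by (clear * - hz0 hs0; positivity) : 0 ≤ 3 / 4 * z * s ^ 2)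
    refine le_trans ?_ h7
    have h8 : 3 / 4 * z * s ^ 2 * (5.19 - 8 * l) ≤ 3 / 4 * z * (5.19 - 8 * l) := by
      have : 3 / 4 * z * s ^ 2 * (5.19 - 8 * l) = 3 / 4 * z * (5.19 - 8 * l) * s ^ 2 := by ring
      rw [this]
      exact mul_le_of_le_one_right (by (clear * - hz0 hpos; positivity)) hs2
    norm_num at h8 ⊢
    linarith only [h8]
  have hz2 : z ^ 2 ≤ 16 / 625 * z := by linarith only [mul_nonneg (sub_nonneg.2 hz0) (sub_nonneg.2 hz)]
  have hz3 : z ^ 3 ≤ 1 / 1500 * z := by nlinarith only [hz2]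
  have hz4 : z ^ 4 ≤ 1 / 50000 * z := by nlinarith only [hz2]
  have hz5 : z ^ 5 ≤ 1 / 1000000 * z := by linarith only [mul_nonneg (sub_nonneg.2 hz2) (sub_nonneg.2 hz3), mul_nonneg (sub_nonneg.2 hz2) (sub_nonneg.2 hz2), mul_nonneg (sub_nonneg.2 hz) (sub_nonneg.2 hz2), mul_nonneg (sub_nonneg.2 hz0) (sub_nonneg.2 hz4), mul_nonneg (sub_nonneg.2 hz0) (sub_nonneg.2 hl0'), mul_nonneg (sub_nonneg.2 hz0) (sub_nonneg.2 hl)]
  have g3 := mul_le_mul_of_nonneg_right hz2 hl0'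
  have g4 := mul_le_mul_of_nonneg_right hz3 hl0'
  have g5 := mul_le_mul_of_nonneg_right hz4 hl0'
  have g6 := mul_le_mul_of_nonneg_right hz5 hl0'
  have hpoly : 0 ≤ 0.607 - 0.85 * l := by norm_num; linarith only [hl]
  have hz' := mul_nonneg hz0 hpoly
  norm_num at h3 h4 h5 h6 h2 hcube hz' ⊢
  linarith

/-! ## `φ = u - log (1+u)` -/

theorem pa_phi_pos {u : ℝ} (hu : 0 ≤ u) : u - Real.log (1 + u) ≤ u ^ 2 / (2 + u) := by
  have h := Real.le_log_one_add_of_nonneg hu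
  have h2 : u - 2 * u / (u + 2) = u ^ 2 / (2 + u) := by
    field_simp
    ring
  linarith only [h, h2]

theorem pa_phi_neg {u : ℝ} (hu : 0 < 1 + u) (hu1 : u ≤ 0) :
    u - Real.log (1 + u) ≤ u ^ 2 / (1 + u) / 2 := by
  -- `log x ≤ (x - 1/x)/2` for `x = 1/(1+u) ≥ 1`
  set w := -u / (1 + u) with hw
  have hw0 : 0 ≤ w := div_nonneg (by linarith only [hu1]) hu.le
  have h1w : 1 + w = 1 / (1 + u) := by
    rw [hw]
    field_simp
    ring
  have hlog : Real.log (1 + u) = -Real.log (1 + w) := by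
    rw [h1w, one_div, Real.log_inv, neg_neg]
  have key : Real.log (1 + w) ≤ ((1 + w) - 1 / (1 + w)) / 2 := by
    have h := pa_nonneg_of_deriv
      (f := fun t => (Real.exp t - Real.exp (-t)) / 2 - t)
      (f' := fun t => (Real.exp t + Real.exp (-t)) / 2 - 1) (by simp)
      (fun t => by
        have h1 := (((Real.hasDerivAt_exp t).sub (pa_hexp t)).div_const 2).sub (hasDerivAt_id t)
        refine h1.congr_deriv ?_
        ring) (fun t _ => by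
          have h1 := Real.add_one_le_exp t
          have h2 := Real.add_one_le_exp (-t)
          linarith only [h1, h2]) (t := Real.log (1 + w)) (Real.log_nonneg (by linarith only [hw0]))
    rw [Real.exp_log (by linarith only [hw0]), Real.exp_neg, Real.exp_log (by linarith only [hw0])] at h
    rw [one_div]
    linarith only [h]
  rw [hlog]
  have e : u ^ 2 / (1 + u) / 2 = u + ((1 + w) - 1 / (1 + w)) / 2 := by
    rw [h1w]
    field_simp
    ring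
  rw [e]
  linarith only [key]

end Vale.Agent.P237.AllN
end

section

/-!
# P237, block D, region `l ≤ 0`, part 1: one-variable lemmas, lower bound of `T`
-/

set_option linter.all false

namespace Vale.Agent.P237.AllN
namespace FNeg


theorem sC0 {σ : ℝ} (h : 1 ≤ σ) :
    1.5 * (2 * (σ - 1) + 2 * (1 - 1 / σ ^ 2)) ≤ 4 * σ - 4 / (1 + σ) - 2 / σ ^ 2 := by
  obtain ⟨t, ht, rfl⟩ : ∃ t : ℝ, 0 ≤ t ∧ σ = 1 + t := ⟨σ - 1, by linarith, by ring⟩
  have e : 4 * (1 + t) - 4 / (1 + (1 + t)) - 2 / (1 + t) ^ 2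
      - 1.5 * (2 * ((1 + t) - 1) + 2 * (1 - 1 / (1 + t) ^ 2))
      = (5 * t ^ 2 + 5 * t ^ 3 + t ^ 4) / ((1 + (1 + t)) * (1 + t) ^ 2) := by
    field_simp; ring
  have h2 : 0 ≤ (5 * t ^ 2 + 5 * t ^ 3 + t ^ 4) / ((1 + (1 + t)) * (1 + t) ^ 2) := by (clear * - ht; positivity)
  linarith

theorem sb {σ : ℝ} (h : 1 ≤ σ) :
    1.05 + 8 / 7 * σ ≤ (4 * σ - 4 / (1 + σ) - 2 / σ ^ 2) + 4 / σ ^ 2 - 1.8 := by
  obtain ⟨t, ht, rfl⟩ : ∃ t : ℝ, 0 ≤ t ∧ σ = 1 + t := ⟨σ - 1, by linarith, by ring⟩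
  have e : (4 * (1 + t) - 4 / (1 + (1 + t)) - 2 / (1 + t) ^ 2) + 4 / (1 + t) ^ 2 - 1.8
      - (1.05 + 8 / 7 * (1 + t))
      = (1 / 70 - 1 / 4 * t + 361 / 35 * t ^ 2 + 1601 / 140 * t ^ 3 + 20 / 7 * t ^ 4)
        / ((1 + (1 + t)) * (1 + t) ^ 2) := by
    field_simp; ring
  have h1 : 0 ≤ 1 / 70 - 1 / 4 * t + 361 / 35 * t ^ 2 + 1601 / 140 * t ^ 3 + 20 / 7 * t ^ 4 := by
    have : 0 ≤ t ^ 3 := by positivity
    have : 0 ≤ t ^ 4 := by positivity
    (clear h e; nlinarith [sq_nonneg (t - 0.0125)])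
  have h2 : 0 ≤ (1 / 70 - 1 / 4 * t + 361 / 35 * t ^ 2 + 1601 / 140 * t ^ 3 + 20 / 7 * t ^ 4)
        / ((1 + (1 + t)) * (1 + t) ^ 2) := by (clear * - h1 ht; positivity)
  linarith only [h2, e]

theorem sf {σ : ℝ} (h : 1 ≤ σ) :
    0 ≤ (4 * σ - 4 / (1 + σ) - 2 / σ ^ 2) + 4 / σ ^ 2 - 1.8 - 16 / 7 * σ + 8 / 7 * σ / (2 + σ) := by
  obtain ⟨t, ht, rfl⟩ : ∃ t : ℝ, 0 ≤ t ∧ σ = 1 + t := ⟨σ - 1, by linarith, by ring⟩
  have e : (4 * (1 + t) - 4 / (1 + (1 + t)) - 2 / (1 + t) ^ 2) + 4 / (1 + t) ^ 2 - 1.8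
      - 16 / 7 * (1 + t) + 8 / 7 * (1 + t) / (2 + (1 + t))
      = (62 / 35 - 41 / 35 * t + 699 / 35 * t ^ 2 + 1059 / 35 * t ^ 3 + 457 / 35 * t ^ 4
          + 12 / 7 * t ^ 5) / ((1 + (1 + t)) * (1 + t) ^ 2 * (2 + (1 + t))) := by
    field_simp; ring
  rw [e]
  have h1 : 0 ≤ 62 / 35 - 41 / 35 * t + 699 / 35 * t ^ 2 + 1059 / 35 * t ^ 3 + 457 / 35 * t ^ 4
          + 12 / 7 * t ^ 5 := by
    have : 0 ≤ t ^ 3 := by positivity
    have : 0 ≤ t ^ 4 := by positivity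
    have : 0 ≤ t ^ 5 := by positivity
    (clear h e; nlinarith [sq_nonneg (t - 0.03)])
  positivity

theorem sqb3 {σ : ℝ} (h : 1 ≤ σ) :
    2 * (σ - 1) + 2 * (1 - 1 / σ ^ 2) ≤ 3 * (σ ^ 2 - 1) := by
  obtain ⟨t, ht, rfl⟩ : ∃ t : ℝ, 0 ≤ t ∧ σ = 1 + t := ⟨σ - 1, by linarith, by ring⟩
  have e : 3 * ((1 + t) ^ 2 - 1) - (2 * ((1 + t) - 1) + 2 * (1 - 1 / (1 + t) ^ 2))
      = (9 * t ^ 2 + 10 * t ^ 3 + 3 * t ^ 4) / (1 + t) ^ 2 := by
    field_simp; ring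
  have h2 : 0 ≤ (9 * t ^ 2 + 10 * t ^ 3 + 3 * t ^ 4) / (1 + t) ^ 2 := by (clear * - ht; positivity)
  linarith

theorem sqb {σ y : ℝ} (h : 1 ≤ σ) (hy : σ ^ 2 = 1 + y) :
    2 * (σ - 1) + 2 * (1 - 1 / σ ^ 2) ≤ y + 2 * y / (1 + y) := by
  have h1 : 1 - 1 / σ ^ 2 = y / (1 + y) := by
    rw [hy]; have : (1 + y) ≠ 0 := by rw [← hy]; positivity
    field_simp; ring
  have h2 : 2 * (σ - 1) ≤ y := by linarith only [sq_nonneg (σ - 1), hy]
  have h3 : 2 * (y / (1 + y)) = 2 * y / (1 + y) := by ring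
  rw [h1]; linarith

theorem sco {σ y : ℝ} (h : 1 ≤ σ) (hy : σ ^ 2 = 1 + y) :
    y * σ * (1 - 2 / (σ + 1) ^ 2) ≤ y * (1 + y) / 2 := by
  have hy0 : 0 ≤ y := by nlinarith only [h, hy]
  have e : σ ^ 2 / 2 - σ * (1 - 2 / (σ + 1) ^ 2) = σ * ((σ - 1) ^ 2 * (σ + 2)) / (2 * (σ + 1) ^ 2) := by
    have : (σ + 1) ≠ 0 := by linarith only [h]
    field_simp; ring
  have h2 : 0 ≤ σ * ((σ - 1) ^ 2 * (σ + 2)) / (2 * (σ + 1) ^ 2) := by positivity
  have h3 : σ * (1 - 2 / (σ + 1) ^ 2) ≤ (1 + y) / 2 := by rw [← hy]; linarith only [h2, e]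
  linarith only [mul_nonneg (sub_nonneg.2 h3) (sub_nonneg.2 hy0)]

theorem sco0 {σ y : ℝ} (h : 1 ≤ σ) (hy : σ ^ 2 = 1 + y) :
    0 ≤ y * σ * (1 - 2 / (σ + 1) ^ 2) := by
  have hy0 : 0 ≤ y := by nlinarith
  have : 2 / (σ + 1) ^ 2 ≤ 1 := by
    rw [div_le_one (by positivity)]; linarith
  have : 0 ≤ 1 - 2 / (σ + 1) ^ 2 := by linarith
  positivity

/-- `1/σ^3` bounds -/
theorem s3le {σ y : ℝ} (h : 1 ≤ σ) (hy : σ ^ 2 = 1 + y) : 1 + y ≤ σ ^ 3 := by
  rw [← hy]; linarith only [mul_nonneg (sub_nonneg.2 h) (sq_nonneg σ)]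
theorem s3ge {σ y : ℝ} (h : 1 ≤ σ) (hy : σ ^ 2 = 1 + y) : σ ^ 3 ≤ (1 + y) ^ 2 := by
  rw [← hy]; have : σ ^ 3 ≤ σ ^ 4 := pow_le_pow_right₀ h (by norm_num)
  calc σ ^ 3 ≤ σ ^ 4 := this
    _ = (σ ^ 2) ^ 2 := by ring

theorem sA1 {σ y : ℝ} (h : 1 ≤ σ) (hy : σ ^ 2 = 1 + y) :
    6 * y * (1 + 2 * y) / σ ^ 3 ≤ 6.54 * y := by
  have hy0 : 0 ≤ y := by nlinarith only [h, hy]
  have hσ : 0 < σ := by linarith
  rw [div_le_iff₀ (by positivity)]
  have h1 : (1 + 2 * y) ^ 2 ≤ (1.09 * σ ^ 3) ^ 2 := by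
    have e : (1.09 * σ ^ 3) ^ 2 = 1.1881 * (1 + y) ^ 3 := by rw [← hy]; ring
    rw [e]
    nlinarith only [hy0, sq_nonneg (y - 0.5)]
  have h2 : 1 + 2 * y ≤ 1.09 * σ ^ 3 := by
    exact (pow_le_pow_iff_left₀ (by positivity) (by positivity) two_ne_zero).1 h1
  nlinarith only [h2, hy0]

theorem sA1w {σ y u : ℝ} (h : 1 ≤ σ) (hy : σ ^ 2 = 1 + y) (hu : 0 ≤ u) (hu1 : u ≤ σ) :
    6 * y * (1 + 2 * y) / σ ^ 3 * (u / (1 + u)) ≤ 3.74 * y := by
  have hy0 : 0 ≤ y := by nlinarith only [h, hy]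
  have hσ : 0 < σ := by linarith
  have h1 : u / (1 + u) ≤ σ / (1 + σ) := by
    rw [div_le_div_iff₀ (by linarith) (by linarith only [h])]; linarith
  have h2 : 6 * (1 + 2 * y) / σ ^ 3 * (σ / (1 + σ)) ≤ 3.74 := by
    have e : 6 * (1 + 2 * y) / σ ^ 3 * (σ / (1 + σ)) = 6 * (1 + 2 * y) / (σ ^ 2 * (1 + σ)) := by
      (clear * - h hy0; field_simp)
    rw [e, div_le_iff₀ (by positivity)]
    have hy' : y = σ ^ 2 - 1 := by linarith only [hy]
    rw [hy']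
    nlinarith only [hσ, sq_nonneg (σ - 1.4724)]
  have h3 : 0 ≤ 6 * y * (1 + 2 * y) / σ ^ 3 := by (clear * - hy0 h; positivity)
  calc 6 * y * (1 + 2 * y) / σ ^ 3 * (u / (1 + u)) ≤ 6 * y * (1 + 2 * y) / σ ^ 3 * (σ / (1 + σ)) :=
        mul_le_mul_of_nonneg_left h1 h3
    _ = y * (6 * (1 + 2 * y) / σ ^ 3 * (σ / (1 + σ))) := by ring
    _ ≤ y * 3.74 := mul_le_mul_of_nonneg_left h2 hy0
    _ = 3.74 * y := by ring

theorem k2a {y : ℝ} (hy : 0 ≤ y) : (1 + y) ^ 2 / 2 + 3 * y ^ 2 * (7 - 12 * y) ≤ 1.47 * (1 + y) := by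
  nlinarith [mul_nonneg hy (sq_nonneg (y - 0.39)), sq_nonneg (y-0.39)]

theorem k2b {y : ℝ} (hy : 1 ≤ y) : (1 + y) ^ 3 ≤ 6 * y ^ 2 * (12 * y - 7) := by
  linarith only [mul_nonneg (sub_nonneg.2 hy) (sub_nonneg.2 hy), mul_nonneg (sq_nonneg (y : ℝ)) (sub_nonneg.2 hy), hy]

theorem ca_big {y : ℝ} (hy : 7/12 ≤ y) :
    36 * y * (1 + 2 * y) ^ 2 ≤ 4.2 * (18 * (1 + y) ^ 2 - (1 + y) ^ 4 / 2 + 3 * y ^ 2 * (12 * y - 7) * (1 + y)) := by
  nlinarith only [mul_nonneg (sub_nonneg.2 hy) (sq_nonneg (y-0.85))]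

/-- `k2 ≤ 1.47 y` and `≤ 0` for `y ≥ 1`; here `cc` stands for the corr coefficient -/
theorem sA2 {σ y cc : ℝ} (h : 1 ≤ σ) (hy : σ ^ 2 = 1 + y) (hc : cc ≤ y * (1 + y) / 2) :
    cc + 3 * (y / σ) ^ 3 * (7 - 12 * y) ≤ 1.47 * y := by
  have hy0 : 0 ≤ y := by nlinarith only [h, hy]
  have hσ : 0 < σ := by linarith only [h]
  have e : (y / σ) ^ 3 = y ^ 3 / σ ^ 3 := by rw [div_pow]
  rw [e]
  have h3 := s3le h hy
  rcases le_total (12 * y) 7 with h7 | h7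
  · have h4 : y ^ 3 / σ ^ 3 ≤ y ^ 3 / (1 + y) := by gcongr
    have h5 : cc + 3 * (y ^ 3 / σ ^ 3) * (7 - 12 * y) ≤ y * (1 + y) / 2 + 3 * (y ^ 3 / (1 + y)) * (7 - 12 * y) := by
      have := mul_le_mul_of_nonneg_right h4 (by linarith only [h7] : 0 ≤ 7 - 12 * y)
      linarith only [this, hc]
    have h6 : y * (1 + y) / 2 + 3 * (y ^ 3 / (1 + y)) * (7 - 12 * y)
       = y * (((1 + y) ^ 2 / 2 + 3 * y ^ 2 * (7 - 12 * y)) / (1 + y)) := by field_simp
    have h8 : ((1 + y) ^ 2 / 2 + 3 * y ^ 2 * (7 - 12 * y)) / (1 + y) ≤ 1.47 := by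
      rw [div_le_iff₀ (by linarith only [hy0])]; exact k2a hy0
    have := mul_le_mul_of_nonneg_left h8 hy0
    linarith only [this, h6, h5]
  · rcases le_total y 1 with h8 | h8
    · have : 3 * (y ^ 3 / σ ^ 3) * (7 - 12 * y) ≤ 0 :=
        mul_nonpos_of_nonneg_of_nonpos (by (clear * - hy0 h; positivity)) (by linarith only [h7])
      nlinarith only [hc, h7, this, h8]
    · have h4 : y ^ 3 / (1 + y) ^ 2 ≤ y ^ 3 / σ ^ 3 := by
        apply div_le_div_of_nonneg_left (by (clear * - h8; positivity)) (by positivity) (s3ge h hy)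
      have h5 := mul_le_mul_of_nonneg_right h4 (by linarith only [h8] : 0 ≤ 12 * y - 7)
      have h6 : y * (1 + y) / 2 ≤ 3 * (y ^ 3 / (1 + y) ^ 2) * (12 * y - 7) := by
        have : 3 * (y ^ 3 / (1 + y) ^ 2) * (12 * y - 7) = y * (3 * y ^ 2 * (12 * y - 7) / (1 + y) ^ 2) := by
          (clear * - h8; field_simp)
        rw [this]
        have : (1 + y) / 2 ≤ 3 * y ^ 2 * (12 * y - 7) / (1 + y) ^ 2 := by
          rw [le_div_iff₀ (by positivity)]; nlinarith only [h8]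
        linarith only [mul_nonneg (sub_nonneg.2 this) (sub_nonneg.2 hy0)]
      linarith

theorem sA2' {σ y cc : ℝ} (h : 1 ≤ σ) (hy : σ ^ 2 = 1 + y) (hc : cc ≤ y * (1 + y) / 2) (h8 : 1 ≤ y) :
    cc + 3 * (y / σ) ^ 3 * (7 - 12 * y) ≤ 0 := by
  have hy0 : 0 ≤ y := by linarith only [h8]
  have hσ : 0 < σ := by linarith only [h]
  have e : (y / σ) ^ 3 = y ^ 3 / σ ^ 3 := by rw [div_pow]
  rw [e]
  have h4 : y ^ 3 / (1 + y) ^ 2 ≤ y ^ 3 / σ ^ 3 := by
    apply div_le_div_of_nonneg_left (by positivity) (by positivity) (s3ge h hy)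
  have h5 := mul_le_mul_of_nonneg_right h4 (by linarith only [h8] : 0 ≤ 12 * y - 7)
  have h6 : y * (1 + y) / 2 ≤ 3 * (y ^ 3 / (1 + y) ^ 2) * (12 * y - 7) := by
    have : 3 * (y ^ 3 / (1 + y) ^ 2) * (12 * y - 7) = y * (3 * y ^ 2 * (12 * y - 7) / (1 + y) ^ 2) := by
      (clear * - h8; field_simp)
    rw [this]
    have : (1 + y) / 2 ≤ 3 * y ^ 2 * (12 * y - 7) / (1 + y) ^ 2 := by
      rw [le_div_iff₀ (by positivity)]; nlinarith only [h8]
    linarith only [mul_nonneg (sub_nonneg.2 this) (sub_nonneg.2 hy0)]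
  linarith

theorem sca {σ y cc : ℝ} (h : 1 ≤ σ) (hy : σ ^ 2 = 1 + y) (hc : cc ≤ y * (1 + y) / 2) :
    (6 * y * (1 + 2 * y) / σ ^ 3) ^ 2 ≤ 4.2 * (18 * (y / σ ^ 2) - cc + 3 * (y / σ) ^ 3 * (12 * y - 7)) := by
  have hy0 : 0 ≤ y := by nlinarith only [h, hy]
  have hσ : 0 < σ := by linarith only [h]
  have e : (y / σ) ^ 3 = y ^ 3 / σ ^ 3 := by rw [div_pow]
  have h3 := s3le h hy
  have e2 : (6 * y * (1 + 2 * y) / σ ^ 3) ^ 2 = 36 * y ^ 2 * (1 + 2 * y) ^ 2 / (1 + y) ^ 3 := by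
    rw [div_pow, ← hy]; ring
  rw [e, e2, hy]
  have hy1 : 0 < 1 + y := by linarith only [hy0]
  rcases le_total (12 * y) 7 with h7 | h7
  · have h4 : y ^ 3 / σ ^ 3 ≤ y ^ 3 / (1 + y) := by gcongr
    have h5 := mul_le_mul_of_nonneg_right h4 (by linarith only [h7] : 0 ≤ 7 - 12 * y)
    have h6 : 36 * y ^ 2 * (1 + 2 * y) ^ 2 / (1 + y) ^ 3 ≤ 4.2 * (18 * (y / (1 + y)) - y * (1 + y) / 2 + 3 * (y ^ 3 / (1 + y)) * (12 * y - 7)) := by
      have e3 : 4.2 * (18 * (y / (1 + y)) - y * (1 + y) / 2 + 3 * (y ^ 3 / (1 + y)) * (12 * y - 7))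
         = (4.2 * y * (18 * (1 + y) ^ 2 - (1 + y) ^ 4 / 2 + 3 * y ^ 2 * (12 * y - 7) * (1 + y) ^ 2)) / (1 + y) ^ 3 := by
        (clear * - hy0; field_simp)
      rw [e3]
      apply div_le_div_of_nonneg_right _ (by positivity)
      have : 36 * y * (1 + 2 * y) ^ 2 ≤ 4.2 * (18 * (1 + y) ^ 2 - (1 + y) ^ 4 / 2 + 3 * y ^ 2 * (12 * y - 7) * (1 + y) ^ 2) := by
        have hy7 : 0 ≤ 7 - 12 * y := by linarith only [h7]
        have := pow_nonneg hy0 3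
        have := pow_nonneg hy0 4
        (clear cc hc hσ e h3 e2 hy1 h4 h5 e3; nlinarith [mul_nonneg hy0 hy7, mul_nonneg (mul_nonneg hy0 hy0) hy7, mul_nonneg (mul_nonneg (mul_nonneg hy0 hy0) hy0) hy7, mul_nonneg (mul_nonneg (mul_nonneg (mul_nonneg hy0 hy0) hy0) hy0) hy7])
      linarith only [mul_nonneg (sub_nonneg.2 this) (sub_nonneg.2 hy0)]
    linarith only [h6, h5, hc]
  · have h4 : y ^ 3 / (1 + y) ^ 2 ≤ y ^ 3 / σ ^ 3 := by
      apply div_le_div_of_nonneg_left (by (clear * - hy0; positivity)) (by positivity) (s3ge h hy)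
    have h5 := mul_le_mul_of_nonneg_right h4 (by linarith only [h7] : 0 ≤ 12 * y - 7)
    have h6 : 36 * y ^ 2 * (1 + 2 * y) ^ 2 / (1 + y) ^ 3 ≤ 4.2 * (18 * (y / (1 + y)) - y * (1 + y) / 2 + 3 * (y ^ 3 / (1 + y) ^ 2) * (12 * y - 7)) := by
      have e3 : 4.2 * (18 * (y / (1 + y)) - y * (1 + y) / 2 + 3 * (y ^ 3 / (1 + y) ^ 2) * (12 * y - 7))
         = (4.2 * y * (18 * (1 + y) ^ 2 - (1 + y) ^ 4 / 2 + 3 * y ^ 2 * (12 * y - 7) * (1 + y))) / (1 + y) ^ 3 := by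
        (clear * - hy0; field_simp)
      rw [e3]
      apply div_le_div_of_nonneg_right _ (by positivity)
      nlinarith only [mul_le_mul_of_nonneg_left (ca_big (by linarith only [h7] : 7 / 12 ≤ y)) hy0]
    linarith

/-- the final logic -/
theorem jcore {ρ A T e : ℝ} (hT0 : 0 ≤ T) (he : 0 ≤ e) (hρ : 0 < ρ)
    (hA1 : -A ≤ 0.8 * ρ) (hA2 : A < 0 → A ^ 2 + e ≤ 0.2 * ρ * T)
    (hB1 : -(T - A) ≤ 0.8 * ρ) (hB2 : T - A < 0 → (T - A) ^ 2 + e ≤ 0.2 * ρ * T)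
    (he2 : e ≤ ρ * T) :
    A ^ 2 + e ≤ T * (ρ + A) := by
  rcases lt_or_ge A 0 with h | h
  · have h2 := hA2 h
    linarith only [mul_nonneg (sub_nonneg.2 hA1) (sub_nonneg.2 hT0), mul_nonneg (mul_self_nonneg (1 : ℝ)) (sub_nonneg.2 h2)]
  · rcases lt_or_ge (T - A) 0 with h' | h'
    · have h2 := hB2 h'
      nlinarith only [h2, hB1, hT0]
    · nlinarith only [he2, h, h']

/-- Cauchy-Schwarz -/
theorem cs2 {w a α β p q : ℝ} (hp : 0 < p) (hq : 0 < q) :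
    (w * α + a * β) ^ 2 ≤ (α ^ 2 / p + β ^ 2 / q) * (p * w ^ 2 + q * a ^ 2) := by
  have h : (α ^ 2 / p + β ^ 2 / q) * (p * w ^ 2 + q * a ^ 2) - (w * α + a * β) ^ 2
      = (α * q * a - β * p * w) ^ 2 / (p * q) := by
    field_simp; ring
  have h2 : 0 ≤ (α * q * a - β * p * w) ^ 2 / (p * q) := by (clear * - hp hq; positivity)
  linarith

theorem wbound {u Y : ℝ} (hu : 0 ≤ u) (hY : u ^ 2 ≤ 0.16 * Y) : u / (1 + u) ≤ 0.322 + 0.031 * Y := by
  rw [div_le_iff₀ (by linarith only [hu])]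
  nlinarith only [hY, hu, sq_nonneg (u - 0.8)]

theorem p1poly {η : ℝ} (hη : 0 ≤ η) : 0 ≤ 0.159 - 0.2164 * η + 8.766 * η ^ 2 - 54.81 * η ^ 3 + 93.96 * η ^ 4 := by
  nlinarith [sq_nonneg (η * (η - 0.2917)), sq_nonneg (η - 0.14), sq_nonneg (η^2 - 0.2917*η)]


theorem hW1 {u : ℝ} (hu : -1 < u) : u ^ 2 / (1 + u) = (u / (1 + u)) ^ 2 * (1 + u) := by
  have : (1 + u) ≠ 0 := by linarith
  (clear * - this; field_simp)

theorem hW2 {u : ℝ} (hu : -1 < u) : u = u / (1 + u) + u ^ 2 / (1 + u) := by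
  have : (1 + u) ≠ 0 := by linarith only [hu]
  field_simp

/-- W-part, `u ≥ 0` -/
theorem wpart {σ u : ℝ} (h : 1 ≤ σ) (hu : 0 ≤ u) (hu1 : u ≤ σ) :
    1.05 * (u / (1 + u)) ^ 2 ≤
      ((4 * σ - 4 / (1 + σ) - 2 / σ ^ 2) + 4 / σ ^ 2 - 1.8) * (u ^ 2 / (1 + u))
        - 16 / 7 * σ * (u ^ 2 / (2 + u)) := by
  have hσ : 0 < σ := by linarith only [h]
  set c4 := (4 * σ - 4 / (1 + σ) - 2 / σ ^ 2) + 4 / σ ^ 2 - 1.8 with hc4
  have h1 := sb h
  have h2 := sf h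
  rw [← hc4] at h1 h2
  have e : c4 * (u ^ 2 / (1 + u)) - 16 / 7 * σ * (u ^ 2 / (2 + u)) - 1.05 * (u / (1 + u)) ^ 2
     = (u / (1 + u)) ^ 2 * ((c4 - 8 / 7 * σ - 1.05) + u * (c4 - 16 / 7 * σ + 8 / 7 * σ / (2 + u))) := by
    have : (1 + u) ≠ 0 := by linarith only [hu]
    have : (2 + u) ≠ 0 := by linarith only [hu]
    field_simp; ring
  have h3 : 8 / 7 * σ / (2 + σ) ≤ 8 / 7 * σ / (2 + u) := by
    apply div_le_div_of_nonneg_left (by positivity) (by linarith only [hu]) (by linarith only [hu1])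
  have h4 : 0 ≤ (u / (1 + u)) ^ 2 * ((c4 - 8 / 7 * σ - 1.05) + u * (c4 - 16 / 7 * σ + 8 / 7 * σ / (2 + u))) := by
    apply mul_nonneg (sq_nonneg _)
    have : 0 ≤ c4 - 16 / 7 * σ + 8 / 7 * σ / (2 + u) := by linarith only [h2, h3]
    have := mul_nonneg hu this
    linarith only [h1, this]
  linarith only [e, h4]

theorem Tlow_pos {m σ y a u E φ κ Cr cc N : ℝ} (hm : 15 ≤ m) (h : 1 ≤ σ) (hy : σ ^ 2 = 1 + y)
    (ha : 0 ≤ a) (hu : 0 ≤ u) (hu1 : u ≤ σ)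
    (hE : 1 + 2 * a + 2 * a ^ 2 + 4 / 3 * a ^ 3 + 2 / 3 * a ^ 4 ≤ E)
    (hφ : φ ≤ u ^ 2 / (2 + u)) (hκ : 0 ≤ κ) (hκ2 : κ ≤ 16 / 7)
    (hc : cc ≤ y * (1 + y) / 2) (hCr : -(cc * a ^ 2) ≤ Cr) (hN : -φ ≤ N) :
    1.8 * (u ^ 2 / (1 + u)) + (m + 3) * (y / σ ^ 2) * (a ^ 2 * (1 + 2 / 3 * a + 1 / 3 * a ^ 2)) ≤
    (m + 3) * (y / σ ^ 2) * (E - 1 - 2 * a)
      + (4 * σ - 4 / (1 + σ) - 2 / σ ^ 2 + 4 * E / σ ^ 2 + 6 * y * σ * a) * (u ^ 2 / (1 + u))
      - 6 * y * (1 + 2 * y) / σ ^ 3 * a * u + 3 * (y / σ) ^ 3 * ((m - 3) * y - 7) * a ^ 2 + Cr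
      + κ * σ * N := by
  have hσ : 0 < σ := by linarith only [h]
  have hy0 : 0 ≤ y := by nlinarith only [h, hy]
  have hzp : 0 ≤ y / σ ^ 2 := by (clear * - hy0 h; positivity)
  have h1 : (m + 3) * (y / σ ^ 2) * (2 * (a ^ 2 * (1 + 2 / 3 * a + 1 / 3 * a ^ 2)))
      ≤ (m + 3) * (y / σ ^ 2) * (E - 1 - 2 * a) := by
    apply mul_le_mul_of_nonneg_left _ (by positivity)
    linarith only [hE]
  have h2 : 18 * (y / σ ^ 2) * a ^ 2 ≤ (m + 3) * (y / σ ^ 2) * (a ^ 2 * (1 + 2 / 3 * a + 1 / 3 * a ^ 2)) := by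
    have g1 : a ^ 2 ≤ a ^ 2 * (1 + 2 / 3 * a + 1 / 3 * a ^ 2) := by
      have : 0 ≤ a ^ 2 * (2 / 3 * a + 1 / 3 * a ^ 2) := by (clear * - ha; positivity)
      linarith only [this]
    have g2 : 18 * (y / σ ^ 2) ≤ (m + 3) * (y / σ ^ 2) := mul_le_mul_of_nonneg_right (by linarith only [hm]) hzp
    exact mul_le_mul g2 g1 (by (clear * -; positivity)) (by (clear * - hm hy0 h; positivity))
  have h3 := wpart h hu hu1
  have hWp : 0 ≤ u ^ 2 / (1 + u) := by (clear * - hu; positivity)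
  have h4 : -(16 / 7 * σ * (u ^ 2 / (2 + u))) ≤ κ * σ * N := by
    have g0 : 0 ≤ u ^ 2 / (2 + u) := by positivity
    have g1 : -(κ * σ * (u ^ 2 / (2 + u))) ≤ κ * σ * N := by
      have := mul_le_mul_of_nonneg_left (le_trans (neg_le_neg hφ) hN) (by positivity : 0 ≤ κ * σ)
      linarith only [this]
    have g2 : κ * σ * (u ^ 2 / (2 + u)) ≤ 16 / 7 * σ * (u ^ 2 / (2 + u)) := by
      apply mul_le_mul_of_nonneg_right _ g0
      exact mul_le_mul_of_nonneg_right hκ2 hσ.le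
    linarith only [g1, g2]
  have h5 : 4 / σ ^ 2 * (u ^ 2 / (1 + u)) ≤ 4 * E / σ ^ 2 * (u ^ 2 / (1 + u)) := by
    apply mul_le_mul_of_nonneg_right _ hWp
    apply div_le_div_of_nonneg_right _ (by positivity)
    have : 0 ≤ 2 * a + 2 * a ^ 2 + 4 / 3 * a ^ 3 + 2 / 3 * a ^ 4 := by (clear * - ha; positivity)
    linarith only [hE, this]
  -- cross term
  have h6 : -(6 * y * (1 + 2 * y) / σ ^ 3 * a * (u / (1 + u)))
      ≤ 6 * y * σ * a * (u ^ 2 / (1 + u)) - 6 * y * (1 + 2 * y) / σ ^ 3 * a * u := by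
    have e : 6 * y * σ * a * (u ^ 2 / (1 + u)) - 6 * y * (1 + 2 * y) / σ ^ 3 * a * u
       = -(6 * y * (1 + 2 * y) / σ ^ 3 * a * (u / (1 + u))) + 6 * (y / σ) ^ 3 * a * (u ^ 2 / (1 + u)) := by
      have e1 : 6 * y * σ - 6 * y * (1 + 2 * y) / σ ^ 3 = 6 * (y / σ) ^ 3 := by
        have : y = σ ^ 2 - 1 := by linarith only [hy]
        rw [this]; field_simp; ring
      have e2 : 6 * y * (1 + 2 * y) / σ ^ 3 * a * u = 6 * y * (1 + 2 * y) / σ ^ 3 * a * (u / (1 + u) + u ^ 2 / (1 + u)) := by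
        rw [← hW2 (by linarith only [hu] : -1 < u)]
      rw [e2]
      linear_combination a * (u ^ 2 / (1 + u)) * e1
    rw [e]
    have : 0 ≤ 6 * (y / σ) ^ 3 * a * (u ^ 2 / (1 + u)) := by (clear * - hy0 h ha hu; positivity)
    linarith only [this]
  have h7 : 3 * (y / σ) ^ 3 * (12 * y - 7) * a ^ 2 ≤ 3 * (y / σ) ^ 3 * ((m - 3) * y - 7) * a ^ 2 := by
    apply mul_le_mul_of_nonneg_right _ (sq_nonneg _)
    apply mul_le_mul_of_nonneg_left _ (by (clear * - hy0 h; positivity))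
    nlinarith only [hm, hy0]
  -- quadratic form
  have h8 := sca h hy hc
  have h9 : 0 ≤ 1.05 * (u / (1 + u)) ^ 2 - 6 * y * (1 + 2 * y) / σ ^ 3 * a * (u / (1 + u))
      + (18 * (y / σ ^ 2) - cc + 3 * (y / σ) ^ 3 * (12 * y - 7)) * a ^ 2 := by
    have := mul_le_mul_of_nonneg_right h8 (sq_nonneg a)
    linarith only [sq_nonneg (2.1 * (u / (1 + u)) - 6 * y * (1 + 2 * y) / σ ^ 3 * a), this]
  have e5 : (4 * σ - 4 / (1 + σ) - 2 / σ ^ 2 + 4 * E / σ ^ 2 + 6 * y * σ * a) * (u ^ 2 / (1 + u))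
      = (4 * σ - 4 / (1 + σ) - 2 / σ ^ 2) * (u ^ 2 / (1 + u)) + 4 * E / σ ^ 2 * (u ^ 2 / (1 + u))
        + 6 * y * σ * a * (u ^ 2 / (1 + u)) := by ring
  rw [e5]
  have e6 : ((4 * σ - 4 / (1 + σ) - 2 / σ ^ 2) + 4 / σ ^ 2 - 1.8) * (u ^ 2 / (1 + u))
      = (4 * σ - 4 / (1 + σ) - 2 / σ ^ 2) * (u ^ 2 / (1 + u)) + 4 / σ ^ 2 * (u ^ 2 / (1 + u))
        - 1.8 * (u ^ 2 / (1 + u)) := by ring
  rw [e6] at h3
  have e9 : (18 * (y / σ ^ 2) - cc + 3 * (y / σ) ^ 3 * (12 * y - 7)) * a ^ 2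
      = 18 * (y / σ ^ 2) * a ^ 2 - cc * a ^ 2 + 3 * (y / σ) ^ 3 * (12 * y - 7) * a ^ 2 := by ring
  rw [e9] at h9
  have e1 : (m + 3) * (y / σ ^ 2) * (2 * (a ^ 2 * (1 + 2 / 3 * a + 1 / 3 * a ^ 2)))
     = 2 * ((m + 3) * (y / σ ^ 2) * (a ^ 2 * (1 + 2 / 3 * a + 1 / 3 * a ^ 2))) := by ring
  rw [e1] at h1
  linarith only [hCr, h1, h2, h3, h4, h5, h6, h7, h9]

theorem Tlow_neg {m σ y a u E φ κ Cr cc N : ℝ} (hm : 15 ≤ m) (h : 1 ≤ σ) (hy : σ ^ 2 = 1 + y)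
    (ha : 0 ≤ a) (hu : u ≤ 0) (hu1 : -1 < u)
    (hE : 1 + 2 * a + 2 * a ^ 2 + 4 / 3 * a ^ 3 + 2 / 3 * a ^ 4 ≤ E)
    (hφ : φ ≤ u ^ 2 / (1 + u) / 2) (hκ : 0 ≤ κ) (hκ2 : κ ≤ 16 / 7)
    (hc : cc ≤ y * (1 + y) / 2) (hCr : -(cc * a ^ 2) ≤ Cr) (hN : -φ ≤ N) :
    1.8 * (u ^ 2 / (1 + u)) + (m + 3) * (y / σ ^ 2) * (a ^ 2 * (1 + 2 / 3 * a + 1 / 3 * a ^ 2)) ≤
    (m + 3) * (y / σ ^ 2) * (E - 1 - 2 * a)
      + (4 * σ - 4 / (1 + σ) - 2 / σ ^ 2 + 4 * E / σ ^ 2 + 6 * y * σ * a) * (u ^ 2 / (1 + u))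
      - 6 * y * (1 + 2 * y) / σ ^ 3 * a * u + 3 * (y / σ) ^ 3 * ((m - 3) * y - 7) * a ^ 2 + Cr
      + κ * σ * N := by
  have hσ : 0 < σ := by (clear * - h; linarith)
  have hy0 : 0 ≤ y := by nlinarith only [h, hy]
  have hU : 0 < 1 + u := by linarith only [hu1]
  have hzp : 0 ≤ y / σ ^ 2 := by (clear * - hy0 h; positivity)
  have h1 : (m + 3) * (y / σ ^ 2) * (2 * (a ^ 2 * (1 + 2 / 3 * a + 1 / 3 * a ^ 2)))
      ≤ (m + 3) * (y / σ ^ 2) * (E - 1 - 2 * a) := by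
    apply mul_le_mul_of_nonneg_left _ (by positivity)
    nlinarith only [hE]
  have h2 : 18 * (y / σ ^ 2) * a ^ 2 ≤ (m + 3) * (y / σ ^ 2) * (a ^ 2 * (1 + 2 / 3 * a + 1 / 3 * a ^ 2)) := by
    have g1 : a ^ 2 ≤ a ^ 2 * (1 + 2 / 3 * a + 1 / 3 * a ^ 2) := by
      have : 0 ≤ a ^ 2 * (2 / 3 * a + 1 / 3 * a ^ 2) := by (clear * - ha; positivity)
      linarith only [this]
    have g2 : 18 * (y / σ ^ 2) ≤ (m + 3) * (y / σ ^ 2) := mul_le_mul_of_nonneg_right (by linarith only [hm]) hzp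
    exact mul_le_mul g2 g1 (by (clear * -; positivity)) (by positivity)
  have hWp : 0 ≤ u ^ 2 / (1 + u) := by (clear * - hU; positivity)
  have h4 : -(8 / 7 * σ * (u ^ 2 / (1 + u))) ≤ κ * σ * N := by
    have g1 : -(κ * σ * (u ^ 2 / (1 + u) / 2)) ≤ κ * σ * N := by
      have := mul_le_mul_of_nonneg_left (le_trans (neg_le_neg hφ) hN) (by (clear * - hκ h; positivity) : 0 ≤ κ * σ)
      linarith only [this]
    have g2 : κ * σ * (u ^ 2 / (1 + u) / 2) ≤ 16 / 7 * σ * (u ^ 2 / (1 + u) / 2) := by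
      apply mul_le_mul_of_nonneg_right _ (by (clear * - hU; positivity))
      exact mul_le_mul_of_nonneg_right hκ2 hσ.le
    linarith only [g1, g2]
  have h3 := mul_le_mul_of_nonneg_right (sb h) hWp
  have h5 : 4 / σ ^ 2 * (u ^ 2 / (1 + u)) ≤ 4 * E / σ ^ 2 * (u ^ 2 / (1 + u)) := by
    apply mul_le_mul_of_nonneg_right _ hWp
    apply div_le_div_of_nonneg_right _ (by positivity)
    have : 0 ≤ 2 * a + 2 * a ^ 2 + 4 / 3 * a ^ 3 + 2 / 3 * a ^ 4 := by (clear * - ha; positivity)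
    linarith only [hE, this]
  have h6 : 0 ≤ -(6 * y * (1 + 2 * y) / σ ^ 3 * a * u) := by
    have : 0 ≤ 6 * y * (1 + 2 * y) / σ ^ 3 * a := by (clear * - hy0 h ha; positivity)
    nlinarith only [hu, this]
  have h6' : 0 ≤ 6 * y * σ * a * (u ^ 2 / (1 + u)) := by (clear * - hy0 h ha hU; positivity)
  have h7 : 3 * (y / σ) ^ 3 * (12 * y - 7) * a ^ 2 ≤ 3 * (y / σ) ^ 3 * ((m - 3) * y - 7) * a ^ 2 := by
    apply mul_le_mul_of_nonneg_right _ (sq_nonneg _)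
    apply mul_le_mul_of_nonneg_left _ (by (clear * - hy0 h; positivity))
    nlinarith only [hm, hy0]
  have h8 := sca h hy hc
  have h9 : 0 ≤ (18 * (y / σ ^ 2) - cc + 3 * (y / σ) ^ 3 * (12 * y - 7)) * a ^ 2 := by
    have := mul_le_mul_of_nonneg_right h8 (sq_nonneg a)
    linarith only [mul_nonneg (sq_nonneg (1 * (6 * y * (1 + 2 * y) / σ ^ 3) : ℝ)) (sq_nonneg (1 * a : ℝ)), this]
  have e5 : (4 * σ - 4 / (1 + σ) - 2 / σ ^ 2 + 4 * E / σ ^ 2 + 6 * y * σ * a) * (u ^ 2 / (1 + u))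
      = (4 * σ - 4 / (1 + σ) - 2 / σ ^ 2) * (u ^ 2 / (1 + u)) + 4 * E / σ ^ 2 * (u ^ 2 / (1 + u))
        + 6 * y * σ * a * (u ^ 2 / (1 + u)) := by ring
  rw [e5]
  have e6 : ((4 * σ - 4 / (1 + σ) - 2 / σ ^ 2) + 4 / σ ^ 2 - 1.8) * (u ^ 2 / (1 + u))
      = (4 * σ - 4 / (1 + σ) - 2 / σ ^ 2) * (u ^ 2 / (1 + u)) + 4 / σ ^ 2 * (u ^ 2 / (1 + u))
        - 1.8 * (u ^ 2 / (1 + u)) := by ring
  rw [e6] at h3
  have e7 : (1.05 + 8 / 7 * σ) * (u ^ 2 / (1 + u)) = 1.05 * (u ^ 2 / (1 + u)) + 8 / 7 * σ * (u ^ 2 / (1 + u)) := by ring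
  rw [e7] at h3
  have e9 : (18 * (y / σ ^ 2) - cc + 3 * (y / σ) ^ 3 * (12 * y - 7)) * a ^ 2
      = 18 * (y / σ ^ 2) * a ^ 2 - cc * a ^ 2 + 3 * (y / σ) ^ 3 * (12 * y - 7) * a ^ 2 := by ring
  rw [e9] at h9
  have e1 : (m + 3) * (y / σ ^ 2) * (2 * (a ^ 2 * (1 + 2 / 3 * a + 1 / 3 * a ^ 2)))
     = 2 * ((m + 3) * (y / σ ^ 2) * (a ^ 2 * (1 + 2 / 3 * a + 1 / 3 * a ^ 2))) := by ring
  rw [e1] at h1
  linarith only [hCr, h1, h2, hWp, h4, h3, h5, h6, h6', h7, h9]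

theorem two_log_le {x : ℝ} (hx : 1 ≤ x) : 2 * Real.log x ≤ x - 1 / x := by
  have h : MonotoneOn (fun x : ℝ => x - 1 / x - 2 * Real.log x) (Set.Ici 1) := by
    apply monotoneOn_of_deriv_nonneg (convex_Ici 1)
    · apply ContinuousOn.sub
      · apply ContinuousOn.sub continuousOn_id
        apply ContinuousOn.div continuousOn_const continuousOn_id
        intro y hy; have : (1:ℝ) ≤ y := hy; simp only [id]; linarith only [this]
      · apply ContinuousOn.mul continuousOn_const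
        apply Real.continuousOn_log.mono
        intro y hy; have : (1:ℝ) ≤ y := hy; simp only [Set.mem_compl_iff, Set.mem_singleton_iff]; linarith
    · intro y hy
      rw [interior_Ici] at hy
      have hy' : (1:ℝ) < y := hy
      have h0 : y ≠ 0 := by linarith
      apply DifferentiableAt.differentiableWithinAt
      apply DifferentiableAt.sub
      · apply DifferentiableAt.sub differentiableAt_id
        exact (differentiableAt_const _).div differentiableAt_id h0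
      · exact (Real.differentiableAt_log h0).const_mul 2
    · intro y hy
      rw [interior_Ici] at hy
      have hy' : (1:ℝ) < y := hy
      have h0 : y ≠ 0 := by linarith
      have hd : HasDerivAt (fun x : ℝ => x - 1 / x - 2 * Real.log x) (1 - (-(1 / y ^ 2)) - 2 * (1 / y)) y := by
        have h1 : HasDerivAt (fun x : ℝ => x) 1 y := hasDerivAt_id y
        have h2 : HasDerivAt (fun x : ℝ => 1 / x) (-(1 / y ^ 2)) y := by
          have := (hasDerivAt_inv h0)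
          simp only [one_div]
          exact this
        have h3 : HasDerivAt (fun x : ℝ => 2 * Real.log x) (2 * (1 / y)) y := by
          have := (Real.hasDerivAt_log h0).const_mul 2
          simpa [one_div] using this
        exact (h1.sub h2).sub h3
      rw [hd.deriv]
      have : 1 - (-(1 / y ^ 2)) - 2 * (1 / y) = (1 - 1 / y) ^ 2 := by ring
      rw [this]; (clear * -; positivity)
  have := h (Set.mem_Ici.2 le_rfl) (Set.mem_Ici.2 hx) hx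
  simp only [ne_eq, one_ne_zero, not_false_eq_true, div_self, sub_self, Real.log_one, mul_zero, one_div, sub_nonneg] at this
  have e : 1 / x = x⁻¹ := one_div x
  rw [e]; linarith only [this]

/-- for `-1 < u ≤ 0`, with `s = √(1+u)`: `u - log (1+u) ≤ (1-s)^2 (1+s)/s` -/
theorem phi_neg0 {u : ℝ} (hu : -1 < u) (hu0 : u ≤ 0) :
    u - Real.log (1 + u) ≤ (1 - √(1 + u)) ^ 2 * (1 + √(1 + u)) / √(1 + u) := by
  have hU : 0 < 1 + u := by linarith
  set s := √(1 + u) with hs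
  have hsp : 0 < s := Real.sqrt_pos.2 hU
  have hs2 : s ^ 2 = 1 + u := Real.sq_sqrt hU.le
  have hs1 : s ≤ 1 := by
    by_contra h
    push Not at h
    nlinarith only [hu0, hs2, h]
  have h1 : 2 * Real.log (1 / s) ≤ 1 / s - 1 / (1 / s) := two_log_le (by rw [le_div_iff₀ hsp]; linarith)
  have h2 : Real.log (1 + u) = 2 * Real.log s := by
    rw [← hs2, Real.log_pow]; norm_num
  have h3 : Real.log (1 / s) = - Real.log s := by rw [one_div, Real.log_inv]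
  rw [h3] at h1
  rw [h2]
  have e : (1 - s) ^ 2 * (1 + s) / s = (s ^ 2 - 1) + (1 / s - s) := by
    field_simp; ring
  rw [e, hs2]
  have : 1 / (1 / s) = s := by rw [one_div_one_div]
  rw [this] at h1
  linarith only [h1]

theorem phi_nonneg {u : ℝ} (hu : -1 < u) : 0 ≤ u - Real.log (1 + u) := by
  have := Real.log_le_sub_one_of_pos (by linarith : 0 < 1 + u)
  linarith

theorem phi_neg1 {u : ℝ} (hu : -1 < u) (hu0 : u ≤ 0) :
    u - Real.log (1 + u) ≤ u ^ 2 / (1 + u) / 2 := by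
  refine (phi_neg0 hu hu0).trans ?_
  have hU : 0 < 1 + u := by linarith
  set s := √(1 + u) with hs
  have hsp : 0 < s := Real.sqrt_pos.2 hU
  have hs2 : s ^ 2 = 1 + u := Real.sq_sqrt hU.le
  have hs1 : s ≤ 1 := by
    by_contra h
    push Not at h
    nlinarith only [hu0, hs2, h]
  have hu' : u = s ^ 2 - 1 := by linarith only [hs2]
  rw [← hs2, hu', div_div, div_le_div_iff₀ hsp (by positivity)]
  have : (s ^ 2 - 1) ^ 2 = (1 - s) ^ 2 * (1 + s) * (1 + s) := by ring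
  rw [this]
  have h4 : 0 ≤ (1 - s) ^ 2 * (1 + s) * s := by (clear * - hU; positivity)
  linarith only [mul_nonneg (sub_nonneg.2 h4) (sub_nonneg.2 hs1)]

/-- `φ² ≤ W u²` -/
theorem phi_neg2 {u : ℝ} (hu : -1 < u) (hu0 : u ≤ 0) :
    (u - Real.log (1 + u)) ^ 2 ≤ u ^ 2 / (1 + u) * u ^ 2 := by
  have h0 := phi_neg0 hu hu0
  have h1 := phi_nonneg hu
  have hU : 0 < 1 + u := by linarith only [hu]
  set s := √(1 + u) with hs
  have hsp : 0 < s := Real.sqrt_pos.2 hU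
  have hs2 : s ^ 2 = 1 + u := Real.sq_sqrt hU.le
  have h2 : (u - Real.log (1 + u)) ^ 2 ≤ ((1 - s) ^ 2 * (1 + s) / s) ^ 2 :=
    pow_le_pow_left₀ h1 h0 2
  refine h2.trans ?_
  have hu' : u = s ^ 2 - 1 := by linarith only [hs2]
  rw [← hs2, hu', div_pow, div_mul_eq_mul_div]
  apply div_le_div_of_nonneg_right _ (by (clear * - hU; positivity))
  have : (s ^ 2 - 1) ^ 2 * (s ^ 2 - 1) ^ 2 = ((1 - s) ^ 2 * (1 + s)) ^ 2 * (1 + s) ^ 2 := by ring
  rw [this]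
  have : 1 ≤ (1 + s) ^ 2 := by nlinarith only [hsp]
  nlinarith only [this]

theorem phi_pos {u : ℝ} (hu : 0 ≤ u) : u - Real.log (1 + u) ≤ u ^ 2 / (2 + u) := by
  have h : MonotoneOn (fun x : ℝ => Real.log (1 + x) - 2 * x / (2 + x)) (Set.Ici 0) := by
    have hd : ∀ y : ℝ, 0 ≤ y → HasDerivAt (fun x : ℝ => Real.log (1 + x) - 2 * x / (2 + x))
        (1 / (1 + y) - (2 * (2 + y) - 2 * y * 1) / (2 + y) ^ 2) y := by
      intro y hy
      have h1 : HasDerivAt (fun x : ℝ => 1 + x) 1 y := by simpa using (hasDerivAt_id y).const_add 1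
      have h2 : HasDerivAt (fun x : ℝ => 2 + x) 1 y := by simpa using (hasDerivAt_id y).const_add 2
      have h3 : HasDerivAt (fun x : ℝ => 2 * x) 2 y := by simpa using (hasDerivAt_id y).const_mul 2
      exact (h1.log (by linarith)).sub (h3.div h2 (by linarith only [hy]))
    apply monotoneOn_of_deriv_nonneg (convex_Ici 0)
    · intro y hy; exact (hd y hy).continuousAt.continuousWithinAt
    · intro y hy
      rw [interior_Ici] at hy
      exact (hd y (le_of_lt hy)).differentiableAt.differentiableWithinAt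
    · intro y hy
      rw [interior_Ici] at hy
      have hy' : 0 < y := hy
      rw [(hd y hy'.le).deriv]
      have e : 1 / (1 + y) - (2 * (2 + y) - 2 * y * 1) / (2 + y) ^ 2 = y ^ 2 / ((1 + y) * (2 + y) ^ 2) := by
        field_simp; ring
      rw [e]; positivity
  have := h (Set.mem_Ici.2 le_rfl) (Set.mem_Ici.2 hu) hu
  simp only [add_zero, Real.log_one, mul_zero, zero_div, sub_self, sub_nonneg] at this
  have e : u ^ 2 / (2 + u) = u - 2 * u / (2 + u) := by field_simp; ring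
  rw [e]; linarith only [this]
end FNeg
end Vale.Agent.P237.AllN
end

section

/-!
# P237, block D, `l > 0`, `1 ≤ m z ≤ 9`, `u ≥ 0`: reduction of the pointwise test

`w = m z`.  Lower bound `T ≥ λ₁ l² + λ₂ u²` from a 2x2 form, `e₁ - T ≤ B l + A u`, Cauchy.
-/

namespace Vale.Agent.P237.AllN

/-- `(1+u)(1-z)²` times the `l²`-coefficient minus `λ₁` -/
noncomputable def fpuNA (e C F lam z w u : ℝ) : ℝ :=
  ((e * (w + 3 * z) - lam) * (1 - z) ^ 2 - z * F -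
    3 / 25 * (w + 3 * z) * (3 * (1 - z) ^ 2 - w * (1 - z))) * (1 + u) +
  (1 - z) ^ 3 * (4 * e + 9 / 2 * C * z) * u ^ 2

/-- `(1+u)(2+31u/25)(1-z)(w-z)` times the `u²`-coefficient minus `λ₂` -/
noncomputable def fpuNG (lam z w u : ℝ) : ℝ :=
  (1 - z) ^ 2 * (4 + 9 / 2 * z) * (2 + 31 / 25 * u) * (w - z) -
  (2 - z - z ^ 2 / 4) * (w + z) * (1 + u) -
  lam * (1 + u) * (2 + 31 / 25 * u) * (1 - z) * (w - z)

/-- `(1+u)` times half of the mixed coefficient -/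
noncomputable def fpuNB (z w u : ℝ) : ℝ :=
  3 / 25 * (w + 3 * z) * (1 + u) + (4 + 9 * z) * (1 - z) * u

/-- `A w (1-z) / z` -/
noncomputable def fpuA (z w u : ℝ) : ℝ :=
  (3 - 9 / 4 * z) * w + 517 / 100 * (1 - z / 2) * (877 / 10000 + 2283 / 10000 * u)

/-- `w (1-z) B` without the `l²`-part -/
noncomputable def fpuBb (z w u : ℝ) : ℝ := 2 * z ^ 2 + 6 / 25 * (w + 3 * z) * w * (1 - z) * u

/-- `(1-z)²` times the `l²`-coefficient of `e₁ - T` -/
noncomputable def fpuP (F z w : ℝ) : ℝ :=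
  z * F + 3 / 25 * (w + 3 * z) * (3 * (1 - z) ^ 2 - w * (1 - z))

/-- `w (1-z)² B` -/
noncomputable def fpuBa (L F z w u : ℝ) : ℝ := w * (L * fpuP F z w) + fpuBb z w u * (1 - z)

/-- `(1-z)² ρ` -/
noncomputable def fpuRh (z w : ℝ) : ℝ :=
  1 / 5 * (1 - z) ^ 2 + 1 / 2 * w * (1 - z) + 1 / 10 * (w ^ 2 - 2 * w * z)

/-- `w (1-z)² (ρ - L B - A u)`, first case -/
noncomputable def fpuRa (L F z w u : ℝ) : ℝ :=
  w * fpuRh z w - L * fpuBa L F z w u - z * fpuA z w u * u * (1 - z)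

/-- `w (1-z)² (ρ - L B - A u)`, second case -/
noncomputable def fpuRb (L z w u : ℝ) : ℝ :=
  w * fpuRh z w - L * fpuBb z w u * (1 - z) - z * fpuA z w u * u * (1 - z)

theorem fpu_quad {A B C x y : ℝ} (hA : 0 ≤ A) (hC : 0 ≤ C) (h : B ^ 2 ≤ A * C) :
    0 ≤ A * x ^ 2 - 2 * B * x * y + C * y ^ 2 := by
  rcases hA.eq_or_lt with h0 | h0
  · rw [← h0, zero_mul] at h
    have hB : B = 0 := by
      have := sq_nonneg B
      exact pow_eq_zero_iff (two_ne_zero) |>.1 (le_antisymm h this)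
    rw [← h0, hB]
    have := mul_nonneg hC (sq_nonneg y)
    linarith only [this]
  · have h1 : A * (A * x ^ 2 - 2 * B * x * y + C * y ^ 2) =
        (A * x - B * y) ^ 2 + (A * C - B ^ 2) * y ^ 2 := by ring
    have h2 : 0 ≤ A * (A * x ^ 2 - 2 * B * x * y + C * y ^ 2) := by
      rw [h1]
      have := mul_nonneg (sub_nonneg.2 h) (sq_nonneg y)
      (clear * - h; positivity)
    exact nonneg_of_mul_nonneg_right h2 h0

theorem fpu_s_le {z s : ℝ} (hs : s ^ 2 = 1 - z) (hz0 : 0 ≤ z) (hz : z ≤ 1 / 3) :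
    s ≤ 1 - z / 2 - z ^ 2 / 8 := by
  have hz2 : z ^ 2 ≤ 1 / 9 := by nlinarith only [hz, hz0]
  have h0 : 0 ≤ 1 - z / 2 - z ^ 2 / 8 := by linarith
  apply le_of_pow_le_pow_left₀ (n := 2) (by norm_num) h0
  rw [hs]
  have : 0 ≤ z ^ 3 / 8 + z ^ 4 / 64 := by (clear * - hz0; positivity)
  nlinarith only [this]

theorem fpu_kappa {m z s w : ℝ} (hm : 27 ≤ m) (hz0 : 0 < z) (hs0 : 0 < s) (hs : s ^ 2 = 1 - z)
    (hz : z ≤ 1 / 3) (hw : w = m * z) :
    2 * (m + 1) / ((m - 1) * s) ≤ (2 - z - z ^ 2 / 4) * (w + z) / ((1 - z) * (w - z)) := by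
  have h1 := fpu_s_le hs hz0.le hz
  have hm1 : 0 < m - 1 := by linarith only [hm]
  have hz1 : 0 < 1 - z := by linarith only [hz]
  have hwz : w - z = (m - 1) * z := by rw [hw]; ring
  have hwz' : w + z = (m + 1) * z := by rw [hw]; ring
  have e1 : 2 * (m + 1) / ((m - 1) * s) = 2 * s * (w + z) / ((1 - z) * (w - z)) := by
    rw [hwz, hwz', ← hs]
    field_simp
  rw [e1]
  apply div_le_div_of_nonneg_right _ (by rw [hwz]; (clear * - hz1 hm1 hz0; positivity))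
  apply mul_le_mul_of_nonneg_right _ (by rw [hwz']; positivity)
  linarith only [h1]

/-- lower bound of `T` -/
theorem fpu_T {m z s l u G N e C g q lam1 lam2 w : ℝ} (hm : 27 ≤ m) (hz0 : 0 < z) (hs0 : 0 < s)
    (hs : s ^ 2 = 1 - z) (hz : z ≤ 1 / 3) (hw : w = m * z) (hu : 0 ≤ u)
    (hE : 1 - 2 * l + e * l ^ 2 ≤ Real.exp (-(2 * l)))
    (hK : -(z * g / (1 - z) ^ 2 * l ^ 2) +
      9 / 2 * z * (1 - z) * (1 - 4 * l + C * l ^ 2) * (u ^ 2 / (1 + u)) ≤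
      (3 * (m - 3) * (z ^ 2 / s ^ 5) - 9 * (z / s ^ 3)) * l ^ 2 +
      (4 / s - 4 * s / (1 + s) - 2 * s ^ 2 - 6 * (z / s ^ 3) * l) * (u ^ 2 / (1 + u)) +
      dpS m z s l (u ^ 2 / (1 + u)))
    (hG : -(z * q / (1 - z) ^ 2 * l ^ 2) ≤ G)
    (hN : -(u ^ 2 / (2 + 31 / 25 * u)) ≤ N)
    (h1 : 0 ≤ fpuNA e C (g + q) lam1 z w u) (h2 : 0 ≤ fpuNG lam2 z w u)
    (h3 : fpuNB z w u ^ 2 * ((2 + 31 / 25 * u) * (1 - z) ^ 3 * (w - z)) ≤
      fpuNA e C (g + q) lam1 z w u * fpuNG lam2 z w u) :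
    lam1 * l ^ 2 + lam2 * u ^ 2 ≤ dpT m z s l u G N := by
  have hm1 : 0 < m - 1 := by linarith only [hm]
  have hz1 : 0 < 1 - z := by linarith only [hz]
  have hwz : 0 < w - z := by
    have : w - z = (m - 1) * z := by rw [hw]; ring
    rw [this]; (clear * - hm1 hz0; positivity)
  have hu1 : 0 < 1 + u := by linarith only [hu]
  have hk : 0 < 2 + 31 / 25 * u := by linarith only [hu]
  have hW : 0 ≤ u ^ 2 / (1 + u) := by (clear * - hu; positivity)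
  have hQ : (m + 3) * z = w + 3 * z := by rw [hw]; ring
  have hQ0 : 0 ≤ w + 3 * z := by rw [← hQ]; positivity
  have hy : m * (z / s ^ 2) = w / (1 - z) := by rw [hs, hw]; ring
  have a1 : (w + 3 * z) * (e * l ^ 2) ≤ (w + 3 * z) * (Real.exp (-(2 * l)) - 1 + 2 * l) :=
    mul_le_mul_of_nonneg_left (by linarith only [hE]) hQ0
  have a2 : 4 * (1 - z) * (1 - 2 * l + e * l ^ 2) * (u ^ 2 / (1 + u)) ≤
      4 * s ^ 2 * Real.exp (-(2 * l)) * (u ^ 2 / (1 + u)) := by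
    rw [hs]
    apply mul_le_mul_of_nonneg_right _ hW
    apply mul_le_mul_of_nonneg_left hE (by linarith only [hz])
  have a3 : -((2 - z - z ^ 2 / 4) * (w + z) / ((1 - z) * (w - z)) *
      (u ^ 2 / (2 + 31 / 25 * u))) ≤ 2 * (m + 1) / ((m - 1) * s) * N := by
    have h5 : 0 ≤ 2 * (m + 1) / ((m - 1) * s) := by (clear * - hm hm1 hs0; positivity)
    have h6 := mul_le_mul_of_nonneg_left hN h5
    have h7 := mul_le_mul_of_nonneg_right (fpu_kappa hm hz0 hs0 hs hz hw)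
      (by (clear * - hu; positivity) : 0 ≤ u ^ 2 / (2 + 31 / 25 * u))
    linarith only [h6, h7]
  have key : 0 ≤ fpuNA e C (g + q) lam1 z w u / ((1 + u) * (1 - z) ^ 2) * l ^ 2 -
      2 * (fpuNB z w u / (1 + u)) * l * u +
      fpuNG lam2 z w u / ((1 + u) * (2 + 31 / 25 * u) * (1 - z) * (w - z)) * u ^ 2 := by
    apply fpu_quad
    · (clear * - h1 hu hz1; positivity)
    · (clear * - h2 hu hz1 hwz; positivity)
    · have e1 : fpuNA e C (g + q) lam1 z w u / ((1 + u) * (1 - z) ^ 2) *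
          (fpuNG lam2 z w u / ((1 + u) * (2 + 31 / 25 * u) * (1 - z) * (w - z))) =
          fpuNA e C (g + q) lam1 z w u * fpuNG lam2 z w u /
            ((1 + u) ^ 2 * ((2 + 31 / 25 * u) * (1 - z) ^ 3 * (w - z))) := by
        (clear * - hwz hu hz1; field_simp)
      have e2 : (fpuNB z w u / (1 + u)) ^ 2 =
          fpuNB z w u ^ 2 * ((2 + 31 / 25 * u) * (1 - z) ^ 3 * (w - z)) /
            ((1 + u) ^ 2 * ((2 + 31 / 25 * u) * (1 - z) ^ 3 * (w - z))) := by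
        (clear * - hu hz1 hwz; field_simp)
      rw [e1, e2]
      exact div_le_div_of_nonneg_right h3 (by (clear * - hu hz1 hwz; positivity))
  have ident : fpuNA e C (g + q) lam1 z w u / ((1 + u) * (1 - z) ^ 2) * l ^ 2 -
      2 * (fpuNB z w u / (1 + u)) * l * u +
      fpuNG lam2 z w u / ((1 + u) * (2 + 31 / 25 * u) * (1 - z) * (w - z)) * u ^ 2 =
      (w + 3 * z) * (e * l ^ 2) - z * g / (1 - z) ^ 2 * l ^ 2 +
      9 / 2 * z * (1 - z) * (1 - 4 * l + C * l ^ 2) * (u ^ 2 / (1 + u)) +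
      4 * (1 - z) * (1 - 2 * l + e * l ^ 2) * (u ^ 2 / (1 + u)) - z * q / (1 - z) ^ 2 * l ^ 2 -
      (2 - z - z ^ 2 / 4) * (w + z) / ((1 - z) * (w - z)) * (u ^ 2 / (2 + 31 / 25 * u)) +
      3 / 25 * (w + 3 * z) * ((w / (1 - z) - 3) * l ^ 2 - 2 * u * l) -
      (lam1 * l ^ 2 + lam2 * u ^ 2) := by
    unfold fpuNA fpuNB fpuNG
    field_simp
    ring
  have hT : dpT m z s l u G N = (w + 3 * z) * (Real.exp (-(2 * l)) - 1 + 2 * l) +
      4 * s ^ 2 * Real.exp (-(2 * l)) * (u ^ 2 / (1 + u)) +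
      ((3 * (m - 3) * (z ^ 2 / s ^ 5) - 9 * (z / s ^ 3)) * l ^ 2 +
      (4 / s - 4 * s / (1 + s) - 2 * s ^ 2 - 6 * (z / s ^ 3) * l) * (u ^ 2 / (1 + u)) +
      dpS m z s l (u ^ 2 / (1 + u))) + G + 2 * (m + 1) / ((m - 1) * s) * N +
      3 / 25 * (w + 3 * z) * ((w / (1 - z) - 3) * l ^ 2 - 2 * u * l) := by
    rw [← hQ, ← hy]
    unfold dpT
    ring
  rw [hT]
  linarith only [hK, hG, a1, a2, a3, key, ident]

end Vale.Agent.P237.AllN
end

section

/-!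
# P237, block D, `l > 0`, `1 ≤ m z ≤ 9`, `u ≥ 0`: coefficient bounds
-/

namespace Vale.Agent.P237.AllN

/-- coefficients of `u` and `l` in `e₁` -/
theorem fpu_q {z s c : ℝ} (hz0 : 0 < z) (hs0 : 0 < s) (hs : s ^ 2 = 1 - z) (hz : z ≤ 1 / 3)
    (hc : c ≤ 1) : 2 * c / s - 2 * s ^ 2 + 2 * (1 - c) ≤ z * (3 - 9 / 4 * z) / (1 - z) := by
  have hz1 : 0 < 1 - z := by linarith only [hz]
  have h1 := fpu_s_le hs hz0.le hz
  have hs1 : s ≤ 1 := by nlinarith only [hz0, h1]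
  have h2 : 1 / s = s / (1 - z) := by rw [← hs]; field_simp
  have h3 : 1 ≤ 1 / s := by rw [le_div_iff₀ hs0]; linarith only [hs1]
  have h4 : 2 * c / s - 2 * s ^ 2 + 2 * (1 - c) = 2 * (c * (1 / s - 1)) + 2 * z := by
    rw [hs]; ring
  have h5 : c * (1 / s - 1) ≤ 1 * (1 / s - 1) := mul_le_mul_of_nonneg_right hc (by linarith only [h3])
  have h6 : s / (1 - z) ≤ (1 - z / 2 - z ^ 2 / 8) / (1 - z) := div_le_div_of_nonneg_right h1 hz1.le
  have h7 : z * (3 - 9 / 4 * z) / (1 - z) = 2 * ((1 - z / 2 - z ^ 2 / 8) / (1 - z) - 1) + 2 * z := by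
    field_simp
    ring
  rw [h4, h7]
  have h8 : 1 / s - 1 ≤ (1 - z / 2 - z ^ 2 / 8) / (1 - z) - 1 := by
    rw [h2]
    linarith only [h6]
  linarith only [h2, h5, h6]

theorem fpu_kd {m z s c w : ℝ} (hm : 27 ≤ m) (hz0 : 0 < z) (hs0 : 0 < s) (hs : s ^ 2 = 1 - z)
    (hz : z ≤ 1 / 3) (hw : w = m * z) (hc0 : 1 - 1 / (2 * m) ≤ c) :
    2 * (m + 1) / ((m - 1) * s) - 2 * c / s ≤ 517 / 100 * z * (1 - z / 2) / (w * (1 - z)) := by
  have hz1 : 0 < 1 - z := by linarith only [hz]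
  have hm1 : 0 < m - 1 := by linarith only [hm]
  have hm0 : 0 < m := by linarith only [hm]
  have h1 := fpu_s_le hs hz0.le hz
  have h2 : (m + 1) / (m - 1) - c ≤ 517 / 200 / m := by
    have h3 : (m + 1) / (m - 1) - (1 - 1 / (2 * m)) ≤ 517 / 200 / m := by
      rw [sub_le_iff_le_add, div_le_iff₀ hm1]
      have : (517 / 200 / m + (1 - 1 / (2 * m))) * (m - 1) =
          m - 1 + 417 / 200 - 417 / 200 / m := by
        field_simp
        ring
      rw [this]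
      have h4 : 417 / 200 / m ≤ 417 / 200 / 27 := by
        apply div_le_div_of_nonneg_left <;> linarith only [hm]
      linarith only [h4]
    linarith only [hc0, h3]
  have h5 : 2 * (m + 1) / ((m - 1) * s) - 2 * c / s = 2 / s * ((m + 1) / (m - 1) - c) := by
    (clear * - hm1 hs0; field_simp)
  have h6 : 2 / s = 2 * s / (1 - z) := by rw [← hs]; field_simp
  have h7 : 2 * s / (1 - z) ≤ 2 * (1 - z / 2) / (1 - z) := by
    apply div_le_div_of_nonneg_right _ hz1.le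
    nlinarith only [h1]
  have h8 : 517 / 100 * z * (1 - z / 2) / (w * (1 - z)) =
      2 * (1 - z / 2) / (1 - z) * (517 / 200 / m) := by
    rw [hw]
    field_simp
    ring
  rw [h5, h6, h8]
  have h9 : 0 ≤ 2 * s / (1 - z) := by (clear * - hs0 hz1; positivity)
  calc _ ≤ 2 * s / (1 - z) * (517 / 200 / m) := mul_le_mul_of_nonneg_left h2 h9
    _ ≤ _ := mul_le_mul_of_nonneg_right h7 (by positivity)

theorem fpu_r_le {m z s c w : ℝ} (hm : 27 ≤ m) (hz0 : 0 < z) (hs0 : 0 < s) (hs : s ^ 2 = 1 - z)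
    (hz : z ≤ 1 / 3) (hw : w = m * z) (hc : c ≤ 1)
    (hc2 : c ^ 2 ≤ (m + 1) / (m + 2)) :
    2 * c / s - 2 + 2 * (1 - c) * (1 - m * (z / s ^ 2)) ≤ 2 * z ^ 2 / (w * (1 - z)) := by
  have hz1 : 0 < 1 - z := by linarith only [hz]
  have hm0 : 0 < m := by linarith only [hm]
  have hs1 : s ≤ 1 := by nlinarith only [hs, hz0]
  have h3 : 1 ≤ 1 / s := by rw [le_div_iff₀ hs0]; linarith only [hs1]
  have e : 2 * c / s - 2 + 2 * (1 - c) * (1 - m * (z / s ^ 2)) =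
      2 * (c * (1 / s - 1)) - 2 * (1 - c) * m * (z / s ^ 2) := by ring
  rw [e]
  have hy0 : 0 ≤ z / s ^ 2 := by positivity
  have h5 : c * (1 / s - 1) ≤ 1 * (1 / s - 1) := mul_le_mul_of_nonneg_right hc (by linarith only [h3])
  have h6 : 2 * (1 / s - 1) ≤ z / s ^ 2 := by
    have : z = (1 - s) * (1 + s) := by nlinarith only [hs]
    rw [this, ← sub_nonneg]
    have e2 : (1 - s) * (1 + s) / s ^ 2 - 2 * (1 / s - 1) = (1 - s) ^ 2 / s ^ 2 := by
      field_simp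
      ring
    rw [e2]
    (clear * - hs0; positivity)
  have h7 : 1 / (m + 2) ≤ 2 * (1 - c) := by
    have h8 : 1 - c ^ 2 ≤ 2 * (1 - c) := by linarith only [sq_nonneg (1 - c)]
    have h9 : (m + 1) / (m + 2) = 1 - 1 / (m + 2) := by field_simp; ring
    linarith only [hc2, h8, h9]
  have h8 : 1 - 2 / m ≤ 2 * (1 - c) * m := by
    have h9 : 1 / (m + 2) * m ≤ 2 * (1 - c) * m := mul_le_mul_of_nonneg_right h7 hm0.le
    have h10 : 1 - 2 / m ≤ 1 / (m + 2) * m := by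
      rw [← sub_nonneg]
      have : 1 / (m + 2) * m - (1 - 2 / m) = 4 / (m * (m + 2)) := by
        field_simp
        ring
      rw [this]
      positivity
    linarith only [h9, h10]
  have h9 := mul_le_mul_of_nonneg_right h8 hy0
  have h10 : 2 * z ^ 2 / (w * (1 - z)) = 2 / m * (z / s ^ 2) := by
    rw [hw, ← hs]
    field_simp
  rw [h10]
  linarith only [h5, h6, h9]

theorem fpu_r_ge {m z s c : ℝ} (hm : 27 ≤ m) (hz0 : 0 < z) (hs0 : 0 < s) (hs : s ^ 2 = 1 - z)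
    (hz : z ≤ 1 / 3) (hc0 : 1 - 1 / (2 * m) ≤ c) :
    -(1 / 8 * (z / (1 - z))) ≤ 2 * c / s - 2 + 2 * (1 - c) * (1 - m * (z / s ^ 2)) := by
  have hz1 : 0 < 1 - z := by linarith
  have hm0 : 0 < m := by linarith only [hm]
  have hs1 : s ≤ 1 := by nlinarith only [hs, hz0]
  have hs2 : 4083 / 5000 / 1.0002 ≤ s := by
    apply le_of_pow_le_pow_left₀ (n := 2) (by norm_num) hs0.le
    rw [hs]
    norm_num
    linarith only [hz]
  have h3 : 1 ≤ 1 / s := by rw [le_div_iff₀ hs0]; linarith only [hs1]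
  have hmi : 1 / (2 * m) ≤ 1 / 54 := by
    apply one_div_le_one_div_of_le <;> linarith only [hm]
  have e : 2 * c / s - 2 + 2 * (1 - c) * (1 - m * (z / s ^ 2)) =
      2 * (c * (1 / s - 1)) - 2 * (1 - c) * m * (z / s ^ 2) := by ring
  rw [e]
  have hy0 : 0 ≤ z / s ^ 2 := by positivity
  have h6 : 2 * (1 - c) * m ≤ 1 := by
    have : (1 - c) * m ≤ 1 / (2 * m) * m := mul_le_mul_of_nonneg_right (by linarith only [hc0]) hm0.le
    have e2 : 1 / (2 * m) * m = 1 / 2 := by field_simp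
    linarith only [this, e2]
  have h7 := mul_le_mul_of_nonneg_right h6 hy0
  have h8 : 53 / 54 * (1 / s - 1) ≤ c * (1 / s - 1) :=
    mul_le_mul_of_nonneg_right (by linarith only [hc0, hmi]) (by linarith only [h3])
  have h9 : 7 / 8 * (z / s ^ 2) ≤ 2 * (53 / 54 * (1 / s - 1)) := by
    have : z = (1 - s) * (1 + s) := by nlinarith only [hs]
    rw [this, ← sub_nonneg]
    have e2 : 2 * (53 / 54 * (1 / s - 1)) - 7 / 8 * ((1 - s) * (1 + s) / s ^ 2) =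
        (1 - s) * (235 / 216 * s - 7 / 8) / s ^ 2 := by
      field_simp
      ring
    rw [e2]
    apply div_nonneg _ (by positivity)
    apply mul_nonneg (by linarith only [hs1])
    norm_num at hs2
    linarith only [hs2]
  rw [← hs]
  linarith only [h7, h8, h9]

end Vale.Agent.P237.AllN
end

theorem P237.eqforce_dpE : True := by first | exact (fun _ => trivial) @Vale.Agent.P237.AllN.dpE.eq_1 | exact (fun _ => trivial) @Vale.Agent.P237.AllN.dpE.eq_1.{0}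

theorem P237.eqforce_dpR : True := by first | exact (fun _ => trivial) @Vale.Agent.P237.AllN.dpR.eq_1 | exact (fun _ => trivial) @Vale.Agent.P237.AllN.dpR.eq_1.{0}
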