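import Vale.Agent.P237.Bd3.B4
import Vale.Agent.P237.Bd3.B1
import Vale.Agent.P237.Bd3.B3

set_option linter.all false

section

/-!
# P237, plain certificate (m ≥ 5): the inputs of the pointwise inequality
-/

open Set

namespace Vale.Agent.P237.AllN

/-- The information on `(x, l, u, λ)` used by the pointwise inequality; `l = log (τ x / x)`,
`u = x τ' x / τ x - 1`, `lam = l(x₀)`, `x₀² = 3/(m+2)`. -/
structure PcIn (m : ℕ) (k lamL x l u lam : ℝ) : Prop where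
  hx : x ∈ Ioo (0 : ℝ) 1
  hu : 0 < 1 + u
  tau1 : x * Real.exp l ≤ 1
  sgn : l ≤ (1 - x ^ 2) * (31 / 50 + 7 / 50 * x ^ 2)
  Es : sq x ^ m ≤ 1 + u
  E4 : m = 5 → x ^ 2 ≤ 14 / 25 → sq x ^ 4 ≤ 1 + u
  uk : u * sq x ≤ k * x
  tail : (1 + (1 + u) * (sq x ^ 2 / (((m : ℝ) + 2) - ((m : ℝ) + 1) * sq x ^ 2))) *
    (x * Real.exp l) ≤ 1
  llo : -(9 / 25) * (m : ℝ) ≤ l
  lamlo : lamL ≤ lam
  lamhi : lam ≤ (1 - 3 / ((m : ℝ) + 2)) * (31 / 50 + 7 / 50 * (3 / ((m : ℝ) + 2)))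

end Vale.Agent.P237.AllN
end

section

/-!
# P237, all dimensions: truncated linear comparison

For an even concave profile `r` and `τ ∈ (0,1)` there is a truncated linear profile
`R = (A - B y) 1_[0,κ]`, `κ ≤ 1`, with the same `∫₀^τ R^(k+1)`, the same total `∫ R^(k+1)` and a
smaller `∫ R^k`.
-/

open MeasureTheory Metric Set Module Filter Topology

namespace Vale.Agent.P237.AllN

/-- weighted AM-GM -/
theorem tc_amgm (k : ℕ) {a b : ℝ} (ha : 0 ≤ a) (hb : 0 ≤ b) :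
    ((k : ℝ) + 1) * a * b ^ k ≤ a ^ (k + 1) + k * b ^ (k + 1) := by
  induction k with
  | zero => simp
  | succ k ih =>
    have h1 := mul_le_mul_of_nonneg_left ih ha
    have h2 : 0 ≤ b ^ k := pow_nonneg hb k
    have h3 : 0 ≤ ((k : ℝ) + 1) * b ^ k * (a - b) ^ 2 := by (clear * - hb; positivity)
    have e1 : a ^ (k + 1 + 1) = a * a ^ (k + 1) := by ring
    have e2 : b ^ (k + 1 + 1) = b ^ k * b ^ 2 := by ring
    have e3 : b ^ (k + 1) = b ^ k * b := by ring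
    rw [e3] at h1
    rw [e1, e2, e3]
    push_cast
    linarith

theorem tc_point (k : ℕ) {f R ρ : ℝ} (hf : 0 ≤ f) (hR : 0 ≤ R)
    (h : (ρ ≤ f ∧ f ≤ R) ∨ (R ≤ f ∧ f ≤ ρ)) :
    (k : ℝ) * (f ^ (k + 1) - R ^ (k + 1)) ≤ ((k : ℝ) + 1) * ρ * (f ^ k - R ^ k) := by
  have h1 := tc_amgm k hf hR
  have hk : (0 : ℝ) < (k : ℝ) + 1 := by positivity
  have e1 : f ^ (k + 1) = f * f ^ k := by ring
  have h2 : (k : ℝ) * (f ^ (k + 1) - R ^ (k + 1)) ≤ ((k : ℝ) + 1) * f * (f ^ k - R ^ k) := by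
    rw [e1] at h1 ⊢
    linarith
  refine h2.trans ?_
  rcases h with ⟨h3, h4⟩ | ⟨h3, h4⟩
  · have h5 : f ^ k ≤ R ^ k := pow_le_pow_left₀ hf h4 k
    have h6 : 0 ≤ (f - ρ) * (R ^ k - f ^ k) := mul_nonneg (by linarith only [h3]) (by linarith only [h5])
    nlinarith only [h6]
  · have h5 : R ^ k ≤ f ^ k := pow_le_pow_left₀ hR h3 k
    have h6 : 0 ≤ (ρ - f) * (f ^ k - R ^ k) := mul_nonneg (by linarith) (by linarith)
    nlinarith only [h6]

/-- single crossing comparison -/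
theorem tc_cross (k : ℕ) {f R : ℝ → ℝ} {a b ρ : ℝ} (hab : a ≤ b) (hρ : 0 < ρ)
    (hf : ∀ y ∈ Icc a b, 0 ≤ f y) (hR : ∀ y ∈ Icc a b, 0 ≤ R y)
    (h : ∀ y ∈ Icc a b, (ρ ≤ f y ∧ f y ≤ R y) ∨ (R y ≤ f y ∧ f y ≤ ρ))
    (i1 : IntervalIntegrable (fun y => f y ^ (k + 1)) volume a b)
    (i2 : IntervalIntegrable (fun y => R y ^ (k + 1)) volume a b)
    (i3 : IntervalIntegrable (fun y => f y ^ k) volume a b)
    (i4 : IntervalIntegrable (fun y => R y ^ k) volume a b)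
    (hI : ∫ y in a..b, R y ^ (k + 1) ≤ ∫ y in a..b, f y ^ (k + 1)) :
    ∫ y in a..b, R y ^ k ≤ ∫ y in a..b, f y ^ k := by
  have h1 : ∫ y in a..b, (k : ℝ) * (f y ^ (k + 1) - R y ^ (k + 1)) ≤
      ∫ y in a..b, ((k : ℝ) + 1) * ρ * (f y ^ k - R y ^ k) := by
    apply intervalIntegral.integral_mono_on hab ((i1.sub i2).const_mul _) ((i3.sub i4).const_mul _)
    intro y hy
    exact tc_point k (hf y hy) (hR y hy) (h y hy)
  rw [intervalIntegral.integral_const_mul, intervalIntegral.integral_const_mul,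
    intervalIntegral.integral_sub i1 i2, intervalIntegral.integral_sub i3 i4] at h1
  have hk : (0 : ℝ) ≤ (k : ℝ) := by (clear * -; positivity)
  have h2 : 0 ≤ (k : ℝ) * ((∫ y in a..b, f y ^ (k + 1)) - ∫ y in a..b, R y ^ (k + 1)) :=
    mul_nonneg hk (by linarith only [hI])
  have h3 : 0 < ((k : ℝ) + 1) * ρ := by positivity
  have h4 := h2.trans h1
  have h5 := nonneg_of_mul_nonneg_right h4 h3
  linarith only [h5]

/-- three point concavity -/
theorem tc_conc {r : ℝ → ℝ} (hr : IsProf r) {x y z : ℝ} (hx : 0 ≤ x) (hxy : x ≤ y) (hyz : y ≤ z)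
    (hz : z ≤ 1) : (z - y) * r x + (y - x) * r z ≤ (z - x) * r y := by
  rcases eq_or_lt_of_le (hxy.trans hyz) with h | h
  · have e1 : y = x := le_antisymm (hyz.trans h.symm.le) hxy
    rw [e1, ← h]
    simp
  · have h1 : 0 < z - x := by linarith only [h]
    have ha : 0 ≤ (z - y) / (z - x) := div_nonneg (by linarith) h1.le
    have hb : 0 ≤ (y - x) / (z - x) := div_nonneg (by linarith) h1.le
    have hc := hr.conc.2 (show x ∈ Icc (-1 : ℝ) 1 from ⟨by linarith only [hx], by linarith only [hz, h]⟩)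
      (show z ∈ Icc (-1 : ℝ) 1 from ⟨by linarith only [hx, h], by linarith only [hz]⟩) ha hb (by field_simp; ring)
    simp only [smul_eq_mul] at hc
    have e : (z - y) / (z - x) * x + (y - x) / (z - x) * z = y := by
      field_simp
      ring
    rw [e] at hc
    have h2 := mul_le_mul_of_nonneg_left hc h1.le
    have e2 : (z - x) * ((z - y) / (z - x) * r x + (y - x) / (z - x) * r z) =
        (z - y) * r x + (y - x) * r z := by
      (clear * - h; field_simp)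
    rw [e2] at h2
    exact h2

theorem tc_lin_ii (a B τ : ℝ) (k : ℕ) (c d : ℝ) :
    IntervalIntegrable (fun y => (a + B * (τ - y)) ^ k) volume c d :=
  (by fun_prop : Continuous fun y : ℝ => (a + B * (τ - y)) ^ k).intervalIntegrable _ _

/-- the profile is below the comparison line to the right of `τ` -/
theorem tc_right (k : ℕ) {r : ℝ → ℝ} (hr : IsProf r) {τ : ℝ} (hτ : τ ∈ Ioo (0 : ℝ) 1) {B : ℝ}
    (hI : ∫ y in (0 : ℝ)..τ, (r τ + B * (τ - y)) ^ (k + 1) ≤ ∫ y in (0 : ℝ)..τ, r y ^ (k + 1))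
    {y : ℝ} (hy : y ∈ Icc τ 1) : r y ≤ r τ + B * (τ - y) := by
  by_contra hcon
  push Not at hcon
  have hτ1 : τ ∈ Icc (0 : ℝ) 1 := ⟨hτ.1.le, hτ.2.le⟩
  have ha : 0 < r τ := hr.pos τ ⟨by linarith only [hτ.1], hτ.2⟩
  have hlt : τ < y := by
    rcases eq_or_lt_of_le hy.1 with h | h
    · rw [← h] at hcon
      simp at hcon
    · exact h
  have key : ∀ z ∈ Ico (0 : ℝ) τ, r z < r τ + B * (τ - z) := by
    intro z hz
    have h1 := tc_conc hr hz.1 hz.2.le hlt.le hy.2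
    have h2 : 0 < τ - z := by linarith [hz.2]
    have h3 : 0 < y - τ := by linarith
    have h4 := mul_lt_mul_of_pos_left hcon h2
    have h5 : (y - τ) * r z < (y - τ) * (r τ + B * (τ - z)) := by linarith
    exact lt_of_mul_lt_mul_left h5 h3.le
  have h6 : ∫ y in (0 : ℝ)..τ, r y ^ (k + 1) <
      ∫ y in (0 : ℝ)..τ, (r τ + B * (τ - y)) ^ (k + 1) := by
    apply intervalIntegral.integral_lt_integral_of_continuousOn_of_le_of_exists_lt hτ.1
    · apply ContinuousOn.pow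
      apply (Alm.prof_cont hr).mono
      intro z hz
      exact ⟨by linarith only [hz.1], by linarith [hz.2, hτ.2]⟩
    · exact (by fun_prop : Continuous fun y : ℝ => (r τ + B * (τ - y)) ^ (k + 1)).continuousOn
    · intro z hz
      have hz1 : z ∈ Icc (0 : ℝ) 1 := ⟨hz.1.le, hz.2.trans hτ.2.le⟩
      apply pow_le_pow_left₀ (Alm.prof_nn hr hz1)
      rcases eq_or_lt_of_le hz.2 with h | h
      · rw [h]; simp
      · exact (key z ⟨hz.1.le, h⟩).le
    · refine ⟨0, ⟨le_rfl, hτ.1.le⟩, ?_⟩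
      exact pow_lt_pow_left₀ (key 0 ⟨le_rfl, hτ.1⟩)
        (Alm.prof_nn hr ⟨le_rfl, zero_le_one⟩) (by omega)
  linarith

/-- first comparison, on `[0, τ]` -/
theorem tc_first (k : ℕ) {r : ℝ → ℝ} (hr : IsProf r) {τ : ℝ} (hτ : τ ∈ Ioo (0 : ℝ) 1) {B : ℝ}
    (hB : 0 ≤ B)
    (hI : ∫ y in (0 : ℝ)..τ, (r τ + B * (τ - y)) ^ (k + 1) ≤ ∫ y in (0 : ℝ)..τ, r y ^ (k + 1)) :
    ∫ y in (0 : ℝ)..τ, (r τ + B * (τ - y)) ^ k ≤ ∫ y in (0 : ℝ)..τ, r y ^ k := by
  have h01 : (0 : ℝ) ∈ Icc (0 : ℝ) 1 := ⟨le_rfl, zero_le_one⟩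
  have hτ1 : τ ∈ Icc (0 : ℝ) 1 := ⟨hτ.1.le, hτ.2.le⟩
  have hanti := Alm.prof_anti hr
  have ha : 0 < r τ := hr.pos τ ⟨by linarith [hτ.1], hτ.2⟩
  have hmem : ∀ y ∈ Icc (0 : ℝ) τ, y ∈ Icc (0 : ℝ) 1 := fun y hy => ⟨hy.1, hy.2.trans hτ.2.le⟩
  have hRpos : ∀ y ∈ Icc (0 : ℝ) τ, 0 < r τ + B * (τ - y) := fun y hy => by
    have := mul_nonneg hB (show 0 ≤ τ - y by linarith [hy.2])
    linarith
  rcases le_total (r τ + B * τ) (r 0) with hc | hc
  · apply intervalIntegral.integral_mono_on hτ.1.le (tc_lin_ii _ _ _ _ _ _)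
      (Alm.prof_pow_ii hr k h01 hτ1)
    intro y hy
    apply pow_le_pow_left₀ (hRpos y hy).le
    have h1 := tc_conc hr le_rfl hy.1 hy.2 hτ.2.le
    have h2 : 0 ≤ τ - y := by linarith [hy.2]
    have h3 := mul_le_mul_of_nonneg_left hc h2
    have h4 : τ * (r τ + B * (τ - y)) ≤ τ * r y := by linarith
    exact le_of_mul_le_mul_left h4 hτ.1
  · set S : Set ℝ := {y ∈ Icc (0 : ℝ) τ | r τ + B * (τ - y) ≤ r y} with hS
    have hSτ : τ ∈ S := ⟨⟨hτ.1.le, le_rfl⟩, by simp⟩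
    have hSb : BddBelow S := ⟨0, fun y hy => hy.1.1⟩
    set ys := sInf S with hys
    have hys0 : 0 ≤ ys := le_csInf ⟨τ, hSτ⟩ fun y hy => hy.1.1
    have hysτ : ys ≤ τ := csInf_le hSb hSτ
    have hysm : ys ∈ Icc (0 : ℝ) τ := ⟨hys0, hysτ⟩
    have hB1 : 0 < B + 1 := by linarith only [hB]
    -- left of `ys`
    have F1 : ∀ y ∈ Icc (0 : ℝ) τ, y ≤ ys → r τ + B * (τ - ys) ≤ r y := by
      intro y hy hyy
      apply le_of_forall_pos_le_add
      intro ε hε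
      have hε1 : 0 < ε / (B + 1) := div_pos hε hB1
      obtain ⟨z, hz, hzz⟩ := exists_lt_of_csInf_lt ⟨τ, hSτ⟩
        (show sInf S < ys + ε / (B + 1) by rw [← hys]; linarith only [hε1])
      have h1 : ys ≤ z := csInf_le hSb hz
      have h2 : r z ≤ r y := hanti (hmem y hy) (hmem z hz.1) (hyy.trans h1)
      have h3 : ε / (B + 1) * (B + 1) = ε := div_mul_cancel₀ _ hB1.ne'
      have h4 := hz.2
      have h5 : B * (z - ys) ≤ B * (ε / (B + 1)) := mul_le_mul_of_nonneg_left (by linarith only [hzz]) hB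
      linarith only [h5, h4, h3, h2, h1, hzz]
    have F2 : ∀ y ∈ Icc (0 : ℝ) τ, ys ≤ y → r y ≤ r τ + B * (τ - ys) := by
      intro y hy hyy
      apply le_of_forall_pos_le_add
      intro ε hε
      have hε1 : 0 < ε / (B + 1) := div_pos hε hB1
      have h3 : ε / (B + 1) * (B + 1) = ε := div_mul_cancel₀ _ hB1.ne'
      set z := max 0 (ys - ε / (B + 1)) with hz
      have hz0 : 0 ≤ z := le_max_left _ _
      have hz1 : ys - ε / (B + 1) ≤ z := le_max_right _ _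
      have hz2 : z ≤ ys := max_le hys0 (by linarith only [hε1])
      have h4 : r z ≤ r τ + B * (τ - z) := by
        rcases eq_or_lt_of_le hz2 with h | h
        · -- `z = ys`, so `ys = 0`
          have h5 : ys = 0 := by
            rcases le_total 0 (ys - ε / (B + 1)) with h6 | h6
            · rw [hz, max_eq_right h6] at h
              linarith only [hε1, h]
            · rw [hz, max_eq_left h6] at h
              exact h.symm
          rw [h, h5, sub_zero]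
          exact hc
        · by_contra hcon
          push Not at hcon
          have : z ∈ S := ⟨⟨hz0, hz2.trans hysτ⟩, hcon.le⟩
          have := csInf_le hSb this
          linarith only [h, this]
      have h5 : r y ≤ r z := hanti (hmem z ⟨hz0, hz2.trans hysτ⟩) (hmem y hy) (hz2.trans hyy)
      have h6 : B * (ys - z) ≤ B * (ε / (B + 1)) := mul_le_mul_of_nonneg_left (by linarith only [hz1]) hB
      linarith only [h6, h5, h4, h3, hε1]
    have hρ : 0 < r τ + B * (τ - ys) := hRpos ys hysm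
    apply tc_cross k hτ.1.le hρ (fun y hy => Alm.prof_nn hr (hmem y hy))
      (fun y hy => (hRpos y hy).le) _ (Alm.prof_pow_ii hr _ h01 hτ1) (tc_lin_ii _ _ _ _ _ _)
      (Alm.prof_pow_ii hr _ h01 hτ1) (tc_lin_ii _ _ _ _ _ _) hI
    intro y hy
    rcases lt_trichotomy y ys with h | h | h
    · left
      refine ⟨F1 y hy h.le, ?_⟩
      by_contra hcon
      push Not at hcon
      have : y ∈ S := ⟨hy, hcon.le⟩
      have := csInf_le hSb this
      linarith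
    · left
      refine ⟨F1 y hy h.le, ?_⟩
      have h1 := F2 y hy h.symm.le
      rw [h] at h1 ⊢
      exact h1
    · right
      refine ⟨?_, F2 y hy h.le⟩
      obtain ⟨z, hz, hzz⟩ := exists_lt_of_csInf_lt ⟨τ, hSτ⟩ (show sInf S < y from h)
      have h1 := tc_conc hr hz.1.1 hzz.le hy.2 hτ.2.le
      have h2 := hz.2
      have h3 : 0 ≤ τ - y := by linarith only [hy.2]
      have h4 := mul_le_mul_of_nonneg_left h2 h3
      have h5 : 0 < τ - z := by linarith only [hzz, h3]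
      have h6 : (τ - z) * (r τ + B * (τ - y)) ≤ (τ - z) * r y := by linarith
      exact le_of_mul_le_mul_left h6 h5

/-- second comparison, on `[τ, 1]` -/
theorem tc_second (k : ℕ) {f R : ℝ → ℝ} {a κ M : ℝ} (haκ : a ≤ κ) (hκ : κ ≤ 1)
    (hf : ∀ y ∈ Icc a 1, 0 ≤ f y) (hfR : ∀ y ∈ Icc a 1, f y ≤ R y)
    (hanti : AntitoneOn R (Icc a 1)) (hpos : ∀ y ∈ Ico a 1, 0 < R y) (hM : ∀ y ∈ Icc a 1, R y ≤ M)
    (i1 : ∀ j : ℕ, ∀ c ∈ Icc a 1, ∀ d ∈ Icc a 1, IntervalIntegrable (fun y => f y ^ j) volume c d)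
    (i2 : ∀ j : ℕ, ∀ c ∈ Icc a 1, ∀ d ∈ Icc a 1, IntervalIntegrable (fun y => R y ^ j) volume c d)
    (hI : ∫ y in a..κ, R y ^ (k + 1) = ∫ y in a..1, f y ^ (k + 1)) :
    ∫ y in a..κ, R y ^ k ≤ ∫ y in a..1, f y ^ k := by
  have ha1 : a ≤ 1 := haκ.trans hκ
  have hma : a ∈ Icc a 1 := ⟨le_rfl, ha1⟩
  have hmκ : κ ∈ Icc a 1 := ⟨haκ, hκ⟩
  have hm1 : (1 : ℝ) ∈ Icc a 1 := ⟨ha1, le_rfl⟩
  rcases eq_or_lt_of_le hκ with hκ1 | hκ1
  · -- `κ = 1`
    subst hκ1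
    rcases eq_or_lt_of_le ha1 with ha2 | ha2
    · subst ha2; simp
    have hMp : 0 ≤ M := by
      have h1 := hf a hma
      have h2 := hfR a hma
      have h3 := hM a hma
      linarith
    have key : ∀ c ∈ Ico a 1, ∫ y in a..c, R y ^ k ≤ ∫ y in a..c, f y ^ k := by
      intro c hc
      have hmc : c ∈ Icc a 1 := ⟨hc.1, hc.2.le⟩
      have hρ := hpos c hc
      have h1 : ∫ y in a..c, R c * (R y ^ k - f y ^ k) ≤
          ∫ y in a..c, (R y ^ (k + 1) - f y ^ (k + 1)) := by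
        apply intervalIntegral.integral_mono_on hc.1
          (((i2 k a hma c hmc).sub (i1 k a hma c hmc)).const_mul _)
          ((i2 _ a hma c hmc).sub (i1 _ a hma c hmc))
        intro y hy
        have hmy : y ∈ Icc a 1 := ⟨hy.1, hy.2.trans hc.2.le⟩
        have h2 := hanti hmy hmc hy.2
        have h3 := hf y hmy
        have h4 := hfR y hmy
        have h5 : f y ^ k ≤ R y ^ k := pow_le_pow_left₀ h3 h4 k
        have h6 : 0 ≤ f y ^ k := pow_nonneg h3 k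
        have h7 : R c * (R y ^ k - f y ^ k) ≤ R y * (R y ^ k - f y ^ k) :=
          mul_le_mul_of_nonneg_right h2 (by linarith only [h5])
        have h8 : f y * f y ^ k ≤ R y * f y ^ k := mul_le_mul_of_nonneg_right h4 h6
        rw [pow_succ, pow_succ]
        linarith only [h8, h7]
      rw [intervalIntegral.integral_const_mul,
        intervalIntegral.integral_sub (i2 k a hma c hmc) (i1 k a hma c hmc),
        intervalIntegral.integral_sub (i2 _ a hma c hmc) (i1 _ a hma c hmc)] at h1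
      have h2 : ∫ y in c..1, f y ^ (k + 1) ≤ ∫ y in c..1, R y ^ (k + 1) := by
        apply intervalIntegral.integral_mono_on hc.2.le (i1 _ c hmc 1 hm1) (i2 _ c hmc 1 hm1)
        intro y hy
        have hmy : y ∈ Icc a 1 := ⟨hc.1.trans hy.1, hy.2⟩
        exact pow_le_pow_left₀ (hf y hmy) (hfR y hmy) _
      rw [← intervalIntegral.integral_add_adjacent_intervals (i2 (k + 1) a hma c hmc)
        (i2 (k + 1) c hmc 1 hm1), ← intervalIntegral.integral_add_adjacent_intervals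
        (i1 (k + 1) a hma c hmc) (i1 (k + 1) c hmc 1 hm1)] at hI
      have h3 : R c * ((∫ y in a..c, R y ^ k) - ∫ y in a..c, f y ^ k) ≤ 0 := by linarith only [h2, h1, hI]
      by_contra hcon
      push Not at hcon
      have := mul_pos hρ (show 0 < (∫ y in a..c, R y ^ k) - ∫ y in a..c, f y ^ k by linarith only [hcon])
      linarith only [hI, h1, h2, this]
    apply le_of_forall_pos_le_add
    intro ε hε
    set δ : ℝ := min (1 - a) (ε / (M ^ k + 1)) with hδ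
    have hMk : 0 ≤ M ^ k := pow_nonneg hMp k
    have hδ0 : 0 < δ := lt_min (by linarith only [ha2]) (by (clear * - hε hMp; positivity))
    have hδ1 : δ ≤ 1 - a := min_le_left _ _
    have hδ2 : δ * (M ^ k + 1) ≤ ε := by
      have := min_le_right (1 - a) (ε / (M ^ k + 1))
      rw [← hδ, le_div_iff₀ (by (clear * - hMp; positivity))] at this
      exact this
    have hc : 1 - δ ∈ Ico a 1 := ⟨by linarith only [hδ1], by linarith only [hδ0]⟩
    have hmc : 1 - δ ∈ Icc a 1 := ⟨hc.1, hc.2.le⟩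
    have h1 := key (1 - δ) hc
    rw [← intervalIntegral.integral_add_adjacent_intervals (i2 k a hma (1 - δ) hmc)
        (i2 k (1 - δ) hmc 1 hm1), ← intervalIntegral.integral_add_adjacent_intervals
        (i1 k a hma (1 - δ) hmc) (i1 k (1 - δ) hmc 1 hm1)]
    have h2 : ∫ y in (1 - δ)..1, R y ^ k ≤ ∫ y in (1 - δ)..1, M ^ k := by
      apply intervalIntegral.integral_mono_on hc.2.le (i2 _ _ hmc 1 hm1) (by simp)
      intro y hy
      have hmy : y ∈ Icc a 1 := ⟨hc.1.trans hy.1, hy.2⟩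
      exact pow_le_pow_left₀ ((hf y hmy).trans (hfR y hmy)) (hM y hmy) _
    rw [intervalIntegral.integral_const, smul_eq_mul] at h2
    have h3 : 0 ≤ ∫ y in (1 - δ)..1, f y ^ k := by
      apply intervalIntegral.integral_nonneg hc.2.le
      intro y hy
      exact pow_nonneg (hf y ⟨hc.1.trans hy.1, hy.2⟩) k
    have h4 : (1 - (1 - δ)) * M ^ k = δ * M ^ k := by ring
    rw [h4] at h2
    linarith only [h3, h2, h1, hδ2, hδ0]
  · have hρ := hpos κ ⟨haκ, hκ1⟩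
    have h1 : ∫ y in a..κ, R κ * (R y ^ k - f y ^ k) ≤
        ∫ y in a..κ, (R y ^ (k + 1) - f y ^ (k + 1)) := by
      apply intervalIntegral.integral_mono_on haκ
        (((i2 k a hma κ hmκ).sub (i1 k a hma κ hmκ)).const_mul _)
        ((i2 _ a hma κ hmκ).sub (i1 _ a hma κ hmκ))
      intro y hy
      have hmy : y ∈ Icc a 1 := ⟨hy.1, hy.2.trans hκ⟩
      have h2 := hanti hmy hmκ hy.2
      have h3 := hf y hmy
      have h4 := hfR y hmy
      have h5 : f y ^ k ≤ R y ^ k := pow_le_pow_left₀ h3 h4 k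
      have h6 : 0 ≤ f y ^ k := pow_nonneg h3 k
      have h7 : R κ * (R y ^ k - f y ^ k) ≤ R y * (R y ^ k - f y ^ k) :=
        mul_le_mul_of_nonneg_right h2 (by linarith)
      have h8 : f y * f y ^ k ≤ R y * f y ^ k := mul_le_mul_of_nonneg_right h4 h6
      rw [pow_succ, pow_succ]
      linarith
    have h2 : ∫ y in κ..1, f y ^ (k + 1) ≤ ∫ y in κ..1, R κ * f y ^ k := by
      apply intervalIntegral.integral_mono_on hκ (i1 _ κ hmκ 1 hm1)
        ((i1 _ κ hmκ 1 hm1).const_mul _)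
      intro y hy
      have hmy : y ∈ Icc a 1 := ⟨haκ.trans hy.1, hy.2⟩
      have h3 := hf y hmy
      have h4 := (hfR y hmy).trans (hanti hmκ hmy hy.1)
      rw [pow_succ, mul_comm]
      exact mul_le_mul_of_nonneg_right h4 (pow_nonneg h3 k)
    rw [intervalIntegral.integral_const_mul] at h2
    rw [intervalIntegral.integral_const_mul,
      intervalIntegral.integral_sub (i2 k a hma κ hmκ) (i1 k a hma κ hmκ),
      intervalIntegral.integral_sub (i2 _ a hma κ hmκ) (i1 _ a hma κ hmκ)] at h1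
    have e1 := intervalIntegral.integral_add_adjacent_intervals
        (i1 (k + 1) a hma κ hmκ) (i1 (k + 1) κ hmκ 1 hm1)
    have e2 := intervalIntegral.integral_add_adjacent_intervals
        (i1 k a hma κ hmκ) (i1 k κ hmκ 1 hm1)
    rw [← e2]
    by_contra hcon
    push Not at hcon
    have h5 := mul_lt_mul_of_pos_left hcon hρ
    linarith

/-- existence of the slope -/
theorem tc_slope (k : ℕ) {r : ℝ → ℝ} (hr : IsProf r) {τ : ℝ} (hτ : τ ∈ Ioo (0 : ℝ) 1) :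
    ∃ B : ℝ, 0 ≤ B ∧
      ∫ y in (0 : ℝ)..τ, (r τ + B * (τ - y)) ^ (k + 1) = ∫ y in (0 : ℝ)..τ, r y ^ (k + 1) := by
  have h01 : (0 : ℝ) ∈ Icc (0 : ℝ) 1 := ⟨le_rfl, zero_le_one⟩
  have hτ1 : τ ∈ Icc (0 : ℝ) 1 := ⟨hτ.1.le, hτ.2.le⟩
  have hanti := Alm.prof_anti hr
  have ha : 0 < r τ := hr.pos τ ⟨by linarith [hτ.1], hτ.2⟩
  have hr0 : 0 < r 0 := hr.pos 0 ⟨by norm_num, by norm_num⟩
  have hτ0 := hτ.1
  set F : ℝ → ℝ := fun B => ∫ y in (0 : ℝ)..τ, (r τ + B * (τ - y)) ^ (k + 1) with hF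
  have hFc : Continuous F := by
    apply intervalIntegral.continuous_parametric_intervalIntegral_of_continuous'
    fun_prop
  have hJ0 : F 0 ≤ ∫ y in (0 : ℝ)..τ, r y ^ (k + 1) := by
    rw [hF]
    apply intervalIntegral.integral_mono_on hτ.1.le (tc_lin_ii _ _ _ _ _ _)
      (Alm.prof_pow_ii hr (k + 1) h01 hτ1)
    intro y hy
    have h1 := hanti (show y ∈ Icc (0 : ℝ) 1 from ⟨hy.1, hy.2.trans hτ.2.le⟩) hτ1 hy.2
    have h2 : r τ + 0 * (τ - y) = r τ := by ring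
    rw [h2]
    exact pow_le_pow_left₀ ha.le h1 _
  set B1 : ℝ := ((k : ℝ) + 2) * r 0 / τ with hB1
  have hB10 : 0 < B1 := by (clear * - hr0 hτ0; positivity)
  have hJ1 : ∫ y in (0 : ℝ)..τ, r y ^ (k + 1) ≤ F B1 := by
    have h1 : ∫ y in (0 : ℝ)..τ, r y ^ (k + 1) ≤ ∫ y in (0 : ℝ)..τ, r 0 ^ (k + 1) := by
      apply intervalIntegral.integral_mono_on hτ.1.le (Alm.prof_pow_ii hr (k + 1) h01 hτ1)
        (by simp)
      intro y hy
      have hy1 : y ∈ Icc (0 : ℝ) 1 := ⟨hy.1, hy.2.trans hτ.2.le⟩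
      exact pow_le_pow_left₀ (Alm.prof_nn hr hy1) (Alm.prof_le_zero hr hy1) _
    have h2 : ∫ y in (0 : ℝ)..τ, (B1 * (τ - y)) ^ (k + 1) ≤ F B1 := by
      rw [hF]
      apply intervalIntegral.integral_mono_on hτ.1.le
        ((by fun_prop : Continuous fun y : ℝ => (B1 * (τ - y)) ^ (k + 1)).intervalIntegrable _ _)
        (tc_lin_ii _ _ _ _ _ _)
      intro y hy
      apply pow_le_pow_left₀ (mul_nonneg hB10.le (by linarith only [hy.2]))
      linarith only [ha]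
    have h3 : ∫ y in (0 : ℝ)..τ, (B1 * (τ - y)) ^ (k + 1) =
        B1 ^ (k + 1) * (τ ^ (k + 2) / ((k : ℝ) + 2)) := by
      have e : (fun y : ℝ => (B1 * (τ - y)) ^ (k + 1)) =
          fun y => (fun t => B1 ^ (k + 1) * t ^ (k + 1)) (τ - y) := by
        funext y
        rw [mul_pow]
      rw [e, intervalIntegral.integral_comp_sub_left (fun t => B1 ^ (k + 1) * t ^ (k + 1)) τ,
        intervalIntegral.integral_const_mul, integral_pow]
      have e2 : k + 1 + 1 = k + 2 := rfl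
      simp only [sub_self, sub_zero, e2]
      push_cast
      rw [zero_pow (by omega)]
      ring
    rw [intervalIntegral.integral_const, smul_eq_mul, sub_zero] at h1
    refine h1.trans (le_trans ?_ h2)
    rw [h3]
    have e : B1 ^ (k + 1) * (τ ^ (k + 2) / ((k : ℝ) + 2)) =
        τ * (((k : ℝ) + 2) ^ k * r 0 ^ (k + 1)) := by
      rw [hB1, div_pow, mul_pow]
      have h4 : ((k : ℝ) + 2) ≠ 0 := by (clear * -; positivity)
      field_simp
      ring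
    rw [e]
    have h5 : (1 : ℝ) ≤ ((k : ℝ) + 2) ^ k := one_le_pow₀ (by
      have : (0 : ℝ) ≤ (k : ℝ) := by (clear * -; positivity)
      linarith only [])
    have h6 : 0 ≤ r 0 ^ (k + 1) := by positivity
    have h7 := mul_le_mul_of_nonneg_right h5 h6
    rw [one_mul] at h7
    exact mul_le_mul_of_nonneg_left h7 hτ.1.le
  obtain ⟨B, hB, hFB⟩ := intermediate_value_Icc hB10.le hFc.continuousOn ⟨hJ0, hJ1⟩
  exact ⟨B, hB.1, hFB⟩

/-- **Truncated linear comparison.** -/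
theorem trunc_lin (k : ℕ) {r : ℝ → ℝ} (hr : IsProf r) {τ : ℝ} (hτ : τ ∈ Ioo (0 : ℝ) 1) :
    ∃ A B κ : ℝ, 0 < A ∧ 0 ≤ B ∧ B ≤ A ∧ τ ≤ κ ∧ κ ≤ 1 ∧
      (∫ y in (0 : ℝ)..τ, (A - B * y) ^ (k + 1)) = (∫ y in (0 : ℝ)..τ, r y ^ (k + 1)) ∧
      (∫ y in (0 : ℝ)..κ, (A - B * y) ^ (k + 1)) = (∫ y in (0 : ℝ)..1, r y ^ (k + 1)) ∧
      (∫ y in (0 : ℝ)..κ, (A - B * y) ^ k) ≤ ∫ y in (0 : ℝ)..1, r y ^ k := by
  have h01 : (0 : ℝ) ∈ Icc (0 : ℝ) 1 := ⟨le_rfl, zero_le_one⟩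
  have h11 : (1 : ℝ) ∈ Icc (0 : ℝ) 1 := ⟨zero_le_one, le_rfl⟩
  have hτ1 : τ ∈ Icc (0 : ℝ) 1 := ⟨hτ.1.le, hτ.2.le⟩
  have ha : 0 < r τ := hr.pos τ ⟨by linarith [hτ.1], hτ.2⟩
  obtain ⟨B, hB, hI⟩ := tc_slope k hr hτ
  have hfirst := tc_first k hr hτ hB hI.le
  have hright : ∀ y ∈ Icc τ 1, r y ≤ r τ + B * (τ - y) := fun y hy => tc_right k hr hτ hI.le hy
  have hRA : ∀ y : ℝ, r τ + B * (τ - y) = r τ + B * τ - B * y := fun y => by ring
  set A : ℝ := r τ + B * τ with hA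
  have hA0 : 0 < A := by
    have := mul_nonneg hB hτ.1.le
    linarith
  simp only [hRA] at hI hfirst hright
  have hBA : B ≤ A := by
    have h1 := hright 1 ⟨hτ.2.le, le_rfl⟩
    have h2 := hr.nonneg
    linarith
  have hcont : ∀ j : ℕ, Continuous fun y : ℝ => (A - B * y) ^ j := fun j => by fun_prop
  have hii : ∀ (j : ℕ) (c d : ℝ), IntervalIntegrable (fun y : ℝ => (A - B * y) ^ j) volume c d :=
    fun j c d => (hcont j).intervalIntegrable _ _
  have hri := Alm.prof_pow_ii hr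
  -- the truncation point
  set G : ℝ → ℝ := fun c => ∫ y in (0 : ℝ)..c, (A - B * y) ^ (k + 1) with hG
  have hGc : Continuous G := intervalIntegral.continuous_primitive (fun c d => hii (k + 1) c d) 0
  have hspl := intervalIntegral.integral_add_adjacent_intervals
    (hri (k + 1) h01 hτ1) (hri (k + 1) hτ1 h11)
  have hspl0 := intervalIntegral.integral_add_adjacent_intervals (hri k h01 hτ1) (hri k hτ1 h11)
  have hG1 : G τ ≤ ∫ y in (0 : ℝ)..1, r y ^ (k + 1) := by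
    have h1 : 0 ≤ ∫ y in τ..1, r y ^ (k + 1) := by
      apply intervalIntegral.integral_nonneg hτ.2.le
      intro y hy
      exact pow_nonneg (Alm.prof_nn hr ⟨hτ.1.le.trans hy.1, hy.2⟩) _
    rw [hG]
    simp only
    rw [hI, ← hspl]
    linarith
  have hG2 : ∫ y in (0 : ℝ)..1, r y ^ (k + 1) ≤ G 1 := by
    have h1 : ∫ y in τ..1, r y ^ (k + 1) ≤ ∫ y in τ..1, (A - B * y) ^ (k + 1) := by
      apply intervalIntegral.integral_mono_on hτ.2.le (hri _ hτ1 h11) (hii _ _ _)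
      intro y hy
      exact pow_le_pow_left₀ (Alm.prof_nn hr ⟨hτ.1.le.trans hy.1, hy.2⟩) (hright y hy) _
    have h2 := intervalIntegral.integral_add_adjacent_intervals
      (hii (k + 1) 0 τ) (hii (k + 1) τ 1)
    rw [hG]
    simp only
    rw [← hspl, ← h2, hI]
    linarith only [h1]
  obtain ⟨κ, hκ, hGκ⟩ := intermediate_value_Icc hτ.2.le hGc.continuousOn ⟨hG1, hG2⟩
  refine ⟨A, B, κ, hA0, hB, hBA, hκ.1, hκ.2, hI, hGκ, ?_⟩
  have hGκ' : ∫ y in (0 : ℝ)..κ, (A - B * y) ^ (k + 1) = ∫ y in (0 : ℝ)..1, r y ^ (k + 1) := hGκ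
  have hR1 := intervalIntegral.integral_add_adjacent_intervals (hii (k + 1) 0 τ) (hii (k + 1) τ κ)
  have hR0 := intervalIntegral.integral_add_adjacent_intervals (hii k 0 τ) (hii k τ κ)
  have hsub : ∀ c ∈ Icc τ 1, c ∈ Icc (0 : ℝ) 1 := fun c hc => ⟨hτ.1.le.trans hc.1, hc.2⟩
  have hsec := tc_second k (f := r) (R := fun y => A - B * y) (M := A) hκ.1 hκ.2
    (fun y hy => Alm.prof_nn hr (hsub y hy)) hright
    (fun x _ y _ hxy => by
      have := mul_le_mul_of_nonneg_left hxy hB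
      linarith only [this])
    (fun y hy => by
      have h1 := hright y ⟨hy.1, hy.2.le⟩
      have h2 := hr.pos y ⟨by linarith only [hτ.1, hy.1], hy.2⟩
      linarith only [h1, h2])
    (fun y hy => by
      have := mul_nonneg hB (hτ.1.le.trans hy.1)
      linarith only [this])
    (fun j c hc d hd => hri j (hsub c hc) (hsub d hd)) (fun j c _ d _ => hii j c d)
    (by linarith only [hI, hspl, hGκ, hR1])
  rw [← hR0, ← hspl0]
  linarith only [hfirst, hsec]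

end Vale.Agent.P237.AllN
end

section

/-!
# P237, all dimensions: the transport bound from the truncated linear comparison
-/

open MeasureTheory Metric Set Module Filter Topology

namespace Vale.Agent.P237.AllN

/-- `∫₀^y (1 - (1 - E) t)^k dt` -/
noncomputable def LE (k : ℕ) (E y : ℝ) : ℝ := ∫ t in (0 : ℝ)..y, (1 - (1 - E) * t) ^ k

theorem LE_cont (k : ℕ) (E : ℝ) : Continuous fun t : ℝ => (1 - (1 - E) * t) ^ k := by fun_prop

theorem LE_ii (k : ℕ) (E c d : ℝ) :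
    IntervalIntegrable (fun t : ℝ => (1 - (1 - E) * t) ^ k) volume c d :=
  (LE_cont k E).intervalIntegrable _ _

theorem LE_mul (k : ℕ) (E y : ℝ) :
    ((k : ℝ) + 1) * (1 - E) * LE k E y = 1 - (1 - (1 - E) * y) ^ (k + 1) := by
  have h : ∀ t : ℝ, HasDerivAt (fun t => -(1 - (1 - E) * t) ^ (k + 1))
      (((k : ℝ) + 1) * (1 - E) * (1 - (1 - E) * t) ^ k) t := by
    intro t
    have h1 : HasDerivAt (fun t : ℝ => 1 - (1 - E) * t) (-(1 - E)) t := by
      have := ((hasDerivAt_id t).const_mul (1 - E)).const_sub 1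
      simpa using this
    have h2 := (h1.pow (k + 1)).neg
    refine h2.congr_deriv ?_
    have e : k + 1 - 1 = k := by omega
    rw [e]
    push_cast
    ring
  unfold LE
  rw [← intervalIntegral.integral_const_mul,
    intervalIntegral.integral_eq_sub_of_hasDerivAt (fun t _ => h t)
      (((LE_cont k E).const_mul _).intervalIntegrable _ _)]
  simp only [mul_zero, sub_zero, one_pow, sub_neg_eq_add]
  ring

theorem LE_one (k : ℕ) (y : ℝ) : LE k 1 y = y := by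
  unfold LE
  simp

theorem LE_base {E t : ℝ} (hE0 : 0 ≤ E) (hE1 : E ≤ 1) (_ht0 : 0 ≤ t) (ht1 : t ≤ 1) :
    0 ≤ 1 - (1 - E) * t := by
  nlinarith only [hE0, ht1, hE1]

theorem LE_pos (k : ℕ) {E y : ℝ} (hE0 : 0 ≤ E) (_hE1 : E ≤ 1) (hy0 : 0 < y) (hy1 : y ≤ 1) :
    0 < LE k E y := by
  unfold LE
  apply intervalIntegral.intervalIntegral_pos_of_pos_on (LE_ii k E _ _) _ hy0
  intro t ht
  apply pow_pos
  have h1 : (1 - E) * t ≤ 1 * t := mul_le_mul_of_nonneg_right (by linarith only [hE0]) ht.1.le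
  linarith only [hy1, h1, ht.2]

theorem LE_mono (k : ℕ) {E y z : ℝ} (hE0 : 0 ≤ E) (hE1 : E ≤ 1) (hy0 : 0 ≤ y) (hyz : y ≤ z)
    (hz1 : z ≤ 1) : LE k E y ≤ LE k E z := by
  unfold LE
  rw [← intervalIntegral.integral_add_adjacent_intervals (LE_ii k E 0 y) (LE_ii k E y z)]
  have : 0 ≤ ∫ t in y..z, (1 - (1 - E) * t) ^ k := by
    apply intervalIntegral.integral_nonneg hyz
    intro t ht
    exact pow_nonneg (LE_base hE0 hE1 (hy0.trans ht.1) (ht.2.trans hz1)) k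
  linarith

theorem LE_monoE (k : ℕ) {E F y : ℝ} (hE0 : 0 ≤ E) (hEF : E ≤ F) (hF : F ≤ 1) (hy0 : 0 ≤ y)
    (hy1 : y ≤ 1) : LE k E y ≤ LE k F y := by
  unfold LE
  apply intervalIntegral.integral_mono_on hy0 (LE_ii _ _ _ _) (LE_ii _ _ _ _)
  intro t ht
  apply pow_le_pow_left₀ (LE_base hE0 (hEF.trans hF) ht.1 (ht.2.trans hy1))
  have := mul_le_mul_of_nonneg_right hEF ht.1
  linarith only [this]

/-- monotone likelihood ratio -/
theorem LE_mlr (k : ℕ) {E F y : ℝ} (hE0 : 0 ≤ E) (hEF : E ≤ F) (hF : F ≤ 1) (hy0 : 0 ≤ y)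
    (hy1 : y ≤ 1) : LE k F y * LE k E 1 ≤ LE k E y * LE k F 1 := by
  have hE1 : E ≤ 1 := hEF.trans hF
  have hF0 : 0 ≤ F := hE0.trans hEF
  rcases eq_or_lt_of_le (LE_base hE0 hE1 hy0 hy1) with h0 | h0
  · -- `1 - (1-E) y = 0`, so `y = 1`
    have h1 : y = 1 := by
      by_contra hcon
      have h2 : y < 1 := lt_of_le_of_ne hy1 hcon
      nlinarith only [h0, h2, hE0, hy0]
    rw [h1]
    linarith only []
  · set u : ℝ → ℝ := fun t => (1 - (1 - E) * t) ^ k with hu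
    set v : ℝ → ℝ := fun t => (1 - (1 - F) * t) ^ k with hv
    have hu0 : 0 < u y := pow_pos h0 k
    have hbase : ∀ s t : ℝ, 0 ≤ s → s ≤ t → t ≤ 1 → v s * u t ≤ v t * u s := by
      intro s t hs hst ht
      rw [hu, hv]
      simp only
      rw [← mul_pow, ← mul_pow]
      apply pow_le_pow_left₀
      · exact mul_nonneg (LE_base hF0 hF hs (hst.trans ht))
          (LE_base hE0 hE1 (hs.trans hst) ht)
      · have := mul_nonneg (show 0 ≤ F - E by linarith only [hEF]) (show 0 ≤ t - s by linarith only [hst])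
        linarith
    have h1 : (∫ t in (0 : ℝ)..y, v t * u y) ≤ ∫ t in (0 : ℝ)..y, v y * u t := by
      apply intervalIntegral.integral_mono_on hy0 ((LE_ii k F _ _).mul_const _)
        ((LE_ii k E _ _).const_mul _)
      intro t ht
      exact hbase t y ht.1 ht.2 hy1
    have h2 : (∫ t in y..1, v y * u t) ≤ ∫ t in y..1, v t * u y := by
      apply intervalIntegral.integral_mono_on hy1 ((LE_ii k E _ _).const_mul _)
        ((LE_ii k F _ _).mul_const _)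
      intro t ht
      exact hbase y t hy0 ht.1 ht.2
    rw [intervalIntegral.integral_mul_const, intervalIntegral.integral_const_mul] at h1 h2
    have e1 := intervalIntegral.integral_add_adjacent_intervals (LE_ii k E 0 y) (LE_ii k E y 1)
    have e2 := intervalIntegral.integral_add_adjacent_intervals (LE_ii k F 0 y) (LE_ii k F y 1)
    have hU1 : 0 ≤ ∫ t in (0 : ℝ)..y, u t := by
      apply intervalIntegral.integral_nonneg hy0
      intro t ht
      exact pow_nonneg (LE_base hE0 hE1 ht.1 (ht.2.trans hy1)) k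
    have hU2 : 0 ≤ ∫ t in y..1, u t := by
      apply intervalIntegral.integral_nonneg hy1
      intro t ht
      exact pow_nonneg (LE_base hE0 hE1 (hy0.trans ht.1) ht.2) k
    unfold LE
    rw [← e1, ← e2]
    have h3 := mul_le_mul_of_nonneg_right h1 hU2
    have h4 := mul_le_mul_of_nonneg_left h2 hU1
    have h5 : u y * ((∫ t in (0 : ℝ)..y, v t) * ∫ t in y..1, u t) ≤
        u y * ((∫ t in (0 : ℝ)..y, u t) * ∫ t in y..1, v t) := by
      rw [hu, hv] at *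
      linarith only [h4, h3]
    have h6 := le_of_mul_le_mul_left h5 hu0
    rw [hu, hv] at h6
    linarith only [h6]

/-- the normalised constraint is monotone -/
theorem LE_nmono (k : ℕ) {E F : ℝ} (hE0 : 0 ≤ E) (hEF : E ≤ F) (hF : F ≤ 1) :
    LE (k + 1) F 1 ^ k * LE k E 1 ^ (k + 1) ≤ LE (k + 1) E 1 ^ k * LE k F 1 ^ (k + 1) := by
  have hE1 : E ≤ 1 := hEF.trans hF
  have hF0 : 0 ≤ F := hE0.trans hEF
  have pE := LE_pos (k + 1) hE0 hE1 zero_lt_one le_rfl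
  have pF := LE_pos (k + 1) hF0 hF zero_lt_one le_rfl
  have pE' := LE_pos k hE0 hE1 zero_lt_one le_rfl
  have pF' := LE_pos k hF0 hF zero_lt_one le_rfl
  set q : ℝ := LE (k + 1) F 1 / LE (k + 1) E 1 with hq
  have hq0 : 0 < q := div_pos pF pE
  set lam : ℝ := q ^ (1 / ((k + 1 : ℕ) : ℝ)) with hlam
  have hl0 : 0 < lam := Real.rpow_pos_of_pos hq0 _
  have hlp : lam ^ (k + 1) = q := cn_root_pow (by omega) hq0.le
  have hqe : q * LE (k + 1) E 1 = LE (k + 1) F 1 := div_mul_cancel₀ _ pE.ne'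
  have hq1 : 1 ≤ q := by
    rw [hq, one_le_div pE]
    exact LE_monoE _ hE0 hEF hF zero_le_one le_rfl
  have hl1 : 1 ≤ lam := by
    by_contra hcon
    push Not at hcon
    have := pow_lt_one₀ hl0.le hcon (show k + 1 ≠ 0 by omega)
    linarith only [hlp, hq1, this]
  have hRint : ∀ j : ℕ, ∫ y in (0 : ℝ)..1, (lam * (1 - (1 - E) * y)) ^ j = lam ^ j * LE j E 1 := by
    intro j
    unfold LE
    rw [← intervalIntegral.integral_const_mul]
    congr 1
    funext y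
    rw [mul_pow]
  have hRii : ∀ j : ℕ, IntervalIntegrable (fun y : ℝ => (lam * (1 - (1 - E) * y)) ^ j)
      volume 0 1 := fun j =>
    (by fun_prop : Continuous fun y : ℝ => (lam * (1 - (1 - E) * y)) ^ j).intervalIntegrable _ _
  have hIeq : ∫ y in (0 : ℝ)..1, (lam * (1 - (1 - E) * y)) ^ (k + 1) =
      ∫ y in (0 : ℝ)..1, (1 - (1 - F) * y) ^ (k + 1) := by
    rw [hRint, hlp, hqe]
    rfl
  have hend : lam * E ≤ F := by
    by_contra hcon
    push Not at hcon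
    have h1 : ∫ y in (0 : ℝ)..1, (1 - (1 - F) * y) ^ (k + 1) <
        ∫ y in (0 : ℝ)..1, (lam * (1 - (1 - E) * y)) ^ (k + 1) := by
      have hle : ∀ y ∈ Icc (0 : ℝ) 1, 1 - (1 - F) * y ≤ lam * (1 - (1 - E) * y) := by
        intro y hy
        have h2 := mul_le_mul_of_nonneg_left hcon.le hy.1
        have h3 := mul_le_mul_of_nonneg_left hl1 (show 0 ≤ 1 - y by linarith only [hy.2])
        linarith only [h3, h2]
      apply intervalIntegral.integral_lt_integral_of_continuousOn_of_le_of_exists_lt zero_lt_one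
        (LE_cont _ _).continuousOn
        (by fun_prop : Continuous fun y : ℝ => (lam * (1 - (1 - E) * y)) ^ (k + 1)).continuousOn
      · intro y hy
        exact pow_le_pow_left₀ (LE_base hF0 hF hy.1.le hy.2) (hle y ⟨hy.1.le, hy.2⟩) _
      · refine ⟨1, ⟨zero_le_one, le_rfl⟩, ?_⟩
        apply pow_lt_pow_left₀ _ (LE_base hF0 hF zero_le_one le_rfl) (by omega)
        linarith only [hcon]
    linarith only [hIeq, h1]
  -- the crossing
  have hcross : ∃ ρ : ℝ, 0 < ρ ∧ ∀ y ∈ Icc (0 : ℝ) 1,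
      (ρ ≤ 1 - (1 - F) * y ∧ 1 - (1 - F) * y ≤ lam * (1 - (1 - E) * y)) ∨
      (lam * (1 - (1 - E) * y) ≤ 1 - (1 - F) * y ∧ 1 - (1 - F) * y ≤ ρ) := by
    set D : ℝ := (lam - 1) + (F - lam * E) with hD
    have hD0 : 0 ≤ D := by linarith only [hl1, hend]
    have hid : ∀ y : ℝ, 1 - (1 - F) * y - lam * (1 - (1 - E) * y) = (1 - lam) + y * D := by
      intro y
      rw [hD]
      ring
    rcases eq_or_lt_of_le hD0 with h | h
    · refine ⟨1, one_pos, ?_⟩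
      intro y hy
      right
      have h1 : lam = 1 := by linarith only [hl1, hend, h]
      have h2 := hid y
      rw [← h, h1] at h2
      constructor
      · rw [h1]
        linarith only [h2]
      · have := mul_nonneg (show 0 ≤ 1 - F by linarith only [hF]) hy.1
        linarith only [this]
    · set ys : ℝ := (lam - 1) / D with hys
      have hys0 : 0 ≤ ys := div_nonneg (by linarith only [hl1]) h.le
      have hys1 : ys ≤ 1 := by
        rw [hys, div_le_one h]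
        linarith only [hend]
      have hysD : ys * D = lam - 1 := div_mul_cancel₀ _ h.ne'
      have hF00 : 0 < F ∨ F = 0 := (eq_or_lt_of_le hF0).symm.imp id Eq.symm
      have hρ : 0 < 1 - (1 - F) * ys ∨ (F = 0 ∧ ys = 1) := by
        rcases eq_or_lt_of_le (LE_base hF0 hF hys0 hys1) with h3 | h3
        · right
          have h4 : ys = 1 := by
            by_contra hcon
            have h5 : ys < 1 := lt_of_le_of_ne hys1 hcon
            nlinarith only [h3, h5, hF0, hys0]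
          refine ⟨?_, h4⟩
          rw [h4] at h3
          linarith only [h3]
        · exact Or.inl h3
      rcases hρ with hρ | ⟨h5, h6⟩
      · refine ⟨1 - (1 - F) * ys, hρ, ?_⟩
        intro y hy
        rcases le_total y ys with h7 | h7
        · left
          have h8 := mul_le_mul_of_nonneg_left h7 (show 0 ≤ 1 - F by linarith only [hF])
          have h9 := mul_le_mul_of_nonneg_right h7 h.le
          have h10 := hid y
          constructor
          · linarith only [h8]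
          · linarith only [hysD, h9]
        · right
          have h8 := mul_le_mul_of_nonneg_left h7 (show 0 ≤ 1 - F by linarith only [hF])
          have h9 := mul_le_mul_of_nonneg_right h7 h.le
          have h10 := hid y
          constructor
          · linarith only [hysD, h9]
          · linarith only [h8]
      · -- `F = 0`, `E = 0`
        exfalso
        have h7 : E = 0 := le_antisymm (hEF.trans h5.le) hE0
        have h8 : lam = 1 := by
          have : q = 1 := by rw [hq, h7, h5, div_self]; rw [h7] at pE; exact pE.ne'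
          rw [hlam, this, Real.one_rpow]
        rw [hys, h8] at h6
        simp at h6
  obtain ⟨ρ, hρ, hcr⟩ := hcross
  have h1 := tc_cross k (f := fun y => 1 - (1 - F) * y) (R := fun y => lam * (1 - (1 - E) * y))
    zero_le_one hρ (fun y hy => LE_base hF0 hF hy.1 hy.2)
    (fun y hy => mul_nonneg hl0.le (LE_base hE0 hE1 hy.1 hy.2)) hcr (LE_ii _ _ _ _) (hRii _)
    (LE_ii _ _ _ _) (hRii _) hIeq.le
  rw [hRint] at h1
  have h2 : lam ^ k * LE k E 1 ≤ LE k F 1 := h1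
  have h3 := pow_le_pow_left₀ (by positivity) h2 (k + 1)
  have e : (lam ^ k * LE k E 1) ^ (k + 1) = q ^ k * LE k E 1 ^ (k + 1) := by
    rw [mul_pow, ← hlp]
    ring
  rw [e] at h3
  have h4 := mul_le_mul_of_nonneg_left h3 (show 0 ≤ LE (k + 1) E 1 ^ k by positivity)
  have e2 : LE (k + 1) E 1 ^ k * (q ^ k * LE k E 1 ^ (k + 1)) =
      LE (k + 1) F 1 ^ k * LE k E 1 ^ (k + 1) := by
    rw [← hqe]
    ring
  rw [e2] at h4
  exact h4

/-- **The transport of a profile with `N ≤ N_B` in terms of a truncated linear profile.** -/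
theorem IsTrans.truncLE {m : ℕ} (hm : 1 ≤ m) {r τ τ' T : ℝ → ℝ} (hr : IsProf r)
    (h : IsTrans m r τ τ' T)
    (hN : (∫ y in (-1 : ℝ)..1, r y ^ (m - 1)) ^ m * aInt m ^ (m - 1) ≤
      aInt (m - 1) ^ m * (∫ y in (-1 : ℝ)..1, r y ^ m) ^ (m - 1)) {x : ℝ}
    (hx : x ∈ Ioo (0 : ℝ) 1) :
    ∃ E κ : ℝ, 0 ≤ E ∧ E ≤ 1 ∧ τ x ≤ κ ∧ κ ≤ 1 ∧
      (∫ t in (0 : ℝ)..x, sq t ^ m) * LE m E 1 =
        (∫ t in (0 : ℝ)..1, sq t ^ m) * LE m E (τ x / κ) ∧
      κ * (LE (m - 1) E 1 ^ m * (∫ t in (0 : ℝ)..1, sq t ^ m) ^ (m - 1)) ≤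
        (∫ t in (0 : ℝ)..1, sq t ^ (m - 1)) ^ m * LE m E 1 ^ (m - 1) := by
  obtain ⟨k, rfl⟩ : ∃ k, m = k + 1 := ⟨m - 1, by (clear * - hm; omega)⟩
  have e1 : k + 1 - 1 = k := by omega
  have hN2 := cn_half hm hr hN
  rw [e1] at hN2 ⊢
  have hτ := h.mem x hx
  obtain ⟨A, B, κ, hA, hB, hBA, hτκ, hκ1, hI1, hI2, hI3⟩ := trunc_lin k hr hτ
  have hκ0 : 0 < κ := hτ.1.trans_le hτκ
  have hBκ : B * κ ≤ A := by linarith only [mul_nonneg (sub_nonneg.2 hB) (sub_nonneg.2 hκ1), hBA]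
  set E : ℝ := (A - B * κ) / A with hE
  have hE0 : 0 ≤ E := div_nonneg (by linarith only [hBκ]) hA.le
  have hE1 : E ≤ 1 := by
    rw [hE, div_le_one hA]
    have := mul_nonneg hB hκ0.le
    linarith only [this]
  have hEA : A * (1 - E) = B * κ := by
    rw [hE]
    field_simp
    ring
  have hscale : ∀ (j : ℕ) (y : ℝ),
      ∫ t in (0 : ℝ)..y, (A - B * t) ^ j = κ * A ^ j * LE j E (y / κ) := by
    intro j y
    unfold LE
    have h1 := intervalIntegral.integral_comp_mul_left (a := 0) (b := y / κ)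
      (fun t => (A - B * t) ^ j) hκ0.ne'
    simp only [smul_eq_mul, mul_zero] at h1
    rw [mul_div_cancel₀ y hκ0.ne'] at h1
    have h2 : ∫ t in (0 : ℝ)..y, (A - B * t) ^ j =
        κ * ∫ t in (0 : ℝ)..(y / κ), (A - B * (κ * t)) ^ j := by
      rw [h1, ← mul_assoc, mul_inv_cancel₀ hκ0.ne', one_mul]
    have h3 : ∫ t in (0 : ℝ)..(y / κ), (A - B * (κ * t)) ^ j =
        A ^ j * ∫ t in (0 : ℝ)..(y / κ), (1 - (1 - E) * t) ^ j := by
      rw [← intervalIntegral.integral_const_mul]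
      congr 1
      funext t
      rw [← mul_pow]
      congr 1
      linear_combination t * hEA
    rw [h2, h3]
    ring
  have hκκ : κ / κ = 1 := div_self hκ0.ne'
  refine ⟨E, κ, hE0, hE1, hτκ, hκ1, ?_, ?_⟩
  · have h1 := h.mass x hx
    rw [hscale] at hI1 hI2
    rw [hκκ] at hI2
    rw [← hI1, ← hI2] at h1
    have h2 : 0 < κ * A ^ (k + 1) := by (clear * - hκ0 hA; positivity)
    have h3 : κ * A ^ (k + 1) * ((∫ t in (0 : ℝ)..x, sq t ^ (k + 1)) * LE (k + 1) E 1) =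
        κ * A ^ (k + 1) * ((∫ t in (0 : ℝ)..1, sq t ^ (k + 1)) * LE (k + 1) E (τ x / κ)) := by
      linear_combination (-1 : ℝ) * h1
    exact mul_left_cancel₀ h2.ne' h3
  · rw [hscale, hκκ] at hI2 hI3
    rw [← hI2] at hN2
    have pE' := LE_pos k hE0 hE1 zero_lt_one le_rfl
    have hZ := cn_Z_pos (k + 1)
    have h3 := pow_le_pow_left₀ (by (clear * - hκ0 hA pE'; positivity)) hI3 (k + 1)
    have h4 := mul_le_mul_of_nonneg_right h3
      (show 0 ≤ (∫ t in (0 : ℝ)..1, sq t ^ (k + 1)) ^ k by (clear * - hZ; positivity))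
    have h5 := h4.trans hN2
    have h6 : 0 < κ ^ k * A ^ (k * (k + 1)) := by positivity
    have e2 : (κ * A ^ k * LE k E 1) ^ (k + 1) * (∫ t in (0 : ℝ)..1, sq t ^ (k + 1)) ^ k =
        κ ^ k * A ^ (k * (k + 1)) *
          (κ * (LE k E 1 ^ (k + 1) * (∫ t in (0 : ℝ)..1, sq t ^ (k + 1)) ^ k)) := by
      ring
    have e3 : (∫ t in (0 : ℝ)..1, sq t ^ k) ^ (k + 1) *
        (κ * A ^ (k + 1) * LE (k + 1) E 1) ^ k = κ ^ k * A ^ (k * (k + 1)) *
          ((∫ t in (0 : ℝ)..1, sq t ^ k) ^ (k + 1) * LE (k + 1) E 1 ^ k) := by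
      ring
    rw [e2, e3] at h5
    exact le_of_mul_le_mul_left h5 h6

/-- Cell test: `E₀ ≤ E ≤ F`, `κ ≤ κ₁`. -/
theorem LE_cell {m : ℕ} {E F κ κ₁ τ X P Z : ℝ} (hE0 : 0 ≤ E) (hEF : E ≤ F) (hF : F ≤ 1)
    (hτ0 : 0 < τ) (hτκ : τ ≤ κ) (hκ : κ ≤ κ₁) (hX : 0 < X) (hZ : 0 < Z)
    (hP : P * LE m E 1 = Z * LE m E (τ / κ))
    (htest : X < κ₁ → P * LE m F 1 < Z * LE m F (X / κ₁)) : τ ≤ X := by
  by_contra hcon
  push Not at hcon
  have hκ0 : 0 < κ := hτ0.trans_le hτκ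
  have hκ₁ : 0 < κ₁ := hκ0.trans_le hκ
  have hX1 : X < κ₁ := hcon.trans_le (hτκ.trans hκ)
  have h1 := htest hX1
  have hy0 : 0 ≤ τ / κ := by positivity
  have hy1 : τ / κ ≤ 1 := (div_le_one hκ0).2 hτκ
  have h2 := LE_mlr m hE0 hEF hF hy0 hy1
  have pE := LE_pos m hE0 (hEF.trans hF) zero_lt_one le_rfl
  have h3 : LE m F (X / κ₁) ≤ LE m F (τ / κ) := by
    apply LE_mono m (hE0.trans hEF) hF (by (clear * - hX hκ₁; positivity)) _ hy1
    calc X / κ₁ ≤ τ / κ₁ := by (clear * - hcon hκ₁; gcongr)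
      _ ≤ τ / κ := by gcongr
  have h4 := mul_le_mul_of_nonneg_left h2 hZ.le
  have h5 : Z * LE m F (τ / κ) * LE m E 1 ≤ P * LE m F 1 * LE m E 1 := by
    calc Z * LE m F (τ / κ) * LE m E 1 = Z * (LE m F (τ / κ) * LE m E 1) := by ring
      _ ≤ Z * (LE m E (τ / κ) * LE m F 1) := h4
      _ = P * LE m E 1 * LE m F 1 := by rw [hP]; ring
      _ = _ := by ring
  have h6 := le_of_mul_le_mul_right h5 pE
  have h7 := mul_le_mul_of_nonneg_left h3 hZ.le
  linarith only [h7, h6, h1]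

/-- The constraint bounds the truncation point. -/
theorem LE_kap {m : ℕ} (hm : 1 ≤ m) {E E₀ κ κ₁ Z Z' : ℝ} (hE0 : 0 ≤ E₀) (hEE : E₀ ≤ E)
    (hE : E ≤ 1) (hZ : 0 < Z) (hZ' : 0 < Z')
    (hκ : κ * (LE (m - 1) E 1 ^ m * Z ^ (m - 1)) ≤ Z' ^ m * LE m E 1 ^ (m - 1))
    (hκ₁ : Z' ^ m * LE m E₀ 1 ^ (m - 1) ≤ κ₁ * (LE (m - 1) E₀ 1 ^ m * Z ^ (m - 1))) :
    κ ≤ κ₁ := by
  obtain ⟨k, rfl⟩ : ∃ k, m = k + 1 := ⟨m - 1, by omega⟩
  have e1 : k + 1 - 1 = k := by omega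
  rw [e1] at hκ hκ₁
  have h1 := LE_nmono k hE0 hEE hE
  have p1 := LE_pos (k + 1) (hE0.trans hEE) hE zero_lt_one le_rfl
  have p2 := LE_pos k (hE0.trans hEE) hE zero_lt_one le_rfl
  have p3 := LE_pos (k + 1) hE0 (hEE.trans hE) zero_lt_one le_rfl
  have p4 := LE_pos k hE0 (hEE.trans hE) zero_lt_one le_rfl
  have h2 : κ * (LE k E 1 ^ (k + 1) * Z ^ k * LE k E₀ 1 ^ (k + 1)) ≤
      κ₁ * (LE k E 1 ^ (k + 1) * Z ^ k * LE k E₀ 1 ^ (k + 1)) := by
    calc κ * (LE k E 1 ^ (k + 1) * Z ^ k * LE k E₀ 1 ^ (k + 1))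
        = κ * (LE k E 1 ^ (k + 1) * Z ^ k) * LE k E₀ 1 ^ (k + 1) := by ring
      _ ≤ Z' ^ (k + 1) * LE (k + 1) E 1 ^ k * LE k E₀ 1 ^ (k + 1) :=
          mul_le_mul_of_nonneg_right hκ (by positivity)
      _ = Z' ^ (k + 1) * (LE (k + 1) E 1 ^ k * LE k E₀ 1 ^ (k + 1)) := by ring
      _ ≤ Z' ^ (k + 1) * (LE (k + 1) E₀ 1 ^ k * LE k E 1 ^ (k + 1)) :=
          mul_le_mul_of_nonneg_left h1 (by positivity)
      _ = Z' ^ (k + 1) * LE (k + 1) E₀ 1 ^ k * LE k E 1 ^ (k + 1) := by ring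
      _ ≤ κ₁ * (LE k E₀ 1 ^ (k + 1) * Z ^ k) * LE k E 1 ^ (k + 1) :=
          mul_le_mul_of_nonneg_right hκ₁ (by (clear * - p2; positivity))
      _ = _ := by ring
  exact le_of_mul_le_mul_right h2 (by (clear * - p2 hZ p4; positivity))

end Vale.Agent.P237.AllN
end

section

/-!
# P237, all dimensions: `l ≤ (1 - x²)(31/50 + 7/50 x²)` under the constraint, checked by the kernel

For fixed `m` the truncated linear comparison is a finite number of integer inequalities.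
-/

open MeasureTheory Metric Set Module Filter Topology Real

namespace Vale.Agent.P237.AllN

/-- the upper bound -/
noncomputable def lsX (x : ℝ) : ℝ := x * exp ((1 - x ^ 2) * (31 / 50 + 7 / 50 * x ^ 2))

theorem lsX_mono {x y : ℝ} (hx : 0 < x) (hxy : x ≤ y) (hy : y ^ 2 ≤ 73 / 100) :
    lsX x ≤ lsX y := by
  have hy0 : 0 < y := hx.trans_le hxy
  unfold lsX
  set w : ℝ := (1 - x ^ 2) * (31 / 50 + 7 / 50 * x ^ 2) - (1 - y ^ 2) * (31 / 50 + 7 / 50 * y ^ 2)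
    with hw
  have h1 : w ≤ (y ^ 2 - x ^ 2) / (2 * y ^ 2) := by
    rw [le_div_iff₀ (by positivity)]
    have h2 : w = (y ^ 2 - x ^ 2) * (12 / 25 + 7 / 50 * (x ^ 2 + y ^ 2)) := by
      rw [hw]
      ring
    have h3 : 0 ≤ y ^ 2 - x ^ 2 := by linarith only [mul_nonneg (sub_nonneg.2 hxy) (le_of_lt (sub_pos.2 hy0)), mul_nonneg (le_of_lt (sub_pos.2 hx)) (sub_nonneg.2 hxy)]
    have h4 : (12 / 25 + 7 / 50 * (x ^ 2 + y ^ 2)) * (2 * y ^ 2) ≤ 1 := by nlinarith [sq_nonneg x]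
    rw [h2, mul_assoc]
    linarith only [mul_nonneg (sub_nonneg.2 h3) (sub_nonneg.2 h4)]
  have h5 : x / y ≤ exp (-w) := by
    have h6 := add_one_le_exp (-w)
    have h7 : x / y ≤ 1 - (y ^ 2 - x ^ 2) / (2 * y ^ 2) := by
      rw [div_le_iff₀ hy0]
      have e : (1 - (y ^ 2 - x ^ 2) / (2 * y ^ 2)) * y = (y ^ 2 + x ^ 2) / (2 * y) := by
        field_simp
        ring
      rw [e, le_div_iff₀ (by positivity)]
      linarith only [sq_nonneg (y - x)]
    linarith only [h7, h6, h1]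
  rw [div_le_iff₀ hy0] at h5
  have h8 : exp ((1 - x ^ 2) * (31 / 50 + 7 / 50 * x ^ 2)) =
      exp w * exp ((1 - y ^ 2) * (31 / 50 + 7 / 50 * y ^ 2)) := by
    rw [← Real.exp_add]
    congr 1
    rw [hw]
    ring
  rw [h8]
  have h9 : exp w * exp (-w) = 1 := by
    rw [← Real.exp_add]
    simp
  have h10 : 0 < exp w := exp_pos _
  have h11 : x * exp w ≤ y := by
    calc x * exp w ≤ exp (-w) * y * exp w := mul_le_mul_of_nonneg_right h5 h10.le
      _ = y * (exp w * exp (-w)) := by ring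
      _ = y := by rw [h9, mul_one]
  calc x * (exp w * exp ((1 - y ^ 2) * (31 / 50 + 7 / 50 * y ^ 2)))
      = x * exp w * exp ((1 - y ^ 2) * (31 / 50 + 7 / 50 * y ^ 2)) := by ring
    _ ≤ y * exp ((1 - y ^ 2) * (31 / 50 + 7 / 50 * y ^ 2)) :=
        mul_le_mul_of_nonneg_right h11 (exp_pos _).le

theorem ls_exp_lower {t : ℝ} (ht : 0 ≤ t) :
    1 + t + t ^ 2 / 2 + t ^ 3 / 6 + t ^ 4 / 24 ≤ exp t := by
  have h := Real.sum_le_exp_of_nonneg ht 5
  simp [Finset.sum_range_succ, Nat.factorial] at h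
  linarith

theorem lsX_712 : 1 ≤ lsX (712 / 1000) := by
  unfold lsX
  have h := ls_exp_lower (t := (1 - (712 / 1000) ^ 2) * (31 / 50 + 7 / 50 * (712 / 1000 : ℝ) ^ 2))
    (by norm_num)
  have h2 : (1 : ℝ) ≤ 712 / 1000 * (1 + (1 - (712 / 1000) ^ 2) * (31 / 50 + 7 / 50 * (712 / 1000 : ℝ) ^ 2) +
      ((1 - (712 / 1000) ^ 2) * (31 / 50 + 7 / 50 * (712 / 1000 : ℝ) ^ 2)) ^ 2 / 2 +
      ((1 - (712 / 1000) ^ 2) * (31 / 50 + 7 / 50 * (712 / 1000 : ℝ) ^ 2)) ^ 3 / 6 +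
      ((1 - (712 / 1000) ^ 2) * (31 / 50 + 7 / 50 * (712 / 1000 : ℝ) ^ 2)) ^ 4 / 24) := by
    norm_num
  linarith only [h]

theorem lsX_ge_one {x : ℝ} (hx : 712 / 1000 ≤ x) (hx1 : x < 1) : 1 ≤ lsX x := by
  rcases le_total (x ^ 2) (73 / 100) with h | h
  · exact lsX_712.trans (lsX_mono (by norm_num) hx h)
  · unfold lsX
    have h1 := add_one_le_exp ((1 - x ^ 2) * (31 / 50 + 7 / 50 * x ^ 2))
    have h2 : 85 / 100 ≤ x := by nlinarith
    have h3 : 0 ≤ 1 - x ^ 2 := by (by_contra nlg; linarith only [nlg, mul_nonneg (le_of_lt (sub_pos.2 hx1)) (sub_nonneg.2 h2), mul_nonneg (le_of_lt (sub_pos.2 hx1)) (sub_nonneg.2 h), mul_pos (sub_pos.2 hx1) (sub_pos.2 hx1), mul_nonneg (le_of_lt (sub_pos.2 (not_le.1 nlg))) (sub_nonneg.2 h2)])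
    have h4 : 1 ≤ x * ((1 - x ^ 2) * (31 / 50 + 7 / 50 * x ^ 2) + 1) := by
      have h5 : (1 - x ^ 2) * (72 / 100) ≤ (1 - x ^ 2) * (31 / 50 + 7 / 50 * x ^ 2) :=
        mul_le_mul_of_nonneg_left (by linarith only [h2, h, hx1]) h3
      have h6 : 1 ≤ x * ((1 - x ^ 2) * (72 / 100) + 1) := by
        have h7 : 0 ≤ (1 - x) * (72 / 100 * x * (1 + x) - 1) := by
          apply mul_nonneg (by linarith only [hx1])
          linarith only [h2, h, hx1]
        linarith only [h7]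
      have h8 : 0 < x := by linarith only [h2, hx1]
      nlinarith
    have h9 : 0 < x := by linarith only [h2, hx1]
    nlinarith

/-! ### integrals of powers of `s` -/

/-- `∫₀ˣ (1-t²)^h dt` -/
noncomputable def lsA (x : ℝ) : ℕ → ℝ
  | 0 => x
  | h + 1 => (x * (1 - x ^ 2) ^ (h + 1) + (2 * (h : ℝ) + 2) * lsA x h) / (2 * (h : ℝ) + 3)

theorem lsA_deriv (h : ℕ) (x : ℝ) : HasDerivAt (fun x => lsA x h) ((1 - x ^ 2) ^ h) x := by
  induction h with
  | zero => simpa [lsA] using hasDerivAt_id' x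
  | succ h ih =>
    have h1 : HasDerivAt (fun x : ℝ => 1 - x ^ 2) (-(2 * x)) x := by
      have := (hasDerivAt_pow 2 x).const_sub 1
      simpa using this
    have h2 := ((hasDerivAt_id x).mul (h1.pow (h + 1))).add (ih.const_mul (2 * (h : ℝ) + 2))
    have h3 := h2.div_const (2 * (h : ℝ) + 3)
    refine h3.congr_deriv ?_
    have e : h + 1 - 1 = h := by omega
    rw [e]
    have hne : (2 * (h : ℝ) + 3) ≠ 0 := by positivity
    simp only [id, Pi.pow_apply]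
    push_cast
    field_simp
    ring

theorem lsA_zero (h : ℕ) : lsA 0 h = 0 := by
  induction h with
  | zero => simp [lsA]
  | succ h ih => simp [lsA, ih]

theorem lsA_int (h : ℕ) (a b : ℝ) : ∫ t in a..b, (1 - t ^ 2) ^ h = lsA b h - lsA a h := by
  apply intervalIntegral.integral_eq_sub_of_hasDerivAt (fun x _ => lsA_deriv h x)
  exact (by fun_prop : Continuous fun t : ℝ => (1 - t ^ 2) ^ h).intervalIntegrable _ _

theorem ls_sq_sq {t : ℝ} (h0 : 0 ≤ t) (h1 : t ≤ 1) : sq t ^ 2 = 1 - t ^ 2 := by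
  unfold sq
  exact Real.sq_sqrt (by linarith only [mul_nonneg (sub_nonneg.2 h1) (sub_nonneg.2 h1), mul_nonneg (sub_nonneg.2 h0) (sub_nonneg.2 h1)])

theorem ls_even (h : ℕ) {a b : ℝ} (ha : 0 ≤ a) (hab : a ≤ b) (hb : b ≤ 1) :
    ∫ t in a..b, sq t ^ (2 * h) = lsA b h - lsA a h := by
  rw [← lsA_int]
  apply intervalIntegral.integral_congr
  intro t ht
  rw [uIcc_of_le hab] at ht
  simp only
  rw [pow_mul, ls_sq_sq (ha.trans ht.1) (ht.2.trans hb)]

theorem ls_odd_pt {s : ℝ} (h0 : 0 ≤ s) (h1 : s ≤ 1) (h : ℕ) :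
    (15 * s ^ (2 * (h + 1)) - 10 * s ^ (2 * (h + 2)) + 3 * s ^ (2 * (h + 3))) / 8 ≤
      s ^ (2 * h + 1) := by
  have h2 : 0 ≤ s ^ (2 * h + 1) * ((1 - s) ^ 3 * (8 + 9 * s + 3 * s ^ 2)) := by
    have : 0 ≤ 1 - s := by linarith
    positivity
  have e1 : s ^ (2 * (h + 1)) = s ^ (2 * h + 1) * s := by ring
  have e2 : s ^ (2 * (h + 2)) = s ^ (2 * h + 1) * s ^ 3 := by ring
  have e3 : s ^ (2 * (h + 3)) = s ^ (2 * h + 1) * s ^ 5 := by ring
  rw [e1, e2, e3]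
  linarith only [h2]

theorem ls_odd (h : ℕ) {x : ℝ} (hx0 : 0 ≤ x) (hx : x ≤ 1) :
    (15 * (lsA 1 (h + 1) - lsA x (h + 1)) - 10 * (lsA 1 (h + 2) - lsA x (h + 2)) +
      3 * (lsA 1 (h + 3) - lsA x (h + 3))) / 8 ≤ ∫ t in x..1, sq t ^ (2 * h + 1) := by
  rw [← ls_even (h + 1) hx0 hx le_rfl, ← ls_even (h + 2) hx0 hx le_rfl,
    ← ls_even (h + 3) hx0 hx le_rfl]
  have h1 : ∫ t in x..1, (15 * sq t ^ (2 * (h + 1)) - 10 * sq t ^ (2 * (h + 2)) +
      3 * sq t ^ (2 * (h + 3))) / 8 ≤ ∫ t in x..1, sq t ^ (2 * h + 1) := by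
    apply intervalIntegral.integral_mono_on hx _ (cn_sq_pow_ii _ _ _)
    · intro t _
      exact ls_odd_pt (cn_sq_nonneg t) (cn_sq_le_one t) h
    · exact (((((cn_sq_pow_ii _ _ _).const_mul _).sub ((cn_sq_pow_ii _ _ _).const_mul _)).add
        ((cn_sq_pow_ii _ _ _).const_mul _))).div_const _
  rw [intervalIntegral.integral_div, intervalIntegral.integral_add, intervalIntegral.integral_sub,
    intervalIntegral.integral_const_mul, intervalIntegral.integral_const_mul,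
    intervalIntegral.integral_const_mul] at h1
  · exact h1
  · exact (cn_sq_pow_ii _ _ _).const_mul _
  · exact (cn_sq_pow_ii _ _ _).const_mul _
  · exact ((cn_sq_pow_ii _ _ _).const_mul _).sub ((cn_sq_pow_ii _ _ _).const_mul _)
  · exact (cn_sq_pow_ii _ _ _).const_mul _

/-- `∫₀^{θ y} ≥ θ ∫₀^y` -/
theorem LE_conc (k : ℕ) {E y θ : ℝ} (hE0 : 0 ≤ E) (hE1 : E ≤ 1) (hy0 : 0 ≤ y) (hy1 : y ≤ 1)
    (hθ0 : 0 < θ) (hθ1 : θ ≤ 1) : θ * LE k E y ≤ LE k E (θ * y) := by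
  unfold LE
  have h1 := intervalIntegral.integral_comp_mul_left (a := 0) (b := y)
    (fun t => (1 - (1 - E) * t) ^ k) hθ0.ne'
  simp only [smul_eq_mul, mul_zero] at h1
  have h2 : ∫ t in (0 : ℝ)..(θ * y), (1 - (1 - E) * t) ^ k =
      θ * ∫ t in (0 : ℝ)..y, (1 - (1 - E) * (θ * t)) ^ k := by
    rw [h1, ← mul_assoc, mul_inv_cancel₀ hθ0.ne', one_mul]
  rw [h2]
  apply mul_le_mul_of_nonneg_left _ hθ0.le
  apply intervalIntegral.integral_mono_on hy0 (LE_ii _ _ _ _)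
    ((by fun_prop : Continuous fun t : ℝ =>
      (1 - (1 - E) * (θ * t)) ^ k).intervalIntegrable _ _)
  intro t ht
  apply pow_le_pow_left₀ (LE_base hE0 hE1 ht.1 (ht.2.trans hy1))
  have h3 : θ * t ≤ 1 * t := mul_le_mul_of_nonneg_right hθ1 ht.1
  linarith only [mul_le_mul_of_nonneg_left h3 (show 0 ≤ 1 - E by linarith)]

/-! ### integer checks -/

/-- power, fast in the kernel -/
def ipw : ℤ → ℕ → ℤ
  | Int.ofNat k, n => Int.ofNat (Nat.pow k n)
  | Int.negSucc k, n => (Int.negSucc k) ^ n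

theorem ipw_cast (a : ℤ) (n : ℕ) : ((ipw a n : ℤ) : ℝ) = (a : ℝ) ^ n := by
  cases a with
  | ofNat k => simp [ipw]
  | negSucc k => simp [ipw]

/-- scale -/
def lsD : ℤ := 10000000

theorem lsD_cast : ((lsD : ℤ) : ℝ) = 10000000 := by
  unfold lsD
  norm_num

/-- the test proper -/
def tT (m : ℕ) (z f k a u : ℤ) : Bool :=
  if f = lsD then decide (a * k < z * u) else
    decide (a * (ipw lsD (m + 1) - ipw f (m + 1)) * ipw k (m + 1) <
      z * (ipw (k * lsD) (m + 1) - ipw (k * lsD - (lsD - f) * u) (m + 1)))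

theorem tT_sound {m : ℕ} {z f k a u : ℤ} (hf : f ≤ lsD) (hk : 0 < k)
    (h : tT m z f k a u = true) :
    (a : ℝ) / lsD * LE m (f / lsD) 1 < (z : ℝ) / lsD * LE m (f / lsD) ((u / lsD) / (k / lsD)) := by
  have hD : (0 : ℝ) < (lsD : ℝ) := by rw [lsD_cast]; norm_num
  have hk' : (0 : ℝ) < (k : ℝ) := by exact_mod_cast hk
  have huk : ((u : ℝ) / lsD) / ((k : ℝ) / lsD) = u / k := by
    field_simp
  rw [huk]
  unfold tT at h
  split_ifs at h with hfD
  · rw [decide_eq_true_eq] at h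
    have h1 : (a : ℝ) * k < z * u := by exact_mod_cast h
    have e : ((f : ℤ) : ℝ) / lsD = 1 := by rw [hfD]; exact div_self hD.ne'
    rw [e, LE_one, LE_one]
    rw [mul_one, div_mul_div_comm, div_lt_div_iff₀ hD (by positivity)]
    (by_contra nlg; linarith only [nlg, mul_pos (sub_pos.2 hD) (sub_pos.2 h1), mul_nonneg (mul_self_nonneg (1 : ℝ)) (sub_nonneg.2 (not_lt.1 nlg))])
  · rw [decide_eq_true_eq] at h
    have h1 : (a : ℝ) * ((lsD : ℝ) ^ (m + 1) - (f : ℝ) ^ (m + 1)) * (k : ℝ) ^ (m + 1) <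
        z * (((k : ℝ) * lsD) ^ (m + 1) - ((k : ℝ) * lsD - ((lsD : ℝ) - f) * u) ^ (m + 1)) := by
      have h2 : ((a * (ipw lsD (m + 1) - ipw f (m + 1)) * ipw k (m + 1) : ℤ) : ℝ) <
        ((z * (ipw (k * lsD) (m + 1) - ipw (k * lsD - (lsD - f) * u) (m + 1)) : ℤ) : ℝ) := by
        exact_mod_cast h
      push_cast at h2
      rw [ipw_cast, ipw_cast, ipw_cast, ipw_cast, ipw_cast] at h2
      push_cast at h2
      exact h2
    have hf' : (f : ℝ) < lsD := by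
      have : f < lsD := lt_of_le_of_ne hf hfD
      exact_mod_cast this
    have hF : 0 < 1 - (f : ℝ) / lsD := by
      rw [sub_pos, div_lt_one hD]
      exact hf'
    have hm : (0 : ℝ) < (m : ℝ) + 1 := by positivity
    have l1 := LE_mul m ((f : ℝ) / lsD) 1
    have l2 := LE_mul m ((f : ℝ) / lsD) ((u : ℝ) / k)
    have key : (a : ℝ) / lsD * (1 - ((f : ℝ) / lsD) ^ (m + 1)) <
        z / lsD * (1 - (1 - (1 - (f : ℝ) / lsD) * (u / k)) ^ (m + 1)) := by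
      have hDk : 0 < (lsD : ℝ) ^ (m + 1) * (k : ℝ) ^ (m + 1) * lsD := by positivity
      refine lt_of_mul_lt_mul_right ?_ hDk.le
      have e1 : (a : ℝ) / lsD * (1 - ((f : ℝ) / lsD) ^ (m + 1)) *
          ((lsD : ℝ) ^ (m + 1) * (k : ℝ) ^ (m + 1) * lsD) =
          (a : ℝ) * ((lsD : ℝ) ^ (m + 1) - (f : ℝ) ^ (m + 1)) * (k : ℝ) ^ (m + 1) := by
        rw [div_pow]
        field_simp
      have e2 : (z : ℝ) / lsD * (1 - (1 - (1 - (f : ℝ) / lsD) * (u / k)) ^ (m + 1)) *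
          ((lsD : ℝ) ^ (m + 1) * (k : ℝ) ^ (m + 1) * lsD) =
          z * (((k : ℝ) * lsD) ^ (m + 1) - ((k : ℝ) * lsD - ((lsD : ℝ) - f) * u) ^ (m + 1)) := by
        have e3 : ((k : ℝ) * lsD - ((lsD : ℝ) - f) * u) =
            (k * lsD) * (1 - (1 - (f : ℝ) / lsD) * (u / k)) := by
          field_simp
        rw [e3]
        generalize (1 - (1 - (f : ℝ) / lsD) * (u / k)) = q
        rw [mul_pow, mul_pow]
        field_simp
        ring
      rw [e1, e2]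
      exact h1
    have h3 : 0 < ((m : ℝ) + 1) * (1 - (f : ℝ) / lsD) := mul_pos hm hF
    refine lt_of_mul_lt_mul_left ?_ h3.le
    have e4 : ((m : ℝ) + 1) * (1 - (f : ℝ) / lsD) * ((a : ℝ) / lsD * LE m (f / lsD) 1) =
        (a : ℝ) / lsD * (1 - ((f : ℝ) / lsD) ^ (m + 1)) := by
      have e5 : 1 - (1 - (1 - (f : ℝ) / lsD) * 1) ^ (m + 1) = 1 - ((f : ℝ) / lsD) ^ (m + 1) := by
        congr 2
        ring
      rw [e5] at l1
      rw [← l1]
      ring
    have e6 : ((m : ℝ) + 1) * (1 - (f : ℝ) / lsD) * ((z : ℝ) / lsD * LE m (f / lsD) (u / k)) =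
        (z : ℝ) / lsD * (1 - (1 - (1 - (f : ℝ) / lsD) * (u / k)) ^ (m + 1)) := by
      rw [← l2]
      ring
    rw [e4, e6]
    exact key

/-- bound for the truncation point -/
def tK (m : ℕ) (z z' e k : ℤ) : Bool :=
  decide (ipw z' m * ipw (ipw lsD (m + 1) - ipw e (m + 1)) (m - 1) * ipw (m : ℤ) m * (lsD - e) ≤
    k * ipw (ipw lsD m - ipw e m) m * ipw z (m - 1) * ipw ((m : ℤ) + 1) (m - 1))

theorem tK_alg (n : ℕ) {z' z N1 N0 k D d p q : ℝ} (hD : 0 < D) (hd : 0 < d) (hp : 0 < p)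
    (hq : 0 < q) (h1 : z' ^ (n + 1) * N1 ^ n * p ^ (n + 1) * d ≤
      k * N0 ^ (n + 1) * z ^ n * q ^ n) :
    (z' / D) ^ (n + 1) * (N1 / (q * d * D ^ (n + 1))) ^ n ≤
      k / D * ((N0 / (p * d * D ^ n)) ^ (n + 1) * (z / D) ^ n) := by
  have h2 : 0 < p ^ (n + 1) * d * q ^ n * d ^ n * D ^ (n + 1) * (D ^ (n + 1)) ^ n := by
    positivity
  refine le_of_mul_le_mul_right ?_ h2
  have e1 : (z' / D) ^ (n + 1) * (N1 / (q * d * D ^ (n + 1))) ^ n *
      (p ^ (n + 1) * d * q ^ n * d ^ n * D ^ (n + 1) * (D ^ (n + 1)) ^ n) =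
      z' ^ (n + 1) * N1 ^ n * p ^ (n + 1) * d := by
    rw [div_pow, div_pow, mul_pow, mul_pow]
    field_simp
  have e2 : k / D * ((N0 / (p * d * D ^ n)) ^ (n + 1) * (z / D) ^ n) *
      (p ^ (n + 1) * d * q ^ n * d ^ n * D ^ (n + 1) * (D ^ (n + 1)) ^ n) =
      k * N0 ^ (n + 1) * z ^ n * q ^ n := by
    have e3 : (D ^ (n + 1)) ^ n = (D ^ n) ^ (n + 1) := by
      rw [← pow_mul, ← pow_mul, mul_comm]
    rw [e3, div_pow, div_pow, mul_pow, mul_pow]
    have e4 : D ^ (n + 1) = D * D ^ n := by ring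
    have e5 : d ^ (n + 1) = d * d ^ n := by ring
    rw [e4, e5]
    field_simp
  rw [e1, e2]
  exact h1

theorem tK_sound {m : ℕ} (hm : 1 ≤ m) {z z' e k : ℤ} (he : e < lsD)
    (h : tK m z z' e k = true) :
    ((z' : ℝ) / lsD) ^ m * LE m (e / lsD) 1 ^ (m - 1) ≤
      (k : ℝ) / lsD * (LE (m - 1) (e / lsD) 1 ^ m * ((z : ℝ) / lsD) ^ (m - 1)) := by
  obtain ⟨n, rfl⟩ : ∃ n, m = n + 1 := ⟨m - 1, by omega⟩
  have e1 : n + 1 - 1 = n := by omega
  unfold tK at h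
  rw [decide_eq_true_eq, e1] at h
  rw [e1]
  have hD : (0 : ℝ) < (lsD : ℝ) := by rw [lsD_cast]; norm_num
  have h1 : (z' : ℝ) ^ (n + 1) * ((lsD : ℝ) ^ (n + 2) - (e : ℝ) ^ (n + 2)) ^ n *
      ((n : ℝ) + 1) ^ (n + 1) * ((lsD : ℝ) - e) ≤
      k * ((lsD : ℝ) ^ (n + 1) - (e : ℝ) ^ (n + 1)) ^ (n + 1) * (z : ℝ) ^ n *
        ((n : ℝ) + 2) ^ n := by
    have h2 : ((ipw z' (n + 1) * ipw (ipw lsD (n + 1 + 1) - ipw e (n + 1 + 1)) n *
        ipw ((n + 1 : ℕ) : ℤ) (n + 1) * (lsD - e) : ℤ) : ℝ) ≤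
        ((k * ipw (ipw lsD (n + 1) - ipw e (n + 1)) (n + 1) * ipw z n *
          ipw (((n + 1 : ℕ) : ℤ) + 1) n : ℤ) : ℝ) := by
      exact_mod_cast h
    push_cast at h2
    rw [ipw_cast, ipw_cast, ipw_cast, ipw_cast, ipw_cast, ipw_cast] at h2
    push_cast at h2
    rw [ipw_cast, ipw_cast, ipw_cast, ipw_cast] at h2
    have e2 : (n : ℝ) + 1 + 1 = n + 2 := by ring
    rw [e2] at h2
    exact h2
  have he' : (e : ℝ) < lsD := by exact_mod_cast he
  have hF : 0 < 1 - (e : ℝ) / lsD := by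
    rw [sub_pos, div_lt_one hD]
    exact he'
  have l1 := LE_mul (n + 1) ((e : ℝ) / lsD) 1
  have l2 := LE_mul n ((e : ℝ) / lsD) 1
  have e6 : (1 - (1 - (e : ℝ) / lsD) * 1) = (e : ℝ) / lsD := by ring
  rw [e6] at l1 l2
  have hn1 : (0 : ℝ) < (n : ℝ) + 1 := by positivity
  have hn2 : (0 : ℝ) < (n : ℝ) + 2 := by positivity
  have hde : (0 : ℝ) < (lsD : ℝ) - e := by linarith only [he']
  have v1 : LE (n + 1) (e / lsD) 1 = ((lsD : ℝ) ^ (n + 2) - (e : ℝ) ^ (n + 2)) /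
      (((n : ℝ) + 2) * ((lsD : ℝ) - e) * (lsD : ℝ) ^ (n + 1)) := by
    rw [eq_div_iff (by (clear * - he' hD; positivity))]
    have h3 : LE (n + 1) (e / lsD) 1 * (((n : ℝ) + 2) * (1 - (e : ℝ) / lsD)) =
        1 - ((e : ℝ) / lsD) ^ (n + 2) := by
      rw [← l1]
      push_cast
      ring
    have h4 : LE (n + 1) (e / lsD) 1 * (((n : ℝ) + 2) * ((lsD : ℝ) - e) * (lsD : ℝ) ^ (n + 1)) =
        LE (n + 1) (e / lsD) 1 * (((n : ℝ) + 2) * (1 - (e : ℝ) / lsD)) * (lsD : ℝ) ^ (n + 2) := by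
      field_simp
      ring
    rw [h4, h3, sub_mul, one_mul, div_pow, div_mul_cancel₀ _ (by positivity)]
  have v2 : LE n (e / lsD) 1 = ((lsD : ℝ) ^ (n + 1) - (e : ℝ) ^ (n + 1)) /
      (((n : ℝ) + 1) * ((lsD : ℝ) - e) * (lsD : ℝ) ^ n) := by
    rw [eq_div_iff (by (clear * - he' hD; positivity))]
    have h3 : LE n (e / lsD) 1 * (((n : ℝ) + 1) * (1 - (e : ℝ) / lsD)) =
        1 - ((e : ℝ) / lsD) ^ (n + 1) := by
      rw [← l2]
      ring
    have h4 : LE n (e / lsD) 1 * (((n : ℝ) + 1) * ((lsD : ℝ) - e) * (lsD : ℝ) ^ n) =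
        LE n (e / lsD) 1 * (((n : ℝ) + 1) * (1 - (e : ℝ) / lsD)) * (lsD : ℝ) ^ (n + 1) := by
      field_simp
      ring
    rw [h4, h3, sub_mul, one_mul, div_pow, div_mul_cancel₀ _ (by positivity)]
  rw [v1, v2]
  exact tK_alg n hD hde hn1 hn2 h1

end Vale.Agent.P237.AllN
end

section

/-!
# P237, all dimensions: `l ≤ (1 - x²)(31/50 + 7/50 x²)`, the checker
-/

open MeasureTheory Metric Set Module Filter Topology Real

namespace Vale.Agent.P237.AllN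

theorem lsD_pos : (0 : ℝ) < (lsD : ℝ) := by rw [lsD_cast]; norm_num

/-- all cells -/
def tCells (m : ℕ) (z z' : ℤ) (p0 : ℤ × ℤ) (prs : List (ℤ × ℤ)) : ℤ → List (ℤ × ℤ) → Bool
  | e, [] => decide (lsD ≤ e)
  | e, (f, k) :: l =>
    decide (e < lsD) && decide (0 ≤ f) && decide (f ≤ lsD) && decide (0 < k) &&
      (decide (lsD ≤ k) || tK m z z' e k) && decide (p0.2 ≤ k) && tT m z f k p0.1 p0.2 &&
      (prs.all fun p => decide (k ≤ p.2) || tT m z f k p.1 p.2) && tCells m z z' p0 prs f l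

theorem tCells_sound {m : ℕ} (hm : 1 ≤ m) {z z' : ℤ} {Z Z' : ℝ} (hz0 : 0 < z)
    (hz : (z : ℝ) / lsD ≤ Z) (hz' : Z' ≤ (z' : ℝ) / lsD) (hZ'0 : 0 < Z') {p0 : ℤ × ℤ}
    {prs : List (ℤ × ℤ)} (hp0 : 0 < p0.2) :
    ∀ (l : List (ℤ × ℤ)) (e : ℤ), 0 ≤ e → tCells m z z' p0 prs e l = true →
    ∀ E κ τ P : ℝ, (e : ℝ) / lsD ≤ E → ((e : ℝ) / lsD < E ∨ l ≠ []) → E ≤ 1 → 0 < τ → τ ≤ κ →
      κ ≤ 1 → P * LE m E 1 = Z * LE m E (τ / κ) →
      κ * (LE (m - 1) E 1 ^ m * Z ^ (m - 1)) ≤ Z' ^ m * LE m E 1 ^ (m - 1) →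
      (∀ θ : ℝ, 0 < θ → θ ≤ 1 → P ≤ θ * ((p0.1 : ℝ) / lsD) → τ ≤ θ * ((p0.2 : ℝ) / lsD)) ∧
      (∀ p ∈ prs, 0 < p.2 → P ≤ (p.1 : ℝ) / lsD → τ ≤ (p.2 : ℝ) / lsD) := by
  intro l
  have hD := lsD_pos
  induction l with
  | nil =>
    intro e he h E κ τ P hE hE' hE1
    exfalso
    rcases hE' with hE' | hE'
    · unfold tCells at h
      rw [decide_eq_true_eq] at h
      have h1 : (lsD : ℝ) ≤ e := by exact_mod_cast h
      have h2 : 1 ≤ (e : ℝ) / lsD := by rw [le_div_iff₀ hD]; linarith only [h1]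
      linarith only [h2, hE', hE1]
    · exact hE' rfl
  | cons c l ih =>
    obtain ⟨f, k⟩ := c
    intro e he h E κ τ P hE _ hE1 hτ0 hτκ hκ1 hP hκ
    unfold tCells at h
    simp only [Bool.and_eq_true, Bool.or_eq_true, decide_eq_true_eq, List.all_eq_true] at h
    obtain ⟨⟨⟨⟨⟨⟨⟨⟨he1, hf0⟩, hfD⟩, hk0⟩, hK⟩, hp0k⟩, hT0⟩, hTs⟩, hrec⟩ := h
    rcases le_or_gt E ((f : ℝ) / lsD) with hEf | hEf
    · -- this cell
      have he0 : (0 : ℝ) ≤ (e : ℝ) / lsD := by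
        have : (0 : ℝ) ≤ (e : ℝ) := by exact_mod_cast he
        (clear * - he hD; positivity)
      have hE0 : 0 ≤ E := he0.trans hE
      have hF1 : (f : ℝ) / lsD ≤ 1 := by
        rw [div_le_one hD]
        exact_mod_cast hfD
      have hk0' : (0 : ℝ) < (k : ℝ) := by exact_mod_cast hk0
      have hz0' : (0 : ℝ) < (z : ℝ) := by exact_mod_cast hz0
      have hZ0 : 0 < Z := lt_of_lt_of_le (by (clear * - hz0 hD; positivity)) hz
      have hκk : κ ≤ (k : ℝ) / lsD := by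
        rcases hK with hK | hK
        · refine hκ1.trans ?_
          rw [le_div_iff₀ hD, one_mul]
          exact_mod_cast hK
        · have h1 := tK_sound hm he1 hK
          have he1' : (e : ℝ) / lsD ≤ 1 := by
            rw [div_le_one hD]
            exact_mod_cast he1.le
          have p1 := LE_pos m he0 he1' zero_lt_one le_rfl
          have p2 := LE_pos (m - 1) he0 he1' zero_lt_one le_rfl
          refine LE_kap hm he0 hE hE1 hZ0 hZ'0 hκ ?_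
          calc Z' ^ m * LE m ((e : ℝ) / lsD) 1 ^ (m - 1)
              ≤ ((z' : ℝ) / lsD) ^ m * LE m ((e : ℝ) / lsD) 1 ^ (m - 1) := by
                apply mul_le_mul_of_nonneg_right _ (by (clear * - p1; positivity))
                exact pow_le_pow_left₀ hZ'0.le hz' m
            _ ≤ (k : ℝ) / lsD * (LE (m - 1) ((e : ℝ) / lsD) 1 ^ m * ((z : ℝ) / lsD) ^ (m - 1)) := h1
            _ ≤ (k : ℝ) / lsD * (LE (m - 1) ((e : ℝ) / lsD) 1 ^ m * Z ^ (m - 1)) := by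
                apply mul_le_mul_of_nonneg_left _ (by (clear * - hk0 hD; positivity))
                apply mul_le_mul_of_nonneg_left _ (by (clear * - p2; positivity))
                exact pow_le_pow_left₀ (by (clear * - hz0 hD; positivity)) hz _
      have hF0 : 0 ≤ (f : ℝ) / lsD := hE0.trans hEf
      have pF := LE_pos m hF0 hF1 zero_lt_one le_rfl
      constructor
      · intro θ hθ0 hθ1 hPθ
        have h2 := tT_sound hfD hk0 hT0
        have hu0 : (0 : ℝ) < (p0.2 : ℝ) := by exact_mod_cast hp0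
        have hy0 : 0 ≤ ((p0.2 : ℝ) / lsD) / ((k : ℝ) / lsD) := by (clear * - hp0 hD hk0; (clear * - hp0 hD hk0; positivity))
        have hy1 : ((p0.2 : ℝ) / lsD) / ((k : ℝ) / lsD) ≤ 1 := by
          rw [div_le_one (by (clear * - hk0 hD; positivity))]
          apply div_le_div_of_nonneg_right _ hD.le
          exact_mod_cast hp0k
        refine LE_cell hE0 hEf hF1 hτ0 hτκ hκk (by (clear * - hθ0 hp0 hD; positivity)) hZ0 hP ?_
        intro _
        have h3 := LE_conc m hF0 hF1 hy0 hy1 hθ0 hθ1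
        have e1 : θ * ((p0.2 : ℝ) / lsD) / ((k : ℝ) / lsD) =
            θ * (((p0.2 : ℝ) / lsD) / ((k : ℝ) / lsD)) := by ring
        rw [e1]
        have py : 0 ≤ LE m ((f : ℝ) / lsD) (((p0.2 : ℝ) / lsD) / ((k : ℝ) / lsD)) := by
          have h4 := LE_mono m hF0 hF1 le_rfl hy0 hy1
          have h5 : LE m ((f : ℝ) / lsD) 0 = 0 := by simp only [LE, intervalIntegral.integral_same]
          rw [h5] at h4
          exact h4
        calc P * LE m ((f : ℝ) / lsD) 1 ≤ θ * ((p0.1 : ℝ) / lsD) * LE m ((f : ℝ) / lsD) 1 :=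
              mul_le_mul_of_nonneg_right hPθ pF.le
          _ = θ * ((p0.1 : ℝ) / lsD * LE m ((f : ℝ) / lsD) 1) := by ring
          _ < θ * ((z : ℝ) / lsD * LE m ((f : ℝ) / lsD)
                (((p0.2 : ℝ) / lsD) / ((k : ℝ) / lsD))) := mul_lt_mul_of_pos_left h2 hθ0
          _ = (z : ℝ) / lsD * (θ * LE m ((f : ℝ) / lsD)
                (((p0.2 : ℝ) / lsD) / ((k : ℝ) / lsD))) := by ring
          _ ≤ Z * (θ * LE m ((f : ℝ) / lsD) (((p0.2 : ℝ) / lsD) / ((k : ℝ) / lsD))) :=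
              mul_le_mul_of_nonneg_right hz (mul_nonneg hθ0.le py)
          _ ≤ Z * LE m ((f : ℝ) / lsD) (θ * (((p0.2 : ℝ) / lsD) / ((k : ℝ) / lsD))) :=
              mul_le_mul_of_nonneg_left h3 hZ0.le
      · intro p hp hp2 hPp
        have hu0 : (0 : ℝ) < (p.2 : ℝ) := by exact_mod_cast hp2
        refine LE_cell hE0 hEf hF1 hτ0 hτκ hκk (by (clear * - hp2 hD; positivity)) hZ0 hP ?_
        intro hX
        have hpk : p.2 < k := by
          have h3 : (p.2 : ℝ) < k := by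
            have := mul_lt_mul_of_pos_right hX hD
            rwa [div_mul_cancel₀ _ hD.ne', div_mul_cancel₀ _ hD.ne'] at this
          exact_mod_cast h3
        have h4 : tT m z f k p.1 p.2 = true := by
          rcases hTs p hp with h5 | h5
          · exact absurd h5 (not_le.2 hpk)
          · exact h5
        have h2 := tT_sound hfD hk0 h4
        have hy0 : 0 ≤ ((p.2 : ℝ) / lsD) / ((k : ℝ) / lsD) := by (clear * - hp2 hD hk0; positivity)
        have hy1 : ((p.2 : ℝ) / lsD) / ((k : ℝ) / lsD) ≤ 1 := by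
          rw [div_le_one (by positivity)]
          apply div_le_div_of_nonneg_right _ hD.le
          exact_mod_cast hpk.le
        have py : 0 ≤ LE m ((f : ℝ) / lsD) (((p.2 : ℝ) / lsD) / ((k : ℝ) / lsD)) := by
          have h4 := LE_mono m hF0 hF1 le_rfl hy0 hy1
          have h5 : LE m ((f : ℝ) / lsD) 0 = 0 := by simp only [LE, intervalIntegral.integral_same]
          rw [h5] at h4
          exact h4
        calc P * LE m ((f : ℝ) / lsD) 1 ≤ (p.1 : ℝ) / lsD * LE m ((f : ℝ) / lsD) 1 :=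
              mul_le_mul_of_nonneg_right hPp pF.le
          _ < (z : ℝ) / lsD * LE m ((f : ℝ) / lsD) (((p.2 : ℝ) / lsD) / ((k : ℝ) / lsD)) := h2
          _ ≤ Z * LE m ((f : ℝ) / lsD) (((p.2 : ℝ) / lsD) / ((k : ℝ) / lsD)) :=
              mul_le_mul_of_nonneg_right hz py
    · exact ih f hf0 hrec E κ τ P hEf.le (Or.inl hEf) hE1 hτ0 hτκ hκ1 hP hκ

/-- check of `u / D ≤ X(n / M)`, `M = 10000` -/
def tU (n u : ℤ) : Bool :=
  decide (u * 10000 * 24 * ipw 1000000000000000000 4 ≤ lsD * n *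
    (24 * ipw 1000000000000000000 4 +
      24 * ((100000000 - n * n) * (6200000000 + 14 * (n * n))) * ipw 1000000000000000000 3 +
      12 * ipw ((100000000 - n * n) * (6200000000 + 14 * (n * n))) 2 *
        ipw 1000000000000000000 2 +
      4 * ipw ((100000000 - n * n) * (6200000000 + 14 * (n * n))) 3 * 1000000000000000000 +
      ipw ((100000000 - n * n) * (6200000000 + 14 * (n * n))) 4))

theorem tU_sound {n u : ℤ} (hn : 0 < n) (hn1 : n ≤ 10000) (h : tU n u = true) :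
    (u : ℝ) / lsD ≤ lsX ((n : ℝ) / 10000) := by
  have hD := lsD_pos
  unfold tU at h
  rw [decide_eq_true_eq] at h
  set T : ℤ := (100000000 - n * n) * (6200000000 + 14 * (n * n)) with hT
  have h1 : (u : ℝ) * 10000 * 24 * (1000000000000000000 : ℝ) ^ 4 ≤ lsD * n *
    (24 * (1000000000000000000 : ℝ) ^ 4 + 24 * (T : ℝ) * (1000000000000000000 : ℝ) ^ 3 +
      12 * (T : ℝ) ^ 2 * (1000000000000000000 : ℝ) ^ 2 +
      4 * (T : ℝ) ^ 3 * 1000000000000000000 + (T : ℝ) ^ 4) := by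
    have h2 : ((u * 10000 * 24 * ipw 1000000000000000000 4 : ℤ) : ℝ) ≤ ((lsD * n *
      (24 * ipw 1000000000000000000 4 + 24 * T * ipw 1000000000000000000 3 +
      12 * ipw T 2 * ipw 1000000000000000000 2 + 4 * ipw T 3 * 1000000000000000000 +
      ipw T 4) : ℤ) : ℝ) := by exact_mod_cast h
    push_cast at h2
    rw [ipw_cast, ipw_cast, ipw_cast, ipw_cast, ipw_cast, ipw_cast] at h2
    push_cast at h2
    exact h2
  have hn' : (0 : ℝ) < (n : ℝ) := by exact_mod_cast hn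
  have hn1' : (n : ℝ) ≤ 10000 := by exact_mod_cast hn1
  set t : ℝ := (1 - ((n : ℝ) / 10000) ^ 2) * (31 / 50 + 7 / 50 * ((n : ℝ) / 10000) ^ 2) with ht
  have hTt : (T : ℝ) = t * 1000000000000000000 := by
    rw [hT, ht]
    push_cast
    ring
  have ht0 : 0 ≤ t := by
    rw [ht]
    have h3 : ((n : ℝ) / 10000) ≤ 1 := by rw [div_le_one (by norm_num)]; exact hn1'
    have h4 : 0 ≤ (n : ℝ) / 10000 := by positivity
    have h5 : ((n : ℝ) / 10000) ^ 2 ≤ 1 := pow_le_one₀ h4 h3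
    apply mul_nonneg (by linarith only [h5]) (by positivity)
  have hexp := ls_exp_lower ht0
  unfold lsX
  rw [← ht]
  have h6 : (u : ℝ) ≤ lsD * ((n : ℝ) / 10000 * (1 + t + t ^ 2 / 2 + t ^ 3 / 6 + t ^ 4 / 24)) := by
    rw [hTt] at h1
    have h7 : (0 : ℝ) < 10000 * 24 * (1000000000000000000 : ℝ) ^ 4 := by norm_num
    refine le_of_mul_le_mul_right ?_ h7
    calc (u : ℝ) * (10000 * 24 * (1000000000000000000 : ℝ) ^ 4)
        = u * 10000 * 24 * (1000000000000000000 : ℝ) ^ 4 := by ring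
      _ ≤ _ := h1
      _ = _ := by ring
  rw [div_le_iff₀ hD]
  calc (u : ℝ) ≤ lsD * ((n : ℝ) / 10000 * (1 + t + t ^ 2 / 2 + t ^ 3 / 6 + t ^ 4 / 24)) := h6
    _ ≤ lsD * ((n : ℝ) / 10000 * exp t) := by
        apply mul_le_mul_of_nonneg_left _ hD.le
        exact mul_le_mul_of_nonneg_left hexp (by positivity)
    _ = _ := by ring

/-- double factorial -/
def lsF : ℕ → ℤ
  | 0 => 1
  | h + 1 => lsF h * (2 * (h : ℤ) + 3)

theorem lsF_pos (h : ℕ) : 0 < lsF h := by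
  induction h with
  | zero => simp only [lsF, zero_lt_one]
  | succ h ih =>
    rw [lsF]
    (clear * - ih; positivity)

/-- scaled integral -/
def lsB (n : ℤ) : ℕ → ℤ
  | 0 => n
  | h + 1 => lsF h * n * ipw (100000000 - n * n) (h + 1) +
      (2 * (h : ℤ) + 2) * 100000000 * lsB n h

theorem lsB_eq (n : ℤ) (h : ℕ) : (lsB n h : ℝ) =
    lsA ((n : ℝ) / 10000) h * ((10000 : ℝ) ^ (2 * h + 1) * lsF h) := by
  induction h with
  | zero =>
    simp only [lsB, lsA, mul_zero, zero_add, pow_one, lsF, Int.cast_one, mul_one, isUnit_iff_ne_zero, ne_eq, OfNat.ofNat_ne_zero, not_false_eq_true, IsUnit.div_mul_cancel]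
  | succ h ih =>
    rw [lsB, lsA, lsF]
    push_cast
    rw [ih, ipw_cast]
    push_cast
    have h3 : (2 * (h : ℝ) + 3) ≠ 0 := by positivity
    have e1 : (1 - ((n : ℝ) / 10000) ^ 2) ^ (h + 1) * (10000 : ℝ) ^ (2 * (h + 1) + 1) =
        (100000000 - (n : ℝ) * n) ^ (h + 1) * 10000 := by
      have e2 : (10000 : ℝ) ^ (2 * (h + 1) + 1) = (100000000 : ℝ) ^ (h + 1) * 10000 := by
        rw [pow_succ, pow_mul]
        (clear * -; norm_num)
      rw [e2, ← mul_assoc, ← mul_pow]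
      congr 2
      ring
    have e4 : (10000 : ℝ) ^ (2 * (h + 1) + 1) = 100000000 * (10000 : ℝ) ^ (2 * h + 1) := by
      have : 2 * (h + 1) + 1 = 2 * h + 1 + 2 := by ring
      rw [this, pow_add]
      ring
    calc (lsF h : ℝ) * n * (100000000 - (n : ℝ) * n) ^ (h + 1) +
          (2 * (h : ℝ) + 2) * 100000000 *
            (lsA ((n : ℝ) / 10000) h * ((10000 : ℝ) ^ (2 * h + 1) * lsF h))
        = (lsF h : ℝ) * (n / 10000 * ((100000000 - (n : ℝ) * n) ^ (h + 1) * 10000)) +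
          (2 * (h : ℝ) + 2) * lsF h * lsA ((n : ℝ) / 10000) h *
            (100000000 * (10000 : ℝ) ^ (2 * h + 1)) := by ring
      _ = (lsF h : ℝ) * (n / 10000 * ((1 - ((n : ℝ) / 10000) ^ 2) ^ (h + 1) *
            (10000 : ℝ) ^ (2 * (h + 1) + 1))) +
          (2 * (h : ℝ) + 2) * lsF h * lsA ((n : ℝ) / 10000) h *
            (10000 : ℝ) ^ (2 * (h + 1) + 1) := by rw [e1, e4]
      _ = _ := by
          field_simp

/-- check of `A_m(n/M) ≤ a / D`, `m = 2 h` -/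
def tAe (h : ℕ) (n a : ℤ) : Bool :=
  decide (lsD * lsB n h ≤ a * ipw 10000 (2 * h + 1) * lsF h)

theorem tAe_sound {h : ℕ} {n a : ℤ} (hn : 0 ≤ n) (hn1 : n ≤ 10000) (hT : tAe h n a = true) :
    ∫ t in (0 : ℝ)..((n : ℝ) / 10000), sq t ^ (2 * h) ≤ (a : ℝ) / lsD := by
  have hD := lsD_pos
  unfold tAe at hT
  rw [decide_eq_true_eq] at hT
  have hn' : (0 : ℝ) ≤ (n : ℝ) := by exact_mod_cast hn
  have hn1' : (n : ℝ) ≤ 10000 := by exact_mod_cast hn1
  rw [ls_even h le_rfl (by (clear * - hn; positivity)) (by rw [div_le_one (by norm_num)]; exact hn1'), lsA_zero,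
    sub_zero]
  have h1 : (lsD : ℝ) * (lsB n h : ℝ) ≤ a * (10000 : ℝ) ^ (2 * h + 1) * lsF h := by
    have h2 : ((lsD * lsB n h : ℤ) : ℝ) ≤ ((a * ipw 10000 (2 * h + 1) * lsF h : ℤ) : ℝ) := by
      exact_mod_cast hT
    push_cast at h2
    rw [ipw_cast] at h2
    push_cast at h2
    exact h2
  rw [lsB_eq] at h1
  have hF : (0 : ℝ) < lsF h := by exact_mod_cast lsF_pos h
  have h3 : (0 : ℝ) < (10000 : ℝ) ^ (2 * h + 1) * lsF h := by positivity
  rw [le_div_iff₀ hD]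
  refine le_of_mul_le_mul_right ?_ h3
  calc lsA ((n : ℝ) / 10000) h * lsD * ((10000 : ℝ) ^ (2 * h + 1) * lsF h)
      = lsD * (lsA ((n : ℝ) / 10000) h * ((10000 : ℝ) ^ (2 * h + 1) * lsF h)) := by ring
    _ ≤ a * (10000 : ℝ) ^ (2 * h + 1) * lsF h := h1
    _ = _ := by ring

/-- check of `A_m(n/M) ≤ a / D`, `m = 2 h + 1` -/
def tAo (h : ℕ) (zh n a : ℤ) : Bool :=
  decide (8 * (zh - a) * (ipw 10000 (2 * h + 7) * lsF (h + 3)) ≤
    lsD * (15 * (lsB 10000 (h + 1) - lsB n (h + 1)) * 10000000000000000 * (2 * (h : ℤ) + 5) *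
        (2 * (h : ℤ) + 7) -
      10 * (lsB 10000 (h + 2) - lsB n (h + 2)) * 100000000 * (2 * (h : ℤ) + 7) +
      3 * (lsB 10000 (h + 3) - lsB n (h + 3))))

theorem tAo_sound {h : ℕ} {zh n a : ℤ} (hz : ∫ t in (0 : ℝ)..1, sq t ^ (2 * h + 1) ≤ (zh : ℝ) / lsD)
    (hn : 0 ≤ n) (hn1 : n ≤ 10000) (hT : tAo h zh n a = true) :
    ∫ t in (0 : ℝ)..((n : ℝ) / 10000), sq t ^ (2 * h + 1) ≤ (a : ℝ) / lsD := by
  have hD := lsD_pos
  unfold tAo at hT
  rw [decide_eq_true_eq] at hT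
  have hn' : (0 : ℝ) ≤ (n : ℝ) := by exact_mod_cast hn
  have hn1' : (n : ℝ) ≤ 10000 := by exact_mod_cast hn1
  have hx0 : 0 ≤ (n : ℝ) / 10000 := by positivity
  have hx1 : (n : ℝ) / 10000 ≤ 1 := by rw [div_le_one (by norm_num)]; exact hn1'
  have h4 := ls_odd h hx0 hx1
  have h5 := intervalIntegral.integral_add_adjacent_intervals
    (cn_sq_pow_ii (2 * h + 1) 0 ((n : ℝ) / 10000)) (cn_sq_pow_ii (2 * h + 1) ((n : ℝ) / 10000) 1)
  have hF : (0 : ℝ) < lsF (h + 3) := by exact_mod_cast lsF_pos (h + 3)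
  have hcast : ((8 * (zh - a) * (ipw 10000 (2 * h + 7) * lsF (h + 3)) : ℤ) : ℝ) ≤
    ((lsD * (15 * (lsB 10000 (h + 1) - lsB n (h + 1)) * 10000000000000000 * (2 * (h : ℤ) + 5) *
        (2 * (h : ℤ) + 7) -
      10 * (lsB 10000 (h + 2) - lsB n (h + 2)) * 100000000 * (2 * (h : ℤ) + 7) +
      3 * (lsB 10000 (h + 3) - lsB n (h + 3))) : ℤ) : ℝ) := by exact_mod_cast hT
  push_cast at hcast
  rw [ipw_cast, lsB_eq, lsB_eq, lsB_eq, lsB_eq, lsB_eq, lsB_eq] at hcast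
  push_cast at hcast
  have e0 : ((10000 : ℝ) / 10000) = 1 := by norm_num
  rw [e0] at hcast
  set x : ℝ := (n : ℝ) / 10000 with hx
  have f1 : (lsF (h + 3) : ℝ) = lsF (h + 1) * (2 * (h : ℝ) + 5) * (2 * (h : ℝ) + 7) := by
    have e1 : lsF (h + 3) = lsF (h + 1) * (2 * ((h + 1 : ℕ) : ℤ) + 3) *
      (2 * ((h + 2 : ℕ) : ℤ) + 3) := by
      rw [show h + 3 = h + 2 + 1 from rfl, lsF, show h + 2 = h + 1 + 1 from rfl, lsF]
    rw [e1]
    push_cast
    ring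
  have f2 : (lsF (h + 2) : ℝ) * (2 * (h : ℝ) + 7) = lsF (h + 3) := by
    have e1 : lsF (h + 3) = lsF (h + 2) * (2 * ((h + 2 : ℕ) : ℤ) + 3) := by
      rw [show h + 3 = h + 2 + 1 from rfl, lsF]
    rw [e1]
    push_cast
    ring
  have g1 : (10000 : ℝ) ^ (2 * (h + 1) + 1) * 10000000000000000 = (10000 : ℝ) ^ (2 * h + 7) := by
    have : 2 * h + 7 = 2 * (h + 1) + 1 + 4 := by ring
    rw [this, pow_add (10000 : ℝ) (2 * (h + 1) + 1) 4]
    congr 1
    norm_num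
  have g2 : (10000 : ℝ) ^ (2 * (h + 2) + 1) * 100000000 = (10000 : ℝ) ^ (2 * h + 7) := by
    have : 2 * h + 7 = 2 * (h + 2) + 1 + 2 := by ring
    rw [this, pow_add (10000 : ℝ) (2 * (h + 2) + 1) 2]
    congr 1
    norm_num
  have g3 : (10000 : ℝ) ^ (2 * (h + 3) + 1) = (10000 : ℝ) ^ (2 * h + 7) := by
    have : 2 * h + 7 = 2 * (h + 3) + 1 := by ring
    rw [this]
  have hS : (0 : ℝ) < (10000 : ℝ) ^ (2 * h + 7) * lsF (h + 3) := by (clear * - hF; positivity)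
  have key : 8 * ((zh : ℝ) - a) * ((10000 : ℝ) ^ (2 * h + 7) * lsF (h + 3)) ≤
      lsD * (15 * (lsA 1 (h + 1) - lsA x (h + 1)) - 10 * (lsA 1 (h + 2) - lsA x (h + 2)) +
      3 * (lsA 1 (h + 3) - lsA x (h + 3))) * ((10000 : ℝ) ^ (2 * h + 7) * lsF (h + 3)) := by
    refine hcast.trans (le_of_eq ?_)
    calc (lsD : ℝ) * (15 * (lsA 1 (h + 1) * ((10000 : ℝ) ^ (2 * (h + 1) + 1) * lsF (h + 1)) -
            lsA x (h + 1) * ((10000 : ℝ) ^ (2 * (h + 1) + 1) * lsF (h + 1))) *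
            10000000000000000 * (2 * (h : ℝ) + 5) * (2 * (h : ℝ) + 7) -
          10 * (lsA 1 (h + 2) * ((10000 : ℝ) ^ (2 * (h + 2) + 1) * lsF (h + 2)) -
            lsA x (h + 2) * ((10000 : ℝ) ^ (2 * (h + 2) + 1) * lsF (h + 2))) * 100000000 *
            (2 * (h : ℝ) + 7) +
          3 * (lsA 1 (h + 3) * ((10000 : ℝ) ^ (2 * (h + 3) + 1) * lsF (h + 3)) -
            lsA x (h + 3) * ((10000 : ℝ) ^ (2 * (h + 3) + 1) * lsF (h + 3))))
        = lsD * (15 * (lsA 1 (h + 1) - lsA x (h + 1)) *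
            ((10000 : ℝ) ^ (2 * (h + 1) + 1) * 10000000000000000) *
            (lsF (h + 1) * (2 * (h : ℝ) + 5) * (2 * (h : ℝ) + 7)) -
          10 * (lsA 1 (h + 2) - lsA x (h + 2)) *
            ((10000 : ℝ) ^ (2 * (h + 2) + 1) * 100000000) *
            (lsF (h + 2) * (2 * (h : ℝ) + 7)) +
          3 * (lsA 1 (h + 3) - lsA x (h + 3)) * (10000 : ℝ) ^ (2 * (h + 3) + 1) *
            lsF (h + 3)) := by ring
      _ = lsD * (15 * (lsA 1 (h + 1) - lsA x (h + 1)) * (10000 : ℝ) ^ (2 * h + 7) *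
            lsF (h + 3) -
          10 * (lsA 1 (h + 2) - lsA x (h + 2)) * (10000 : ℝ) ^ (2 * h + 7) *
            lsF (h + 3) +
          3 * (lsA 1 (h + 3) - lsA x (h + 3)) * (10000 : ℝ) ^ (2 * h + 7) *
            lsF (h + 3)) := by rw [g1, g2, g3, f2, ← f1]
      _ = _ := by ring
  have key2 := le_of_mul_le_mul_right key hS
  rw [le_div_iff₀ hD] at hz ⊢
  have h6 := mul_le_mul_of_nonneg_right h4 hD.le
  rw [← h5] at hz
  linarith only [h6, key2, hz]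

/-- all nodes -/
def tPairs (tA : ℤ → ℤ → Bool) : ℤ → List (ℤ × ℤ × ℤ) → Bool
  | n, [] => decide (7120 ≤ n)
  | n, (n', a, u) :: l =>
    decide (0 < n) && decide (n ≤ n') && decide (n' ≤ 10000) && decide (0 < u) && tU n u &&
      tA n' a && tPairs tA n' l

theorem tPairs_sound {m : ℕ} {tA : ℤ → ℤ → Bool}
    (hA : ∀ n a : ℤ, tA n a = true → 0 ≤ n → n ≤ 10000 →
      ∫ t in (0 : ℝ)..((n : ℝ) / 10000), sq t ^ m ≤ (a : ℝ) / lsD) :
    ∀ (l : List (ℤ × ℤ × ℤ)) (n : ℤ), tPairs tA n l = true → ∀ x : ℝ, (n : ℝ) / 10000 ≤ x →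
      x < 712 / 1000 → ∃ p ∈ l.map Prod.snd, 0 < p.2 ∧
        (∫ t in (0 : ℝ)..x, sq t ^ m) ≤ (p.1 : ℝ) / lsD ∧ (p.2 : ℝ) / lsD ≤ lsX x := by
  intro l
  induction l with
  | nil =>
    intro n h x hx hx1
    exfalso
    unfold tPairs at h
    rw [decide_eq_true_eq] at h
    have h1 : (7120 : ℝ) ≤ n := by exact_mod_cast h
    have h2 : (n : ℝ) ≤ x * 10000 := by
      rw [div_le_iff₀ (by norm_num)] at hx
      exact hx
    linarith only [h1, hx1, hx]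
  | cons c l ih =>
    obtain ⟨n', a, u⟩ := c
    intro n h x hx hx1
    unfold tPairs at h
    simp only [Bool.and_eq_true, decide_eq_true_eq] at h
    obtain ⟨⟨⟨⟨⟨⟨hn0, hnn⟩, hn1⟩, hu⟩, hU⟩, hAa⟩, hrec⟩ := h
    rcases le_or_gt x ((n' : ℝ) / 10000) with hxn | hxn
    · refine ⟨(a, u), by simp only [List.map_cons, List.mem_cons, List.mem_map, Prod.exists, exists_eq_right, true_or], hu, ?_, ?_⟩
      · have h1 := hA n' a hAa (by omega) hn1
        refine le_trans ?_ h1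
        have hx0 : 0 ≤ x := by
          have : (0 : ℝ) < (n : ℝ) := by exact_mod_cast hn0
          have : 0 < (n : ℝ) / 10000 := by positivity
          (clear m tA hA l ih n' a u hx1 hrec hAa hU hu hn1 hnn hxn h1 this; linarith only [this, hx])
        rw [← intervalIntegral.integral_add_adjacent_intervals (cn_sq_pow_ii m 0 x)
          (cn_sq_pow_ii m x ((n' : ℝ) / 10000))]
        have : 0 ≤ ∫ t in x..((n' : ℝ) / 10000), sq t ^ m :=
          intervalIntegral.integral_nonneg hxn fun t _ => pow_nonneg (cn_sq_nonneg t) m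
        linarith only [this]
      · have h1 := tU_sound hn0 (hnn.trans hn1) hU
        have hn0' : (0 : ℝ) < (n : ℝ) / 10000 := by
          have : (0 : ℝ) < (n : ℝ) := by exact_mod_cast hn0
          positivity
        exact h1.trans (lsX_mono hn0' hx (by nlinarith only [hx1, hx, hn0']))
    · obtain ⟨p, hp, h1⟩ := ih n' hrec x hxn.le hx1
      exact ⟨p, by simp only [List.map_cons, List.mem_cons]; exact Or.inr hp, h1⟩

/-- **The bound from the integer checks.** -/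
theorem ls_main {m : ℕ} (hm : 1 ≤ m) {z z' : ℤ} (hz0 : 0 < z)
    (hz : (z : ℝ) / lsD ≤ ∫ t in (0 : ℝ)..1, sq t ^ m)
    (hz' : ∫ t in (0 : ℝ)..1, sq t ^ (m - 1) ≤ (z' : ℝ) / lsD) {tA : ℤ → ℤ → Bool}
    (hA : ∀ n a : ℤ, tA n a = true → 0 ≤ n → n ≤ 10000 →
      ∫ t in (0 : ℝ)..((n : ℝ) / 10000), sq t ^ m ≤ (a : ℝ) / lsD)
    {n0 u0 : ℤ} {nodes : List (ℤ × ℤ × ℤ)} {cells : List (ℤ × ℤ)} (hc : cells ≠ [])
    (hn0 : 0 < n0) (hn1 : n0 ≤ 7000) (hu0 : 0 < u0) (hU : tU n0 u0 = true)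
    (hP : tPairs tA n0 nodes = true)
    (hC : tCells m z z' (1000 * n0, u0) (nodes.map Prod.snd) 0 cells = true)
    {r τ τ' T : ℝ → ℝ} (hr : IsProf r) (h : IsTrans m r τ τ' T)
    (hN : (∫ y in (-1 : ℝ)..1, r y ^ (m - 1)) ^ m * aInt m ^ (m - 1) ≤
      aInt (m - 1) ^ m * (∫ y in (-1 : ℝ)..1, r y ^ m) ^ (m - 1)) {x : ℝ}
    (hx : x ∈ Ioo (0 : ℝ) 1) : τ x ≤ lsX x := by
  obtain ⟨E, κ, hE0, hE1, hτκ, hκ1, hPE, hκ⟩ := h.truncLE hm hr hN hx
  have hτ := h.mem x hx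
  have hs := tCells_sound hm hz0 hz hz' (cn_Z_pos (m - 1)) (p0 := (1000 * n0, u0)) hu0 cells 0
    le_rfl hC E κ (τ x) (∫ t in (0 : ℝ)..x, sq t ^ m) (by simpa only [Int.cast_zero, zero_div] using hE0) (Or.inr hc) hE1 hτ.1
    hτκ hκ1 hPE hκ
  have hn0' : (0 : ℝ) < (n0 : ℝ) := by exact_mod_cast hn0
  have hn1' : (n0 : ℝ) ≤ 7000 := by exact_mod_cast hn1
  rcases le_or_gt x ((n0 : ℝ) / 10000) with h0 | h0
  · -- near `0`
    have hq : 0 < (n0 : ℝ) / 10000 := by (clear * - hn0; positivity)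
    set θ : ℝ := x / ((n0 : ℝ) / 10000) with hθ
    have hθ0 : 0 < θ := div_pos hx.1 hq
    have hθ1 : θ ≤ 1 := (div_le_one hq).2 h0
    have hθx : θ * ((n0 : ℝ) / 10000) = x := div_mul_cancel₀ _ hq.ne'
    have hPx : (∫ t in (0 : ℝ)..x, sq t ^ m) ≤ x := by
      have h1 : (∫ t in (0 : ℝ)..x, sq t ^ m) ≤ ∫ t in (0 : ℝ)..x, (1 : ℝ) := by
        apply intervalIntegral.integral_mono_on hx.1.le (cn_sq_pow_ii _ _ _) (by simp)
        intro t _
        exact pow_le_one₀ (cn_sq_nonneg t) (cn_sq_le_one t)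
      simpa only [ge_iff_le, intervalIntegral.integral_const, sub_zero, smul_eq_mul, mul_one] using h1
    have h1 := hs.1 θ hθ0 hθ1 (by
      simp only
      have e : ((1000 * n0 : ℤ) : ℝ) / lsD = (n0 : ℝ) / 10000 := by
        rw [lsD_cast]
        push_cast
        ring
      rw [e, hθx]
      exact hPx)
    simp only at h1
    have h2 := tU_sound hn0 (by omega) hU
    have h3 : θ * ((u0 : ℝ) / lsD) ≤ θ * lsX ((n0 : ℝ) / 10000) :=
      mul_le_mul_of_nonneg_left h2 hθ0.le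
    refine h1.trans (h3.trans ?_)
    unfold lsX
    rw [← mul_assoc, hθx]
    apply mul_le_mul_of_nonneg_left _ hx.1.le
    apply Real.exp_le_exp.2
    have h4 : x ^ 2 ≤ ((n0 : ℝ) / 10000) ^ 2 := pow_le_pow_left₀ hx.1.le h0 2
    (clear * - h4; nlinarith [sq_nonneg x, sq_nonneg ((n0 : ℝ) / 10000)])
  · rcases lt_or_ge x (712 / 1000) with h1 | h1
    · obtain ⟨p, hp, hp2, hp3, hp4⟩ := tPairs_sound hA nodes n0 hP x h0.le h1
      exact (hs.2 p hp hp2 hp3).trans hp4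
    · exact hτ.2.le.trans (lsX_ge_one h1 hx.2)

end Vale.Agent.P237.AllN
end

section

/-!
# P237, all dimensions: numerical bounds for `∫₀¹ s^m`
-/

open MeasureTheory Metric Set Module Filter Topology Real

namespace Vale.Agent.P237.AllN

theorem ls_Zrec (m : ℕ) : ∫ t in (0 : ℝ)..1, sq t ^ (m + 2) =
    ((m : ℝ) + 2) / ((m : ℝ) + 3) * ∫ t in (0 : ℝ)..1, sq t ^ m := by
  rw [ap_Z, ap_Z]
  have h := Slope.J_zero_rec (m + 1)
  rw [show m + 2 + 1 = m + 1 + 2 from rfl, h]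
  push_cast
  congr 1
  congr 1 <;> ring

theorem ls_Z8 : ∫ t in (0 : ℝ)..1, sq t ^ 8 = 128 / 315 := by
  rw [ls_Zrec 6, ap_Z6]
  norm_num

theorem ls_Z9 : ∫ t in (0 : ℝ)..1, sq t ^ 9 = 63 * π / 512 := by
  rw [ls_Zrec 7, ap_Z7]
  norm_num
  ring

theorem ls_Z10 : ∫ t in (0 : ℝ)..1, sq t ^ 10 = 256 / 693 := by
  rw [ls_Zrec 8, ls_Z8]
  norm_num

theorem ls_Z11 : ∫ t in (0 : ℝ)..1, sq t ^ 11 = 231 * π / 2048 := by
  rw [ls_Zrec 9, ls_Z9]
  norm_num
  ring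

theorem ls_Z12 : ∫ t in (0 : ℝ)..1, sq t ^ 12 = 1024 / 3003 := by
  rw [ls_Zrec 10, ls_Z10]
  norm_num

theorem ls_Z13 : ∫ t in (0 : ℝ)..1, sq t ^ 13 = 429 * π / 4096 := by
  rw [ls_Zrec 11, ls_Z11]
  norm_num
  ring

theorem ls_Z14 : ∫ t in (0 : ℝ)..1, sq t ^ 14 = 2048 / 6435 := by
  rw [ls_Zrec 12, ls_Z12]
  norm_num

theorem ls_Z15 : ∫ t in (0 : ℝ)..1, sq t ^ 15 = 6435 * π / 65536 := by
  rw [ls_Zrec 13, ls_Z13]
  norm_num
  ring

theorem ls_Z16 : ∫ t in (0 : ℝ)..1, sq t ^ 16 = 32768 / 109395 := by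
  rw [ls_Zrec 14, ls_Z14]
  norm_num

theorem ls_Z17 : ∫ t in (0 : ℝ)..1, sq t ^ 17 = 12155 * π / 131072 := by
  rw [ls_Zrec 15, ls_Z15]
  norm_num
  ring

theorem ls_Z18 : ∫ t in (0 : ℝ)..1, sq t ^ 18 = 65536 / 230945 := by
  rw [ls_Zrec 16, ls_Z16]
  norm_num

theorem ls_Z19 : ∫ t in (0 : ℝ)..1, sq t ^ 19 = 46189 * π / 524288 := by
  rw [ls_Zrec 17, ls_Z17]
  norm_num
  ring

theorem ls_Z20 : ∫ t in (0 : ℝ)..1, sq t ^ 20 = 262144 / 969969 := by
  rw [ls_Zrec 18, ls_Z18]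
  norm_num

theorem ls_Z21 : ∫ t in (0 : ℝ)..1, sq t ^ 21 = 88179 * π / 1048576 := by
  rw [ls_Zrec 19, ls_Z19]
  norm_num
  ring

theorem ls_Z22 : ∫ t in (0 : ℝ)..1, sq t ^ 22 = 524288 / 2028117 := by
  rw [ls_Zrec 20, ls_Z20]
  norm_num

theorem ls_Z23 : ∫ t in (0 : ℝ)..1, sq t ^ 23 = 676039 * π / 8388608 := by
  rw [ls_Zrec 21, ls_Z21]
  norm_num
  ring

theorem ls_Z24 : ∫ t in (0 : ℝ)..1, sq t ^ 24 = 4194304 / 16900975 := by
  rw [ls_Zrec 22, ls_Z22]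
  norm_num

theorem ls_Z25 : ∫ t in (0 : ℝ)..1, sq t ^ 25 = 1300075 * π / 16777216 := by
  rw [ls_Zrec 23, ls_Z23]
  norm_num
  ring

theorem ls_Z26 : ∫ t in (0 : ℝ)..1, sq t ^ 26 = 8388608 / 35102025 := by
  rw [ls_Zrec 24, ls_Z24]
  norm_num

theorem ls_Z27 : ∫ t in (0 : ℝ)..1, sq t ^ 27 = 5014575 * π / 67108864 := by
  rw [ls_Zrec 25, ls_Z25]
  norm_num
  ring

theorem ls_Z28 : ∫ t in (0 : ℝ)..1, sq t ^ 28 = 33554432 / 145422675 := by
  rw [ls_Zrec 26, ls_Z26]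
  norm_num

theorem ls_Z29 : ∫ t in (0 : ℝ)..1, sq t ^ 29 = 9694845 * π / 134217728 := by
  rw [ls_Zrec 27, ls_Z27]
  norm_num
  ring

theorem ls_Z30 : ∫ t in (0 : ℝ)..1, sq t ^ 30 = 67108864 / 300540195 := by
  rw [ls_Zrec 28, ls_Z28]
  norm_num

theorem ls_Z31 : ∫ t in (0 : ℝ)..1, sq t ^ 31 = 300540195 * π / 4294967296 := by
  rw [ls_Zrec 29, ls_Z29]
  norm_num
  ring

theorem ls_Z32 : ∫ t in (0 : ℝ)..1, sq t ^ 32 = 2147483648 / 9917826435 := by
  rw [ls_Zrec 30, ls_Z30]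
  norm_num

theorem ls_Z33 : ∫ t in (0 : ℝ)..1, sq t ^ 33 = 583401555 * π / 8589934592 := by
  rw [ls_Zrec 31, ls_Z31]
  norm_num
  ring

theorem ls_Z34 : ∫ t in (0 : ℝ)..1, sq t ^ 34 = 4294967296 / 20419054425 := by
  rw [ls_Zrec 32, ls_Z32]
  norm_num

theorem ls_Z35 : ∫ t in (0 : ℝ)..1, sq t ^ 35 = 2268783825 * π / 34359738368 := by
  rw [ls_Zrec 33, ls_Z33]
  norm_num
  ring

theorem ls_Z36 : ∫ t in (0 : ℝ)..1, sq t ^ 36 = 17179869184 / 83945001525 := by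
  rw [ls_Zrec 34, ls_Z34]
  norm_num

theorem ls_Z37 : ∫ t in (0 : ℝ)..1, sq t ^ 37 = 4418157975 * π / 68719476736 := by
  rw [ls_Zrec 35, ls_Z35]
  norm_num
  ring

theorem ls_Z38 : ∫ t in (0 : ℝ)..1, sq t ^ 38 = 34359738368 / 172308161025 := by
  rw [ls_Zrec 36, ls_Z36]
  norm_num

theorem ls_Z39 : ∫ t in (0 : ℝ)..1, sq t ^ 39 = 34461632205 * π / 549755813888 := by
  rw [ls_Zrec 37, ls_Z37]
  norm_num
  ring

theorem ls_Z40 : ∫ t in (0 : ℝ)..1, sq t ^ 40 = 274877906944 / 1412926920405 := by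
  rw [ls_Zrec 38, ls_Z38]
  norm_num

theorem ls_hi7 : ∫ t in (0 : ℝ)..1, sq t ^ 7 ≤ ((4295147 : ℤ) : ℝ) / lsD := by
  rw [ap_Z7, lsD_cast]
  push_cast
  linarith only [pi_lt_d6]

theorem ls_lo7 : ((4295145 : ℤ) : ℝ) / lsD ≤ ∫ t in (0 : ℝ)..1, sq t ^ 7 := by
  rw [ap_Z7, lsD_cast]
  push_cast
  linarith only [pi_gt_d6]

theorem ls_hi8 : ∫ t in (0 : ℝ)..1, sq t ^ 8 ≤ ((4063493 : ℤ) : ℝ) / lsD := by
  rw [ls_Z8, lsD_cast]
  push_cast
  norm_num

theorem ls_lo8 : ((4063492 : ℤ) : ℝ) / lsD ≤ ∫ t in (0 : ℝ)..1, sq t ^ 8 := by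
  rw [ls_Z8, lsD_cast]
  push_cast
  norm_num

theorem ls_hi9 : ∫ t in (0 : ℝ)..1, sq t ^ 9 ≤ ((3865633 : ℤ) : ℝ) / lsD := by
  rw [ls_Z9, lsD_cast]
  push_cast
  linarith only [pi_lt_d6]

theorem ls_lo9 : ((3865630 : ℤ) : ℝ) / lsD ≤ ∫ t in (0 : ℝ)..1, sq t ^ 9 := by
  rw [ls_Z9, lsD_cast]
  push_cast
  linarith only [pi_gt_d6]

theorem ls_hi10 : ∫ t in (0 : ℝ)..1, sq t ^ 10 ≤ ((3694084 : ℤ) : ℝ) / lsD := by
  rw [ls_Z10, lsD_cast]
  push_cast
  norm_num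

theorem ls_lo10 : ((3694083 : ℤ) : ℝ) / lsD ≤ ∫ t in (0 : ℝ)..1, sq t ^ 10 := by
  rw [ls_Z10, lsD_cast]
  push_cast
  norm_num

theorem ls_hi11 : ∫ t in (0 : ℝ)..1, sq t ^ 11 ≤ ((3543497 : ℤ) : ℝ) / lsD := by
  rw [ls_Z11, lsD_cast]
  push_cast
  linarith only [pi_lt_d6]

theorem ls_lo11 : ((3543494 : ℤ) : ℝ) / lsD ≤ ∫ t in (0 : ℝ)..1, sq t ^ 11 := by
  rw [ls_Z11, lsD_cast]
  push_cast
  linarith [pi_gt_d6]

theorem ls_hi12 : ∫ t in (0 : ℝ)..1, sq t ^ 12 ≤ ((3409924 : ℤ) : ℝ) / lsD := by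
  rw [ls_Z12, lsD_cast]
  push_cast
  norm_num

theorem ls_lo12 : ((3409923 : ℤ) : ℝ) / lsD ≤ ∫ t in (0 : ℝ)..1, sq t ^ 12 := by
  rw [ls_Z12, lsD_cast]
  push_cast
  norm_num

theorem ls_hi13 : ∫ t in (0 : ℝ)..1, sq t ^ 13 ≤ ((3290390 : ℤ) : ℝ) / lsD := by
  rw [ls_Z13, lsD_cast]
  push_cast
  linarith only [pi_lt_d6]

theorem ls_lo13 : ((3290388 : ℤ) : ℝ) / lsD ≤ ∫ t in (0 : ℝ)..1, sq t ^ 13 := by
  rw [ls_Z13, lsD_cast]
  push_cast
  linarith only [pi_gt_d6]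

theorem ls_hi14 : ∫ t in (0 : ℝ)..1, sq t ^ 14 ≤ ((3182596 : ℤ) : ℝ) / lsD := by
  rw [ls_Z14, lsD_cast]
  push_cast
  norm_num

theorem ls_lo14 : ((3182595 : ℤ) : ℝ) / lsD ≤ ∫ t in (0 : ℝ)..1, sq t ^ 14 := by
  rw [ls_Z14, lsD_cast]
  push_cast
  norm_num

theorem ls_hi15 : ∫ t in (0 : ℝ)..1, sq t ^ 15 ≤ ((3084740 : ℤ) : ℝ) / lsD := by
  rw [ls_Z15, lsD_cast]
  push_cast
  linarith only [pi_lt_d6]

theorem ls_lo15 : ((3084738 : ℤ) : ℝ) / lsD ≤ ∫ t in (0 : ℝ)..1, sq t ^ 15 := by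
  rw [ls_Z15, lsD_cast]
  push_cast
  linarith only [pi_gt_d6]

theorem ls_hi16 : ∫ t in (0 : ℝ)..1, sq t ^ 16 ≤ ((2995384 : ℤ) : ℝ) / lsD := by
  rw [ls_Z16, lsD_cast]
  push_cast
  norm_num

theorem ls_lo16 : ((2995383 : ℤ) : ℝ) / lsD ≤ ∫ t in (0 : ℝ)..1, sq t ^ 16 := by
  rw [ls_Z16, lsD_cast]
  push_cast
  norm_num

theorem ls_hi17 : ∫ t in (0 : ℝ)..1, sq t ^ 17 ≤ ((2913366 : ℤ) : ℝ) / lsD := by
  rw [ls_Z17, lsD_cast]
  push_cast
  linarith [pi_lt_d6]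

theorem ls_lo17 : ((2913364 : ℤ) : ℝ) / lsD ≤ ∫ t in (0 : ℝ)..1, sq t ^ 17 := by
  rw [ls_Z17, lsD_cast]
  push_cast
  linarith [pi_gt_d6]

theorem ls_hi18 : ∫ t in (0 : ℝ)..1, sq t ^ 18 ≤ ((2837732 : ℤ) : ℝ) / lsD := by
  rw [ls_Z18, lsD_cast]
  push_cast
  norm_num

theorem ls_lo18 : ((2837731 : ℤ) : ℝ) / lsD ≤ ∫ t in (0 : ℝ)..1, sq t ^ 18 := by
  rw [ls_Z18, lsD_cast]
  push_cast
  norm_num

theorem ls_hi19 : ∫ t in (0 : ℝ)..1, sq t ^ 19 ≤ ((2767698 : ℤ) : ℝ) / lsD := by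
  rw [ls_Z19, lsD_cast]
  push_cast
  linarith [pi_lt_d6]

theorem ls_lo19 : ((2767696 : ℤ) : ℝ) / lsD ≤ ∫ t in (0 : ℝ)..1, sq t ^ 19 := by
  rw [ls_Z19, lsD_cast]
  push_cast
  linarith [pi_gt_d6]

theorem ls_hi20 : ∫ t in (0 : ℝ)..1, sq t ^ 20 ≤ ((2702602 : ℤ) : ℝ) / lsD := by
  rw [ls_Z20, lsD_cast]
  push_cast
  norm_num

theorem ls_lo20 : ((2702601 : ℤ) : ℝ) / lsD ≤ ∫ t in (0 : ℝ)..1, sq t ^ 20 := by
  rw [ls_Z20, lsD_cast]
  push_cast
  norm_num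

theorem ls_hi21 : ∫ t in (0 : ℝ)..1, sq t ^ 21 ≤ ((2641893 : ℤ) : ℝ) / lsD := by
  rw [ls_Z21, lsD_cast]
  push_cast
  linarith [pi_lt_d6]

theorem ls_lo21 : ((2641891 : ℤ) : ℝ) / lsD ≤ ∫ t in (0 : ℝ)..1, sq t ^ 21 := by
  rw [ls_Z21, lsD_cast]
  push_cast
  linarith only [pi_gt_d6]

theorem ls_hi22 : ∫ t in (0 : ℝ)..1, sq t ^ 22 ≤ ((2585098 : ℤ) : ℝ) / lsD := by
  rw [ls_Z22, lsD_cast]
  push_cast
  norm_num

theorem ls_lo22 : ((2585097 : ℤ) : ℝ) / lsD ≤ ∫ t in (0 : ℝ)..1, sq t ^ 22 := by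
  rw [ls_Z22, lsD_cast]
  push_cast
  norm_num

theorem ls_hi23 : ∫ t in (0 : ℝ)..1, sq t ^ 23 ≤ ((2531814 : ℤ) : ℝ) / lsD := by
  rw [ls_Z23, lsD_cast]
  push_cast
  linarith [pi_lt_d6]

theorem ls_lo23 : ((2531813 : ℤ) : ℝ) / lsD ≤ ∫ t in (0 : ℝ)..1, sq t ^ 23 := by
  rw [ls_Z23, lsD_cast]
  push_cast
  linarith only [pi_gt_d6]

theorem ls_hi24 : ∫ t in (0 : ℝ)..1, sq t ^ 24 ≤ ((2481694 : ℤ) : ℝ) / lsD := by
  rw [ls_Z24, lsD_cast]
  push_cast
  norm_num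

theorem ls_lo24 : ((2481693 : ℤ) : ℝ) / lsD ≤ ∫ t in (0 : ℝ)..1, sq t ^ 24 := by
  rw [ls_Z24, lsD_cast]
  push_cast
  norm_num

theorem ls_hi25 : ∫ t in (0 : ℝ)..1, sq t ^ 25 ≤ ((2434437 : ℤ) : ℝ) / lsD := by
  rw [ls_Z25, lsD_cast]
  push_cast
  linarith [pi_lt_d6]

theorem ls_lo25 : ((2434435 : ℤ) : ℝ) / lsD ≤ ∫ t in (0 : ℝ)..1, sq t ^ 25 := by
  rw [ls_Z25, lsD_cast]
  push_cast
  linarith [pi_gt_d6]

theorem ls_hi26 : ∫ t in (0 : ℝ)..1, sq t ^ 26 ≤ ((2389779 : ℤ) : ℝ) / lsD := by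
  rw [ls_Z26, lsD_cast]
  push_cast
  norm_num

theorem ls_lo26 : ((2389778 : ℤ) : ℝ) / lsD ≤ ∫ t in (0 : ℝ)..1, sq t ^ 26 := by
  rw [ls_Z26, lsD_cast]
  push_cast
  norm_num

theorem ls_hi27 : ∫ t in (0 : ℝ)..1, sq t ^ 27 ≤ ((2347493 : ℤ) : ℝ) / lsD := by
  rw [ls_Z27, lsD_cast]
  push_cast
  linarith only [pi_lt_d6]

theorem ls_lo27 : ((2347491 : ℤ) : ℝ) / lsD ≤ ∫ t in (0 : ℝ)..1, sq t ^ 27 := by
  rw [ls_Z27, lsD_cast]
  push_cast
  linarith only [pi_gt_d6]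

theorem ls_hi28 : ∫ t in (0 : ℝ)..1, sq t ^ 28 ≤ ((2307373 : ℤ) : ℝ) / lsD := by
  rw [ls_Z28, lsD_cast]
  push_cast
  norm_num

theorem ls_lo28 : ((2307372 : ℤ) : ℝ) / lsD ≤ ∫ t in (0 : ℝ)..1, sq t ^ 28 := by
  rw [ls_Z28, lsD_cast]
  push_cast
  norm_num

theorem ls_hi29 : ∫ t in (0 : ℝ)..1, sq t ^ 29 ≤ ((2269243 : ℤ) : ℝ) / lsD := by
  rw [ls_Z29, lsD_cast]
  push_cast
  linarith only [pi_lt_d6]

theorem ls_lo29 : ((2269241 : ℤ) : ℝ) / lsD ≤ ∫ t in (0 : ℝ)..1, sq t ^ 29 := by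
  rw [ls_Z29, lsD_cast]
  push_cast
  linarith only [pi_gt_d6]

theorem ls_hi30 : ∫ t in (0 : ℝ)..1, sq t ^ 30 ≤ ((2232942 : ℤ) : ℝ) / lsD := by
  rw [ls_Z30, lsD_cast]
  push_cast
  norm_num

theorem ls_lo30 : ((2232941 : ℤ) : ℝ) / lsD ≤ ∫ t in (0 : ℝ)..1, sq t ^ 30 := by
  rw [ls_Z30, lsD_cast]
  push_cast
  norm_num

theorem ls_hi31 : ∫ t in (0 : ℝ)..1, sq t ^ 31 ≤ ((2198329 : ℤ) : ℝ) / lsD := by
  rw [ls_Z31, lsD_cast]
  push_cast
  linarith [pi_lt_d6]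

theorem ls_lo31 : ((2198327 : ℤ) : ℝ) / lsD ≤ ∫ t in (0 : ℝ)..1, sq t ^ 31 := by
  rw [ls_Z31, lsD_cast]
  push_cast
  linarith only [pi_gt_d6]

theorem ls_hi32 : ∫ t in (0 : ℝ)..1, sq t ^ 32 ≤ ((2165277 : ℤ) : ℝ) / lsD := by
  rw [ls_Z32, lsD_cast]
  push_cast
  norm_num

theorem ls_lo32 : ((2165276 : ℤ) : ℝ) / lsD ≤ ∫ t in (0 : ℝ)..1, sq t ^ 32 := by
  rw [ls_Z32, lsD_cast]
  push_cast
  norm_num

theorem ls_hi33 : ∫ t in (0 : ℝ)..1, sq t ^ 33 ≤ ((2133672 : ℤ) : ℝ) / lsD := by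
  rw [ls_Z33, lsD_cast]
  push_cast
  linarith only [pi_lt_d6]

theorem ls_lo33 : ((2133671 : ℤ) : ℝ) / lsD ≤ ∫ t in (0 : ℝ)..1, sq t ^ 33 := by
  rw [ls_Z33, lsD_cast]
  push_cast
  linarith [pi_gt_d6]

theorem ls_hi34 : ∫ t in (0 : ℝ)..1, sq t ^ 34 ≤ ((2103412 : ℤ) : ℝ) / lsD := by
  rw [ls_Z34, lsD_cast]
  push_cast
  norm_num

theorem ls_lo34 : ((2103411 : ℤ) : ℝ) / lsD ≤ ∫ t in (0 : ℝ)..1, sq t ^ 34 := by
  rw [ls_Z34, lsD_cast]
  push_cast
  norm_num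

theorem ls_hi35 : ∫ t in (0 : ℝ)..1, sq t ^ 35 ≤ ((2074404 : ℤ) : ℝ) / lsD := by
  rw [ls_Z35, lsD_cast]
  push_cast
  linarith [pi_lt_d6]

theorem ls_lo35 : ((2074402 : ℤ) : ℝ) / lsD ≤ ∫ t in (0 : ℝ)..1, sq t ^ 35 := by
  rw [ls_Z35, lsD_cast]
  push_cast
  linarith only [pi_gt_d6]

theorem ls_hi36 : ∫ t in (0 : ℝ)..1, sq t ^ 36 ≤ ((2046563 : ℤ) : ℝ) / lsD := by
  rw [ls_Z36, lsD_cast]
  push_cast
  norm_num

theorem ls_lo36 : ((2046562 : ℤ) : ℝ) / lsD ≤ ∫ t in (0 : ℝ)..1, sq t ^ 36 := by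
  rw [ls_Z36, lsD_cast]
  push_cast
  norm_num

theorem ls_hi37 : ∫ t in (0 : ℝ)..1, sq t ^ 37 ≤ ((2019814 : ℤ) : ℝ) / lsD := by
  rw [ls_Z37, lsD_cast]
  push_cast
  linarith [pi_lt_d6]

theorem ls_lo37 : ((2019813 : ℤ) : ℝ) / lsD ≤ ∫ t in (0 : ℝ)..1, sq t ^ 37 := by
  rw [ls_Z37, lsD_cast]
  push_cast
  linarith [pi_gt_d6]

theorem ls_hi38 : ∫ t in (0 : ℝ)..1, sq t ^ 38 ≤ ((1994087 : ℤ) : ℝ) / lsD := by
  rw [ls_Z38, lsD_cast]
  push_cast
  norm_num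

theorem ls_lo38 : ((1994086 : ℤ) : ℝ) / lsD ≤ ∫ t in (0 : ℝ)..1, sq t ^ 38 := by
  rw [ls_Z38, lsD_cast]
  push_cast
  norm_num

theorem ls_hi39 : ∫ t in (0 : ℝ)..1, sq t ^ 39 ≤ ((1969319 : ℤ) : ℝ) / lsD := by
  rw [ls_Z39, lsD_cast]
  push_cast
  linarith [pi_lt_d6]

theorem ls_lo39 : ((1969317 : ℤ) : ℝ) / lsD ≤ ∫ t in (0 : ℝ)..1, sq t ^ 39 := by
  rw [ls_Z39, lsD_cast]
  push_cast
  linarith [pi_gt_d6]

theorem ls_hi40 : ∫ t in (0 : ℝ)..1, sq t ^ 40 ≤ ((1945451 : ℤ) : ℝ) / lsD := by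
  rw [ls_Z40, lsD_cast]
  push_cast
  norm_num

theorem ls_lo40 : ((1945450 : ℤ) : ℝ) / lsD ≤ ∫ t in (0 : ℝ)..1, sq t ^ 40 := by
  rw [ls_Z40, lsD_cast]
  push_cast
  norm_num

end Vale.Agent.P237.AllN
end

section

/-!
# P237, all dimensions: `l ≤ (1 - x²)(31/50 + 7/50 x²)` for m = 15, m = 16, m = 17, m = 18, m = 19, m = 20, m = 21, m = 22
-/

open MeasureTheory Metric Set Module Filter Topology Real

namespace Vale.Agent.P237.AllN

/-- nodes, `m = 15` -/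
def nodes15 : List (ℤ × ℤ × ℤ) :=
    [(932, 914992, 1481909), (1094, 1064795, 1724528), (1298, 1247904, 2021090),
     (1566, 1477122, 2392327), (1944, 1775493, 2875566), (2472, 2138233, 3546667),
     (3302, 2570833, 4458475), (4159, 2850551, 5813748), (4918, 2986048, 7083929),
     (5677, 3050976, 8072395), (6169, 3070174, 8909150), (6513, 3077328, 9360648),
     (6800, 3080796, 9630561), (7120, 3082983, 9825638)]

/-- cells, `m = 15` -/
def cells15 : List (ℤ × ℤ) :=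
    [(7170000, 10000000), (7990000, 8768000), (8750000, 6893000), (9610000, 5671000), (10000000, 4996000)]

theorem tP15 : tPairs (tAo 7 3084740) 800 nodes15 = true := by decide +kernel

theorem tC15 : tCells 15 3084738 3182596 (1000 * 800, 1481909) (nodes15.map Prod.snd) 0 cells15 = true := by
  decide +kernel

theorem ls_15 {r τ τ' T : ℝ → ℝ} (hr : IsProf r) (h : IsTrans 15 r τ τ' T)
    (hN : (∫ y in (-1 : ℝ)..1, r y ^ (15 - 1)) ^ 15 * aInt 15 ^ (15 - 1) ≤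
      aInt (15 - 1) ^ 15 * (∫ y in (-1 : ℝ)..1, r y ^ 15) ^ (15 - 1)) {x : ℝ}
    (hx : x ∈ Ioo (0 : ℝ) 1) : τ x ≤ lsX x :=
  ls_main (m := 15) (by norm_num) (z := 3084738) (z' := 3182596) (by norm_num) ls_lo15 ls_hi14
    (fun n a h0 h1 h2 => tAo_sound (h := 7) (zh := 3084740) ls_hi15 h1 h2 h0)
    (by simp [cells15]) (n0 := 800) (u0 := 1481909) (by norm_num) (by norm_num) (by norm_num)
    (by decide +kernel) tP15 tC15 hr h hN hx

/-- nodes, `m = 16` -/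
def nodes16 : List (ℤ × ℤ × ℤ) :=
    [(929, 908304, 1481909), (1087, 1053639, 1719024), (1285, 1230948, 2008306),
     (1545, 1451875, 2368751), (1912, 1739433, 2837905), (2384, 2062781, 3490391),
     (3069, 2431951, 4308866), (3790, 2698004, 5444347), (4657, 2880129, 6555259),
     (5399, 2953480, 7748493), (6057, 2981478, 8621636), (6486, 2989461, 9264511),
     (6817, 2992596, 9610784), (7120, 2994295, 9836315)]

/-- cells, `m = 16` -/
def cells16 : List (ℤ × ℤ) :=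
    [(7110000, 10000000), (7730000, 9136000), (8660000, 7541000), (9570000, 5744000), (10000000, 4887000)]

theorem tP16 : tPairs (tAe 8) 800 nodes16 = true := by decide +kernel

theorem tC16 : tCells 16 2995383 3084740 (1000 * 800, 1481909) (nodes16.map Prod.snd) 0 cells16 = true := by
  decide +kernel

theorem ls_16 {r τ τ' T : ℝ → ℝ} (hr : IsProf r) (h : IsTrans 16 r τ τ' T)
    (hN : (∫ y in (-1 : ℝ)..1, r y ^ (16 - 1)) ^ 16 * aInt 16 ^ (16 - 1) ≤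
      aInt (16 - 1) ^ 16 * (∫ y in (-1 : ℝ)..1, r y ^ 16) ^ (16 - 1)) {x : ℝ}
    (hx : x ∈ Ioo (0 : ℝ) 1) : τ x ≤ lsX x :=
  ls_main (m := 16) (by norm_num) (z := 2995383) (z' := 3084740) (by norm_num) ls_lo16 ls_hi15
    (fun n a h0 h1 h2 => tAe_sound (h := 8) h1 h2 h0)
    (by simp [cells16]) (n0 := 800) (u0 := 1481909) (by norm_num) (by norm_num) (by norm_num)
    (by decide +kernel) tP16 tC16 hr h hN hx

/-- nodes, `m = 17` -/
def nodes17 : List (ℤ × ℤ × ℤ) :=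
    [(919, 899633, 1481909), (1064, 1032438, 1700671), (1245, 1193683, 1966280),
     (1479, 1393933, 2296138), (1796, 1644802, 2719304), (2176, 1915049, 3285522),
     (2663, 2206214, 3951364), (3319, 2502471, 4779600), (3957, 2693757, 5840330),
     (4641, 2815171, 6798136), (5269, 2872946, 7728073), (5732, 2894597, 8479517),
     (6131, 2904581, 8963319), (6554, 2909869, 9328478), (6876, 2911800, 9660129),
     (7120, 2912821, 9872598)]

/-- cells, `m = 17` -/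
def cells17 : List (ℤ × ℤ) :=
    [(7050000, 10000000), (7630000, 9529000), (8550000, 7917000), (9520000, 5896000), (10000000, 4799000)]

theorem tP17 : tPairs (tAo 8 2913366) 800 nodes17 = true := by decide +kernel

theorem tC17 : tCells 17 2913364 2995384 (1000 * 800, 1481909) (nodes17.map Prod.snd) 0 cells17 = true := by
  decide +kernel

theorem ls_17 {r τ τ' T : ℝ → ℝ} (hr : IsProf r) (h : IsTrans 17 r τ τ' T)
    (hN : (∫ y in (-1 : ℝ)..1, r y ^ (17 - 1)) ^ 17 * aInt 17 ^ (17 - 1) ≤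
      aInt (17 - 1) ^ 17 * (∫ y in (-1 : ℝ)..1, r y ^ 17) ^ (17 - 1)) {x : ℝ}
    (hx : x ∈ Ioo (0 : ℝ) 1) : τ x ≤ lsX x :=
  ls_main (m := 17) (by norm_num) (z := 2913364) (z' := 2995384) (by norm_num) ls_lo17 ls_hi16
    (fun n a h0 h1 h2 => tAo_sound (h := 8) (zh := 2913366) ls_hi17 h1 h2 h0)
    (by simp [cells17]) (n0 := 800) (u0 := 1481909) (by norm_num) (by norm_num) (by norm_num)
    (by decide +kernel) tP17 tC17 hr h hN hx

/-- nodes, `m = 18` -/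
def nodes18 : List (ℤ × ℤ × ℤ) :=
    [(921, 898751, 1481909), (1069, 1033653, 1704342), (1255, 1198056, 1975419),
     (1499, 1403582, 2314301), (1822, 1654910, 2755281), (2217, 1925716, 3331556),
     (2741, 2221809, 4022249), (3417, 2498429, 4909258), (4111, 2675183, 5992547),
     (4795, 2769840, 7016831), (5300, 2806023, 7921934), (5706, 2821999, 8513842),
     (6120, 2830736, 8937825), (6444, 2834312, 9319080), (6682, 2835814, 9579537),
     (6900, 2836654, 9748808), (7120, 2837270, 9887014)]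

/-- cells, `m = 18` -/
def cells18 : List (ℤ × ℤ) :=
    [(7180000, 10000000), (7800000, 9364000), (8640000, 7601000), (9550000, 5731000), (10000000, 4679000)]

theorem tP18 : tPairs (tAe 9) 800 nodes18 = true := by decide +kernel

theorem tC18 : tCells 18 2837731 2913366 (1000 * 800, 1481909) (nodes18.map Prod.snd) 0 cells18 = true := by
  decide +kernel

theorem ls_18 {r τ τ' T : ℝ → ℝ} (hr : IsProf r) (h : IsTrans 18 r τ τ' T)
    (hN : (∫ y in (-1 : ℝ)..1, r y ^ (18 - 1)) ^ 18 * aInt 18 ^ (18 - 1) ≤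
      aInt (18 - 1) ^ 18 * (∫ y in (-1 : ℝ)..1, r y ^ 18) ^ (18 - 1)) {x : ℝ}
    (hx : x ∈ Ioo (0 : ℝ) 1) : τ x ≤ lsX x :=
  ls_main (m := 18) (by norm_num) (z := 2837731) (z' := 2913366) (by norm_num) ls_lo18 ls_hi17
    (fun n a h0 h1 h2 => tAe_sound (h := 9) h1 h2 h0)
    (by simp [cells18]) (n0 := 800) (u0 := 1481909) (by norm_num) (by norm_num) (by norm_num)
    (by decide +kernel) tP18 tC18 hr h hN hx

/-- nodes, `m = 19` -/
def nodes19 : List (ℤ × ℤ × ℤ) :=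
    [(906, 884510, 1481909), (1033, 1000838, 1676805), (1190, 1139781, 1909590),
     (1390, 1310803, 2196121), (1661, 1527294, 2558830), (2047, 1803540, 3045471),
     (2524, 2090032, 3727072), (3102, 2354323, 4546398), (3635, 2524641, 5497228),
     (4141, 2631598, 6324722), (4696, 2702527, 7058828), (5263, 2740789, 7797998),
     (5677, 2754920, 8472842), (6034, 2761524, 8909150), (6327, 2764514, 9244277),
     (6524, 2765740, 9489423), (6678, 2766388, 9638549), (6819, 2766813, 9746120),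
     (6982, 2767150, 9837564), (7120, 2767484, 9934761)]

/-- cells, `m = 19` -/
def cells19 : List (ℤ × ℤ) :=
    [(7220000, 10000000), (7710000, 9452000), (8610000, 7979000), (9470000, 5782000), (10000000, 4637000)]

theorem tP19 : tPairs (tAo 9 2767698) 800 nodes19 = true := by decide +kernel

theorem tC19 : tCells 19 2767696 2837732 (1000 * 800, 1481909) (nodes19.map Prod.snd) 0 cells19 = true := by
  decide +kernel

theorem ls_19 {r τ τ' T : ℝ → ℝ} (hr : IsProf r) (h : IsTrans 19 r τ τ' T)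
    (hN : (∫ y in (-1 : ℝ)..1, r y ^ (19 - 1)) ^ 19 * aInt 19 ^ (19 - 1) ≤
      aInt (19 - 1) ^ 19 * (∫ y in (-1 : ℝ)..1, r y ^ 19) ^ (19 - 1)) {x : ℝ}
    (hx : x ∈ Ioo (0 : ℝ) 1) : τ x ≤ lsX x :=
  ls_main (m := 19) (by norm_num) (z := 2767696) (z' := 2837732) (by norm_num) ls_lo19 ls_hi18
    (fun n a h0 h1 h2 => tAo_sound (h := 9) (zh := 2767698) ls_hi19 h1 h2 h0)
    (by simp [cells19]) (n0 := 800) (u0 := 1481909) (by norm_num) (by norm_num) (by norm_num)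
    (by decide +kernel) tP19 tC19 hr h hN hx

/-- nodes, `m = 20` -/
def nodes20 : List (ℤ × ℤ × ℤ) :=
    [(928, 902435, 1481909), (1087, 1045713, 1717189), (1291, 1222994, 2008306),
     (1569, 1449121, 2379634), (1980, 1747324, 2880944), (2562, 2089633, 3609850),
     (3275, 2383196, 4610418), (4134, 2581987, 5771425), (4951, 2665076, 7049046),
     (5608, 2690835, 8112088), (6023, 2697624, 8839912), (6309, 2700040, 9234540),
     (6550, 2701215, 9475161), (6743, 2701785, 9657269), (6925, 2702125, 9789118),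
     (7120, 2702389, 9901818)]

/-- cells, `m = 20` -/
def cells20 : List (ℤ × ℤ) :=
    [(7170000, 10000000), (7380000, 9825000), (7720000, 9146000), (8260000, 8092000), (8970000, 6594000), (9650000, 5136000), (10000000, 4438000)]

theorem tP20 : tPairs (tAe 10) 800 nodes20 = true := by decide +kernel

theorem tC20 : tCells 20 2702601 2767698 (1000 * 800, 1481909) (nodes20.map Prod.snd) 0 cells20 = true := by
  decide +kernel

theorem ls_20 {r τ τ' T : ℝ → ℝ} (hr : IsProf r) (h : IsTrans 20 r τ τ' T)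
    (hN : (∫ y in (-1 : ℝ)..1, r y ^ (20 - 1)) ^ 20 * aInt 20 ^ (20 - 1) ≤
      aInt (20 - 1) ^ 20 * (∫ y in (-1 : ℝ)..1, r y ^ 20) ^ (20 - 1)) {x : ℝ}
    (hx : x ∈ Ioo (0 : ℝ) 1) : τ x ≤ lsX x :=
  ls_main (m := 20) (by norm_num) (z := 2702601) (z' := 2767698) (by norm_num) ls_lo20 ls_hi19
    (fun n a h0 h1 h2 => tAe_sound (h := 10) h1 h2 h0)
    (by simp [cells20]) (n0 := 800) (u0 := 1481909) (by norm_num) (by norm_num) (by norm_num)
    (by decide +kernel) tP20 tC20 hr h hN hx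

/-- nodes, `m = 21` -/
def nodes21 : List (ℤ × ℤ × ℤ) :=
    [(932, 905840, 1481909), (1098, 1054145, 1724528), (1314, 1239887, 2028394),
     (1616, 1480075, 2421328), (2044, 1778904, 2965087), (2624, 2101267, 3721833),
     (3288, 2355913, 4714443), (4096, 2531465, 5791819), (4772, 2600399, 6995757),
     (5234, 2623029, 7893364), (5567, 2631924, 8440439), (5844, 2636330, 8798100),
     (6141, 2639096, 9070793), (6351, 2640247, 9336989), (6520, 2640847, 9508274),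
     (6644, 2641158, 9635649), (6749, 2641354, 9723058), (6852, 2641501, 9793015),
     (6976, 2641630, 9857983), (7120, 2641768, 9931347)]

/-- cells, `m = 21` -/
def cells21 : List (ℤ × ℤ) :=
    [(7220000, 10000000), (7360000, 9872000), (7810000, 9403000), (8350000, 7958000), (9080000, 6426000), (9710000, 4931000), (10000000, 4322000)]

theorem tP21 : tPairs (tAo 10 2641893) 800 nodes21 = true := by decide +kernel

theorem tC21 : tCells 21 2641891 2702602 (1000 * 800, 1481909) (nodes21.map Prod.snd) 0 cells21 = true := by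
  decide +kernel

theorem ls_21 {r τ τ' T : ℝ → ℝ} (hr : IsProf r) (h : IsTrans 21 r τ τ' T)
    (hN : (∫ y in (-1 : ℝ)..1, r y ^ (21 - 1)) ^ 21 * aInt 21 ^ (21 - 1) ≤
      aInt (21 - 1) ^ 21 * (∫ y in (-1 : ℝ)..1, r y ^ 21) ^ (21 - 1)) {x : ℝ}
    (hx : x ∈ Ioo (0 : ℝ) 1) : τ x ≤ lsX x :=
  ls_main (m := 21) (by norm_num) (z := 2641891) (z' := 2702602) (by norm_num) ls_lo21 ls_hi20
    (fun n a h0 h1 h2 => tAo_sound (h := 10) (zh := 2641893) ls_hi21 h1 h2 h0)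
    (by simp [cells21]) (n0 := 800) (u0 := 1481909) (by norm_num) (by norm_num) (by norm_num)
    (by decide +kernel) tP21 tC21 hr h hN hx

/-- nodes, `m = 22` -/
def nodes22 : List (ℤ × ℤ × ℤ) :=
    [(926, 898002, 1481909), (1083, 1038352, 1713518), (1286, 1212558, 2000999),
     (1567, 1436507, 2370565), (1924, 1689686, 2877359), (2401, 1971619, 3511507),
     (2871, 2184459, 4337846), (3337, 2337741, 5123344), (3842, 2449080, 5868418),
     (4527, 2532835, 6631509), (5080, 2564262, 7580743), (5608, 2577662, 8264462),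
     (5965, 2581745, 8839912), (6183, 2583131, 9182575), (6330, 2583756, 9372384),
     (6441, 2584106, 9491790), (6535, 2584337, 9577282), (6616, 2584497, 9646497),
     (6684, 2584607, 9703772), (6745, 2584691, 9750150), (6806, 2584762, 9790418),
     (6876, 2584829, 9829418), (6968, 2584900, 9872598), (7120, 2584986, 9926775)]

/-- cells, `m = 22` -/
def cells22 : List (ℤ × ℤ) :=
    [(7270000, 10000000), (7390000, 9907000), (7620000, 9494000), (8110000, 8716000), (8950000, 7167000), (9660000, 5115000), (10000000, 4266000)]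

theorem tP22 : tPairs (tAe 11) 800 nodes22 = true := by decide +kernel

theorem tC22 : tCells 22 2585097 2641893 (1000 * 800, 1481909) (nodes22.map Prod.snd) 0 cells22 = true := by
  decide +kernel

theorem ls_22 {r τ τ' T : ℝ → ℝ} (hr : IsProf r) (h : IsTrans 22 r τ τ' T)
    (hN : (∫ y in (-1 : ℝ)..1, r y ^ (22 - 1)) ^ 22 * aInt 22 ^ (22 - 1) ≤
      aInt (22 - 1) ^ 22 * (∫ y in (-1 : ℝ)..1, r y ^ 22) ^ (22 - 1)) {x : ℝ}
    (hx : x ∈ Ioo (0 : ℝ) 1) : τ x ≤ lsX x :=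
  ls_main (m := 22) (by norm_num) (z := 2585097) (z' := 2641893) (by norm_num) ls_lo22 ls_hi21
    (fun n a h0 h1 h2 => tAe_sound (h := 11) h1 h2 h0)
    (by simp [cells22]) (n0 := 800) (u0 := 1481909) (by norm_num) (by norm_num) (by norm_num)
    (by decide +kernel) tP22 tC22 hr h hN hx

end Vale.Agent.P237.AllN
end

section

/-!
# P237, plain certificate: kernel checks for `m = 13`
-/

namespace Vale.Agent.P237.AllN

open PolyPos

/-- data of the certificate, `m = 13` -/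
def D13 : Dat := ⟨⟨13, ⟨3, 4⟩, ⟨1, 3⟩, ⟨1, 1⟩, ⟨6, 4⟩, ⟨13, 99⟩, ⟨7, 19⟩, ⟨21, 4999⟩, ⟨1, 999⟩, ⟨1, 999⟩⟩,
  ⟨353, 249⟩, ⟨281, 4999⟩, ⟨1, 9⟩, ⟨1049, 999⟩, ⟨633, 999⟩, ⟨39, 99⟩, ⟨529, 9999⟩, ⟨1937, 1999⟩, 7, 448, 1579, 895, 1412, 2 ^ 1024, 40⟩

theorem chk13_LP :
    D13.kLP (.leaf 0) = true := by
  decide +kernel

theorem chk13_LM :
    D13.kLM (.sx (.leaf 0) (.sy (.leaf 0) (.sx (.sy (.leaf 0) .out) (.sy (.sx (.leaf 0) (.sy
    (.leaf 0) .out)) .out)))) = true := by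
  decide +kernel

theorem chk13_RMT0 :
    D13.kRM D13.rbT 13 0 895 250 1000 (.sx (.leaf 0) (.leaf 0)) = true := by
  decide +kernel

theorem chk13_RMt0 :
    D13.kRM D13.rbG 13 0 895 6 250 (.sx (.leaf 0) (.leaf 0)) = true := by
  decide +kernel

theorem chk13_RMc0 :
    D13.kRM D13.rbC 13 0 895 0 6 (.sx (.leaf 0) (.leaf 0)) = true := by
  decide +kernel

theorem chk13_RP1 :
    D13.kRP1 (.sx (.leaf 0) (.sy (.sx (.leaf 0) (.sy (.sx (.leaf 0) (.sy .out (.leaf 0)))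
    (.leaf 0))) (.leaf 0))) = true := by
  decide +kernel

theorem chk13_RP2 :
    D13.kRP2 (.sx (.sy (.sx (.sy .out (.leaf 0)) .out) (.leaf 0)) (.sy .out (.sx (.leaf 0)
    .out))) = true := by
  decide +kernel

theorem chk13_RS :
    D13.kRS (.leaf 1) = true := by
  decide +kernel

end Vale.Agent.P237.AllN
end

section

/-!
# P237, all dimensions: integer checks for a priori bounds `τ x ≤ x C` on an interval
-/

open MeasureTheory Metric Set Module Filter Topology Real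

namespace Vale.Agent.P237.AllN

/-- nodes of a step: on `[n, nend] / M` the bound `τ ≤ x c / D` -/
def tStep (tA : ℤ → ℤ → Bool) (c nend : ℤ) : ℤ → List (ℤ × ℤ × ℤ) → Bool
  | n, [] => decide (nend ≤ n)
  | n, (n', a, u) :: l =>
    decide (0 < n) && decide (n ≤ n') && decide (n' ≤ 10000) && decide (0 < u) &&
      decide (u * 10000 ≤ n * c) && tA n' a && tStep tA c nend n' l

theorem tStep_sound {m : ℕ} {tA : ℤ → ℤ → Bool}
    (hA : ∀ n a : ℤ, tA n a = true → 0 ≤ n → n ≤ 10000 →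
      ∫ t in (0 : ℝ)..((n : ℝ) / 10000), sq t ^ m ≤ (a : ℝ) / lsD) {c nend : ℤ} (hc : 0 ≤ c) :
    ∀ (l : List (ℤ × ℤ × ℤ)) (n : ℤ), tStep tA c nend n l = true → ∀ x : ℝ,
      (n : ℝ) / 10000 ≤ x → x < (nend : ℝ) / 10000 → ∃ p ∈ l.map Prod.snd, 0 < p.2 ∧
        (∫ t in (0 : ℝ)..x, sq t ^ m) ≤ (p.1 : ℝ) / lsD ∧
          (p.2 : ℝ) / lsD ≤ x * ((c : ℝ) / lsD) := by
  intro l
  have hD := lsD_pos
  induction l with
  | nil =>
    intro n h x hx hx1
    exfalso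
    unfold tStep at h
    rw [decide_eq_true_eq] at h
    have h1 : (nend : ℝ) ≤ n := by exact_mod_cast h
    have h2 : (nend : ℝ) / 10000 ≤ (n : ℝ) / 10000 := by
      apply div_le_div_of_nonneg_right h1 (by norm_num)
    (clear * - hx hx1 h1; linarith)
  | cons q l ih =>
    obtain ⟨n', a, u⟩ := q
    intro n h x hx hx1
    unfold tStep at h
    simp only [Bool.and_eq_true, decide_eq_true_eq] at h
    obtain ⟨⟨⟨⟨⟨⟨hn0, hnn⟩, hn1⟩, hu⟩, hU⟩, hAa⟩, hrec⟩ := h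
    rcases le_or_gt x ((n' : ℝ) / 10000) with hxn | hxn
    · refine ⟨(a, u), by simp only [List.map_cons, List.mem_cons, List.mem_map, Prod.exists, exists_eq_right, true_or], hu, ?_, ?_⟩
      · have h1 := hA n' a hAa (by (clear * - hn0 hnn; omega)) hn1
        refine le_trans ?_ h1
        rw [← intervalIntegral.integral_add_adjacent_intervals (cn_sq_pow_ii m 0 x)
          (cn_sq_pow_ii m x ((n' : ℝ) / 10000))]
        have : 0 ≤ ∫ t in x..((n' : ℝ) / 10000), sq t ^ m :=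
          intervalIntegral.integral_nonneg hxn fun t _ => pow_nonneg (cn_sq_nonneg t) m
        linarith only [this]
      · simp only
        have h2 : (u : ℝ) * 10000 ≤ n * c := by exact_mod_cast hU
        have h3 : (0 : ℝ) ≤ c := by exact_mod_cast hc
        rw [← mul_div_assoc]
        apply div_le_div_of_nonneg_right _ hD.le
        have h4 : (n : ℝ) / 10000 * c ≤ x * c := mul_le_mul_of_nonneg_right hx h3
        linarith only [h4, h2]
    · obtain ⟨p, hp, h1⟩ := ih n' hrec x hxn.le hx1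
      exact ⟨p, by simp only [List.map_cons, List.mem_cons]; exact Or.inr hp, h1⟩

/-- **Bound on a step.** -/
theorem ls_step {m : ℕ} (hm : 1 ≤ m) {z z' : ℤ} (hz0 : 0 < z)
    (hz : (z : ℝ) / lsD ≤ ∫ t in (0 : ℝ)..1, sq t ^ m)
    (hz' : ∫ t in (0 : ℝ)..1, sq t ^ (m - 1) ≤ (z' : ℝ) / lsD) {tA : ℤ → ℤ → Bool}
    (hA : ∀ n a : ℤ, tA n a = true → 0 ≤ n → n ≤ 10000 →
      ∫ t in (0 : ℝ)..((n : ℝ) / 10000), sq t ^ m ≤ (a : ℝ) / lsD)
    {n0 nend c : ℤ} {nodes : List (ℤ × ℤ × ℤ)} {cells : List (ℤ × ℤ)} (hc : cells ≠ [])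
    (hc0 : 0 ≤ c) (hS : tStep tA c nend n0 nodes = true)
    (hC : tCells m z z' (0, 1) (nodes.map Prod.snd) 0 cells = true)
    {r τ τ' T : ℝ → ℝ} (hr : IsProf r) (h : IsTrans m r τ τ' T)
    (hN : (∫ y in (-1 : ℝ)..1, r y ^ (m - 1)) ^ m * aInt m ^ (m - 1) ≤
      aInt (m - 1) ^ m * (∫ y in (-1 : ℝ)..1, r y ^ m) ^ (m - 1)) {x : ℝ}
    (hx : x ∈ Ioo (0 : ℝ) 1) (h0 : (n0 : ℝ) / 10000 ≤ x) (h1 : x < (nend : ℝ) / 10000) :
    τ x ≤ x * ((c : ℝ) / lsD) := by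
  obtain ⟨E, κ, hE0, hE1, hτκ, hκ1, hPE, hκ⟩ := h.truncLE hm hr hN hx
  have hτ := h.mem x hx
  have hs := tCells_sound hm hz0 hz hz' (cn_Z_pos (m - 1)) (p0 := (0, 1)) one_pos cells 0
    le_rfl hC E κ (τ x) (∫ t in (0 : ℝ)..x, sq t ^ m) (by simpa only [Int.cast_zero, zero_div] using hE0) (Or.inr hc) hE1 hτ.1
    hτκ hκ1 hPE hκ
  obtain ⟨p, hp, hp2, hp3, hp4⟩ := tStep_sound hA hc0 nodes n0 hS x h0 h1
  exact (hs.2 p hp hp2 hp3).trans hp4

/-- **Bound on the first step.** -/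
theorem ls_step0 {m : ℕ} (hm : 1 ≤ m) {z z' : ℤ} (hz0 : 0 < z)
    (hz : (z : ℝ) / lsD ≤ ∫ t in (0 : ℝ)..1, sq t ^ m)
    (hz' : ∫ t in (0 : ℝ)..1, sq t ^ (m - 1) ≤ (z' : ℝ) / lsD) {tA : ℤ → ℤ → Bool}
    (hA : ∀ n a : ℤ, tA n a = true → 0 ≤ n → n ≤ 10000 →
      ∫ t in (0 : ℝ)..((n : ℝ) / 10000), sq t ^ m ≤ (a : ℝ) / lsD)
    {n0 nend c u0 : ℤ} {nodes : List (ℤ × ℤ × ℤ)} {cells : List (ℤ × ℤ)} (hc : cells ≠ [])
    (hc0 : 0 ≤ c) (hn0 : 0 < n0) (hu0 : 0 < u0) (hu0c : u0 * 10000 ≤ n0 * c)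
    (hS : tStep tA c nend n0 nodes = true)
    (hC : tCells m z z' (1000 * n0, u0) (nodes.map Prod.snd) 0 cells = true)
    {r τ τ' T : ℝ → ℝ} (hr : IsProf r) (h : IsTrans m r τ τ' T)
    (hN : (∫ y in (-1 : ℝ)..1, r y ^ (m - 1)) ^ m * aInt m ^ (m - 1) ≤
      aInt (m - 1) ^ m * (∫ y in (-1 : ℝ)..1, r y ^ m) ^ (m - 1)) {x : ℝ}
    (hx : x ∈ Ioo (0 : ℝ) 1) (h1 : x < (nend : ℝ) / 10000) :
    τ x ≤ x * ((c : ℝ) / lsD) := by
  have hD := lsD_pos
  obtain ⟨E, κ, hE0, hE1, hτκ, hκ1, hPE, hκ⟩ := h.truncLE hm hr hN hx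
  have hτ := h.mem x hx
  have hs := tCells_sound hm hz0 hz hz' (cn_Z_pos (m - 1)) (p0 := (1000 * n0, u0)) hu0 cells 0
    le_rfl hC E κ (τ x) (∫ t in (0 : ℝ)..x, sq t ^ m) (by simpa only [Int.cast_zero, zero_div] using hE0) (Or.inr hc) hE1 hτ.1
    hτκ hκ1 hPE hκ
  have hn0' : (0 : ℝ) < (n0 : ℝ) := by exact_mod_cast hn0
  rcases le_or_gt x ((n0 : ℝ) / 10000) with h0 | h0
  · -- near `0`
    have hq : 0 < (n0 : ℝ) / 10000 := by positivity
    set θ : ℝ := x / ((n0 : ℝ) / 10000) with hθ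
    have hθ0 : 0 < θ := div_pos hx.1 hq
    have hθ1 : θ ≤ 1 := (div_le_one hq).2 h0
    have hθx : θ * ((n0 : ℝ) / 10000) = x := div_mul_cancel₀ _ hq.ne'
    have hPx : (∫ t in (0 : ℝ)..x, sq t ^ m) ≤ x := by
      have h1 : (∫ t in (0 : ℝ)..x, sq t ^ m) ≤ ∫ t in (0 : ℝ)..x, (1 : ℝ) := by
        apply intervalIntegral.integral_mono_on hx.1.le (cn_sq_pow_ii _ _ _) (by simp)
        intro t _
        exact pow_le_one₀ (cn_sq_nonneg t) (cn_sq_le_one t)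
      simpa only [ge_iff_le, intervalIntegral.integral_const, sub_zero, smul_eq_mul, mul_one] using h1
    have h1 := hs.1 θ hθ0 hθ1 (by
      simp only
      have e : ((1000 * n0 : ℤ) : ℝ) / lsD = (n0 : ℝ) / 10000 := by
        rw [lsD_cast]
        push_cast
        ring
      rw [e, hθx]
      exact hPx)
    simp only at h1
    have h2 : (u0 : ℝ) / lsD ≤ (n0 : ℝ) / 10000 * ((c : ℝ) / lsD) := by
      have h3 : (u0 : ℝ) * 10000 ≤ n0 * c := by exact_mod_cast hu0c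
      rw [← mul_div_assoc]
      apply div_le_div_of_nonneg_right _ hD.le
      linarith only [h3]
    have h3 : θ * ((u0 : ℝ) / lsD) ≤ θ * ((n0 : ℝ) / 10000 * ((c : ℝ) / lsD)) :=
      mul_le_mul_of_nonneg_left h2 hθ0.le
    rw [← mul_assoc, hθx] at h3
    exact h1.trans h3
  · obtain ⟨p, hp, hp2, hp3, hp4⟩ := tStep_sound hA hc0 nodes n0 hS x h0.le h1
    exact (hs.2 p hp hp2 hp3).trans hp4

theorem ls_lt_of {m : ℕ} {x q : ℝ} {n : ℤ} (_hx : 0 < x) (hn : 0 < n) (h : (m : ℝ) * x ^ 2 ≤ q)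
    (hq : q * 100000000 < m * (n : ℝ) ^ 2) : x < (n : ℝ) / 10000 := by
  have hn' : (0 : ℝ) < (n : ℝ) := by exact_mod_cast hn
  by_contra hcon
  push Not at hcon
  have h1 : ((n : ℝ) / 10000) ^ 2 ≤ x ^ 2 := pow_le_pow_left₀ (by (clear * - hn; positivity)) hcon 2
  have h2 : (m : ℝ) * ((n : ℝ) / 10000) ^ 2 ≤ m * x ^ 2 :=
    mul_le_mul_of_nonneg_left h1 (by (clear * -; positivity))
  have h3 : (m : ℝ) * ((n : ℝ) / 10000) ^ 2 * 100000000 = m * (n : ℝ) ^ 2 := by ring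
  linarith only [h2, hq, h]

theorem ls_ge_of {m : ℕ} {x q : ℝ} {n : ℤ} (hx : 0 < x) (hm : 0 < m) (h : q ≤ (m : ℝ) * x ^ 2)
    (hq : m * (n : ℝ) ^ 2 ≤ q * 100000000) : (n : ℝ) / 10000 ≤ x := by
  have hm' : (0 : ℝ) < (m : ℝ) := by exact_mod_cast hm
  by_contra hcon
  push Not at hcon
  have h1 : x ^ 2 < ((n : ℝ) / 10000) ^ 2 := pow_lt_pow_left₀ hcon hx.le (by norm_num)
  have h2 : (m : ℝ) * x ^ 2 < m * ((n : ℝ) / 10000) ^ 2 := mul_lt_mul_of_pos_left h1 hm'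
  have h3 : (m : ℝ) * ((n : ℝ) / 10000) ^ 2 * 100000000 = m * (n : ℝ) ^ 2 := by ring
  linarith only [h2, hq, h]

theorem ls_log_of {x t L : ℝ} {c : ℤ} (hx : 0 < x) (ht : 0 < t) (hL : 0 ≤ L)
    (h : t ≤ x * ((c : ℝ) / lsD))
    (hc : (c : ℝ) / lsD ≤ 1 + L + L ^ 2 / 2 + L ^ 3 / 6 + L ^ 4 / 24) :
    Real.log (t / x) ≤ L := by
  rw [Real.log_le_iff_le_exp (div_pos ht hx), div_le_iff₀ hx]
  have h1 := ls_exp_lower hL
  have h2 : x * ((c : ℝ) / lsD) ≤ x * exp L := mul_le_mul_of_nonneg_left (hc.trans h1) hx.le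
  linarith only [h, h2]

/-- the box of the a priori bounds, `q = m x²` -/
def ApBox3 (q l : ℝ) : Prop :=
  (q ≤ 16 / 25 → l ≤ 1 / 2) ∧ (16 / 25 ≤ q → q ≤ 121 / 16 → l ≤ 2 / 5) ∧
  (121 / 16 ≤ q → q ≤ 9 → l ≤ 11 / 25)

/-! ### a larger bound for `m ≤ 26` -/

/-- the second upper bound -/
noncomputable def lsY (x : ℝ) : ℝ := x * exp ((1 - x ^ 2) * (127 / 200 + 33 / 200 * x ^ 2))

theorem lsY_mono {x y : ℝ} (hx : 0 < x) (hxy : x ≤ y) (hy : y ^ 2 ≤ 7 / 10) :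
    lsY x ≤ lsY y := by
  have hy0 : 0 < y := hx.trans_le hxy
  unfold lsY
  set w : ℝ := (1 - x ^ 2) * (127 / 200 + 33 / 200 * x ^ 2) -
    (1 - y ^ 2) * (127 / 200 + 33 / 200 * y ^ 2) with hw
  have h1 : w ≤ (y ^ 2 - x ^ 2) / (2 * y ^ 2) := by
    rw [le_div_iff₀ (by positivity)]
    have h2 : w = (y ^ 2 - x ^ 2) * (94 / 200 + 33 / 200 * (x ^ 2 + y ^ 2)) := by
      rw [hw]
      ring
    have h3 : 0 ≤ y ^ 2 - x ^ 2 := by nlinarith only [hx, hxy]
    have h4 : (94 / 200 + 33 / 200 * (x ^ 2 + y ^ 2)) * (2 * y ^ 2) ≤ 1 := by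
      have h5 : (94 / 200 + 33 / 200 * (x ^ 2 + y ^ 2)) ≤ 94 / 200 + 66 / 200 * y ^ 2 := by
        nlinarith only [h3]
      have h6 : (94 / 200 + 66 / 200 * y ^ 2) * (2 * y ^ 2) ≤ 1 := by nlinarith only [hy]
      nlinarith only [hy, h3]
    rw [h2, mul_assoc]
    linarith only [mul_nonneg (sub_nonneg.2 h3) (sub_nonneg.2 h4)]
  have h5 : x / y ≤ exp (-w) := by
    have h6 := add_one_le_exp (-w)
    have h7 : x / y ≤ 1 - (y ^ 2 - x ^ 2) / (2 * y ^ 2) := by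
      rw [div_le_iff₀ hy0]
      have e : (1 - (y ^ 2 - x ^ 2) / (2 * y ^ 2)) * y = (y ^ 2 + x ^ 2) / (2 * y) := by
        field_simp
        ring
      rw [e, le_div_iff₀ (by positivity)]
      linarith only [sq_nonneg (y - x)]
    linarith only [h1, h6, h7]
  rw [div_le_iff₀ hy0] at h5
  have h8 : exp ((1 - x ^ 2) * (127 / 200 + 33 / 200 * x ^ 2)) =
      exp w * exp ((1 - y ^ 2) * (127 / 200 + 33 / 200 * y ^ 2)) := by
    rw [← Real.exp_add]
    congr 1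
    rw [hw]
    ring
  rw [h8]
  have h9 : exp w * exp (-w) = 1 := by
    rw [← Real.exp_add]
    simp
  have h10 : 0 < exp w := exp_pos _
  have h11 : x * exp w ≤ y := by
    calc x * exp w ≤ exp (-w) * y * exp w := mul_le_mul_of_nonneg_right h5 h10.le
      _ = y * (exp w * exp (-w)) := by ring
      _ = y := by rw [h9, mul_one]
  calc x * (exp w * exp ((1 - y ^ 2) * (127 / 200 + 33 / 200 * y ^ 2)))
      = x * exp w * exp ((1 - y ^ 2) * (127 / 200 + 33 / 200 * y ^ 2)) := by ring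
    _ ≤ y * exp ((1 - y ^ 2) * (127 / 200 + 33 / 200 * y ^ 2)) :=
        mul_le_mul_of_nonneg_right h11 (exp_pos _).le

theorem lsY_69 : 1 ≤ lsY (69 / 100) := by
  unfold lsY
  have h := ls_exp_lower (t := (1 - (69 / 100) ^ 2) * (127 / 200 + 33 / 200 * (69 / 100 : ℝ) ^ 2))
    (by norm_num)
  have h2 : (1 : ℝ) ≤ 69 / 100 *
      (1 + (1 - (69 / 100) ^ 2) * (127 / 200 + 33 / 200 * (69 / 100 : ℝ) ^ 2) +
      ((1 - (69 / 100) ^ 2) * (127 / 200 + 33 / 200 * (69 / 100 : ℝ) ^ 2)) ^ 2 / 2 +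
      ((1 - (69 / 100) ^ 2) * (127 / 200 + 33 / 200 * (69 / 100 : ℝ) ^ 2)) ^ 3 / 6 +
      ((1 - (69 / 100) ^ 2) * (127 / 200 + 33 / 200 * (69 / 100 : ℝ) ^ 2)) ^ 4 / 24) := by
    norm_num
  nlinarith

theorem lsY_ge_one {x : ℝ} (hx : 69 / 100 ≤ x) (hx1 : x < 1) : 1 ≤ lsY x := by
  rcases le_total (x ^ 2) (7 / 10) with h | h
  · exact lsY_69.trans (lsY_mono (by norm_num) hx h)
  · unfold lsY
    have h1 := add_one_le_exp ((1 - x ^ 2) * (127 / 200 + 33 / 200 * x ^ 2))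
    have h2 : 83 / 100 ≤ x := by nlinarith only [h, hx]
    have h3 : 0 ≤ 1 - x ^ 2 := by nlinarith only [hx1, hx]
    have h4 : 1 ≤ x * ((1 - x ^ 2) * (127 / 200 + 33 / 200 * x ^ 2) + 1) := by
      have h5 : (1 - x ^ 2) * (75 / 100) ≤ (1 - x ^ 2) * (127 / 200 + 33 / 200 * x ^ 2) :=
        mul_le_mul_of_nonneg_left (by linarith only [h2, h, hx1]) h3
      have h6 : 1 ≤ x * ((1 - x ^ 2) * (75 / 100) + 1) := by
        have h7 : 0 ≤ (1 - x) * (75 / 100 * x * (1 + x) - 1) := by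
          apply mul_nonneg (by linarith only [hx1])
          nlinarith only [h2]
        linarith only [h7]
      have h8 : 0 < x := by linarith only [h2]
      (clear * - h5 h6 hx; nlinarith)
    have h9 : 0 < x := by linarith only [h2]
    nlinarith

/-- check of `u / D ≤ Y(n / M)`, `M = 10000` -/
def tV (n u : ℤ) : Bool :=
  decide (u * 10000 * 24 * ipw 10000000000000000000 4 ≤ lsD * n *
    (24 * ipw 10000000000000000000 4 +
      24 * ((100000000 - n * n) * (63500000000 + 165 * (n * n))) * ipw 10000000000000000000 3 +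
      12 * ipw ((100000000 - n * n) * (63500000000 + 165 * (n * n))) 2 *
        ipw 10000000000000000000 2 +
      4 * ipw ((100000000 - n * n) * (63500000000 + 165 * (n * n))) 3 * 10000000000000000000 +
      ipw ((100000000 - n * n) * (63500000000 + 165 * (n * n))) 4))

theorem tV_sound {n u : ℤ} (hn : 0 < n) (hn1 : n ≤ 10000) (h : tV n u = true) :
    (u : ℝ) / lsD ≤ lsY ((n : ℝ) / 10000) := by
  have hD := lsD_pos
  unfold tV at h
  rw [decide_eq_true_eq] at h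
  set T : ℤ := (100000000 - n * n) * (63500000000 + 165 * (n * n)) with hT
  have h1 : (u : ℝ) * 10000 * 24 * (10000000000000000000 : ℝ) ^ 4 ≤ lsD * n *
    (24 * (10000000000000000000 : ℝ) ^ 4 + 24 * (T : ℝ) * (10000000000000000000 : ℝ) ^ 3 +
      12 * (T : ℝ) ^ 2 * (10000000000000000000 : ℝ) ^ 2 +
      4 * (T : ℝ) ^ 3 * 10000000000000000000 + (T : ℝ) ^ 4) := by
    have h2 : ((u * 10000 * 24 * ipw 10000000000000000000 4 : ℤ) : ℝ) ≤ ((lsD * n *
      (24 * ipw 10000000000000000000 4 + 24 * T * ipw 10000000000000000000 3 +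
      12 * ipw T 2 * ipw 10000000000000000000 2 + 4 * ipw T 3 * 10000000000000000000 +
      ipw T 4) : ℤ) : ℝ) := by exact_mod_cast h
    push_cast at h2
    rw [ipw_cast, ipw_cast, ipw_cast, ipw_cast, ipw_cast, ipw_cast] at h2
    push_cast at h2
    exact h2
  have hn' : (0 : ℝ) < (n : ℝ) := by exact_mod_cast hn
  have hn1' : (n : ℝ) ≤ 10000 := by exact_mod_cast hn1
  set t : ℝ := (1 - ((n : ℝ) / 10000) ^ 2) * (127 / 200 + 33 / 200 * ((n : ℝ) / 10000) ^ 2) with ht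
  have hTt : (T : ℝ) = t * 10000000000000000000 := by
    rw [hT, ht]
    push_cast
    ring
  have ht0 : 0 ≤ t := by
    rw [ht]
    have h3 : ((n : ℝ) / 10000) ≤ 1 := by rw [div_le_one (by norm_num)]; exact hn1'
    have h4 : 0 ≤ (n : ℝ) / 10000 := by positivity
    have h5 : ((n : ℝ) / 10000) ^ 2 ≤ 1 := pow_le_one₀ h4 h3
    apply mul_nonneg (by linarith only [h5]) (by positivity)
  have hexp := ls_exp_lower ht0
  unfold lsY
  rw [← ht]
  have h6 : (u : ℝ) ≤ lsD * ((n : ℝ) / 10000 * (1 + t + t ^ 2 / 2 + t ^ 3 / 6 + t ^ 4 / 24)) := by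
    rw [hTt] at h1
    have h7 : (0 : ℝ) < 10000 * 24 * (10000000000000000000 : ℝ) ^ 4 := by norm_num
    refine le_of_mul_le_mul_right ?_ h7
    calc (u : ℝ) * (10000 * 24 * (10000000000000000000 : ℝ) ^ 4)
        = u * 10000 * 24 * (10000000000000000000 : ℝ) ^ 4 := by ring
      _ ≤ _ := h1
      _ = _ := by ring
  rw [div_le_iff₀ hD]
  calc (u : ℝ) ≤ lsD * ((n : ℝ) / 10000 * (1 + t + t ^ 2 / 2 + t ^ 3 / 6 + t ^ 4 / 24)) := h6
    _ ≤ lsD * ((n : ℝ) / 10000 * exp t) := by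
        apply mul_le_mul_of_nonneg_left _ hD.le
        exact mul_le_mul_of_nonneg_left hexp (by positivity)
    _ = _ := by ring

/-- all nodes -/
def tQairs (tA : ℤ → ℤ → Bool) : ℤ → List (ℤ × ℤ × ℤ) → Bool
  | n, [] => decide (6900 ≤ n)
  | n, (n', a, u) :: l =>
    decide (0 < n) && decide (n ≤ n') && decide (n' ≤ 10000) && decide (0 < u) && tV n u &&
      tA n' a && tQairs tA n' l

theorem tQairs_sound {m : ℕ} {tA : ℤ → ℤ → Bool}
    (hA : ∀ n a : ℤ, tA n a = true → 0 ≤ n → n ≤ 10000 →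
      ∫ t in (0 : ℝ)..((n : ℝ) / 10000), sq t ^ m ≤ (a : ℝ) / lsD) :
    ∀ (l : List (ℤ × ℤ × ℤ)) (n : ℤ), tQairs tA n l = true → ∀ x : ℝ, (n : ℝ) / 10000 ≤ x →
      x < 69 / 100 → ∃ p ∈ l.map Prod.snd, 0 < p.2 ∧
        (∫ t in (0 : ℝ)..x, sq t ^ m) ≤ (p.1 : ℝ) / lsD ∧ (p.2 : ℝ) / lsD ≤ lsY x := by
  intro l
  induction l with
  | nil =>
    intro n h x hx hx1
    exfalso
    unfold tQairs at h
    rw [decide_eq_true_eq] at h
    have h1 : (6900 : ℝ) ≤ n := by exact_mod_cast h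
    have h2 : (n : ℝ) ≤ x * 10000 := by
      rw [div_le_iff₀ (by norm_num)] at hx
      exact hx
    linarith
  | cons c l ih =>
    obtain ⟨n', a, u⟩ := c
    intro n h x hx hx1
    unfold tQairs at h
    simp only [Bool.and_eq_true, decide_eq_true_eq] at h
    obtain ⟨⟨⟨⟨⟨⟨hn0, hnn⟩, hn1⟩, hu⟩, hU⟩, hAa⟩, hrec⟩ := h
    rcases le_or_gt x ((n' : ℝ) / 10000) with hxn | hxn
    · refine ⟨(a, u), by simp only [List.map_cons, List.mem_cons, List.mem_map, Prod.exists, exists_eq_right, true_or], hu, ?_, ?_⟩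
      · have h1 := hA n' a hAa (by omega) hn1
        refine le_trans ?_ h1
        rw [← intervalIntegral.integral_add_adjacent_intervals (cn_sq_pow_ii m 0 x)
          (cn_sq_pow_ii m x ((n' : ℝ) / 10000))]
        have : 0 ≤ ∫ t in x..((n' : ℝ) / 10000), sq t ^ m :=
          intervalIntegral.integral_nonneg hxn fun t _ => pow_nonneg (cn_sq_nonneg t) m
        linarith only [this]
      · have h1 := tV_sound hn0 (hnn.trans hn1) hU
        have hn0' : (0 : ℝ) < (n : ℝ) / 10000 := by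
          have : (0 : ℝ) < (n : ℝ) := by exact_mod_cast hn0
          (clear * - hn0; positivity)
        exact h1.trans (lsY_mono hn0' hx (by nlinarith only [hx1, hx, hn0']))
    · obtain ⟨p, hp, h1⟩ := ih n' hrec x hxn.le hx1
      exact ⟨p, by simp only [List.map_cons, List.mem_cons]; exact Or.inr hp, h1⟩

/-- **The second bound from the integer checks.** -/
theorem ls_main2 {m : ℕ} (hm : 1 ≤ m) {z z' : ℤ} (hz0 : 0 < z)
    (hz : (z : ℝ) / lsD ≤ ∫ t in (0 : ℝ)..1, sq t ^ m)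
    (hz' : ∫ t in (0 : ℝ)..1, sq t ^ (m - 1) ≤ (z' : ℝ) / lsD) {tA : ℤ → ℤ → Bool}
    (hA : ∀ n a : ℤ, tA n a = true → 0 ≤ n → n ≤ 10000 →
      ∫ t in (0 : ℝ)..((n : ℝ) / 10000), sq t ^ m ≤ (a : ℝ) / lsD)
    {n0 u0 : ℤ} {nodes : List (ℤ × ℤ × ℤ)} {cells : List (ℤ × ℤ)} (hc : cells ≠ [])
    (hn0 : 0 < n0) (hn1 : n0 ≤ 6000) (hu0 : 0 < u0) (hU : tV n0 u0 = true)
    (hP : tQairs tA n0 nodes = true)
    (hC : tCells m z z' (1000 * n0, u0) (nodes.map Prod.snd) 0 cells = true)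
    {r τ τ' T : ℝ → ℝ} (hr : IsProf r) (h : IsTrans m r τ τ' T)
    (hN : (∫ y in (-1 : ℝ)..1, r y ^ (m - 1)) ^ m * aInt m ^ (m - 1) ≤
      aInt (m - 1) ^ m * (∫ y in (-1 : ℝ)..1, r y ^ m) ^ (m - 1)) {x : ℝ}
    (hx : x ∈ Ioo (0 : ℝ) 1) : τ x ≤ lsY x := by
  obtain ⟨E, κ, hE0, hE1, hτκ, hκ1, hPE, hκ⟩ := h.truncLE hm hr hN hx
  have hτ := h.mem x hx
  have hs := tCells_sound hm hz0 hz hz' (cn_Z_pos (m - 1)) (p0 := (1000 * n0, u0)) hu0 cells 0
    le_rfl hC E κ (τ x) (∫ t in (0 : ℝ)..x, sq t ^ m) (by simpa only [Int.cast_zero, zero_div] using hE0) (Or.inr hc) hE1 hτ.1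
    hτκ hκ1 hPE hκ
  have hn0' : (0 : ℝ) < (n0 : ℝ) := by exact_mod_cast hn0
  have hn1' : (n0 : ℝ) ≤ 6000 := by exact_mod_cast hn1
  rcases le_or_gt x ((n0 : ℝ) / 10000) with h0 | h0
  · -- near `0`
    have hq : 0 < (n0 : ℝ) / 10000 := by positivity
    set θ : ℝ := x / ((n0 : ℝ) / 10000) with hθ
    have hθ0 : 0 < θ := div_pos hx.1 hq
    have hθ1 : θ ≤ 1 := (div_le_one hq).2 h0
    have hθx : θ * ((n0 : ℝ) / 10000) = x := div_mul_cancel₀ _ hq.ne'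
    have hPx : (∫ t in (0 : ℝ)..x, sq t ^ m) ≤ x := by
      have h1 : (∫ t in (0 : ℝ)..x, sq t ^ m) ≤ ∫ t in (0 : ℝ)..x, (1 : ℝ) := by
        apply intervalIntegral.integral_mono_on hx.1.le (cn_sq_pow_ii _ _ _) (by simp)
        intro t _
        exact pow_le_one₀ (cn_sq_nonneg t) (cn_sq_le_one t)
      simpa only [ge_iff_le, intervalIntegral.integral_const, sub_zero, smul_eq_mul, mul_one] using h1
    have h1 := hs.1 θ hθ0 hθ1 (by
      simp only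
      have e : ((1000 * n0 : ℤ) : ℝ) / lsD = (n0 : ℝ) / 10000 := by
        rw [lsD_cast]
        push_cast
        ring
      rw [e, hθx]
      exact hPx)
    simp only at h1
    have h2 := tV_sound hn0 (by omega) hU
    have h3 : θ * ((u0 : ℝ) / lsD) ≤ θ * lsY ((n0 : ℝ) / 10000) :=
      mul_le_mul_of_nonneg_left h2 hθ0.le
    refine h1.trans (h3.trans ?_)
    unfold lsY
    rw [← mul_assoc, hθx]
    apply mul_le_mul_of_nonneg_left _ hx.1.le
    apply Real.exp_le_exp.2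
    have h4 : x ^ 2 ≤ ((n0 : ℝ) / 10000) ^ 2 := pow_le_pow_left₀ hx.1.le h0 2
    nlinarith only [h4]
  · rcases lt_or_ge x (69 / 100) with h1 | h1
    · obtain ⟨p, hp, hp2, hp3, hp4⟩ := tQairs_sound hA nodes n0 hP x h0.le h1
      exact (hs.2 p hp hp2 hp3).trans hp4
    · exact hτ.2.le.trans (lsY_ge_one h1 hx.2)

end Vale.Agent.P237.AllN
end

section

/-!
# P237, all dimensions: numerical bounds for `∫₀¹ s^m`
-/

open MeasureTheory Metric Set Module Filter Topology Real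

namespace Vale.Agent.P237.AllN

theorem ls_Z41 : ∫ t in (0 : ℝ)..1, sq t ^ 41 = 67282234305 * π / 1099511627776 := by
  rw [ls_Zrec 39, ls_Z39]
  norm_num
  ring

theorem ls_Z42 : ∫ t in (0 : ℝ)..1, sq t ^ 42 = 549755813888 / 2893136075115 := by
  rw [ls_Zrec 40, ls_Z40]
  norm_num

theorem ls_Z43 : ∫ t in (0 : ℝ)..1, sq t ^ 43 = 263012370465 * π / 4398046511104 := by
  rw [ls_Zrec 41, ls_Z41]
  norm_num
  ring

theorem ls_Z44 : ∫ t in (0 : ℝ)..1, sq t ^ 44 = 2199023255552 / 11835556670925 := by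
  rw [ls_Zrec 42, ls_Z42]
  norm_num

theorem ls_Z45 : ∫ t in (0 : ℝ)..1, sq t ^ 45 = 514589420475 * π / 8796093022208 := by
  rw [ls_Zrec 43, ls_Z43]
  norm_num
  ring

theorem ls_Z46 : ∫ t in (0 : ℝ)..1, sq t ^ 46 = 4398046511104 / 24185702762325 := by
  rw [ls_Zrec 44, ls_Z44]
  norm_num

theorem ls_Z47 : ∫ t in (0 : ℝ)..1, sq t ^ 47 = 8061900920775 * π / 140737488355328 := by
  rw [ls_Zrec 45, ls_Z45]
  norm_num
  ring

theorem ls_Z48 : ∫ t in (0 : ℝ)..1, sq t ^ 48 = 70368744177664 / 395033145117975 := by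
  rw [ls_Zrec 46, ls_Z46]
  norm_num

theorem ls_hi41 : ∫ t in (0 : ℝ)..1, sq t ^ 41 ≤ ((1922430 : ℤ) : ℝ) / lsD := by
  rw [ls_Z41, lsD_cast]
  push_cast
  linarith [pi_lt_d6]

theorem ls_lo41 : ((1922429 : ℤ) : ℝ) / lsD ≤ ∫ t in (0 : ℝ)..1, sq t ^ 41 := by
  rw [ls_Z41, lsD_cast]
  push_cast
  linarith only [pi_gt_d6]

theorem ls_hi42 : ∫ t in (0 : ℝ)..1, sq t ^ 42 ≤ ((1900208 : ℤ) : ℝ) / lsD := by
  rw [ls_Z42, lsD_cast]
  push_cast
  norm_num

theorem ls_lo42 : ((1900207 : ℤ) : ℝ) / lsD ≤ ∫ t in (0 : ℝ)..1, sq t ^ 42 := by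
  rw [ls_Z42, lsD_cast]
  push_cast
  norm_num

theorem ls_hi43 : ∫ t in (0 : ℝ)..1, sq t ^ 43 ≤ ((1878739 : ℤ) : ℝ) / lsD := by
  rw [ls_Z43, lsD_cast]
  push_cast
  linarith only [pi_lt_d6]

theorem ls_lo43 : ((1878737 : ℤ) : ℝ) / lsD ≤ ∫ t in (0 : ℝ)..1, sq t ^ 43 := by
  rw [ls_Z43, lsD_cast]
  push_cast
  linarith only [pi_gt_d6]

theorem ls_hi44 : ∫ t in (0 : ℝ)..1, sq t ^ 44 ≤ ((1857981 : ℤ) : ℝ) / lsD := by
  rw [ls_Z44, lsD_cast]
  push_cast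
  norm_num

theorem ls_lo44 : ((1857980 : ℤ) : ℝ) / lsD ≤ ∫ t in (0 : ℝ)..1, sq t ^ 44 := by
  rw [ls_Z44, lsD_cast]
  push_cast
  norm_num

theorem ls_hi45 : ∫ t in (0 : ℝ)..1, sq t ^ 45 ≤ ((1837897 : ℤ) : ℝ) / lsD := by
  rw [ls_Z45, lsD_cast]
  push_cast
  linarith only [pi_lt_d6]

theorem ls_lo45 : ((1837895 : ℤ) : ℝ) / lsD ≤ ∫ t in (0 : ℝ)..1, sq t ^ 45 := by
  rw [ls_Z45, lsD_cast]
  push_cast
  linarith only [pi_gt_d6]

theorem ls_hi46 : ∫ t in (0 : ℝ)..1, sq t ^ 46 ≤ ((1818449 : ℤ) : ℝ) / lsD := by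
  rw [ls_Z46, lsD_cast]
  push_cast
  norm_num

theorem ls_lo46 : ((1818448 : ℤ) : ℝ) / lsD ≤ ∫ t in (0 : ℝ)..1, sq t ^ 46 := by
  rw [ls_Z46, lsD_cast]
  push_cast
  norm_num

theorem ls_hi47 : ∫ t in (0 : ℝ)..1, sq t ^ 47 ≤ ((1799607 : ℤ) : ℝ) / lsD := by
  rw [ls_Z47, lsD_cast]
  push_cast
  linarith [pi_lt_d6]

theorem ls_lo47 : ((1799606 : ℤ) : ℝ) / lsD ≤ ∫ t in (0 : ℝ)..1, sq t ^ 47 := by
  rw [ls_Z47, lsD_cast]
  push_cast
  (clear * -; linarith only [pi_gt_d6])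

theorem ls_hi48 : ∫ t in (0 : ℝ)..1, sq t ^ 48 ≤ ((1781338 : ℤ) : ℝ) / lsD := by
  rw [ls_Z48, lsD_cast]
  push_cast
  norm_num

theorem ls_lo48 : ((1781337 : ℤ) : ℝ) / lsD ≤ ∫ t in (0 : ℝ)..1, sq t ^ 48 := by
  rw [ls_Z48, lsD_cast]
  push_cast
  norm_num

end Vale.Agent.P237.AllN
end

section

/-!
# P237, block D, `l > 0`, `m z ≤ 1`: the correction term
-/

open Set

namespace Vale.Agent.P237.AllN

/-- algebra of the correction term: `q` bounds `(e^(2l) - 1 - 2l)/l²`, `s ≥ s1`, `r ≥ r1` -/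
theorem pg_core {z s r Q l q L zb s1 r1 : ℝ} (hz0 : 0 ≤ z) (hzb : z ≤ zb) (hs1 : 0 < s1)
    (hr1 : 0 < r1) (hs : s1 ≤ s) (hs' : s ≤ 1) (hr : r1 ≤ r) (hrs : r ≤ s)
    (hsr : (s - r) * (s + r) = z * Q) (hl0 : 0 ≤ l) (hl : l ≤ L) (hq : 0 ≤ q)
    (hQ : Q ≤ 2 * l + q * l ^ 2)
    (hnum : 4 * (zb * (2 + q * L)) ≤ (s1 + r1) * (s1 * (1 + s1) *
      (2 / 5 * ((1 + s1) * (s1 + r1) * (1 + r1)) - q)))
    (hq2 : q ≤ 2 / 5 * ((1 + s1) * (s1 + r1) * (1 + r1))) :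
    -(4 / 5 * (z * l ^ 2)) ≤ 2 * (r / (1 + r) - s / (1 + s) + z / (s * (1 + s) ^ 2) * l) := by
  have hs0 : 0 < s := hs1.trans_le hs
  have hr0 : 0 < r := hr1.trans_le hr
  have hd : 0 ≤ s - r := by linarith only [hrs]
  -- `(s - r)(s1 + r1) ≤ zb (2 + q L) l`
  have h1 : (s - r) * (s1 + r1) ≤ zb * (2 + q * L) * l := by
    have a1 : (s - r) * (s1 + r1) ≤ (s - r) * (s + r) :=
      mul_le_mul_of_nonneg_left (by linarith only [hs, hr]) hd
    have a2 : z * Q ≤ z * ((2 + q * L) * l) := by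
      apply mul_le_mul_of_nonneg_left _ hz0
      refine hQ.trans ?_
      have : q * l * l ≤ q * L * l := by
        apply mul_le_mul_of_nonneg_right _ hl0
        exact mul_le_mul_of_nonneg_left hl hq
      linarith only [this]
    have a3 : 0 ≤ (2 + q * L) * l := by
      have : 0 ≤ L := hl0.trans hl
      (clear * - hq this hl0; positivity)
    have a4 := mul_le_mul_of_nonneg_right hzb a3
    linarith only [hsr, a1, a2, a4]
  have hL0 : 0 ≤ L := hl0.trans hl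
  have hB : s1 * (1 + s1) * (2 / 5 * ((1 + s1) * (s1 + r1) * (1 + r1)) - q) ≤
      s * (1 + s) * (2 / 5 * ((1 + s) * (s + r) * (1 + r)) - q) := by
    have b1 : 2 / 5 * ((1 + s1) * (s1 + r1) * (1 + r1)) ≤ 2 / 5 * ((1 + s) * (s + r) * (1 + r)) := by
      (clear * - hs hr hs1 hr1 hs0 hr0; gcongr)
    have b2 : s1 * (1 + s1) ≤ s * (1 + s) := by (clear * - hs hs1 hs0; gcongr)
    exact mul_le_mul b2 (by linarith only [b1]) (by linarith only [hq2]) (by positivity)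
  have h2 : 4 * (s - r) ≤ l * (s * (1 + s) * (2 / 5 * ((1 + s) * (s + r) * (1 + r)) - q)) := by
    have c0 : 0 < s1 + r1 := by linarith only [hs1, hr1]
    have c1 : 4 * (s - r) * (s1 + r1) ≤ (l * (s1 * (1 + s1) *
        (2 / 5 * ((1 + s1) * (s1 + r1) * (1 + r1)) - q))) * (s1 + r1) := by
      have := mul_le_mul_of_nonneg_right hnum hl0
      linarith only [this, h1]
    have c2 := le_of_mul_le_mul_right c1 c0
    exact c2.trans (mul_le_mul_of_nonneg_left hB hl0)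
  have h3 : (s - r) * (1 + 2 * s + r) ≤
      l * (s * (1 + s) * (2 / 5 * ((1 + s) * (s + r) * (1 + r)) - q)) := by
    refine le_trans ?_ h2
    have : (s - r) * (1 + 2 * s + r) ≤ (s - r) * 4 :=
      mul_le_mul_of_nonneg_left (by linarith only [hs', hrs]) hd
    linarith only [this]
  have e : 2 * (r / (1 + r) - s / (1 + s) + z / (s * (1 + s) ^ 2) * l) + 4 / 5 * (z * l ^ 2) =
      2 * z * (l * ((s + r) * (1 + r)) + 2 / 5 * l ^ 2 * (s * (1 + s) ^ 2 * ((s + r) * (1 + r))) -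
        Q * (s * (1 + s))) / (s * (1 + s) ^ 2 * ((s + r) * (1 + r))) := by
    have e1 : r / (1 + r) - s / (1 + s) = -(z * Q) / ((s + r) * (1 + r) * (1 + s)) := by
      rw [← hsr]
      have : s + r ≠ 0 := by positivity
      field_simp
      ring
    rw [e1]
    field_simp
    ring
  have h4 : 0 ≤ l * ((s + r) * (1 + r)) + 2 / 5 * l ^ 2 * (s * (1 + s) ^ 2 * ((s + r) * (1 + r))) -
        Q * (s * (1 + s)) := by
    have d1 : Q * (s * (1 + s)) ≤ (2 * l + q * l ^ 2) * (s * (1 + s)) :=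
      mul_le_mul_of_nonneg_right hQ (by positivity)
    have d2 := mul_le_mul_of_nonneg_left h3 hl0
    linarith only [d2, d1]
  have h5 : 0 ≤ 2 * z * (l * ((s + r) * (1 + r)) + 2 / 5 * l ^ 2 *
      (s * (1 + s) ^ 2 * ((s + r) * (1 + r))) - Q * (s * (1 + s))) /
      (s * (1 + s) ^ 2 * ((s + r) * (1 + r))) := by (clear * - hz0 h4 hs0 hr0; positivity)
  linarith only [e, h5]

theorem pg_exp {l : ℝ} (h0 : 0 ≤ l) (h1 : l ≤ 1 / 2) :
    Real.exp (2 * l) ≤ 1 + 2 * l + 2 * l ^ 2 + 16 / 9 * l ^ 3 := by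
  have h2 := Real.exp_bound' (x := 2 * l) (by linarith only [h0]) (by linarith only [h1]) (n := 3) (by norm_num)
  simp only [Finset.sum_range_succ, Finset.sum_range_zero, Nat.factorial] at h2
  refine h2.trans (le_of_eq ?_)
  norm_num
  ring

/-- the correction term, `x² ≤ 1/25`, `l ≤ 2/5` or `x² ≤ 16/625`, `l ≤ 1/2` -/
theorem pg_corr {x l : ℝ} (hx : x ∈ Ioo (0 : ℝ) 1) (hl0 : 0 ≤ l)
    (h : (x ^ 2 ≤ 1 / 25 ∧ l ≤ 2 / 5) ∨ (x ^ 2 ≤ 16 / 625 ∧ l ≤ 1 / 2)) :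
    -(4 / 5 * (x ^ 2 * l ^ 2)) ≤
      2 * (bg (x * Real.exp l) - bg x + x ^ 2 / (sq x * (1 + sq x) ^ 2) * l) := by
  have hz0 : 0 ≤ x ^ 2 := sq_nonneg x
  have hl : l ≤ 1 / 2 := by rcases h with h | h <;> linarith only [h]
  have hxx : x ^ 2 ≤ 1 / 25 := by rcases h with h | h <;> linarith only [h]
  have hE : Real.exp l ^ 2 = Real.exp (2 * l) := by
    rw [← Real.exp_nat_mul]; norm_num
  have hE1 : 1 ≤ Real.exp (2 * l) := Real.one_le_exp (by linarith only [hl0])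
  have hEe : Real.exp (2 * l) ≤ 27183 / 10000 :=
    (Real.exp_le_exp.2 (by linarith only [hl])).trans pa_exp1
  have ht : (x * Real.exp l) ^ 2 = x ^ 2 * Real.exp (2 * l) := by rw [mul_pow, hE]
  have ht1 : 0 < 1 - (x * Real.exp l) ^ 2 := by
    rw [ht]
    have := mul_le_mul hxx hEe (Real.exp_pos _).le (by norm_num)
    norm_num at this
    linarith only [this]
  have hr2 : sq (x * Real.exp l) ^ 2 = 1 - x ^ 2 * Real.exp (2 * l) := by
    unfold sq
    rw [Real.sq_sqrt ht1.le, ht]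
  have hs2 : sq x ^ 2 = 1 - x ^ 2 := by
    unfold sq
    rw [Real.sq_sqrt (by linarith only [hxx])]
  have hs0 : 0 ≤ sq x := Real.sqrt_nonneg _
  have hr0 : 0 ≤ sq (x * Real.exp l) := Real.sqrt_nonneg _
  have hs1 : sq x ≤ 1 := by
    apply le_of_pow_le_pow_left₀ (n := 2) (by norm_num) (by norm_num)
    rw [hs2]; linarith only [hz0]
  have hrs : sq (x * Real.exp l) ≤ sq x := by
    apply le_of_pow_le_pow_left₀ (n := 2) (by norm_num) hs0
    rw [hs2, hr2]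
    linarith only [mul_nonneg (sq_nonneg (x : ℝ)) (sub_nonneg.2 hE1)]
  have hsr : (sq x - sq (x * Real.exp l)) * (sq x + sq (x * Real.exp l)) =
      x ^ 2 * (Real.exp (2 * l) - 1) := by
    have : (sq x - sq (x * Real.exp l)) * (sq x + sq (x * Real.exp l)) =
      sq x ^ 2 - sq (x * Real.exp l) ^ 2 := by ring
    rw [this, hs2, hr2]
    ring
  have hexp := pg_exp hl0 hl
  unfold bg
  generalize sq (x * Real.exp l) = r at *
  generalize sq x = s at *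
  rcases h with ⟨h1, h2⟩ | ⟨h1, h2⟩
  · have hE45 : Real.exp (2 * l) ≤ 22256 / 10000 := by
      refine (Real.exp_le_exp.2 ?_).trans pa_exp45
      linarith only [h2]
    have hQ : Real.exp (2 * l) - 1 ≤ 2 * l + 2.7112 * l ^ 2 := by
      have : 0 ≤ l ^ 2 * (2 / 5 - l) := mul_nonneg (sq_nonneg l) (by linarith only [h2])
      norm_num
      nlinarith only [hexp, this]
    refine pg_core (zb := 1 / 25) (s1 := 0.97979) (r1 := 0.9544) (L := 2 / 5) (q := 2.7112)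
      hz0 h1 (by norm_num) (by norm_num) ?_ hs1 ?_ hrs hsr hl0 h2 (by norm_num) hQ
      (by norm_num) (by norm_num)
    · apply le_of_pow_le_pow_left₀ (n := 2) (by norm_num) hs0
      rw [hs2]; norm_num; linarith only [hxx]
    · apply le_of_pow_le_pow_left₀ (n := 2) (by norm_num) hr0
      rw [hr2]
      have := mul_le_mul h1 hE45 (Real.exp_pos _).le (by norm_num)
      norm_num at this ⊢; linarith only [this]
  · have hQ : Real.exp (2 * l) - 1 ≤ 2 * l + 2.889 * l ^ 2 := by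
      have : 0 ≤ l ^ 2 * (1 / 2 - l) := mul_nonneg (sq_nonneg l) (by linarith only [hl])
      norm_num
      nlinarith only [hexp, this]
    refine pg_core (zb := 16 / 625) (s1 := 0.9871) (r1 := 0.9645) (L := 1 / 2) (q := 2.889)
      hz0 h1 (by norm_num) (by norm_num) ?_ hs1 ?_ hrs hsr hl0 h2 (by norm_num) hQ
      (by norm_num) (by norm_num)
    · apply le_of_pow_le_pow_left₀ (n := 2) (by norm_num) hs0
      rw [hs2]; norm_num; linarith only [h1]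
    · apply le_of_pow_le_pow_left₀ (n := 2) (by norm_num) hr0
      rw [hr2]
      have := mul_le_mul h1 hEe (Real.exp_pos _).le (by norm_num)
      norm_num at this ⊢; linarith only [this]

end Vale.Agent.P237.AllN
end
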