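import Mathlib.Analysis.SpecialFunctions.Exp
import Mathlib.Analysis.Complex.Exponential
import Vale.Agent.P237.Bd3.B2
import Vale.Agent.P237.Bd3.B3

set_option linter.all false

section

/-!
# P237, block D, `l > 0`: the kernel sums of the hybrid lines

`kpt t = 1 - t + t²/2 - e^{-t}`, `kct t = e^t - 1 - t - t²/2`, with `t = 2kl`.
-/

open Finset

namespace Vale.Agent.P237.AllN

open PolyPos

noncomputable def kpt (t : ℝ) : ℝ := 1 - t + t ^ 2 / 2 - Real.exp (-t)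

noncomputable def kct (t : ℝ) : ℝ := Real.exp t - 1 - t - t ^ 2 / 2

/-- `1260 ×` lower Taylor bound of `e^{-2l}` -/
def kAL : List ℤ := [1260, -2520, 2520, -1680, 840, -336, 112, -32, -9]

/-- `1260 ×` upper Taylor bound of `e^{-2l}` -/
def kAH : List ℤ := [1260, -2520, 2520, -1680, 840, -336, 112, -32, 9]

/-- `1260 ×` upper Taylor bound of `e^{2l}` -/
def kBH : List ℤ := [1260, 2520, 2520, 1680, 840, 336, 112, 32, 9]

theorem ks_taylor {y : ℝ} (hy : |y| ≤ 1) :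
    |Real.exp y - (1 + y + y ^ 2 / 2 + y ^ 3 / 6 + y ^ 4 / 24 + y ^ 5 / 120 + y ^ 6 / 720 +
      y ^ 7 / 5040)| ≤ |y| ^ 8 / 35840 := by
  have h := Real.exp_bound hy (n := 8) (by norm_num)
  simp only [sum_range_succ, sum_range_zero, Nat.factorial] at h
  norm_num at h
  refine le_trans (le_of_eq ?_) (h.trans (le_of_eq ?_))
  · congr 1
  · ring

theorem kAL_le {l : ℝ} (h0 : 0 ≤ l) (h1 : l ≤ 1 / 2) : ev1 kAL l ≤ 1260 * Real.exp (-(2 * l)) := by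
  have h := ks_taylor (y := -(2 * l)) (by rw [abs_neg, abs_of_nonneg (by linarith only [h0])]; linarith only [h1])
  rw [abs_neg, abs_of_nonneg (by linarith only [h0] : 0 ≤ 2 * l)] at h
  have h2 := (abs_le.1 h).1
  simp only [kAL, ev1_cons, ev1_nil]
  push_cast
  linarith only [h2]

theorem kAH_ge {l : ℝ} (h0 : 0 ≤ l) (h1 : l ≤ 1 / 2) : 1260 * Real.exp (-(2 * l)) ≤ ev1 kAH l := by
  have h := ks_taylor (y := -(2 * l)) (by rw [abs_neg, abs_of_nonneg (by linarith only [h0])]; linarith only [h1])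
  rw [abs_neg, abs_of_nonneg (by linarith only [h0] : 0 ≤ 2 * l)] at h
  have h2 := (abs_le.1 h).2
  simp only [kAH, ev1_cons, ev1_nil]
  push_cast
  linarith only [h2]

theorem kBH_ge {l : ℝ} (h0 : 0 ≤ l) (h1 : l ≤ 1 / 2) : 1260 * Real.exp (2 * l) ≤ ev1 kBH l := by
  have h := ks_taylor (y := 2 * l) (by rw [abs_of_nonneg (by linarith only [h0])]; linarith only [h1])
  rw [abs_of_nonneg (by linarith only [h0] : 0 ≤ 2 * l)] at h
  have h2 := (abs_le.1 h).2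
  simp only [kBH, ev1_cons, ev1_nil]
  push_cast
  linarith only [h2]

theorem kAL_nonneg {l : ℝ} (h0 : 0 ≤ l) (h1 : l ≤ 2 / 5) : 0 ≤ ev1 kAL l := by
  apply ev1_closed (a := 0) (b := 2 / 5) (by norm_num) _ h0 h1
  intro x hx0 hx1
  exact auto1_sound (n := 4) (A := 0) (B := 2) (D := 5) (by norm_num) (by (clear * -; decide +kernel))
    (by push_cast; linarith only [hx0]) (by push_cast; linarith only [hx1])

theorem ks_E_ge (k : ℕ) {l : ℝ} (h0 : 0 ≤ l) (h1 : l ≤ 2 / 5) :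
    ev1 kAL l ^ k ≤ 1260 ^ k * Real.exp (-(2 * k * l)) := by
  have h2 := pow_le_pow_left₀ (kAL_nonneg h0 h1) (kAL_le h0 (by linarith)) k
  rw [mul_pow, ← Real.exp_nat_mul] at h2
  refine h2.trans (le_of_eq ?_)
  congr 2
  ring

theorem ks_E_le (k : ℕ) {l : ℝ} (h0 : 0 ≤ l) (h1 : l ≤ 2 / 5) :
    1260 ^ k * Real.exp (-(2 * k * l)) ≤ ev1 kAH l ^ k := by
  have h2 := pow_le_pow_left₀ (by positivity) (kAH_ge h0 (by linarith)) k
  rw [mul_pow, ← Real.exp_nat_mul] at h2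
  refine le_trans (le_of_eq ?_) h2
  congr 2
  ring

theorem ks_B_le (k : ℕ) {l : ℝ} (h0 : 0 ≤ l) (h1 : l ≤ 2 / 5) :
    1260 ^ k * Real.exp (2 * k * l) ≤ ev1 kBH l ^ k := by
  have h2 := pow_le_pow_left₀ (by positivity) (kBH_ge h0 (by linarith)) k
  rw [mul_pow, ← Real.exp_nat_mul] at h2
  refine le_trans (le_of_eq ?_) h2
  congr 2
  ring

theorem ks_poly {q : List ℤ} {l : ℝ} (h0 : 0 ≤ l) (h1 : l ≤ 2 / 5)
    (h : auto1 6 0 2 5 q = true) : 0 ≤ ev1 q l := by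
  apply ev1_closed (a := 0) (b := 2 / 5) (by norm_num) _ h0 h1
  intro x hx0 hx1
  exact auto1_sound (n := 6) (A := 0) (B := 2) (D := 5) (by norm_num) h
    (by push_cast; linarith only [hx0]) (by push_cast; linarith only [hx1])

theorem ks_w {l : ℝ} (h0 : 0 ≤ l) (h1 : l ≤ 2 / 5) :
    kpt (2 * l) ≤ l ^ 3 * (4 / 3 - 3 / 5 * l + 7 / 100 * l ^ 2) := by
  have h := ks_poly (q := padd (psm 1260 [-300, 600, -600, 400, -180, 21]) (psm 300 kAL)) h0 h1 (by (clear * -; decide +kernel))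
  have hE := kAL_le h0 (by linarith)
  rw [ev1_padd, ev1_psm, ev1_psm] at h
  simp only [ev1_cons, ev1_nil] at h hE
  push_cast at h
  simp only [kpt]
  linarith only [h, hE]

theorem ks_h_two {l : ℝ} (h0 : 0 ≤ l) (h1 : l ≤ 2 / 5) :
    3 * kpt (4 * l) + kct (4 * l) ≤ l ^ 3 * (128 / 3 - 19 * l + 26 * l ^ 2) := by
  have h := ks_poly (q := padd (psm (1260 ^ 2) [-6, 48, -48, 128, -57, 78]) (padd (psm 9 (ppow kAL 2))
    (psm (-3) (ppow kBH 2)))) h0 h1 (by (clear * -; decide +kernel))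
  have hE := ks_E_ge 2 h0 h1
  have hB := ks_B_le 2 h0 h1
  rw [ev1_padd, ev1_padd, ev1_psm, ev1_psm, ev1_psm, ev1_ppow, ev1_ppow] at h
  simp only [ev1_cons, ev1_nil] at h
  rw [show -(2 * ((2 : ℕ) : ℝ) * l) = -(4 * l) by push_cast; ring] at hE
  rw [show 2 * ((2 : ℕ) : ℝ) * l = 4 * l by push_cast; ring] at hB
  generalize ev1 kAL l ^ 2 = A at *
  generalize ev1 kBH l ^ 2 = B at *
  push_cast at h
  simp only [kpt, kct]
  linarith

theorem ks_p_two {l : ℝ} (h0 : 0 ≤ l) (h1 : l ≤ 2 / 5) :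
    l ^ 3 * (32 / 3 - 1067 / 100 * l + 133 / 20 * l ^ 2) ≤ kpt (4 * l) := by
  have h := ks_poly (q := padd (psm (1260 ^ 2) [300, -1200, 2400, -3200, 3201, -1995]) (psm (-300) (ppow kAH 2))) h0 h1
    (by (clear * -; decide +kernel))
  have hE := ks_E_le 2 h0 h1
  rw [ev1_padd, ev1_psm, ev1_psm, ev1_ppow] at h
  simp only [ev1_cons, ev1_nil] at h
  rw [show -(2 * ((2 : ℕ) : ℝ) * l) = -(4 * l) by push_cast; ring] at hE
  generalize ev1 kAH l ^ 2 = A at *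
  push_cast at h
  simp only [kpt]
  linarith only [h, hE]

theorem ks_e_two {l : ℝ} (h0 : 0 ≤ l) (h1 : l ≤ 2 / 5) :
    l * (-16 + 423 / 10 * l - 153 / 5 * l ^ 2) ≤ 6 * (Real.exp (-(4 * l)) - 1) + 8 * l := by
  have h := ks_poly (q := padd (psm (1260 ^ 2) [-60, 240, -423, 306]) (psm 60 (ppow kAL 2))) h0 h1
    (by (clear * -; decide +kernel))
  have hE := ks_E_ge 2 h0 h1
  rw [ev1_padd, ev1_psm, ev1_psm, ev1_ppow] at h
  simp only [ev1_cons, ev1_nil] at h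
  rw [show -(2 * ((2 : ℕ) : ℝ) * l) = -(4 * l) by push_cast; ring] at hE
  generalize ev1 kAL l ^ 2 = A at *
  push_cast at h
  linarith only [h, hE]

theorem ks_h_three {l : ℝ} (h0 : 0 ≤ l) (h1 : l ≤ 2 / 5) :
    5 * kpt (6 * l) + kct (6 * l) ≤ l ^ 3 * (216 - 194 * l + 555 / 2 * l ^ 2) := by
  have h := ks_poly (q := padd (psm (1260 ^ 3) [-8, 72, -144, 432, -388, 555]) (padd (psm 10 (ppow kAL 3))
    (psm (-2) (ppow kBH 3)))) h0 h1 (by (clear * -; decide +kernel))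
  have hE := ks_E_ge 3 h0 h1
  have hB := ks_B_le 3 h0 h1
  rw [ev1_padd, ev1_padd, ev1_psm, ev1_psm, ev1_psm, ev1_ppow, ev1_ppow] at h
  simp only [ev1_cons, ev1_nil] at h
  rw [show -(2 * ((3 : ℕ) : ℝ) * l) = -(6 * l) by push_cast; ring] at hE
  rw [show 2 * ((3 : ℕ) : ℝ) * l = 6 * l by push_cast; ring] at hB
  generalize ev1 kAL l ^ 3 = A at *
  generalize ev1 kBH l ^ 3 = B at *
  push_cast at h
  simp only [kpt, kct]
  linarith only [h, hB, hE]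

theorem ks_p_three {l : ℝ} (h0 : 0 ≤ l) (h1 : l ≤ 2 / 5) :
    l ^ 3 * (36 - 54 * l + 228 / 5 * l ^ 2) ≤ kpt (6 * l) := by
  have h := ks_poly (q := padd (psm (1260 ^ 3) [5, -30, 90, -180, 270, -228]) (psm (-5) (ppow kAH 3))) h0 h1
    (by (clear * -; decide +kernel))
  have hE := ks_E_le 3 h0 h1
  rw [ev1_padd, ev1_psm, ev1_psm, ev1_ppow] at h
  simp only [ev1_cons, ev1_nil] at h
  rw [show -(2 * ((3 : ℕ) : ℝ) * l) = -(6 * l) by push_cast; ring] at hE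
  generalize ev1 kAH l ^ 3 = A at *
  push_cast at h
  simp only [kpt]
  linarith only [h, hE]

theorem ks_e_three {l : ℝ} (h0 : 0 ≤ l) (h1 : l ≤ 2 / 5) :
    l * (-36 + 1431 / 10 * l - 1249 / 10 * l ^ 2) ≤ 10 * (Real.exp (-(6 * l)) - 1) + 24 * l := by
  have h := ks_poly (q := padd (psm (1260 ^ 3) [-100, 600, -1431, 1249]) (psm 100 (ppow kAL 3))) h0 h1
    (by (clear * -; decide +kernel))
  have hE := ks_E_ge 3 h0 h1
  rw [ev1_padd, ev1_psm, ev1_psm, ev1_ppow] at h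
  simp only [ev1_cons, ev1_nil] at h
  rw [show -(2 * ((3 : ℕ) : ℝ) * l) = -(6 * l) by push_cast; ring] at hE
  generalize ev1 kAL l ^ 3 = A at *
  push_cast at h
  linarith only [h, hE]

theorem ks_h_four {l : ℝ} (h0 : 0 ≤ l) (h1 : l ≤ 2 / 5) :
    7 * kpt (8 * l) + kct (8 * l) ≤ l ^ 3 * (2048 / 3 - 920 * l + 1490 * l ^ 2) := by
  have h := ks_poly (q := padd (psm (1260 ^ 4) [-18, 192, -576, 2048, -2760, 4470]) (padd (psm 21 (ppow kAL 4))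
    (psm (-3) (ppow kBH 4)))) h0 h1 (by (clear * -; decide +kernel))
  have hE := ks_E_ge 4 h0 h1
  have hB := ks_B_le 4 h0 h1
  rw [ev1_padd, ev1_padd, ev1_psm, ev1_psm, ev1_psm, ev1_ppow, ev1_ppow] at h
  simp only [ev1_cons, ev1_nil] at h
  rw [show -(2 * ((4 : ℕ) : ℝ) * l) = -(8 * l) by push_cast; ring] at hE
  rw [show 2 * ((4 : ℕ) : ℝ) * l = 8 * l by push_cast; ring] at hB
  generalize ev1 kAL l ^ 4 = A at *
  generalize ev1 kBH l ^ 4 = B at *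
  push_cast at h
  simp only [kpt, kct]
  linarith

theorem ks_p_four {l : ℝ} (h0 : 0 ≤ l) (h1 : l ≤ 2 / 5) :
    l ^ 3 * (256 / 3 - 1707 / 10 * l + 349 / 2 * l ^ 2) ≤ kpt (8 * l) := by
  have h := ks_poly (q := padd (psm (1260 ^ 4) [30, -240, 960, -2560, 5121, -5235]) (psm (-30) (ppow kAH 4))) h0 h1
    (by (clear * -; decide +kernel))
  have hE := ks_E_le 4 h0 h1
  rw [ev1_padd, ev1_psm, ev1_psm, ev1_ppow] at h
  simp only [ev1_cons, ev1_nil] at h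
  rw [show -(2 * ((4 : ℕ) : ℝ) * l) = -(8 * l) by push_cast; ring] at hE
  generalize ev1 kAH l ^ 4 = A at *
  push_cast at h
  simp only [kpt]
  linarith only [h, hE]

theorem ks_e_four {l : ℝ} (h0 : 0 ≤ l) (h1 : l ≤ 2 / 5) :
    l * (-64 + 639 / 2 * l - 1544 / 5 * l ^ 2) ≤ 14 * (Real.exp (-(8 * l)) - 1) + 48 * l := by
  have h := ks_poly (q := padd (psm (1260 ^ 4) [-140, 1120, -3195, 3088]) (psm 140 (ppow kAL 4))) h0 h1
    (by (clear * -; decide +kernel))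
  have hE := ks_E_ge 4 h0 h1
  rw [ev1_padd, ev1_psm, ev1_psm, ev1_ppow] at h
  simp only [ev1_cons, ev1_nil] at h
  rw [show -(2 * ((4 : ℕ) : ℝ) * l) = -(8 * l) by push_cast; ring] at hE
  generalize ev1 kAL l ^ 4 = A at *
  push_cast at h
  linarith

theorem ks_h_five {l : ℝ} (h0 : 0 ≤ l) (h1 : l ≤ 2 / 5) :
    9 * kpt (10 * l) + kct (10 * l) ≤ l ^ 3 * (5000 / 3 - 2995 * l + 5519 * l ^ 2) := by
  have h := ks_poly (q := padd (psm (1260 ^ 5) [-24, 300, -1200, 5000, -8985, 16557]) (padd (psm 27 (ppow kAL 5))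
    (psm (-3) (ppow kBH 5)))) h0 h1 (by (clear * -; decide +kernel))
  have hE := ks_E_ge 5 h0 h1
  have hB := ks_B_le 5 h0 h1
  rw [ev1_padd, ev1_padd, ev1_psm, ev1_psm, ev1_psm, ev1_ppow, ev1_ppow] at h
  simp only [ev1_cons, ev1_nil] at h
  rw [show -(2 * ((5 : ℕ) : ℝ) * l) = -(10 * l) by push_cast; ring] at hE
  rw [show 2 * ((5 : ℕ) : ℝ) * l = 10 * l by push_cast; ring] at hB
  generalize ev1 kAL l ^ 5 = A at *
  generalize ev1 kBH l ^ 5 = B at *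
  push_cast at h
  simp only [kpt, kct]
  linarith [h, hB, hE]

theorem ks_p_five {l : ℝ} (h0 : 0 ≤ l) (h1 : l ≤ 2 / 5) :
    l ^ 3 * (500 / 3 - 4167 / 10 * l + 973 / 2 * l ^ 2) ≤ kpt (10 * l) := by
  have h := ks_poly (q := padd (psm (1260 ^ 5) [30, -300, 1500, -5000, 12501, -14595]) (psm (-30) (ppow kAH 5))) h0 h1
    (by (clear * -; decide +kernel))
  have hE := ks_E_le 5 h0 h1
  rw [ev1_padd, ev1_psm, ev1_psm, ev1_ppow] at h
  simp only [ev1_cons, ev1_nil] at h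
  rw [show -(2 * ((5 : ℕ) : ℝ) * l) = -(10 * l) by push_cast; ring] at hE
  generalize ev1 kAH l ^ 5 = A at *
  push_cast at h
  simp only [kpt]
  linarith

theorem ks_e_five {l : ℝ} (h0 : 0 ≤ l) (h1 : l ≤ 2 / 5) :
    l * (-100 + 2884 / 5 * l - 2967 / 5 * l ^ 2) ≤ 18 * (Real.exp (-(10 * l)) - 1) + 80 * l := by
  have h := ks_poly (q := padd (psm (1260 ^ 5) [-90, 900, -2884, 2967]) (psm 90 (ppow kAL 5))) h0 h1
    (by (clear * -; decide +kernel))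
  have hE := ks_E_ge 5 h0 h1
  rw [ev1_padd, ev1_psm, ev1_psm, ev1_ppow] at h
  simp only [ev1_cons, ev1_nil] at h
  rw [show -(2 * ((5 : ℕ) : ℝ) * l) = -(10 * l) by push_cast; ring] at hE
  generalize ev1 kAL l ^ 5 = A at *
  push_cast at h
  linarith

theorem ks_h_six {l : ℝ} (h0 : 0 ≤ l) (h1 : l ≤ 2 / 5) :
    11 * kpt (12 * l) + kct (12 * l) ≤ l ^ 3 * (3456 - 7765 * l + 16284 * l ^ 2) := by
  have h := ks_poly (q := padd (psm (1260 ^ 6) [-10, 144, -720, 3456, -7765, 16284]) (padd (psm 11 (ppow kAL 6))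
    (psm (-1) (ppow kBH 6)))) h0 h1 (by (clear * -; decide +kernel))
  have hE := ks_E_ge 6 h0 h1
  have hB := ks_B_le 6 h0 h1
  rw [ev1_padd, ev1_padd, ev1_psm, ev1_psm, ev1_psm, ev1_ppow, ev1_ppow] at h
  simp only [ev1_cons, ev1_nil] at h
  rw [show -(2 * ((6 : ℕ) : ℝ) * l) = -(12 * l) by push_cast; ring] at hE
  rw [show 2 * ((6 : ℕ) : ℝ) * l = 12 * l by push_cast; ring] at hB
  generalize ev1 kAL l ^ 6 = A at *
  generalize ev1 kBH l ^ 6 = B at *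
  push_cast at h
  simp only [kpt, kct]
  linarith only [h, hB, hE]

theorem ks_p_six {l : ℝ} (h0 : 0 ≤ l) (h1 : l ≤ 2 / 5) :
    l ^ 3 * (288 - 864 * l + 2225 / 2 * l ^ 2) ≤ kpt (12 * l) := by
  have h := ks_poly (q := padd (psm (1260 ^ 6) [2, -24, 144, -576, 1728, -2225]) (psm (-2) (ppow kAH 6))) h0 h1
    (by (clear * -; decide +kernel))
  have hE := ks_E_le 6 h0 h1
  rw [ev1_padd, ev1_psm, ev1_psm, ev1_ppow] at h
  simp only [ev1_cons, ev1_nil] at h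
  rw [show -(2 * ((6 : ℕ) : ℝ) * l) = -(12 * l) by push_cast; ring] at hE
  generalize ev1 kAH l ^ 6 = A at *
  push_cast at h
  simp only [kpt]
  linarith

theorem ks_e_six {l : ℝ} (h0 : 0 ≤ l) (h1 : l ≤ 2 / 5) :
    l * (-144 + 4581 / 5 * l - 4909 / 5 * l ^ 2) ≤ 22 * (Real.exp (-(12 * l)) - 1) + 120 * l := by
  have h := ks_poly (q := padd (psm (1260 ^ 6) [-110, 1320, -4581, 4909]) (psm 110 (ppow kAL 6))) h0 h1
    (by (clear * -; decide +kernel))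
  have hE := ks_E_ge 6 h0 h1
  rw [ev1_padd, ev1_psm, ev1_psm, ev1_ppow] at h
  simp only [ev1_cons, ev1_nil] at h
  rw [show -(2 * ((6 : ℕ) : ℝ) * l) = -(12 * l) by push_cast; ring] at hE
  generalize ev1 kAL l ^ 6 = A at *
  push_cast at h
  linarith

/-- kernel sum (`Σ F_k + Λ_H l²`) of the hybrid line `KK = 6` -/
noncomputable def ksS (m z s l : ℝ) : ℝ :=
  (3 * (m - 3) * z ^ 2 / s ^ 5 - 9 * z / s ^ 3) * l ^ 2 +
  3 / 16 * z * (3 * (2 - (m + 5) * z) * kpt (4 * l) - (m + 5) * z * kct (4 * l)) +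
  5 / 48 * z ^ 2 * (5 * (4 - (m + 7) * z) * kpt (6 * l) - (m + 7) * z * kct (6 * l)) +
  35 / 512 * z ^ 3 * (7 * (6 - (m + 9) * z) * kpt (8 * l) - (m + 9) * z * kct (8 * l)) +
  63 / 1280 * z ^ 4 * (9 * (8 - (m + 11) * z) * kpt (10 * l) - (m + 11) * z * kct (10 * l)) +
  77 / 2048 * z ^ 5 * (11 * (10 - (m + 13) * z) * kpt (12 * l) - (m + 13) * z * kct (12 * l))

/-- coefficient of `W = u²/(1+u)` coming from the kernel, hybrid line `KK = 6` -/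
noncomputable def kCK (z s l : ℝ) : ℝ :=
  4 / s - 4 * s / (1 + s) - 2 * s ^ 2 - 6 * z * l / s ^ 3 +
  s ^ 2 * (3 / 4 * z * (6 * (Real.exp (-(4 * l)) - 1) + 8 * l) +
    5 / 8 * z ^ 2 * (10 * (Real.exp (-(6 * l)) - 1) + 24 * l) +
    35 / 64 * z ^ 3 * (14 * (Real.exp (-(8 * l)) - 1) + 48 * l) +
    63 / 128 * z ^ 4 * (18 * (Real.exp (-(10 * l)) - 1) + 80 * l) +
    231 / 512 * z ^ 5 * (22 * (Real.exp (-(12 * l)) - 1) + 120 * l))

/-- polynomial bound of the cubic remainder of `(m+3) z ψ(2l) + S` -/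
noncomputable def kB (m z l : ℝ) : ℝ :=
  (m + 3) * (4 / 3 - 3 / 5 * l + 7 / 100 * l ^ 2) +
  3 / 16 * ((m + 5) * z * (128 / 3 - 19 * l + 26 * l ^ 2) - 6 * (32 / 3 - 1067 / 100 * l + 133 / 20 * l ^ 2)) +
  5 / 48 * z * ((m + 7) * z * (216 - 194 * l + 555 / 2 * l ^ 2) - 20 * (36 - 54 * l + 228 / 5 * l ^ 2)) +
  35 / 512 * z ^ 2 * ((m + 9) * z * (2048 / 3 - 920 * l + 1490 * l ^ 2) - 42 * (256 / 3 - 1707 / 10 * l + 349 / 2 * l ^ 2)) +
  63 / 1280 * z ^ 3 * ((m + 11) * z * (5000 / 3 - 2995 * l + 5519 * l ^ 2) - 72 * (500 / 3 - 4167 / 10 * l + 973 / 2 * l ^ 2)) +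
  77 / 2048 * z ^ 4 * ((m + 13) * z * (3456 - 7765 * l + 16284 * l ^ 2) - 110 * (288 - 864 * l + 2225 / 2 * l ^ 2))

/-- polynomial lower bound of the `l`-dependent part of `C_K` (divided by `s² z l`) -/
noncomputable def kQ (z l : ℝ) : ℝ :=
  3 / 4 * (-16 + 423 / 10 * l - 153 / 5 * l ^ 2) + 5 / 8 * z * (-36 + 1431 / 10 * l - 1249 / 10 * l ^ 2) +
  35 / 64 * z ^ 2 * (-64 + 639 / 2 * l - 1544 / 5 * l ^ 2) + 63 / 128 * z ^ 3 * (-100 + 2884 / 5 * l - 2967 / 5 * l ^ 2) +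
  231 / 512 * z ^ 4 * (-144 + 4581 / 5 * l - 4909 / 5 * l ^ 2)

theorem ksS_ge {m z s l : ℝ} (hm : 0 ≤ m) (hz : 0 ≤ z) (h0 : 0 ≤ l) (h1 : l ≤ 2 / 5) :
    l ^ 2 * (2 * (m + 3) * z + (3 * (m - 3) * z ^ 2 / s ^ 5 - 9 * z / s ^ 3)) -
      l ^ 3 * z * kB m z l ≤
    (m + 3) * z * (Real.exp (-(2 * l)) - 1 + 2 * l) + ksS m z s l := by
  have w := ks_w h0 h1

  have a2 := ks_h_two h0 h1
  have b2 := ks_p_two h0 h1
  have a3 := ks_h_three h0 h1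
  have b3 := ks_p_three h0 h1
  have a4 := ks_h_four h0 h1
  have b4 := ks_p_four h0 h1
  have a5 := ks_h_five h0 h1
  have b5 := ks_p_five h0 h1
  have a6 := ks_h_six h0 h1
  have b6 := ks_p_six h0 h1
  have w' : (m + 3) * z * (2 * l ^ 2 - l ^ 3 * (4 / 3 - 3 / 5 * l + 7 / 100 * l ^ 2)) ≤
      (m + 3) * z * (Real.exp (-(2 * l)) - 1 + 2 * l) := by
    apply mul_le_mul_of_nonneg_left _ (by positivity)
    simp only [kpt] at w
    linarith only [w]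
  have c2 : 3 / 16 * z * (6 * (l ^ 3 * (32 / 3 - 1067 / 100 * l + 133 / 20 * l ^ 2)) - (m + 5) * z * (l ^ 3 * (128 / 3 - 19 * l + 26 * l ^ 2))) ≤
      3 / 16 * z * (3 * (2 - (m + 5) * z) * kpt (4 * l) - (m + 5) * z * kct (4 * l)) := by
    apply mul_le_mul_of_nonneg_left _ (by positivity)
    have d1 := mul_le_mul_of_nonneg_left a2 (by positivity : 0 ≤ (m + 5) * z)
    linarith only [b2, d1]
  have c3 : 5 / 48 * z ^ 2 * (20 * (l ^ 3 * (36 - 54 * l + 228 / 5 * l ^ 2)) - (m + 7) * z * (l ^ 3 * (216 - 194 * l + 555 / 2 * l ^ 2))) ≤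
      5 / 48 * z ^ 2 * (5 * (4 - (m + 7) * z) * kpt (6 * l) - (m + 7) * z * kct (6 * l)) := by
    apply mul_le_mul_of_nonneg_left _ (by (clear * -; positivity))
    have d1 := mul_le_mul_of_nonneg_left a3 (by positivity : 0 ≤ (m + 7) * z)
    linarith only [b3, d1]
  have c4 : 35 / 512 * z ^ 3 * (42 * (l ^ 3 * (256 / 3 - 1707 / 10 * l + 349 / 2 * l ^ 2)) - (m + 9) * z * (l ^ 3 * (2048 / 3 - 920 * l + 1490 * l ^ 2))) ≤
      35 / 512 * z ^ 3 * (7 * (6 - (m + 9) * z) * kpt (8 * l) - (m + 9) * z * kct (8 * l)) := by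
    apply mul_le_mul_of_nonneg_left _ (by (clear * - hz; positivity))
    have d1 := mul_le_mul_of_nonneg_left a4 (by positivity : 0 ≤ (m + 9) * z)
    linarith only [b4, d1]
  have c5 : 63 / 1280 * z ^ 4 * (72 * (l ^ 3 * (500 / 3 - 4167 / 10 * l + 973 / 2 * l ^ 2)) - (m + 11) * z * (l ^ 3 * (5000 / 3 - 2995 * l + 5519 * l ^ 2))) ≤
      63 / 1280 * z ^ 4 * (9 * (8 - (m + 11) * z) * kpt (10 * l) - (m + 11) * z * kct (10 * l)) := by
    apply mul_le_mul_of_nonneg_left _ (by (clear * -; positivity))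
    have d1 := mul_le_mul_of_nonneg_left a5 (by (clear * - hm hz; positivity) : 0 ≤ (m + 11) * z)
    linarith only [b5, d1]
  have c6 : 77 / 2048 * z ^ 5 * (110 * (l ^ 3 * (288 - 864 * l + 2225 / 2 * l ^ 2)) - (m + 13) * z * (l ^ 3 * (3456 - 7765 * l + 16284 * l ^ 2))) ≤
      77 / 2048 * z ^ 5 * (11 * (10 - (m + 13) * z) * kpt (12 * l) - (m + 13) * z * kct (12 * l)) := by
    apply mul_le_mul_of_nonneg_left _ (by (clear * - hz; positivity))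
    have d1 := mul_le_mul_of_nonneg_left a6 (by positivity : 0 ≤ (m + 13) * z)
    linarith only [b6, d1]
  simp only [kB, ksS]
  linarith only [w', c2, c3, c4, c5, c6]

theorem kCK_ge {z s l : ℝ} (hz : 0 ≤ z) (h0 : 0 ≤ l) (h1 : l ≤ 2 / 5) :
    4 / s - 4 * s / (1 + s) - 2 * s ^ 2 - 6 * z * l / s ^ 3 + s ^ 2 * z * l * kQ z l ≤
      kCK z s l := by
  have c2 := mul_le_mul_of_nonneg_left (ks_e_two h0 h1) (by positivity : 0 ≤ s ^ 2 * (3 / 4 * z))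
  have c3 := mul_le_mul_of_nonneg_left (ks_e_three h0 h1) (by positivity : 0 ≤ s ^ 2 * (5 / 8 * z ^ 2))
  have c4 := mul_le_mul_of_nonneg_left (ks_e_four h0 h1) (by positivity : 0 ≤ s ^ 2 * (35 / 64 * z ^ 3))
  have c5 := mul_le_mul_of_nonneg_left (ks_e_five h0 h1) (by (clear * -; positivity) : 0 ≤ s ^ 2 * (63 / 128 * z ^ 4))
  have c6 := mul_le_mul_of_nonneg_left (ks_e_six h0 h1) (by positivity : 0 ≤ s ^ 2 * (231 / 512 * z ^ 5))
  simp only [kCK, kQ]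
  linarith

/-- the `k`-th power pair of the hybrid line in clean form.  `E = e^{-2kl}`, `E' = e^{2kl}` -/
theorem ks_power_identity (k m z s l E E' W : ℝ) (hk : k ≠ 0) (hs : s ^ 2 = 1 - z) :
    (m + 1 + 2 * k) * z * (-(1 - 1 / (2 * k)) * E - E' / (2 * k) + 1 - 2 * (k - 1) * l) +
      (2 * k - 1) * (E - 1 + 2 * k * l) -
      ((2 * k - 1) * s ^ 2 - (m + 2) * z) *
        ((2 * k - 1) / k * (E - 1 + 2 * k * l) - 2 * k * (k - 1) * l ^ 2) +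
      s ^ 2 * (2 * ((2 * k - 1) * (E - 1) + 2 * k * (k - 1) * l)) * W =
    1 / (2 * k) * ((2 * k - 1) * (2 * (k - 1) - (m + 1 + 2 * k) * z) *
      (1 - 2 * k * l + (2 * k * l) ^ 2 / 2 - E) -
      (m + 1 + 2 * k) * z * (E' - 1 - 2 * k * l - (2 * k * l) ^ 2 / 2)) +
      s ^ 2 * (2 * (2 * k - 1) * (E - 1) + 4 * k * (k - 1) * l) * W := by
  rw [hs]
  field_simp
  ring

end Vale.Agent.P237.AllN
end

section

/-!
# P237, block D, `l > 0`: the kernel sums `dpS` of the hybrid lines, bounds on `0 ≤ l ≤ 1/2`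
-/

open Finset

namespace Vale.Agent.P237.AllN

open PolyPos

theorem kAL_nonneg' {l : ℝ} (h0 : 0 ≤ l) (h1 : l ≤ 1 / 2) : 0 ≤ ev1 kAL l := by
  apply ev1_closed (a := 0) (b := 1 / 2) (by norm_num) _ h0 h1
  intro x hx0 hx1
  exact auto1_sound (n := 4) (A := 0) (B := 1) (D := 2) (by norm_num) (by decide +kernel)
    (by push_cast; linarith only [hx0]) (by push_cast; linarith only [hx1])

theorem ks_E_ge' (k : ℕ) {l : ℝ} (h0 : 0 ≤ l) (h1 : l ≤ 1 / 2) :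
    ev1 kAL l ^ k ≤ 1260 ^ k * Real.exp (-(2 * k * l)) := by
  have h2 := pow_le_pow_left₀ (kAL_nonneg' h0 h1) (kAL_le h0 h1) k
  rw [mul_pow, ← Real.exp_nat_mul] at h2
  refine h2.trans (le_of_eq ?_)
  congr 2
  ring

theorem ks_E_le' (k : ℕ) {l : ℝ} (h0 : 0 ≤ l) (h1 : l ≤ 1 / 2) :
    1260 ^ k * Real.exp (-(2 * k * l)) ≤ ev1 kAH l ^ k := by
  have h2 := pow_le_pow_left₀ (by positivity) (kAH_ge h0 h1) k
  rw [mul_pow, ← Real.exp_nat_mul] at h2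
  refine le_trans (le_of_eq ?_) h2
  congr 2
  ring

theorem ks_B_le' (k : ℕ) {l : ℝ} (h0 : 0 ≤ l) (h1 : l ≤ 1 / 2) :
    1260 ^ k * Real.exp (2 * k * l) ≤ ev1 kBH l ^ k := by
  have h2 := pow_le_pow_left₀ (by positivity) (kBH_ge h0 h1) k
  rw [mul_pow, ← Real.exp_nat_mul] at h2
  refine le_trans (le_of_eq ?_) h2
  congr 2
  ring

theorem ks_poly' {q : List ℤ} {l : ℝ} (h0 : 0 ≤ l) (h1 : l ≤ 1 / 2)
    (h : auto1 6 0 1 2 q = true) : 0 ≤ ev1 q l := by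
  apply ev1_closed (a := 0) (b := 1 / 2) (by norm_num) _ h0 h1
  intro x hx0 hx1
  exact auto1_sound (n := 6) (A := 0) (B := 1) (D := 2) (by norm_num) h
    (by push_cast; linarith only [hx0]) (by push_cast; linarith only [hx1])

theorem ks_w' {l : ℝ} (h0 : 0 ≤ l) (h1 : l ≤ 1 / 2) :
    kpt (2 * l) ≤ l ^ 3 * (4 / 3 - 81 / 125 * l + 97 / 500 * l ^ 2) := by
  have h := ks_poly' (q := padd (psm 1260 [-1500, 3000, -3000, 2000, -972, 291]) (psm 1500 kAL)) h0 h1 (by (clear * -; decide +kernel))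
  have hE := kAL_le h0 h1
  rw [ev1_padd, ev1_psm, ev1_psm] at h
  simp only [ev1_cons, ev1_nil] at h hE
  push_cast at h
  simp only [kpt]
  linarith

theorem ks_h_two' {l : ℝ} (h0 : 0 ≤ l) (h1 : l ≤ 1 / 2) :
    3 * kpt (4 * l) + kct (4 * l) ≤ l ^ 3 * (128 / 3 - 21 * l + 617 / 20 * l ^ 2) := by
  have h := ks_poly' (q := padd (psm (1260 ^ 2) [-120, 960, -960, 2560, -1260, 1851]) (padd (psm 180 (ppow kAL 2))
    (psm (-60) (ppow kBH 2)))) h0 h1 (by (clear * -; decide +kernel))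
  have hE := ks_E_ge' 2 h0 h1
  have hB := ks_B_le' 2 h0 h1
  rw [ev1_padd, ev1_padd, ev1_psm, ev1_psm, ev1_psm, ev1_ppow, ev1_ppow] at h
  simp only [ev1_cons, ev1_nil] at h
  rw [show -(2 * ((2 : ℕ) : ℝ) * l) = -(4 * l) by push_cast; ring] at hE
  rw [show 2 * ((2 : ℕ) : ℝ) * l = 4 * l by push_cast; ring] at hB
  generalize ev1 kAL l ^ 2 = A at *
  generalize ev1 kBH l ^ 2 = B at *
  push_cast at h
  simp only [kpt, kct]
  linarith only [h, hB, hE]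

theorem ks_p_two' {l : ℝ} (h0 : 0 ≤ l) (h1 : l ≤ 1 / 2) :
    l ^ 3 * (32 / 3 - 1067 / 100 * l + 317 / 50 * l ^ 2) ≤ kpt (4 * l) := by
  have h := ks_poly' (q := padd (psm (1260 ^ 2) [300, -1200, 2400, -3200, 3201, -1902]) (psm (-300) (ppow kAH 2))) h0 h1
    (by (clear * -; decide +kernel))
  have hE := ks_E_le' 2 h0 h1
  rw [ev1_padd, ev1_psm, ev1_psm, ev1_ppow] at h
  simp only [ev1_cons, ev1_nil] at h
  rw [show -(2 * ((2 : ℕ) : ℝ) * l) = -(4 * l) by push_cast; ring] at hE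
  generalize ev1 kAH l ^ 2 = A at *
  push_cast at h
  simp only [kpt]
  linarith only [h, hE]

theorem ks_e_two' {l : ℝ} (h0 : 0 ≤ l) (h1 : l ≤ 1 / 2) :
    l * (-16 + 201 / 5 * l - 26 * l ^ 2) ≤ 6 * (Real.exp (-(4 * l)) - 1) + 8 * l := by
  have h := ks_poly' (q := padd (psm (1260 ^ 2) [-30, 120, -201, 130]) (psm 30 (ppow kAL 2))) h0 h1
    (by (clear * -; decide +kernel))
  have hE := ks_E_ge' 2 h0 h1
  rw [ev1_padd, ev1_psm, ev1_psm, ev1_ppow] at h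
  simp only [ev1_cons, ev1_nil] at h
  rw [show -(2 * ((2 : ℕ) : ℝ) * l) = -(4 * l) by push_cast; ring] at hE
  generalize ev1 kAL l ^ 2 = A at *
  push_cast at h
  linarith

theorem ks_h_three' {l : ℝ} (h0 : 0 ≤ l) (h1 : l ≤ 1 / 2) :
    5 * kpt (6 * l) + kct (6 * l) ≤ l ^ 3 * (216 - 1049 / 5 * l + 637 / 2 * l ^ 2) := by
  have h := ks_poly' (q := padd (psm (1260 ^ 3) [-40, 360, -720, 2160, -2098, 3185]) (padd (psm 50 (ppow kAL 3))
    (psm (-10) (ppow kBH 3)))) h0 h1 (by (clear * -; decide +kernel))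
  have hE := ks_E_ge' 3 h0 h1
  have hB := ks_B_le' 3 h0 h1
  rw [ev1_padd, ev1_padd, ev1_psm, ev1_psm, ev1_psm, ev1_ppow, ev1_ppow] at h
  simp only [ev1_cons, ev1_nil] at h
  rw [show -(2 * ((3 : ℕ) : ℝ) * l) = -(6 * l) by push_cast; ring] at hE
  rw [show 2 * ((3 : ℕ) : ℝ) * l = 6 * l by push_cast; ring] at hB
  generalize ev1 kAL l ^ 3 = A at *
  generalize ev1 kBH l ^ 3 = B at *
  push_cast at h
  simp only [kpt, kct]
  linarith

theorem ks_p_three' {l : ℝ} (h0 : 0 ≤ l) (h1 : l ≤ 1 / 2) :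
    l ^ 3 * (36 - 54 * l + 212 / 5 * l ^ 2) ≤ kpt (6 * l) := by
  have h := ks_poly' (q := padd (psm (1260 ^ 3) [5, -30, 90, -180, 270, -212]) (psm (-5) (ppow kAH 3))) h0 h1
    (by (clear * -; decide +kernel))
  have hE := ks_E_le' 3 h0 h1
  rw [ev1_padd, ev1_psm, ev1_psm, ev1_ppow] at h
  simp only [ev1_cons, ev1_nil] at h
  rw [show -(2 * ((3 : ℕ) : ℝ) * l) = -(6 * l) by push_cast; ring] at hE
  generalize ev1 kAH l ^ 3 = A at *
  push_cast at h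
  simp only [kpt]
  linarith

theorem ks_e_three' {l : ℝ} (h0 : 0 ≤ l) (h1 : l ≤ 1 / 2) :
    l * (-36 + 1319 / 10 * l - 999 / 10 * l ^ 2) ≤ 10 * (Real.exp (-(6 * l)) - 1) + 24 * l := by
  have h := ks_poly' (q := padd (psm (1260 ^ 3) [-100, 600, -1319, 999]) (psm 100 (ppow kAL 3))) h0 h1
    (by (clear * -; decide +kernel))
  have hE := ks_E_ge' 3 h0 h1
  rw [ev1_padd, ev1_psm, ev1_psm, ev1_ppow] at h
  simp only [ev1_cons, ev1_nil] at h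
  rw [show -(2 * ((3 : ℕ) : ℝ) * l) = -(6 * l) by push_cast; ring] at hE
  generalize ev1 kAL l ^ 3 = A at *
  push_cast at h
  linarith

theorem ks_h_four' {l : ℝ} (h0 : 0 ≤ l) (h1 : l ≤ 1 / 2) :
    7 * kpt (8 * l) + kct (8 * l) ≤ l ^ 3 * (2048 / 3 - 989 * l + 1695 * l ^ 2) := by
  have h := ks_poly' (q := padd (psm (1260 ^ 4) [-18, 192, -576, 2048, -2967, 5085]) (padd (psm 21 (ppow kAL 4))
    (psm (-3) (ppow kBH 4)))) h0 h1 (by (clear * -; decide +kernel))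
  have hE := ks_E_ge' 4 h0 h1
  have hB := ks_B_le' 4 h0 h1
  rw [ev1_padd, ev1_padd, ev1_psm, ev1_psm, ev1_psm, ev1_ppow, ev1_ppow] at h
  simp only [ev1_cons, ev1_nil] at h
  rw [show -(2 * ((4 : ℕ) : ℝ) * l) = -(8 * l) by push_cast; ring] at hE
  rw [show 2 * ((4 : ℕ) : ℝ) * l = 8 * l by push_cast; ring] at hB
  generalize ev1 kAL l ^ 4 = A at *
  generalize ev1 kBH l ^ 4 = B at *
  push_cast at h
  simp only [kpt, kct]
  linarith

theorem ks_p_four' {l : ℝ} (h0 : 0 ≤ l) (h1 : l ≤ 1 / 2) :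
    l ^ 3 * (256 / 3 - 1707 / 10 * l + 797 / 5 * l ^ 2) ≤ kpt (8 * l) := by
  have h := ks_poly' (q := padd (psm (1260 ^ 4) [30, -240, 960, -2560, 5121, -4782]) (psm (-30) (ppow kAH 4))) h0 h1
    (by (clear * -; decide +kernel))
  have hE := ks_E_le' 4 h0 h1
  rw [ev1_padd, ev1_psm, ev1_psm, ev1_ppow] at h
  simp only [ev1_cons, ev1_nil] at h
  rw [show -(2 * ((4 : ℕ) : ℝ) * l) = -(8 * l) by push_cast; ring] at hE
  generalize ev1 kAH l ^ 4 = A at *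
  push_cast at h
  simp only [kpt]
  linarith

theorem ks_e_four' {l : ℝ} (h0 : 0 ≤ l) (h1 : l ≤ 1 / 2) :
    l * (-64 + 2871 / 10 * l - 2363 / 10 * l ^ 2) ≤ 14 * (Real.exp (-(8 * l)) - 1) + 48 * l := by
  have h := ks_poly' (q := padd (psm (1260 ^ 4) [-140, 1120, -2871, 2363]) (psm 140 (ppow kAL 4))) h0 h1
    (by (clear * -; decide +kernel))
  have hE := ks_E_ge' 4 h0 h1
  rw [ev1_padd, ev1_psm, ev1_psm, ev1_ppow] at h
  simp only [ev1_cons, ev1_nil] at h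
  rw [show -(2 * ((4 : ℕ) : ℝ) * l) = -(8 * l) by push_cast; ring] at hE
  generalize ev1 kAL l ^ 4 = A at *
  push_cast at h
  linarith

theorem ks_h_five' {l : ℝ} (h0 : 0 ≤ l) (h1 : l ≤ 1 / 2) :
    9 * kpt (10 * l) + kct (10 * l) ≤ l ^ 3 * (5000 / 3 - 3230 * l + 6397 * l ^ 2) := by
  have h := ks_poly' (q := padd (psm (1260 ^ 5) [-24, 300, -1200, 5000, -9690, 19191]) (padd (psm 27 (ppow kAL 5))
    (psm (-3) (ppow kBH 5)))) h0 h1 (by (clear * -; decide +kernel))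
  have hE := ks_E_ge' 5 h0 h1
  have hB := ks_B_le' 5 h0 h1
  rw [ev1_padd, ev1_padd, ev1_psm, ev1_psm, ev1_psm, ev1_ppow, ev1_ppow] at h
  simp only [ev1_cons, ev1_nil] at h
  rw [show -(2 * ((5 : ℕ) : ℝ) * l) = -(10 * l) by push_cast; ring] at hE
  rw [show 2 * ((5 : ℕ) : ℝ) * l = 10 * l by push_cast; ring] at hB
  generalize ev1 kAL l ^ 5 = A at *
  generalize ev1 kBH l ^ 5 = B at *
  push_cast at h
  simp only [kpt, kct]
  linarith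

theorem ks_p_five' {l : ℝ} (h0 : 0 ≤ l) (h1 : l ≤ 1 / 2) :
    l ^ 3 * (500 / 3 - 4167 / 10 * l + 2192 / 5 * l ^ 2) ≤ kpt (10 * l) := by
  have h := ks_poly' (q := padd (psm (1260 ^ 5) [30, -300, 1500, -5000, 12501, -13152]) (psm (-30) (ppow kAH 5))) h0 h1
    (by (clear * -; decide +kernel))
  have hE := ks_E_le' 5 h0 h1
  rw [ev1_padd, ev1_psm, ev1_psm, ev1_ppow] at h
  simp only [ev1_cons, ev1_nil] at h
  rw [show -(2 * ((5 : ℕ) : ℝ) * l) = -(10 * l) by push_cast; ring] at hE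
  generalize ev1 kAH l ^ 5 = A at *
  push_cast at h
  simp only [kpt]
  linarith

theorem ks_e_five' {l : ℝ} (h0 : 0 ≤ l) (h1 : l ≤ 1 / 2) :
    l * (-100 + 2539 / 5 * l - 2194 / 5 * l ^ 2) ≤ 18 * (Real.exp (-(10 * l)) - 1) + 80 * l := by
  have h := ks_poly' (q := padd (psm (1260 ^ 5) [-90, 900, -2539, 2194]) (psm 90 (ppow kAL 5))) h0 h1
    (by (clear * -; decide +kernel))
  have hE := ks_E_ge' 5 h0 h1
  rw [ev1_padd, ev1_psm, ev1_psm, ev1_ppow] at h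
  simp only [ev1_cons, ev1_nil] at h
  rw [show -(2 * ((5 : ℕ) : ℝ) * l) = -(10 * l) by push_cast; ring] at hE
  generalize ev1 kAL l ^ 5 = A at *
  push_cast at h
  linarith

theorem ks_h_six' {l : ℝ} (h0 : 0 ≤ l) (h1 : l ≤ 1 / 2) :
    11 * kpt (12 * l) + kct (12 * l) ≤ l ^ 3 * (3456 - 8456 * l + 19775 * l ^ 2) := by
  have h := ks_poly' (q := padd (psm (1260 ^ 6) [-10, 144, -720, 3456, -8456, 19775]) (padd (psm 11 (ppow kAL 6))
    (psm (-1) (ppow kBH 6)))) h0 h1 (by (clear * -; decide +kernel))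
  have hE := ks_E_ge' 6 h0 h1
  have hB := ks_B_le' 6 h0 h1
  rw [ev1_padd, ev1_padd, ev1_psm, ev1_psm, ev1_psm, ev1_ppow, ev1_ppow] at h
  simp only [ev1_cons, ev1_nil] at h
  rw [show -(2 * ((6 : ℕ) : ℝ) * l) = -(12 * l) by push_cast; ring] at hE
  rw [show 2 * ((6 : ℕ) : ℝ) * l = 12 * l by push_cast; ring] at hB
  generalize ev1 kAL l ^ 6 = A at *
  generalize ev1 kBH l ^ 6 = B at *
  push_cast at h
  simp only [kpt, kct]
  linarith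

theorem ks_p_six' {l : ℝ} (h0 : 0 ≤ l) (h1 : l ≤ 1 / 2) :
    l ^ 3 * (288 - 864 * l + 9919 / 10 * l ^ 2) ≤ kpt (12 * l) := by
  have h := ks_poly' (q := padd (psm (1260 ^ 6) [10, -120, 720, -2880, 8640, -9919]) (psm (-10) (ppow kAH 6))) h0 h1
    (by (clear * -; decide +kernel))
  have hE := ks_E_le' 6 h0 h1
  rw [ev1_padd, ev1_psm, ev1_psm, ev1_ppow] at h
  simp only [ev1_cons, ev1_nil] at h
  rw [show -(2 * ((6 : ℕ) : ℝ) * l) = -(12 * l) by push_cast; ring] at hE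
  generalize ev1 kAH l ^ 6 = A at *
  push_cast at h
  simp only [kpt]
  linarith

theorem ks_e_six' {l : ℝ} (h0 : 0 ≤ l) (h1 : l ≤ 1 / 2) :
    l * (-144 + 7939 / 10 * l - 1415 / 2 * l ^ 2) ≤ 22 * (Real.exp (-(12 * l)) - 1) + 120 * l := by
  have h := ks_poly' (q := padd (psm (1260 ^ 6) [-220, 2640, -7939, 7075]) (psm 220 (ppow kAL 6))) h0 h1
    (by (clear * -; decide +kernel))
  have hE := ks_E_ge' 6 h0 h1
  rw [ev1_padd, ev1_psm, ev1_psm, ev1_ppow] at h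
  simp only [ev1_cons, ev1_nil] at h
  rw [show -(2 * ((6 : ℕ) : ℝ) * l) = -(12 * l) by push_cast; ring] at hE
  generalize ev1 kAL l ^ 6 = A at *
  push_cast at h
  linarith

/-- the `W`-coefficient of `dpS` -/
noncomputable def ksC (z s l : ℝ) : ℝ :=
  s ^ 2 * (3 / 4 * z * (6 * (Real.exp (-(4 * l)) - 1) + 8 * l) +
    5 / 8 * z ^ 2 * (10 * (Real.exp (-(6 * l)) - 1) + 24 * l) +
    35 / 64 * z ^ 3 * (14 * (Real.exp (-(8 * l)) - 1) + 48 * l) +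
    63 / 128 * z ^ 4 * (18 * (Real.exp (-(10 * l)) - 1) + 80 * l) +
    231 / 512 * z ^ 5 * (22 * (Real.exp (-(12 * l)) - 1) + 120 * l))

/-- the `W`-free part of `dpS` in terms of `kpt`, `kct` -/
noncomputable def dpS0 (m z l : ℝ) : ℝ :=
  3 / 16 * z * (3 * (2 - (m + 5) * z) * kpt (4 * l) - (m + 5) * z * kct (4 * l)) +
  5 / 48 * z ^ 2 * (5 * (4 - (m + 7) * z) * kpt (6 * l) - (m + 7) * z * kct (6 * l)) +
  35 / 512 * z ^ 3 * (7 * (6 - (m + 9) * z) * kpt (8 * l) - (m + 9) * z * kct (8 * l)) +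
  63 / 1280 * z ^ 4 * (9 * (8 - (m + 11) * z) * kpt (10 * l) - (m + 11) * z * kct (10 * l)) +
  77 / 2048 * z ^ 5 * (11 * (10 - (m + 13) * z) * kpt (12 * l) - (m + 13) * z * kct (12 * l))

theorem dpS_eq (m z s l W : ℝ) : dpS m z s l W = dpS0 m z l + W * ksC z s l := by
  simp only [dpS, dpK, dpS0, kpt, kct, ksC]
  norm_num
  ring

theorem ksS_eq (m z s l : ℝ) :
    ksS m z s l = (3 * (m - 3) * z ^ 2 / s ^ 5 - 9 * z / s ^ 3) * l ^ 2 + dpS0 m z l := by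
  simp only [ksS, dpS0]
  ring

theorem kCK_eq (z s l : ℝ) :
    kCK z s l = 4 / s - 4 * s / (1 + s) - 2 * s ^ 2 - 6 * z * l / s ^ 3 + ksC z s l := by
  simp only [kCK, ksC]

/-- polynomial bound of the cubic remainder of `(m+3) z ψ(2l) + dpS0`, `l ≤ 1/2` -/
noncomputable def kB' (m z l : ℝ) : ℝ :=
  (m + 3) * (4 / 3 - 81 / 125 * l + 97 / 500 * l ^ 2) +
  3 / 16 * ((m + 5) * z * (128 / 3 - 21 * l + 617 / 20 * l ^ 2) - 6 * (32 / 3 - 1067 / 100 * l + 317 / 50 * l ^ 2)) +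
  5 / 48 * z * ((m + 7) * z * (216 - 1049 / 5 * l + 637 / 2 * l ^ 2) - 20 * (36 - 54 * l + 212 / 5 * l ^ 2)) +
  35 / 512 * z ^ 2 * ((m + 9) * z * (2048 / 3 - 989 * l + 1695 * l ^ 2) - 42 * (256 / 3 - 1707 / 10 * l + 797 / 5 * l ^ 2)) +
  63 / 1280 * z ^ 3 * ((m + 11) * z * (5000 / 3 - 3230 * l + 6397 * l ^ 2) - 72 * (500 / 3 - 4167 / 10 * l + 2192 / 5 * l ^ 2)) +
  77 / 2048 * z ^ 4 * ((m + 13) * z * (3456 - 8456 * l + 19775 * l ^ 2) - 110 * (288 - 864 * l + 9919 / 10 * l ^ 2))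

/-- polynomial lower bound of `ksC` (divided by `s² z l`), `l ≤ 1/2` -/
noncomputable def kQ' (z l : ℝ) : ℝ :=
  3 / 4 * (-16 + 201 / 5 * l - 26 * l ^ 2) + 5 / 8 * z * (-36 + 1319 / 10 * l - 999 / 10 * l ^ 2) +
  35 / 64 * z ^ 2 * (-64 + 2871 / 10 * l - 2363 / 10 * l ^ 2) + 63 / 128 * z ^ 3 * (-100 + 2539 / 5 * l - 2194 / 5 * l ^ 2) +
  231 / 512 * z ^ 4 * (-144 + 7939 / 10 * l - 1415 / 2 * l ^ 2)

/-- `l ≤ 2/5` -/
theorem dpS0_ge {m z l : ℝ} (hm : 0 ≤ m) (hz : 0 ≤ z) (h0 : 0 ≤ l) (h1 : l ≤ 2 / 5) :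
    l ^ 2 * (2 * (m + 3) * z) - l ^ 3 * z * kB m z l ≤
    (m + 3) * z * (Real.exp (-(2 * l)) - 1 + 2 * l) + dpS0 m z l := by
  have h := ksS_ge (s := 1) hm hz h0 h1
  rw [ksS_eq] at h
  (clear * - h; linarith only [h])

/-- `l ≤ 2/5` -/
theorem ksC_ge {z s l : ℝ} (hz : 0 ≤ z) (h0 : 0 ≤ l) (h1 : l ≤ 2 / 5) :
    s ^ 2 * z * l * kQ z l ≤ ksC z s l := by
  have h := kCK_ge (s := s) hz h0 h1
  rw [kCK_eq] at h
  linarith only [h]

/-- `l ≤ 1/2` -/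
theorem dpS0_ge' {m z l : ℝ} (hm : 0 ≤ m) (hz : 0 ≤ z) (h0 : 0 ≤ l) (h1 : l ≤ 1 / 2) :
    l ^ 2 * (2 * (m + 3) * z) - l ^ 3 * z * kB' m z l ≤
    (m + 3) * z * (Real.exp (-(2 * l)) - 1 + 2 * l) + dpS0 m z l := by
  have w := ks_w' h0 h1

  have a2 := ks_h_two' h0 h1
  have b2 := ks_p_two' h0 h1
  have a3 := ks_h_three' h0 h1
  have b3 := ks_p_three' h0 h1
  have a4 := ks_h_four' h0 h1
  have b4 := ks_p_four' h0 h1
  have a5 := ks_h_five' h0 h1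
  have b5 := ks_p_five' h0 h1
  have a6 := ks_h_six' h0 h1
  have b6 := ks_p_six' h0 h1
  have w' : (m + 3) * z * (2 * l ^ 2 - l ^ 3 * (4 / 3 - 81 / 125 * l + 97 / 500 * l ^ 2)) ≤
      (m + 3) * z * (Real.exp (-(2 * l)) - 1 + 2 * l) := by
    apply mul_le_mul_of_nonneg_left _ (by (clear * - hm hz; positivity))
    simp only [kpt] at w
    linarith only [w]
  have c2 : 3 / 16 * z * (6 * (l ^ 3 * (32 / 3 - 1067 / 100 * l + 317 / 50 * l ^ 2)) - (m + 5) * z * (l ^ 3 * (128 / 3 - 21 * l + 617 / 20 * l ^ 2))) ≤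
      3 / 16 * z * (3 * (2 - (m + 5) * z) * kpt (4 * l) - (m + 5) * z * kct (4 * l)) := by
    apply mul_le_mul_of_nonneg_left _ (by positivity)
    have d1 := mul_le_mul_of_nonneg_left a2 (by positivity : 0 ≤ (m + 5) * z)
    linarith only [b2, d1]
  have c3 : 5 / 48 * z ^ 2 * (20 * (l ^ 3 * (36 - 54 * l + 212 / 5 * l ^ 2)) - (m + 7) * z * (l ^ 3 * (216 - 1049 / 5 * l + 637 / 2 * l ^ 2))) ≤
      5 / 48 * z ^ 2 * (5 * (4 - (m + 7) * z) * kpt (6 * l) - (m + 7) * z * kct (6 * l)) := by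
    apply mul_le_mul_of_nonneg_left _ (by positivity)
    have d1 := mul_le_mul_of_nonneg_left a3 (by positivity : 0 ≤ (m + 7) * z)
    linarith only [b3, d1]
  have c4 : 35 / 512 * z ^ 3 * (42 * (l ^ 3 * (256 / 3 - 1707 / 10 * l + 797 / 5 * l ^ 2)) - (m + 9) * z * (l ^ 3 * (2048 / 3 - 989 * l + 1695 * l ^ 2))) ≤
      35 / 512 * z ^ 3 * (7 * (6 - (m + 9) * z) * kpt (8 * l) - (m + 9) * z * kct (8 * l)) := by
    apply mul_le_mul_of_nonneg_left _ (by positivity)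
    have d1 := mul_le_mul_of_nonneg_left a4 (by positivity : 0 ≤ (m + 9) * z)
    linarith only [b4, d1]
  have c5 : 63 / 1280 * z ^ 4 * (72 * (l ^ 3 * (500 / 3 - 4167 / 10 * l + 2192 / 5 * l ^ 2)) - (m + 11) * z * (l ^ 3 * (5000 / 3 - 3230 * l + 6397 * l ^ 2))) ≤
      63 / 1280 * z ^ 4 * (9 * (8 - (m + 11) * z) * kpt (10 * l) - (m + 11) * z * kct (10 * l)) := by
    apply mul_le_mul_of_nonneg_left _ (by positivity)
    have d1 := mul_le_mul_of_nonneg_left a5 (by positivity : 0 ≤ (m + 11) * z)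
    linarith only [b5, d1]
  have c6 : 77 / 2048 * z ^ 5 * (110 * (l ^ 3 * (288 - 864 * l + 9919 / 10 * l ^ 2)) - (m + 13) * z * (l ^ 3 * (3456 - 8456 * l + 19775 * l ^ 2))) ≤
      77 / 2048 * z ^ 5 * (11 * (10 - (m + 13) * z) * kpt (12 * l) - (m + 13) * z * kct (12 * l)) := by
    apply mul_le_mul_of_nonneg_left _ (by (clear * - hz; positivity))
    have d1 := mul_le_mul_of_nonneg_left a6 (by positivity : 0 ≤ (m + 13) * z)
    linarith only [b6, d1]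
  simp only [kB', dpS0]
  linarith only [w', c2, c3, c4, c5, c6]

/-- `l ≤ 1/2` -/
theorem ksC_ge' {z s l : ℝ} (hz : 0 ≤ z) (h0 : 0 ≤ l) (h1 : l ≤ 1 / 2) :
    s ^ 2 * z * l * kQ' z l ≤ ksC z s l := by
  have c2 := mul_le_mul_of_nonneg_left (ks_e_two' h0 h1) (by (clear * - hz; positivity) : 0 ≤ s ^ 2 * (3 / 4 * z))
  have c3 := mul_le_mul_of_nonneg_left (ks_e_three' h0 h1) (by positivity : 0 ≤ s ^ 2 * (5 / 8 * z ^ 2))
  have c4 := mul_le_mul_of_nonneg_left (ks_e_four' h0 h1) (by positivity : 0 ≤ s ^ 2 * (35 / 64 * z ^ 3))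
  have c5 := mul_le_mul_of_nonneg_left (ks_e_five' h0 h1) (by positivity : 0 ≤ s ^ 2 * (63 / 128 * z ^ 4))
  have c6 := mul_le_mul_of_nonneg_left (ks_e_six' h0 h1) (by positivity : 0 ≤ s ^ 2 * (231 / 512 * z ^ 5))
  simp only [ksC, kQ']
  linarith

end Vale.Agent.P237.AllN
end

section

/-!
# P237, block D, `l ≥ 0`, `1 ≤ √m x ≤ 3`, `u ≤ 0`: the kernel-checked polynomial inequalities

Variables: `s = √(1-x²)`, `w = m x²`, `l`.
-/

namespace Vale.Agent.P237.AllN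

open PolyPos

/-! ## expressions, first variable `s`, second variable `l` -/

/-- the constant `n/d` -/
def fpk (n : ℤ) (d : ℕ) : Ex := Ex.c ⟨n, d - 1⟩

/-- `z = 1 - s²` -/
def fpZ : Ex := fpk 1 1 - Ex.X * Ex.X

/-- `a + b l + c l²` -/
def fpq (a b c : Ex) : Ex := a + Ex.Y * (b + Ex.Y * c)

def fpEU : Ex := fpq (fpk 4 3) (fpk (-81) 125) (fpk 97 500) + fpZ * (
  fpk 3 16 * fpq (fpk 128 3) (fpk (-21) 1) (fpk 617 20) + fpZ * (
  fpk 5 48 * fpq (fpk 216 1) (fpk (-1049) 5) (fpk 637 2) + fpZ * (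
  fpk 35 512 * fpq (fpk 2048 3) (fpk (-989) 1) (fpk 1695 1) + fpZ * (
  fpk 63 1280 * fpq (fpk 5000 3) (fpk (-3230) 1) (fpk 6397 1) + fpZ * (
  fpk 77 2048 * fpq (fpk 3456 1) (fpk (-8456) 1) (fpk 19775 1))))))

def fpEV : Ex := fpZ * (fpk 3 1 * fpq (fpk 4 3) (fpk (-81) 125) (fpk 97 500) +
  fpk 3 16 * (fpk 5 1 * fpZ * fpq (fpk 128 3) (fpk (-21) 1) (fpk 617 20) -
    fpk 6 1 * fpq (fpk 32 3) (fpk (-1067) 100) (fpk 317 50)) + fpZ * (
  fpk 5 48 * (fpk 7 1 * fpZ * fpq (fpk 216 1) (fpk (-1049) 5) (fpk 637 2) -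
    fpk 20 1 * fpq (fpk 36 1) (fpk (-54) 1) (fpk 212 5)) + fpZ * (
  fpk 35 512 * (fpk 9 1 * fpZ * fpq (fpk 2048 3) (fpk (-989) 1) (fpk 1695 1) -
    fpk 42 1 * fpq (fpk 256 3) (fpk (-1707) 10) (fpk 797 5)) + fpZ * (
  fpk 63 1280 * (fpk 11 1 * fpZ * fpq (fpk 5000 3) (fpk (-3230) 1) (fpk 6397 1) -
    fpk 72 1 * fpq (fpk 500 3) (fpk (-4167) 10) (fpk 2192 5)) + fpZ * (
  fpk 77 2048 * (fpk 13 1 * fpZ * fpq (fpk 3456 1) (fpk (-8456) 1) (fpk 19775 1) -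
    fpk 110 1 * fpq (fpk 288 1) (fpk (-864) 1) (fpk 9919 10)))))))

noncomputable def fpU (z l : ℝ) : ℝ :=
  (4 / 3 - 81 / 125 * l + 97 / 500 * l ^ 2) +
  3 / 16 * z * (128 / 3 - 21 * l + 617 / 20 * l ^ 2) +
  5 / 48 * z ^ 2 * (216 - 1049 / 5 * l + 637 / 2 * l ^ 2) +
  35 / 512 * z ^ 3 * (2048 / 3 - 989 * l + 1695 * l ^ 2) +
  63 / 1280 * z ^ 4 * (5000 / 3 - 3230 * l + 6397 * l ^ 2) +
  77 / 2048 * z ^ 5 * (3456 - 8456 * l + 19775 * l ^ 2)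

noncomputable def fpV (z l : ℝ) : ℝ :=
  3 * z * (4 / 3 - 81 / 125 * l + 97 / 500 * l ^ 2) +
  3 / 16 * z * (5 * z * (128 / 3 - 21 * l + 617 / 20 * l ^ 2) - 6 * (32 / 3 - 1067 / 100 * l + 317 / 50 * l ^ 2)) +
  5 / 48 * z ^ 2 * (7 * z * (216 - 1049 / 5 * l + 637 / 2 * l ^ 2) - 20 * (36 - 54 * l + 212 / 5 * l ^ 2)) +
  35 / 512 * z ^ 3 * (9 * z * (2048 / 3 - 989 * l + 1695 * l ^ 2) - 42 * (256 / 3 - 1707 / 10 * l + 797 / 5 * l ^ 2)) +
  63 / 1280 * z ^ 4 * (11 * z * (5000 / 3 - 3230 * l + 6397 * l ^ 2) - 72 * (500 / 3 - 4167 / 10 * l + 2192 / 5 * l ^ 2)) +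
  77 / 2048 * z ^ 5 * (13 * z * (3456 - 8456 * l + 19775 * l ^ 2) - 110 * (288 - 864 * l + 9919 / 10 * l ^ 2))

theorem fp_kB (m z l : ℝ) : z * kB' m z l = m * z * fpU z l + fpV z l := by
  unfold kB' fpU fpV
  ring

theorem fpk_R (n : ℤ) (d : ℕ) (x y : ℝ) (hd : 1 ≤ d) : (fpk n d).R x y = n / d := by
  unfold fpk
  rw [Ex.R_c, Fr.R]
  congr 1
  obtain ⟨k, rfl⟩ := Nat.exists_eq_add_of_le' hd
  simp only [add_tsub_cancel_right, Nat.cast_add, Nat.cast_one]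

theorem fpZ_R (s l : ℝ) : fpZ.R s l = 1 - s ^ 2 := by
  unfold fpZ
  rw [Ex.R_sub, Ex.R_mul, Ex.R_X, fpk_R _ _ _ _ le_rfl]
  push_cast
  ring

theorem fpEU_R (s l : ℝ) : fpEU.R s l = fpU (1 - s ^ 2) l := by
  unfold fpEU fpq fpU
  simp only [Ex.R_add, Ex.R_mul, Ex.R_Y, fpZ_R]
  generalize 1 - s ^ 2 = z
  simp (discharger := norm_num) only [fpk_R]
  push_cast
  ring

theorem fpEV_R (s l : ℝ) : fpEV.R s l = fpV (1 - s ^ 2) l := by
  unfold fpEV fpq fpV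
  simp only [Ex.R_add, Ex.R_sub, Ex.R_mul, Ex.R_Y, fpZ_R]
  generalize 1 - s ^ 2 = z
  simp (discharger := norm_num) only [fpk_R]
  push_cast
  ring

/-- `s^5` -/
def fpS5 : Ex := Ex.X * Ex.X * (Ex.X * Ex.X * Ex.X)

def fpC2 : Ex := fpk 3 25 * (Ex.X * Ex.X * Ex.X)

def fpC1 : Ex := fpS5 * (fpk 27 50 - Ex.Y * fpEU) + fpk 3 1 * fpZ +
  fpk 9 25 * fpZ * (Ex.X * Ex.X * Ex.X)

def fpC0 : Ex := fpS5 * (fpk 123 25 * fpZ - Ex.Y * fpEV) - fpk 9 1 * fpZ -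
  fpk 2 1 * fpZ * (Ex.X * Ex.X) * (fpk 2 5 + fpZ * (fpk 13 20 + fpZ * fpZ * fpk 22 5))

def fpQ0 (w : Ex) : Ex := fpC2 * w * w + fpC1 * w + fpC0

def fpQ1 (w : Ex) : Ex := fpk 2 1 * fpC2 * w + fpC1

theorem fpQ0_R (W : Ex) (s l : ℝ) : (fpQ0 W).R s l =
    3 / 25 * s ^ 3 * W.R s l ^ 2 +
    (s ^ 5 * (27 / 50 - l * fpU (1 - s ^ 2) l) + 3 * (1 - s ^ 2) + 9 / 25 * (1 - s ^ 2) * s ^ 3) *
      W.R s l +
    (s ^ 5 * (123 / 25 * (1 - s ^ 2) - l * fpV (1 - s ^ 2) l) - 9 * (1 - s ^ 2) -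
      2 * (1 - s ^ 2) * s ^ 2 * (2 / 5 + 13 * (1 - s ^ 2) / 20 + 22 * (1 - s ^ 2) ^ 3 / 5)) := by
  unfold fpQ0 fpC2 fpC1 fpC0 fpS5
  simp only [Ex.R_add, Ex.R_sub, Ex.R_mul, Ex.R_X, Ex.R_Y, fpZ_R, fpEU_R, fpEV_R]
  generalize fpU (1 - s ^ 2) l = U
  generalize fpV (1 - s ^ 2) l = V
  generalize W.R s l = w
  simp (discharger := norm_num) only [fpk_R]
  push_cast
  ring

theorem fpQ1_R (W : Ex) (s l : ℝ) : (fpQ1 W).R s l =
    2 * (3 / 25 * s ^ 3) * W.R s l +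
    (s ^ 5 * (27 / 50 - l * fpU (1 - s ^ 2) l) + 3 * (1 - s ^ 2) +
      9 / 25 * (1 - s ^ 2) * s ^ 3) := by
  unfold fpQ1 fpC2 fpC1 fpS5
  simp only [Ex.R_add, Ex.R_sub, Ex.R_mul, Ex.R_X, Ex.R_Y, fpZ_R, fpEU_R]
  generalize fpU (1 - s ^ 2) l = U
  generalize W.R s l = w
  simp (discharger := norm_num) only [fpk_R]
  push_cast
  ring

/-- the `l²` coefficient of `T`: lower bound from two one-sided checks -/
theorem fpn_A_of {s z w l : ℝ} (hs : 0 < s) (hz : z = 1 - s ^ 2) (W : Ex)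
    (h0 : 0 ≤ (fpQ0 W).R s l) (h1 : 0 ≤ (fpQ1 W).R s l) (hw : W.R s l ≤ w) :
    11 / 10 * w ≤ 2 * (w + 3 * z) - l * (w * fpU z l + fpV z l) + 3 * z * (w - 3) / s ^ 5 -
      2 * z / s ^ 3 * (2 / 5 + 13 * z / 20 + 22 * z ^ 3 / 5) +
      3 / 25 * (w + 3 * z) * (w / s ^ 2 - 3) := by
  rw [fpQ0_R] at h0
  rw [fpQ1_R] at h1
  rw [← hz] at h0 h1
  set w0 := W.R s l
  obtain ⟨δ, hδ⟩ : ∃ δ, w = w0 + δ := ⟨w - w0, by ring⟩
  have hδ0 : 0 ≤ δ := by linarith only [hw, hδ]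
  generalize fpU z l = U at *
  generalize fpV z l = V at *
  have e : 2 * (w + 3 * z) - l * (w * U + V) + 3 * z * (w - 3) / s ^ 5 -
      2 * z / s ^ 3 * (2 / 5 + 13 * z / 20 + 22 * z ^ 3 / 5) +
      3 / 25 * (w + 3 * z) * (w / s ^ 2 - 3) - 11 / 10 * w =
      ((3 / 25 * s ^ 3 * w0 ^ 2 +
      (s ^ 5 * (27 / 50 - l * U) + 3 * z + 9 / 25 * z * s ^ 3) * w0 +
      (s ^ 5 * (123 / 25 * z - l * V) - 9 * z -
      2 * z * s ^ 2 * (2 / 5 + 13 * z / 20 + 22 * z ^ 3 / 5))) +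
      (2 * (3 / 25 * s ^ 3) * w0 +
      (s ^ 5 * (27 / 50 - l * U) + 3 * z + 9 / 25 * z * s ^ 3)) * δ +
      3 / 25 * s ^ 3 * δ ^ 2) / s ^ 5 := by
    rw [hδ]
    field_simp
    ring
  have h2 := mul_nonneg h1 hδ0
  have h3 : 0 ≤ 3 / 25 * s ^ 3 * δ ^ 2 := by (clear * - hs; positivity)
  have h4 : 0 ≤ 2 * (w + 3 * z) - l * (w * U + V) + 3 * z * (w - 3) / s ^ 5 -
      2 * z / s ^ 3 * (2 / 5 + 13 * z / 20 + 22 * z ^ 3 / 5) +
      3 / 25 * (w + 3 * z) * (w / s ^ 2 - 3) - 11 / 10 * w := by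
    rw [e]
    apply div_nonneg _ (by positivity)
    linarith only [h0, h2, h3]
  linarith only [h4]

theorem fpk27_I0 : Ex.nn (2 ^ 1024) 40 4000 9813 10000 10000 0 11 25 (fpQ0 (fpk 1 1)) = true := by
  (clear * -; decide +kernel)
theorem fpk27_I1 : Ex.nn (2 ^ 1024) 40 4000 9813 10000 10000 0 11 25 (fpQ1 (fpk 1 1)) = true := by
  (clear * -; decide +kernel)
theorem fpk27_J0 : Ex.nn (2 ^ 1024) 40 4000 8164 9814 10000 0 11 25 (fpQ0 (fpk 27 1 * fpZ)) = true := by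
  (clear * -; decide +kernel)
theorem fpk27_J1 : Ex.nn (2 ^ 1024) 40 4000 8164 9814 10000 0 11 25 (fpQ1 (fpk 27 1 * fpZ)) = true := by
  (clear * -; decide +kernel)
theorem fpk48_I0 : Ex.nn (2 ^ 1024) 40 4000 9895 10000 10000 0 19 40 (fpQ0 (fpk 1 1)) = true := by
  (clear * -; decide +kernel)
theorem fpk48_I1 : Ex.nn (2 ^ 1024) 40 4000 9895 10000 10000 0 19 40 (fpQ1 (fpk 1 1)) = true := by
  (clear * -; decide +kernel)
theorem fpk48_J0 : Ex.nn (2 ^ 1024) 40 4000 9013 9896 10000 0 19 40 (fpQ0 (fpk 48 1 * fpZ)) = true := by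
  (clear * -; decide +kernel)
theorem fpk48_J1 : Ex.nn (2 ^ 1024) 40 4000 9013 9896 10000 0 19 40 (fpQ1 (fpk 48 1 * fpZ)) = true := by
  (clear * -; decide +kernel)

/-- the `l²` coefficient of `T` -/
theorem fpn_A {s z w l : ℝ} (hs : 0 < s) (hs1 : s ≤ 1) (hz : z = 1 - s ^ 2) (hw1 : 1 ≤ w)
    (hw9 : w ≤ 9) (hl : 0 ≤ l)
    (hL : (27 * z ≤ w ∧ l ≤ 11 / 25) ∨ (48 * z ≤ w ∧ l ≤ 19 / 40)) :
    11 / 10 * w ≤ 2 * (w + 3 * z) - l * (w * fpU z l + fpV z l) + 3 * z * (w - 3) / s ^ 5 -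
      2 * z / s ^ 3 * (2 / 5 + 13 * z / 20 + 22 * z ^ 3 / 5) +
      3 / 25 * (w + 3 * z) * (w / s ^ 2 - 3) := by
  rcases hL with ⟨hzw, hl1⟩ | ⟨hzw, hl1⟩
  · have hs2 : 8164 ≤ 10000 * s := by nlinarith only [hs, hz, hw9, hzw]
    rcases le_total (10000 * s) 9813 with h | h
    · refine fpn_A_of hs hz (fpk 27 1 * fpZ)
        (Ex.nn_closed (by norm_num) (by norm_num) (by norm_num) (by norm_num) fpk27_J0
          (by push_cast; linarith only [hs2]) (by push_cast; linarith only [h]) (by push_cast; linarith only [hl])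
          (by push_cast; linarith only [hl1]))
        (Ex.nn_closed (by norm_num) (by norm_num) (by norm_num) (by norm_num) fpk27_J1
          (by push_cast; linarith only [hs2]) (by push_cast; linarith only [h]) (by push_cast; linarith only [hl])
          (by push_cast; linarith only [hl1])) ?_
      rw [Ex.R_mul, fpZ_R, fpk_R _ _ _ _ le_rfl, ← hz]
      push_cast
      linarith only [hzw]
    · refine fpn_A_of hs hz (fpk 1 1)
        (Ex.nn_closed (by norm_num) (by norm_num) (by norm_num) (by norm_num) fpk27_I0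
          (by push_cast; linarith only [h]) (by push_cast; linarith only [hs1]) (by push_cast; linarith only [hl])
          (by push_cast; linarith only [hl1]))
        (Ex.nn_closed (by norm_num) (by norm_num) (by norm_num) (by norm_num) fpk27_I1
          (by push_cast; linarith only [h]) (by push_cast; linarith only [hs1]) (by push_cast; linarith only [hl])
          (by push_cast; linarith only [hl1])) ?_
      rw [fpk_R _ _ _ _ le_rfl]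
      push_cast
      linarith only [hw1]
  · have hs2 : 9013 ≤ 10000 * s := by nlinarith only [hs, hz, hw9, hzw]
    rcases le_total (10000 * s) 9895 with h | h
    · refine fpn_A_of hs hz (fpk 48 1 * fpZ)
        (Ex.nn_closed (by norm_num) (by norm_num) (by norm_num) (by norm_num) fpk48_J0
          (by push_cast; linarith only [hs2]) (by push_cast; linarith only [h]) (by push_cast; linarith only [hl])
          (by push_cast; linarith only [hl1]))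
        (Ex.nn_closed (by norm_num) (by norm_num) (by norm_num) (by norm_num) fpk48_J1
          (by push_cast; linarith only [hs2]) (by push_cast; linarith only [h]) (by push_cast; linarith only [hl])
          (by push_cast; linarith only [hl1])) ?_
      rw [Ex.R_mul, fpZ_R, fpk_R _ _ _ _ le_rfl, ← hz]
      push_cast
      linarith only [hzw]
    · refine fpn_A_of hs hz (fpk 1 1)
        (Ex.nn_closed (by norm_num) (by norm_num) (by norm_num) (by norm_num) fpk48_I0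
          (by push_cast; linarith only [h]) (by push_cast; linarith only [hs1]) (by push_cast; linarith only [hl])
          (by push_cast; linarith only [hl1]))
        (Ex.nn_closed (by norm_num) (by norm_num) (by norm_num) (by norm_num) fpk48_I1
          (by push_cast; linarith only [h]) (by push_cast; linarith only [hs1]) (by push_cast; linarith only [hl])
          (by push_cast; linarith only [hl1])) ?_
      rw [fpk_R _ _ _ _ le_rfl]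
      push_cast
      linarith only [hw1]

end Vale.Agent.P237.AllN
end

section

/-!
# P237, block D, `l ≥ 0`, `1 ≤ √m x ≤ 3`, `u ≤ 0`: the coefficient of `u²/(1+u)`
-/

namespace Vale.Agent.P237.AllN

open PolyPos

def fpKQ : Ex := fpk 3 4 * fpq (fpk (-16) 1) (fpk 201 5) (fpk (-26) 1) + fpZ * (
  fpk 5 8 * fpq (fpk (-36) 1) (fpk 1319 10) (fpk (-999) 10) + fpZ * (
  fpk 35 64 * fpq (fpk (-64) 1) (fpk 2871 10) (fpk (-2363) 10) + fpZ * (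
  fpk 63 128 * fpq (fpk (-100) 1) (fpk 2539 5) (fpk (-2194) 5) + fpZ * (
  fpk 231 512 * fpq (fpk (-144) 1) (fpk 7939 10) (fpk (-1415) 2)))))

theorem fpKQ_R (s l : ℝ) : fpKQ.R s l = kQ' (1 - s ^ 2) l := by
  unfold fpKQ fpq kQ'
  simp only [Ex.R_add, Ex.R_sub, Ex.R_mul, Ex.R_Y, fpZ_R]
  generalize 1 - s ^ 2 = z
  simp (discharger := norm_num) only [fpk_R]
  push_cast
  ring

/-- `1 + s` -/
def fpO : Ex := fpk 1 1 + Ex.X

/-- `s³ (1+s) C_K` -/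
def fpCK : Ex := fpk 4 1 * (Ex.X * Ex.X) * fpO - fpk 4 1 * (Ex.X * Ex.X * (Ex.X * Ex.X)) -
  fpk 2 1 * fpS5 * fpO - fpk 6 1 * fpZ * Ex.Y * fpO + fpS5 * fpO * fpZ * Ex.Y * fpKQ

/-- Taylor polynomial of `e^{-2l}` -/
def fpA : Ex := fpk 1 1 + Ex.Y * (fpk (-2) 1 + Ex.Y * (fpk 2 1 + Ex.Y * (fpk (-4) 3 + Ex.Y * (
  fpk 2 3 + Ex.Y * fpk (-4) 15))))

def fpBB : Ex := fpCK + fpk 4 1 * fpS5 * fpO * fpA

def fpF (p : ℤ) (q : ℕ) : Ex := fpBB - fpk p q * (Ex.X * Ex.X) * fpO -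
  fpk 1 3 * (Ex.X * Ex.X * Ex.X) * fpO

def fpG (g p : ℤ) (q : ℕ) : Ex := fpk g 25 * fpZ * Ex.Y * Ex.X - fpk p q

noncomputable def fpCKr (s z l : ℝ) : ℝ :=
  4 / s - 4 * s / (1 + s) - 2 * s ^ 2 - 6 * (z / s ^ 3) * l + s ^ 2 * z * l * kQ' z l

noncomputable def fpAr (l : ℝ) : ℝ :=
  1 - 2 * l + 2 * l ^ 2 - 4 / 3 * l ^ 3 + 2 / 3 * l ^ 4 - 4 / 15 * l ^ 5

theorem fpCK_R {s : ℝ} (hs : 0 < s) (l : ℝ) :
    fpCK.R s l = s ^ 3 * (1 + s) * fpCKr s (1 - s ^ 2) l := by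
  unfold fpCK fpS5 fpO fpCKr
  simp only [Ex.R_add, Ex.R_sub, Ex.R_mul, Ex.R_X, Ex.R_Y, fpZ_R, fpKQ_R]
  generalize kQ' (1 - s ^ 2) l = Q
  generalize 1 - s ^ 2 = z
  simp (discharger := norm_num) only [fpk_R]
  have : 1 + s ≠ 0 := by positivity
  push_cast
  field_simp

theorem fpA_R (s l : ℝ) : fpA.R s l = fpAr l := by
  unfold fpA fpAr
  simp only [Ex.R_add, Ex.R_sub, Ex.R_mul, Ex.R_X, Ex.R_Y]
  simp (discharger := norm_num) only [fpk_R]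
  push_cast
  ring

theorem fpF_R {s : ℝ} (hs : 0 < s) (l : ℝ) (p : ℤ) (q : ℕ) (hq : 1 ≤ q) :
    (fpF p q).R s l = s ^ 3 * (1 + s) * (fpCKr s (1 - s ^ 2) l + 4 * s ^ 2 * fpAr l -
      (p / q) / s - 1 / 3) := by
  unfold fpF fpBB fpS5 fpO
  simp only [Ex.R_add, Ex.R_sub, Ex.R_mul, Ex.R_X, Ex.R_Y, fpCK_R hs, fpA_R, fpk_R p q s l hq]
  generalize fpCKr s (1 - s ^ 2) l = C
  generalize fpAr l = A
  generalize (p : ℝ) / q = k
  simp (discharger := norm_num) only [fpk_R]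
  push_cast
  field_simp

theorem fpG_R {s : ℝ} (l : ℝ) (g p : ℤ) (q : ℕ) (hq : 1 ≤ q) :
    (fpG g p q).R s l = g / 25 * (1 - s ^ 2) * l * s - p / q := by
  unfold fpG
  simp only [Ex.R_sub, Ex.R_mul, Ex.R_X, Ex.R_Y, fpZ_R, fpk_R p q s l hq,
    fpk_R g 25 s l (by norm_num)]
  push_cast
  ring

/-- `e^{-2l} ≥` Taylor polynomial of degree 5 -/
theorem fpAr_le {l : ℝ} (h0 : 0 ≤ l) (h1 : l ≤ 1 / 2) : fpAr l ≤ Real.exp (-(2 * l)) := by
  have h := ks_taylor (y := -(2 * l)) (by rw [abs_neg, abs_of_nonneg (by linarith only [h0])]; linarith only [h1])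
  rw [abs_neg, abs_of_nonneg (by linarith only [h0] : 0 ≤ 2 * l)] at h
  have h2 := (abs_le.1 h).1
  unfold fpAr
  have h3 : 0 ≤ l ^ 6 * (1 - 2 * l) := by
    apply mul_nonneg (by positivity); linarith only [h1]
  have h4 : l ^ 8 ≤ l ^ 6 * (1 / 4) := by
    have : l ^ 2 ≤ 1 / 4 := by nlinarith only [h1, h0]
    calc l ^ 8 = l ^ 6 * l ^ 2 := by ring
      _ ≤ _ := mul_le_mul_of_nonneg_left this (by positivity)
  have h5 : 0 ≤ l ^ 6 := by positivity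
  linarith only [h5, h4, h3, h2]

theorem fpk27_CK : Ex.nn (2 ^ 1024) 40 4000 8164 10000 10000 0 11 25 fpCK = true := by
  (clear * -; decide +kernel)
theorem fpk48_CK : Ex.nn (2 ^ 1024) 40 4000 9013 10000 10000 0 19 40 fpCK = true := by
  (clear * -; decide +kernel)

theorem fpn_CK {s z l : ℝ} (hs : 0 < s) (hs1 : s ≤ 1) (hz : z = 1 - s ^ 2) (hl : 0 ≤ l)
    (hL : (z ≤ 1 / 3 ∧ l ≤ 11 / 25) ∨ (z ≤ 3 / 16 ∧ l ≤ 19 / 40)) :
    0 ≤ fpCKr s z l := by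
  have key : 0 ≤ fpCK.R s l := by
    rcases hL with ⟨hz1, hl1⟩ | ⟨hz1, hl1⟩
    · exact Ex.nn_closed (by norm_num) (by norm_num) (by norm_num) (by norm_num) fpk27_CK
        (by push_cast; nlinarith only [hz, hz1, hs]) (by push_cast; linarith only [hs1]) (by push_cast; linarith only [hl])
        (by push_cast; linarith only [hl1])
    · exact Ex.nn_closed (by norm_num) (by norm_num) (by norm_num) (by norm_num) fpk48_CK
        (by push_cast; nlinarith only [hz, hz1, hs]) (by push_cast; linarith only [hs1]) (by push_cast; linarith only [hl])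
        (by push_cast; linarith only [hl1])
  rw [fpCK_R hs, ← hz] at key
  exact nonneg_of_mul_nonneg_right key (by positivity)

def fpT27 : PT := .sx (.sy (.leaf 0) (.sx (.sy (.sx (.leaf 1) (.leaf 0)) (.leaf 1)) (.sy (.leaf 0)
  (.leaf 1)))) (.sy (.leaf 0) (.sx (.sy (.leaf 0) (.sx (.sy (.leaf 0) (.sx (.leaf 1) (.leaf 0)))
  (.leaf 0))) (.leaf 0)))

def fpT48 : PT := .sx (.sy (.leaf 0) (.sx (.leaf 1) (.sy (.leaf 0) (.leaf 1)))) (.leaf 0)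

theorem fpk27_B : tchkE (2 ^ 1024) 40 4000 [[fpF 14 13], [fpF 28 39, fpG 180 14 39]] (fpk 0 1)
    fpT27 8164 10000 10000 0 11 25 = true := by
  (clear * -; decide +kernel)

theorem fpk48_B : tchkE (2 ^ 1024) 40 4000 [[fpF 49 47], [fpF 98 141, fpG 306 49 141]] (fpk 0 1)
    fpT48 9013 10000 10000 0 19 40 = true := by
  (clear * -; decide +kernel)

/-- the coefficient of `W`: either the simple bound or the bound with help of the cross term -/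
theorem fpn_B {s z l : ℝ} (hs : 0 < s) (hs1 : s ≤ 1) (hz : z = 1 - s ^ 2) (hl : 0 ≤ l)
    (k1 g : ℝ) (hL : (z ≤ 1 / 3 ∧ l ≤ 11 / 25 ∧ k1 = 28 / 13 ∧ g = 30) ∨
      (z ≤ 3 / 16 ∧ l ≤ 19 / 40 ∧ k1 = 98 / 47 ∧ g = 51)) :
    k1 / 2 / s + 1 / 3 ≤ fpCKr s z l + 4 * s ^ 2 * fpAr l ∨
    (k1 / 3 / s + 1 / 3 ≤ fpCKr s z l + 4 * s ^ 2 * fpAr l ∧
      k1 / 6 / s ≤ 6 / 25 * g * z * l) := by
  have hs3 : 0 < s ^ 3 * (1 + s) := by positivity
  have hLo : (fpk 0 1).R s l ≤ 0 := by rw [fpk_R _ _ _ _ le_rfl]; simp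
  rcases hL with ⟨hz1, hl1, rfl, rfl⟩ | ⟨hz1, hl1, rfl, rfl⟩
  · obtain ⟨i, hi⟩ := tchkE_sound hLo fpT27 8164 10000 10000 0 11 25 (by norm_num) (by norm_num)
      (by norm_num) (by norm_num) fpk27_B (by push_cast; nlinarith only [hz, hz1, hs]) (by push_cast; linarith only [hs1])
      (by push_cast; linarith only [hl]) (by push_cast; linarith only [hl1])
    match i with
    | 0 =>
      left
      have h := hi (fpF 14 13) (by simp only [Int.reduceNeg, List.getD_eq_getElem?_getD, List.length_cons, List.length_nil, zero_add, Nat.reduceAdd, Order.lt_two_iff, zero_le, getElem?_pos, List.getElem_cons_zero, Option.getD_some, List.mem_cons, List.not_mem_nil, or_false])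
      rw [fpF_R hs l _ _ (by norm_num), ← hz] at h
      have h2 := nonneg_of_mul_nonneg_right h hs3
      push_cast at h2
      have e : (28 / 13 / 2 / s : ℝ) = 14 / 13 / s := by ring
      rw [e]
      linarith only [h2]
    | 1 =>
      right
      have h := hi (fpF 28 39) (by simp)
      have h' := hi (fpG 180 14 39) (by simp)
      rw [fpF_R hs l _ _ (by norm_num), ← hz] at h
      rw [fpG_R l _ _ _ (by norm_num), ← hz] at h'
      have h2 := nonneg_of_mul_nonneg_right h hs3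
      push_cast at h2 h'
      have e : (28 / 13 / 3 / s : ℝ) = 28 / 39 / s := by ring
      have e' : (28 / 13 / 6 / s : ℝ) = 14 / 39 / s := by ring
      rw [e, e', div_le_iff₀ hs]
      constructor <;> linarith only [h', h2]
    | (n + 2) =>
      exfalso
      have h := hi (Ex.c ⟨-1, 0⟩) (by simp only [Int.reduceNeg, List.getD_eq_getElem?_getD, List.length_cons, List.length_nil, zero_add, Nat.reduceAdd, Order.lt_two_iff, Nat.reduceLeDiff, not_false_eq_true, getElem?_neg, Option.getD_none, List.mem_cons, List.not_mem_nil, or_false])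
      rw [Ex.R_c, Fr.R] at h
      norm_num at h
  · obtain ⟨i, hi⟩ := tchkE_sound hLo fpT48 9013 10000 10000 0 19 40 (by norm_num) (by norm_num)
      (by norm_num) (by norm_num) fpk48_B (by push_cast; nlinarith only [hz, hz1, hs]) (by push_cast; linarith only [hs1])
      (by push_cast; linarith only [hl]) (by push_cast; linarith only [hl1])
    match i with
    | 0 =>
      left
      have h := hi (fpF 49 47) (by simp only [Int.reduceNeg, List.getD_eq_getElem?_getD, List.length_cons, List.length_nil, zero_add, Nat.reduceAdd, Order.lt_two_iff, zero_le, getElem?_pos, List.getElem_cons_zero, Option.getD_some, List.mem_cons, List.not_mem_nil, or_false])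
      rw [fpF_R hs l _ _ (by norm_num), ← hz] at h
      have h2 := nonneg_of_mul_nonneg_right h hs3
      push_cast at h2
      have e : (98 / 47 / 2 / s : ℝ) = 49 / 47 / s := by ring
      rw [e]
      linarith only [h2]
    | 1 =>
      right
      have h := hi (fpF 98 141) (by simp)
      have h' := hi (fpG 306 49 141) (by simp)
      rw [fpF_R hs l _ _ (by norm_num), ← hz] at h
      rw [fpG_R l _ _ _ (by norm_num), ← hz] at h'
      have h2 := nonneg_of_mul_nonneg_right h hs3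
      push_cast at h2 h'
      have e : (98 / 47 / 3 / s : ℝ) = 98 / 141 / s := by ring
      have e' : (98 / 47 / 6 / s : ℝ) = 49 / 141 / s := by ring
      rw [e, e', div_le_iff₀ hs]
      constructor <;> linarith only [h', h2]
    | (n + 2) =>
      exfalso
      have h := hi (Ex.c ⟨-1, 0⟩) (by simp only [Int.reduceNeg, List.getD_eq_getElem?_getD, List.length_cons, List.length_nil, zero_add, Nat.reduceAdd, Order.lt_two_iff, Nat.reduceLeDiff, not_false_eq_true, getElem?_neg, Option.getD_none, List.mem_cons, List.not_mem_nil, or_false])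
      rw [Ex.R_c, Fr.R] at h
      norm_num at h

end Vale.Agent.P237.AllN
end

section

/-!
# Polynomial expressions in three variables, positivity on trees of boxes

The third variable is treated by coefficient lists whose entries are the encoded values of
`Kron.lean` (two variables by Kronecker substitution).
-/

namespace Vale.Agent.P237.AllN.PolyPos

/-- polynomial expressions in three variables -/
inductive Ex3
  | c (a : Fr)
  | X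
  | Y
  | Z
  | add (a b : Ex3)
  | sub (a b : Ex3)
  | mul (a b : Ex3)

instance : Add Ex3 := ⟨Ex3.add⟩
instance : Sub Ex3 := ⟨Ex3.sub⟩
instance : Mul Ex3 := ⟨Ex3.mul⟩

/-- real value -/
noncomputable def Ex3.R (x y z : ℝ) : Ex3 → ℝ
  | .c a => a.R
  | .X => x
  | .Y => y
  | .Z => z
  | .add a b => a.R x y z + b.R x y z
  | .sub a b => a.R x y z - b.R x y z
  | .mul a b => a.R x y z * b.R x y z

theorem Ex3.R_c (x y z : ℝ) (a : Fr) : (Ex3.c a).R x y z = a.R := rfl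
theorem Ex3.R_X (x y z : ℝ) : Ex3.X.R x y z = x := rfl
theorem Ex3.R_Y (x y z : ℝ) : Ex3.Y.R x y z = y := rfl
theorem Ex3.R_Z (x y z : ℝ) : Ex3.Z.R x y z = z := rfl
theorem Ex3.R_add (x y z : ℝ) (a b : Ex3) : (a + b).R x y z = a.R x y z + b.R x y z := rfl
theorem Ex3.R_sub (x y z : ℝ) (a b : Ex3) : (a - b).R x y z = a.R x y z - b.R x y z := rfl
theorem Ex3.R_mul (x y z : ℝ) (a b : Ex3) : (a * b).R x y z = a.R x y z * b.R x y z := rfl

/-- embedding of two-variable expressions -/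
def Ex.to3 : Ex → Ex3
  | .c a => .c a
  | .X => .X
  | .Y => .Y
  | .add a b => .add a.to3 b.to3
  | .sub a b => .sub a.to3 b.to3
  | .mul a b => .mul a.to3 b.to3

theorem Ex.R_to3 (x y z : ℝ) : ∀ E : Ex, E.to3.R x y z = E.R x y
  | .c _ => rfl
  | .X => rfl
  | .Y => rfl
  | .add a b => by simp only [to3, Ex3.R, Ex.R_to3 x y z a, Ex.R_to3 x y z b, R]
  | .sub a b => by simp only [Ex.to3, Ex3.R, Ex.R, Ex.R_to3 x y z a, Ex.R_to3 x y z b]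
  | .mul a b => by simp only [Ex.to3, Ex3.R, Ex.R, Ex.R_to3 x y z a, Ex.R_to3 x y z b]

/-! ## lists of encoded values -/

/-- `p + σ q` -/
def kadd (b e : ℕ) (σ : ℤ) : List KV → List KV → List KV
  | [], q => q.map (KV.mul (KV.c ⟨σ, 0⟩))
  | a :: p, [] => a :: p
  | a :: p, c :: q => KV.lin b e σ a c :: kadd b e σ p q

/-- product -/
def kmul (b e : ℕ) : List KV → List KV → List KV
  | [], _ => []
  | [a], q => q.map (KV.mul a)
  | a :: a' :: p, q => kadd b e 1 (q.map (KV.mul a)) (KV.c ⟨0, 0⟩ :: kmul b e (a' :: p) q)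

/-- multiplication by `(1 + r)^n` -/
def klift (b e : ℕ) (p : List KV) : ℕ → List KV
  | 0 => p
  | n + 1 => kadd b e 1 (klift b e p n) (KV.c ⟨0, 0⟩ :: klift b e p n)

/-- a list together with the exponent of `(1 + r)` in the denominator -/
structure K3 where
  p : List KV
  k : ℕ

/-- `p + σ q` -/
def K3.lin (b e : ℕ) (σ : ℤ) (p q : K3) : K3 :=
  ⟨kadd b e σ (klift b e p.p (max p.k q.k - p.k)) (klift b e q.p (max p.k q.k - q.k)),
    max p.k q.k⟩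

/-- product -/
def K3.mul (b e : ℕ) (p q : K3) : K3 := ⟨kmul b e p.p q.p, p.k + q.k⟩

/-- value of a list of functions -/
noncomputable def evF (t s r : ℝ) (g : List (ℝ → ℝ → ℝ)) : ℝ := evL (fun h => h t s) r g

theorem evF_nil (t s r : ℝ) : evF t s r [] = 0 := rfl

theorem evF_cons (t s r : ℝ) (h : ℝ → ℝ → ℝ) (g : List (ℝ → ℝ → ℝ)) :
    evF t s r (h :: g) = h t s + r * evF t s r g := rfl

/-- semantics of a list -/
def SemL (b e : ℕ) (v : List KV) (f : ℝ → ℝ → ℝ → ℝ) : Prop :=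
  ∃ g : List (ℝ → ℝ → ℝ), List.Forall₂ (Sem b e) v g ∧ ∀ t s r : ℝ, evF t s r g = f t s r

theorem Sem.congr {b e : ℕ} {v : KV} {f g : ℝ → ℝ → ℝ} (h : Sem b e v f)
    (hfg : ∀ t s, f t s = g t s) : Sem b e v g := by
  obtain ⟨p, p1, p2, p3, p4⟩ := h
  exact ⟨p, p1, p2, p3, fun t s ht hs => by rw [p4 t s ht hs, hfg]⟩

theorem semL_map {b e : ℕ} {a : KV} {φ : ℝ → ℝ → ℝ} (ha : Sem b e a φ) :
    ∀ {v : List KV} {g : List (ℝ → ℝ → ℝ)}, List.Forall₂ (Sem b e) v g →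
      ∃ g' : List (ℝ → ℝ → ℝ), List.Forall₂ (Sem b e) (v.map (KV.mul a)) g' ∧
        ∀ t s r : ℝ, evF t s r g' = φ t s * evF t s r g
  | [], [], _ => ⟨[], .nil, fun t s r => by simp [evF_nil]⟩
  | c :: v, h :: g, .cons h1 h2 => by
    obtain ⟨g', i1, i2⟩ := semL_map ha h2
    refine ⟨(fun t s => φ t s * h t s) :: g', .cons (sem_mul ha h1) i1, fun t s r => ?_⟩
    rw [evF_cons, evF_cons, i2]
    ring

theorem sem_int (b e : ℕ) (σ : ℤ) : Sem b e (KV.c ⟨σ, 0⟩) (fun _ _ => (σ : ℝ)) :=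
  (sem_c b e ⟨σ, 0⟩).congr fun _ _ => by simp [Fr.R]

theorem semL_add {b e : ℕ} {σ : ℤ} (hσ : σ.natAbs = 1) :
    ∀ {v : List KV} {g : List (ℝ → ℝ → ℝ)} {v' : List KV} {g' : List (ℝ → ℝ → ℝ)},
      List.Forall₂ (Sem b e) v g → List.Forall₂ (Sem b e) v' g' →
      ∃ g'' : List (ℝ → ℝ → ℝ), List.Forall₂ (Sem b e) (kadd b e σ v v') g'' ∧
        ∀ t s r : ℝ, evF t s r g'' = evF t s r g + σ * evF t s r g'
  | [], [], v', g', _, h' => by
    obtain ⟨g'', i1, i2⟩ := semL_map (sem_int b e σ) h'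
    exact ⟨g'', i1, fun t s r => by rw [i2, evF_nil, zero_add]⟩
  | a :: v, h :: g, [], [], hh, _ => ⟨h :: g, hh, fun t s r => by simp [evF_nil]⟩
  | a :: v, h :: g, c :: v', h' :: g', .cons a1 a2, .cons b1 b2 => by
    obtain ⟨g'', i1, i2⟩ := semL_add hσ a2 b2
    refine ⟨(fun t s => h t s + σ * h' t s) :: g'', .cons (sem_lin hσ a1 b1) i1,
      fun t s r => ?_⟩
    rw [evF_cons, evF_cons, evF_cons, i2]
    ring

theorem semL_mul {b e : ℕ} :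
    ∀ {v : List KV} {g : List (ℝ → ℝ → ℝ)} {v' : List KV} {g' : List (ℝ → ℝ → ℝ)},
      List.Forall₂ (Sem b e) v g → List.Forall₂ (Sem b e) v' g' →
      ∃ g'' : List (ℝ → ℝ → ℝ), List.Forall₂ (Sem b e) (kmul b e v v') g'' ∧
        ∀ t s r : ℝ, evF t s r g'' = evF t s r g * evF t s r g'
  | [], [], v', g', _, _ => ⟨[], .nil, fun t s r => by simp [evF_nil]⟩
  | [a], [h], v', g', .cons a1 _, h' => by
    obtain ⟨g'', i1, i2⟩ := semL_map a1 h'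
    refine ⟨g'', i1, fun t s r => ?_⟩
    rw [i2, evF_cons, evF_nil]
    ring
  | a :: a' :: v, h :: g, v', g', .cons a1 a2, h' => by
    obtain ⟨g1, i1, i2⟩ := semL_map a1 h'
    obtain ⟨g2, j1, j2⟩ := semL_mul (v := a' :: v) a2 h'
    obtain ⟨g3, k1, k2⟩ := semL_add (σ := 1) rfl i1 (.cons (sem_int b e 0) j1)
    refine ⟨g3, k1, fun t s r => ?_⟩
    rw [k2, i2, evF_cons, j2, evF_cons]
    push_cast
    ring

theorem semL_lift {b e : ℕ} {v : List KV} {g : List (ℝ → ℝ → ℝ)}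
    (h : List.Forall₂ (Sem b e) v g) : ∀ n : ℕ,
      ∃ g' : List (ℝ → ℝ → ℝ), List.Forall₂ (Sem b e) (klift b e v n) g' ∧
        ∀ t s r : ℝ, evF t s r g' = evF t s r g * (1 + r) ^ n
  | 0 => ⟨g, h, fun t s r => by simp⟩
  | n + 1 => by
    obtain ⟨g1, i1, i2⟩ := semL_lift h n
    obtain ⟨g2, k1, k2⟩ := semL_add (σ := 1) rfl i1 (.cons (sem_int b e 0) i1)
    refine ⟨g2, k1, fun t s r => ?_⟩
    rw [k2, evF_cons, i2, pow_succ]
    push_cast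
    ring

/-- semantics with denominators -/
def Sem3 (b e : ℕ) (v : K3) (f : ℝ → ℝ → ℝ → ℝ) : Prop :=
  ∃ g : List (ℝ → ℝ → ℝ), List.Forall₂ (Sem b e) v.p g ∧
    ∀ t s r : ℝ, 0 ≤ r → evF t s r g = f t s r * (1 + r) ^ v.k

theorem sem3_of {b e : ℕ} {v : KV} {f : ℝ → ℝ → ℝ} (h : Sem b e v f) :
    Sem3 b e ⟨[v], 0⟩ (fun t s _ => f t s) :=
  ⟨[f], .cons h .nil, fun t s r _ => by simp [evF_cons, evF_nil]⟩

/-- the third variable -/
def K3.z (A B : ℤ) (D : ℕ) : K3 := ⟨[KV.c ⟨A, D - 1⟩, KV.c ⟨B, D - 1⟩], 1⟩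

theorem sem3_z (b e : ℕ) (A B : ℤ) {D : ℕ} (hD : 0 < D) :
    Sem3 b e (K3.z A B D) (fun _ _ r => (A + B * r) / (D * (1 + r))) := by
  refine ⟨[fun _ _ => Fr.R ⟨A, D - 1⟩, fun _ _ => Fr.R ⟨B, D - 1⟩],
    .cons (sem_c b e _) (.cons (sem_c b e _) .nil), fun t s r hr => ?_⟩
  have hD' : ((D - 1 : ℕ) : ℝ) + 1 = D := by
    have : D - 1 + 1 = D := by omega
    exact_mod_cast this
  have h1 : (D : ℝ) ≠ 0 := by exact_mod_cast hD.ne'
  have h2 : 1 + r ≠ 0 := by (clear * - hr; positivity)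
  simp only [evF_cons, evF_nil, Fr.R, hD', K3.z, pow_one]
  field_simp
  ring

theorem sem3_mul {b e : ℕ} {v v' : K3} {f g : ℝ → ℝ → ℝ → ℝ} (h : Sem3 b e v f)
    (h' : Sem3 b e v' g) : Sem3 b e (K3.mul b e v v') (fun t s r => f t s r * g t s r) := by
  obtain ⟨p, p1, p2⟩ := h
  obtain ⟨q, q1, q2⟩ := h'
  obtain ⟨w, w1, w2⟩ := semL_mul p1 q1
  refine ⟨w, w1, fun t s r hr => ?_⟩
  rw [w2, p2 t s r hr, q2 t s r hr]
  simp only [K3.mul, pow_add]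
  ring

theorem sem3_lin {b e : ℕ} {v v' : K3} {f g : ℝ → ℝ → ℝ → ℝ} {σ : ℤ} (hσ : σ.natAbs = 1)
    (h : Sem3 b e v f) (h' : Sem3 b e v' g) :
    Sem3 b e (K3.lin b e σ v v') (fun t s r => f t s r + σ * g t s r) := by
  obtain ⟨p, p1, p2⟩ := h
  obtain ⟨q, q1, q2⟩ := h'
  obtain ⟨p', i1, i2⟩ := semL_lift p1 (max v.k v'.k - v.k)
  obtain ⟨q', j1, j2⟩ := semL_lift q1 (max v.k v'.k - v'.k)
  obtain ⟨w, w1, w2⟩ := semL_add hσ i1 j1
  refine ⟨w, w1, fun t s r hr => ?_⟩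
  rw [w2, i2, j2, p2 t s r hr, q2 t s r hr, mul_assoc, ← pow_add, mul_assoc (g t s r), ← pow_add,
    Nat.add_sub_cancel' (le_max_left _ _), Nat.add_sub_cancel' (le_max_right _ _)]
  simp only [K3.lin]
  ring

/-- encoded value -/
noncomputable def Ex3.K (b e : ℕ) (kx ky : KV) (kz : K3) (E : Ex3) : K3 :=
  Ex3.rec (motive := fun _ => K3) (fun a => ⟨[KV.c a], 0⟩) ⟨[kx], 0⟩ ⟨[ky], 0⟩ kz
    (fun _ _ p q => K3.lin b e 1 p q) (fun _ _ p q => K3.lin b e (-1) p q)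
    (fun _ _ p q => K3.mul b e p q) E

theorem Ex3.sem (b e : ℕ) {kx ky : KV} {kz : K3} {fx fy : ℝ → ℝ → ℝ} {fz : ℝ → ℝ → ℝ → ℝ}
    (hx : Sem b e kx fx) (hy : Sem b e ky fy) (hz : Sem3 b e kz fz) : ∀ E : Ex3,
    Sem3 b e (Ex3.K b e kx ky kz E) fun t s r => E.R (fx t s) (fy t s) (fz t s r)
  | .c a => sem3_of (sem_c b e a)
  | .X => sem3_of hx
  | .Y => sem3_of hy
  | .Z => hz
  | .add p q => by
    have h := sem3_lin (σ := 1) rfl (Ex3.sem b e hx hy hz p) (Ex3.sem b e hx hy hz q)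
    simp only [Int.cast_one, one_mul] at h
    exact h
  | .sub p q => by
    have h := sem3_lin (σ := -1) rfl (Ex3.sem b e hx hy hz p) (Ex3.sem b e hx hy hz q)
    simp only [Int.cast_neg, Int.cast_one, neg_mul, one_mul, ← sub_eq_add_neg] at h
    exact h
  | .mul p q => sem3_mul (Ex3.sem b e hx hy hz p) (Ex3.sem b e hx hy hz q)

/-- positivity check of an expression on a box -/
noncomputable def Ex3.nn (b L fuel : ℕ) (A B : ℤ) (D : ℕ) (A' B' : ℤ) (D' : ℕ) (A'' B'' : ℤ)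
    (D'' : ℕ) (E : Ex3) : Bool :=
  (Ex3.K b (b ^ L) (KV.x (b ^ L) A B D) (KV.y b A' B' D') (K3.z A'' B'' D'') E).p.all
    (KV.nn b L fuel)

theorem forall₂_nonneg {b L fuel : ℕ} : ∀ {v : List KV} {g : List (ℝ → ℝ → ℝ)},
    List.Forall₂ (Sem b (b ^ L)) v g → (v.all (KV.nn b L fuel)) = true → ∀ {t s r : ℝ}, 0 ≤ t →
      0 ≤ s → 0 ≤ r → 0 ≤ evF t s r g
  | [], [], _, _, t, s, r, _, _, _ => by rw [evF_nil]
  | a :: v, h :: g, .cons h1 h2, hc, t, s, r, ht, hs, hr => by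
    simp only [List.all_cons, Bool.and_eq_true] at hc
    rw [evF_cons]
    have i1 := PolyPos.nn_sound h1 hc.1 ht hs
    have i2 := forall₂_nonneg h2 hc.2 ht hs hr
    (clear * - i1 hr i2; positivity)

theorem moebius_exists {A B : ℤ} {D : ℕ} {x : ℝ} (hD : 0 < D) (h0 : (A : ℝ) ≤ D * x)
    (h1 : (D : ℝ) * x < B) : ∃ t : ℝ, 0 ≤ t ∧ (A + B * t) / (D * (1 + t)) = x := by
  have hD' : (0 : ℝ) < D := by exact_mod_cast hD
  have hd : 0 < (B : ℝ) - D * x := by linarith only [h1]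
  refine ⟨(D * x - A) / (B - D * x), div_nonneg (by linarith only [h0]) hd.le, ?_⟩
  have h2 : (1 : ℝ) + (D * x - A) / (B - D * x) = (B - A) / (B - D * x) := by
    field_simp
    ring
  have h3 : (0 : ℝ) < B - A := by linarith only [h0, h1]
  rw [h2]
  field_simp
  ring

theorem Ex3.nn_sound {b L fuel : ℕ} {A B : ℤ} {D : ℕ} {A' B' : ℤ} {D' : ℕ} {A'' B'' : ℤ}
    {D'' : ℕ} {E : Ex3} (hD : 0 < D) (hD' : 0 < D') (hD'' : 0 < D'')
    (h : Ex3.nn b L fuel A B D A' B' D' A'' B'' D'' E = true) {x y z : ℝ}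
    (h0 : (A : ℝ) ≤ D * x) (h1 : (D : ℝ) * x < B) (h2 : (A' : ℝ) ≤ D' * y)
    (h3 : (D' : ℝ) * y < B') (h4 : (A'' : ℝ) ≤ D'' * z) (h5 : (D'' : ℝ) * z < B'') :
    0 ≤ E.R x y z := by
  obtain ⟨t, ht, hxt⟩ := moebius_exists hD h0 h1
  obtain ⟨s, hs, hys⟩ := moebius_exists hD' h2 h3
  obtain ⟨r, hr, hzr⟩ := moebius_exists hD'' h4 h5
  obtain ⟨g, g1, g2⟩ := Ex3.sem b (b ^ L) (sem_x b (b ^ L) A B hD) (sem_y b (b ^ L) A' B' hD')
    (sem3_z b (b ^ L) A'' B'' hD'') E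
  have h6 := forall₂_nonneg g1 h ht hs hr
  rw [g2 t s r hr] at h6
  have h7 := nonneg_of_mul_nonneg_left h6 (by positivity)
  simpa only [hxt, hys, hzr] using h7

theorem Ex3.cont {fx fy fz : ℝ → ℝ} (hx : Continuous fx) (hy : Continuous fy)
    (hz : Continuous fz) : ∀ E : Ex3, Continuous fun θ => E.R (fx θ) (fy θ) (fz θ)
  | .c _ => continuous_const
  | .X => hx
  | .Y => hy
  | .Z => hz
  | .add p q => (Ex3.cont hx hy hz p).add (Ex3.cont hx hy hz q)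
  | .sub p q => (Ex3.cont hx hy hz p).sub (Ex3.cont hx hy hz q)
  | .mul p q => (Ex3.cont hx hy hz p).mul (Ex3.cont hx hy hz q)

theorem Ex3.nn_closed {b L fuel : ℕ} {A B : ℤ} {D : ℕ} {A' B' : ℤ} {D' : ℕ} {A'' B'' : ℤ}
    {D'' : ℕ} {E : Ex3} (hD : 0 < D) (hD' : 0 < D') (hD'' : 0 < D'') (hAB : A < B)
    (hAB' : A' < B') (hAB'' : A'' < B'')
    (h : Ex3.nn b L fuel A B D A' B' D' A'' B'' D'' E = true) {x y z : ℝ}
    (h0 : (A : ℝ) ≤ D * x) (h1 : (D : ℝ) * x ≤ B) (h2 : (A' : ℝ) ≤ D' * y)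
    (h3 : (D' : ℝ) * y ≤ B') (h4 : (A'' : ℝ) ≤ D'' * z) (h5 : (D'' : ℝ) * z ≤ B'') :
    0 ≤ E.R x y z := by
  have key : ∀ {A B : ℤ} {D : ℕ} {x : ℝ}, 0 < D → A < B → (A : ℝ) ≤ D * x → (D : ℝ) * x ≤ B →
      ∀ θ ∈ Set.Ioc (0 : ℝ) 1, (A : ℝ) ≤ D * (x + θ * (A / D - x)) ∧
        (D : ℝ) * (x + θ * (A / D - x)) < B := by
    intro A B D x hD hAB h0 h1 θ hθ
    have hD' : (0 : ℝ) < D := by exact_mod_cast hD
    have hAB' : (A : ℝ) < B := by exact_mod_cast hAB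
    have e : (D : ℝ) * (x + θ * (A / D - x)) = (1 - θ) * (D * x) + θ * A := by
      field_simp
      ring
    rw [e]
    have hθ0 := hθ.1
    have hθ1 := hθ.2
    constructor
    · linarith only [mul_nonneg (sub_nonneg.2 h0) (sub_nonneg.2 hθ1)]
    · nlinarith only [h1, hθ1, hAB', hθ0]
  have hc : Continuous fun θ : ℝ => E.R (x + θ * ((A : ℝ) / D - x)) (y + θ * ((A' : ℝ) / D' - y))
      (z + θ * ((A'' : ℝ) / D'' - z)) :=
    Ex3.cont (by fun_prop) (by fun_prop) (by fun_prop) E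
  have hcl : IsClosed {θ : ℝ | 0 ≤ E.R (x + θ * ((A : ℝ) / D - x)) (y + θ * ((A' : ℝ) / D' - y))
      (z + θ * ((A'' : ℝ) / D'' - z))} := isClosed_le continuous_const hc
  have hsub : Set.Ioc (0 : ℝ) 1 ⊆ {θ : ℝ | 0 ≤ E.R (x + θ * ((A : ℝ) / D - x))
      (y + θ * ((A' : ℝ) / D' - y)) (z + θ * ((A'' : ℝ) / D'' - z))} := by
    intro θ hθ
    obtain ⟨a1, a2⟩ := key hD hAB h0 h1 θ hθ
    obtain ⟨b1, b2⟩ := key hD' hAB' h2 h3 θ hθ
    obtain ⟨c1, c2⟩ := key hD'' hAB'' h4 h5 θ hθ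
    exact Ex3.nn_sound hD hD' hD'' h a1 a2 b1 b2 c1 c2
  have h6 := hcl.closure_subset_iff.2 hsub
  rw [closure_Ioc zero_ne_one] at h6
  have h7 : (0 : ℝ) ∈ Set.Icc (0 : ℝ) 1 := ⟨le_rfl, zero_le_one⟩
  have h8 := h6 h7
  simpa only [ge_iff_le, Set.mem_ofPred_eq, zero_mul, add_zero] using h8

/-! ## trees -/

/-- subdivision trees: `leaf i` uses the `i`-th family, `out i` the `i`-th region expression -/
inductive PT3
  | leaf (i : ℕ)
  | out (i : ℕ)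
  | sx (l r : PT3)
  | sy (l r : PT3)
  | sz (l r : PT3)

/-- check on a tree of boxes: on `leaf i` all members of the `i`-th family are nonnegative, on
`out i` the `i`-th region expression is at least `10⁻⁶` -/
noncomputable def tchk3 (b L fuel : ℕ) (F : List (List Ex3)) (Lo : List Ex3) (t : PT3) :
    ℤ → ℤ → ℕ → ℤ → ℤ → ℕ → ℤ → ℤ → ℕ → Bool :=
  PT3.rec (motive := fun _ => ℤ → ℤ → ℕ → ℤ → ℤ → ℕ → ℤ → ℤ → ℕ → Bool)
    (fun i A B D A' B' D' A'' B'' D'' =>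
      (F.getD i [Ex3.c ⟨-1, 0⟩]).all (Ex3.nn b L fuel A B D A' B' D' A'' B'' D''))
    (fun i A B D A' B' D' A'' B'' D'' =>
      Ex3.nn b L fuel A B D A' B' D' A'' B'' D'' (Lo.getD i (Ex3.c ⟨0, 0⟩) - Ex3.c ⟨1, 999999⟩))
    (fun _ _ l r A B D A' B' D' A'' B'' D'' =>
      l (2 * A) (A + B) (2 * D) A' B' D' A'' B'' D'' &&
        r (A + B) (2 * B) (2 * D) A' B' D' A'' B'' D'')
    (fun _ _ l r A B D A' B' D' A'' B'' D'' =>
      l A B D (2 * A') (A' + B') (2 * D') A'' B'' D'' &&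
        r A B D (A' + B') (2 * B') (2 * D') A'' B'' D'')
    (fun _ _ l r A B D A' B' D' A'' B'' D'' =>
      l A B D A' B' D' (2 * A'') (A'' + B'') (2 * D'') &&
        r A B D A' B' D' (A'' + B'') (2 * B'') (2 * D'')) t

theorem tchk3_sound {b L fuel : ℕ} {F : List (List Ex3)} {Lo : List Ex3} {x y z : ℝ}
    (hLo : ∀ E ∈ Lo, E.R x y z ≤ 0) :
    ∀ (t : PT3) (A B : ℤ) (D : ℕ) (A' B' : ℤ) (D' : ℕ) (A'' B'' : ℤ) (D'' : ℕ),
      0 < D → 0 < D' → 0 < D'' → A < B → A' < B' → A'' < B'' →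
      tchk3 b L fuel F Lo t A B D A' B' D' A'' B'' D'' = true →
      (A : ℝ) ≤ D * x → (D : ℝ) * x ≤ B → (A' : ℝ) ≤ D' * y → (D' : ℝ) * y ≤ B' →
      (A'' : ℝ) ≤ D'' * z → (D'' : ℝ) * z ≤ B'' →
      ∃ G ∈ F, ∀ E ∈ G, 0 ≤ E.R x y z
  | .leaf i, A, B, D, A', B', D', A'', B'', D'', hD, hD', hD'', hA, hA', hA'', h, h0, h1, h2,
      h3, h4, h5 => by
    have h : (F.getD i [Ex3.c ⟨-1, 0⟩]).all
      (Ex3.nn b L fuel A B D A' B' D' A'' B'' D'') = true := h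
    rw [List.all_eq_true] at h
    rcases lt_or_ge i F.length with hi | hi
    · refine ⟨F[i], List.getElem_mem hi, fun E hE => ?_⟩
      have e : F.getD i [Ex3.c ⟨-1, 0⟩] = F[i] := by simp [List.getD, hi]
      rw [e] at h
      exact Ex3.nn_closed hD hD' hD'' hA hA' hA'' (h E hE) h0 h1 h2 h3 h4 h5
    · exfalso
      have e : F.getD i [Ex3.c ⟨-1, 0⟩] = [Ex3.c ⟨-1, 0⟩] := by simp [List.getD, hi]
      rw [e] at h
      have h6 := Ex3.nn_closed hD hD' hD'' hA hA' hA'' (h _ (List.mem_singleton.2 rfl)) h0 h1 h2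
        h3 h4 h5
      simp only [Int.reduceNeg, Ex3.R_c, Fr.R, Int.cast_neg, Int.cast_one, CharP.cast_eq_zero, zero_add, div_one, Left.nonneg_neg_iff] at h6
      linarith only [h6]
  | .out i, A, B, D, A', B', D', A'', B'', D'', hD, hD', hD'', hA, hA', hA'', h, h0, h1, h2,
      h3, h4, h5 => by
    exfalso
    have h : Ex3.nn b L fuel A B D A' B' D' A'' B'' D''
      (Lo.getD i (Ex3.c ⟨0, 0⟩) - Ex3.c ⟨1, 999999⟩) = true := h
    have h6 := Ex3.nn_closed hD hD' hD'' hA hA' hA'' h h0 h1 h2 h3 h4 h5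
    rw [Ex3.R_sub, Ex3.R_c] at h6
    have h7 : (0 : ℝ) < Fr.R ⟨1, 999999⟩ := by
      unfold Fr.R
      norm_num
    rcases lt_or_ge i Lo.length with hi | hi
    · have e : Lo.getD i (Ex3.c ⟨0, 0⟩) = Lo[i] := by simp [List.getD, hi]
      rw [e] at h6
      have := hLo Lo[i] (List.getElem_mem hi)
      linarith only [h7, h6, this]
    · have e : Lo.getD i (Ex3.c ⟨0, 0⟩) = Ex3.c ⟨0, 0⟩ := by simp [List.getD, hi]
      rw [e, Ex3.R_c] at h6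
      have h8 : Fr.R ⟨0, 0⟩ = 0 := by simp [Fr.R]
      linarith only [h6, h7, h8]
  | .sx l r, A, B, D, A', B', D', A'', B'', D'', hD, hD', hD'', hA, hA', hA'', h, h0, h1, h2,
      h3, h4, h5 => by
    have h : (tchk3 b L fuel F Lo l (2 * A) (A + B) (2 * D) A' B' D' A'' B'' D'' &&
      tchk3 b L fuel F Lo r (A + B) (2 * B) (2 * D) A' B' D' A'' B'' D'') = true := h
    rw [Bool.and_eq_true] at h
    rcases lt_or_ge (((2 * D : ℕ) : ℝ) * x) ((A + B : ℤ) : ℝ) with h6 | h6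
    · exact tchk3_sound hLo l _ _ _ _ _ _ _ _ _ (by omega) hD' hD'' (by omega) hA' hA'' h.1
        (by push_cast at *; linarith only [h0]) h6.le h2 h3 h4 h5
    · exact tchk3_sound hLo r _ _ _ _ _ _ _ _ _ (by omega) hD' hD'' (by omega) hA' hA'' h.2 h6
        (by push_cast at *; linarith only [h1]) h2 h3 h4 h5
  | .sy l r, A, B, D, A', B', D', A'', B'', D'', hD, hD', hD'', hA, hA', hA'', h, h0, h1, h2,
      h3, h4, h5 => by
    have h : (tchk3 b L fuel F Lo l A B D (2 * A') (A' + B') (2 * D') A'' B'' D'' &&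
      tchk3 b L fuel F Lo r A B D (A' + B') (2 * B') (2 * D') A'' B'' D'') = true := h
    rw [Bool.and_eq_true] at h
    rcases lt_or_ge (((2 * D' : ℕ) : ℝ) * y) ((A' + B' : ℤ) : ℝ) with h6 | h6
    · exact tchk3_sound hLo l _ _ _ _ _ _ _ _ _ hD (by omega) hD'' hA (by omega) hA'' h.1 h0 h1
        (by push_cast at *; linarith only [h2]) h6.le h4 h5
    · exact tchk3_sound hLo r _ _ _ _ _ _ _ _ _ hD (by omega) hD'' hA (by omega) hA'' h.2 h0 h1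
        h6 (by push_cast at *; linarith only [h3]) h4 h5
  | .sz l r, A, B, D, A', B', D', A'', B'', D'', hD, hD', hD'', hA, hA', hA'', h, h0, h1, h2,
      h3, h4, h5 => by
    have h : (tchk3 b L fuel F Lo l A B D A' B' D' (2 * A'') (A'' + B'') (2 * D'') &&
      tchk3 b L fuel F Lo r A B D A' B' D' (A'' + B'') (2 * B'') (2 * D'')) = true := h
    rw [Bool.and_eq_true] at h
    rcases lt_or_ge (((2 * D'' : ℕ) : ℝ) * z) ((A'' + B'' : ℤ) : ℝ) with h6 | h6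
    · exact tchk3_sound hLo l _ _ _ _ _ _ _ _ _ hD hD' (by omega) hA hA' (by omega) h.1 h0 h1
        h2 h3 (by push_cast at *; linarith only [h4]) h6.le
    · exact tchk3_sound hLo r _ _ _ _ _ _ _ _ _ hD hD' (by omega) hA hA' (by omega) h.2 h0 h1
        h2 h3 h6 (by push_cast at *; linarith only [h5])

end Vale.Agent.P237.AllN.PolyPos
end

section

/-!
# P237, block D, region `X ≥ 3`, `u ≥ 0`, `z ≤ 1/5`, `l ≥ 1/2`: the kernel-checked inequalities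

Variables: `X = t = z e^{2l}`, `Y = E = e^{-2l}`, `Z = 33/(10 w E)`, `w = m z`; `r = 1/w = (10/33) Y Z`.
-/

namespace Vale.Agent.P237.AllN

open PolyPos

namespace FXu

def z1 : Ex3 := Ex3.X * Ex3.Y
def z2 : Ex3 := z1 * z1
def z3 : Ex3 := z2 * z1
def z4 : Ex3 := z2 * z2
def z5 : Ex3 := z4 * z1
def z6 : Ex3 := z3 * z3
def t2 : Ex3 := Ex3.X * Ex3.X
def t3 : Ex3 := t2 * Ex3.X
def t4 : Ex3 := t2 * t2
def t5 : Ex3 := t4 * Ex3.X
def t6 : Ex3 := t3 * t3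
def E2 : Ex3 := Ex3.Y * Ex3.Y
def E3 : Ex3 := E2 * Ex3.Y
def E4 : Ex3 := E2 * E2
def E5 : Ex3 := E4 * Ex3.Y
def E6 : Ex3 := E3 * E3
def qq : Ex3 := Ex3.c ⟨10, 32⟩ * Ex3.Z
def rr : Ex3 := qq * Ex3.Y
/-- `r (1 + 3 z r)` -/
def R13 : Ex3 := rr * (Ex3.c ⟨1, 0⟩ + Ex3.c ⟨3, 0⟩ * z1 * rr)

def C2 : Ex3 := Ex3.c ⟨3, 99⟩ * (Ex3.c ⟨1, 0⟩ + Ex3.c ⟨3, 0⟩ * z1 * rr) *
    (Ex3.c ⟨1, 0⟩ + z1 + z2 - Ex3.c ⟨3, 0⟩ * rr) - Ex3.c ⟨88, 0⟩ * z6 * (rr * rr)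

def C1 : Ex3 := R13 + Ex3.c ⟨1, 3⟩ * z1 * (rr * rr) +
    Ex3.c ⟨3, 3⟩ * z1 * (Ex3.c ⟨2, 0⟩ * rr + rr * rr * (Ex3.c ⟨10, 0⟩ * z1 - Ex3.c ⟨3, 0⟩)) +
    Ex3.c ⟨5, 7⟩ * z2 * (Ex3.c ⟨3, 0⟩ * rr + rr * rr * (Ex3.c ⟨21, 0⟩ * z1 - Ex3.c ⟨10, 0⟩)) +
    Ex3.c ⟨35, 63⟩ * z3 * (Ex3.c ⟨4, 0⟩ * rr + rr * rr * (Ex3.c ⟨36, 0⟩ * z1 - Ex3.c ⟨21, 0⟩)) +
    Ex3.c ⟨63, 127⟩ * z4 * (Ex3.c ⟨5, 0⟩ * rr + rr * rr * (Ex3.c ⟨55, 0⟩ * z1 - Ex3.c ⟨36, 0⟩)) +
    Ex3.c ⟨231, 511⟩ * z5 * (Ex3.c ⟨6, 0⟩ * rr + rr * rr * (Ex3.c ⟨78, 0⟩ * z1 - Ex3.c ⟨55, 0⟩))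

def br2 : Ex3 := Ex3.c ⟨1, 3⟩ * z1 * (Ex3.c ⟨3, 0⟩ * E2 - Ex3.c ⟨2, 0⟩)
def br3 : Ex3 := Ex3.c ⟨1, 5⟩ * z2 * (Ex3.c ⟨5, 0⟩ * E3 - Ex3.c ⟨4, 0⟩)
def br4 : Ex3 := Ex3.c ⟨1, 7⟩ * z3 * (Ex3.c ⟨7, 0⟩ * E4 - Ex3.c ⟨6, 0⟩)
def br5 : Ex3 := Ex3.c ⟨1, 9⟩ * z4 * (Ex3.c ⟨9, 0⟩ * E5 - Ex3.c ⟨8, 0⟩)
def br6 : Ex3 := Ex3.c ⟨1, 11⟩ * z5 * (Ex3.c ⟨11, 0⟩ * E6 - Ex3.c ⟨10, 0⟩)

def C0 : Ex3 := R13 * (Ex3.Y - Ex3.c ⟨1, 0⟩) -
    rr * rr * (Ex3.X - z1) * (Ex3.c ⟨1, 0⟩ + Ex3.c ⟨91, 99⟩ * z1) +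
    Ex3.c ⟨3, 3⟩ * (rr * br2 - Ex3.c ⟨1, 3⟩ * qq * Ex3.X + rr * rr * (Ex3.c ⟨5, 0⟩ * (z1 * br2 - Ex3.c ⟨1, 3⟩ * t2) -
      Ex3.c ⟨3, 1⟩ * z1 * (E2 - Ex3.c ⟨1, 0⟩))) +
    Ex3.c ⟨5, 7⟩ * (rr * br3 - Ex3.c ⟨1, 5⟩ * qq * t2 + rr * rr * (Ex3.c ⟨7, 0⟩ * (z1 * br3 - Ex3.c ⟨1, 5⟩ * t3) -
      Ex3.c ⟨10, 2⟩ * z2 * (E3 - Ex3.c ⟨1, 0⟩))) +
    Ex3.c ⟨35, 63⟩ * (rr * br4 - Ex3.c ⟨1, 7⟩ * qq * t3 + rr * rr * (Ex3.c ⟨9, 0⟩ * (z1 * br4 - Ex3.c ⟨1, 7⟩ * t4) -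
      Ex3.c ⟨21, 3⟩ * z3 * (E4 - Ex3.c ⟨1, 0⟩))) +
    Ex3.c ⟨63, 127⟩ * (rr * br5 - Ex3.c ⟨1, 9⟩ * qq * t4 + rr * rr * (Ex3.c ⟨11, 0⟩ * (z1 * br5 - Ex3.c ⟨1, 9⟩ * t5) -
      Ex3.c ⟨36, 4⟩ * z4 * (E5 - Ex3.c ⟨1, 0⟩))) +
    Ex3.c ⟨231, 511⟩ * (rr * br6 - Ex3.c ⟨1, 11⟩ * qq * t5 + rr * rr * (Ex3.c ⟨13, 0⟩ * (z1 * br6 - Ex3.c ⟨1, 11⟩ * t6) -
      Ex3.c ⟨55, 5⟩ * z5 * (E6 - Ex3.c ⟨1, 0⟩)))

def Ub : Ex3 := Ex3.c ⟨1, 0⟩ + Ex3.c ⟨1, 1⟩ * z1 + Ex3.c ⟨23, 49⟩ * z2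
def K2 : Ex3 := Ex3.c ⟨13, 19⟩ + Ex3.c ⟨11, 9⟩ * z1
def NE : Ex3 := (Ex3.c ⟨1, 0⟩ - Ex3.Y) * (Ex3.c ⟨11, 0⟩ + Ex3.c ⟨38, 0⟩ * Ex3.Y + Ex3.c ⟨11, 0⟩ * E2)
def DE : Ex3 := Ex3.c ⟨3, 0⟩ * (Ex3.c ⟨1, 0⟩ + Ex3.Y) * (Ex3.c ⟨1, 0⟩ + Ex3.c ⟨8, 0⟩ * Ex3.Y + E2)
/-- tail bound: `r u ≤ rU` -/
def rU : Ex3 := Ex3.c ⟨25, 33⟩ * (Ex3.c ⟨1, 0⟩ - Ex3.X) * (Ex3.c ⟨1, 0⟩ + (Ex3.c ⟨1, 0⟩ + z1) * rr) - rr
def bU : Ex3 := Ex3.c ⟨3, 24⟩ * (R13 * Ub)
def bT : Ex3 := Ex3.c ⟨3, 24⟩ * ((Ex3.c ⟨1, 0⟩ + Ex3.c ⟨3, 0⟩ * z1 * rr) * rU)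

/-- linear coefficient: `T`-inequality -/
def G1 (b : Ex3) : Ex3 := C1 - b
/-- constant coefficient: `T`-inequality -/
def G0 (τ : Fr) : Ex3 := C0 - rr * rr * K2 - Ex3.c τ * rr
/-- linear coefficient: `P`-inequality -/
def H1 (b : Ex3) : Ex3 := C1 - R13 - b - Ex3.c ⟨3, 4⟩ * z1 * (rr * rr)
/-- constant coefficient: `P`-inequality -/
def H0 (p : Fr) : Ex3 := C0 - R13 * (Ex3.Y - Ex3.c ⟨1, 0⟩) -
  rr * rr * (Ex3.c ⟨3, 49⟩ + Ex3.c ⟨18, 4⟩ * z1) + Ex3.c p * rr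
def hom (c1 c0 : Ex3) : Ex3 := C2 * (NE * NE) + c1 * (NE * DE) + c0 * (DE * DE)
def mono (c1 : Ex3) : Ex3 := c1 + Ex3.c ⟨19, 9⟩ * C2

def out1 : Ex3 := z1 - Ex3.c ⟨1, 4⟩
def out2 : Ex3 := Ex3.c ⟨0, 0⟩ - rU

theorem chk_a : tchk3 (2 ^ 1024) 40 4000 [[hom (G1 bU) (G0 ⟨1, 3⟩), hom (H1 bU) (H0 ⟨47, 99⟩)]] [out1]
    (.sy (.leaf 0) (.sx (.leaf 0) (.sx (.leaf 0) (.sz (.leaf 0) (.sy (.leaf 0) (.sz (.leaf 0) (.sx (.sy (.leaf 0) (.sx (.leaf 0) (.sz (.leaf 0) (.sx (.leaf 0) (.sy (.leaf 0) (.out 0)))))) (.sy (.sz (.leaf 0) (.sx (.leaf 0) (.sy (.leaf 0) (.sx (.sy (.leaf 0) (.out 0)) (.out 0))))) (.sx (.sy (.sx (.leaf 0) (.out 0)) (.out 0)) (.out 0))))))))))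
    0 17 20 0 3 10 0 1 1 = true := by
  decide +kernel

theorem chk_b : tchk3 (2 ^ 1024) 40 4000 [[hom (G1 bU) (G0 ⟨3, 19⟩), hom (H1 bU) (H0 ⟨27, 99⟩)]] [out1]
    (.sx (.leaf 0) (.sz (.leaf 0) (.sx (.sy (.leaf 0) (.sx (.leaf 0) (.sx (.leaf 0) (.sx (.leaf 0) (.out 0))))) (.sx (.sy (.sx (.sy (.leaf 0) (.out 0)) (.out 0)) (.out 0)) (.out 0)))))
    0 17 20 300 368 1000 0 1 1 = true := by
  decide +kernel

theorem chk_c : tchk3 (2 ^ 1024) 40 4000 [[hom (G1 bT) (G0 ⟨1, 3⟩), hom (H1 bT) (H0 ⟨47, 99⟩)]] [out1, out2]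
    (.sy (.leaf 0) (.sz (.leaf 0) (.sz (.leaf 0) (.sy (.sz (.leaf 0) (.sx (.leaf 0) (.sx (.leaf 0) (.out 1)))) (.sx (.sy (.sy (.leaf 0) (.out 0)) (.out 0)) (.out 0))))))
    17 20 20 0 3 10 0 1 1 = true := by
  decide +kernel

theorem chk_m : tchk3 (2 ^ 1024) 40 4000 [[C2, mono (G1 bU), mono (H1 bU)]] [out1]
    (.leaf 0)
    0 1 1 0 46 125 0 1 1 = true := by
  decide +kernel

theorem chk_mb : tchk3 (2 ^ 1024) 40 4000 [[C2, mono (G1 bT), mono (H1 bT)]] [out1]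
    (.leaf 0)
    17 20 20 0 3 10 0 1 1 = true := by
  decide +kernel

end FXu

end Vale.Agent.P237.AllN
end
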