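import Vale.Agent.P237.Bd3.B4
import Vale.Agent.P237.Bd3.B1
import Vale.Agent.P237.Bd3.B6
import Vale.Agent.P237.Bd3.B2
import Vale.Agent.P237.Bd3.B3

set_option linter.all false

section

/-!
# P237, plain certificate: kernel checks for `m = 5`
-/

namespace Vale.Agent.P237.AllN

open PolyPos

/-- data of the certificate, `m = 5` -/
def D5 : Dat := ⟨⟨5, ⟨269, 199⟩, ⟨667, 1999⟩, ⟨411, 999⟩, ⟨127, 199⟩, ⟨53, 399⟩, ⟨1, 4⟩, ⟨13, 399⟩, ⟨1, 999⟩, ⟨1, 999⟩⟩,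
  ⟨849, 999⟩, ⟨257, 4999⟩, ⟨27, 249⟩, ⟨613, 499⟩, ⟨423, 999⟩, ⟨237, 999⟩, ⟨397, 9999⟩, ⟨1927, 2499⟩, 2, 655, 1124, 756, 849, 2 ^ 1024, 40⟩

theorem chk5_LP :
    D5.kLP (.sx (.leaf 0) (.leaf 0)) = true := by
  decide +kernel

theorem chk5_LM :
    D5.kLM (.sx (.leaf 0) (.sy (.leaf 0) (.sx (.leaf 0) (.sy (.leaf 0) (.sx (.leaf 0) (.sy
    (.leaf 0) .out)))))) = true := by
  decide +kernel

theorem chk5_RMT0 :
    D5.kRM D5.rbT 5 0 664 250 1000 (.leaf 0) = true := by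
  decide +kernel

theorem chk5_RMT1 :
    D5.kRM D5.rbT 4 664 756 250 1000 (.sx (.leaf 0) (.sy (.sx (.leaf 0) (.sy (.sx (.leaf 0)
    (.sy (.sx (.sy .out (.leaf 0)) (.sy .out (.leaf 0))) (.leaf 0))) (.leaf 0))) (.leaf 0)))
    = true := by
  decide +kernel

theorem chk5_RMt0 :
    D5.kRM D5.rbG 5 0 664 6 250 (.leaf 0) = true := by
  decide +kernel

theorem chk5_RMt1 :
    D5.kRM D5.rbG 4 664 756 6 250 (.sx (.sy .out (.leaf 0)) .out) = true := by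
  decide +kernel

theorem chk5_RMc0 :
    D5.kRM D5.rbC 5 0 664 0 6 (.leaf 0) = true := by
  decide +kernel

theorem chk5_RMc1 :
    D5.kRM D5.rbC 4 664 756 0 6 (.leaf 0) = true := by
  decide +kernel

theorem chk5_RP1 :
    D5.kRP1 (.sx (.leaf 1) (.sy (.sx (.leaf 1) (.sy (.sx (.leaf 1) .out) (.sx (.leaf 1) (.sy
    (.sx (.leaf 1) (.sy (.sx (.leaf 1) .out) (.leaf 0))) (.leaf 0))))) (.leaf 0))) = true := by
  decide +kernel

theorem chk5_RP2 :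
    D5.kRP2 (.sx (.sy .out (.leaf 0)) .out) = true := by
  decide +kernel

theorem chk5_RS :
    D5.kRS (.leaf 1) = true := by
  decide +kernel

end Vale.Agent.P237.AllN
end

section

/-!
# P237, plain certificate: kernel checks for `m = 14`
-/

namespace Vale.Agent.P237.AllN

open PolyPos

/-- data of the certificate, `m = 14` -/
def D14 : Dat := ⟨⟨14, ⟨3, 4⟩, ⟨1, 3⟩, ⟨1, 1⟩, ⟨6, 4⟩, ⟨13, 99⟩, ⟨33, 99⟩, ⟨9, 2499⟩, ⟨1, 999⟩, ⟨1, 999⟩⟩,
  ⟨1467, 999⟩, ⟨113, 1999⟩, ⟨1, 9⟩, ⟨1041, 999⟩, ⟨653, 999⟩, ⟨81, 199⟩, ⟨269, 4999⟩, ⟨2439, 2499⟩, 7, 434, 1628, 902, 1467, 2 ^ 1024, 40⟩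

theorem chk14_LP :
    D14.kLP (.leaf 0) = true := by
  decide +kernel

theorem chk14_LM :
    D14.kLM (.sx (.leaf 0) (.sy (.leaf 0) (.sx (.sy (.leaf 0) (.sx (.leaf 0) .out)) (.sy
    (.leaf 0) .out)))) = true := by
  decide +kernel

theorem chk14_RMT0 :
    D14.kRM D14.rbT 14 0 902 250 1000 (.sx (.leaf 0) (.leaf 0)) = true := by
  decide +kernel

theorem chk14_RMt0 :
    D14.kRM D14.rbG 14 0 902 6 250 (.sx (.leaf 0) (.leaf 0)) = true := by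
  decide +kernel

theorem chk14_RMc0 :
    D14.kRM D14.rbC 14 0 902 0 6 (.sx (.leaf 0) (.leaf 0)) = true := by
  decide +kernel

theorem chk14_RP1 :
    D14.kRP1 (.sx (.leaf 0) (.sy (.sx (.leaf 0) (.sy (.sx (.leaf 0) (.sy .out (.leaf 0)))
    (.leaf 0))) (.leaf 0))) = true := by
  decide +kernel

theorem chk14_RP2 :
    D14.kRP2 (.sx (.sy (.sx (.sy .out (.leaf 0)) .out) (.leaf 0)) (.sy .out (.sx (.leaf 0)
    .out))) = true := by
  decide +kernel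

theorem chk14_RS :
    D14.kRS (.leaf 1) = true := by
  decide +kernel

end Vale.Agent.P237.AllN
end

section

/-!
# P237, all dimensions: comparison with truncated linear profiles

Under the constraint `N ≤ N_B` the position `τ = τ(x)` is not further out than for some profile
which is linear on `[0, κ]`, `κ ≤ 1`, and `0` on `(κ, 1]`.
-/

open MeasureTheory Metric Set Module Filter Topology

namespace Vale.Agent.P237.AllN

/-- `1 + ω + ... + ω^(n-1)` -/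
noncomputable def geo (n : ℕ) (ω : ℝ) : ℝ := ∑ j ∈ Finset.range n, ω ^ j

theorem geo_mul (n : ℕ) (ω : ℝ) : geo n ω * (1 - ω) = 1 - ω ^ n := by
  unfold geo
  rw [mul_comm]
  exact mul_neg_geom_sum ω n

theorem geo_one (n : ℕ) : geo n 1 = n := by
  simp only [geo, one_pow, Finset.sum_const, Finset.card_range, nsmul_eq_mul, mul_one]

theorem geo_pos {n : ℕ} (hn : 0 < n) {ω : ℝ} (h : 0 ≤ ω) : 0 < geo n ω := by
  unfold geo
  obtain ⟨k, rfl⟩ : ∃ k, n = k + 1 := ⟨n - 1, by omega⟩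
  rw [Finset.sum_range_succ']
  have : 0 ≤ ∑ j ∈ Finset.range k, ω ^ (j + 1) := Finset.sum_nonneg fun j _ => pow_nonneg h _
  simp only [pow_zero, gt_iff_lt]
  (clear * - this; linarith)

theorem geo_mono (n : ℕ) {a b : ℝ} (h : 0 ≤ a) (hab : a ≤ b) : geo n a ≤ geo n b :=
  Finset.sum_le_sum fun j _ => pow_le_pow_left₀ h hab j

theorem geo_cont (n : ℕ) : Continuous (geo n) := by
  unfold geo
  (clear * -; fun_prop)

/-- integral of a power of an affine function -/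
theorem tr_lin_int (n : ℕ) {L : ℝ} (hL : 0 < L) (ω : ℝ) :
    ∫ y in (0 : ℝ)..L, (1 - (1 - ω) * (y / L)) ^ n = L * geo (n + 1) ω / ((n : ℝ) + 1) := by
  have hn : (n : ℝ) + 1 ≠ 0 := by (clear * -; positivity)
  rcases eq_or_ne ω 1 with h | h
  · subst h
    simp only [sub_self, zero_mul, sub_zero, one_pow, intervalIntegral.integral_const, smul_eq_mul,
      mul_one]
    rw [geo_one]
    push_cast
    field_simp
  · have h1 : (1 : ℝ) - ω ≠ 0 := sub_ne_zero.2 h.symm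
    have h2 : ∫ y in (0 : ℝ)..L, (1 - (1 - ω) * (y / L)) ^ n =
        -(L / ((1 - ω) * ((n : ℝ) + 1))) * (1 - (1 - ω) * (L / L)) ^ (n + 1) -
        -(L / ((1 - ω) * ((n : ℝ) + 1))) * (1 - (1 - ω) * (0 / L)) ^ (n + 1) := by
      apply intervalIntegral.integral_eq_sub_of_hasDerivAt
        (f := fun y => -(L / ((1 - ω) * ((n : ℝ) + 1))) * (1 - (1 - ω) * (y / L)) ^ (n + 1))
      · intro y _
        have h3 : HasDerivAt (fun y : ℝ => 1 - (1 - ω) * (y / L)) (-((1 - ω) * (1 / L))) y :=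
          (((hasDerivAt_id y).div_const L).const_mul (1 - ω)).const_sub 1
        have h4 := (h3.pow (n + 1)).const_mul (-(L / ((1 - ω) * ((n : ℝ) + 1))))
        refine HasDerivAt.congr_deriv h4 ?_
        push_cast
        field_simp
      · exact (by fun_prop : Continuous fun y : ℝ =>
          (1 - (1 - ω) * (y / L)) ^ n).intervalIntegrable _ _
    rw [h2, div_self hL.ne', zero_div]
    have h5 := geo_mul (n + 1) ω
    have h6 : geo (n + 1) ω = (1 - ω ^ (n + 1)) / (1 - ω) := by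
      rw [eq_div_iff h1, h5]
    rw [h6]
    have h7 : (1 - (1 - ω) * 1) = ω := by ring
    rw [h7, mul_zero, sub_zero, one_pow]
    field_simp
    ring

theorem tr_amgm (n : ℕ) {a b : ℝ} (ha : 0 ≤ a) (hb : 0 ≤ b) :
    ((n : ℝ) + 1) * (a ^ n * b) ≤ n * a ^ (n + 1) + b ^ (n + 1) := by
  induction n with
  | zero => simp
  | succ n ih =>
    have h1 := mul_le_mul_of_nonneg_right ih hb
    have h2 : 0 ≤ ((n : ℝ) + 1) * (a ^ n * (b - a) ^ 2) := by (clear * - ha; positivity)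
    have e1 : (((n : ℝ) + 1) * (a ^ n * b)) * b = ((n : ℝ) + 1) * (a ^ n * b ^ 2) := by ring
    have e2 : (n * a ^ (n + 1) + b ^ (n + 1)) * b = n * (a ^ (n + 1) * b) + b ^ (n + 2) := by ring
    have e3 : ((n : ℝ) + 1) * (a ^ n * (b - a) ^ 2) = ((n : ℝ) + 1) * (a ^ n * b ^ 2) -
        2 * (((n : ℝ) + 1) * (a ^ (n + 1) * b)) + ((n : ℝ) + 1) * a ^ (n + 2) := by ring
    push_cast
    have e4 : ((n : ℝ) + 1 + 1) * (a ^ (n + 1) * b) =
        2 * (((n : ℝ) + 1) * (a ^ (n + 1) * b)) - n * (a ^ (n + 1) * b) := by ring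
    rw [e4]
    have e5 : n + 1 + 1 = n + 2 := rfl
    rw [e5]
    linarith only [e3, e2, h2, h1]

/-- the affine function through `(0, a)` and `(τ, ρ)` -/
noncomputable def trR (a ρ τ y : ℝ) : ℝ := a + (ρ - a) * (y / τ)

theorem trR_zero (a ρ τ : ℝ) : trR a ρ τ 0 = a := by simp [trR]

theorem trR_tau {a ρ τ : ℝ} (hτ : 0 < τ) : trR a ρ τ τ = ρ := by
  unfold trR
  rw [div_self hτ.ne']
  ring

theorem trR_cont (a ρ τ : ℝ) : Continuous (trR a ρ τ) := by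
  unfold trR
  fun_prop

theorem trR_anti {a ρ τ : ℝ} (hτ : 0 < τ) (h : ρ ≤ a) : Antitone (trR a ρ τ) := by
  intro x y hxy
  unfold trR
  have h1 : x / τ ≤ y / τ := div_le_div_of_nonneg_right hxy hτ.le
  linarith only [mul_nonneg (sub_nonneg.2 h) (sub_nonneg.2 h1)]

theorem trR_int (n : ℕ) {a ρ τ : ℝ} (ha : 0 < a) {L : ℝ} (hL : 0 < L) :
    ∫ y in (0 : ℝ)..L, trR a ρ τ y ^ n =
      a ^ n * (L * geo (n + 1) (trR a ρ τ L / a) / ((n : ℝ) + 1)) := by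
  rw [← tr_lin_int n hL, ← intervalIntegral.integral_const_mul]
  congr 1
  funext y
  rw [← mul_pow]
  congr 1
  unfold trR
  field_simp
  ring

/-- existence of the linear function with the same mass on `[0, τ]` -/
theorem tr_exists (n : ℕ) {r : ℝ → ℝ} (hr : IsProf r) {τ : ℝ} (hτ : τ ∈ Ioo (0 : ℝ) 1) :
    ∃ a, r τ ≤ a ∧ ∫ y in (0 : ℝ)..τ, trR a (r τ) τ y ^ (n + 1) =
      ∫ y in (0 : ℝ)..τ, r y ^ (n + 1) := by
  have hρ : 0 < r τ := hr.pos τ ⟨by linarith only [hτ.1], hτ.2⟩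
  have hr0 : 0 < r 0 := hr.pos 0 ⟨by norm_num, by norm_num⟩
  set ρ := r τ with hρd
  set Φ : ℝ → ℝ := fun a => a ^ (n + 1) * (τ * geo (n + 1 + 1) (ρ / a) / (((n + 1 : ℕ) : ℝ) + 1))
    with hΦ
  have hI : ∀ a, ρ ≤ a → ∫ y in (0 : ℝ)..τ, trR a ρ τ y ^ (n + 1) = Φ a := by
    intro a ha
    rw [trR_int (n + 1) (hρ.trans_le ha) hτ.1, trR_tau hτ.1]
  set b : ℝ := ρ + ((n : ℝ) + 2) * r 0 with hb
  have hρb : ρ ≤ b := by
    have : 0 ≤ ((n : ℝ) + 2) * r 0 := by (clear * - hr0; positivity)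
    linarith only [this]
  have hcont : ContinuousOn Φ (Icc ρ b) := by
    intro a ha
    have ha0 : a ≠ 0 := (hρ.trans_le ha.1).ne'
    apply ContinuousAt.continuousWithinAt
    have h1 : ContinuousAt (fun a : ℝ => ρ / a) a := continuousAt_const.div continuousAt_id ha0
    have h2 : ContinuousAt (fun a : ℝ => geo (n + 1 + 1) (ρ / a)) a :=
      (geo_cont _).continuousAt.comp h1
    exact (continuousAt_id.pow _).mul ((continuousAt_const.mul h2).div_const _)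
  have h01 : (0 : ℝ) ∈ Icc (0 : ℝ) 1 := ⟨le_rfl, zero_le_one⟩
  have hτ1 : τ ∈ Icc (0 : ℝ) 1 := ⟨hτ.1.le, hτ.2.le⟩
  have hlo : Φ ρ ≤ ∫ y in (0 : ℝ)..τ, r y ^ (n + 1) := by
    rw [← hI ρ le_rfl]
    apply intervalIntegral.integral_mono_on hτ.1.le
      (((trR_cont ρ ρ τ).pow (n + 1)).intervalIntegrable _ _) (Alm.prof_pow_ii hr _ h01 hτ1)
    intro y hy
    have h1 : trR ρ ρ τ y = ρ := by simp [trR]
    change trR ρ ρ τ y ^ (n + 1) ≤ r y ^ (n + 1)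
    rw [h1]
    exact pow_le_pow_left₀ hρ.le (Alm.prof_anti hr ⟨hy.1, hy.2.trans hτ.2.le⟩ hτ1 hy.2) _
  have hhi : ∫ y in (0 : ℝ)..τ, r y ^ (n + 1) ≤ Φ b := by
    have h1 : ∫ y in (0 : ℝ)..τ, r y ^ (n + 1) ≤ τ * r 0 ^ (n + 1) := by
      have h2 : ∫ y in (0 : ℝ)..τ, r y ^ (n + 1) ≤ ∫ y in (0 : ℝ)..τ, r 0 ^ (n + 1) := by
        apply intervalIntegral.integral_mono_on hτ.1.le (Alm.prof_pow_ii hr _ h01 hτ1)
          (continuous_const.intervalIntegrable _ _)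
        intro y hy
        have hy1 : y ∈ Icc (0 : ℝ) 1 := ⟨hy.1, hy.2.trans hτ.2.le⟩
        exact pow_le_pow_left₀ (Alm.prof_nn hr hy1) (Alm.prof_le_zero hr hy1) _
      simpa only [ge_iff_le, intervalIntegral.integral_const, sub_zero, smul_eq_mul] using h2
    refine h1.trans ?_
    have hb0 : 0 < b := hρ.trans_le hρb
    have h3 : 1 ≤ geo (n + 1 + 1) (ρ / b) := by
      unfold geo
      rw [Finset.sum_range_succ']
      have : 0 ≤ ∑ j ∈ Finset.range (n + 1), (ρ / b) ^ (j + 1) :=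
        Finset.sum_nonneg fun j _ => by (clear * - hρ hr0; positivity)
      simp
      linarith only [this]
    have h4 : (((n : ℝ) + 2) * r 0) ^ (n + 1) ≤ b ^ (n + 1) :=
      pow_le_pow_left₀ (by (clear * - hr0; positivity)) (by linarith only [hρ]) _
    have h5 : ((n : ℝ) + 2) * r 0 ^ (n + 1) ≤ (((n : ℝ) + 2) * r 0) ^ (n + 1) := by
      rw [mul_pow]
      apply mul_le_mul_of_nonneg_right _ (by positivity)
      calc (n : ℝ) + 2 = ((n : ℝ) + 2) ^ 1 := (pow_one _).symm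
        _ ≤ ((n : ℝ) + 2) ^ (n + 1) := pow_le_pow_right₀ (by linarith only [])
          (by omega)
    have hn2 : (((n + 1 : ℕ) : ℝ) + 1) = (n : ℝ) + 2 := by push_cast; ring
    rw [hΦ]
    simp only
    rw [hn2, mul_div_assoc', le_div_iff₀ (by (clear * -; positivity))]
    have h6 : τ * b ^ (n + 1) ≤ b ^ (n + 1) * (τ * geo (n + 1 + 1) (ρ / b)) := by
      have : τ * b ^ (n + 1) * 1 ≤ τ * b ^ (n + 1) * geo (n + 1 + 1) (ρ / b) :=
        mul_le_mul_of_nonneg_left h3 (mul_nonneg hτ.1.le (by (clear * - hρ hr0; positivity)))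
      linarith only [this]
    have h7 : τ * (((n : ℝ) + 2) * r 0 ^ (n + 1)) ≤ τ * b ^ (n + 1) :=
      mul_le_mul_of_nonneg_left (h5.trans h4) hτ.1.le
    linarith only [h7, h6]
  obtain ⟨a, ha, hae⟩ := intermediate_value_Icc hρb hcont ⟨hlo, hhi⟩
  exact ⟨a, ha.1, by rw [hI a ha.1, hae]⟩

section
variable {r : ℝ → ℝ} (hr : IsProf r) {τ a : ℝ} (hτ : τ ∈ Ioo (0 : ℝ) 1)
include hr hτ

/-- three points: `(y₂ - y₁) (r - R)(y) ≥ (y₂ - y) (r - R)(y₁) + (y - y₁) (r - R)(y₂)` -/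
theorem tr_conc {y₁ y y₂ : ℝ} (h0 : 0 ≤ y₁) (h1 : y₁ ≤ y) (h2 : y ≤ y₂) (h3 : y₂ ≤ 1)
    (h12 : y₁ < y₂) :
    (y₂ - y) * (r y₁ - trR a (r τ) τ y₁) + (y - y₁) * (r y₂ - trR a (r τ) τ y₂) ≤
      (y₂ - y₁) * (r y - trR a (r τ) τ y) := by
  have hd : 0 < y₂ - y₁ := sub_pos.2 h12
  have ma : y₁ ∈ Icc (-1 : ℝ) 1 := ⟨by linarith only [h0], by linarith⟩
  have mb : y₂ ∈ Icc (-1 : ℝ) 1 := ⟨by linarith only [h0, h12], h3⟩
  have ca : 0 ≤ (y₂ - y) / (y₂ - y₁) := div_nonneg (by linarith only [h2]) hd.le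
  have cb : 0 ≤ (y - y₁) / (y₂ - y₁) := div_nonneg (by linarith only [h1]) hd.le
  have cab : (y₂ - y) / (y₂ - y₁) + (y - y₁) / (y₂ - y₁) = 1 := by
    rw [← add_div, div_eq_one_iff_eq hd.ne']
    ring
  have hc := hr.conc.2 ma mb ca cb cab
  simp only [smul_eq_mul] at hc
  have e : (y₂ - y) / (y₂ - y₁) * y₁ + (y - y₁) / (y₂ - y₁) * y₂ = y := by
    field_simp
    ring
  rw [e] at hc
  have hc2 := mul_le_mul_of_nonneg_left hc hd.le
  have e2 : (y₂ - y₁) * ((y₂ - y) / (y₂ - y₁) * r y₁ + (y - y₁) / (y₂ - y₁) * r y₂) =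
      (y₂ - y) * r y₁ + (y - y₁) * r y₂ := by
    (clear * - hd; field_simp)
  rw [e2] at hc2
  have hτ0 := hτ.1.ne'
  have e3 : (y₂ - y) * trR a (r τ) τ y₁ + (y - y₁) * trR a (r τ) τ y₂ =
      (y₂ - y₁) * trR a (r τ) τ y := by
    unfold trR
    field_simp
    ring
  linarith only [hc2, e3]

/-- the profile is below the linear function on `[τ, 1]` -/
theorem tr_right (n : ℕ)
    (hI : ∫ y in (0 : ℝ)..τ, trR a (r τ) τ y ^ (n + 1) = ∫ y in (0 : ℝ)..τ, r y ^ (n + 1)) :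
    ∀ y ∈ Icc τ 1, r y ≤ trR a (r τ) τ y := by
  intro y₁ hy
  by_contra hlt
  push Not at hlt
  have hτy : τ < y₁ := by
    rcases eq_or_lt_of_le hy.1 with h | h
    · rw [← h, trR_tau hτ.1] at hlt
      exact absurd hlt (lt_irrefl _)
    · exact h
  have h1 : ∀ y ∈ Ico (0 : ℝ) τ, r y < trR a (r τ) τ y := by
    intro y hy2
    have h2 := tr_conc hr hτ (a := a) hy2.1 hy2.2.le hτy.le hy.2 (hy2.2.trans hτy)
    rw [trR_tau hτ.1, sub_self, mul_zero] at h2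
    have h3 : 0 < (τ - y) * (r y₁ - trR a (r τ) τ y₁) :=
      mul_pos (by linarith only [hy2.2]) (by linarith only [hlt])
    by_contra h4
    push Not at h4
    have h5 : 0 ≤ (y₁ - τ) * (r y - trR a (r τ) τ y) :=
      mul_nonneg (by linarith only [hτy]) (by linarith)
    linarith only [h2, h3, h5]
  have hrc : ContinuousOn r (Icc 0 τ) :=
    (Alm.prof_cont hr).mono fun y hy => ⟨by linarith only [hy.1], hy.2.trans_lt hτ.2⟩
  have h2 : ∫ y in (0 : ℝ)..τ, r y ^ (n + 1) < ∫ y in (0 : ℝ)..τ, trR a (r τ) τ y ^ (n + 1) := by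
    apply intervalIntegral.integral_lt_integral_of_continuousOn_of_le_of_exists_lt hτ.1
      (hrc.pow _) ((trR_cont a (r τ) τ).pow _).continuousOn
    · intro y hy2
      have h01 : y ∈ Icc (0 : ℝ) 1 := ⟨hy2.1.le, hy2.2.trans hτ.2.le⟩
      rcases eq_or_lt_of_le hy2.2 with h | h
      · rw [h]
        change r τ ^ (n + 1) ≤ trR a (r τ) τ τ ^ (n + 1)
        rw [trR_tau hτ.1]
      · exact pow_le_pow_left₀ (Alm.prof_nn hr h01) (h1 y ⟨hy2.1.le, h⟩).le _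
    · refine ⟨0, ⟨le_rfl, hτ.1.le⟩, ?_⟩
      exact pow_lt_pow_left₀ (h1 0 ⟨le_rfl, hτ.1⟩)
        (Alm.prof_nn hr ⟨le_rfl, zero_le_one⟩) (by omega)
  linarith only [hI, h2]

/-- single crossing on `[0, τ]` -/
theorem tr_cross : ∃ c, 0 < c ∧ ∀ y ∈ Icc (0 : ℝ) τ,
    (c ≤ r y ∧ r y ≤ trR a (r τ) τ y) ∨ (trR a (r τ) τ y ≤ r y ∧ r y ≤ c) := by
  set S : Set ℝ := {y | y ∈ Icc (0 : ℝ) τ ∧ trR a (r τ) τ y ≤ r y} with hS
  have hrc : ContinuousOn r (Icc 0 τ) :=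
    (Alm.prof_cont hr).mono fun y hy => ⟨by linarith only [hy.1], hy.2.trans_lt hτ.2⟩
  have hcl : IsClosed S := by
    have h1 : S = Icc (0 : ℝ) τ ∩ (fun y => r y - trR a (r τ) τ y) ⁻¹' (Ici 0) := by
      ext y
      simp only [hS, mem_ofPred_eq, mem_inter_iff, mem_preimage, mem_Ici, sub_nonneg]
    rw [h1]
    exact (hrc.sub (trR_cont a (r τ) τ).continuousOn).preimage_isClosed_of_isClosed
      isClosed_Icc isClosed_Ici
  have hne : S.Nonempty := ⟨τ, ⟨hτ.1.le, le_rfl⟩, by rw [trR_tau hτ.1]⟩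
  have hbd : BddBelow S := ⟨0, fun y hy => hy.1.1⟩
  set ξ := sInf S with hξ
  have hξS : ξ ∈ S := hcl.csInf_mem hne hbd
  have hξ1 : ξ ∈ Icc (0 : ℝ) 1 := ⟨hξS.1.1, hξS.1.2.trans hτ.2.le⟩
  refine ⟨r ξ, hr.pos ξ ⟨by linarith only [hξS.1.1], hξS.1.2.trans_lt hτ.2⟩, ?_⟩
  intro y hy
  have hy1 : y ∈ Icc (0 : ℝ) 1 := ⟨hy.1, hy.2.trans hτ.2.le⟩
  rcases lt_or_ge y ξ with h | h
  · left
    refine ⟨Alm.prof_anti hr hy1 hξ1 h.le, ?_⟩
    by_contra h2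
    push Not at h2
    exact absurd (csInf_le hbd (show y ∈ S from ⟨hy, h2.le⟩)) (not_le.2 h)
  · right
    refine ⟨?_, Alm.prof_anti hr hξ1 hy1 h⟩
    rcases eq_or_lt_of_le h with h2 | h2
    · rw [← h2]; exact hξS.2
    rcases eq_or_lt_of_le hy.2 with h3 | h3
    · rw [h3, trR_tau hτ.1]
    have h4 := tr_conc hr hτ (a := a) hξS.1.1 h hy.2 hτ.2.le (h2.trans h3)
    rw [trR_tau hτ.1, sub_self, mul_zero, add_zero] at h4
    have h5 : 0 ≤ (τ - y) * (r ξ - trR a (r τ) τ ξ) :=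
      mul_nonneg (by linarith only [h3]) (sub_nonneg.2 hξS.2)
    have h6 : 0 ≤ (τ - ξ) * (r y - trR a (r τ) τ y) := h5.trans h4
    have h7 : 0 ≤ r y - trR a (r τ) τ y := nonneg_of_mul_nonneg_right h6 (by linarith only [h2, h3])
    linarith only [h7]

/-- comparison of the lower moment on `[0, τ]` -/
theorem tr_left_moment (n : ℕ) (ha : r τ ≤ a)
    (hI : ∫ y in (0 : ℝ)..τ, trR a (r τ) τ y ^ (n + 1) = ∫ y in (0 : ℝ)..τ, r y ^ (n + 1)) :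
    ∫ y in (0 : ℝ)..τ, trR a (r τ) τ y ^ n ≤ ∫ y in (0 : ℝ)..τ, r y ^ n := by
  obtain ⟨c, hc, hcr⟩ := tr_cross hr hτ (a := a)
  have h01 : (0 : ℝ) ∈ Icc (0 : ℝ) 1 := ⟨le_rfl, zero_le_one⟩
  have hτ1 : τ ∈ Icc (0 : ℝ) 1 := ⟨hτ.1.le, hτ.2.le⟩
  have hρ : 0 < r τ := hr.pos τ ⟨by linarith only [hτ.1], hτ.2⟩
  have hpt : ∀ y ∈ Icc (0 : ℝ) τ,
      ((n : ℝ) + 1) * c * trR a (r τ) τ y ^ n - n * trR a (r τ) τ y ^ (n + 1) ≤
      ((n : ℝ) + 1) * c * r y ^ n - n * r y ^ (n + 1) := by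
    intro y hy
    have hy1 : y ∈ Icc (0 : ℝ) 1 := ⟨hy.1, hy.2.trans hτ.2.le⟩
    have hu : 0 ≤ r y := Alm.prof_nn hr hy1
    have hv : 0 ≤ trR a (r τ) τ y := by
      have := trR_anti hτ.1 ha hy.2
      rw [trR_tau hτ.1] at this
      linarith only [hρ, this]
    set u := r y
    set v := trR a (r τ) τ y
    have h1 := tr_amgm n hv hu
    have h1e : u ^ (n + 1) = u * u ^ n := by ring
    rcases hcr y hy with ⟨h2, h3⟩ | ⟨h2, h3⟩
    · have h4 : u ^ n ≤ v ^ n := pow_le_pow_left₀ hu h3 n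
      have h5 : 0 ≤ ((n : ℝ) + 1) * ((u - c) * (v ^ n - u ^ n)) :=
        mul_nonneg (by (clear * -; positivity)) (mul_nonneg (by linarith only [h2]) (by linarith only [h4]))
      nlinarith only [h1, h1e, h5]
    · have h4 : v ^ n ≤ u ^ n := pow_le_pow_left₀ hv h2 n
      have h5 : 0 ≤ ((n : ℝ) + 1) * ((c - u) * (u ^ n - v ^ n)) :=
        mul_nonneg (by positivity) (mul_nonneg (by linarith only [h3]) (by linarith only [h4]))
      nlinarith only [h1, h1e, h5]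
  have hiR : ∀ k : ℕ, IntervalIntegrable (fun y => trR a (r τ) τ y ^ k) volume 0 τ := fun k =>
    ((trR_cont a (r τ) τ).pow k).intervalIntegrable _ _
  have hir : ∀ k : ℕ, IntervalIntegrable (fun y => r y ^ k) volume 0 τ := fun k =>
    Alm.prof_pow_ii hr k h01 hτ1
  have h6 := intervalIntegral.integral_mono_on hτ.1.le
    (((hiR n).const_mul (((n : ℝ) + 1) * c)).sub ((hiR (n + 1)).const_mul (n : ℝ)))
    (((hir n).const_mul (((n : ℝ) + 1) * c)).sub ((hir (n + 1)).const_mul (n : ℝ))) hpt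
  rw [intervalIntegral.integral_sub ((hiR n).const_mul _) ((hiR (n + 1)).const_mul _),
    intervalIntegral.integral_sub ((hir n).const_mul _) ((hir (n + 1)).const_mul _),
    intervalIntegral.integral_const_mul, intervalIntegral.integral_const_mul,
    intervalIntegral.integral_const_mul, intervalIntegral.integral_const_mul, hI] at h6
  have h7 : ((n : ℝ) + 1) * c * (∫ y in (0 : ℝ)..τ, trR a (r τ) τ y ^ n) ≤
      ((n : ℝ) + 1) * c * ∫ y in (0 : ℝ)..τ, r y ^ n := by linarith only [h6]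
  exact le_of_mul_le_mul_left h7 (by (clear * - hc; positivity))

/-- truncation point -/
theorem tr_trunc (n : ℕ) (h : ∀ y ∈ Icc τ 1, r y ≤ trR a (r τ) τ y) :
    ∃ κ ∈ Icc τ 1, ∫ y in τ..κ, trR a (r τ) τ y ^ (n + 1) = ∫ y in τ..1, r y ^ (n + 1) := by
  have hτ1 : τ ∈ Icc (0 : ℝ) 1 := ⟨hτ.1.le, hτ.2.le⟩
  have h11 : (1 : ℝ) ∈ Icc (0 : ℝ) 1 := ⟨zero_le_one, le_rfl⟩
  have hc : Continuous fun κ => ∫ y in τ..κ, trR a (r τ) τ y ^ (n + 1) :=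
    intervalIntegral.continuous_primitive
      (fun a' b' => ((trR_cont a (r τ) τ).pow (n + 1)).intervalIntegrable a' b') τ
  have hlo : (∫ y in τ..τ, trR a (r τ) τ y ^ (n + 1)) ≤ ∫ y in τ..1, r y ^ (n + 1) := by
    rw [intervalIntegral.integral_same]
    apply intervalIntegral.integral_nonneg hτ.2.le
    intro y hy
    exact pow_nonneg (Alm.prof_nn hr ⟨hτ.1.le.trans hy.1, hy.2⟩) _
  have hhi : ∫ y in τ..1, r y ^ (n + 1) ≤ ∫ y in τ..1, trR a (r τ) τ y ^ (n + 1) := by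
    apply intervalIntegral.integral_mono_on hτ.2.le (Alm.prof_pow_ii hr _ hτ1 h11)
      (((trR_cont a (r τ) τ).pow _).intervalIntegrable _ _)
    intro y hy
    exact pow_le_pow_left₀ (Alm.prof_nn hr ⟨hτ.1.le.trans hy.1, hy.2⟩) (h y hy) _
  obtain ⟨κ, hκ, hκe⟩ := intermediate_value_Icc hτ.2.le hc.continuousOn ⟨hlo, hhi⟩
  exact ⟨κ, hκ, hκe⟩

/-- comparison of the lower moment on `[τ, 1]` -/
theorem tr_right_moment (n : ℕ) (ha : r τ ≤ a) (h : ∀ y ∈ Icc τ 1, r y ≤ trR a (r τ) τ y)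
    {κ : ℝ} (hκ : κ ∈ Icc τ 1)
    (hκe : ∫ y in τ..κ, trR a (r τ) τ y ^ (n + 1) = ∫ y in τ..1, r y ^ (n + 1)) :
    ∫ y in τ..κ, trR a (r τ) τ y ^ n ≤ ∫ y in τ..1, r y ^ n := by
  have hτ1 : τ ∈ Icc (0 : ℝ) 1 := ⟨hτ.1.le, hτ.2.le⟩
  have h11 : (1 : ℝ) ∈ Icc (0 : ℝ) 1 := ⟨zero_le_one, le_rfl⟩
  have hκ1 : κ ∈ Icc (0 : ℝ) 1 := ⟨hτ.1.le.trans hκ.1, hκ.2⟩
  have hiR : ∀ (k : ℕ) (a' b' : ℝ), IntervalIntegrable (fun y => trR a (r τ) τ y ^ k) volume a' b' :=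
    fun k a' b' => ((trR_cont a (r τ) τ).pow k).intervalIntegrable _ _
  have hir : ∀ (k : ℕ) {a' b' : ℝ}, a' ∈ Icc (0 : ℝ) 1 → b' ∈ Icc (0 : ℝ) 1 →
      IntervalIntegrable (fun y => r y ^ k) volume a' b' := fun k _ _ h1 h2 =>
    Alm.prof_pow_ii hr k h1 h2
  set R := trR a (r τ) τ with hR
  have hanti : Antitone R := trR_anti hτ.1 ha
  have hRnn : ∀ y ∈ Icc τ 1, 0 ≤ R y := fun y hy =>
    (Alm.prof_nn hr ⟨hτ.1.le.trans hy.1, hy.2⟩).trans (h y hy)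
  -- for `b ≤ κ`: `R(b) ∫_τ^b (R^n - r^n) ≤ ∫_τ^b (R^(n+1) - r^(n+1))`
  have key : ∀ b ∈ Icc τ κ, R b * (∫ y in τ..b, (R y ^ n - r y ^ n)) ≤
      ∫ y in τ..b, (R y ^ (n + 1) - r y ^ (n + 1)) := by
    intro b hb
    have hb1 : b ∈ Icc (0 : ℝ) 1 := ⟨hτ.1.le.trans hb.1, hb.2.trans hκ.2⟩
    rw [← intervalIntegral.integral_const_mul]
    apply intervalIntegral.integral_mono_on hb.1
      (((hiR n τ b).sub (hir n hτ1 hb1)).const_mul _)
      ((hiR (n + 1) τ b).sub (hir (n + 1) hτ1 hb1))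
    intro y hy
    have hyI : y ∈ Icc τ 1 := ⟨hy.1, hy.2.trans hb1.2⟩
    have h1 := h y hyI
    have h2 : 0 ≤ r y := Alm.prof_nn hr ⟨hτ.1.le.trans hy.1, hyI.2⟩
    have h3 : R b ≤ R y := hanti hy.2
    have h4 : r y ^ n ≤ R y ^ n := pow_le_pow_left₀ h2 h1 n
    have h5 : 0 ≤ (R y - R b) * (R y ^ n - r y ^ n) := mul_nonneg (by linarith only [h3]) (by linarith only [h4])
    have h6 : 0 ≤ (R y - r y) * r y ^ n := mul_nonneg (by linarith only [h1]) (pow_nonneg h2 _)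
    have e1 : R y ^ (n + 1) = R y * R y ^ n := by ring
    have e2 : r y ^ (n + 1) = r y * r y ^ n := by ring
    linarith
  have hsplit : ∀ k : ℕ, ∀ b ∈ Icc τ (1 : ℝ), (∫ y in τ..b, r y ^ k) + ∫ y in b..1, r y ^ k =
      ∫ y in τ..1, r y ^ k := by
    intro k b hb
    exact intervalIntegral.integral_add_adjacent_intervals
      (hir k hτ1 ⟨hτ.1.le.trans hb.1, hb.2⟩) (hir k ⟨hτ.1.le.trans hb.1, hb.2⟩ h11)
  have hsub : ∀ k : ℕ, ∀ b ∈ Icc τ (1 : ℝ), (∫ y in τ..b, (R y ^ k - r y ^ k)) =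
      (∫ y in τ..b, R y ^ k) - ∫ y in τ..b, r y ^ k := by
    intro k b hb
    exact intervalIntegral.integral_sub (hiR k τ b) (hir k hτ1 ⟨hτ.1.le.trans hb.1, hb.2⟩)
  rcases eq_or_lt_of_le (hRnn κ hκ) with h0 | h0
  · -- `R κ = 0`, so `κ = 1`
    have hκ1' : κ = 1 := by
      by_contra hne
      have hlt : κ < 1 := lt_of_le_of_ne hκ.2 hne
      have := hr.pos κ ⟨by linarith only [hκ1.1], hlt⟩
      linarith [h κ hκ]
    rw [hκ1'] at hκe ⊢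
    have hb : ∀ b ∈ Ico τ (1 : ℝ), (∫ y in τ..b, R y ^ n) ≤ ∫ y in τ..1, r y ^ n := by
      intro b hb
      have hb' : b ∈ Icc τ (1 : ℝ) := ⟨hb.1, hb.2.le⟩
      have hb1 : b ∈ Icc (0 : ℝ) 1 := ⟨hτ.1.le.trans hb.1, hb.2.le⟩
      have h1 := key b ⟨hb.1, by rw [hκ1']; exact hb.2.le⟩
      have h2 : ∫ y in τ..b, (R y ^ (n + 1) - r y ^ (n + 1)) ≤ 0 := by
        rw [hsub (n + 1) b hb']
        have h3 := hsplit (n + 1) b hb'
        have h4 : (∫ y in τ..b, R y ^ (n + 1)) + ∫ y in b..1, R y ^ (n + 1) =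
            ∫ y in τ..1, R y ^ (n + 1) :=
          intervalIntegral.integral_add_adjacent_intervals (hiR _ _ _) (hiR _ _ _)
        have h5 : ∫ y in b..1, r y ^ (n + 1) ≤ ∫ y in b..1, R y ^ (n + 1) := by
          apply intervalIntegral.integral_mono_on hb.2.le (hir _ hb1 h11) (hiR _ _ _)
          intro y hy
          have hyI : y ∈ Icc τ 1 := ⟨hb.1.trans hy.1, hy.2⟩
          exact pow_le_pow_left₀ (Alm.prof_nn hr ⟨hτ.1.le.trans hyI.1, hyI.2⟩) (h y hyI) _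
        linarith only [hκe, h3, h4, h5]
      have hRb : 0 < R b := by
        have := hr.pos b ⟨by linarith [hb1.1], hb.2⟩
        linarith only [this, h b hb']
      have h6 : ∫ y in τ..b, (R y ^ n - r y ^ n) ≤ 0 := by
        by_contra h7
        push Not at h7
        have := mul_pos hRb h7
        linarith only [h1, h2, this]
      rw [hsub n b hb'] at h6
      have h8 := hsplit n b hb'
      have h9 : 0 ≤ ∫ y in b..1, r y ^ n := by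
        apply intervalIntegral.integral_nonneg hb.2.le
        intro y hy
        exact pow_nonneg (Alm.prof_nn hr ⟨hb1.1.trans hy.1, hy.2⟩) _
      linarith
    have hcont : Continuous fun b => ∫ y in τ..b, R y ^ n :=
      intervalIntegral.continuous_primitive (fun a' b' => hiR n a' b') τ
    have hclosed : IsClosed {b : ℝ | (∫ y in τ..b, R y ^ n) ≤ ∫ y in τ..1, r y ^ n} :=
      isClosed_le hcont continuous_const
    have hmem : (1 : ℝ) ∈ closure (Ico τ 1) := by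
      rw [closure_Ico hτ.2.ne]
      exact ⟨hτ.2.le, le_rfl⟩
    exact hclosed.closure_subset_iff.2 (fun b hb' => hb b hb') hmem
  · have h1 := key κ ⟨hκ.1, le_rfl⟩
    rw [hsub n κ hκ, hsub (n + 1) κ hκ] at h1
    have h2 := hsplit n κ hκ
    have h3 := hsplit (n + 1) κ hκ
    have h4 : ∫ y in κ..1, r y ^ (n + 1) ≤ R κ * ∫ y in κ..1, r y ^ n := by
      rw [← intervalIntegral.integral_const_mul]
      apply intervalIntegral.integral_mono_on hκ.2 (hir _ hκ1 h11) ((hir _ hκ1 h11).const_mul _)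
      intro y hy
      have hyI : y ∈ Icc τ 1 := ⟨hκ.1.trans hy.1, hy.2⟩
      have h5 : r y ≤ R κ := (h y hyI).trans (hanti hy.1)
      have h6 : 0 ≤ r y ^ n := pow_nonneg (Alm.prof_nn hr ⟨hτ.1.le.trans hyI.1, hyI.2⟩) _
      calc r y ^ (n + 1) = r y * r y ^ n := by ring
        _ ≤ R κ * r y ^ n := mul_le_mul_of_nonneg_right h5 h6
    have h5 : R κ * (∫ y in τ..κ, R y ^ n) ≤ R κ * ∫ y in τ..1, r y ^ n := by
      rw [← h2]
      linarith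
    exact le_of_mul_le_mul_left h5 h0

end

/-- **Truncated linear comparison.** -/
theorem tr_main (n : ℕ) {r : ℝ → ℝ} (hr : IsProf r) {τ : ℝ} (hτ : τ ∈ Ioo (0 : ℝ) 1) :
    ∃ a ω κ : ℝ, 0 < a ∧ 0 ≤ ω ∧ ω ≤ 1 ∧ τ ≤ κ ∧ κ ≤ 1 ∧
      ∫ y in (0 : ℝ)..1, r y ^ (n + 1) = a ^ (n + 1) * (κ * geo (n + 2) ω / ((n : ℝ) + 2)) ∧
      a ^ n * (κ * geo (n + 1) ω / ((n : ℝ) + 1)) ≤ ∫ y in (0 : ℝ)..1, r y ^ n ∧
      ∫ y in (0 : ℝ)..τ, r y ^ (n + 1) =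
        a ^ (n + 1) * (τ * geo (n + 2) (1 - (1 - ω) * (τ / κ)) / ((n : ℝ) + 2)) := by
  obtain ⟨a, ha, hI⟩ := tr_exists n hr hτ
  have hρ : 0 < r τ := hr.pos τ ⟨by linarith [hτ.1], hτ.2⟩
  have ha0 : 0 < a := hρ.trans_le ha
  have hright := tr_right hr hτ n hI
  have hleft := tr_left_moment hr hτ n ha hI
  obtain ⟨κ, hκ, hκe⟩ := tr_trunc hr hτ n hright
  have hrm := tr_right_moment hr hτ n ha hright hκ hκe
  have hκ0 : 0 < κ := hτ.1.trans_le hκ.1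
  have h01 : (0 : ℝ) ∈ Icc (0 : ℝ) 1 := ⟨le_rfl, zero_le_one⟩
  have h11 : (1 : ℝ) ∈ Icc (0 : ℝ) 1 := ⟨zero_le_one, le_rfl⟩
  have hτ1 : τ ∈ Icc (0 : ℝ) 1 := ⟨hτ.1.le, hτ.2.le⟩
  have hiR : ∀ (k : ℕ) (a' b' : ℝ), IntervalIntegrable (fun y => trR a (r τ) τ y ^ k) volume a' b' :=
    fun k a' b' => ((trR_cont a (r τ) τ).pow k).intervalIntegrable _ _
  have hsr : ∀ k : ℕ, (∫ y in (0 : ℝ)..τ, r y ^ k) + ∫ y in τ..1, r y ^ k =
      ∫ y in (0 : ℝ)..1, r y ^ k := fun k =>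
    intervalIntegral.integral_add_adjacent_intervals
      (Alm.prof_pow_ii hr k h01 hτ1) (Alm.prof_pow_ii hr k hτ1 h11)
  have hsR : ∀ k : ℕ, (∫ y in (0 : ℝ)..τ, trR a (r τ) τ y ^ k) +
      ∫ y in τ..κ, trR a (r τ) τ y ^ k = ∫ y in (0 : ℝ)..κ, trR a (r τ) τ y ^ k := fun k =>
    intervalIntegral.integral_add_adjacent_intervals (hiR k _ _) (hiR k _ _)
  have hRκ0 : 0 ≤ trR a (r τ) τ κ :=
    (Alm.prof_nn hr ⟨hτ.1.le.trans hκ.1, hκ.2⟩).trans (hright κ hκ)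
  have hRκa : trR a (r τ) τ κ ≤ a := by
    have := trR_anti hτ.1 ha hκ0.le
    rwa [trR_zero] at this
  refine ⟨a, trR a (r τ) τ κ / a, κ, ha0, div_nonneg hRκ0 ha0.le, (div_le_one ha0).2 hRκa, hκ.1,
    hκ.2, ?_, ?_, ?_⟩
  · have h1 := trR_int (n + 1) ha0 hκ0 (ρ := r τ) (τ := τ)
    rw [← hsR, hI, hκe, hsr] at h1
    rw [h1]
    push_cast
    ring
  · have h1 := trR_int n ha0 hκ0 (ρ := r τ) (τ := τ)
    rw [← h1, ← hsR, ← hsr n]
    linarith only [hleft, hrm]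
  · have h1 := trR_int (n + 1) ha0 hτ.1 (ρ := r τ) (τ := τ)
    rw [hI] at h1
    rw [h1, trR_tau hτ.1]
    have e : 1 - (1 - trR a (r τ) τ κ / a) * (τ / κ) = r τ / a := by
      unfold trR
      have := hτ.1.ne'
      field_simp
      ring
    rw [e]
    push_cast
    ring

/-- **A priori information from `N ≤ N_B`** (truncated linear comparison), in terms of
`ω ∈ [0,1]` (ratio of the end values) and `κ ∈ [τ, 1]` (length of the support). -/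
theorem IsTrans.trunc {m : ℕ} (hm : 1 ≤ m) {r τ τ' T : ℝ → ℝ} (hr : IsProf r)
    (h : IsTrans m r τ τ' T)
    (hN : (∫ y in (-1 : ℝ)..1, r y ^ (m - 1)) ^ m * aInt m ^ (m - 1) ≤
      aInt (m - 1) ^ m * (∫ y in (-1 : ℝ)..1, r y ^ m) ^ (m - 1))
    {x : ℝ} (hx : x ∈ Ioo (0 : ℝ) 1) :
    ∃ ω κ : ℝ, 0 ≤ ω ∧ ω ≤ 1 ∧ τ x ≤ κ ∧ κ ≤ 1 ∧
      κ * (geo m ω / m) ^ m * (∫ t in (0 : ℝ)..1, sq t ^ m) ^ (m - 1) ≤
        (∫ t in (0 : ℝ)..1, sq t ^ (m - 1)) ^ m * (geo (m + 1) ω / ((m : ℝ) + 1)) ^ (m - 1) ∧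
      (τ x / κ) * geo (m + 1) (1 - (1 - ω) * (τ x / κ)) * (∫ t in (0 : ℝ)..1, sq t ^ m) =
        geo (m + 1) ω * ∫ t in (0 : ℝ)..x, sq t ^ m := by
  obtain ⟨n, rfl⟩ : ∃ n, m = n + 1 := ⟨m - 1, by omega⟩
  have hτ := h.mem x hx
  obtain ⟨a, ω, κ, ha, hω0, hω1, hκτ, hκ1, hA, hB, hC⟩ := tr_main n hr hτ
  refine ⟨ω, κ, hω0, hω1, hκτ, hκ1, ?_, ?_⟩
  · have hN2 := cn_half (by omega) hr hN
    have e1 : n + 1 - 1 = n := by (clear * - hm; omega)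
    rw [e1] at hN2 ⊢
    have hκ0 : 0 < κ := hτ.1.trans_le hκτ
    have hg1 : 0 < geo (n + 1) ω := geo_pos (by omega) hω0
    have hg2 : 0 < geo (n + 2) ω := geo_pos (by omega) hω0
    set Z := ∫ t in (0 : ℝ)..1, sq t ^ (n + 1)
    set Z1 := ∫ t in (0 : ℝ)..1, sq t ^ n
    set J := ∫ y in (0 : ℝ)..1, r y ^ n
    set I := ∫ y in (0 : ℝ)..1, r y ^ (n + 1)
    have hZ : 0 < Z := cn_Z_pos (n + 1)
    have h1 : (a ^ n * (κ * geo (n + 1) ω / ((n : ℝ) + 1))) ^ (n + 1) * Z ^ n ≤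
        Z1 ^ (n + 1) * (a ^ (n + 1) * (κ * geo (n + 2) ω / ((n : ℝ) + 2))) ^ n := by
      rw [← hA]
      refine le_trans ?_ hN2
      apply mul_le_mul_of_nonneg_right _ (by (clear * - hZ; positivity))
      exact pow_le_pow_left₀ (by (clear * - ha hκ0 hg1; positivity)) hB _
    have h2 : 0 < a ^ (n * (n + 1)) * κ ^ n := by (clear * - ha hκ0; positivity)
    refine le_of_mul_le_mul_left ?_ h2
    have e2 : (a ^ n * (κ * geo (n + 1) ω / ((n : ℝ) + 1))) ^ (n + 1) * Z ^ n =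
        a ^ (n * (n + 1)) * κ ^ n * (κ * (geo (n + 1) ω / ((n + 1 : ℕ) : ℝ)) ^ (n + 1) * Z ^ n) := by
      push_cast
      rw [mul_pow, ← pow_mul, mul_div_assoc, mul_pow κ, pow_succ κ]
      ring
    have e3 : Z1 ^ (n + 1) * (a ^ (n + 1) * (κ * geo (n + 2) ω / ((n : ℝ) + 2))) ^ n =
        a ^ (n * (n + 1)) * κ ^ n *
          (Z1 ^ (n + 1) * (geo (n + 1 + 1) ω / (((n + 1 : ℕ) : ℝ) + 1)) ^ n) := by
      have e4 : (((n + 1 : ℕ) : ℝ) + 1) = (n : ℝ) + 2 := by push_cast; ring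
      rw [e4, mul_pow, ← pow_mul, mul_div_assoc, mul_pow κ, mul_comm (n + 1) n]
      ring
    rw [e2, e3] at h1
    exact h1
  · have h3 := h.mass x hx
    rw [hA, hC] at h3
    have hκ0 : 0 < κ := hτ.1.trans_le hκτ
    have han : 0 < a ^ (n + 1) := by (clear * - ha; positivity)
    have hn2 : (0 : ℝ) < (n : ℝ) + 2 := by (clear * -; positivity)
    have h4 : 0 < a ^ (n + 1) * (κ / ((n : ℝ) + 2)) := by (clear * - ha hκ0; positivity)
    refine mul_left_cancel₀ h4.ne' ?_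
    calc a ^ (n + 1) * (κ / ((n : ℝ) + 2)) * (τ x / κ * geo (n + 1 + 1) (1 - (1 - ω) * (τ x / κ)) *
          ∫ t in (0 : ℝ)..1, sq t ^ (n + 1))
        = a ^ (n + 1) * (τ x * geo (n + 2) (1 - (1 - ω) * (τ x / κ)) / ((n : ℝ) + 2)) *
          ∫ t in (0 : ℝ)..1, sq t ^ (n + 1) := by
          (clear * - hκ0 ha; field_simp)
      _ = (∫ t in (0 : ℝ)..x, sq t ^ (n + 1)) *
          (a ^ (n + 1) * (κ * geo (n + 2) ω / ((n : ℝ) + 2))) := h3
      _ = a ^ (n + 1) * (κ / ((n : ℝ) + 2)) *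
          (geo (n + 1 + 1) ω * ∫ t in (0 : ℝ)..x, sq t ^ (n + 1)) := by ring

end Vale.Agent.P237.AllN
end

section

/-!
# P237, block D, `l > 0`: the `W`-coefficient of the kernel part is nonnegative for `x e^l ≤ 1`
-/

open Finset

namespace Vale.Agent.P237.AllN

open PolyPos

/-- `1 - X²` -/
def ks4Z : Ex := Ex.c ⟨1, 0⟩ - Ex.X * Ex.X

/-- `X⁵` -/
def ks4X5 : Ex := Ex.X * Ex.X * Ex.X * Ex.X * Ex.X

def ks4P1 : Ex := Ex.c ⟨6, 0⟩ - ks4X5 * (Ex.c ⟨6, 0⟩ + Ex.c ⟨15, 0⟩ * ks4Z +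
  Ex.c ⟨105, 3⟩ * (ks4Z * ks4Z) + Ex.c ⟨315, 7⟩ * (ks4Z * ks4Z * ks4Z) +
  Ex.c ⟨3465, 63⟩ * (ks4Z * ks4Z * (ks4Z * ks4Z)))

def ks4P2 : Ex :=
  Ex.c ⟨4, 0⟩ * (Ex.X * Ex.X) * (Ex.c ⟨1, 0⟩ + Ex.X) - Ex.c ⟨4, 0⟩ * (Ex.X * Ex.X * (Ex.X * Ex.X)) -
  Ex.c ⟨2, 0⟩ * ks4X5 * (Ex.c ⟨1, 0⟩ + Ex.X) -
  Ex.c ⟨1, 3⟩ * ((Ex.c ⟨1, 0⟩ - ks4Z * ks4Z) * (Ex.c ⟨1, 0⟩ + Ex.X) * ks4P1) +
  ks4X5 * (Ex.c ⟨1, 0⟩ + Ex.X) * (
    Ex.c ⟨9, 1⟩ * (ks4Z * (ks4Z * ks4Z - Ex.c ⟨1, 0⟩)) +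
    Ex.c ⟨25, 3⟩ * (ks4Z * ks4Z * (ks4Z * ks4Z * ks4Z - Ex.c ⟨1, 0⟩)) +
    Ex.c ⟨245, 31⟩ * (ks4Z * ks4Z * ks4Z * (ks4Z * ks4Z * (ks4Z * ks4Z) - Ex.c ⟨1, 0⟩)) +
    Ex.c ⟨567, 63⟩ * (ks4Z * ks4Z * (ks4Z * ks4Z) *
      (ks4Z * ks4Z * (ks4Z * ks4Z * ks4Z) - Ex.c ⟨1, 0⟩)) +
    Ex.c ⟨2541, 255⟩ * (ks4Z * ks4Z * (ks4Z * ks4Z * ks4Z) *
      (ks4Z * ks4Z * (ks4Z * ks4Z * (ks4Z * ks4Z)) - Ex.c ⟨1, 0⟩)))

theorem ks4P1_R (s y : ℝ) : ks4P1.R s y = 6 - s ^ 5 * (6 + 15 * (1 - s ^ 2) +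
    105 / 4 * (1 - s ^ 2) ^ 2 + 315 / 8 * (1 - s ^ 2) ^ 3 + 3465 / 64 * (1 - s ^ 2) ^ 4) := by
  simp only [ks4P1, ks4Z, ks4X5, Ex.R_add, Ex.R_sub, Ex.R_mul, Ex.R_c, Ex.R_X, Fr.R]
  push_cast
  ring

theorem ks4P2_R (s y : ℝ) : ks4P2.R s y =
    4 * s ^ 2 * (1 + s) - 4 * s ^ 4 - 2 * s ^ 5 * (1 + s) -
      (1 - (1 - s ^ 2) ^ 2) * (1 + s) / 4 * (6 - s ^ 5 * (6 + 15 * (1 - s ^ 2) +
        105 / 4 * (1 - s ^ 2) ^ 2 + 315 / 8 * (1 - s ^ 2) ^ 3 + 3465 / 64 * (1 - s ^ 2) ^ 4)) +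
      s ^ 5 * (1 + s) * (9 / 2 * (1 - s ^ 2) * ((1 - s ^ 2) ^ 2 - 1) +
        25 / 4 * (1 - s ^ 2) ^ 2 * ((1 - s ^ 2) ^ 3 - 1) +
        245 / 32 * (1 - s ^ 2) ^ 3 * ((1 - s ^ 2) ^ 4 - 1) +
        567 / 64 * (1 - s ^ 2) ^ 4 * ((1 - s ^ 2) ^ 5 - 1) +
        2541 / 256 * (1 - s ^ 2) ^ 5 * ((1 - s ^ 2) ^ 6 - 1)) := by
  simp only [ks4P2, ks4P1, ks4Z, ks4X5, Ex.R_add, Ex.R_sub, Ex.R_mul, Ex.R_c, Ex.R_X, Fr.R]
  push_cast
  ring

theorem ks4_chk1 : tchkE (2 ^ 1024) 40 4000 [[ks4P1]] (Ex.c ⟨0, 0⟩) (.leaf 0) 0 1 1 0 1 1 = true := by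
  (clear * -; decide +kernel)

theorem ks4_chk2 : tchkE (2 ^ 1024) 40 4000 [[ks4P2]] (Ex.c ⟨0, 0⟩) (.sx (.leaf 0) (.leaf 0))
    0 1 1 0 1 1 = true := by
  (clear * -; decide +kernel)

theorem ks4_of_chk {E : Ex} {t : PT} (h : tchkE (2 ^ 1024) 40 4000 [[E]] (Ex.c ⟨0, 0⟩) t
    0 1 1 0 1 1 = true) {s : ℝ} (h0 : 0 ≤ s) (h1 : s ≤ 1) : 0 ≤ E.R s 0 := by
  obtain ⟨i, hi⟩ := tchkE_sound (x := s) (y := 0) (by simp [Ex.R_c, Fr.R]) _ _ _ _ _ _ _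
    (by norm_num) (by norm_num) (by norm_num) (by norm_num) h (by push_cast; linarith only [h0])
    (by push_cast; linarith) (by push_cast; linarith) (by push_cast; linarith)
  rcases i with _ | i
  · exact hi _ (by simp)
  · exfalso
    have := hi (Ex.c ⟨-1, 0⟩) (by simp only [Int.reduceNeg, List.getD_eq_getElem?_getD, List.length_cons, List.length_nil, zero_add, Order.lt_one_iff, Nat.add_eq_zero_iff, one_ne_zero, and_false, not_false_eq_true, getElem?_neg, Option.getD_none, List.mem_cons, List.not_mem_nil, or_false])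
    simp only [Int.reduceNeg, Ex.R_c, Fr.R, Int.cast_neg, Int.cast_one, CharP.cast_eq_zero, zero_add, div_one, Left.nonneg_neg_iff] at this
    linarith only [this]

theorem ks4_exp {z l : ℝ} (hz : 0 < z) (k : ℕ) :
    z ^ k * (1 + 2 * k * (-(1 / 2 * Real.log z) - l)) ≤ Real.exp (-(2 * k * l)) := by
  have h1 : Real.exp (-(2 * k * l)) = z ^ k * Real.exp (2 * k * (-(1 / 2 * Real.log z) - l)) := by
    have h2 : z ^ k = Real.exp (k * Real.log z) := by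
      rw [mul_comm, Real.exp_mul, Real.exp_log hz, Real.rpow_natCast]
    rw [h2, ← Real.exp_add]
    congr 1
    ring
  rw [h1]
  apply mul_le_mul_of_nonneg_left _ (by positivity)
  have := Real.add_one_le_exp (2 * k * (-(1 / 2 * Real.log z) - l))
  linarith only [this]

theorem ks4_log {z : ℝ} (hz : 0 < z) (hz1 : z ≤ 1) : -(1 / 2 * Real.log z) ≤ (1 - z ^ 2) / (4 * z) := by
  -- `log r ≤ (r - 1/r)/2` for `r = 1/z ≥ 1`
  have h1 : Real.log (1 / z) ≤ (1 / z - z) / 2 := by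
    have h2 : 0 ≤ Real.log (1 / z) := Real.log_nonneg (by rw [le_div_iff₀ hz]; linarith)
    have h3 : Real.log (1 / z) ≤ Real.sinh (Real.log (1 / z)) := by
      have := Real.self_le_sinh_iff.2 h2
      exact this
    rw [Real.sinh_log (by positivity)] at h3
    simpa only [one_div, Real.log_inv, ge_iff_le, inv_inv] using h3
  rw [one_div, Real.log_inv] at h1
  have e : (1 - z ^ 2) / (4 * z) = (z⁻¹ - z) / 2 / 2 := by
    field_simp
    ring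
  rw [e]
  linarith only [h1]

/-- **(K3)** the `W`-coefficient of the kernel is nonnegative as long as `x e^l ≤ 1` -/
theorem kK3 {z s l : ℝ} (hz : 0 < z) (hs : 0 < s) (hsz : s ^ 2 = 1 - z)
    (hl : z * Real.exp (2 * l) ≤ 1) :
    0 ≤ 4 / s - 4 * s / (1 + s) - 2 * s ^ 2 - 6 * (z / s ^ 3) * l + ksC z s l := by
  have hz1 : z < 1 := by nlinarith only [hsz, hs]
  have hs1 : s ≤ 1 := by nlinarith only [hsz, hz]
  have e1 := ks4_of_chk ks4_chk1 hs.le hs1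
  have e2 := ks4_of_chk ks4_chk2 hs.le hs1
  rw [ks4P1_R] at e1
  rw [ks4P2_R] at e2
  have hz' : z = 1 - s ^ 2 := by linarith only [hsz]
  rw [← hz'] at e1 e2
  set P1 := 6 - s ^ 5 * (6 + 15 * z + 105 / 4 * z ^ 2 + 315 / 8 * z ^ 3 + 3465 / 64 * z ^ 4) with hP1
  set L := -(1 / 2 * Real.log z) with hL
  have hlL : 0 ≤ L - l := by
    have h1 : Real.log z + 2 * l ≤ 0 := by
      have h2 : Real.log (z * Real.exp (2 * l)) ≤ 0 := Real.log_nonpos (by positivity) hl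
      rwa [Real.log_mul hz.ne' (Real.exp_pos _).ne', Real.log_exp] at h2
    simp only [hL]
    linarith only [h1]
  have hLu : L ≤ (1 - z ^ 2) / (4 * z) := ks4_log hz hz1.le
  have a2 := ks4_exp (l := l) hz 2
  have a3 := ks4_exp (l := l) hz 3
  have a4 := ks4_exp (l := l) hz 4
  have a5 := ks4_exp (l := l) hz 5
  have a6 := ks4_exp (l := l) hz 6
  rw [← hL] at a2 a3 a4 a5 a6
  push_cast at a2 a3 a4 a5 a6
  rw [show -(2 * 2 * l) = -(4 * l) by ring] at a2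
  rw [show -(2 * 3 * l) = -(6 * l) by ring] at a3
  rw [show -(2 * 4 * l) = -(8 * l) by ring] at a4
  rw [show -(2 * 5 * l) = -(10 * l) by ring] at a5
  rw [show -(2 * 6 * l) = -(12 * l) by ring] at a6
  set d := L - l with hd
  have hl' : l = L - d := by simp only [hd]; ring
  -- the value after replacing the exponentials
  have key : 4 / s - 4 * s / (1 + s) - 2 * s ^ 2 - 6 * (z / s ^ 3) * l +
      s ^ 2 * (3 / 4 * z * (6 * (z ^ 2 * (1 + 2 * 2 * d) - 1) + 8 * l) +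
        5 / 8 * z ^ 2 * (10 * (z ^ 3 * (1 + 2 * 3 * d) - 1) + 24 * l) +
        35 / 64 * z ^ 3 * (14 * (z ^ 4 * (1 + 2 * 4 * d) - 1) + 48 * l) +
        63 / 128 * z ^ 4 * (18 * (z ^ 5 * (1 + 2 * 5 * d) - 1) + 80 * l) +
        231 / 512 * z ^ 5 * (22 * (z ^ 6 * (1 + 2 * 6 * d) - 1) + 120 * l)) ≤
      4 / s - 4 * s / (1 + s) - 2 * s ^ 2 - 6 * (z / s ^ 3) * l + ksC z s l := by
    unfold ksC
    have b2 := mul_le_mul_of_nonneg_left a2 (by positivity : 0 ≤ s ^ 2 * (3 / 4 * z * 6))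
    have b3 := mul_le_mul_of_nonneg_left a3 (by positivity : 0 ≤ s ^ 2 * (5 / 8 * z ^ 2 * 10))
    have b4 := mul_le_mul_of_nonneg_left a4 (by positivity : 0 ≤ s ^ 2 * (35 / 64 * z ^ 3 * 14))
    have b5 := mul_le_mul_of_nonneg_left a5 (by positivity : 0 ≤ s ^ 2 * (63 / 128 * z ^ 4 * 18))
    have b6 := mul_le_mul_of_nonneg_left a6 (by positivity : 0 ≤ s ^ 2 * (231 / 512 * z ^ 5 * 22))
    linarith only [b2, b3, b4, b5, b6]
  refine le_trans ?_ key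
  have h1 : 4 / s - 4 * s / (1 + s) - 2 * s ^ 2 - 6 * (z / s ^ 3) * l +
      s ^ 2 * (3 / 4 * z * (6 * (z ^ 2 * (1 + 2 * 2 * d) - 1) + 8 * l) +
        5 / 8 * z ^ 2 * (10 * (z ^ 3 * (1 + 2 * 3 * d) - 1) + 24 * l) +
        35 / 64 * z ^ 3 * (14 * (z ^ 4 * (1 + 2 * 4 * d) - 1) + 48 * l) +
        63 / 128 * z ^ 4 * (18 * (z ^ 5 * (1 + 2 * 5 * d) - 1) + 80 * l) +
        231 / 512 * z ^ 5 * (22 * (z ^ 6 * (1 + 2 * 6 * d) - 1) + 120 * l)) =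
      (1 / (s ^ 3 * (1 + s))) * (4 * s ^ 2 * (1 + s) - 4 * s ^ 4 - 2 * s ^ 5 * (1 + s) -
        (1 - z ^ 2) * (1 + s) / 4 * P1 +
        s ^ 5 * (1 + s) * (9 / 2 * z * (z ^ 2 - 1) + 25 / 4 * z ^ 2 * (z ^ 3 - 1) +
        245 / 32 * z ^ 3 * (z ^ 4 - 1) + 567 / 64 * z ^ 4 * (z ^ 5 - 1) +
        2541 / 256 * z ^ 5 * (z ^ 6 - 1))) +
      z / s ^ 3 * (((1 - z ^ 2) / (4 * z) - L) * P1) + z / s ^ 3 * (d * P1) +
      d * (s ^ 2 * (18 * z ^ 3 + 75 / 2 * z ^ 5 + 245 / 4 * z ^ 7 + 2835 / 32 * z ^ 9 +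
        7623 / 64 * z ^ 11)) := by
    rw [hl', hP1]
    have : (1 : ℝ) + s ≠ 0 := by linarith only [hs]
    field_simp
    ring
  rw [h1]
  have i1 : 0 ≤ (1 / (s ^ 3 * (1 + s))) * (4 * s ^ 2 * (1 + s) - 4 * s ^ 4 - 2 * s ^ 5 * (1 + s) -
        (1 - z ^ 2) * (1 + s) / 4 * P1 +
        s ^ 5 * (1 + s) * (9 / 2 * z * (z ^ 2 - 1) + 25 / 4 * z ^ 2 * (z ^ 3 - 1) +
        245 / 32 * z ^ 3 * (z ^ 4 - 1) + 567 / 64 * z ^ 4 * (z ^ 5 - 1) +
        2541 / 256 * z ^ 5 * (z ^ 6 - 1))) := mul_nonneg (by positivity) e2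
  have i2 : 0 ≤ z / s ^ 3 * (((1 - z ^ 2) / (4 * z) - L) * P1) :=
    mul_nonneg (by positivity) (mul_nonneg (sub_nonneg.2 hLu) e1)
  have i3 : 0 ≤ z / s ^ 3 * (d * P1) := mul_nonneg (by positivity) (mul_nonneg hlL e1)
  have i4 : 0 ≤ d * (s ^ 2 * (18 * z ^ 3 + 75 / 2 * z ^ 5 + 245 / 4 * z ^ 7 + 2835 / 32 * z ^ 9 +
        7623 / 64 * z ^ 11)) := mul_nonneg hlL (by positivity)
  linarith only [i1, i2, i3, i4]

end Vale.Agent.P237.AllN
end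

section

/-!
# P237, block D, `X ≥ 3`, `u ≤ 0`, `x ≤ 7/10`: assembly of the test from (S), (V), (X)
-/

set_option linter.all false

namespace Vale.Agent.P237.AllN.FXnA

theorem exp_pade {l : ℝ} (hl : 0 ≤ l) : 1 - l ≤ (1 + l) * Real.exp (-(2 * l)) := by
  have hmono : MonotoneOn (fun t : ℝ => (1 + t) * Real.exp (-(2 * t)) - 1 + t) (Set.Ici 0) := by
    have hd : ∀ t : ℝ, HasDerivAt (fun t : ℝ => (1 + t) * Real.exp (-(2 * t)) - 1 + t)
        (1 * Real.exp (-(2 * t)) + (1 + t) * (Real.exp (-(2 * t)) * (-(2 * 1))) + 1) t := by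
      intro t
      have h1 : HasDerivAt (fun t : ℝ => Real.exp (-(2 * t)))
          (Real.exp (-(2 * t)) * (-(2 * 1))) t := by
        exact ((hasDerivAt_id t).const_mul 2).neg.exp
      have h2 : HasDerivAt (fun t : ℝ => 1 + t) 1 t := by
        simpa using (hasDerivAt_id t).const_add 1
      exact ((h2.mul h1).sub_const 1).add (hasDerivAt_id t)
    apply monotoneOn_of_deriv_nonneg (convex_Ici 0)
    · exact fun t _ => (hd t).continuousAt.continuousWithinAt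
    · exact fun t _ => (hd t).differentiableAt.differentiableWithinAt
    · intro t ht
      rw [(hd t).deriv]
      simp only [Set.nonempty_Iio, interior_Ici', Set.mem_Ioi] at ht
      have h3 : 2 * t + 1 ≤ Real.exp (2 * t) := Real.add_one_le_exp _
      have h4 : Real.exp (-(2 * t)) * Real.exp (2 * t) = 1 := by
        rw [← Real.exp_add]; simp
      have h5 : 0 < Real.exp (-(2 * t)) := Real.exp_pos _
      linarith only [mul_le_mul_of_nonneg_left h3 h5.le, h4]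
  have h := hmono (Set.mem_Ici.2 le_rfl) (Set.mem_Ici.2 hl) hl
  simp only [add_zero, mul_zero, neg_zero, Real.exp_zero, mul_one, sub_self] at h
  linarith

/-- `2 l² ≤ (1+l) (e^{-2l} - 1 + 2l)` -/
theorem a1_ge {l : ℝ} (hl : 0 ≤ l) :
    2 * l ^ 2 ≤ (1 + l) * (Real.exp (-(2 * l)) - 1 + 2 * l) := by
  have := exp_pade hl
  linarith

theorem a1_pos {l : ℝ} (hl : 0 < l) : 0 < Real.exp (-(2 * l)) - 1 + 2 * l := by
  have h := a1_ge hl.le
  have h2 : 0 < 2 * l ^ 2 := by positivity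
  by_contra hc
  push Not at hc
  nlinarith

/-- `a²/2 ≤ -a - log (1-a)` -/
theorem g_ge {u : ℝ} (hu : 0 < 1 + u) (hu0 : u ≤ 0) : u ^ 2 ≤ 2 * (u - Real.log (1 + u)) := by
  -- `log (1+u) ≤ u - u²/2` for `-1 < u ≤ 0`
  have hanti : MonotoneOn (fun t : ℝ => Real.log (1 + t) - t + t ^ 2 / 2) (Set.Ioc (-1) 0) := by
    have hd : ∀ t : ℝ, 0 < 1 + t → HasDerivAt (fun t : ℝ => Real.log (1 + t) - t + t ^ 2 / 2)
        (1 / (1 + t) - 1 + (2 : ℕ) * t ^ (2 - 1) * 1 / 2) t := by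
      intro t ht
      have h1 : HasDerivAt (fun t : ℝ => Real.log (1 + t)) (1 / (1 + t)) t := by
        have h2 : HasDerivAt (fun t : ℝ => 1 + t) 1 t := by
          simpa only [id_eq] using (hasDerivAt_id t).const_add 1
        exact h2.log ht.ne'
      exact (h1.sub (hasDerivAt_id t)).add (((hasDerivAt_id t).pow 2).div_const 2)
    apply monotoneOn_of_deriv_nonneg (convex_Ioc (-1) 0)
    · intro t ht
      exact (hd t (by linarith [ht.1])).continuousAt.continuousWithinAt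
    · intro t ht
      rw [interior_Ioc] at ht
      exact (hd t (by linarith [ht.1])).differentiableAt.differentiableWithinAt
    · intro t ht
      rw [interior_Ioc] at ht
      have h1 : 0 < 1 + t := by linarith [ht.1]
      rw [(hd t h1).deriv]
      have e : 1 / (1 + t) - 1 + ((2 : ℕ) : ℝ) * t ^ (2 - 1) * 1 / 2 = t ^ 2 / (1 + t) := by
        field_simp
        push_cast
        ring
      rw [e]
      (clear * - h1; positivity)
  have h := hanti (Set.mem_Ioc.2 ⟨by linarith, hu0⟩) (Set.mem_Ioc.2 ⟨by norm_num, le_rfl⟩) hu0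
  simp only [add_zero, Real.log_one, sub_self, ne_eq, OfNat.ofNat_ne_zero, not_false_eq_true, zero_pow, zero_div] at h
  linarith

/-- the difference of `dpT` and its value at `u = 0` -/
theorem dpT_sub (m z s l u G N : ℝ) :
    dpT m z s l u G N = dpT m z s l 0 G 0 +
      (4 * s ^ 2 * Real.exp (-(2 * l)) +
        (4 / s - 4 * s / (1 + s) - 2 * s ^ 2 - 6 * (z / s ^ 3) * l + ksC z s l)) *
        (u ^ 2 / (1 + u)) + 2 * (m + 1) / ((m - 1) * s) * N - 6 / 25 * (m + 3) * z * l * u := by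
  unfold dpT
  rw [dpS_eq, dpS_eq]
  simp only [ne_eq, OfNat.ofNat_ne_zero, not_false_eq_true, zero_pow, zero_div, mul_zero, zero_mul,
    add_zero, sub_zero]
  ring


/-- elementary facts: `σ = 1/s`, `y = z/s²` -/
theorem geo {m z s : ℝ} (hm : 27 ≤ m) (hz : 0 < z) (hz1 : z ≤ 49 / 100)
    (hs : 0 < s) (hs2 : s ^ 2 = 1 - z) (hw : 9 ≤ m * z) :
    ∃ σ y : ℝ, σ = 1 / s ∧ y = z / s ^ 2 ∧ σ * s = 1 ∧ 1 < σ ∧ σ ≤ 500 / 357 ∧ y = σ ^ 2 - 1 ∧
      y * s ^ 2 = z ∧ 0 < y ∧ y ≤ 49 / 51 ∧ 9 * σ ^ 2 ≤ m * y ∧ 9 ≤ m * y ∧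
      51 / 100 * y ≤ z ∧ s < 1 ∧ 357 / 500 ≤ s := by
  have hm0 : (0 : ℝ) < m := by linarith only [hm]
  have hs1 : s < 1 := by nlinarith only [hs2, hz]
  have hs714 : 357 / 500 ≤ s := by
    by_contra h
    push Not at h
    have : s ^ 2 < (357 / 500) ^ 2 := by
      apply pow_lt_pow_left₀ h hs.le (by norm_num)
    norm_num at this
    linarith only [this, hs2, hz1]
  have hσs : 1 / s * s = 1 := by field_simp
  have hσ0 : 0 < 1 / s := by positivity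
  have hσ1 : 1 < 1 / s := by nlinarith only [hs, hs1, hσs]
  have hσ2 : 1 / s ≤ 500 / 357 := by
    have : 1 / s * (357 / 500) ≤ 1 / s * s := mul_le_mul_of_nonneg_left hs714 hσ0.le
    linarith only [hσs, this]
  have hyσ : z / s ^ 2 = (1 / s) ^ 2 - 1 := by
    field_simp
    linarith only [hs2]
  have hys : z / s ^ 2 * s ^ 2 = z := by field_simp
  have hy0 : 0 < z / s ^ 2 := by (clear * - hz hs; positivity)
  have hyl : z / s ^ 2 ≤ 49 / 51 := by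
    rw [div_le_iff₀ (by positivity), hs2]
    linarith only [hz1]
  have hY : 9 * (1 / s) ^ 2 ≤ m * (z / s ^ 2) := by
    have e : m * (z / s ^ 2) = (m * z) * (1 / s) ^ 2 := by
      field_simp
    rw [e]
    exact mul_le_mul_of_nonneg_right hw (by positivity)
  refine ⟨1 / s, z / s ^ 2, rfl, rfl, hσs, hσ1, hσ2, hyσ, hys, hy0, hyl, hY, by linarith only [hY, hy0, hyσ], ?_,
    hs1, hs714⟩
  nlinarith only [hs2, hys, hz, hyl]

/-- lower bounds of `ρ` -/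
theorem rho {m σ y ρ : ℝ} (hm : 27 ≤ m) (hσ1 : 1 < σ) (hyσ : y = σ ^ 2 - 1) (hy0 : 0 < y)
    (hY : 9 * σ ^ 2 ≤ m * y) (hρd : ρ = (2 + 5 * m * y + m * (m - 2) * y ^ 2) / 10) :
    4 / 3 * (m * y) * σ ≤ ρ ∧ 5 / 2 * (m * y ^ 2) ≤ ρ ∧ 12 * σ ^ 3 ≤ ρ ∧ 4 / 3 * (m * y) ≤ ρ ∧
      27 / 2 * y + 135 / 2 * y ^ 2 ≤ ρ := by
  have hσ0 : 0 < σ := by linarith only [hσ1]
  have hm0 : 0 < m := by linarith only [hm]
  have hρ1 : 4 / 3 * (m * y) * σ ≤ ρ := by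
    have h3 : 25 / 3 * σ ^ 2 ≤ (m - 2) * y := by nlinarith only [hY, hm]
    have h4 : 40 / 3 * σ ≤ 5 + (m - 2) * y := by (clear * - hσ1 h3; linarith only [mul_pos (sub_pos.2 hσ1) (sub_pos.2 hσ1), h3, hσ1])
    have h5 : (m * y) * (40 / 3 * σ) ≤ (m * y) * (5 + (m - 2) * y) :=
      mul_le_mul_of_nonneg_left h4 (by positivity)
    rw [hρd]
    linarith only [h5]
  refine ⟨hρ1, ?_, ?_, ?_, ?_⟩
  · have : 0 ≤ m * y ^ 2 * (m - 27) := by
      apply mul_nonneg (by positivity) (by linarith only [hm])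
    have h6 : 0 < m * y := by positivity
    rw [hρd]
    nlinarith only [hY, this]
  · refine le_trans ?_ hρ1
    have := mul_le_mul_of_nonneg_right hY hσ0.le
    nlinarith only [this]
  · refine le_trans ?_ hρ1
    have : 0 < 4 / 3 * (m * y) := by positivity
    nlinarith only [hσ1, hY]
  · rw [hρd]
    have h6 : 27 * y ≤ m * y := mul_le_mul_of_nonneg_right hm hy0.le
    have h7 : 675 * y ^ 2 ≤ m * (m - 2) * y ^ 2 := by
      apply mul_le_mul_of_nonneg_right _ (sq_nonneg y)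
      nlinarith only [hm]
    linarith only [h7, h6]

/-- `κ = κ₁ σ`, `k₀ = 2.37 σ - κ`, `η = κ - 2 c σ` -/
theorem kap {m σ c κ : ℝ} (hm : 27 ≤ m) (hσ0 : 0 < σ) (hκe : κ = 2 * (m + 1) / (m - 1) * σ)
    (hc1 : 1 - 1 / (2 * m) ≤ c) (hc2 : c ≤ 1) :
    0 < κ ∧ 27 / 125 * σ ≤ 237 / 100 * σ - κ ∧ 0 ≤ κ - 2 * c * σ ∧
      (κ - 2 * c * σ) * m ≤ 129 / 25 * σ ∧ (κ - 2 * c * σ) ≤ 43 / 225 * σ := by
  have hm0 : 0 < m := by linarith only [hm]
  have hκ1 : 2 * (m + 1) / (m - 1) ≤ 28 / 13 := by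
    rw [div_le_iff₀ (by linarith only [hm])]
    linarith only [hm]
  have hκ2 : 2 ≤ 2 * (m + 1) / (m - 1) := by
    rw [le_div_iff₀ (by linarith only [hm])]
    linarith only []
  have hη0 : 0 ≤ κ - 2 * c * σ := by
    rw [hκe]
    nlinarith only [hσ0, hc2, hκ2]
  have hηm : (κ - 2 * c * σ) * m ≤ 129 / 25 * σ := by
    have h3 : (2 * (m + 1) / (m - 1) - 2 * c) * m ≤ 129 / 25 := by
      have h4 : 2 * (m + 1) / (m - 1) = 2 + 4 / (m - 1) := by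
        have : m - 1 ≠ 0 := by linarith only [hm]
        field_simp
        ring
      have h5 : 4 / (m - 1) * m ≤ 54 / 13 := by
        rw [div_mul_eq_mul_div, div_le_iff₀ (by linarith only [hm])]
        linarith only [hm]
      have h6 : 2 * m - 1 ≤ 2 * c * m := by
        have h7 := mul_le_mul_of_nonneg_right hc1 (show (0 : ℝ) ≤ 2 * m by linarith only [hm])
        have h8 : (1 - 1 / (2 * m)) * (2 * m) = 2 * m - 1 := by (clear * - hm; field_simp)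
        linarith only [h8, h7]
      rw [h4]
      linarith only [h6, h5]
    have : (κ - 2 * c * σ) * m = (2 * (m + 1) / (m - 1) - 2 * c) * m * σ := by
      rw [hκe]; ring
    rw [this]
    exact mul_le_mul_of_nonneg_right h3 hσ0.le
  refine ⟨by rw [hκe]; (clear * - hκ2 hσ0; positivity), ?_, hη0, hηm, by linarith only [mul_nonneg (sub_nonneg.2 hm) (sub_nonneg.2 hη0), hηm]⟩
  rw [hκe]
  nlinarith only [hσ0, hκ1]

/-- bounds of `r` -/
theorem rr {m σ y c r : ℝ} (hm : 27 ≤ m) (hσ1 : 1 < σ) (hyσ : y = σ ^ 2 - 1) (hY9 : 9 ≤ m * y)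
    (hc1 : 1 - 1 / (2 * m) ≤ c) (hc2 : c ≤ 1) (hc3 : c ^ 2 ≤ (m + 1) / (m + 2))
    (hre : r = 2 * c * σ - 2 + 2 * (1 - c) * (1 - m * y)) :
    r ≤ 2 * y / (m + 2) ∧ -((σ - 1) ^ 2 + (σ - 1) / m) ≤ r := by
  have hm0 : 0 < m := by linarith only [hm]
  constructor
  · have hcm : c ≤ 1 - 1 / (2 * (m + 2)) := by
      have h3 : c ^ 2 ≤ (1 - 1 / (2 * (m + 2))) ^ 2 := by
        refine hc3.trans ?_
        have h4 : (m + 1) / (m + 2) = 1 - 1 / (m + 2) := by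
          field_simp
          ring
        rw [h4]
        have h5 : (1 - 1 / (2 * (m + 2))) ^ 2 = 1 - 1 / (m + 2) + (1 / (2 * (m + 2))) ^ 2 := by
          field_simp
          ring
        rw [h5]
        nlinarith only []
      have h6 : 0 ≤ 1 - 1 / (2 * (m + 2)) := by
        have : 1 / (2 * (m + 2)) ≤ 1 := by
          rw [div_le_one (by linarith only [hm])]
          linarith only [hm]
        linarith only [this]
      exact le_of_sq_le_sq h3 h6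
    rw [hre, le_div_iff₀ (by linarith only [hm])]
    have h3 : (1 - c) * (m + 2) ≥ 1 / 2 := by
      have := mul_le_mul_of_nonneg_right hcm (show (0 : ℝ) ≤ m + 2 by linarith only [hm])
      have h4 : (1 - 1 / (2 * (m + 2))) * (m + 2) = (m + 2) - 1 / 2 := by
        (clear * - hm; field_simp)
      linarith only [h4, this]
    have h5 : (2 * c * σ - 2 + 2 * (1 - c) * (1 - m * y)) * (m + 2) =
        (2 * σ - 2) * (m + 2) - 2 * ((1 - c) * (m + 2)) * (σ - 1 + m * y) := by ring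
    rw [h5]
    have h6 : 0 < σ - 1 + m * y := by linarith only [hσ1, hY9]
    have h7 : 1 / 2 * (σ - 1 + m * y) ≤ ((1 - c) * (m + 2)) * (σ - 1 + m * y) :=
      mul_le_mul_of_nonneg_right h3 h6.le
    have h8 : 2 * σ - 2 ≤ y := by
      rw [hyσ]
      linarith only [sq_nonneg (σ - 1)]
    have h9 := mul_le_mul_of_nonneg_right h8 (show (0 : ℝ) ≤ m + 2 by linarith only [hm])
    (clear * - hσ1 h7 h9; linarith only [h9, h7, hσ1])
  · rw [hre]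
    have h1c : 2 * (1 - c) ≤ 1 / m := by
      have h3 : 1 / (2 * m) = 1 / m / 2 := by field_simp
      rw [h3] at hc1
      linarith only [hc1]
    have h4 : 2 * c * σ - 2 + 2 * (1 - c) * (1 - m * y) =
        2 * σ - 2 - 2 * (1 - c) * (σ - 1 + m * y) := by ring
    rw [h4]
    have h5 : 2 * (1 - c) * (σ - 1 + m * y) ≤ 1 / m * (σ - 1 + m * y) :=
      mul_le_mul_of_nonneg_right h1c (by linarith only [hσ1, hY9])
    have h6 : 1 / m * (σ - 1 + m * y) = (σ - 1) / m + y := by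
      field_simp
    rw [h6] at h5
    have h7 : (σ - 1) ^ 2 = y + 2 - 2 * σ := by rw [hyσ]; ring
    rw [h7]
    linarith only [h5]

/-- `q² ≤ (49/1000) σ ρ`, `q = 2σ - 2s²` -/
theorem qsq {s σ y ρ : ℝ} (hσs : σ * s = 1) (hs : 0 < s) (hs1 : s < 1) (hs714 : 357 / 500 ≤ s)
    (hys : y * s ^ 2 = 1 - s ^ 2) (hρ12 : 12 * σ ^ 3 ≤ ρ)
    (hρ5 : 27 / 2 * y + 135 / 2 * y ^ 2 ≤ ρ) :
    (2 * σ - 2 * s ^ 2) ^ 2 ≤ 49 / 1000 * (σ * ρ) := by
  have hqs : (2 * σ - 2 * s ^ 2) * s = 2 * (1 - s ^ 3) := by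
    have : (2 * σ - 2 * s ^ 2) * s = 2 * (σ * s) - 2 * s ^ 3 := by ring
    rw [this, hσs]
    ring
  have key : ((2 * σ - 2 * s ^ 2) * s) ^ 2 ≤ 49 / 1000 * (s * ρ) := by
    rw [hqs]
    rcases le_total (41 / 50) s with h3 | h3
    · have h4 : s * (1 - s ^ 3) ≤ 3825 / 10000 := by
        nlinarith only [hs1, h3, mul_nonneg (sub_nonneg.2 h3) (sub_nonneg.2 hs1.le)]
      have h5 : 0 ≤ s * (1 - s ^ 3) := by
        apply mul_nonneg hs.le
        have : s ^ 3 ≤ 1 := pow_le_one₀ hs.le hs1.le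
        linarith only [this]
      have h6 : (s * (1 - s ^ 3)) ^ 2 ≤ (3825 / 10000) ^ 2 := pow_le_pow_left₀ h5 h4 2
      have h7 : 12 * σ ^ 2 ≤ s * ρ := by
        have := mul_le_mul_of_nonneg_left hρ12 hs.le
        have h8 : s * (12 * σ ^ 3) = 12 * σ ^ 2 * (σ * s) := by ring
        rw [h8, hσs, mul_one] at this
        exact this
      have h8 : (2 * (1 - s ^ 3)) ^ 2 = 4 * (s * (1 - s ^ 3)) ^ 2 * σ ^ 2 := by
        have h10 : 4 * (s * (1 - s ^ 3)) ^ 2 * σ ^ 2 = 4 * ((σ * s) ^ 2 * (1 - s ^ 3) ^ 2) := by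
          ring
        rw [h10, hσs]
        ring
      rw [h8]
      have h9 : 4 * (s * (1 - s ^ 3)) ^ 2 * σ ^ 2 ≤ 4 * (3825 / 10000) ^ 2 * σ ^ 2 := by
        apply mul_le_mul_of_nonneg_right _ (sq_nonneg σ)
        linarith only [h6]
      have h11 : 0 ≤ σ ^ 2 := by (clear * -; positivity)
      linarith only [h11, h9, h7]
    · have h4 : (1 - s ^ 2) * (135 / 2 - 54 * s ^ 2) ≤ s ^ 4 * ρ := by
        have h6 := mul_le_mul_of_nonneg_left hρ5 (show 0 ≤ s ^ 4 by positivity)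
        have h7 : s ^ 4 * (27 / 2 * y + 135 / 2 * y ^ 2) =
            27 / 2 * (y * s ^ 2) * s ^ 2 + 135 / 2 * (y * s ^ 2) ^ 2 := by ring
        rw [h7, hys] at h6
        linarith only [h6]
      have h5 : (1 - s) * s ^ 3 ≤ 27 / 256 := by
        have h6 : 27 / 256 - (1 - s) * s ^ 3 = (s - 3 / 4) ^ 2 * (s ^ 2 + s / 2 + 3 / 16) := by
          ring
        have h7 : 0 ≤ (s - 3 / 4) ^ 2 * (s ^ 2 + s / 2 + 3 / 16) := by (clear * - hs; positivity)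
        linarith only [h7]
      have h6 : (1 + s + s ^ 2) ^ 2 ≤ (24924 / 10000) ^ 2 := by
        apply pow_le_pow_left₀ (by positivity)
        nlinarith only [h3, hs]
      have h7 : (1 - s) * s ^ 3 * (1 + s + s ^ 2) ^ 2 ≤ 27 / 256 * (24924 / 10000) ^ 2 := by
        apply mul_le_mul h5 h6 (by positivity) (by norm_num)
      have h8 : 56 ≤ (1 + s) * (135 / 2 - 54 * s ^ 2) := by
        nlinarith only [h3, hs]
      have h9 : 4 * ((1 - s) * s ^ 3 * (1 + s + s ^ 2) ^ 2) ≤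
          49 / 1000 * ((1 + s) * (135 / 2 - 54 * s ^ 2)) := by
        linarith only [h8, h7]
      have h10 : 4 * (1 - s ^ 3) ^ 2 * s ^ 3 ≤
          49 / 1000 * ((1 - s ^ 2) * (135 / 2 - 54 * s ^ 2)) := by
        have h11 := mul_le_mul_of_nonneg_left h9 (show 0 ≤ 1 - s by linarith only [hs1])
        have h12 : 4 * (1 - s ^ 3) ^ 2 * s ^ 3 =
            (1 - s) * (4 * ((1 - s) * s ^ 3 * (1 + s + s ^ 2) ^ 2)) := by ring
        have h13 : 49 / 1000 * ((1 - s ^ 2) * (135 / 2 - 54 * s ^ 2)) =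
            (1 - s) * (49 / 1000 * ((1 + s) * (135 / 2 - 54 * s ^ 2))) := by ring
        rw [h12, h13]
        exact h11
      have h14 : 4 * (1 - s ^ 3) ^ 2 * s ^ 3 ≤ 49 / 1000 * (s * ρ) * s ^ 3 := by
        have : 49 / 1000 * (s * ρ) * s ^ 3 = 49 / 1000 * (s ^ 4 * ρ) := by ring
        rw [this]
        linarith only [h4, h10]
      have h15 : 0 < s ^ 3 := by positivity
      have h16 := le_of_mul_le_mul_right h14 h15
      linarith only [h16]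
  have h3 : (2 * σ - 2 * s ^ 2) ^ 2 = ((2 * σ - 2 * s ^ 2) * s) ^ 2 * σ ^ 2 := by
    have : ((2 * σ - 2 * s ^ 2) * s) ^ 2 * σ ^ 2 = (2 * σ - 2 * s ^ 2) ^ 2 * (σ * s) ^ 2 := by ring
    rw [this, hσs]
    ring
  rw [h3]
  have h4 := mul_le_mul_of_nonneg_right key (sq_nonneg σ)
  have h5 : 49 / 1000 * (s * ρ) * σ ^ 2 = 49 / 1000 * (σ * ρ) * (σ * s) := by ring
  rw [h5, hσs, mul_one] at h4
  exact h4

/-- the upper side -/
theorem upper {ρ Xa g sig xi chi k0 η R1 Th : ℝ} (hρ : 0 < ρ) (hX : Xa ≤ chi * ρ) (hX0 : 0 < Xa)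
    (hg0 : 0 ≤ g) (hk0 : 0 < k0) (hη : 0 ≤ η) (hf1 : η * g ≤ 9 / 100 * ρ)
    (hf2 : η ^ 2 * g ≤ 2 / 25 * ρ * k0) (hR0 : 0 ≤ R1) (hR1 : R1 ≤ ρ / 100)
    (hR2 : R1 ^ 2 ≤ 1 / 70000 * ρ * Xa) (hxs : 19 / 100 ≤ sig - xi) (hsig : sig ≤ 1)
    (h1 : (1 - sig) ^ 2 * chi ≤ 13 / 25 * (sig - xi)) (h2 : (1 - sig) * chi ≤ 1 / 5)
    (hTh : Th = (sig - xi) * Xa + k0 * g) :
    0 ≤ (1 - sig) * Xa + η * g + R1 ∧ (1 - sig) * Xa + η * g + R1 ≤ 3 / 10 * ρ ∧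
      ((1 - sig) * Xa + η * g + R1) ^ 2 ≤ 31 / 50 * (ρ * Th) := by
  have hThX : 19 / 100 * Xa ≤ Th := by
    rw [hTh]
    have h3 := mul_le_mul_of_nonneg_right hxs hX0.le
    have h4 : 0 ≤ k0 * g := by (clear * - hk0 hg0; positivity)
    linarith only [h4, h3]
  have hA : ((1 - sig) * Xa + η * g) ^ 2 ≤ 3 / 5 * (ρ * Th) := by
    have h3 : ((1 - sig) * Xa) ^ 2 ≤ 13 / 25 * (ρ * ((sig - xi) * Xa)) := by
      have h4 : (1 - sig) ^ 2 * Xa ≤ (1 - sig) ^ 2 * (chi * ρ) :=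
        mul_le_mul_of_nonneg_left hX (sq_nonneg _)
      have h5 : (1 - sig) ^ 2 * (chi * ρ) ≤ 13 / 25 * (sig - xi) * ρ := by
        have := mul_le_mul_of_nonneg_right h1 hρ.le
        (clear * - this; linarith only [this])
      have h6 := mul_le_mul_of_nonneg_right (h4.trans h5) hX0.le
      have e1 : ((1 - sig) * Xa) ^ 2 = (1 - sig) ^ 2 * Xa * Xa := by ring
      rw [e1]
      linarith only [h6]
    have h4 : (η * g) ^ 2 ≤ 2 / 25 * (ρ * (k0 * g)) := by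
      have := mul_le_mul_of_nonneg_right hf2 hg0
      have e1 : (η * g) ^ 2 = η ^ 2 * g * g := by ring
      rw [e1]
      (clear * - this; linarith)
    have h5 := sq_nonneg (2 * ((1 - sig) * Xa) - 13 * (η * g))
    have h6 : ((1 - sig) * Xa + η * g) ^ 2 ≤ 15 / 13 * ((1 - sig) * Xa) ^ 2 +
        15 / 2 * (η * g) ^ 2 := by linarith only [h5]
    rw [hTh]
    linarith only [h3, h4, h5]
  have hR1T : R1 ^ 2 ≤ 1 / 13000 * (ρ * Th) := by
    have h3 : ρ * (19 / 100 * Xa) ≤ ρ * Th := mul_le_mul_of_nonneg_left hThX hρ.le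
    have h4 : 0 ≤ ρ * Xa := by positivity
    linarith only [hR2, h3, h4]
  have hX1 : 0 ≤ (1 - sig) * Xa := mul_nonneg (by linarith only [hsig]) hX0.le
  have hηg : 0 ≤ η * g := mul_nonneg hη hg0
  have hS0 : 0 ≤ ρ * Th := by
    have : 0 ≤ Th := by linarith only [hX0, hThX]
    (clear * - hρ this; positivity)
  refine ⟨by linarith only [hR0, hX1, hηg], ?_, ?_⟩
  · have h3 : (1 - sig) * Xa ≤ (1 - sig) * (chi * ρ) :=
      mul_le_mul_of_nonneg_left hX (by linarith only [hsig])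
    have h4 : (1 - sig) * (chi * ρ) ≤ 1 / 5 * ρ := by
      have := mul_le_mul_of_nonneg_right h2 hρ.le
      linarith only [this]
    (clear * - hf1 hR1 h3 h4; linarith)
  · have h3 := sq_nonneg (((1 - sig) * Xa + η * g) - 50 * R1)
    have h4 : ((1 - sig) * Xa + η * g + R1) ^ 2 ≤ 51 / 50 * ((1 - sig) * Xa + η * g) ^ 2 +
        51 * R1 ^ 2 := by linarith only [h3]
    (clear * - hA hR1T hS0 h3; linarith)

/-- the lower side -/
theorem lower {ρ Xa g k0 q a R2 Th σ : ℝ} (hρ12 : 12 ≤ ρ) (hX0 : 0 < Xa) (hσ0 : 0 < σ)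
    (hg0 : 0 ≤ g) (hag : a ^ 2 ≤ 2 * g) (ha0 : 0 ≤ a) (ha1 : a ≤ 1)
    (hk0 : 27 / 125 * σ ≤ k0) (hq0 : 0 ≤ q) (hq : q ≤ 179 / 100)
    (hqsq : q ^ 2 ≤ 49 / 1000 * (σ * ρ))
    (hR0 : 0 ≤ R2) (hR2 : R2 ≤ ρ / 100) (hR2T : R2 ^ 2 ≤ 1 / 1400 * (ρ * Th))
    (hThg : k0 * g ≤ Th) :
    0 ≤ q * a + R2 ∧ q * a + R2 ≤ 4 / 25 * ρ ∧ (q * a + R2) ^ 2 ≤ 51 / 100 * (ρ * Th) := by
  have hqa : (q * a) ^ 2 ≤ 5 / 11 * (ρ * (k0 * g)) := by
    have h3 : (q * a) ^ 2 = q ^ 2 * a ^ 2 := by ring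
    have h4 : q ^ 2 * a ^ 2 ≤ 49 / 1000 * (σ * ρ) * (2 * g) :=
      mul_le_mul hqsq hag (sq_nonneg _) (by (clear * - hσ0 hρ12; positivity))
    have h5 : 27 / 125 * σ * (ρ * g) ≤ k0 * (ρ * g) :=
      mul_le_mul_of_nonneg_right hk0 (by positivity)
    have h6 : 0 ≤ σ * (ρ * g) := by positivity
    rw [h3]
    nlinarith only [h4, h5]
  have h00 : 0 ≤ q * a := mul_nonneg hq0 ha0
  refine ⟨by linarith only [hR0, h00], ?_, ?_⟩
  · have h4 : q * a ≤ 179 / 100 * 1 := mul_le_mul hq ha1 ha0 (by (clear * -; norm_num))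
    linarith only [h4, hR2, hρ12]
  · have h3 := sq_nonneg (q * a - 10 * R2)
    have h5 : (q * a + R2) ^ 2 ≤ 11 / 10 * (q * a) ^ 2 + 11 * R2 ^ 2 := by linarith only [h3]
    have h4 : ρ * (k0 * g) ≤ ρ * Th := mul_le_mul_of_nonneg_left hThg (by linarith only [hρ12])
    have h6 : 0 ≤ ρ * (k0 * g) := by
      have : 0 ≤ k0 := le_trans (by positivity) hk0
      (clear * - hρ12 this hg0; positivity)
    linarith only [hR2T, hqa, h3, h4, h6]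

/-- `(f1)`, `(f2)` -/
theorem ff {m y σ g η k0 ρ : ℝ} (hm : 27 ≤ m) (hy0 : 0 < y) (hσ0 : 0 < σ) (hg0 : 0 ≤ g)
    (hη0 : 0 ≤ η) (hηm : η * m ≤ 129 / 25 * σ) (hηm' : η ≤ 43 / 225 * σ)
    (hgY : g ≤ m * y / 2) (hρ1 : 4 / 3 * (m * y) * σ ≤ ρ) (hk0' : 27 / 125 * σ ≤ k0) :
    η * g ≤ 9 / 100 * ρ ∧ η ^ 2 * g ≤ 2 / 25 * ρ * k0 := by
  have hm0 : 0 < m := by linarith only [hm]
  have hyσ0 : 0 < y * σ := by positivity
  have hyσ2 : 0 < y * σ ^ 2 := by positivity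
  constructor
  · have h3 : η * g ≤ η * (m * y / 2) := mul_le_mul_of_nonneg_left hgY hη0
    have h4 : η * (m * y / 2) ≤ 129 / 25 * σ * (y / 2) := by
      have := mul_le_mul_of_nonneg_right hηm (show 0 ≤ y / 2 by positivity)
      (clear * - this; linarith only [this])
    have h5 : 27 * (y * σ) ≤ m * (y * σ) := mul_le_mul_of_nonneg_right hm hyσ0.le
    linarith
  · have h3 : η ^ 2 * g ≤ η ^ 2 * (m * y / 2) := mul_le_mul_of_nonneg_left hgY (sq_nonneg _)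
    have h4 : η ^ 2 * (m * y / 2) ≤ 43 / 225 * σ * (129 / 25 * σ) * (y / 2) := by
      have h5 : η * (η * m) ≤ 43 / 225 * σ * (129 / 25 * σ) :=
        mul_le_mul hηm' hηm (by positivity) (by positivity)
      have := mul_le_mul_of_nonneg_right h5 (show 0 ≤ y / 2 by positivity)
      linarith only [this]
    have h5 : 27 * (y * σ ^ 2) ≤ m * (y * σ ^ 2) := mul_le_mul_of_nonneg_right hm hyσ2.le
    have h6 : 2 / 25 * (4 / 3 * (m * y) * σ) * (27 / 125 * σ) ≤ 2 / 25 * ρ * k0 := by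
      have : 0 ≤ ρ := le_trans (by positivity) hρ1
      apply mul_le_mul (by linarith only [hρ1]) hk0' (by positivity) (by positivity)
    linarith only [hyσ2, h3, h4, h5, h6]

/-- bounds of `l` -/
theorem ell {m z y l A Xa : ℝ} (hm : 27 ≤ m) (hz : 0 < z) (hy0 : 0 < y) (hzy : 51 / 100 * y ≤ z)
    (hl0 : 0 < l) (hl18 : l ≤ m / 18) (ha1 : 2 * l ^ 2 ≤ (1 + l) * A) (hA : 0 < A)
    (hXa : Xa = (m + 3) * z * A) : 51 / 5 * (y * l ^ 2) ≤ Xa := by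
  have hm0 : 0 < m := by linarith only [hm]
  have h3 : 2 * l ^ 2 ≤ m / 10 * A := by
    refine ha1.trans (mul_le_mul_of_nonneg_right ?_ hA.le)
    linarith only [hl18, hm]
  have h4 : z * (2 * l ^ 2) ≤ z * (m / 10 * A) :=
    mul_le_mul_of_nonneg_left h3 hz.le
  have h5 : 0 ≤ z * A := by positivity
  have h6 : 20 * z * l ^ 2 ≤ Xa := by
    rw [hXa]
    linarith only [h5, h4]
  have := mul_le_mul_of_nonneg_right hzy (show 0 ≤ 20 * l ^ 2 by positivity)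
  linarith only [hXa, h4, h5, this]

theorem r1 {m y l ρ Xa : ℝ} (hm : 27 ≤ m) (hy0 : 0 < y) (hl0 : 0 < l) (hl18 : l ≤ m / 18)
    (hX : 51 / 5 * (y * l ^ 2) ≤ Xa) (hρY : 4 / 3 * (m * y) ≤ ρ) (hX0 : 0 < Xa) :
    0 ≤ 2 * y / (m + 2) * l ∧ 2 * y / (m + 2) * l ≤ ρ / 100 ∧
      (2 * y / (m + 2) * l) ^ 2 ≤ 1 / 70000 * ρ * Xa := by
  have hm0 : 0 < m := by linarith only [hm]
  have h0 : 0 ≤ 2 * y / (m + 2) * l := by (clear * - hy0 hm hl0; positivity)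
  have hle : 2 * y / (m + 2) ≤ 2 * y / 29 :=
    div_le_div_of_nonneg_left (by positivity) (by norm_num) (by linarith only [hm])
  refine ⟨h0, ?_, ?_⟩
  · have h3 : 2 * y / (m + 2) * l ≤ 2 * y / 29 * (m / 18) :=
      mul_le_mul hle hl18 hl0.le (by positivity)
    have h4 : 0 < m * y := by positivity
    linarith only [h4, h3, hρY]
  · have h3 : (2 * y / (m + 2) * l) ^ 2 ≤ (2 * y / 29 * l) ^ 2 :=
      pow_le_pow_left₀ h0 (mul_le_mul_of_nonneg_right hle hl0.le) 2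
    have h6 : (2 * y / 29 * l) ^ 2 = 4 / 841 * y * (y * l ^ 2) := by ring
    have h7 : 4 / 841 * y * (y * l ^ 2) ≤ 4 / 841 * y * (5 / 51 * Xa) := by
      apply mul_le_mul_of_nonneg_left _ (by positivity)
      linarith only [hX]
    have h8 : y ≤ ρ / 36 := by
      have := mul_le_mul_of_nonneg_right hm hy0.le
      linarith only [hρY, this]
    have h9 := mul_le_mul_of_nonneg_right h8 hX0.le
    have h10 : 0 ≤ ρ * Xa := by
      have : 0 ≤ ρ := by linarith only [hy0, h8]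
      (clear * - this hX0; positivity)
    linarith only [h10, h9, h7, h3]

theorem r2 {m y σ l ρ Xa Th : ℝ} (hm : 27 ≤ m) (hy0 : 0 < y) (hyl : y ≤ 49 / 51)
    (hσ1 : 1 < σ) (hyσ : y = σ ^ 2 - 1) (hY9 : 9 ≤ m * y) (hl0 : 0 < l) (hl18 : l ≤ m / 18)
    (hX : 51 / 5 * (y * l ^ 2) ≤ Xa) (hρ2 : 5 / 2 * (m * y ^ 2) ≤ ρ) (hX0 : 0 < Xa)
    (hThX : 19 / 100 * Xa ≤ Th) :
    0 ≤ ((σ - 1) ^ 2 + (σ - 1) / m) * l ∧ ((σ - 1) ^ 2 + (σ - 1) / m) * l ≤ ρ / 100 ∧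
      (((σ - 1) ^ 2 + (σ - 1) / m) * l) ^ 2 ≤ 1 / 1400 * (ρ * Th) := by
  have hm0 : 0 < m := by linarith only [hm]
  have h0 : 0 ≤ (σ - 1) / m := div_nonneg (by linarith only [hσ1]) hm0.le
  have h00 : 0 ≤ ((σ - 1) ^ 2 + (σ - 1) / m) * l := by positivity
  have hR2y : ((σ - 1) ^ 2 + (σ - 1) / m) * l ≤ 11 / 36 * y ^ 2 * l := by
    apply mul_le_mul_of_nonneg_right _ hl0.le
    have h3 : σ - 1 ≤ y / 2 := by
      rw [hyσ]
      linarith only [sq_nonneg (σ - 1)]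
    have h4 : (σ - 1) ^ 2 ≤ (y / 2) ^ 2 := pow_le_pow_left₀ (by linarith only [hσ1]) h3 2
    have h5 : (σ - 1) / m ≤ y ^ 2 / 18 := by
      rw [div_le_iff₀ hm0]
      (by_contra nlg; linarith only [nlg, mul_nonneg (sub_nonneg.2 h3) (sub_nonneg.2 h3), mul_nonneg (sub_nonneg.2 hY9) (sub_nonneg.2 h3), mul_nonneg (sub_nonneg.2 hY9) (sub_nonneg.2 hY9), mul_nonneg (le_of_lt (sub_pos.2 hσ1)) (sub_nonneg.2 h3), mul_nonneg (le_of_lt (sub_pos.2 hσ1)) (sub_nonneg.2 hY9), mul_nonneg (sub_nonneg.2 hyl) (sub_nonneg.2 h3), mul_nonneg (sub_nonneg.2 hyl) (sub_nonneg.2 hY9), mul_nonneg (sub_nonneg.2 hm) (sub_nonneg.2 h3), mul_pos (sub_pos.2 (not_le.1 nlg)) (sub_pos.2 hm0)])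
    linarith only [h4, h5]
  have hmy : 0 < m * y ^ 2 := by positivity
  have h8 : 135 / 2 * y ^ 2 ≤ ρ := by
    refine le_trans ?_ hρ2
    have := mul_le_mul_of_nonneg_right hm (sq_nonneg y)
    linarith only [this]
  have hρ0 : 0 < ρ := lt_of_lt_of_le (by positivity) h8
  refine ⟨h00, ?_, ?_⟩
  · have h3 : 11 / 36 * y ^ 2 * l ≤ 11 / 36 * y ^ 2 * (m / 18) :=
      mul_le_mul_of_nonneg_left hl18 (by positivity)
    linarith only [hρ2, hR2y, hmy, h3]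
  · have h3 : (((σ - 1) ^ 2 + (σ - 1) / m) * l) ^ 2 ≤ (11 / 36 * y ^ 2 * l) ^ 2 :=
      pow_le_pow_left₀ h00 hR2y 2
    have h5 : (11 / 36 * y ^ 2 * l) ^ 2 = 121 / 1296 * y ^ 3 * (y * l ^ 2) := by ring
    have h6 : 121 / 1296 * y ^ 3 * (y * l ^ 2) ≤ 121 / 1296 * y ^ 3 * (5 / 51 * Xa) := by
      apply mul_le_mul_of_nonneg_left _ (by (clear * - hy0; positivity))
      linarith only [hX]
    have h7 : y ^ 3 ≤ 49 / 51 * y ^ 2 := by
      have := mul_le_mul_of_nonneg_right hyl (sq_nonneg y)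
      linarith only [this]
    have h9 : y ^ 3 * Xa ≤ 98 / 6885 * ρ * Xa := by
      apply mul_le_mul_of_nonneg_right _ hX0.le
      linarith only [h8, h7]
    have h10 : ρ * (19 / 100 * Xa) ≤ ρ * Th := mul_le_mul_of_nonneg_left hThX hρ0.le
    have h11 : 0 < ρ * Xa := by (clear * - hρ0 hX0; positivity)
    linarith only [h3, h6, h9, h10, h11]


/-- the last step, in abstract variables -/
theorem fin {T e ρ Xa g W N T0 ba CK κ σ c η k0 Th sig xi F qc q rl R1 R2 u : ℝ}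
    (hρ : 0 < ρ) (hXpos : 0 < Xa) (hg0 : 0 ≤ g) (hW : 0 ≤ W) (hσ0 : 0 < σ) (hc0 : 0 ≤ c)
    (hc2 : c ≤ 1) (hu0 : u ≤ 0) (hNg : -g ≤ N) (hκpos : 0 < κ) (hCK : 0 ≤ CK) (hη0 : 0 ≤ η)
    (hxi : xi ≤ 1) (hxs : 19 / 100 ≤ sig - xi)
    (hTu : T = T0 + (F + CK) * W + κ * N + ba) (hS : sig * Xa ≤ T0 + ba)
    (hV : 237 / 100 * σ * g ≤ F * W + xi * Xa)
    (hEe : e = Xa + F * W + 2 * c * σ * N + qc * u + rl)
    (hk0 : k0 = 237 / 100 * σ - κ) (hk0p : 0 < k0) (hη : η = κ - 2 * c * σ)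
    (hTh : Th = (sig - xi) * Xa + k0 * g) (hqc : 0 ≤ qc) (hqcq : qc ≤ q)
    (hrR1 : rl ≤ R1) (hrR2 : -R2 ≤ rl)
    (hPh0 : 0 ≤ (1 - sig) * Xa + η * g + R1) (hPhρ : (1 - sig) * Xa + η * g + R1 ≤ 3 / 10 * ρ)
    (hPhsq : ((1 - sig) * Xa + η * g + R1) ^ 2 ≤ 31 / 50 * (ρ * Th))
    (hE00 : 0 ≤ q * (-u) + R2) (hE0ρ : q * (-u) + R2 ≤ 4 / 25 * ρ)
    (hE0sq : (q * (-u) + R2) ^ 2 ≤ 51 / 100 * (ρ * Th)) : JTest T e ρ u := by
  have hkg : 0 ≤ k0 * g := by (clear * - hk0p hg0; positivity)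
  have hThpos : 0 < Th := by
    rw [hTh]
    have h3 : 0 < (sig - xi) * Xa := mul_pos (by linarith only [hxs]) hXpos
    linarith only [h3, hkg]
  have hκN : κ * (-g) ≤ κ * N := mul_le_mul_of_nonneg_left hNg hκpos.le
  have hCKW : 0 ≤ CK * W := mul_nonneg hCK hW
  have hTTh : Th ≤ T := by
    rw [hTh, hk0, hTu]
    linarith only [hκN, hCKW, hS, hV]
  have hPh : e - T ≤ (1 - sig) * Xa + η * g + R1 := by
    have h3 : qc * u ≤ 0 := mul_nonpos_of_nonneg_of_nonpos hqc hu0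
    have h4 : η * (-g) ≤ η * N := mul_le_mul_of_nonneg_left hNg hη0
    have h5 : η * N = κ * N - 2 * c * σ * N := by rw [hη]; ring
    rw [hEe, hTu]
    linarith only [h3, h4, h5, hCKW, hS, hrR1]
  have hElow : -(q * (-u) + R2) ≤ e := by
    have h3 : 2 * c * σ * (-g) ≤ 2 * c * σ * N := mul_le_mul_of_nonneg_left hNg (by (clear * - hc0 hσ0; positivity))
    have h4 : 2 * c * σ * g ≤ 237 / 100 * σ * g := by
      apply mul_le_mul_of_nonneg_right _ hg0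
      apply mul_le_mul_of_nonneg_right _ hσ0.le
      linarith only [hc2]
    have h5 : xi * Xa ≤ 1 * Xa := mul_le_mul_of_nonneg_right hxi hXpos.le
    have h6 : qc * (-u) ≤ q * (-u) :=
      mul_le_mul_of_nonneg_right hqcq (by linarith only [hu0])
    rw [hEe]
    linarith only [h3, h4, h5, h6, hrR2, hV]
  have h4 : 0 < ρ * Th := by (clear * - hρ hThpos; positivity)
  refine JTest.of_bounds (T0 := Th) (P := (1 - sig) * Xa + η * g + R1) (E := q * (-u) + R2)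
    (θ := 9 / 10) hTTh hThpos.le (fun _ => hThpos) (by (clear * -; norm_num)) hPh hPh0
    (by linarith only [hPhρ, hρ]) ?_ hElow hE00 (by linarith only [hE0ρ, hρ]) ?_
  · have h3 : Th * (7 / 10 * ρ) ≤ Th * (ρ - ((1 - sig) * Xa + η * g + R1)) := by
      apply mul_le_mul_of_nonneg_left _ hThpos.le
      linarith only [hPhρ]
    linarith only [h3, h4, hPhsq]
  · have h3 : Th * (21 / 25 * ρ) ≤ Th * (ρ - (q * (-u) + R2)) := by
      apply mul_le_mul_of_nonneg_left _ hThpos.le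
      linarith only [hE0ρ]
    linarith only [h3, h4, hE0sq]

/-- **(A)** the test from (S), (V), (X) -/
theorem fxnA {m z s l u c G N sig xi chi : ℝ} (hm : 27 ≤ m) (hz : 0 < z) (hz1 : z ≤ 49 / 100)
    (hs : 0 < s) (hs2 : s ^ 2 = 1 - z) (hw : 9 ≤ m * z) (hl : 0 < l)
    (hT : z * Real.exp (2 * l) ≤ 1) (hu : 0 < 1 + u) (hu0 : u ≤ 0)
    (hc1 : 1 - 1 / (2 * m) ≤ c) (hc2 : c ≤ 1) (hc3 : c ^ 2 ≤ (m + 1) / (m + 2))
    (hN : Real.log (1 + u) - u ≤ N) (hv : m * Real.log s ≤ Real.log (1 + u))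
    (hS : sig * ((m + 3) * z * (Real.exp (-(2 * l)) - 1 + 2 * l)) ≤
      dpT m z s l 0 G 0 + 6 / 25 * (m + 3) * z * l * (-u))
    (hV : 237 / 100 / s * (u - Real.log (1 + u)) ≤
      4 * s ^ 2 * Real.exp (-(2 * l)) * (u ^ 2 / (1 + u)) +
        xi * ((m + 3) * z * (Real.exp (-(2 * l)) - 1 + 2 * l)))
    (hX : (m + 3) * z * (Real.exp (-(2 * l)) - 1 + 2 * l) ≤ chi * dpR m (z / s ^ 2))
    (hxi : 0 ≤ xi) (hxs : 19 / 100 ≤ sig - xi) (hsig : sig ≤ 1)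
    (h1 : (1 - sig) ^ 2 * chi ≤ 13 / 25 * (sig - xi)) (h2 : (1 - sig) * chi ≤ 1 / 5) :
    JTest (dpT m z s l u G N) (dpE m z s l u c N) (dpR m (z / s ^ 2)) u := by
  have hm0 : (0 : ℝ) < m := by linarith only [hm]
  obtain ⟨σ, y, hσ, hy, hσs, hσ1, hσ2, hyσ, hys, hy0, hyl, hY, hY9, hzy, hs1, hs714⟩ :=
    geo hm hz hz1 hs hs2 hw
  have hσ0 : 0 < σ := by linarith only [hσ1]
  have hCK := kK3 hz hs hs2 hT
  have hTu := dpT_sub m z s l u G N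
  have ha1 := a1_ge hl.le
  have ha1p := a1_pos hl
  have hl18 : l ≤ m / 18 := by
    have h3 : 2 * l + 1 ≤ Real.exp (2 * l) := Real.add_one_le_exp _
    have h4 : z * (2 * l + 1) ≤ 1 := (mul_le_mul_of_nonneg_left h3 hz.le).trans hT
    have h5 : 9 * (2 * l + 1) ≤ m * 1 := by
      calc 9 * (2 * l + 1) ≤ (m * z) * (2 * l + 1) :=
            mul_le_mul_of_nonneg_right hw (by linarith only [hl])
        _ = m * (z * (2 * l + 1)) := by ring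
        _ ≤ m * 1 := mul_le_mul_of_nonneg_left h4 hm0.le
    linarith only [h5]
  have hlogs : -Real.log s ≤ y / 2 := by
    have h3 := Real.log_le_sub_one_of_pos (show (0 : ℝ) < (s ^ 2)⁻¹ by positivity)
    rw [Real.log_inv, Real.log_pow] at h3
    have h4 : (s ^ 2)⁻¹ - 1 = y := by
      rw [hyσ, hσ]
      (clear * - hs; field_simp)
    push_cast at h3
    linarith only [h3, h4]
  have hg := g_ge hu hu0
  have hcs : 2 * c / s = 2 * c * σ := by rw [hσ]; ring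
  have hκ' : 237 / 100 / s = 237 / 100 * σ := by rw [hσ]; ring
  have hκe : 2 * (m + 1) / ((m - 1) * s) = 2 * (m + 1) / (m - 1) * σ := by
    rw [hσ]
    have : m - 1 ≠ 0 := by linarith only [hm]
    field_simp
  obtain ⟨κ, hκd⟩ : ∃ κ, κ = 2 * (m + 1) / (m - 1) * σ := ⟨_, rfl⟩
  obtain ⟨hκpos, hk0', hη0, hηm, hηm'⟩ := kap hm hσ0 hκd hc1 hc2
  obtain ⟨ρ, hρd⟩ : ∃ ρ, ρ = dpR m y := ⟨_, rfl⟩
  obtain ⟨hρ1, hρ2, hρ3, hρY, hρ5⟩ := rho hm hσ1 hyσ hy0 hY (ρ := ρ) hρd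
  have hρ12 : 12 ≤ ρ := by
    refine le_trans ?_ hρ3
    have : 1 ≤ σ ^ 3 := one_le_pow₀ hσ1.le
    linarith only [this]
  have hρpos : 0 < ρ := by linarith only [hyσ, hy0, hY, hρY]
  have hEe : dpE m z s l u c N = (m + 3) * z * (Real.exp (-(2 * l)) - 1 + 2 * l) +
      4 * s ^ 2 * Real.exp (-(2 * l)) * (u ^ 2 / (1 + u)) + 2 * c * σ * N +
      (2 * c * σ - 2 * s ^ 2 + 2 * (1 - c)) * u +
      (2 * c * σ - 2 + 2 * (1 - c) * (1 - m * y)) * l := by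
    rw [dpE, ← hy, hcs]
  rw [← hy, ← hρd]
  rw [← hy, ← hρd] at hX
  rw [hκ'] at hV
  rw [hκe, ← hκd] at hTu
  obtain ⟨CK, hCKd⟩ : ∃ CK, CK =
    4 / s - 4 * s / (1 + s) - 2 * s ^ 2 - 6 * (z / s ^ 3) * l + ksC z s l := ⟨_, rfl⟩
  rw [← hCKd] at hTu hCK
  obtain ⟨T0, hT0⟩ : ∃ T0, T0 = dpT m z s l 0 G 0 := ⟨_, rfl⟩
  rw [← hT0] at hTu hS
  obtain ⟨T, hTd⟩ : ∃ T, T = dpT m z s l u G N := ⟨_, rfl⟩
  rw [← hTd] at hTu ⊢
  obtain ⟨e, hed⟩ : ∃ e, e = dpE m z s l u c N := ⟨_, rfl⟩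
  rw [← hed] at hEe ⊢
  have hEpos : 0 < Real.exp (-(2 * l)) := Real.exp_pos _
  obtain ⟨E, hE⟩ : ∃ E, E = Real.exp (-(2 * l)) := ⟨_, rfl⟩
  rw [← hE] at hTu hEe hS hV hX ha1 ha1p hEpos
  obtain ⟨Xa, hXa⟩ : ∃ Xa, Xa = (m + 3) * z * (E - 1 + 2 * l) := ⟨_, rfl⟩
  have hXpos : 0 < Xa := by
    rw [hXa]
    exact mul_pos (by positivity) ha1p
  have hlX := ell hm hz hy0 hzy hl hl18 ha1 ha1p hXa
  rw [← hXa] at hEe hS hV hX
  have hW : 0 ≤ u ^ 2 / (1 + u) := by (clear * - hu; positivity)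
  obtain ⟨W, hWd⟩ : ∃ W, W = u ^ 2 / (1 + u) := ⟨_, rfl⟩
  rw [← hWd] at hTu hEe hV hW
  obtain ⟨g, hgd⟩ : ∃ g, g = u - Real.log (1 + u) := ⟨_, rfl⟩
  rw [← hgd] at hV hg
  have hNg : -g ≤ N := by rw [hgd]; linarith only [hN]
  have hgY : g ≤ m * y / 2 := by
    have := mul_le_mul_of_nonneg_left hlogs hm0.le
    rw [hgd]
    linarith only [hu0, hv, this]
  have hg0 : 0 ≤ g := by linarith only [hg, sq_nonneg u]
  clear hgd hWd hE hed hTd hT0 hCKd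
  obtain ⟨hf1, hf2⟩ := ff hm hy0 hσ0 hg0 hη0 hηm hηm' hgY hρ1 hk0'
  obtain ⟨r, hre⟩ : ∃ r, r = 2 * c * σ - 2 + 2 * (1 - c) * (1 - m * y) := ⟨_, rfl⟩
  obtain ⟨hrl, hrR⟩ := rr hm hσ1 hyσ hY9 hc1 hc2 hc3 hre
  rw [← hre] at hEe
  obtain ⟨hR10, hR1ρ, hR1sq⟩ := r1 hm hy0 hl hl18 hlX hρY hXpos
  have hrR1 : r * l ≤ 2 * y / (m + 2) * l := mul_le_mul_of_nonneg_right hrl hl.le
  obtain ⟨R1, hR1⟩ : ∃ R1, R1 = 2 * y / (m + 2) * l := ⟨_, rfl⟩
  rw [← hR1] at hR10 hR1ρ hR1sq hrR1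
  obtain ⟨k0, hk0⟩ : ∃ k0, k0 = 237 / 100 * σ - κ := ⟨_, rfl⟩
  rw [← hk0] at hk0' hf2
  have hk0pos : 0 < k0 := lt_of_lt_of_le (by positivity) hk0'
  obtain ⟨η, hη⟩ : ∃ η, η = κ - 2 * c * σ := ⟨_, rfl⟩
  rw [← hη] at hη0 hηm hηm' hf1 hf2
  obtain ⟨Th, hTh⟩ : ∃ Th, Th = (sig - xi) * Xa + k0 * g := ⟨_, rfl⟩
  obtain ⟨hPh0, hPhρ, hPhsq⟩ := upper hρpos hX hXpos hg0 hk0pos hη0 hf1 hf2 hR10 hR1ρ hR1sq hxs
    hsig h1 h2 hTh
  have hkg : 0 ≤ k0 * g := by (clear * - hk0pos hg0; positivity)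
  have hThX : 19 / 100 * Xa ≤ Th := by
    rw [hTh]
    have h3 := mul_le_mul_of_nonneg_right hxs hXpos.le
    linarith only [hkg, h3]
  have hThg : k0 * g ≤ Th := by
    rw [hTh]
    have h3 : 0 ≤ (sig - xi) * Xa := mul_nonneg (by linarith only [hxs]) hXpos.le
    linarith only [h3]
  have hThpos : 0 < Th := lt_of_lt_of_le (by (clear * - hXpos; positivity)) hThX
  have hc0 : 0 ≤ c := by
    have : 1 / (2 * m) ≤ 1 := by
      rw [div_le_one (by linarith only [hm])]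
      linarith only [hm]
    linarith only [this, hc1]
  have hqc : 0 ≤ 2 * c * σ - 2 * s ^ 2 + 2 * (1 - c) := by
    have h3 : 2 * c * 1 ≤ 2 * c * σ := mul_le_mul_of_nonneg_left hσ1.le (by linarith only [hc0])
    linarith only [h3, hs2, hz]
  -- lower side
  obtain ⟨hR20, hR2ρ, hR2T⟩ := r2 hm hy0 hyl hσ1 hyσ hY9 hl hl18 hlX hρ2 hXpos hThX
  have hrR2 : -(((σ - 1) ^ 2 + (σ - 1) / m) * l) ≤ r * l := by
    have := mul_le_mul_of_nonneg_right hrR hl.le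
    linarith only [this]
  obtain ⟨R2, hR2⟩ : ∃ R2, R2 = ((σ - 1) ^ 2 + (σ - 1) / m) * l := ⟨_, rfl⟩
  rw [← hR2] at hR20 hR2ρ hR2T hrR2
  have hqsq := qsq hσs hs hs1 hs714 (by rw [hys]; linarith only [hs2]) hρ3 hρ5
  have hqcq : 2 * c * σ - 2 * s ^ 2 + 2 * (1 - c) ≤ 2 * σ - 2 * s ^ 2 := by
    have h3 : 0 ≤ (1 - c) * (σ - 1) :=
      mul_nonneg (by linarith only [hc2]) (by linarith only [hσ1])
    linarith only [h3]
  have hq1 : 2 * σ - 2 * s ^ 2 ≤ 179 / 100 := by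
    linarith only [hs2, hz1, hσ2]
  obtain ⟨q, hq⟩ : ∃ q, q = 2 * σ - 2 * s ^ 2 := ⟨_, rfl⟩
  rw [← hq] at hqsq hqcq hq1
  have hq0 : 0 ≤ q := hqc.trans hqcq
  obtain ⟨hE00, hE0ρ, hE0sq⟩ := lower (a := -u) hρ12 hXpos hσ0 hg0 (by rw [neg_sq]; exact hg)
    (by linarith only [hu0]) (by linarith only [hu]) hk0' hq0 hq1 hqsq hR20 hR2ρ hR2T hThg
  exact fin (ba := 6 / 25 * (m + 3) * z * l * (-u)) (F := 4 * s ^ 2 * E)
    (qc := 2 * c * σ - 2 * s ^ 2 + 2 * (1 - c)) (rl := r * l) hρpos hXpos hg0 hW hσ0 hc0 hc2 hu0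
    hNg hκpos hCK hη0 (by linarith only [hxs, hsig]) hxs (by rw [hTu]; ring) hS hV hEe hk0 hk0pos
    hη hTh hqc hqcq hrR1 hrR2 hPh0 hPhρ hPhsq hE00 hE0ρ hE0sq

end Vale.Agent.P237.AllN.FXnA
end
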