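import Vale.Agent.P237.Bd3.B1
import Vale.Agent.P237.Bd3.B2

set_option linter.all false

section

/-!
# P237, almost Petty: the transported test function
-/

open MeasureTheory Metric Set Module Filter Real
open scoped Topology

namespace Vale.Agent.P237.Alm

open AllN

/-- The half integral of the section function. -/
noncomputable def hI (m : ℕ) (r : ℝ → ℝ) : ℝ := ∫ y in (0 : ℝ)..1, r y ^ m

/-- The half integral of `cos^(m-1)`. -/
noncomputable def cZ (m : ℕ) : ℝ := ∫ β in (0 : ℝ)..(π / 2), cos β ^ (m - 1)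

/-- the inverse of the normalised angle function -/
structure IsAngle (m : ℕ) (al : ℝ → ℝ) : Prop where
  zero : al 0 = 0
  mem : ∀ v ∈ Ico (0 : ℝ) 1, al v ∈ Ico (0 : ℝ) (π / 2)
  mono : MonotoneOn al (Ico (0 : ℝ) 1)
  int : ∀ v ∈ Ico (0 : ℝ) 1, ∫ β in (0 : ℝ)..(al v), cos β ^ (m - 1) = v * cZ m
  cont : ContinuousOn al (Ico (0 : ℝ) 1)
  der : ∀ v ∈ Ioo (0 : ℝ) 1, HasDerivAt al (cZ m / cos (al v) ^ (m - 1)) v

/-- distribution function of the cone measure -/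
noncomputable def vv (m : ℕ) (r : ℝ → ℝ) (y : ℝ) : ℝ :=
  (((m : ℝ) + 1) * (∫ s in (0 : ℝ)..y, r s ^ m) - y * r y ^ m) / (((m : ℝ) + 1) * hI m r)

/-- its density -/
noncomputable def vd (m : ℕ) (r : ℝ → ℝ) (y : ℝ) : ℝ :=
  (m : ℝ) * r y ^ (m - 1) * (r y - y * rd r y) / (((m : ℝ) + 1) * hI m r)

variable {m : ℕ} {r : ℝ → ℝ} (hr : IsProf r)

include hr

theorem hI_pos : 0 < hI m r := by
  unfold hI
  refine intervalIntegral.intervalIntegral_pos_of_pos_on (prof_pow_ii hr m ⟨le_rfl, zero_le_one⟩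
    ⟨zero_le_one, le_rfl⟩) (fun y hy => ?_) zero_lt_one
  exact pow_pos (prof_pos' hr ⟨hy.1.le, hy.2⟩) m

theorem prof_contOn {y1 : ℝ} (h1 : y1 < 1) : ContinuousOn r (Icc 0 y1) :=
  (prof_cont hr).mono fun y hy => ⟨by linarith [hy.1], by linarith [hy.2]⟩

theorem RR_has {y : ℝ} (hy : y ∈ Ioo (0 : ℝ) 1) :
    HasDerivAt (fun y => ∫ s in (0 : ℝ)..y, r s ^ m) (r y ^ m) y := by
  refine intervalIntegral.integral_hasDerivAt_right
    (prof_pow_ii hr m ⟨le_rfl, zero_le_one⟩ ⟨hy.1.le, hy.2.le⟩) ?_ ?_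
  · have h1 : ContinuousOn (fun s => r s ^ m) (Ioo (-1) 1) := (prof_cont hr).pow m
    exact h1.stronglyMeasurableAtFilter isOpen_Ioo y ⟨by linarith [hy.1], hy.2⟩
  · exact (prof_contAt hr ⟨by linarith [hy.1], hy.2⟩).pow m

theorem RR_cont : ContinuousOn (fun y => ∫ s in (0 : ℝ)..y, r s ^ m) (Icc 0 1) := by
  have h := intervalIntegral.continuousOn_primitive_interval (μ := volume) (f := fun s => r s ^ m)
    (a := 0) (b := 1) ?_
  · rwa [uIcc_of_le zero_le_one] at h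
  · rw [uIcc_of_le zero_le_one]
    exact (intervalIntegrable_iff_integrableOn_Icc_of_le zero_le_one).1
      (prof_pow_ii hr m ⟨le_rfl, zero_le_one⟩ ⟨zero_le_one, le_rfl⟩)

omit hr in
theorem vv_zero : vv m r 0 = 0 := by
  unfold vv
  simp

theorem vv_cont : ContinuousOn (vv m r) (Ico 0 1) := by
  unfold vv
  have h1 : ContinuousOn r (Ico 0 1) :=
    (prof_cont hr).mono fun y hy => ⟨by linarith [hy.1], hy.2⟩
  have h2 := (RR_cont (m := m) hr).mono (Ico_subset_Icc_self)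
  exact ((continuousOn_const.mul h2).sub (continuousOn_id.mul (h1.pow m))).div_const _

theorem vv_has (hm : 1 ≤ m) {y : ℝ} (hy : y ∈ Ioo (0 : ℝ) 1) :
    HasDerivWithinAt (vv m r) (vd m r y) (Ioi y) y := by
  have h1 := (RR_has (m := m) hr hy).hasDerivWithinAt (s := Ioi y)
  have h2 := pow_rd hr (y := y) ⟨by linarith only [hy.1], hy.2⟩ m
  have h3 := (hasDerivWithinAt_id y (Ioi y)).mul h2
  have h4 := ((h1.const_mul ((m : ℝ) + 1)).sub h3).div_const (((m : ℝ) + 1) * hI m r)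
  refine h4.congr_deriv ?_
  unfold vd
  congr 1
  obtain ⟨k, rfl⟩ : ∃ k, m = k + 1 := ⟨m - 1, by omega⟩
  simp only [Nat.add_sub_cancel, id, one_mul]
  push_cast
  ring

theorem vd_nonneg {y : ℝ} (hy : y ∈ Ico (0 : ℝ) 1) : 0 ≤ vd m r y := by
  unfold vd
  have h1 := (prof_pos' hr hy).le
  have h2 := rd_nonpos hr hy
  have h3 := (hI_pos (m := m) hr).le
  have h4 : 0 ≤ r y - y * rd r y := by
    have := mul_nonneg hy.1 (neg_nonneg.2 h2)
    linarith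
  (clear * - h1 h4 h3; positivity)

theorem integral_ge {a b : ℝ} (ha : 0 ≤ a) (hab : a ≤ b) (hb : b ≤ 1) :
    (b - a) * r b ^ m ≤ ∫ s in a..b, r s ^ m := by
  have h1 : ∫ _ in a..b, r b ^ m = (b - a) * r b ^ m := by simp
  rw [← h1]
  refine intervalIntegral.integral_mono_on hab (by simp) (prof_pow_ii hr m ⟨ha, hab.trans hb⟩
    ⟨ha.trans hab, hb⟩) fun s hs => ?_
  have m1 : s ∈ Icc (0 : ℝ) 1 := ⟨ha.trans hs.1, hs.2.trans hb⟩
  have m2 : b ∈ Icc (0 : ℝ) 1 := ⟨ha.trans hab, hb⟩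
  exact pow_le_pow_left₀ (prof_nn hr m2) (prof_anti hr m1 m2 hs.2) m

theorem integral_le {a b : ℝ} (ha : 0 ≤ a) (hab : a ≤ b) (hb : b ≤ 1) :
    ∫ s in a..b, r s ^ m ≤ (b - a) * r a ^ m := by
  have h1 : ∫ _ in a..b, r a ^ m = (b - a) * r a ^ m := by simp
  rw [← h1]
  refine intervalIntegral.integral_mono_on hab (prof_pow_ii hr m ⟨ha, hab.trans hb⟩
    ⟨ha.trans hab, hb⟩) (by simp) fun s hs => ?_
  have m1 : s ∈ Icc (0 : ℝ) 1 := ⟨ha.trans hs.1, hs.2.trans hb⟩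
  have m2 : a ∈ Icc (0 : ℝ) 1 := ⟨ha, hab.trans hb⟩
  exact pow_le_pow_left₀ (prof_nn hr m1) (prof_anti hr m2 m1 hs.1) m

theorem one_sub_vv {y : ℝ} (hy : y ∈ Icc (0 : ℝ) 1) :
    ((m : ℝ) + 1) * hI m r * (1 - vv m r y) =
      ((m : ℝ) + 1) * (∫ s in y..1, r s ^ m) + y * r y ^ m := by
  have h1 : (∫ s in (0 : ℝ)..y, r s ^ m) + ∫ s in y..1, r s ^ m = hI m r :=
    intervalIntegral.integral_add_adjacent_intervals
      (prof_pow_ii hr m ⟨le_rfl, zero_le_one⟩ hy) (prof_pow_ii hr m hy ⟨zero_le_one, le_rfl⟩)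
  have h2 := hI_pos (m := m) hr
  unfold vv
  rw [mul_sub, mul_div_cancel₀ _ (by positivity), ← h1]
  ring

theorem vv_lt_one (hm : 1 ≤ m) {y : ℝ} (hy : y ∈ Ico (0 : ℝ) 1) : vv m r y < 1 := by
  have h1 := one_sub_vv (m := m) hr (y := y) ⟨hy.1, hy.2.le⟩
  have h2 := hI_pos (m := m) hr
  have h3 : 0 < ((m : ℝ) + 1) * (∫ s in y..1, r s ^ m) + y * r y ^ m := by
    have h4 : 0 < ∫ s in y..1, r s ^ m := by
      refine intervalIntegral.intervalIntegral_pos_of_pos_on (prof_pow_ii hr m ⟨hy.1, hy.2.le⟩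
        ⟨zero_le_one, le_rfl⟩) (fun s hs => ?_) hy.2
      exact pow_pos (prof_pos' hr ⟨hy.1.trans hs.1.le, hs.2⟩) m
    have h5 : 0 ≤ y * r y ^ m := mul_nonneg hy.1 (pow_nonneg (prof_pos' hr hy).le m)
    positivity
  rw [← h1] at h3
  have h6 : 0 < 1 - vv m r y := by
    by_contra hcon
    push Not at hcon
    have := mul_nonpos_of_nonneg_of_nonpos (by positivity : 0 ≤ ((m : ℝ) + 1) * hI m r) hcon
    linarith
  linarith

theorem vv_nonneg {y : ℝ} (hy : y ∈ Icc (0 : ℝ) 1) : 0 ≤ vv m r y := by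
  unfold vv
  have h2 := hI_pos (m := m) hr
  have h3 := integral_ge (m := m) hr le_rfl hy.1 hy.2
  rw [sub_zero] at h3
  have h5 : 0 ≤ y * r y ^ m := mul_nonneg hy.1 (pow_nonneg (prof_nn hr hy) m)
  apply div_nonneg _ (by positivity)
  have hm0 : (0 : ℝ) ≤ m := Nat.cast_nonneg m
  linarith only [mul_nonneg (sub_nonneg.2 h5) (sub_nonneg.2 hm0), mul_nonneg (sub_nonneg.2 h3) (sub_nonneg.2 hm0), h3]

theorem vv_pos (hm : 1 ≤ m) {y : ℝ} (hy : y ∈ Ioo (0 : ℝ) 1) : 0 < vv m r y := by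
  unfold vv
  have h2 := hI_pos (m := m) hr
  have h3 := integral_ge (m := m) hr le_rfl hy.1.le hy.2.le
  rw [sub_zero] at h3
  have h5 : 0 < y * r y ^ m := mul_pos hy.1 (pow_pos (prof_pos' hr ⟨hy.1.le, hy.2⟩) m)
  apply div_pos _ (by positivity)
  have hm0 : (1 : ℝ) ≤ m := by exact_mod_cast hm
  linarith only [mul_nonneg (le_of_lt (sub_pos.2 h5)) (sub_nonneg.2 hm0), mul_nonneg (sub_nonneg.2 h3) (sub_nonneg.2 hm0), h5, h3]

theorem vv_mem (hm : 1 ≤ m) {y : ℝ} (hy : y ∈ Ico (0 : ℝ) 1) : vv m r y ∈ Ico (0 : ℝ) 1 :=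
  ⟨vv_nonneg hr ⟨hy.1, hy.2.le⟩, vv_lt_one hr hm hy⟩

/-- `c * vd` is integrable for continuous `c` -/
theorem ii_mul_vd {y1 : ℝ} (h0 : 0 ≤ y1) (h1 : y1 < 1) {c : ℝ → ℝ} (hc : ContinuousOn c (Icc 0 y1)) :
    IntervalIntegrable (fun y => c y * vd m r y) volume 0 y1 := by
  have hrc := prof_contOn hr h1
  have hrd := rd_ii hr (a := 0) (b := y1) ⟨le_rfl, zero_lt_one⟩ ⟨h0, h1⟩
  have e : (fun y => c y * vd m r y) = fun y =>
      c y * ((m : ℝ) * r y ^ (m - 1) * r y / (((m : ℝ) + 1) * hI m r)) -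
      (c y * ((m : ℝ) * r y ^ (m - 1) * y / (((m : ℝ) + 1) * hI m r))) * rd r y := by
    funext y
    unfold vd
    ring
  rw [e]
  refine IntervalIntegrable.sub ?_ ?_
  · apply ContinuousOn.intervalIntegrable
    rw [uIcc_of_le h0]
    exact hc.mul (((continuousOn_const.mul (hrc.pow _)).mul hrc).div_const _)
  · refine hrd.continuousOn_mul ?_
    rw [uIcc_of_le h0]
    exact hc.mul (((continuousOn_const.mul (hrc.pow _)).mul continuousOn_id).div_const _)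

section angle

variable {al : ℝ → ℝ} (ha : IsAngle m al)

include ha

theorem aa_mem (hm : 1 ≤ m) {y : ℝ} (hy : y ∈ Ico (0 : ℝ) 1) :
    al (vv m r y) ∈ Ico (0 : ℝ) (π / 2) := ha.mem _ (vv_mem hr hm hy)

theorem aa_cos_pos (hm : 1 ≤ m) {y : ℝ} (hy : y ∈ Ico (0 : ℝ) 1) : 0 < cos (al (vv m r y)) := by
  have h := aa_mem hr ha hm hy
  exact cos_pos_of_mem_Ioo ⟨by linarith [h.1, pi_pos], h.2⟩

theorem aa_cont (hm : 1 ≤ m) : ContinuousOn (fun y => al (vv m r y)) (Ico 0 1) :=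
  ha.cont.comp (vv_cont hr) fun _ hy => vv_mem hr hm hy

theorem aa_has (hm : 1 ≤ m) {y : ℝ} (hy : y ∈ Ioo (0 : ℝ) 1) :
    HasDerivWithinAt (fun y => al (vv m r y))
      (cZ m / cos (al (vv m r y)) ^ (m - 1) * vd m r y) (Ioi y) y := by
  have h1 := ha.der (vv m r y) ⟨vv_pos hr hm hy, vv_lt_one hr hm ⟨hy.1.le, hy.2⟩⟩
  exact h1.comp_hasDerivWithinAt y (vv_has hr hm hy)

theorem tan_has (hm : 1 ≤ m) {y : ℝ} (hy : y ∈ Ioo (0 : ℝ) 1) :
    HasDerivWithinAt (fun y => tan (al (vv m r y)))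
      (cZ m / cos (al (vv m r y)) ^ (m + 1) * vd m r y) (Ioi y) y := by
  have hc := aa_cos_pos hr ha hm (y := y) ⟨hy.1.le, hy.2⟩
  have h1 := (Real.hasDerivAt_tan hc.ne').comp_hasDerivWithinAt y (aa_has hr ha hm hy)
  refine h1.congr_deriv ?_
  obtain ⟨k, rfl⟩ : ∃ k, m = k + 1 := ⟨m - 1, by omega⟩
  simp only [Nat.add_sub_cancel]
  field_simp
  ring

theorem tan_cont (hm : 1 ≤ m) : ContinuousOn (fun y => tan (al (vv m r y))) (Ico 0 1) := by
  intro y hy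
  have hc := aa_cos_pos hr ha hm hy
  exact ContinuousAt.comp_continuousWithinAt (g := tan) (f := fun y => al (vv m r y))
    (Real.continuousAt_tan.2 hc.ne') (aa_cont hr ha hm y hy)

end angle

end Vale.Agent.P237.Alm
end

section

/-!
# P237, almost Petty in all dimensions: elementary lemmas on integrals of powers of the cosine
-/

open MeasureTheory Metric Set Module Real

namespace Vale.Agent.P237.Alm

open AllN

lemma ang_ii (f : ℝ → ℝ) (hf : Continuous f) (a b : ℝ) : IntervalIntegrable f volume a b :=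
  hf.intervalIntegrable a b

theorem aInt_eq (k : ℕ) : aInt k = 2 * ∫ β in (0 : ℝ)..(π / 2), cos β ^ (k + 1) := by
  have h1 : aInt k = ∫ β in (-(π / 2))..(π / 2), cos β ^ (k + 1) := by
    have h2 := intervalIntegral.integral_comp_mul_deriv (a := -(π / 2)) (b := π / 2)
      (f := sin) (f' := cos) (g := fun y => Real.sqrt (1 - y ^ 2) ^ k)
      (fun x _ => hasDerivAt_sin x) continuous_cos.continuousOn (by (clear * -; fun_prop))
    rw [sin_neg, sin_pi_div_two] at h2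
    rw [aInt, ← h2]
    refine intervalIntegral.integral_congr fun x hx => ?_
    rw [uIcc_of_le (by have := pi_pos; linarith only [this])] at hx
    have hc : 0 ≤ cos x := cos_nonneg_of_mem_Icc hx
    simp only [Function.comp_apply]
    rw [show 1 - sin x ^ 2 = cos x ^ 2 by rw [cos_sq'], Real.sqrt_sq hc, pow_succ]
  have h3 : ∫ β in (-(π / 2))..0, cos β ^ (k + 1) = ∫ β in (0 : ℝ)..(π / 2), cos β ^ (k + 1) := by
    have h4 := intervalIntegral.integral_comp_neg (a := 0) (b := π / 2)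
      (fun β => cos β ^ (k + 1))
    rw [neg_zero] at h4
    rw [← h4]
    simp only [cos_neg]
  rw [h1, ← intervalIntegral.integral_add_adjacent_intervals
    (ang_ii _ (by fun_prop) (-(π / 2)) 0) (ang_ii _ (by fun_prop) 0 (π / 2)), h3]
  ring

theorem int_sin_sq {m : ℕ} (hm : 3 ≤ m) : ∫ β in (0 : ℝ)..(π / 2), sin β ^ 2 * cos β ^ (m - 3) =
    1 / ((m : ℝ) - 2) * ∫ β in (0 : ℝ)..(π / 2), cos β ^ (m - 1) := by
  obtain ⟨j, rfl⟩ := Nat.exists_eq_add_of_le' hm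
  have e1 : j + 3 - 3 = j := by omega
  have e2 : j + 3 - 1 = j + 2 := by omega
  rw [e1, e2]
  have hd : ∀ x : ℝ, HasDerivAt (fun β => sin β * cos β ^ (j + 1))
      (cos x ^ (j + 2) - ((j : ℝ) + 1) * (sin x ^ 2 * cos x ^ j)) x := by
    intro x
    have h1 := (hasDerivAt_sin x).mul ((hasDerivAt_cos x).pow (j + 1))
    refine h1.congr_deriv ?_
    push_cast
    simp only [Pi.pow_apply]
    ring
  have h2 := intervalIntegral.integral_eq_sub_of_hasDerivAt (a := 0) (b := π / 2)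
    (fun x _ => hd x) (ang_ii _ (by (clear * -; (clear * -; fun_prop))) _ _)
  rw [intervalIntegral.integral_sub (ang_ii _ (by fun_prop) _ _) (ang_ii _ (by fun_prop) _ _),
    intervalIntegral.integral_const_mul] at h2
  simp only [cos_pi_div_two, sin_pi_div_two, sin_zero, zero_mul, one_mul] at h2
  rw [zero_pow (by omega)] at h2
  have h3 : ((j + 3 : ℕ) : ℝ) - 2 = (j : ℝ) + 1 := by push_cast; ring
  rw [h3]
  have h4 : (j : ℝ) + 1 ≠ 0 := by (clear * -; (clear * -; positivity))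
  field_simp
  linarith only [h2]

theorem int_sin_mul {m : ℕ} (hm : 3 ≤ m) (α : ℝ) : ∫ β in α..(π / 2), sin β * cos β ^ (m - 2) =
    cos α ^ (m - 1) / ((m : ℝ) - 1) := by
  obtain ⟨j, rfl⟩ := Nat.exists_eq_add_of_le' hm
  have e1 : j + 3 - 2 = j + 1 := by omega
  have e2 : j + 3 - 1 = j + 2 := by omega
  rw [e1, e2]
  have h3 : ((j + 3 : ℕ) : ℝ) - 1 = (j : ℝ) + 2 := by push_cast; ring
  rw [h3]
  have h4 : (j : ℝ) + 2 ≠ 0 := by (clear * -; (clear * -; positivity))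
  have hd : ∀ x : ℝ, HasDerivAt (fun β => -(cos β ^ (j + 2) / ((j : ℝ) + 2)))
      (sin x * cos x ^ (j + 1)) x := by
    intro x
    have h1 := (((hasDerivAt_cos x).pow (j + 2)).div_const ((j : ℝ) + 2)).neg
    convert! h1 using 1
    push_cast
    (clear * - h4; field_simp)
  have h2 := intervalIntegral.integral_eq_sub_of_hasDerivAt (a := α) (b := π / 2)
    (fun x _ => hd x) (ang_ii _ (by (clear * -; fun_prop)) _ _)
  rw [h2, cos_pi_div_two, zero_pow (by omega)]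
  ring

theorem tail_cs {m : ℕ} (hm : 3 ≤ m) {α : ℝ} (h0 : 0 ≤ α) (h1 : α ≤ π / 2) :
    (cos α ^ (m - 1) / ((m : ℝ) - 1)) ^ 2 ≤ (∫ β in α..(π / 2), cos β ^ (m - 1)) *
      ∫ β in α..(π / 2), sin β ^ 2 * cos β ^ (m - 3) := by
  rw [← int_sin_mul hm α]
  obtain ⟨j, rfl⟩ := Nat.exists_eq_add_of_le' hm
  have e0 : j + 3 - 3 = j := by omega
  have e1 : j + 3 - 2 = j + 1 := by (clear * - hm e0; omega)
  have e2 : j + 3 - 1 = j + 2 := by omega
  rw [e0, e1, e2]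
  set A := ∫ β in α..(π / 2), cos β ^ (j + 2) with hA
  set B := ∫ β in α..(π / 2), sin β * cos β ^ (j + 1) with hB
  set D := ∫ β in α..(π / 2), sin β ^ 2 * cos β ^ j with hD
  have hcos : ∀ x ∈ Icc α (π / 2), 0 ≤ cos x := fun x hx =>
    cos_nonneg_of_mem_Icc ⟨by have := pi_pos; linarith only [h0, this, hx.1], hx.2⟩
  have hA0 : 0 ≤ A := intervalIntegral.integral_nonneg h1 fun x hx => pow_nonneg (hcos x hx) _
  have hquad : ∀ t : ℝ, 0 ≤ D - 2 * t * B + t ^ 2 * A := by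
    intro t
    have h2 : ∫ β in α..(π / 2), (sin β - t * cos β) ^ 2 * cos β ^ j =
        D - 2 * t * B + t ^ 2 * A := by
      rw [hA, hB, hD, ← intervalIntegral.integral_const_mul, ← intervalIntegral.integral_const_mul,
        ← intervalIntegral.integral_sub (ang_ii _ (by (clear * -; fun_prop)) _ _) (ang_ii _ (by fun_prop) _ _),
        ← intervalIntegral.integral_add (ang_ii _ (by (clear * -; fun_prop)) _ _) (ang_ii _ (by fun_prop) _ _)]
      refine intervalIntegral.integral_congr fun x _ => ?_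
      ring
    rw [← h2]
    exact intervalIntegral.integral_nonneg h1 fun x hx =>
      mul_nonneg (sq_nonneg _) (pow_nonneg (hcos x hx) _)
  rcases hA0.eq_or_lt with h | h
  · have hB0 : B = 0 := by
      by_contra hne
      have h3 := hquad ((D + 1) / (2 * B))
      rw [← h] at h3
      have h4 : 2 * ((D + 1) / (2 * B)) * B = D + 1 := by (clear * - hne; field_simp)
      rw [h4] at h3
      linarith only [h3]
    rw [hB0, ← h]
    norm_num
  · have h3 := hquad (B / A)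
    have h4 : D - 2 * (B / A) * B + (B / A) ^ 2 * A = D - B ^ 2 / A := by
      field_simp
      ring
    rw [h4, sub_nonneg, div_le_iff₀ h] at h3
    linarith only [h3]

/-- tangent inequality for `x ↦ x^(-1/m)`, written for `x = y^m` -/
theorem young_pt {m : ℕ} (hm : 3 ≤ m) {y c : ℝ} (hy : 0 < y) (hc : 0 < c) :
    (1 + 1 / (m : ℝ)) / c - 1 / (m : ℝ) * (y ^ m / c ^ (m + 1)) ≤ 1 / y := by
  have hm0 : (0 : ℝ) < m := by
    have : 0 < m := by omega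
    exact_mod_cast this
  have h1 := one_add_mul_le_pow (a := y / c - 1) (by
    have : 0 < y / c := div_pos hy hc
    linarith only [this]) (m + 1)
  rw [add_sub_cancel, div_pow] at h1
  push_cast at h1
  have hz : 0 < y / c := div_pos hy hc
  have h2 : ((m : ℝ) + 1) * (y / c) - y ^ (m + 1) / c ^ (m + 1) ≤ m := by linarith only [h1]
  have h3 : (1 + 1 / (m : ℝ)) / c - 1 / (m : ℝ) * (y ^ m / c ^ (m + 1)) =
      (((m : ℝ) + 1) * (y / c) - y ^ (m + 1) / c ^ (m + 1)) / (m * y) := by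
    field_simp
    ring
  rw [h3, div_le_div_iff₀ (by positivity) hy, one_mul]
  linarith only [mul_nonneg (le_of_lt (sub_pos.2 hy)) (sub_nonneg.2 h1)]

theorem ang_tail_pos {j : ℕ} {α : ℝ} (h0 : 0 ≤ α) (h1 : α < π / 2) :
    0 < ∫ β in α..(π / 2), cos β ^ j := by
  refine intervalIntegral.intervalIntegral_pos_of_pos_on (ang_ii _ (by fun_prop) _ _) ?_ h1
  intro x hx
  exact pow_pos (cos_pos_of_mem_Ioo ⟨by have := pi_pos; linarith [hx.1], hx.2⟩) _

theorem ang_tail_tan {m : ℕ} (hm : 3 ≤ m) {α : ℝ} (h0 : 0 ≤ α) (h1 : α < π / 2) :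
    (∫ β in α..(π / 2), cos β ^ (m - 1)) * tan α ≤ cos α ^ (m - 1) / ((m : ℝ) - 1) := by
  rw [← int_sin_mul hm α, mul_comm, ← intervalIntegral.integral_const_mul]
  refine intervalIntegral.integral_mono_on h1.le (ang_ii _ (by fun_prop) _ _)
    (ang_ii _ (by fun_prop) _ _) fun x hx => ?_
  have hcα : 0 < cos α := cos_pos_of_mem_Ioo ⟨by have := pi_pos; linarith only [h1, h0], h1⟩
  have hcx : 0 ≤ cos x := cos_nonneg_of_mem_Icc ⟨by have := pi_pos; linarith only [hx.1, h1, h0], hx.2⟩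
  have hca : cos x ≤ cos α := cos_le_cos_of_nonneg_of_le_pi h0 (by linarith only [h0, h1, hx.2]) hx.1
  have hsa : sin α ≤ sin x := sin_le_sin_of_le_of_le_pi_div_two (by linarith only [h0, h1]) hx.2 hx.1
  have hs0 : 0 ≤ sin α := sin_nonneg_of_nonneg_of_le_pi h0 (by linarith only [h0, h1])
  have e1 : m - 1 = (m - 2) + 1 := by omega
  rw [e1, pow_succ, tan_eq_sin_div_cos]
  have h2 : sin α / cos α * cos x ≤ sin x := by
    rw [div_mul_eq_mul_div, div_le_iff₀ hcα]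
    linarith only [mul_nonneg (sub_nonneg.2 hca) (sub_nonneg.2 hs0), mul_nonneg (le_of_lt (sub_pos.2 hcα)) (sub_nonneg.2 hsa)]
  calc sin α / cos α * (cos x ^ (m - 2) * cos x) = (sin α / cos α * cos x) * cos x ^ (m - 2) := by
        ring
    _ ≤ sin x * cos x ^ (m - 2) := mul_le_mul_of_nonneg_right h2 (pow_nonneg hcx _)

theorem tail_young {m : ℕ} (hm : 3 ≤ m) {ν : ℝ} (hν : 0 < ν) {α : ℝ} (h0 : 0 ≤ α)
    (h1 : α < π / 2) :
    (1 + 1 / (m : ℝ)) * (∫ β in α..(π / 2), cos β ^ (m - 2)) -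
      ν / m * (cos α ^ (m - 1) / ((m : ℝ) - 1) - (∫ β in α..(π / 2), cos β ^ (m - 1)) * tan α) ≤
    (m : ℝ) / ((m : ℝ) - 1) * (ν ^ (-(1 / (m : ℝ))) *
      (∫ β in α..(π / 2), cos β ^ (m - 1)) ^ (1 - 1 / (m : ℝ))) := by
  have hm3 : (3 : ℝ) ≤ m := by exact_mod_cast hm
  have hm0 : (0 : ℝ) < m := by linarith only [hm3]
  have hm1 : (0 : ℝ) < (m : ℝ) - 1 := by linarith only [hm3]
  set a : ℝ → ℝ := fun b => ∫ β in b..(π / 2), cos β ^ (m - 1) with ha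
  set c2 : ℝ → ℝ := fun b => ∫ β in b..(π / 2), cos β ^ (m - 2) with hc2
  set H : ℝ → ℝ := fun b => (m : ℝ) / ((m : ℝ) - 1) * (ν ^ (-(1 / (m : ℝ))) *
      (a b) ^ (1 - 1 / (m : ℝ))) - ((1 + 1 / (m : ℝ)) * c2 b -
      ν / m * (cos b ^ (m - 1) / ((m : ℝ) - 1) - a b * tan b)) with hH
  have ha' : ∀ b : ℝ, HasDerivAt a (-cos b ^ (m - 1)) b := by
    intro b
    have h2 : ∀ x : ℝ, HasDerivAt (fun u => ∫ β in (π / 2)..u, cos β ^ (m - 1))
        (cos x ^ (m - 1)) x := fun x =>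
      ((by fun_prop : Continuous fun β : ℝ => cos β ^ (m - 1)).integral_hasStrictDerivAt
        (π / 2) x).hasDerivAt
    have h3 := (h2 b).neg
    convert! h3 using 1
    funext u
    simp only [ha]
    exact intervalIntegral.integral_symm _ _
  have hc2' : ∀ b : ℝ, HasDerivAt c2 (-cos b ^ (m - 2)) b := by
    intro b
    have h2 : ∀ x : ℝ, HasDerivAt (fun u => ∫ β in (π / 2)..u, cos β ^ (m - 2))
        (cos x ^ (m - 2)) x := fun x =>
      ((by fun_prop : Continuous fun β : ℝ => cos β ^ (m - 2)).integral_hasStrictDerivAt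
        (π / 2) x).hasDerivAt
    have h3 := (h2 b).neg
    convert! h3 using 1
    funext u
    simp only [hc2]
    exact intervalIntegral.integral_symm _ _
  have hapos : ∀ b ∈ Ico α (π / 2), 0 < a b := fun b hb =>
    ang_tail_pos (h0.trans hb.1) hb.2
  have hcpos : ∀ b ∈ Ico α (π / 2), 0 < cos b := fun b hb =>
    cos_pos_of_mem_Ioo ⟨by have := pi_pos; linarith only [hb.1, h1, h0], hb.2⟩
  have hH' : ∀ b ∈ Ico α (π / 2), HasDerivAt H (-(cos b ^ (m - 1) *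
      ((ν * a b) ^ (-(1 / (m : ℝ))) - ((1 + 1 / (m : ℝ)) / cos b -
        1 / (m : ℝ) * (ν * a b / cos b ^ (m + 1)))))) b := by
    intro b hb
    have hp := hapos b hb
    have hc := hcpos b hb
    have d1 := ((ha' b).rpow_const (p := 1 - 1 / (m : ℝ)) (Or.inl hp.ne')).const_mul
      (ν ^ (-(1 / (m : ℝ))))
    have d2 := d1.const_mul ((m : ℝ) / ((m : ℝ) - 1))
    have d3 := (hc2' b).const_mul (1 + 1 / (m : ℝ))
    have d4 := (((hasDerivAt_cos b).pow (m - 1)).div_const ((m : ℝ) - 1)).sub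
      ((ha' b).mul (hasDerivAt_tan hc.ne'))
    have d5 := d2.sub (d3.sub (d4.const_mul (ν / m)))
    refine d5.congr_deriv ?_
    have e1 : m - 1 - 1 = m - 2 := by (clear * - hm; omega)
    have e2 : cos b ^ (m - 1) = cos b ^ (m - 2) * cos b := by
      rw [← pow_succ]; congr 1; omega
    have e3 : cos b ^ (m + 1) = cos b ^ (m - 2) * cos b ^ 3 := by
      rw [← pow_add]; congr 1; omega
    have e4 : ((m - 1 : ℕ) : ℝ) = (m : ℝ) - 1 := by
      rw [Nat.cast_sub (by omega)]; norm_num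
    have e5 : (a b) ^ (1 - 1 / (m : ℝ) - 1) = (a b) ^ (-(1 / (m : ℝ))) := by
      congr 1; ring
    have e6 : (ν * a b) ^ (-(1 / (m : ℝ))) = ν ^ (-(1 / (m : ℝ))) * (a b) ^ (-(1 / (m : ℝ))) :=
      Real.mul_rpow hν.le hp.le
    have hcm : 0 < cos b ^ (m - 2) := pow_pos hc _
    rw [e1, e5, e6, e4, e2, e3, tan_eq_sin_div_cos]
    have hm1' : (m : ℝ) - 1 ≠ 0 := hm1.ne'
    have hm0' : (m : ℝ) ≠ 0 := hm0.ne'
    have hc' : cos b ≠ 0 := hc.ne'
    have hcm' : cos b ^ (m - 2) ≠ 0 := hcm.ne'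
    generalize ν ^ (-(1 / (m : ℝ))) = X
    generalize (a b) ^ (-(1 / (m : ℝ))) = Y
    generalize cos b ^ (m - 2) = Zc at *
    generalize a b = Aa at *
    field_simp
    ring
  have hneg : ∀ b ∈ Ico α (π / 2), -(cos b ^ (m - 1) *
      ((ν * a b) ^ (-(1 / (m : ℝ))) - ((1 + 1 / (m : ℝ)) / cos b -
        1 / (m : ℝ) * (ν * a b / cos b ^ (m + 1))))) ≤ 0 := by
    intro b hb
    have hp := hapos b hb
    have hc := hcpos b hb
    have hq : 0 < ν * a b := mul_pos hν hp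
    have hy : 0 < (ν * a b) ^ (1 / (m : ℝ)) := Real.rpow_pos_of_pos hq _
    have h2 := young_pt hm hy hc
    have h3 : ((ν * a b) ^ (1 / (m : ℝ))) ^ m = ν * a b := by
      rw [← Real.rpow_natCast, ← Real.rpow_mul hq.le]
      rw [one_div, inv_mul_cancel₀ hm0.ne', Real.rpow_one]
    rw [h3, one_div ((ν * a b) ^ (1 / (m : ℝ))), ← Real.rpow_neg hq.le] at h2
    have h4 : 0 < cos b ^ (m - 1) := pow_pos hc _
    have h5 := mul_nonneg h4.le (sub_nonneg.mpr h2)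
    linarith only [h5]
  have hanti : AntitoneOn H (Ico α (π / 2)) := by
    refine antitoneOn_of_deriv_nonpos (convex_Ico _ _) ?_ ?_ ?_
    · exact fun b hb => (hH' b hb).continuousAt.continuousWithinAt
    · intro b hb
      rw [interior_Ico] at hb
      exact (hH' b ⟨hb.1.le, hb.2⟩).differentiableAt.differentiableWithinAt
    · intro b hb
      rw [interior_Ico] at hb
      rw [(hH' b ⟨hb.1.le, hb.2⟩).deriv]
      exact hneg b ⟨hb.1.le, hb.2⟩
  have hlow : ∀ b ∈ Ico α (π / 2), -((1 + 1 / (m : ℝ)) * c2 b) ≤ H α := by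
    intro b hb
    have h2 : H b ≤ H α := hanti ⟨le_rfl, h1⟩ hb hb.1
    have h3 := ang_tail_tan hm (h0.trans hb.1) hb.2
    have h4 : 0 ≤ (m : ℝ) / ((m : ℝ) - 1) * (ν ^ (-(1 / (m : ℝ))) *
      (a b) ^ (1 - 1 / (m : ℝ))) := by
      have := (hapos b hb).le
      (clear * - hm hm1 hν this; (clear * - hm hm1 hν this; positivity))
    have h5 : 0 ≤ ν / m * (cos b ^ (m - 1) / ((m : ℝ) - 1) - a b * tan b) :=
      mul_nonneg (by positivity) (sub_nonneg.mpr h3)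
    have h6 : -((1 + 1 / (m : ℝ)) * c2 b) ≤ H b := by
      simp only [hH]
      linarith only [h5, h4]
    (clear * - h2 h4 h5; linarith)
  have hlim : Filter.Tendsto (fun b => -((1 + 1 / (m : ℝ)) * c2 b)) (nhdsWithin (π / 2) (Iio (π / 2)))
      (nhds 0) := by
    have h2 : ContinuousAt (fun b => -((1 + 1 / (m : ℝ)) * c2 b)) (π / 2) :=
      ((hc2' (π / 2)).continuousAt.const_mul _).neg
    have h3 : -((1 + 1 / (m : ℝ)) * c2 (π / 2)) = 0 := by
      simp only [one_div, hc2, intervalIntegral.integral_same, mul_zero, neg_zero]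
    have h4 := h2.tendsto
    rw [h3] at h4
    exact h4.mono_left nhdsWithin_le_nhds
  have hfin : 0 ≤ H α := by
    refine le_of_tendsto hlim ?_
    have h2 : Ico α (π / 2) ∈ nhdsWithin (π / 2) (Iio (π / 2)) := Ico_mem_nhdsLT h1
    filter_upwards [h2] with b hb using hlow b hb
  simp only [hH] at hfin
  linarith only [hfin]

/-- The inverse of the normalised angle function. -/
theorem exists_angle {m : ℕ} (hm : 3 ≤ m) : ∃ al : ℝ → ℝ, al 0 = 0 ∧
    (∀ v ∈ Ico (0 : ℝ) 1, al v ∈ Ico (0 : ℝ) (π / 2)) ∧ MonotoneOn al (Ico (0 : ℝ) 1) ∧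
    (∀ v ∈ Ico (0 : ℝ) 1, ∫ β in (0 : ℝ)..(al v), cos β ^ (m - 1) =
      v * ∫ β in (0 : ℝ)..(π / 2), cos β ^ (m - 1)) ∧
    ContinuousOn al (Ico (0 : ℝ) 1) ∧
    ∀ v ∈ Ioo (0 : ℝ) 1, HasDerivAt al
      ((∫ β in (0 : ℝ)..(π / 2), cos β ^ (m - 1)) / cos (al v) ^ (m - 1)) v := by
  have hpi := pi_pos
  set F : ℝ → ℝ := fun x => ∫ β in (0 : ℝ)..x, cos β ^ (m - 1) with hF
  set Z := ∫ β in (0 : ℝ)..(π / 2), cos β ^ (m - 1) with hZ
  have hF' : ∀ x : ℝ, HasDerivAt F (cos x ^ (m - 1)) x := fun x =>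
    ((by fun_prop : Continuous fun β : ℝ => cos β ^ (m - 1)).integral_hasStrictDerivAt
        0 x).hasDerivAt
  have hFc : Continuous F := continuous_iff_continuousAt.mpr fun x => (hF' x).continuousAt
  have hF0 : F 0 = 0 := by simp only [hF, intervalIntegral.integral_same]
  have hFZ : F (π / 2) = Z := rfl
  have hFm : StrictMonoOn F (Icc 0 (π / 2)) := by
    refine strictMonoOn_of_deriv_pos (convex_Icc _ _) hFc.continuousOn ?_
    intro x hx
    rw [interior_Icc] at hx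
    rw [(hF' x).deriv]
    exact pow_pos (cos_pos_of_mem_Ioo ⟨by linarith only [hpi, hx.1], hx.2⟩) _
  have hZ0 : 0 < Z := ang_tail_pos le_rfl (by linarith only [hpi])
  -- the extension
  set P : ℝ → ℝ := fun x => max 0 (min x (π / 2)) with hP
  have hPmem : ∀ x, P x ∈ Icc (0 : ℝ) (π / 2) := fun x =>
    ⟨le_max_left _ _, max_le (by linarith only [hpi]) (min_le_right _ _)⟩
  have hPid : ∀ x ∈ Icc (0 : ℝ) (π / 2), P x = x := by
    intro x hx
    simp only [hP]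
    rw [min_eq_left hx.2, max_eq_right hx.1]
  have hPmono : Monotone P := fun x y h => max_le_max le_rfl (min_le_min h le_rfl)
  have hPlip : ∀ x y, x ≤ y → P y - P x ≤ y - x := by
    intro x y h
    simp only [hP]
    rcases le_total x (π / 2) with h1 | h1 <;> rcases le_total y (π / 2) with h2 | h2 <;>
      simp only [h1, h2, min_eq_left, min_eq_right] <;>
      rcases le_total 0 x with h3 | h3 <;> rcases le_total 0 y with h4 | h4 <;>
      simp only [h3, h4, max_eq_left, max_eq_right, (by linarith only [hpi] : (0 : ℝ) ≤ π / 2)] <;> linarith only [h, h2, h3, hpi, h1, h4]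
  have hPc : Continuous P := by fun_prop
  set Q : ℝ → ℝ := fun x => F (P x) + (x - P x) with hQ
  have hQc : Continuous Q := by (clear * - hFc hPc; fun_prop)
  have hQm : StrictMono Q := by
    intro x y h
    simp only [hQ]
    rcases (hPmono h.le).eq_or_lt with h1 | h1
    · rw [h1]; linarith only [h]
    · have h2 := hFm (hPmem x) (hPmem y) h1
      have h3 := hPlip x y h.le
      linarith only [h2, h3]
  have hFb : ∀ x ∈ Icc (0 : ℝ) (π / 2), 0 ≤ F x ∧ F x ≤ Z := by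
    intro x hx
    constructor
    · rw [← hF0]
      exact hFm.monotoneOn ⟨le_rfl, by linarith only [hpi]⟩ hx hx.1
    · exact hFm.monotoneOn hx ⟨by linarith only [hpi], le_rfl⟩ hx.2
  have hQsurj : Function.Surjective Q := by
    refine hQc.surjective ?_ ?_
    · refine Filter.tendsto_atTop_mono (f := fun x => x - π / 2) (fun x => ?_)
        (Filter.tendsto_atTop_add_const_right _ _ Filter.tendsto_id)
      have h1 := hFb _ (hPmem x)
      have h2 := (hPmem x).2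
      simp only [hQ]
      linarith only [h1, h2]
    · refine Filter.tendsto_atBot_mono (g := Q) (f := fun x => x + Z) (fun x => ?_)
        (Filter.tendsto_atBot_add_const_right _ _ Filter.tendsto_id)
      have h1 := hFb _ (hPmem x)
      have h2 := (hPmem x).1
      simp only [hQ]
      linarith only [h1, h2]
  set e := StrictMono.orderIsoOfSurjective Q hQm hQsurj with he
  have heQ : ∀ x, e x = Q x := fun x => rfl
  have hQe : ∀ y, Q (e.symm y) = y := fun y => by rw [← heQ, OrderIso.apply_symm_apply]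
  have hQ0 : Q 0 = 0 := by
    simp only [hQ]
    rw [hPid 0 ⟨le_rfl, by linarith only [hpi]⟩, hF0]
    ring
  have hQpi : Q (π / 2) = Z := by
    simp only [hQ]
    rw [hPid (π / 2) ⟨by linarith only [hpi], le_rfl⟩, hFZ]
    ring
  have hal : ∀ v ∈ Ico (0 : ℝ) 1, e.symm (v * Z) ∈ Ico (0 : ℝ) (π / 2) := by
    intro v hv
    constructor
    · rw [OrderIso.le_symm_apply, heQ, hQ0]
      exact mul_nonneg hv.1 hZ0.le
    · rw [OrderIso.symm_apply_lt, heQ, hQpi]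
      linarith only [mul_pos (sub_pos.2 hZ0) (sub_pos.2 hv.2)]
  have halF : ∀ v ∈ Ico (0 : ℝ) 1, F (e.symm (v * Z)) = v * Z := by
    intro v hv
    have h1 := hal v hv
    have h2 := hQe (v * Z)
    simp only [hQ] at h2
    rw [hPid _ ⟨h1.1, h1.2.le⟩] at h2
    linarith only [h2]
  have hcont : Continuous fun v : ℝ => e.symm (v * Z) :=
    e.symm.continuous.comp (continuous_id.mul continuous_const)
  refine ⟨fun v => e.symm (v * Z), ?_, hal, ?_, halF, hcont.continuousOn, ?_⟩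
  · simp only [zero_mul]
    rw [OrderIso.symm_apply_eq, heQ, hQ0]
  · intro x _ y _ h
    exact e.symm.monotone (mul_le_mul_of_nonneg_right h hZ0.le)
  · intro v hv
    have h1 := hal v ⟨hv.1.le, hv.2⟩
    have h2 : 0 < cos (e.symm (v * Z)) := cos_pos_of_mem_Ioo ⟨by linarith only [hpi, h1.1], h1.2⟩
    have h3 : HasDerivAt (fun x => F x / Z) (cos (e.symm (v * Z)) ^ (m - 1) / Z)
        (e.symm (v * Z)) := (hF' _).div_const Z
    have h4 : ∀ᶠ y in nhds v, F (e.symm (y * Z)) / Z = y := by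
      filter_upwards [Ioo_mem_nhds hv.1 hv.2] with y hy
      rw [halF y ⟨hy.1.le, hy.2⟩, mul_div_assoc, div_self hZ0.ne', mul_one]
    have h5 := HasDerivAt.of_local_left_inverse (g := fun v => e.symm (v * Z))
      hcont.continuousAt h3 (div_pos (pow_pos h2 _) hZ0).ne' h4
    rwa [inv_div] at h5

end Vale.Agent.P237.Alm
end

section

/-!
# P237, all dimensions: the algebra of the f-chart certificate
-/

namespace Vale.Agent.P237.AllN

/-- the `log` pair, constant part -/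
noncomputable def bc0 (s l : ℝ) : ℝ := -(1 / s - 1) + l * (1 / s ^ 3 - 3 / s + 2)

/-- the `log` pair, slope divided by `τ` -/
noncomputable def bM0 (s l : ℝ) : ℝ := 1 / (s * (1 + s)) - l / s ^ 3

/-- base identity: value of the `log` pair tested at `x²/τ` -/
theorem bri_base {m x s l u τ τ' : ℝ} (hs : 0 < s) (hx : 0 < x) (hxs : x ^ 2 = 1 - s ^ 2)
    (hu : 0 < 1 + u) (hτ : 0 < τ) (hτ' : τ' = τ * (1 + u) / x) :
    s * ((m + 1) * bc0 s l +
      (τ * (-(x / s ^ 3) + (u / x) * (1 / s ^ 3 - 3 / s + 2) + l * (3 * x / s ^ 5 - 3 * x / s ^ 3)) +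
        (τ' * bM0 s l + τ * ((1 + 2 * s) * x / (s ^ 3 * (1 + s) ^ 2) - (u / x) / s ^ 3
          - 3 * l * x / s ^ 5))) / τ') =
    (-(m + 1) + (m + 2) * s - s ^ 2 / (1 + s)) +
      l * ((m - 3) * (x ^ 2 / s ^ 2) - (2 * m + 3) + 2 * (m + 1) * s) -
      (2 * (1 - s ^ 2 / (1 + s)) - 3 * (x ^ 2 / s ^ 2) * l) * (u / (1 + u)) := by
  have h1 : (τ * (-(x / s ^ 3) + (u / x) * (1 / s ^ 3 - 3 / s + 2) +
        l * (3 * x / s ^ 5 - 3 * x / s ^ 3)) +
        (τ' * bM0 s l + τ * ((1 + 2 * s) * x / (s ^ 3 * (1 + s) ^ 2) - (u / x) / s ^ 3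
          - 3 * l * x / s ^ 5))) / τ' =
      bM0 s l + (x ^ 2 * (-(1 / s ^ 3) - 3 * l / s ^ 3 + (1 + 2 * s) / (s ^ 3 * (1 + s) ^ 2)) +
        u * (-3 / s + 2)) / (1 + u) := by
    rw [hτ']
    field_simp
    ring
  rw [h1, hxs]
  unfold bc0 bM0
  field_simp
  ring

/-- component identity: value of the extra pair `(α x² L / 2, τ log(1-αL)/2)` -/
theorem bri_comp {m x L u τ τ' α lg : ℝ} (hx : 0 < x)
    (hu : 0 < 1 + u) (hτ : 0 < τ) (hτ' : τ' = τ * (1 + u) / x) (hL : 0 < 1 - α * L) :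
    (m + 1) * (α * x ^ 2 * L / 2) +
      (τ * (α * x * L + α * x ^ 2 * (u / x) / 2) +
        (τ' * (lg / 2) + τ * (-(α * (u / x)) / (1 - α * L)) / 2)) / τ' =
    (m + 3) * (α * x ^ 2 * L / 2) + lg / 2 -
      (α * x ^ 2 * L - α * x ^ 2 / 2 + α / (2 * (1 - α * L))) * (u / (1 + u)) := by
  rw [hτ']
  field_simp
  ring

/-- the pointwise functional (right side, plain test) -/
noncomputable def TR (m x s l u L μ E V gτ gx hh xhh' : ℝ) : ℝ :=
  (m - 1) / (m + 1) * (2 * (1 - s ^ 2 / (1 + s)) - 3 * (x ^ 2 / s ^ 2) * l) * (u ^ 2 / (1 + u))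
    - μ * E * (u - m * (V - 1))
    + (m - 1) * (x ^ 2 / s ^ 2) * (μ * m * (E - 1) - l)
    - 3 / 2 * ((m - 1) / (m + 1)) * (x ^ 2 / s ^ 2) * (3 - (m - 3) * (x ^ 2 / s ^ 2)) * l ^ 2
    + (m - 1) / (m + 1) * (s * (gτ - gx) + x ^ 2 * l / (1 + s) ^ 2)
    + 2 * hh * L * u + (hh + xhh' - (m - 1) * (x ^ 2 / s ^ 2) * hh) * L ^ 2

/-- the extra term of the component test (left side) -/
noncomputable def TL (m x s u L α lg : ℝ) : ℝ :=
  (m - 1) / (m + 1) * (s / 2) *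
    (α * (2 * x ^ 2 * L - x ^ 2 + 1 / (1 - α * L)) * (u ^ 2 / (1 + u))
      + m * (x ^ 2 / s ^ 2) * (α * L + lg) + α * x ^ 2 * (3 - m * (x ^ 2 / s ^ 2)) * L ^ 2)

/-- algebraic identity of the plain part.  `V = (1+u)^(1/m)`, `E = e^(l/m)`. -/
theorem bri_TR {m x s l u L μ E V gτ gbar hh xhh' BI : ℝ} (hm : 0 < m + 1) (hs : 0 < s)
    (hxs : x ^ 2 = 1 - s ^ 2) (hu : 0 < 1 + u)
    (hBI : BI = (-(m + 1) + (m + 2) * s - s ^ 2 / (1 + s)) +
      l * ((m - 3) * (x ^ 2 / s ^ 2) - (2 * m + 3) + 2 * (m + 1) * s) -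
      (2 * (1 - s ^ 2 / (1 + s)) - 3 * (x ^ 2 / s ^ 2) * l) * (u / (1 + u))) :
    (m - 1) / (m + 1) * (BI + s * (gτ - gbar)) + μ * m * (E * V - 1) =
      TR m x s l u L μ E V gτ (s / (1 + s)) hh xhh' +
      (m - 1) / (m + 1) * (-(m + 1) + (m + 2 - gbar) * s) +
      ((1 - (m - 1) * (x ^ 2 / s ^ 2)) * ((m - 1) / (m + 1) *
          (-2 * (1 - s ^ 2 / (1 + s)) * l + 3 / 2 * (x ^ 2 / s ^ 2) * l ^ 2) +
          μ * m * (E - 1) - hh * L ^ 2) +
        ((m - 1) / (m + 1) * (-2 * ((1 - s) * (2 + s) / (1 + s)) * l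
          + 3 / 2 * (2 * (x ^ 2 / s ^ 2) / s ^ 2) * l ^ 2) - xhh' * L ^ 2) +
        ((m - 1) / (m + 1) * (-2 * (1 - s ^ 2 / (1 + s)) * u + 3 * (x ^ 2 / s ^ 2) * l * u) +
          μ * E * u - 2 * hh * L * u)) := by
  subst hBI
  unfold TR
  rw [hxs]
  field_simp
  ring

/-- algebraic identity of the component part -/
theorem bri_TL {m x s u L α lg : ℝ} (hm : 0 < m + 1) (hs : 0 < s)
    (hxs : x ^ 2 = 1 - s ^ 2) (hu : 0 < 1 + u) (hL : 0 < 1 - α * L) :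
    (m - 1) / (m + 1) * (s * ((m + 3) * (α * x ^ 2 * L / 2) + lg / 2 -
      (α * x ^ 2 * L - α * x ^ 2 / 2 + α / (2 * (1 - α * L))) * (u / (1 + u)))) =
      TL m x s u L α lg +
      (m - 1) / (m + 1) * (s * (
        (1 - m * (x ^ 2 / s ^ 2)) * (α * x ^ 2 * L / 2 - α * x ^ 2 * L ^ 2 / 2 + lg / 2) +
        (α * x ^ 2 * L - α * x ^ 2 * L ^ 2) +
        (α * x ^ 2 / 2 - α * x ^ 2 * L - α / (2 * (1 - α * L))) * u)) := by
  unfold TL
  rw [hxs]
  field_simp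
  ring

end Vale.Agent.P237.AllN
end

section

/-!
# P237, plain certificate (m ≥ 5): reduction of the pointwise inequality to quadratic forms
-/

namespace Vale.Agent.P237.AllN

/-- positivity of a quadratic form in three variables from minors -/
theorem psd3 {a b c d f g W : ℝ} (hW : 0 < W) (ha : 0 < a) (hab : 0 ≤ a * b - W * d ^ 2)
    (hac : 0 ≤ a * c - W * f ^ 2)
    (hdet : 0 ≤ a * (b * c - g ^ 2) - W * (c * d ^ 2 - 2 * g * d * f + b * f ^ 2)) (X Y Z : ℝ) :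
    0 ≤ a * X ^ 2 + W * (b * Y ^ 2 + c * Z ^ 2 + 2 * d * X * Y + 2 * f * X * Z + 2 * g * Y * Z) := by
  set P := a * b - W * d ^ 2 with hP
  set S := a * c - W * f ^ 2 with hS
  set Q := a * g - W * d * f with hQ
  have hPS : 0 ≤ P * S - Q ^ 2 := by
    have e : P * S - Q ^ 2 =
        a * (a * (b * c - g ^ 2) - W * (c * d ^ 2 - 2 * g * d * f + b * f ^ 2)) := by
      rw [hP, hS, hQ]
      ring
    rw [e]
    exact mul_nonneg ha.le hdet
  have h2 : 0 ≤ P * Y ^ 2 + S * Z ^ 2 + 2 * Q * Y * Z := by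
    rcases hab.eq_or_lt with h0 | h0
    · -- P = 0
      have hQ0 : Q = 0 := by
        have : Q ^ 2 ≤ 0 := by linarith only [mul_eq_zero_of_left (sub_eq_zero.2 h0) (S - (0)), hPS]
        exact pow_eq_zero_iff (two_ne_zero) |>.1 (le_antisymm this (sq_nonneg Q))
      rw [← h0, hQ0]
      have := mul_nonneg hac (sq_nonneg Z)
      linarith only [this]
    · have h3 : 0 ≤ P * (P * Y ^ 2 + S * Z ^ 2 + 2 * Q * Y * Z) := by
        have e : P * (P * Y ^ 2 + S * Z ^ 2 + 2 * Q * Y * Z) =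
            (P * Y + Q * Z) ^ 2 + (P * S - Q ^ 2) * Z ^ 2 := by ring
        rw [e]
        exact add_nonneg (sq_nonneg _) (mul_nonneg hPS (sq_nonneg _))
      exact nonneg_of_mul_nonneg_right h3 h0
  have h4 : 0 ≤ a * (a * X ^ 2 + W * (b * Y ^ 2 + c * Z ^ 2 + 2 * d * X * Y + 2 * f * X * Z +
      2 * g * Y * Z)) := by
    have e : a * (a * X ^ 2 + W * (b * Y ^ 2 + c * Z ^ 2 + 2 * d * X * Y + 2 * f * X * Z +
        2 * g * Y * Z)) = (a * X + W * (d * Y + f * Z)) ^ 2 +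
          W * (P * Y ^ 2 + S * Z ^ 2 + 2 * Q * Y * Z) := by
      rw [hP, hS, hQ]
      ring
    rw [e]
    exact add_nonneg (sq_nonneg _) (mul_nonneg hW.le h2)
  exact nonneg_of_mul_nonneg_right h4 ha

/-- the lower bound of the pointwise functional: `R`, `C`, `ρ` are values of bounding functions -/
noncomputable def pcLow (m k1 th c2 R C ρ y l u lam : ℝ) : ℝ :=
  (m - 1) / (m + 1) * (2 * R - 3 * y * l) * (u ^ 2 / (1 + u))
    - ρ * u ^ 2 * (1 + k1 * lam + l / m + k1 * lam * (l / m) + c2 * l ^ 2)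
    + (m - 1) * y * (th / (2 * m) * l ^ 2 + k1 * lam * l)
    - 3 / 2 * ((m - 1) / (m + 1)) * y * (3 - (m - 3) * y) * l ^ 2
    - (m - 1) / (m + 1) * C * y * l ^ 2

theorem pc_lower {m x s l u lam k1 th c2 R C ρ E V gτ gx : ℝ} (hm : 3 ≤ m) (hs : 0 < s)
    (hu : 0 < 1 + u) (hR : R ≤ 1 - s ^ 2 / (1 + s))
    (hC : -(C * (x ^ 2 / s ^ 2)) * l ^ 2 ≤ s * (gτ - gx) + x ^ 2 * l / (1 + s) ^ 2)
    (hpm0 : 0 ≤ u - m * (V - 1)) (hpm : u - m * (V - 1) ≤ ρ * u ^ 2)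
    (hB0 : 0 ≤ (1 + k1 * lam) * E)
    (hB : (1 + k1 * lam) * E ≤ 1 + k1 * lam + l / m + k1 * lam * (l / m) + c2 * l ^ 2)
    (hTh : th / (2 * m) * l ^ 2 ≤ (1 + k1 * lam) * m * (E - 1) - (1 + k1 * lam) * l) :
    pcLow m k1 th c2 R C ρ (x ^ 2 / s ^ 2) l u lam ≤
      TR m x s l u 0 (1 + k1 * lam) E V gτ gx 0 0 := by
  unfold pcLow TR
  set y := x ^ 2 / s ^ 2 with hy
  have hy0 : 0 ≤ y := by (clear * - hs; positivity)
  have hγ : 0 ≤ (m - 1) / (m + 1) := div_nonneg (by linarith only [hm]) (by linarith only [hm])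
  have hU : 0 ≤ u ^ 2 / (1 + u) := by positivity
  have h1 : (m - 1) / (m + 1) * (2 * R - 3 * y * l) * (u ^ 2 / (1 + u)) ≤
      (m - 1) / (m + 1) * (2 * (1 - s ^ 2 / (1 + s)) - 3 * y * l) * (u ^ 2 / (1 + u)) := by
    apply mul_le_mul_of_nonneg_right _ hU
    apply mul_le_mul_of_nonneg_left _ hγ
    linarith only [hR]
  have h2 : (1 + k1 * lam) * E * (u - m * (V - 1)) ≤
      ρ * u ^ 2 * (1 + k1 * lam + l / m + k1 * lam * (l / m) + c2 * l ^ 2) := by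
    have h3 := mul_le_mul hB hpm hpm0 (hB0.trans hB)
    linarith only [h3]
  have h3 : (m - 1) * y * (th / (2 * m) * l ^ 2 + k1 * lam * l) ≤
      (m - 1) * y * ((1 + k1 * lam) * m * (E - 1) - l) := by
    apply mul_le_mul_of_nonneg_left _ (mul_nonneg (by linarith only [hm]) hy0)
    linarith only [hTh]
  have h4 : -((m - 1) / (m + 1) * C * y * l ^ 2) ≤
      (m - 1) / (m + 1) * (s * (gτ - gx) + x ^ 2 * l / (1 + s) ^ 2) := by
    have := mul_le_mul_of_nonneg_left hC hγ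
    linarith only [this]
  linarith

/-- the null term on the left of `x₀`: `z = x²`, `x02 = x₀²` -/
noncomputable def pcNL (m a1 a2 a3 x02 z y L u lam : ℝ) : ℝ :=
  (2 * a1 * z * x02 / (x02 - z) ^ 2 + 2 * a2 * z) * L ^ 2 + 2 * (a1 * z / (x02 - z) + a2 * z) * L * u
    + 2 * a3 * z * lam * L + a3 * z * lam * u
    + (1 - (m - 1) * y) * ((a1 * z / (x02 - z) + a2 * z) * L ^ 2 + a3 * z * lam * L)

/-- the null term on the right of `x₀` -/
noncomputable def pcNR (m a4 x02 z y L u : ℝ) : ℝ :=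
  2 * a4 * z * x02 / (z - x02) ^ 2 * L ^ 2 - 2 * (a4 * z / (z - x02)) * L * u
    - (1 - (m - 1) * y) * (a4 * z / (z - x02)) * L ^ 2

/-- The matrix entries on the left, variables `x`, `v = u/x`, extra multiplier `η`. -/
theorem pc_left {m k1 a1 a2 a3 th c2 x02 eps R C rb η lm x v t lam e : ℝ} (hm : m ≠ 0)
    (ht : t ≠ 0) (hE : 1 + x * v ≠ 0) (hδ : x02 - x ^ 2 ≠ 0) :
    (1 + x * v) * t ^ 2 * (pcLow m k1 th c2 R C (rb / (1 + x * v)) (x ^ 2 / t)
        (lam + (x02 - x ^ 2) * e) (x * v) lam +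
      pcNL m a1 a2 a3 x02 (x ^ 2) (x ^ 2 / t) ((x02 - x ^ 2) * e) (x * v) lam -
      eps * ((x * v) ^ 2 / (1 + x * v)) -
      η / (1 + x * v) * (x * v) ^ 2 * (lm - (lam + (x02 - x ^ 2) * e))) =
    let γ := (m - 1) / (m + 1)
    let δ := x02 - x ^ 2
    let E := 1 + x * v
    let a0 := th * (m - 1) / (2 * m) - 9 / 2 * γ - γ * C
    let Qul := -3 * γ * x ^ 2 * t * v - t ^ 2 * rb * v / m + η * t ^ 2 * v
    let Qll := E * (t * a0 + 3 / 2 * γ * (m - 3) * x ^ 2) - c2 * rb * v ^ 2 * t ^ 2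
    let Qlk := (m - 1) * k1 * t * E - k1 / m * rb * v ^ 2 * t ^ 2
    let a := t ^ 2 * (2 * γ * R - rb - eps) - η * lm * t ^ 2
    let d := 1 / 2 * (δ * Qul + 2 * x * t ^ 2 * E * (a1 + a2 * δ))
    let f := 1 / 2 * (Qul - k1 * t ^ 2 * rb * v + a3 * x * t ^ 2 * E)
    let b := δ ^ 2 * Qll + E * t ^ 2 * (2 * a1 * x02 + 2 * a2 * δ ^ 2) +
      E * t * (t - (m - 1) * x ^ 2) * δ * (a1 + a2 * δ)
    let g := 1 / 2 * (2 * δ * Qll + δ * Qlk + δ * a3 * E * t * (3 * t - (m - 1) * x ^ 2))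
    let c := Qll + Qlk
    a * (x * v) ^ 2 + (b * (x * e) ^ 2 + c * (x * lam) ^ 2 + 2 * d * (x * v) * (x * e) +
      2 * f * (x * v) * (x * lam) + 2 * g * (x * e) * (x * lam)) := by
  unfold pcLow pcNL
  simp only
  field_simp
  ring

end Vale.Agent.P237.AllN
end

section

/-!
# P237, plain certificate (m ≥ 5): the matrix entries on the five regions, as functions of the
parameters, for polynomials and for reals
-/

namespace Vale.Agent.P237.AllN

open PolyPos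

/-- parameters of the certificate -/
structure Pm where
  m : ℕ
  k1 : Fr
  a1 : Fr
  a2 : Fr
  a3 : Fr
  a4 : Fr
  th : Fr
  c2 : Fr
  eps : Fr
  e0 : Fr

/-- `m`, `m - 1`, `m - 3`, `1/m`, `(m-1)/(m+1)`, `3/(m+2)`, `(m-1)/(2m)` -/
def Pm.cm (P : Pm) : Fr := ⟨P.m, 0⟩
def Pm.c1 (P : Pm) : Fr := ⟨(P.m : ℤ) - 1, 0⟩
def Pm.c3 (P : Pm) : Fr := ⟨(P.m : ℤ) - 3, 0⟩
def Pm.ci (P : Pm) : Fr := ⟨1, P.m - 1⟩
def Pm.cg (P : Pm) : Fr := ⟨(P.m : ℤ) - 1, P.m⟩
def Pm.cx (P : Pm) : Fr := ⟨3, P.m + 1⟩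
def Pm.ch (P : Pm) : Fr := ⟨(P.m : ℤ) - 1, 2 * P.m - 1⟩

theorem Pm.cm_R (P : Pm) : P.cm.R = P.m := by simp [Pm.cm, Fr.R]
theorem Pm.c1_R (P : Pm) : P.c1.R = P.m - 1 := by simp [Pm.c1, Fr.R]
theorem Pm.c3_R (P : Pm) : P.c3.R = P.m - 3 := by simp [Pm.c3, Fr.R]
theorem Pm.cg_R (P : Pm) : P.cg.R = ((P.m : ℝ) - 1) / (P.m + 1) := by simp [Pm.cg, Fr.R]
theorem Pm.cx_R (P : Pm) : P.cx.R = 3 / ((P.m : ℝ) + 2) := by
  simp only [Pm.cx, Fr.R]
  push_cast
  congr 1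
  ring
theorem Pm.ci_R (P : Pm) (h : 0 < P.m) : P.ci.R = 1 / (P.m : ℝ) := by
  have h1 : ((P.m - 1 : ℕ) : ℝ) + 1 = P.m := by
    have : P.m - 1 + 1 = P.m := by omega
    exact_mod_cast this
  simp only [Pm.ci, Fr.R, h1]
  push_cast
  rfl
theorem Pm.ch_R (P : Pm) (h : 0 < P.m) : P.ch.R = ((P.m : ℝ) - 1) / (2 * P.m) := by
  have h1 : ((2 * P.m - 1 : ℕ) : ℝ) + 1 = 2 * P.m := by
    have : 2 * P.m - 1 + 1 = 2 * P.m := by omega
    exact_mod_cast this
  simp only [Pm.ch, Fr.R, h1]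
  push_cast
  rfl

theorem Fr.R1 : Fr.R ⟨1, 0⟩ = 1 := by simp [Fr.R]
theorem Fr.R2 : Fr.R ⟨2, 0⟩ = 2 := by simp [Fr.R]
theorem Fr.R3 : Fr.R ⟨3, 0⟩ = 3 := by simp [Fr.R]
theorem Fr.R12 : Fr.R ⟨1, 1⟩ = 1 / 2 := by simp [Fr.R]; norm_num
theorem Fr.Rm12 : Fr.R ⟨-1, 1⟩ = -(1 / 2) := by simp [Fr.R]; norm_num
theorem Fr.R32 : Fr.R ⟨3, 1⟩ = 3 / 2 := by simp [Fr.R]; norm_num
theorem Fr.R92 : Fr.R ⟨9, 1⟩ = 9 / 2 := by simp [Fr.R]; norm_num

section

variable {α : Type} [Add α] [Sub α] [Mul α]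

/-- entries on the left, `u ≥ 0`; variables `x`, `v = u/x` -/
def entLP (k : Fr → α) (P : Pm) (R C rb x v : α) : Ent α :=
  let one := k ⟨1, 0⟩
  let z := x * x
  let t := one - z
  let t2 := t * t
  let E := one + x * v
  let de := k P.cx - z
  let a0 := k P.th * k P.ch - k ⟨9, 1⟩ * k P.cg - k P.cg * C
  let S := k ⟨3, 0⟩ * k P.cg * z + k P.ci * (rb * t)
  let Qll := E * (t * a0 + k ⟨3, 1⟩ * k P.cg * k P.c3 * z) - k P.c2 * (rb * (v * v) * t2)
  let Qlk := k P.c1 * k P.k1 * (t * E) - k P.k1 * k P.ci * (rb * (v * v) * t2)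
  let A := k P.a1 + k P.a2 * de
  { a := t2 * (k ⟨2, 0⟩ * k P.cg * R - rb - k P.eps)
    b := de * de * Qll + E * t2 * (k ⟨2, 0⟩ * k P.a1 * k P.cx + k ⟨2, 0⟩ * k P.a2 * (de * de)) +
      E * t * (t - k P.c1 * z) * (de * A)
    c := Qll + Qlk
    d := k ⟨1, 1⟩ * (k ⟨2, 0⟩ * x * t2 * E * A - de * (t * v * S))
    f := k ⟨1, 1⟩ * (k P.a3 * x * t2 * E - t * v * S - k P.k1 * (t2 * rb * v))
    g := k ⟨1, 1⟩ * (de * (k ⟨2, 0⟩ * Qll + Qlk) +
      de * k P.a3 * E * t * (k ⟨3, 0⟩ * t - k P.c1 * z))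
    W := one
    e := k P.e0 * t2 }

/-- entries on the left, `u ≤ 0`; variables `z = x²`, `n1 = -u/z` -/
def entLM (k : Fr → α) (P : Pm) (kap R C rb z n1 : α) : Ent α :=
  let one := k ⟨1, 0⟩
  let t := one - z
  let t2 := t * t
  let n := z * n1
  let E := one - n
  let de := k P.cx - z
  let a0 := k P.th * k P.ch - k ⟨9, 1⟩ * k P.cg - k P.cg * C
  let S := k ⟨3, 0⟩ * k P.cg * z + k P.ci * (rb * t)
  let Qu := n1 * (one - kap * n) * (S * t)
  let Qll := E * (t * a0 + k ⟨3, 1⟩ * k P.cg * k P.c3 * z) - k P.c2 * (rb * (z * (n1 * n1)) * t2)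
  let Qlk := k P.c1 * k P.k1 * (t * E) - k P.k1 * k P.ci * (rb * (z * (n1 * n1)) * t2)
  let A := k P.a1 + k P.a2 * de
  { a := t2 * (k ⟨2, 0⟩ * k P.cg * R - rb - k P.eps) -
      kap * (n * S) * t2 * (k ⟨31, 49⟩ + k ⟨7, 49⟩ * z)
    b := de * de * Qll + E * t2 * (k ⟨2, 0⟩ * k P.a1 * k P.cx + k ⟨2, 0⟩ * k P.a2 * (de * de)) +
      E * t * (t - k P.c1 * z) * (de * A)
    c := Qll + Qlk
    d := k ⟨1, 1⟩ * (de * Qu + k ⟨2, 0⟩ * t2 * E * A)
    f := k ⟨1, 1⟩ * (Qu + k P.k1 * (t2 * rb * n1) + k P.a3 * t2 * E)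
    g := k ⟨1, 1⟩ * (de * (k ⟨2, 0⟩ * Qll + Qlk) +
      de * k P.a3 * E * t * (k ⟨3, 0⟩ * t - k P.c1 * z))
    W := z
    e := k P.e0 * t2 }

/-- entries on the right, `u ≤ 0`; variables `s`, `E = 1 + u` -/
def entRM (k : Fr → α) (P : Pm) (kap ly C rh s E : α) : Ent α :=
  let one := k ⟨1, 0⟩
  let t := s * s
  let z := one - t
  let n := one - E
  let de := z - k P.cx
  let a0 := k P.th * k P.ch - k ⟨9, 1⟩ * k P.cg - k P.cg * C
  let S := k ⟨3, 0⟩ * k P.cg * z + k P.ci * (rh * t)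
  let Qu := n * (one - kap * n) * S
  let Qll := E * (z * t * a0 + k ⟨3, 1⟩ * k P.cg * k P.c3 * (z * z)) -
    k P.c2 * (rh * (n * n) * (t * t))
  let Qlk := E * (k P.c1 * k P.k1) * (z * t) - k P.k1 * k P.ci * (rh * (n * n) * (t * t))
  { a := k ⟨2, 0⟩ * k P.cg * (one + s - t) - (one + s) * (rh + kap * (n * S) * ly + k P.eps)
    b := de * de * Qll + E * (k ⟨2, 0⟩ * k P.a4 * k P.cx * (z * (t * t)) -
      k P.a4 * (z * de) * t * (t - k P.c1 * z))
    c := Qll + Qlk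
    d := k ⟨1, 1⟩ * (de * Qu - k ⟨2, 0⟩ * k P.a4 * (z * t) * E)
    f := k ⟨1, 1⟩ * (Qu + k P.k1 * (rh * n * t))
    g := k ⟨1, 1⟩ * de * (k ⟨2, 0⟩ * Qll + Qlk)
    W := one + s
    e := k P.e0 }

/-- entries on the right, `u ≥ 0`; variables `s`, `β = 1/(1 + u)`; `lp` = polynomial bound of
`-log x / s²` -/
def entRP (k : Fr → α) (P : Pm) (kap lp C rh s be : α) : Ent α :=
  let one := k ⟨1, 0⟩
  let t := s * s
  let z := one - t
  let n := one - be
  let de := z - k P.cx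
  let a0 := k P.th * k P.ch - k ⟨9, 1⟩ * k P.cg - k P.cg * C
  let S := k ⟨3, 0⟩ * k P.cg * z + k P.ci * (rh * t)
  let G := k P.cm + k ⟨2, 0⟩ - (k P.cm + one) * t
  let D2 := k ⟨2, 0⟩ * be * G + t
  let lt := lp * D2 - k ⟨2, 0⟩
  let Qu := (one - kap) * n * S
  let Qll := be * (z * t * a0 + k ⟨3, 1⟩ * k P.cg * k P.c3 * (z * z)) -
    k P.c2 * (rh * (n * n) * (t * t))
  let Qlk := be * (k P.c1 * k P.k1) * (z * t) - k P.k1 * k P.ci * (rh * (n * n) * (t * t))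
  { a := D2 * (k ⟨2, 0⟩ * k P.cg * (one + s - t) - (one + s) * (rh + k P.eps)) -
      (one + s) * kap * S * lt
    b := de * de * Qll + be * (k ⟨2, 0⟩ * k P.a4 * k P.cx * (z * (t * t)) -
      k P.a4 * (z * de) * t * (t - k P.c1 * z))
    c := Qll + Qlk
    d := k ⟨-1, 1⟩ * (de * Qu + k ⟨2, 0⟩ * k P.a4 * (z * t))
    f := k ⟨-1, 1⟩ * (Qu + k P.k1 * (rh * n * t))
    g := k ⟨1, 1⟩ * de * (k ⟨2, 0⟩ * Qll + Qlk)
    W := D2 * (one + s)
    e := k P.e0 * D2 }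

/-- entries on the right, `u ≥ 0`, near `x = 1`; variables `s`, `v = u s` (`q = s + v`),
`ρ` bounded by `(r0 s + v) / (s + v)` -/
def entRS (k : Fr → α) (P : Pm) (kap lp C r0 s v : α) : Ent α :=
  let one := k ⟨1, 0⟩
  let t := s * s
  let z := one - t
  let de := z - k P.cx
  let q := s + v
  let rq := r0 * s + v
  let a0 := k P.th * k P.ch - k ⟨9, 1⟩ * k P.cg - k P.cg * C
  let Sq := k ⟨3, 0⟩ * k P.cg * (z * q) + k P.ci * (rq * t)
  let G := k P.cm + k ⟨2, 0⟩ - (k P.cm + one) * t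
  let D2 := k ⟨2, 0⟩ * s * G + t * q
  let lt := lp * D2 - k ⟨2, 0⟩ * q
  let Qu := (one - kap) * v * Sq
  let Qll := s * (q * q) * (z * t * a0 + k ⟨3, 1⟩ * k P.cg * k P.c3 * (z * z)) -
    k P.c2 * (rq * (v * v) * (t * t))
  let Qlk := s * (q * q) * (k P.c1 * k P.k1) * (z * t) -
    k P.k1 * k P.ci * (rq * (v * v) * (t * t))
  { a := D2 * (k ⟨2, 0⟩ * k P.cg * (one + s - t) * q - (one + s) * (rq + k P.eps * q)) -
      (one + s) * kap * Sq * lt
    b := de * de * Qll + s * (q * q) * (k ⟨2, 0⟩ * k P.a4 * k P.cx * (z * (t * t)) -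
      k P.a4 * (z * de) * t * (t - k P.c1 * z))
    c := Qll + Qlk
    d := k ⟨-1, 1⟩ * (de * Qu + k ⟨2, 0⟩ * k P.a4 * (z * t) * (q * q))
    f := k ⟨-1, 1⟩ * (Qu + k P.k1 * (rq * v * t))
    g := k ⟨1, 1⟩ * de * (k ⟨2, 0⟩ * Qll + Qlk)
    W := D2 * (one + s)
    e := k P.e0 * (s * s) }

end

/-- positivity of the form -/
def FormNN (E : Ent ℝ) : Prop := ∀ X Y Z : ℝ, 0 ≤ E.a * X ^ 2 + E.W * (E.b * Y ^ 2 + E.c * Z ^ 2 +
  2 * E.d * X * Y + 2 * E.f * X * Z + 2 * E.g * Y * Z)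

theorem formNN_of {E : Ent Ex} {E' : Ent ℝ} {x y : ℝ} (h : ∀ p ∈ psdE E, 0 ≤ p.R x y)
    (ha : E.a.R x y = E'.a) (hb : E.b.R x y = E'.b) (hc : E.c.R x y = E'.c)
    (hd : E.d.R x y = E'.d) (hf : E.f.R x y = E'.f) (hg : E.g.R x y = E'.g)
    (hW : E.W.R x y = E'.W) (he : E.e.R x y = E'.e) (h0 : 0 < E'.e) (hW0 : 0 < E'.W) :
    FormNN E' := by
  intro X Y Z
  obtain ⟨h1, h2, h3, h4⟩ := psdE_sound h
  rw [ha, hb, hc, hd, hf, hg, hW, he] at *
  exact psd3 hW0 (h0.trans_le h1) h2 h3 h4 X Y Z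

theorem formLP {P : Pm} {R C rb : Ex} {x v : ℝ}
    (h : ∀ p ∈ psdE (entLP Ex.c P R C rb Ex.X Ex.Y), 0 ≤ p.R x v) (he : 0 < P.e0.R)
    (ht : 0 < 1 - x * x) :
    FormNN (entLP Fr.R P (R.R x v) (C.R x v) (rb.R x v) x v) := by
  refine formNN_of h ?_ ?_ ?_ ?_ ?_ ?_ ?_ ?_ ?_ ?_
  any_goals simp only [entLP, Ex.R_add, Ex.R_sub, Ex.R_mul, Ex.R_c, Ex.R_X, Ex.R_Y]
  · rw [Fr.R1]
    positivity
  · rw [Fr.R1]
    norm_num

theorem formLM {P : Pm} {kap R C rb : Ex} {z n1 : ℝ}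
    (h : ∀ p ∈ psdE (entLM Ex.c P kap R C rb Ex.X Ex.Y), 0 ≤ p.R z n1) (he : 0 < P.e0.R)
    (hz : 0 < z) (ht : 0 < 1 - z) :
    FormNN (entLM Fr.R P (kap.R z n1) (R.R z n1) (C.R z n1) (rb.R z n1) z n1) := by
  refine formNN_of h ?_ ?_ ?_ ?_ ?_ ?_ ?_ ?_ ?_ ?_
  any_goals simp only [entLM, Ex.R_add, Ex.R_sub, Ex.R_mul, Ex.R_c, Ex.R_X, Ex.R_Y]
  · rw [Fr.R1]
    positivity
  · exact hz

theorem formRM {P : Pm} {kap ly C rh : Ex} {s E : ℝ}
    (h : ∀ p ∈ psdE (entRM Ex.c P kap ly C rh Ex.X Ex.Y), 0 ≤ p.R s E) (he : 0 < P.e0.R)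
    (hs : 0 < s) :
    FormNN (entRM Fr.R P (kap.R s E) (ly.R s E) (C.R s E) (rh.R s E) s E) := by
  refine formNN_of h ?_ ?_ ?_ ?_ ?_ ?_ ?_ ?_ ?_ ?_
  any_goals simp only [entRM, Ex.R_add, Ex.R_sub, Ex.R_mul, Ex.R_c, Ex.R_X, Ex.R_Y]
  · exact he
  · rw [Fr.R1]
    positivity

theorem formRP {P : Pm} {kap lp C rh : Ex} {s be : ℝ}
    (h : ∀ p ∈ psdE (entRP Ex.c P kap lp C rh Ex.X Ex.Y), 0 ≤ p.R s be) (he : 0 < P.e0.R)
    (hs : 0 < s) (hD : 0 < 2 * be * ((P.m : ℝ) + 2 - (P.m + 1) * (s * s)) + s * s) :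
    FormNN (entRP Fr.R P (kap.R s be) (lp.R s be) (C.R s be) (rh.R s be) s be) := by
  refine formNN_of h ?_ ?_ ?_ ?_ ?_ ?_ ?_ ?_ ?_ ?_
  any_goals simp only [entRP, Ex.R_add, Ex.R_sub, Ex.R_mul, Ex.R_c, Ex.R_X, Ex.R_Y]
  · rw [Fr.R1, Fr.R2, Pm.cm_R]
    exact mul_pos he hD
  · rw [Fr.R1, Fr.R2, Pm.cm_R]
    exact mul_pos hD (by linarith)

theorem formRS {P : Pm} {kap lp C r0 : Ex} {s v : ℝ}
    (h : ∀ p ∈ psdE (entRS Ex.c P kap lp C r0 Ex.X Ex.Y), 0 ≤ p.R s v) (he : 0 < P.e0.R)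
    (hs : 0 < s)
    (hD : 0 < 2 * s * ((P.m : ℝ) + 2 - (P.m + 1) * (s * s)) + s * s * (s + v)) :
    FormNN (entRS Fr.R P (kap.R s v) (lp.R s v) (C.R s v) (r0.R s v) s v) := by
  refine formNN_of h ?_ ?_ ?_ ?_ ?_ ?_ ?_ ?_ ?_ ?_
  any_goals simp only [entRS, Ex.R_add, Ex.R_sub, Ex.R_mul, Ex.R_c, Ex.R_X, Ex.R_Y]
  · exact mul_pos he (mul_pos hs hs)
  · rw [Fr.R1, Fr.R2, Pm.cm_R]
    exact mul_pos hD (by linarith)

end Vale.Agent.P237.AllN
end

section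

/-!
# P237, plain certificate (m ≥ 5): the five regions
-/

namespace Vale.Agent.P237.AllN

open PolyPos

theorem pc_psd {A B C D F G W e : P2} {x y : ℝ} (h : ∀ p ∈ psdP A B C D F G W e, 0 ≤ ev2 p x y)
    (he : 0 < ev2 e x y) (hW : 0 < ev2 W x y) (X Y Z : ℝ) :
    0 ≤ ev2 A x y * X ^ 2 + ev2 W x y * (ev2 B x y * Y ^ 2 + ev2 C x y * Z ^ 2 +
      2 * ev2 D x y * X * Y + 2 * ev2 F x y * X * Z + 2 * ev2 G x y * Y * Z) := by
  obtain ⟨h1, h2, h3, h4⟩ := psdP_sound h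
  exact psd3 hW (he.trans_le h1) h2 h3 h4 X Y Z

/-- The matrix entries on the right, `t = s²`, `z = x²`, extra multiplier `η`. -/
theorem pc_right {m k1 a4 th c2 x02 eps R C rb η lm z u t lam e : ℝ} (hm : m ≠ 0)
    (ht : t ≠ 0) (hE : 1 + u ≠ 0) (hδ : z - x02 ≠ 0) :
    (1 + u) * (pcLow m k1 th c2 R C (rb / (1 + u)) (z / t)
        (lam + (z - x02) * e) u lam +
      pcNR m a4 x02 z (z / t) ((z - x02) * e) u -
      eps * (u ^ 2 / (1 + u)) -
      η / (1 + u) * u ^ 2 * (lm - (lam + (z - x02) * e))) =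
    let γ := (m - 1) / (m + 1)
    let δ := z - x02
    let E := 1 + u
    let a0 := th * (m - 1) / (2 * m) - 9 / 2 * γ - γ * C
    let Qul := -(3 * γ * z + rb * t / m - η * t) * u
    let Qll := E * (z * t * a0 + 3 / 2 * γ * (m - 3) * z ^ 2) - c2 * rb * u ^ 2 * t ^ 2
    let Qlk := E * (m - 1) * k1 * z * t - k1 / m * rb * u ^ 2 * t ^ 2
    let a := 2 * γ * R - rb - eps - η * lm
    let d := 1 / 2 * (δ * Qul - 2 * a4 * z * t * E)
    let f := 1 / 2 * (Qul - k1 * rb * u * t)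
    let b := δ ^ 2 * Qll + E * (2 * a4 * z * x02 * t ^ 2 - a4 * z * δ * t * (t - (m - 1) * z))
    let g := 1 / 2 * δ * (2 * Qll + Qlk)
    let c := Qll + Qlk
    a * u ^ 2 + (b * (e / t) ^ 2 + c * (lam / t) ^ 2 + 2 * d * u * (e / t) +
      2 * f * u * (lam / t) + 2 * g * (e / t) * (lam / t)) := by
  unfold pcLow pcNR
  simp only
  field_simp
  ring

/-- real version of the entries on the left (`x`, `v`, with multiplier `η`) -/
theorem pc_left_ge {m k1 a1 a2 a3 th c2 x02 eps R C rb η lm x v t lam l e : ℝ} (hm : m ≠ 0)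
    (ht : 0 < t) (hE : 0 < 1 + x * v) (hδ : x02 - x ^ 2 ≠ 0) (hl : l = lam + (x02 - x ^ 2) * e)
    (hη : 0 ≤ η) (hlm : η = 0 ∨ l ≤ lm)
    (h : 0 ≤ (let γ := (m - 1) / (m + 1)
      let δ := x02 - x ^ 2
      let E := 1 + x * v
      let a0 := th * (m - 1) / (2 * m) - 9 / 2 * γ - γ * C
      let Qul := -3 * γ * x ^ 2 * t * v - t ^ 2 * rb * v / m + η * t ^ 2 * v
      let Qll := E * (t * a0 + 3 / 2 * γ * (m - 3) * x ^ 2) - c2 * rb * v ^ 2 * t ^ 2
      let Qlk := (m - 1) * k1 * t * E - k1 / m * rb * v ^ 2 * t ^ 2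
      let a := t ^ 2 * (2 * γ * R - rb - eps) - η * lm * t ^ 2
      let d := 1 / 2 * (δ * Qul + 2 * x * t ^ 2 * E * (a1 + a2 * δ))
      let f := 1 / 2 * (Qul - k1 * t ^ 2 * rb * v + a3 * x * t ^ 2 * E)
      let b := δ ^ 2 * Qll + E * t ^ 2 * (2 * a1 * x02 + 2 * a2 * δ ^ 2) +
        E * t * (t - (m - 1) * x ^ 2) * δ * (a1 + a2 * δ)
      let g := 1 / 2 * (2 * δ * Qll + δ * Qlk + δ * a3 * E * t * (3 * t - (m - 1) * x ^ 2))
      let c := Qll + Qlk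
      a * (x * v) ^ 2 + (b * (x * e) ^ 2 + c * (x * lam) ^ 2 + 2 * d * (x * v) * (x * e) +
        2 * f * (x * v) * (x * lam) + 2 * g * (x * e) * (x * lam)))) :
    eps * ((x * v) ^ 2 / (1 + x * v)) ≤
      pcLow m k1 th c2 R C (rb / (1 + x * v)) (x ^ 2 / t) l (x * v) lam +
      pcNL m a1 a2 a3 x02 (x ^ 2) (x ^ 2 / t) (l - lam) (x * v) lam := by
  have key := pc_left (k1 := k1) (a1 := a1) (a2 := a2) (a3 := a3) (th := th) (c2 := c2)
    (x02 := x02) (eps := eps) (R := R) (C := C) (rb := rb) (η := η) (lm := lm) (x := x) (v := v)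
    (t := t) (lam := lam) (e := e) hm ht.ne' hE.ne' hδ
  simp only at key h
  rw [← key] at h
  have hpos : 0 < (1 + x * v) * t ^ 2 := by (clear * - hE ht; positivity)
  have h1 := nonneg_of_mul_nonneg_right h hpos
  have h2 : 0 ≤ η / (1 + x * v) * (x * v) ^ 2 * (lm - (lam + (x02 - x ^ 2) * e)) := by
    rcases hlm with h0 | h0
    · rw [h0]
      simp
    · rw [← hl]
      have : 0 ≤ lm - l := by linarith only [h0]
      (clear * - hη hE h0; (clear * - hη hE h0; positivity))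
  have h3 : l - lam = (x02 - x ^ 2) * e := by rw [hl]; ring
  rw [h3, hl]
  linarith only [h2, h1]

/-- real version of the entries on the right (`z`, `u`, with multiplier `η`) -/
theorem pc_right_ge {m k1 a4 th c2 x02 eps R C rb η lm z u t lam l e : ℝ} (hm : m ≠ 0)
    (ht : 0 < t) (hE : 0 < 1 + u) (hδ : z - x02 ≠ 0) (hl : l = lam + (z - x02) * e)
    (hη : 0 ≤ η) (hlm : η = 0 ∨ l ≤ lm)
    (h : 0 ≤ (let γ := (m - 1) / (m + 1)
      let δ := z - x02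
      let E := 1 + u
      let a0 := th * (m - 1) / (2 * m) - 9 / 2 * γ - γ * C
      let Qul := -(3 * γ * z + rb * t / m - η * t) * u
      let Qll := E * (z * t * a0 + 3 / 2 * γ * (m - 3) * z ^ 2) - c2 * rb * u ^ 2 * t ^ 2
      let Qlk := E * (m - 1) * k1 * z * t - k1 / m * rb * u ^ 2 * t ^ 2
      let a := 2 * γ * R - rb - eps - η * lm
      let d := 1 / 2 * (δ * Qul - 2 * a4 * z * t * E)
      let f := 1 / 2 * (Qul - k1 * rb * u * t)
      let b := δ ^ 2 * Qll + E * (2 * a4 * z * x02 * t ^ 2 - a4 * z * δ * t * (t - (m - 1) * z))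
      let g := 1 / 2 * δ * (2 * Qll + Qlk)
      let c := Qll + Qlk
      a * u ^ 2 + (b * (e / t) ^ 2 + c * (lam / t) ^ 2 + 2 * d * u * (e / t) +
        2 * f * u * (lam / t) + 2 * g * (e / t) * (lam / t)))) :
    eps * (u ^ 2 / (1 + u)) ≤
      pcLow m k1 th c2 R C (rb / (1 + u)) (z / t) l u lam +
      pcNR m a4 x02 z (z / t) (l - lam) u := by
  have key := pc_right (k1 := k1) (a4 := a4) (th := th) (c2 := c2)
    (x02 := x02) (eps := eps) (R := R) (C := C) (rb := rb) (η := η) (lm := lm) (z := z) (u := u)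
    (t := t) (lam := lam) (e := e) hm ht.ne' hE.ne' hδ
  simp only at key h
  rw [← key] at h
  have h1 := nonneg_of_mul_nonneg_right h hE
  have h2 : 0 ≤ η / (1 + u) * u ^ 2 * (lm - (lam + (z - x02) * e)) := by
    rcases hlm with h0 | h0
    · rw [h0]
      simp
    · rw [← hl]
      have : 0 ≤ lm - l := by linarith only [h0]
      (clear * - hη hE h0; positivity)
  have h3 : l - lam = (z - x02) * e := by rw [hl]; ring
  rw [h3, hl]
  linarith only [h1, h2]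

/-- region `x < x₀`, `u ≥ 0`; variables `x`, `v = u/x` -/
theorem pc_LP {m k1 a1 a2 a3 th c2 x02 eps R C rb x v t lam l D : ℝ}
    {La Lb Lc Ld Lf Lg Le : P2} (hm : m ≠ 0) (ht : 0 < t) (hE : 0 < 1 + x * v)
    (hδ : x02 - x ^ 2 ≠ 0) (hD : 0 < D)
    (hp : ∀ p ∈ psdP La Lb Lc Ld Lf Lg [[1]] Le, 0 ≤ ev2 p x v) (he : 0 < ev2 Le x v)
    (ea : ev2 La x v = D * (t ^ 2 * (2 * ((m - 1) / (m + 1)) * R - rb - eps)))
    (eb : ev2 Lb x v = D * ((x02 - x ^ 2) ^ 2 * ((1 + x * v) * (t * (th * (m - 1) / (2 * m) -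
      9 / 2 * ((m - 1) / (m + 1)) - (m - 1) / (m + 1) * C) + 3 / 2 * ((m - 1) / (m + 1)) *
      (m - 3) * x ^ 2) - c2 * rb * v ^ 2 * t ^ 2) + (1 + x * v) * t ^ 2 * (2 * a1 * x02 +
      2 * a2 * (x02 - x ^ 2) ^ 2) + (1 + x * v) * t * (t - (m - 1) * x ^ 2) * (x02 - x ^ 2) *
      (a1 + a2 * (x02 - x ^ 2))))
    (ec : ev2 Lc x v = D * (((1 + x * v) * (t * (th * (m - 1) / (2 * m) -
      9 / 2 * ((m - 1) / (m + 1)) - (m - 1) / (m + 1) * C) + 3 / 2 * ((m - 1) / (m + 1)) *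
      (m - 3) * x ^ 2) - c2 * rb * v ^ 2 * t ^ 2) + ((m - 1) * k1 * t * (1 + x * v) -
      k1 / m * rb * v ^ 2 * t ^ 2)))
    (ed : ev2 Ld x v = D * (1 / 2 * ((x02 - x ^ 2) * (-3 * ((m - 1) / (m + 1)) * x ^ 2 * t * v -
      t ^ 2 * rb * v / m) + 2 * x * t ^ 2 * (1 + x * v) * (a1 + a2 * (x02 - x ^ 2)))))
    (ef : ev2 Lf x v = D * (1 / 2 * ((-3 * ((m - 1) / (m + 1)) * x ^ 2 * t * v -
      t ^ 2 * rb * v / m) - k1 * t ^ 2 * rb * v + a3 * x * t ^ 2 * (1 + x * v))))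
    (eg : ev2 Lg x v = D * (1 / 2 * (2 * (x02 - x ^ 2) * ((1 + x * v) * (t * (th * (m - 1) / (2 * m) -
      9 / 2 * ((m - 1) / (m + 1)) - (m - 1) / (m + 1) * C) + 3 / 2 * ((m - 1) / (m + 1)) *
      (m - 3) * x ^ 2) - c2 * rb * v ^ 2 * t ^ 2) + (x02 - x ^ 2) * ((m - 1) * k1 * t * (1 + x * v) -
      k1 / m * rb * v ^ 2 * t ^ 2) + (x02 - x ^ 2) * a3 * (1 + x * v) * t *
      (3 * t - (m - 1) * x ^ 2)))) :
    eps * ((x * v) ^ 2 / (1 + x * v)) ≤
      pcLow m k1 th c2 R C (rb / (1 + x * v)) (x ^ 2 / t) l (x * v) lam +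
      pcNL m a1 a2 a3 x02 (x ^ 2) (x ^ 2 / t) (l - lam) (x * v) lam := by
  have hW : (0 : ℝ) < ev2 [[1]] x v := by simp [ev2, ev1, evL]
  set e := (l - lam) / (x02 - x ^ 2) with hedef
  have h := pc_psd hp he hW (x * v) (x * e) (x * lam)
  have hW1 : ev2 [[1]] x v = 1 := by simp [ev2, ev1, evL]
  rw [hW1, ea, eb, ec, ed, ef, eg] at h
  refine pc_left_ge (η := 0) (lm := 0) (e := e) hm ht hE hδ ?_ le_rfl (Or.inl rfl) ?_
  · rw [hedef]
    field_simp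
    ring
  · refine nonneg_of_mul_nonneg_right (a := D) ?_ hD
    refine h.trans (le_of_eq ?_)
    simp only
    ring

end Vale.Agent.P237.AllN
end

section

/-!
# P237, plain certificate (m ≥ 5): the checks of the five regions
-/

namespace Vale.Agent.P237.AllN

open PolyPos

/-- all data of the certificate -/
structure Dat where
  P : Pm
  /-- slope constant -/
  k : Fr
  /-- cubic constant of the bound of `ρ`, `u ≥ 0`, left -/
  cp : Fr
  /-- cubic constant of the bound of `ρ`, `u ≥ 0`, right -/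
  q3 : Fr
  /-- linear constant of the bound of `ρ`, `u` large -/
  q4 : Fr
  /-- bound of `-log x`, quadratic -/
  lx : Fr
  /-- bound of `-log x`, quartic -/
  c4 : Fr
  /-- tangent -/
  g0 : Fr
  g1 : Fr
  /-- exponent for the lower bound of `1 + u` on the left -/
  pp : ℕ
  /-- boxes: bounds of `x`, `v`, `s`, in thousandths -/
  X0 : ℕ
  V0 : ℕ
  S0 : ℕ
  K0 : ℕ
  /-- base of the encoding, width -/
  bs : ℕ
  wd : ℕ

/-- `r0`, `r1`, `r2`, `r1 + r2` -/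
def Dat.r0 (D : Dat) : Fr := ⟨(D.P.m : ℤ) - 1, 2 * D.P.m - 1⟩
def Dat.r1 (D : Dat) : Fr := ⟨(D.P.m : ℤ) ^ 2 - 1, 6 * D.P.m ^ 2 - 1⟩
def Dat.r2 (D : Dat) : Fr :=
  ⟨-(((D.P.m : ℤ) - 1) * (2 * D.P.m - 1) * (D.P.m + 1)), 24 * D.P.m ^ 3 - 1⟩

/-- powers -/
def expow (q : Ex) : ℕ → Ex
  | 0 => Ex.c ⟨1, 0⟩
  | n + 1 => q * expow q n

/-- `∑_{i<n} (1-z)^i` -/
def exgeo (z : Ex) : ℕ → Ex
  | 0 => Ex.c ⟨0, 0⟩
  | n + 1 => Ex.c ⟨1, 0⟩ + (Ex.c ⟨1, 0⟩ - z) * exgeo z n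

/-- lower bound of `1 - t/(1+s)` on the left -/
def qR (z : Ex) : Ex := Ex.c ⟨1, 1⟩ + Ex.c ⟨3, 7⟩ * z + Ex.c ⟨1, 15⟩ * (z * z)

/-- constant of the correction on the left -/
def qC (z : Ex) : Ex := Ex.c ⟨2, 4⟩ + Ex.c ⟨13, 19⟩ * z + Ex.c ⟨22, 4⟩ * (z * (z * z))

/-- bound of `ρ`, region L+ -/
def Dat.rbLP (D : Dat) : Ex := Ex.c D.r0 + Ex.c D.r1 * (Ex.X * Ex.Y) -
  Ex.c D.cp * ((Ex.X * Ex.Y) * (Ex.X * Ex.Y))

/-- bound of `ρ`, region L- -/
def Dat.rbLM (D : Dat) : Ex := Ex.c D.r0 - Ex.c D.r1 * (Ex.X * Ex.Y) +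
  Ex.c D.r2 * ((Ex.X * Ex.Y) * (Ex.X * Ex.Y))

/-- bound of `ρ`, region R-, first piece -/
def Dat.rbT (D : Dat) : Ex := Ex.c D.r0 - Ex.c D.r1 * (Ex.c ⟨1, 0⟩ - Ex.Y) +
  Ex.c D.r2 * ((Ex.c ⟨1, 0⟩ - Ex.Y) * (Ex.c ⟨1, 0⟩ - Ex.Y))

/-- bound of `ρ`, region R-, tangent piece -/
def Dat.rbG (D : Dat) : Ex := Ex.c D.g0 + Ex.c D.g1 * Ex.Y

/-- bound of `ρ`, region R-, last piece -/
def Dat.rbC (D : Dat) : Ex := Ex.c D.P.c1 * Ex.Y

/-- bound of `ρ`, region R+, first piece -/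
def Dat.rbP (D : Dat) : Ex := Ex.c D.r0 + Ex.c D.r1 * (Ex.c ⟨1, 0⟩ - Ex.Y) +
  (Ex.c D.r1 + Ex.c D.r2) * ((Ex.c ⟨1, 0⟩ - Ex.Y) * (Ex.c ⟨1, 0⟩ - Ex.Y)) +
  Ex.c D.q3 * ((Ex.c ⟨1, 0⟩ - Ex.Y) * ((Ex.c ⟨1, 0⟩ - Ex.Y) * (Ex.c ⟨1, 0⟩ - Ex.Y)))

/-- bound of `ρ`, region R+, second piece -/
def Dat.rbQ (D : Dat) : Ex := Ex.c ⟨1, 0⟩ - Ex.c D.q4 * Ex.Y

/-- bound of `-log x / s²`, region R- -/
def Dat.ly (D : Dat) : Ex := Ex.c ⟨1, 1⟩ + Ex.c D.lx * (Ex.X * Ex.X)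

/-- bound of `-log x / s²`, region R+ -/
def Dat.lp (D : Dat) : Ex := Ex.c ⟨1, 1⟩ + Ex.c ⟨1, 3⟩ * (Ex.X * Ex.X) +
  Ex.c ⟨1, 5⟩ * ((Ex.X * Ex.X) * (Ex.X * Ex.X)) +
  Ex.c D.c4 * ((Ex.X * Ex.X) * ((Ex.X * Ex.X) * (Ex.X * Ex.X)))

/-- region polynomials (nonpositive on the region) -/
def Dat.loLP (D : Dat) : Ex :=
  (Ex.Y * Ex.Y * (Ex.c ⟨1, 0⟩ - Ex.X * Ex.X) - Ex.c D.k * Ex.c D.k)
def Dat.loLM (D : Dat) : Ex := (Ex.Y - exgeo Ex.X D.pp)
def Dat.loRM (_D : Dat) (ex : ℕ) : Ex := (expow Ex.X ex - Ex.Y)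
def Dat.loRP (D : Dat) : Ex :=
  ((Ex.c ⟨1, 0⟩ - Ex.Y) * (Ex.c ⟨1, 0⟩ - Ex.Y) * (Ex.X * Ex.X) -
    Ex.Y * Ex.Y * (Ex.c D.k * Ex.c D.k) * (Ex.c ⟨1, 0⟩ - Ex.X * Ex.X))

/-- checks -/
noncomputable def Dat.kLP (D : Dat) (t : PT) : Bool :=
  tchkE D.bs D.wd 4000 [psdE (entLP Ex.c D.P (qR (Ex.X * Ex.X)) (qC (Ex.X * Ex.X)) D.rbLP Ex.X Ex.Y)] D.loLP t
    0 D.X0 1000 0 D.V0 1000

noncomputable def Dat.kLM (D : Dat) (t : PT) : Bool :=
  tchkE D.bs D.wd 4000 [psdE (entLM Ex.c D.P (Ex.c ⟨1, 0⟩) (qR Ex.X) (qC Ex.X) D.rbLM Ex.X Ex.Y)] D.loLM t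
    0 3 (D.P.m + 2) 0 D.pp 1

noncomputable def Dat.kRM (D : Dat) (rb : Ex) (ex : ℕ) (s0 s1 e0 e1 : ℤ) (t : PT) : Bool :=
  tchkE D.bs D.wd 4000 [psdE (entRM Ex.c D.P (Ex.c ⟨1, 0⟩) D.ly (Ex.c ⟨2, 0⟩) rb Ex.X Ex.Y)] (D.loRM ex) t
    s0 s1 1000 e0 e1 1000

noncomputable def Dat.kRP1 (D : Dat) (t : PT) : Bool :=
  tchkE D.bs D.wd 4000 [psdE (entRP Ex.c D.P (Ex.c ⟨3, 9⟩) D.lp (Ex.c ⟨3, 1⟩) D.rbP Ex.X Ex.Y),
    psdE (entRP Ex.c D.P (Ex.c ⟨9, 9⟩) D.lp (Ex.c ⟨3, 1⟩) D.rbP Ex.X Ex.Y)] D.loRP t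
    200 D.S0 1000 35 100 100

noncomputable def Dat.kRP2 (D : Dat) (t : PT) : Bool :=
  tchkE D.bs D.wd 4000 [psdE (entRP Ex.c D.P (Ex.c ⟨9, 9⟩) D.lp (Ex.c ⟨3, 1⟩) D.rbQ Ex.X Ex.Y)] D.loRP t
    200 D.S0 1000 0 35 100

noncomputable def Dat.kRS (D : Dat) (t : PT) : Bool :=
  tchkE D.bs D.wd 4000 [psdE (entRS Ex.c D.P (Ex.c ⟨9, 9⟩) D.lp (Ex.c ⟨3, 1⟩) (Ex.c D.r0) Ex.X Ex.Y),
    psdE (entRS Ex.c D.P (Ex.c ⟨6, 9⟩) D.lp (Ex.c ⟨3, 1⟩) (Ex.c D.r0) Ex.X Ex.Y)] (Ex.c ⟨0, 0⟩) t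
    0 200 1000 0 D.K0 1000

end Vale.Agent.P237.AllN
end

section

/-!
# P237, all dimensions: slope bounds for the transport
-/

open MeasureTheory Metric Set Module Filter Topology

namespace Vale.Agent.P237.AllN

open Alm

theorem sl_sq_cont : Continuous sq := by
  unfold sq
  fun_prop

theorem sl_sq_pos {x : ℝ} (hx : x ∈ Ioo (-1 : ℝ) 1) : 0 < sq x := by
  unfold sq
  apply Real.sqrt_pos.2
  (by_contra nlg; linarith only [nlg, mul_pos (sub_pos.2 hx.1) (sub_pos.2 hx.2), mul_nonneg (sub_nonneg.2 (not_lt.1 nlg)) (le_of_lt (sub_pos.2 hx.2)), mul_nonneg (sub_nonneg.2 (not_lt.1 nlg)) (le_of_lt (sub_pos.2 hx.1))])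

theorem sl_sq_nonneg (x : ℝ) : 0 ≤ sq x := Real.sqrt_nonneg _

theorem sl_sq_ii (m : ℕ) (a b : ℝ) : IntervalIntegrable (fun t => sq t ^ m) volume a b :=
  (sl_sq_cont.pow m).intervalIntegrable a b

theorem sl_q_pos (m : ℕ) {x : ℝ} (hx : x ∈ Ico (0 : ℝ) 1) : 0 < ∫ t in x..1, sq t ^ m := by
  apply intervalIntegral.intervalIntegral_pos_of_pos_on (sl_sq_ii m x 1) _ hx.2
  intro t ht
  exact pow_pos (sl_sq_pos ⟨by (clear * - hx ht; linarith [hx.1, ht.1]), ht.2⟩) m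

theorem sl_V_pos (m : ℕ) {r : ℝ → ℝ} (hr : IsProf r) {y : ℝ} (hy : y ∈ Ico (0 : ℝ) 1) :
    0 < ∫ t in y..1, r t ^ m := by
  apply intervalIntegral.intervalIntegral_pos_of_pos_on
    (prof_pow_ii hr m ⟨hy.1, hy.2.le⟩ ⟨zero_le_one, le_rfl⟩) _ hy.2
  intro t ht
  exact pow_pos (hr.pos t ⟨by linarith [hy.1, ht.1], ht.2⟩) m

/-- mass in terms of the tails -/
theorem IsTrans.sl_mass {m : ℕ} {r τ τ' T : ℝ → ℝ} (hr : IsProf r)
    (h : IsTrans m r τ τ' T) {x : ℝ} (hx : x ∈ Ioo (0 : ℝ) 1) :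
    (∫ t in (τ x)..1, r t ^ m) * (∫ t in (0 : ℝ)..1, sq t ^ m) =
      (∫ t in x..1, sq t ^ m) * ∫ t in (0 : ℝ)..1, r t ^ m := by
  have h1 := h.mass x hx
  have hτ := h.mem x hx
  have h01 : (1 : ℝ) ∈ Icc (0 : ℝ) 1 := ⟨zero_le_one, le_rfl⟩
  have h00 : (0 : ℝ) ∈ Icc (0 : ℝ) 1 := ⟨le_rfl, zero_le_one⟩
  have h2 : (∫ t in (0 : ℝ)..(τ x), r t ^ m) + ∫ t in (τ x)..1, r t ^ m =
      ∫ t in (0 : ℝ)..1, r t ^ m :=
    intervalIntegral.integral_add_adjacent_intervals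
      (prof_pow_ii hr m h00 ⟨hτ.1.le, hτ.2.le⟩) (prof_pow_ii hr m ⟨hτ.1.le, hτ.2.le⟩ h01)
  have h3 : (∫ t in (0 : ℝ)..x, sq t ^ m) + ∫ t in x..1, sq t ^ m =
      ∫ t in (0 : ℝ)..1, sq t ^ m :=
    intervalIntegral.integral_add_adjacent_intervals (sl_sq_ii m 0 x) (sl_sq_ii m x 1)
  rw [← h2, ← h3] at h1 ⊢
  linear_combination -h1

/-- `r` decreasing: the tail bound for the slope -/
theorem IsTrans.slope_tail {m : ℕ} (hm : 1 ≤ m) {r τ τ' T : ℝ → ℝ} (hr : IsProf r)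
    (h : IsTrans m r τ τ' T) : ∀ x ∈ Ioo (0 : ℝ) 1,
      τ' x * (∫ t in x..1, sq t ^ m) ≤ (1 - τ x) * sq x ^ m := by
  intro x hx
  have hτ := h.mem x hx
  have hZ := sl_V_pos m hr (y := 0) ⟨le_rfl, zero_lt_one⟩
  have hG := sl_q_pos m (x := 0) ⟨le_rfl, zero_lt_one⟩
  have h1 := h.sl_mass hr hx
  have h2 := h.eqn x hx
  have hV : (∫ t in (τ x)..1, r t ^ m) ≤ (1 - τ x) * r (τ x) ^ m := by
    have h3 : (∫ t in (τ x)..1, r t ^ m) ≤ ∫ t in (τ x)..1, r (τ x) ^ m := by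
      apply intervalIntegral.integral_mono_on hτ.2.le
        (prof_pow_ii hr m ⟨hτ.1.le, hτ.2.le⟩ ⟨zero_le_one, le_rfl⟩) (by simp)
      intro t ht
      have m1 : τ x ∈ Icc (0 : ℝ) 1 := ⟨hτ.1.le, hτ.2.le⟩
      have m2 : t ∈ Icc (0 : ℝ) 1 := ⟨hτ.1.le.trans ht.1, ht.2⟩
      exact pow_le_pow_left₀ (prof_nn hr m2) (prof_anti hr m1 m2 ht.1) m
    rwa [intervalIntegral.integral_const, smul_eq_mul] at h3
  have hp := h.pos x hx
  have h4 : (τ' x * (∫ t in x..1, sq t ^ m)) * (∫ t in (0 : ℝ)..1, r t ^ m) ≤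
      ((1 - τ x) * sq x ^ m) * ∫ t in (0 : ℝ)..1, r t ^ m := by
    calc (τ' x * (∫ t in x..1, sq t ^ m)) * (∫ t in (0 : ℝ)..1, r t ^ m)
        = (τ' x * ∫ t in (0 : ℝ)..1, sq t ^ m) * ∫ t in (τ x)..1, r t ^ m := by
          linear_combination (-(τ' x)) * h1
      _ ≤ (τ' x * ∫ t in (0 : ℝ)..1, sq t ^ m) * ((1 - τ x) * r (τ x) ^ m) :=
          mul_le_mul_of_nonneg_left hV (mul_pos hp hG).le
      _ = ((1 - τ x) * sq x ^ m) * ∫ t in (0 : ℝ)..1, r t ^ m := by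
          linear_combination (1 - τ x) * h2
  exact le_of_mul_le_mul_right h4 hZ

/-- the supergradient inequality -/
theorem sl_super {r : ℝ → ℝ} (hr : IsProf r) {y : ℝ} (hy : y ∈ Ioo (0 : ℝ) 1) {t : ℝ}
    (ht : t ∈ Icc (0 : ℝ) 1) : r t ≤ r y + rd r y * (t - y) := by
  have h1 := rd_has hr (y := y) ⟨by linarith only [hy.1], hy.2⟩
  rw [hasDerivWithinAt_iff_tendsto_slope' self_notMem_Ioi] at h1
  have my : y ∈ Icc (-1 : ℝ) 1 := ⟨by linarith only [hy.1], hy.2.le⟩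
  have mt : t ∈ Icc (-1 : ℝ) 1 := ⟨by linarith [ht.1], ht.2⟩
  rcases lt_trichotomy t y with hlt | heq | hgt
  · -- `t < y`
    have h2 : rd r y ≤ (r y - r t) / (y - t) := by
      refine le_of_tendsto h1 ?_
      filter_upwards [Ioo_mem_nhdsGT hy.2] with z hz
      rw [slope_def_field]
      exact hr.conc.slope_anti_adjacent mt ⟨by linarith only [hy.1, hz.1], hz.2.le⟩ hlt hz.1
    rw [le_div_iff₀ (by linarith only [hlt])] at h2
    linarith only [h2]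
  · rw [heq]
    simp
  · -- `y < t`
    have h2 : (r t - r y) / (t - y) ≤ rd r y := by
      refine ge_of_tendsto h1 ?_
      filter_upwards [Ioo_mem_nhdsGT hgt] with z hz
      have mz : z ∈ Icc (-1 : ℝ) 1 := ⟨by linarith only [hy.1, hz.1], by linarith [hz.2, ht.2]⟩
      have h3 := hr.conc.slope_anti_adjacent my mt hz.1 hz.2
      rw [slope_def_field]
      have hzy : 0 < z - y := by linarith only [hz.1]
      have htz : 0 < t - z := by linarith only [hz.2]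
      rw [div_le_div_iff₀ htz hzy] at h3
      rw [div_le_div_iff₀ (by linarith only [hzy, htz]) hzy]
      linarith only [h3]
    rw [div_le_iff₀ (by linarith only [hgt])] at h2
    linarith only [h2]

/-- Brunn-Minkowski for the tail. -/
theorem sl_cone {m : ℕ} {r : ℝ → ℝ} (hr : IsProf r) {y : ℝ} (hy : y ∈ Ioo (0 : ℝ) 1) :
    (∫ t in (0 : ℝ)..1, r t ^ m) ≤ (∫ t in y..1, r t ^ m) *
      (1 + y * r y ^ m / (((m : ℝ) + 1) * ∫ t in y..1, r t ^ m)) ^ (m + 1) := by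
  set V := ∫ t in y..1, r t ^ m with hVdef
  set R := r y with hR
  have hV : 0 < V := sl_V_pos m hr ⟨hy.1.le, hy.2⟩
  have hRpos : 0 < R := hr.pos y ⟨by linarith only [hy.1], hy.2⟩
  have hm0 : (0 : ℝ) < (m : ℝ) + 1 := by (clear * -; positivity)
  have h01 : (1 : ℝ) ∈ Icc (0 : ℝ) 1 := ⟨zero_le_one, le_rfl⟩
  have h00 : (0 : ℝ) ∈ Icc (0 : ℝ) 1 := ⟨le_rfl, zero_le_one⟩
  have hyI : y ∈ Icc (0 : ℝ) 1 := ⟨hy.1.le, hy.2.le⟩
  set k0 := -rd r y with hk0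
  have hk0n : 0 ≤ k0 := by
    have := rd_nonpos hr (y := y) ⟨hy.1.le, hy.2⟩
    linarith only [this]
  set k1 := R ^ (m + 1) / (((m : ℝ) + 1) * V) with hk1
  have hk1pos : 0 < k1 := by (clear * - hRpos hV; (clear * - hRpos hV; positivity))
  have hsup : ∀ t ∈ Icc (0 : ℝ) 1, r t ≤ R - k0 * (t - y) := by
    intro t ht
    have := sl_super hr hy ht
    rw [hk0]
    (clear * - this; linarith)
  -- `k0 ≤ k1`
  have hk01 : k0 ≤ k1 := by
    rw [hk1, le_div_iff₀ (by (clear * - hV; positivity))]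
    have h1 : V ≤ ∫ t in y..1, (R - k0 * (t - y)) ^ m := by
      apply intervalIntegral.integral_mono_on hy.2.le
        (prof_pow_ii hr m hyI h01)
        ((by fun_prop : Continuous fun t => (R - k0 * (t - y)) ^ m).intervalIntegrable _ _)
      intro t ht
      have m2 : t ∈ Icc (0 : ℝ) 1 := ⟨hy.1.le.trans ht.1, ht.2⟩
      exact pow_le_pow_left₀ (prof_nn hr m2) (hsup t m2) m
    have h2 : (∫ t in y..1, ((m : ℝ) + 1) * k0 * (R - k0 * (t - y)) ^ m) =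
        -(R - k0 * (1 - y)) ^ (m + 1) - -(R - k0 * (y - y)) ^ (m + 1) := by
      apply intervalIntegral.integral_eq_sub_of_hasDerivAt
        (f := fun t => -(R - k0 * (t - y)) ^ (m + 1))
      · intro t _
        have h3 : HasDerivAt (fun t : ℝ => R - k0 * (t - y)) (-(k0 * 1)) t :=
          (((hasDerivAt_id t).sub_const y).const_mul k0).const_sub R
        have h4 := (h3.pow (m + 1)).neg
        refine HasDerivAt.congr_deriv h4 ?_
        push_cast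
        ring
      · exact (by fun_prop : Continuous fun t =>
          ((m : ℝ) + 1) * k0 * (R - k0 * (t - y)) ^ m).intervalIntegrable _ _
    rw [intervalIntegral.integral_const_mul] at h2
    have h5 : 0 ≤ (R - k0 * (1 - y)) ^ (m + 1) :=
      pow_nonneg ((prof_nn hr h01).trans (hsup 1 h01)) _
    have h6 : ((m : ℝ) + 1) * k0 * V ≤ ((m : ℝ) + 1) * k0 * ∫ t in y..1, (R - k0 * (t - y)) ^ m :=
      mul_le_mul_of_nonneg_left h1 (by (clear * - hk0n; positivity))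
    have h7 : (R - k0 * (y - y)) ^ (m + 1) = R ^ (m + 1) := by
      congr 1
      ring
    rw [h7] at h2
    linarith
  -- the left part
  have h8 : (∫ t in (0 : ℝ)..y, r t ^ m) ≤ ∫ t in (0 : ℝ)..y, (R + k1 * (y - t)) ^ m := by
    apply intervalIntegral.integral_mono_on hy.1.le
      (prof_pow_ii hr m h00 hyI)
      ((by fun_prop : Continuous fun t => (R + k1 * (y - t)) ^ m).intervalIntegrable _ _)
    intro t ht
    have m2 : t ∈ Icc (0 : ℝ) 1 := ⟨ht.1, ht.2.trans hy.2.le⟩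
    refine pow_le_pow_left₀ (prof_nn hr m2) ((hsup t m2).trans ?_) m
    have : k0 * (y - t) ≤ k1 * (y - t) :=
      mul_le_mul_of_nonneg_right hk01 (by linarith only [ht.2])
    linarith only [this]
  have h9 : (∫ t in (0 : ℝ)..y, ((m : ℝ) + 1) * k1 * (R + k1 * (y - t)) ^ m) =
      -(R + k1 * (y - y)) ^ (m + 1) - -(R + k1 * (y - 0)) ^ (m + 1) := by
    apply intervalIntegral.integral_eq_sub_of_hasDerivAt
      (f := fun t => -(R + k1 * (y - t)) ^ (m + 1))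
    · intro t _
      have h3 : HasDerivAt (fun t : ℝ => R + k1 * (y - t)) (k1 * -1) t :=
        (((hasDerivAt_id t).const_sub y).const_mul k1).const_add R
      have h4 := (h3.pow (m + 1)).neg
      refine HasDerivAt.congr_deriv h4 ?_
      push_cast
      ring
    · exact (by fun_prop : Continuous fun t =>
        ((m : ℝ) + 1) * k1 * (R + k1 * (y - t)) ^ m).intervalIntegrable _ _
  rw [intervalIntegral.integral_const_mul] at h9
  have h10 : (∫ t in (0 : ℝ)..1, r t ^ m) = (∫ t in (0 : ℝ)..y, r t ^ m) + V :=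
    (intervalIntegral.integral_add_adjacent_intervals
      (prof_pow_ii hr m h00 hyI) (prof_pow_ii hr m hyI h01)).symm
  have h11 : ((m : ℝ) + 1) * k1 * V = R ^ (m + 1) := by
    rw [hk1]
    (clear * - hV hRpos; field_simp)
  have h12 : 1 + y * R ^ m / (((m : ℝ) + 1) * V) = (R + k1 * y) / R := by
    rw [hk1, pow_succ]
    (clear * - hV hRpos; field_simp)
  rw [h12, div_pow, h10]
  have h13 : 0 < R ^ (m + 1) := by positivity
  rw [mul_div_assoc', le_div_iff₀ h13]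
  have h14 : (R + k1 * (y - y)) ^ (m + 1) = R ^ (m + 1) := by
    congr 1
    ring
  rw [h14, sub_zero] at h9
  have h15 : (∫ t in (0 : ℝ)..y, r t ^ m) * (((m : ℝ) + 1) * k1) ≤
      (R + k1 * y) ^ (m + 1) - R ^ (m + 1) := by
    have h16 := mul_le_mul_of_nonneg_left h8 (by (clear * - hRpos hV; positivity) : 0 ≤ ((m : ℝ) + 1) * k1)
    linarith only [h9, h16]
  have h17 := mul_le_mul_of_nonneg_right h15 hV.le
  have h18 : (∫ t in (0 : ℝ)..y, r t ^ m) * (((m : ℝ) + 1) * k1) * V =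
      (∫ t in (0 : ℝ)..y, r t ^ m) * R ^ (m + 1) := by
    rw [← h11]
    ring
  linarith only [h17, h18]

/-- concavity of `r` (Brunn-Minkowski): comparison of the slope with the slope of the cone.
`Q = ∫_x^1 s^m / ∫_0^1 s^m`: `τ'/τ ≤ Q^(1/(m+1)-1) s^m / ((m+1) (1 - Q^(1/(m+1))) ∫_0^1 s^m)`. -/
theorem IsTrans.slope_cone {m : ℕ} (hm : 1 ≤ m) {r τ τ' T : ℝ → ℝ} (hr : IsProf r)
    (h : IsTrans m r τ τ' T) : ∀ x ∈ Ioo (0 : ℝ) 1,
      τ' x * ((m : ℝ) + 1) *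
        (1 - ((∫ t in x..1, sq t ^ m) / ∫ t in (0 : ℝ)..1, sq t ^ m) ^ (1 / ((m : ℝ) + 1))) *
        (∫ t in x..1, sq t ^ m) ≤
      τ x * ((∫ t in x..1, sq t ^ m) / ∫ t in (0 : ℝ)..1, sq t ^ m) ^ (1 / ((m : ℝ) + 1)) *
        sq x ^ m := by
  intro x hx
  have hτ := h.mem x hx
  have hZ := sl_V_pos m hr (y := 0) ⟨le_rfl, zero_lt_one⟩
  have hG := sl_q_pos m (x := 0) ⟨le_rfl, zero_lt_one⟩
  have hV := sl_V_pos m hr (y := τ x) ⟨hτ.1.le, hτ.2⟩
  have hq := sl_q_pos m (x := x) ⟨hx.1.le, hx.2⟩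
  have h1 := h.sl_mass hr hx
  have h2 := h.eqn x hx
  have h3 := sl_cone (m := m) hr hτ
  have hRpos : 0 < r (τ x) := hr.pos (τ x) ⟨by linarith only [hτ.1], hτ.2⟩
  have hp := h.pos x hx
  set Z := ∫ t in (0 : ℝ)..1, r t ^ m
  set V := ∫ t in (τ x)..1, r t ^ m
  set G1 := ∫ t in (0 : ℝ)..1, sq t ^ m
  set q := ∫ t in x..1, sq t ^ m
  set R := r (τ x)
  set u := τ x * R ^ m / (((m : ℝ) + 1) * V) with hu
  have hm0 : (0 : ℝ) < (m : ℝ) + 1 := by positivity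
  have hτ0 : 0 < τ x := hτ.1
  have hupos : 0 < u := by positivity
  have hQ : q / G1 = V / Z := by
    rw [div_eq_div_iff hG.ne' hZ.ne']
    linarith only [h1]
  rw [hQ]
  set G := (V / Z) ^ (1 / ((m : ℝ) + 1)) with hGdef
  have hGpos : 0 < G := Real.rpow_pos_of_pos (by positivity) _
  have hGpow : G ^ (m + 1) = V / Z := by
    rw [hGdef, ← Real.rpow_natCast, ← Real.rpow_mul (by positivity)]
    push_cast
    rw [one_div, inv_mul_cancel₀ hm0.ne', Real.rpow_one]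
  -- `1 ≤ G (1 + u)`
  have h4 : 1 ≤ G * (1 + u) := by
    have h5 : 1 ≤ (G * (1 + u)) ^ (m + 1) := by
      rw [mul_pow, hGpow, div_mul_eq_mul_div, le_div_iff₀ hZ, one_mul]
      exact h3
    by_contra hlt
    push Not at hlt
    have h6 : (G * (1 + u)) ^ (m + 1) < 1 := pow_lt_one₀ (by positivity) hlt (by omega)
    (clear * - h5 h6; linarith)
  have h7 : 1 - G ≤ G * u := by linarith only [h4]
  have h8 : τ' x * ((m : ℝ) + 1) * (1 - G) * q ≤ τ' x * ((m : ℝ) + 1) * (G * u) * q :=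
    mul_le_mul_of_nonneg_right (mul_le_mul_of_nonneg_left h7 (by positivity)) hq.le
  refine h8.trans (le_of_eq ?_)
  have h9 : q * Z = V * G1 := h1.symm
  have h10 : τ' x * ((m : ℝ) + 1) * (G * u) * q * (V * Z) = τ x * G * sq x ^ m * (V * Z) := by
    have h11 : u * (((m : ℝ) + 1) * V) = τ x * R ^ m := by
      rw [hu]
      (clear * - hm hV hRpos hτ0; field_simp)
    calc τ' x * ((m : ℝ) + 1) * (G * u) * q * (V * Z)
        = τ' x * G * (u * (((m : ℝ) + 1) * V)) * (q * Z) := by ring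
      _ = τ x * G * V * (τ' x * R ^ m * G1) := by rw [h11, h9]; ring
      _ = τ x * G * sq x ^ m * (V * Z) := by rw [h2]; ring
  exact mul_right_cancel₀ (mul_pos hV hZ).ne' h10

end Vale.Agent.P237.AllN
end

section

/-!
# P237, all dimensions: the transport of the ball law to the law of a profile
-/

open MeasureTheory Metric Set Module Filter Topology

namespace Vale.Agent.P237.AllN

/-- integrands of the two laws -/
structure TrGood (f : ℝ → ℝ) : Prop where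
  anti : AntitoneOn f (Icc 0 1)
  cont : ContinuousOn f (Ioo 0 1)
  pos : ∀ x ∈ Ioo (0 : ℝ) 1, 0 < f x

/-- primitive -/
noncomputable def trP (f : ℝ → ℝ) (y : ℝ) : ℝ := ∫ t in (0 : ℝ)..y, f t

theorem TrGood.ii {f : ℝ → ℝ} (hf : TrGood f) {a b : ℝ} (ha : a ∈ Icc (0 : ℝ) 1)
    (hb : b ∈ Icc (0 : ℝ) 1) : IntervalIntegrable f volume a b := by
  apply AntitoneOn.intervalIntegrable
  exact hf.anti.mono (uIcc_subset_Icc ha hb)

theorem trn_mem0 : (0 : ℝ) ∈ Icc (0 : ℝ) 1 := ⟨le_rfl, zero_le_one⟩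

theorem trn_mem1 : (1 : ℝ) ∈ Icc (0 : ℝ) 1 := ⟨zero_le_one, le_rfl⟩

theorem TrGood.sub {f : ℝ → ℝ} (hf : TrGood f) {a b : ℝ} (ha : a ∈ Icc (0 : ℝ) 1)
    (hb : b ∈ Icc (0 : ℝ) 1) : trP f b - trP f a = ∫ t in a..b, f t := by
  unfold trP
  rw [intervalIntegral.integral_interval_sub_left (hf.ii trn_mem0 hb) (hf.ii trn_mem0 ha)]

theorem TrGood.strict {f : ℝ → ℝ} (hf : TrGood f) : StrictMonoOn (trP f) (Icc 0 1) := by
  intro x hx y hy hxy
  have h := hf.sub hx hy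
  have h2 : 0 < ∫ t in x..y, f t := by
    apply intervalIntegral.intervalIntegral_pos_of_pos_on (hf.ii hx hy) _ hxy
    intro t ht
    exact hf.pos t ⟨lt_of_le_of_lt hx.1 ht.1, lt_of_lt_of_le ht.2 hy.2⟩
  linarith only [h, h2]

theorem TrGood.der {f : ℝ → ℝ} (hf : TrGood f) {y : ℝ} (hy : y ∈ Ioo (0 : ℝ) 1) :
    HasDerivAt (trP f) (f y) y := by
  apply intervalIntegral.integral_hasDerivAt_right (hf.ii trn_mem0 (Ioo_subset_Icc_self hy))
  · exact hf.cont.stronglyMeasurableAtFilter isOpen_Ioo y hy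
  · exact hf.cont.continuousAt (isOpen_Ioo.mem_nhds hy)

theorem TrGood.pcont {f : ℝ → ℝ} (hf : TrGood f) : ContinuousOn (trP f) (Icc 0 1) := by
  have h := intervalIntegral.continuousOn_primitive_interval (μ := volume) (f := f) (a := 0) (b := 1)
    (by
      rw [uIcc_of_le zero_le_one]
      have h := hf.ii trn_mem0 trn_mem1
      rwa [intervalIntegrable_iff_integrableOn_Icc_of_le zero_le_one] at h)
  rwa [uIcc_of_le zero_le_one] at h

theorem trn_zero (f : ℝ → ℝ) : trP f 0 = 0 := by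
  unfold trP
  exact intervalIntegral.integral_same

theorem TrGood.pos1 {f : ℝ → ℝ} (hf : TrGood f) : 0 < trP f 1 := by
  have h := hf.strict trn_mem0 trn_mem1 zero_lt_one
  rwa [trn_zero] at h

theorem TrGood.exists_inv {f : ℝ → ℝ} (hf : TrGood f) : ∃ K : ℝ → ℝ,
    (∀ z ∈ Ioo (0 : ℝ) (trP f 1), K z ∈ Ioo (0 : ℝ) 1 ∧ trP f (K z) = z) ∧
    (∀ y ∈ Ioo (0 : ℝ) 1, K (trP f y) = y) ∧
    ∀ z ∈ Ioo (0 : ℝ) (trP f 1), HasDerivAt K (f (K z))⁻¹ z := by
  have h1 : ∀ z, ∃ y, z ∈ Ioo (0 : ℝ) (trP f 1) → y ∈ Ioo (0 : ℝ) 1 ∧ trP f y = z := by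
    intro z
    by_cases hz : z ∈ Ioo (0 : ℝ) (trP f 1)
    · have h := intermediate_value_Ioo zero_le_one hf.pcont
      rw [trn_zero] at h
      obtain ⟨y, hy, hy2⟩ := h hz
      exact ⟨y, fun _ => ⟨hy, hy2⟩⟩
    · exact ⟨0, fun h => absurd h hz⟩
  choose K hK using h1
  have hR : ∀ y ∈ Ioo (0 : ℝ) 1, trP f y ∈ Ioo (0 : ℝ) (trP f 1) := by
    intro y hy
    have a1 := hf.strict trn_mem0 (Ioo_subset_Icc_self hy) hy.1
    have a2 := hf.strict (Ioo_subset_Icc_self hy) trn_mem1 hy.2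
    rw [trn_zero] at a1
    exact ⟨a1, a2⟩
  have hL : ∀ y ∈ Ioo (0 : ℝ) 1, K (trP f y) = y := by
    intro y hy
    have h := hK _ (hR y hy)
    exact hf.strict.injOn (Ioo_subset_Icc_self h.1) (Ioo_subset_Icc_self hy) h.2
  have hmono : StrictMonoOn K (Ioo 0 (trP f 1)) := by
    intro z hz w hw hzw
    by_contra hcon
    push Not at hcon
    have h1 := hK z hz
    have h2 := hK w hw
    have h3 := hf.strict.monotoneOn (Ioo_subset_Icc_self h2.1) (Ioo_subset_Icc_self h1.1) hcon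
    rw [h1.2, h2.2] at h3
    exact absurd hzw (not_lt.2 h3)
  refine ⟨K, hK, hL, ?_⟩
  intro z hz
  have hKz := hK z hz
  have hcont : ContinuousAt K z := by
    apply hmono.continuousAt_of_image_mem_nhds (isOpen_Ioo.mem_nhds hz)
    apply Filter.mem_of_superset (isOpen_Ioo.mem_nhds hKz.1)
    intro y hy
    exact ⟨trP f y, hR y hy, hL y hy⟩
  apply HasDerivAt.of_local_left_inverse hcont (hf.der hKz.1) (hf.pos _ hKz.1).ne'
  filter_upwards [isOpen_Ioo.mem_nhds hz] with w hw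
  exact (hK w hw).2

theorem TrGood.avg {f : ℝ → ℝ} (hf : TrGood f) {y : ℝ} (hy : y ∈ Icc (0 : ℝ) 1) :
    y * trP f 1 ≤ trP f y := by
  have h1 := hf.sub hy trn_mem1
  have h2 : ∫ t in y..1, f t ≤ (1 - y) * f y := by
    have h := intervalIntegral.integral_mono_on hy.2 (hf.ii hy trn_mem1)
      (intervalIntegrable_const (c := f y))
      (fun t ht => hf.anti hy ⟨hy.1.trans ht.1, ht.2⟩ ht.1)
    rwa [intervalIntegral.integral_const, smul_eq_mul] at h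
  have h3 : y * f y ≤ trP f y := by
    have h := intervalIntegral.integral_mono_on hy.1
      (intervalIntegrable_const (c := f y)) (hf.ii trn_mem0 hy)
      (fun t ht => hf.anti ⟨ht.1, ht.2.trans hy.2⟩ hy ht.2)
    rw [intervalIntegral.integral_const, smul_eq_mul, sub_zero] at h
    exact h
  have h4 : 0 ≤ 1 - y := by linarith only [hy.2]
  have h5 := mul_le_mul_of_nonneg_left h2 hy.1
  have h6 := mul_le_mul_of_nonneg_left h3 h4
  rw [← h1] at h5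
  linarith only [h5, h6]

theorem TrGood.le_zero {f : ℝ → ℝ} (hf : TrGood f) {y : ℝ} (hy : y ∈ Icc (0 : ℝ) 1) :
    trP f y ≤ y * f 0 := by
  have h := intervalIntegral.integral_mono_on hy.1 (hf.ii trn_mem0 hy)
    (intervalIntegrable_const (c := f 0))
    (fun t ht => hf.anti trn_mem0 ⟨ht.1, ht.2.trans hy.2⟩ ht.1)
  rw [intervalIntegral.integral_const, smul_eq_mul, sub_zero] at h
  exact h

theorem trGood_prof (m : ℕ) {r : ℝ → ℝ} (hr : IsProf r) : TrGood (fun t => r t ^ m) where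
  anti := by
    intro x hx y hy hxy
    exact pow_le_pow_left₀ (Alm.prof_nn hr hy) (Alm.prof_anti hr hx hy hxy) m
  cont := by
    have h := (Alm.prof_cont hr).mono (s := Ioo (-1) 1) (t := Ioo 0 1)
      (Ioo_subset_Ioo (by norm_num) le_rfl)
    exact h.pow m
  pos := fun x hx => pow_pos (Alm.prof_pos' hr ⟨hx.1.le, hx.2⟩) m

theorem trn_sq_nonneg (x : ℝ) : 0 ≤ sq x := Real.sqrt_nonneg _

theorem trn_sq_pos {x : ℝ} (hx : x ∈ Ioo (0 : ℝ) 1) : 0 < sq x := by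
  apply Real.sqrt_pos.2
  have h : x ^ 2 < 1 := by
    have := hx.1
    have := hx.2
    nlinarith only [hx.1, hx.2]
  linarith only [h]

theorem trn_sq_sq {x : ℝ} (hx : x ∈ Icc (0 : ℝ) 1) : sq x ^ 2 = 1 - x ^ 2 := by
  apply Real.sq_sqrt
  linarith only [mul_nonneg (sub_nonneg.2 hx.2) (sub_nonneg.2 hx.2), mul_nonneg (sub_nonneg.2 hx.1) (sub_nonneg.2 hx.2)]

theorem trn_sq_cont : Continuous sq := by
  unfold sq
  fun_prop

theorem trn_sq_anti : AntitoneOn sq (Icc 0 1) := by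
  intro x hx y hy hxy
  apply Real.sqrt_le_sqrt
  linarith only [mul_nonneg (sub_nonneg.2 hxy) (sub_nonneg.2 hxy), mul_nonneg (sub_nonneg.2 hx.1) (sub_nonneg.2 hxy)]

theorem trGood_sq (m : ℕ) : TrGood (fun t => sq t ^ m) where
  anti := by
    intro x hx y hy hxy
    exact pow_le_pow_left₀ (trn_sq_nonneg y) (trn_sq_anti hx hy hxy) m
  cont := (trn_sq_cont.pow m).continuousOn
  pos := fun x hx => pow_pos (trn_sq_pos hx) m

theorem trn_sq_zero : sq 0 = 1 := by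
  simp [sq]

theorem exists_trans {m : ℕ} (hm : 1 ≤ m) {r : ℝ → ℝ} (hr : IsProf r) :
    ∃ τ τ' T : ℝ → ℝ, IsTrans m r τ τ' T := by
  have hF := trGood_prof m hr
  have hG := trGood_sq m
  set F : ℝ → ℝ := trP (fun t => r t ^ m) with hFdef
  set G : ℝ → ℝ := trP (fun t => sq t ^ m) with hGdef
  have hA : 0 < F 1 := hF.pos1
  have hB : 0 < G 1 := hG.pos1
  obtain ⟨K, hK1, hK2, hK3⟩ := hF.exists_inv
  obtain ⟨L, hL1, hL2, hL3⟩ := hG.exists_inv
  have hFR : ∀ y ∈ Ioo (0 : ℝ) 1, F y ∈ Ioo (0 : ℝ) (F 1) := by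
    intro y hy
    have a1 := hF.strict trn_mem0 (Ioo_subset_Icc_self hy) hy.1
    have a2 := hF.strict (Ioo_subset_Icc_self hy) trn_mem1 hy.2
    rw [trn_zero] at a1
    exact ⟨a1, a2⟩
  have hGR : ∀ y ∈ Ioo (0 : ℝ) 1, G y ∈ Ioo (0 : ℝ) (G 1) := by
    intro y hy
    have a1 := hG.strict trn_mem0 (Ioo_subset_Icc_self hy) hy.1
    have a2 := hG.strict (Ioo_subset_Icc_self hy) trn_mem1 hy.2
    rw [trn_zero] at a1
    exact ⟨a1, a2⟩
  have e1 : ∀ x ∈ Ioo (0 : ℝ) 1, G x * (F 1 / G 1) ∈ Ioo (0 : ℝ) (F 1) := by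
    intro x hx
    have h := hGR x hx
    refine ⟨mul_pos h.1 (div_pos hA hB), ?_⟩
    have h2 : G x * (F 1 / G 1) < G 1 * (F 1 / G 1) := mul_lt_mul_of_pos_right h.2 (div_pos hA hB)
    rwa [mul_div_cancel₀ _ hB.ne'] at h2
  have e2 : ∀ y ∈ Ioo (0 : ℝ) 1, F y * (G 1 / F 1) ∈ Ioo (0 : ℝ) (G 1) := by
    intro x hx
    have h := hFR x hx
    refine ⟨mul_pos h.1 (div_pos hB hA), ?_⟩
    have h2 : F x * (G 1 / F 1) < F 1 * (G 1 / F 1) := mul_lt_mul_of_pos_right h.2 (div_pos hB hA)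
    rwa [mul_div_cancel₀ _ hA.ne'] at h2
  have hmem : ∀ x ∈ Ioo (0 : ℝ) 1, K (G x * (F 1 / G 1)) ∈ Ioo (0 : ℝ) 1 :=
    fun x hx => (hK1 _ (e1 x hx)).1
  have hFτ : ∀ x ∈ Ioo (0 : ℝ) 1, F (K (G x * (F 1 / G 1))) = G x * (F 1 / G 1) :=
    fun x hx => (hK1 _ (e1 x hx)).2
  have hTmem : ∀ x ∈ Ioo (0 : ℝ) 1, L (F x * (G 1 / F 1)) ∈ Ioo (0 : ℝ) 1 :=
    fun x hx => (hL1 _ (e2 x hx)).1
  have hGT : ∀ x ∈ Ioo (0 : ℝ) 1, G (L (F x * (G 1 / F 1))) = F x * (G 1 / F 1) :=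
    fun x hx => (hL1 _ (e2 x hx)).2
  have hder : ∀ x ∈ Ioo (0 : ℝ) 1, HasDerivAt (fun x => K (G x * (F 1 / G 1)))
      ((r (K (G x * (F 1 / G 1))) ^ m)⁻¹ * (sq x ^ m * (F 1 / G 1))) x := by
    intro x hx
    have h1 := hK3 _ (e1 x hx)
    have h2 := (hG.der hx).mul_const (F 1 / G 1)
    exact h1.comp x h2
  have hrpos : ∀ x ∈ Ioo (0 : ℝ) 1, 0 < r x := fun x hx => Alm.prof_pos' hr ⟨hx.1.le, hx.2⟩
  have hright : ∀ y ∈ Ioo (0 : ℝ) 1,
      K (G (L (F y * (G 1 / F 1))) * (F 1 / G 1)) = y := by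
    intro y hy
    rw [hGT y hy]
    have e : F y * (G 1 / F 1) * (F 1 / G 1) = F y := by
      field_simp
    rw [e]
    exact hK2 y hy
  refine ⟨fun x => K (G x * (F 1 / G 1)),
    fun x => (r (K (G x * (F 1 / G 1))) ^ m)⁻¹ * (sq x ^ m * (F 1 / G 1)),
    fun y => L (F y * (G 1 / F 1)), hmem, hder, ?_, ?_, hTmem, ?_, hright, ?_, ?_, ?_⟩
  · intro x hx
    have h1 := pow_pos (hrpos _ (hmem x hx)) m
    have h2 := pow_pos (trn_sq_pos hx) m
    have h3 := div_pos hA hB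
    (clear * - h1 h2 hA hB; positivity)
  · have h1 : ContinuousOn (fun x => K (G x * (F 1 / G 1))) (Ioo 0 1) :=
      fun x hx => (hder x hx).continuousAt.continuousWithinAt
    have h2 : ContinuousOn (fun x => r (K (G x * (F 1 / G 1))) ^ m) (Ioo 0 1) :=
      hF.cont.comp h1 hmem
    apply ContinuousOn.mul
    · exact h2.inv₀ (fun x hx => (pow_pos (hrpos _ (hmem x hx)) m).ne')
    · exact ((trn_sq_cont.pow m).mul continuous_const).continuousOn
  · intro x hx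
    show L (F (K (G x * (F 1 / G 1))) * (G 1 / F 1)) = x
    rw [hFτ x hx]
    have e : G x * (F 1 / G 1) * (G 1 / F 1) = G x := by
      field_simp
    rw [e]
    exact hL2 x hx
  · intro y hy
    have h1 := hL3 _ (e2 y hy)
    have h2 := (hF.der hy).mul_const (G 1 / F 1)
    have h3 := h1.comp y h2
    simp only [hright y hy]
    refine h3.congr_deriv ?_
    rw [mul_inv, inv_inv, mul_inv, inv_div]
    ring
  · intro x hx
    have h1 := hFτ x hx
    show F (K (G x * (F 1 / G 1))) * G 1 = G x * F 1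
    rw [h1]
    field_simp
  · intro x hx
    show (r (K (G x * (F 1 / G 1))) ^ m)⁻¹ * (sq x ^ m * (F 1 / G 1)) *
      r (K (G x * (F 1 / G 1))) ^ m * G 1 = sq x ^ m * F 1
    have h1 := (pow_pos (hrpos _ (hmem x hx)) m).ne'
    generalize r (K (G x * (F 1 / G 1))) ^ m = R at h1
    field_simp

theorem IsTrans.mono {m : ℕ} {r τ τ' T : ℝ → ℝ} (h : IsTrans m r τ τ' T) :
    StrictMonoOn τ (Ioo 0 1) := by
  apply strictMonoOn_of_deriv_pos (convex_Ioo 0 1)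
  · exact fun x hx => (h.der x hx).continuousAt.continuousWithinAt
  · intro x hx
    rw [interior_Ioo] at hx
    rw [(h.der x hx).deriv]
    exact h.pos x hx

/-- change of variables -/
theorem IsTrans.integral {m : ℕ} (hm : 1 ≤ m) {r τ τ' T : ℝ → ℝ} (hr : IsProf r)
    (h : IsTrans m r τ τ' T) {F : ℝ → ℝ} (hF : ContinuousOn F (Ioo 0 1)) {α β : ℝ} (h0 : 0 < α)
    (h1 : α ≤ β) (h2 : β < 1) :
    (∫ y in (τ α)..(τ β), F y * r y ^ m) * (∫ t in (0 : ℝ)..1, sq t ^ m) =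
      (∫ x in α..β, F (τ x) * sq x ^ m) * ∫ t in (0 : ℝ)..1, r t ^ m := by
  have hsub : uIcc α β ⊆ Ioo 0 1 := by
    rw [uIcc_of_le h1]
    exact fun x hx => ⟨lt_of_lt_of_le h0 hx.1, lt_of_le_of_lt hx.2 h2⟩
  have hτc : ContinuousOn τ (Ioo 0 1) := fun x hx => (h.der x hx).continuousAt.continuousWithinAt
  have key := intervalIntegral.integral_comp_mul_deriv'' (f := τ) (f' := τ')
    (g := fun y => F y * r y ^ m) (a := α) (b := β) (hτc.mono hsub)
    (fun x hx => by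
      have hx2 : x ∈ Ioo (0 : ℝ) 1 := by
        apply hsub
        rw [uIcc_of_le h1]
        rw [min_eq_left h1, max_eq_right h1] at hx
        exact Ioo_subset_Icc_self hx
      exact (h.der x hx2).hasDerivWithinAt)
    (h.cont.mono hsub)
    ((hF.mul (trGood_prof m hr).cont).mono (by
      rintro _ ⟨x, hx, rfl⟩
      exact h.mem x (hsub hx)))
  rw [← key, ← intervalIntegral.integral_mul_const, ← intervalIntegral.integral_mul_const]
  apply intervalIntegral.integral_congr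
  intro x hx
  have e := h.eqn x (hsub hx)
  simp only [Function.comp_apply]
  have e2 : F (τ x) * r (τ x) ^ m * τ' x * (∫ t in (0 : ℝ)..1, sq t ^ m) =
      F (τ x) * (τ' x * r (τ x) ^ m * (∫ t in (0 : ℝ)..1, sq t ^ m)) := by ring
  rw [e2, e]
  ring

/-- comparison near `0` (true on all of `(0,1)`) -/
theorem IsTrans.near_zero {m : ℕ} (hm : 1 ≤ m) {r τ τ' T : ℝ → ℝ} (hr : IsProf r)
    (h : IsTrans m r τ τ' T) : ∃ C : ℝ, 0 < C ∧ ∀ x ∈ Ioo (0 : ℝ) 1, x ≤ C * τ x ∧ τ x ≤ C * x := by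
  have hF := trGood_prof m hr
  have hG := trGood_sq m
  have hA := hF.pos1
  have hB := hG.pos1
  have hr0 : 0 < r 0 ^ m := pow_pos (hr.pos 0 ⟨by norm_num, by norm_num⟩) m
  set A := trP (fun t => r t ^ m) 1 with hAdef
  set B := trP (fun t => sq t ^ m) 1 with hBdef
  refine ⟨r 0 ^ m / A + 1 / B, by positivity, ?_⟩
  intro x hx
  have hτ := h.mem x hx
  have hmass : trP (fun t => r t ^ m) (τ x) * B = trP (fun t => sq t ^ m) x * A := h.mass x hx
  have a1 := hF.avg (Ioo_subset_Icc_self hτ)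
  have a2 := hF.le_zero (Ioo_subset_Icc_self hτ)
  have b1 := hG.avg (Ioo_subset_Icc_self hx)
  have b2 := hG.le_zero (Ioo_subset_Icc_self hx)
  simp only [trn_sq_zero, one_pow, mul_one] at b2
  rw [← hAdef] at a1
  rw [← hBdef] at b1
  constructor
  · have c1 : x * B * A ≤ τ x * r 0 ^ m * B := by
      calc x * B * A ≤ trP (fun t => sq t ^ m) x * A := mul_le_mul_of_nonneg_right b1 hA.le
        _ = trP (fun t => r t ^ m) (τ x) * B := hmass.symm
        _ ≤ τ x * r 0 ^ m * B := mul_le_mul_of_nonneg_right a2 hB.le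
    have c2 : x * A ≤ τ x * r 0 ^ m := by
      have e : x * A * B ≤ τ x * r 0 ^ m * B := by linarith only [c1, mul_right_comm x B A]
      exact le_of_mul_le_mul_right e hB
    have c3 : x ≤ r 0 ^ m / A * τ x := by
      rw [div_mul_eq_mul_div, le_div_iff₀ hA]
      linarith only [c2, mul_comm (τ x) (r 0 ^ m)]
    have c4 : 0 ≤ 1 / B * τ x := mul_nonneg (by positivity) hτ.1.le
    linarith only [c4, c3]
  · have c1 : τ x * A * B ≤ x * A := by
      calc τ x * A * B ≤ trP (fun t => r t ^ m) (τ x) * B := mul_le_mul_of_nonneg_right a1 hB.le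
        _ = trP (fun t => sq t ^ m) x * A := hmass
        _ ≤ x * A := mul_le_mul_of_nonneg_right b2 hA.le
    have c2 : τ x * B ≤ x := by
      have e : τ x * B * A ≤ x * A := by linarith only [c1, mul_right_comm (τ x) A B]
      exact le_of_mul_le_mul_right e hA
    have c3 : τ x ≤ 1 / B * x := by
      rw [div_mul_eq_mul_div, one_mul, le_div_iff₀ hB]
      exact c2
    have c4 : 0 ≤ r 0 ^ m / A * x := mul_nonneg (by positivity) hx.1.le
    linarith only [c4, c3]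

/-- `τ` is below the transport to the uniform law -/
theorem IsTrans.le_cyl {m : ℕ} (hm : 1 ≤ m) {r τ τ' T : ℝ → ℝ} (hr : IsProf r)
    (h : IsTrans m r τ τ' T) : ∀ x ∈ Ioo (0 : ℝ) 1,
      τ x * (∫ t in (0 : ℝ)..1, sq t ^ m) ≤ ∫ t in (0 : ℝ)..x, sq t ^ m := by
  intro x hx
  have hF := trGood_prof m hr
  have hG := trGood_sq m
  have hA := hF.pos1
  have hB := hG.pos1
  have hτ := h.mem x hx
  have hmass : trP (fun t => r t ^ m) (τ x) * trP (fun t => sq t ^ m) 1 =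
    trP (fun t => sq t ^ m) x * trP (fun t => r t ^ m) 1 := h.mass x hx
  have a1 := hF.avg (Ioo_subset_Icc_self hτ)
  show τ x * trP (fun t => sq t ^ m) 1 ≤ trP (fun t => sq t ^ m) x
  have c1 := mul_le_mul_of_nonneg_right a1 hB.le
  rw [hmass] at c1
  have e : τ x * trP (fun t => sq t ^ m) 1 * trP (fun t => r t ^ m) 1 ≤
      trP (fun t => sq t ^ m) x * trP (fun t => r t ^ m) 1 := by
    linarith only [c1, mul_right_comm (τ x) (trP (fun t => sq t ^ m) 1) (trP (fun t => r t ^ m) 1)]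
  exact le_of_mul_le_mul_right e hA

theorem trn_pow_int (m : ℕ) (a : ℝ) :
    ∫ t in a..1, (1 - t) ^ m = (1 - a) ^ (m + 1) / ((m : ℝ) + 1) := by
  have h := intervalIntegral.integral_comp_sub_left (a := a) (b := 1) (fun u : ℝ => u ^ m) (1 : ℝ)
  simp only [sub_self] at h
  rw [h, integral_pow]
  simp

theorem trn_cone_int {m : ℕ} {a : ℝ} (ha : a < 1) {r : ℝ → ℝ} (hr : IsProf r) (ha0 : 0 ≤ a) :
    (1 - a) * r a ^ m / ((m : ℝ) + 1) ≤ ∫ t in a..1, r t ^ m := by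
  have hd : 0 < 1 - a := by linarith only [ha]
  have hma : a ∈ Icc (0 : ℝ) 1 := ⟨ha0, ha.le⟩
  have h1 : ∀ t ∈ Icc a 1, (r a / (1 - a) * (1 - t)) ^ m ≤ r t ^ m := by
    intro t ht
    have hra : 0 ≤ r a := Alm.prof_nn hr hma
    have h2 : r a / (1 - a) * (1 - t) ≤ r t := by
      have m1 : a ∈ Icc (-1 : ℝ) 1 := ⟨by linarith only [ha0], ha.le⟩
      have m2 : (1 : ℝ) ∈ Icc (-1 : ℝ) 1 := ⟨by norm_num, le_rfl⟩
      have p1 : 0 ≤ (1 - t) / (1 - a) := div_nonneg (by linarith only [ht.2]) hd.le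
      have p2 : 0 ≤ (t - a) / (1 - a) := div_nonneg (by linarith only [ht.1]) hd.le
      have hc := hr.conc.2 m1 m2 p1 p2 (by field_simp; ring)
      simp only [smul_eq_mul] at hc
      have e : (1 - t) / (1 - a) * a + (t - a) / (1 - a) * 1 = t := by
        field_simp
        ring
      rw [e] at hc
      have e2 : r a / (1 - a) * (1 - t) = (1 - t) / (1 - a) * r a := by ring
      rw [e2]
      have h3 := mul_nonneg p2 hr.nonneg
      linarith only [hc, h3]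
    apply pow_le_pow_left₀ _ h2
    exact mul_nonneg (div_nonneg hra hd.le) (by linarith only [ht.2])
  have h2 : ∫ t in a..1, (r a / (1 - a) * (1 - t)) ^ m = (1 - a) * r a ^ m / ((m : ℝ) + 1) := by
    have hne : (1 - a) ≠ 0 := hd.ne'
    simp only [mul_pow]
    rw [intervalIntegral.integral_const_mul, trn_pow_int, div_pow, pow_succ]
    field_simp
  rw [← h2]
  apply intervalIntegral.integral_mono_on ha.le
  · apply Continuous.intervalIntegrable
    fun_prop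
  · exact (trGood_prof m hr).ii hma trn_mem1
  · exact h1

/-- mass bounds near `1` -/
theorem IsTrans.near_one {m : ℕ} (hm : 1 ≤ m) {r τ τ' T : ℝ → ℝ} (hr : IsProf r)
    (h : IsTrans m r τ τ' T) : ∃ C : ℝ, 0 < C ∧ ∀ x ∈ Ioo (0 : ℝ) 1,
      (1 - τ x) * r (τ x) ^ m ≤ C * sq x ^ (m + 2) ∧
      (1 - τ x) ^ (m + 1) ≤ C * sq x ^ (m + 2) := by
  have hF := trGood_prof m hr
  have hG := trGood_sq m
  have hA := hF.pos1
  have hB := hG.pos1
  have hr0 : 0 < r 0 ^ m := pow_pos (hr.pos 0 ⟨by norm_num, by norm_num⟩) m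
  set A := trP (fun t => r t ^ m) 1 with hAdef
  set B := trP (fun t => sq t ^ m) 1 with hBdef
  have hm1 : (0 : ℝ) < (m : ℝ) + 1 := by positivity
  refine ⟨((m : ℝ) + 1) * A / B + ((m : ℝ) + 1) * A / (B * r 0 ^ m), by (clear * - hm hA hB hr0; positivity), ?_⟩
  intro x hx
  have hτ := h.mem x hx
  have hmass : trP (fun t => r t ^ m) (τ x) * B = trP (fun t => sq t ^ m) x * A := h.mass x hx
  have s1 := hF.sub (Ioo_subset_Icc_self hτ) trn_mem1
  have s2 := hG.sub (Ioo_subset_Icc_self hx) trn_mem1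
  rw [← hAdef] at s1
  rw [← hBdef] at s2
  have hsq : 0 ≤ sq x ^ (m + 2) := pow_nonneg (trn_sq_nonneg x) _
  have tail : ∫ t in x..1, sq t ^ m ≤ sq x ^ (m + 2) := by
    have h1 := intervalIntegral.integral_mono_on hx.2.le (hG.ii (Ioo_subset_Icc_self hx) trn_mem1)
      (intervalIntegrable_const (c := sq x ^ m))
      (fun t ht => hG.anti (Ioo_subset_Icc_self hx) ⟨hx.1.le.trans ht.1, ht.2⟩ ht.1)
    rw [intervalIntegral.integral_const, smul_eq_mul] at h1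
    have h2 : 1 - x ≤ sq x ^ 2 := by
      rw [trn_sq_sq (Ioo_subset_Icc_self hx)]
      nlinarith only [hx.1, hx.2]
    have h3 := mul_le_mul_of_nonneg_right h2 (pow_nonneg (trn_sq_nonneg x) m)
    calc ∫ t in x..1, sq t ^ m ≤ (1 - x) * sq x ^ m := h1
      _ ≤ sq x ^ 2 * sq x ^ m := h3
      _ = sq x ^ (m + 2) := by ring
  have key : (∫ t in (τ x)..1, r t ^ m) * B ≤ sq x ^ (m + 2) * A := by
    rw [← s1]
    have e : (A - trP (fun t => r t ^ m) (τ x)) * B = (B - trP (fun t => sq t ^ m) x) * A := by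
      linarith only [hmass, sub_mul A (trP (fun t => r t ^ m) (τ x)) B,
        sub_mul B (trP (fun t => sq t ^ m) x) A, mul_comm A B]
    rw [e, s2]
    exact mul_le_mul_of_nonneg_right tail hA.le
  have hC1 : 0 ≤ ((m : ℝ) + 1) * A / B * sq x ^ (m + 2) := by (clear * - hm hA hB hsq; positivity)
  have hC2 : 0 ≤ ((m : ℝ) + 1) * A / (B * r 0 ^ m) * sq x ^ (m + 2) := by (clear * - hm hA hB hr0 hsq; positivity)
  constructor
  · have c1 := trn_cone_int (m := m) hτ.2 hr hτ.1.le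
    have c2 := mul_le_mul_of_nonneg_right c1 hB.le
    have c3 : (1 - τ x) * r (τ x) ^ m ≤ ((m : ℝ) + 1) * A / B * sq x ^ (m + 2) := by
      have c4 := c2.trans key
      rw [div_mul_eq_mul_div, div_le_iff₀ hm1] at c4
      rw [div_mul_eq_mul_div, le_div_iff₀ hB]
      linarith only [c4, mul_comm (sq x ^ (m + 2) * A) ((m : ℝ) + 1),
        mul_assoc ((m : ℝ) + 1) A (sq x ^ (m + 2)), mul_comm A (sq x ^ (m + 2)),
        congrArg (fun z => ((m : ℝ) + 1) * z) (mul_comm A (sq x ^ (m + 2)))]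
    linarith only [c3, hC2, add_mul (((m : ℝ) + 1) * A / B)
      (((m : ℝ) + 1) * A / (B * r 0 ^ m)) (sq x ^ (m + 2))]
  · have c1 : r 0 ^ m * (1 - τ x) ^ (m + 1) / ((m : ℝ) + 1) ≤ ∫ t in (τ x)..1, r t ^ m := by
      have h1 : ∀ t ∈ Icc (τ x) 1, (r 0 * (1 - t)) ^ m ≤ r t ^ m := by
        intro t ht
        have ht0 : 0 ≤ t := hτ.1.le.trans ht.1
        have m1 : (0 : ℝ) ∈ Icc (-1 : ℝ) 1 := ⟨by norm_num, by norm_num⟩
        have m2 : (1 : ℝ) ∈ Icc (-1 : ℝ) 1 := ⟨by norm_num, le_rfl⟩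
        have hc := hr.conc.2 m1 m2 (by linarith only [ht.2] : (0 : ℝ) ≤ 1 - t) ht0 (by ring)
        simp only [smul_eq_mul, mul_zero, mul_one, zero_add] at hc
        have h3 := mul_nonneg ht0 hr.nonneg
        apply pow_le_pow_left₀
        · exact mul_nonneg (hr.pos 0 ⟨by norm_num, by norm_num⟩).le (by linarith only [ht.2])
        · linarith only [hc, h3, mul_comm (r 0) (1 - t)]
      have h2 : ∫ t in (τ x)..1, (r 0 * (1 - t)) ^ m =
          r 0 ^ m * (1 - τ x) ^ (m + 1) / ((m : ℝ) + 1) := by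
        simp only [mul_pow]
        rw [intervalIntegral.integral_const_mul, trn_pow_int, mul_div_assoc]
      rw [← h2]
      apply intervalIntegral.integral_mono_on hτ.2.le
      · apply Continuous.intervalIntegrable
        fun_prop
      · exact hF.ii (Ioo_subset_Icc_self hτ) trn_mem1
      · exact h1
    have c2 := (mul_le_mul_of_nonneg_right c1 hB.le).trans key
    have c3 : (1 - τ x) ^ (m + 1) ≤ ((m : ℝ) + 1) * A / (B * r 0 ^ m) * sq x ^ (m + 2) := by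
      rw [div_mul_eq_mul_div, div_le_iff₀ hm1] at c2
      rw [div_mul_eq_mul_div, le_div_iff₀ (mul_pos hB hr0)]
      have e1 : (1 - τ x) ^ (m + 1) * (B * r 0 ^ m) = r 0 ^ m * (1 - τ x) ^ (m + 1) * B := by ring
      have e2 : ((m : ℝ) + 1) * A * sq x ^ (m + 2) = sq x ^ (m + 2) * A * ((m : ℝ) + 1) := by ring
      rw [e1, e2]
      exact c2
    linarith only [hC1, c3]

end Vale.Agent.P237.AllN
end

section

/-!
# P237, all dimensions: the pairs of the f-chart certificate and their derivatives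
-/

open MeasureTheory Metric Set Module Filter Topology

namespace Vale.Agent.P237.AllN

/-- `l = log(τ/x)` -/
noncomputable def lf (τ : ℝ → ℝ) (x : ℝ) : ℝ := Real.log (τ x / x)

/-- `u = x τ'/τ - 1` -/
noncomputable def uf (τ τ' : ℝ → ℝ) (x : ℝ) : ℝ := x * τ' x / τ x - 1

/-- derivative of `bk` -/
noncomputable def bkd (m : ℕ) (y : ℝ) : ℝ :=
  ((bg y - bgm m) + ((m : ℝ) + 2) * y * bk m y) / sq y ^ 2

/-- plain pair, constant part -/
noncomputable def prc (m : ℕ) (τ : ℝ → ℝ) (x : ℝ) : ℝ :=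
  bc0 (sq x) (lf τ x) - τ x * bk m (τ x)

/-- plain pair, slope -/
noncomputable def prp (m : ℕ) (τ : ℝ → ℝ) (x : ℝ) : ℝ :=
  τ x * bM0 (sq x) (lf τ x) + bk m (τ x)

/-- derivative of `prc` -/
noncomputable def prc' (m : ℕ) (τ τ' : ℝ → ℝ) (x : ℝ) : ℝ :=
  (-(x / sq x ^ 3) + (uf τ τ' x / x) * (1 / sq x ^ 3 - 3 / sq x + 2) +
    lf τ x * (3 * x / sq x ^ 5 - 3 * x / sq x ^ 3)) -
  (τ' x * bk m (τ x) + τ x * (bkd m (τ x) * τ' x))

/-- derivative of `prp` -/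
noncomputable def prp' (m : ℕ) (τ τ' : ℝ → ℝ) (x : ℝ) : ℝ :=
  (τ' x * bM0 (sq x) (lf τ x) + τ x * ((1 + 2 * sq x) * x / (sq x ^ 3 * (1 + sq x) ^ 2) -
    (uf τ τ' x / x) / sq x ^ 3 - 3 * lf τ x * x / sq x ^ 5)) + bkd m (τ x) * τ' x

section

variable {m : ℕ} {r τ τ' T : ℝ → ℝ} {x : ℝ}

theorem tr_pos (h : IsTrans m r τ τ' T) (hx : x ∈ Ioo (0 : ℝ) 1) : 0 < τ x := (h.mem x hx).1

theorem mem_neg {x : ℝ} (hx : x ∈ Ioo (0 : ℝ) 1) : x ∈ Ioo (-1 : ℝ) 1 := ⟨by linarith [hx.1], hx.2⟩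

theorem uf_pos (h : IsTrans m r τ τ' T) (hx : x ∈ Ioo (0 : ℝ) 1) : 0 < 1 + uf τ τ' x := by
  unfold uf
  have h1 := tr_pos h hx
  have h2 := h.pos x hx
  have h3 := hx.1
  have : 0 < x * τ' x / τ x := by positivity
  linarith

theorem tau'_eq (h : IsTrans m r τ τ' T) (hx : x ∈ Ioo (0 : ℝ) 1) :
    τ' x = τ x * (1 + uf τ τ' x) / x := by
  unfold uf
  have h1 := (tr_pos h hx).ne'
  have h3 := hx.1.ne'
  field_simp
  ring

theorem exp_lf (h : IsTrans m r τ τ' T) (hx : x ∈ Ioo (0 : ℝ) 1) :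
    Real.exp (lf τ x) = τ x / x := by
  unfold lf
  rw [Real.exp_log (div_pos (tr_pos h hx) hx.1)]

theorem lf_hasDerivAt (h : IsTrans m r τ τ' T) (hx : x ∈ Ioo (0 : ℝ) 1) :
    HasDerivAt (lf τ) (uf τ τ' x / x) x := by
  have h1 := tr_pos h hx
  have h3 := hx.1
  have e := (((h.der x hx).div (hasDerivAt_id x) h3.ne')).log (div_pos h1 h3).ne'
  refine e.congr_deriv ?_
  unfold uf
  simp only [id, Pi.div_apply]
  field_simp

theorem sqx_pos (hx : x ∈ Ioo (0 : ℝ) 1) : 0 < sq x := br_sq_pos (mem_neg hx)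

theorem sqx_sq (hx : x ∈ Ioo (0 : ℝ) 1) : x ^ 2 = 1 - sq x ^ 2 := by
  rw [br_sq_sq ⟨by linarith [hx.1], hx.2.le⟩]; ring

theorem sqx_der (hx : x ∈ Ioo (0 : ℝ) 1) : HasDerivAt sq (-x / sq x) x :=
  br_sq_hasDerivAt (mem_neg hx)

theorem bk_comp_der (h : IsTrans m r τ τ' T) (hx : x ∈ Ioo (0 : ℝ) 1) :
    HasDerivAt (fun x => bk m (τ x)) (bkd m (τ x) * τ' x) x :=
  (bk_hasDerivAt m (mem_neg (h.mem x hx))).comp x (h.der x hx)

theorem bc0_der (h : IsTrans m r τ τ' T) (hx : x ∈ Ioo (0 : ℝ) 1) :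
    HasDerivAt (fun x => bc0 (sq x) (lf τ x))
      (-(x / sq x ^ 3) + (uf τ τ' x / x) * (1 / sq x ^ 3 - 3 / sq x + 2) +
        lf τ x * (3 * x / sq x ^ 5 - 3 * x / sq x ^ 3)) x := by
  have hs := sqx_pos hx
  have hd := sqx_der hx
  have hl := lf_hasDerivAt h hx
  have e1 : HasDerivAt (fun x => 1 / sq x) (x / sq x ^ 3) x := by
    refine ((hasDerivAt_const x (1 : ℝ)).div hd hs.ne').congr_deriv ?_
    field_simp
    ring
  have e3 : HasDerivAt (fun x => 1 / sq x ^ 3) (3 * x / sq x ^ 5) x := by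
    refine ((hasDerivAt_const x (1 : ℝ)).div (hd.pow 3) (pow_pos hs 3).ne').congr_deriv ?_
    simp only [Pi.pow_apply]
    push_cast
    field_simp
    ring
  have e1' : HasDerivAt (fun x => 3 / sq x) (3 * (x / sq x ^ 3)) x := by
    have := e1.const_mul 3
    refine this.congr_of_eventuallyEq ?_
    filter_upwards with t
    ring
  have e := (e1.sub_const 1).neg.add (hl.mul ((e3.sub e1').add_const 2))
  refine e.congr_deriv ?_
  simp only [Pi.sub_apply]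
  ring

theorem bM0_der (h : IsTrans m r τ τ' T) (hx : x ∈ Ioo (0 : ℝ) 1) :
    HasDerivAt (fun x => τ x * bM0 (sq x) (lf τ x))
      (τ' x * bM0 (sq x) (lf τ x) + τ x * ((1 + 2 * sq x) * x / (sq x ^ 3 * (1 + sq x) ^ 2) -
        (uf τ τ' x / x) / sq x ^ 3 - 3 * lf τ x * x / sq x ^ 5)) x := by
  have hs := sqx_pos hx
  have hd := sqx_der hx
  have hl := lf_hasDerivAt h hx
  have e1 : HasDerivAt (fun x => 1 / (sq x * (1 + sq x)))
      ((1 + 2 * sq x) * x / (sq x ^ 3 * (1 + sq x) ^ 2)) x := by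
    refine ((hasDerivAt_const x (1 : ℝ)).div (hd.mul (hd.const_add 1))
      (mul_pos hs (by linarith : 0 < 1 + sq x)).ne').congr_deriv ?_
    simp only [Pi.mul_apply]
    field_simp
    ring
  have e2 : HasDerivAt (fun x => lf τ x / sq x ^ 3)
      ((uf τ τ' x / x) / sq x ^ 3 + 3 * lf τ x * x / sq x ^ 5) x := by
    refine (hl.div (hd.pow 3) (pow_pos hs 3).ne').congr_deriv ?_
    simp only [Pi.pow_apply]
    push_cast
    field_simp
    ring
  have e := (h.der x hx).mul (e1.sub e2)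
  refine e.congr_deriv ?_
  unfold bM0
  simp only [Pi.sub_apply]
  ring

theorem prc_der (h : IsTrans m r τ τ' T) (hx : x ∈ Ioo (0 : ℝ) 1) :
    HasDerivAt (prc m τ) (prc' m τ τ' x) x :=
  (bc0_der h hx).sub ((h.der x hx).mul (bk_comp_der h hx))

theorem prp_der (h : IsTrans m r τ τ' T) (hx : x ∈ Ioo (0 : ℝ) 1) :
    HasDerivAt (prp m τ) (prp' m τ τ' x) x :=
  (bM0_der h hx).add (bk_comp_der h hx)

/-! ### continuity -/

theorem tau_cont (h : IsTrans m r τ τ' T) : ContinuousOn τ (Ioo 0 1) :=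
  fun x hx => (h.der x hx).continuousAt.continuousWithinAt

theorem lf_cont (h : IsTrans m r τ τ' T) : ContinuousOn (lf τ) (Ioo 0 1) :=
  fun x hx => (lf_hasDerivAt h hx).continuousAt.continuousWithinAt

theorem uf_cont (h : IsTrans m r τ τ' T) : ContinuousOn (uf τ τ') (Ioo 0 1) := by
  unfold uf
  exact ((continuousOn_id.mul h.cont).div (tau_cont h) fun x hx => (tr_pos h hx).ne').sub
    continuousOn_const

theorem bk_tau_cont (h : IsTrans m r τ τ' T) : ContinuousOn (fun x => bk m (τ x)) (Ioo 0 1) :=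
  fun x hx => (bk_comp_der h hx).continuousAt.continuousWithinAt

theorem bkd_tau_cont (h : IsTrans m r τ τ' T) : ContinuousOn (fun x => bkd m (τ x)) (Ioo 0 1) := by
  unfold bkd
  have h1 := tau_cont h
  apply ContinuousOn.div
  · exact ((bg_cont.comp_continuousOn h1).sub continuousOn_const).add
      ((continuousOn_const.mul h1).mul (bk_tau_cont h))
  · exact (br_sq_cont.comp_continuousOn h1).pow 2
  · intro x hx
    exact (pow_pos (sqx_pos (h.mem x hx)) 2).ne'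

omit x in
theorem sq_ne (x : ℝ) (hx : x ∈ Ioo (0 : ℝ) 1) (k : ℕ) : sq x ^ k ≠ 0 := (pow_pos (sqx_pos hx) k).ne'

theorem prc'_cont (h : IsTrans m r τ τ' T) : ContinuousOn (prc' m τ τ') (Ioo 0 1) := by
  have h1 := tau_cont h
  have h2 := h.cont
  have h3 := lf_cont h
  have h4 := uf_cont h
  have h5 := bk_tau_cont h
  have h6 := bkd_tau_cont h
  have hs : ContinuousOn sq (Ioo (0 : ℝ) 1) := br_sq_cont.continuousOn
  have hid : ContinuousOn (fun x : ℝ => x) (Ioo (0 : ℝ) 1) := continuousOn_id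
  have i3 : ContinuousOn (fun x => 1 / sq x ^ 3) (Ioo (0 : ℝ) 1) :=
    continuousOn_const.div (hs.pow 3) fun x hx => sq_ne x hx 3
  have i1 : ContinuousOn (fun x => 3 / sq x) (Ioo (0 : ℝ) 1) :=
    continuousOn_const.div hs fun x hx => (sqx_pos hx).ne'
  have j1 : ContinuousOn (fun x => x / sq x ^ 3) (Ioo (0 : ℝ) 1) :=
    hid.div (hs.pow 3) fun x hx => sq_ne x hx 3
  have j2 : ContinuousOn (fun x => 3 * x / sq x ^ 5) (Ioo (0 : ℝ) 1) :=
    (continuousOn_const.mul hid).div (hs.pow 5) fun x hx => sq_ne x hx 5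
  have j3 : ContinuousOn (fun x => 3 * x / sq x ^ 3) (Ioo (0 : ℝ) 1) :=
    (continuousOn_const.mul hid).div (hs.pow 3) fun x hx => sq_ne x hx 3
  have j4 : ContinuousOn (fun x => uf τ τ' x / x) (Ioo (0 : ℝ) 1) :=
    h4.div hid fun x hx => hx.1.ne'
  unfold prc'
  exact ((j1.neg.add (j4.mul ((i3.sub i1).add continuousOn_const))).add
    (h3.mul (j2.sub j3))).sub ((h2.mul h5).add (h1.mul (h6.mul h2)))

theorem prp'_cont (h : IsTrans m r τ τ' T) : ContinuousOn (prp' m τ τ') (Ioo 0 1) := by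
  have h1 := tau_cont h
  have h2 := h.cont
  have h3 := lf_cont h
  have h4 := uf_cont h
  have h6 := bkd_tau_cont h
  have hs : ContinuousOn sq (Ioo (0 : ℝ) 1) := br_sq_cont.continuousOn
  have hid : ContinuousOn (fun x : ℝ => x) (Ioo (0 : ℝ) 1) := continuousOn_id
  have j4 : ContinuousOn (fun x => uf τ τ' x / x) (Ioo (0 : ℝ) 1) :=
    h4.div hid fun x hx => hx.1.ne'
  have k1 : ContinuousOn (fun x => bM0 (sq x) (lf τ x)) (Ioo (0 : ℝ) 1) := by
    unfold bM0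
    exact (continuousOn_const.div (hs.mul (continuousOn_const.add hs)) fun x hx => by
      have h7 := sqx_pos hx
      exact (mul_pos h7 (by linarith : 0 < 1 + sq x)).ne').sub
        (h3.div (hs.pow 3) fun x hx => sq_ne x hx 3)
  have k2 : ContinuousOn (fun x => (1 + 2 * sq x) * x / (sq x ^ 3 * (1 + sq x) ^ 2))
      (Ioo (0 : ℝ) 1) := by
    apply ContinuousOn.div
    · exact (continuousOn_const.add (continuousOn_const.mul hs)).mul hid
    · exact (hs.pow 3).mul ((continuousOn_const.add hs).pow 2)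
    · intro x hx
      have h7 := sqx_pos hx
      exact (mul_pos (pow_pos h7 3) (pow_pos (by linarith : 0 < 1 + sq x) 2)).ne'
  have k3 : ContinuousOn (fun x => (uf τ τ' x / x) / sq x ^ 3) (Ioo (0 : ℝ) 1) :=
    j4.div (hs.pow 3) fun x hx => sq_ne x hx 3
  have k4 : ContinuousOn (fun x => 3 * lf τ x * x / sq x ^ 5) (Ioo (0 : ℝ) 1) :=
    ((continuousOn_const.mul h3).mul hid).div (hs.pow 5) fun x hx => sq_ne x hx 5
  unfold prp'
  exact ((h2.mul k1).add (h1.mul ((k2.sub k3).sub k4))).add (h6.mul h2)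

/-! ### value of the plain pair -/

theorem phi_value (h : IsTrans m r τ τ' T) (hx : x ∈ Ioo (0 : ℝ) 1) :
    ((m : ℝ) + 1) * (-(τ x * bk m (τ x))) +
      (τ x * (-(τ' x * bk m (τ x) + τ x * (bkd m (τ x) * τ' x))) + bkd m (τ x) * τ' x) / τ' x =
    bg (τ x) - bgm m := by
  have h1 := (h.pos x hx).ne'
  have ht := h.mem x hx
  have hs := sqx_pos ht
  have hss := sqx_sq ht
  have e : bkd m (τ x) * sq (τ x) ^ 2 = (bg (τ x) - bgm m) + ((m : ℝ) + 2) * τ x * bk m (τ x) := by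
    unfold bkd
    field_simp
  have e2 : (τ x * (-(τ' x * bk m (τ x) + τ x * (bkd m (τ x) * τ' x))) + bkd m (τ x) * τ' x) / τ' x
      = -(τ x * bk m (τ x)) + bkd m (τ x) * (1 - τ x ^ 2) := by
    field_simp
    ring
  rw [e2, show 1 - τ x ^ 2 = sq (τ x) ^ 2 by rw [hss]; ring, e]
  ring

/-- value of the plain pair times `s` -/
theorem plain_value (h : IsTrans m r τ τ' T) (hx : x ∈ Ioo (0 : ℝ) 1) :
    sq x * (((m : ℝ) + 1) * prc m τ x + (τ x * prc' m τ τ' x + prp' m τ τ' x) / τ' x) =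
    ((-((m : ℝ) + 1) + ((m : ℝ) + 2) * sq x - sq x ^ 2 / (1 + sq x)) +
      lf τ x * (((m : ℝ) - 3) * (x ^ 2 / sq x ^ 2) - (2 * (m : ℝ) + 3) + 2 * ((m : ℝ) + 1) * sq x) -
      (2 * (1 - sq x ^ 2 / (1 + sq x)) - 3 * (x ^ 2 / sq x ^ 2) * lf τ x) *
        (uf τ τ' x / (1 + uf τ τ' x))) + sq x * (bg (τ x) - bgm m) := by
  rw [← bri_base (m := (m : ℝ)) (sqx_pos hx) hx.1 (sqx_sq hx) (uf_pos h hx) (tr_pos h hx)
    (tau'_eq h hx), ← phi_value h hx]
  have h1 := (h.pos x hx).ne'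
  unfold prc prc' prp'
  field_simp
  ring

end

end Vale.Agent.P237.AllN
end

section

/-!
# P237, all dimensions: primitive and identity of the plain certificate
-/

open MeasureTheory Metric Set Module Filter Topology

namespace Vale.Agent.P237.AllN

/-- `(m-1)/(m+1)` -/
noncomputable def bγ (m : ℕ) : ℝ := ((m : ℝ) - 1) / ((m : ℝ) + 1)

/-- the null primitive (plain), times `bγ m` -/
noncomputable def brΨ (m : ℕ) (τ N : ℝ → ℝ) (μ : ℝ) (x : ℝ) : ℝ :=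
  bγ m * (x * sq x ^ m * bg x + bN m x) +
    x * sq x ^ (m - 1) * (bγ m * (-2 * (1 - sq x ^ 2 / (1 + sq x)) * lf τ x +
      3 / 2 * (x ^ 2 / sq x ^ 2) * lf τ x ^ 2) + μ * m * (Real.exp (lf τ x / m) - 1) - N x)

/-- its derivative -/
noncomputable def brΨ' (m : ℕ) (τ τ' N N' : ℝ → ℝ) (μ : ℝ) (x : ℝ) : ℝ :=
  sq x ^ (m - 1) * (bγ m * (-((m : ℝ) + 1) + ((m : ℝ) + 2 - bgm m) * sq x) +
    ((1 - ((m : ℝ) - 1) * (x ^ 2 / sq x ^ 2)) * (bγ m *
      (-2 * (1 - sq x ^ 2 / (1 + sq x)) * lf τ x + 3 / 2 * (x ^ 2 / sq x ^ 2) * lf τ x ^ 2) +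
      μ * m * (Real.exp (lf τ x / m) - 1) - N x) +
    (bγ m * (-2 * ((1 - sq x) * (2 + sq x) / (1 + sq x)) * lf τ x
      + 3 / 2 * (2 * (x ^ 2 / sq x ^ 2) / sq x ^ 2) * lf τ x ^ 2) - x * N' x) +
    (bγ m * (-2 * (1 - sq x ^ 2 / (1 + sq x)) * uf τ τ' x +
      3 * (x ^ 2 / sq x ^ 2) * lf τ x * uf τ τ' x) +
      μ * Real.exp (lf τ x / m) * uf τ τ' x)))

section

variable {m : ℕ} {r τ τ' T : ℝ → ℝ} {x : ℝ}

omit x in
theorem ball_prim_der (hm : 1 ≤ m) {x : ℝ} (hx : x ∈ Ioo (0 : ℝ) 1) :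
    HasDerivAt (fun x => x * sq x ^ m * bg x + bN m x)
      (sq x ^ (m - 1) * (-((m : ℝ) + 1) + ((m : ℝ) + 2 - bgm m) * sq x)) x := by
  obtain ⟨n, rfl⟩ := Nat.exists_eq_add_of_le' hm
  have hs := sqx_pos hx
  have hd := sqx_der hx
  have hxs := sqx_sq hx
  have h1s : (1 + sq x) ≠ 0 := by positivity
  have e := (((hasDerivAt_id x).mul (hd.pow (n + 1))).mul (bg_hasDerivAt (mem_neg hx))).add
    (bN_hasDerivAt (n + 1) x)
  refine e.congr_deriv ?_
  simp only [Pi.mul_apply, Pi.pow_apply, id, Nat.add_sub_cancel]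
  have e0 : bg x = sq x / (1 + sq x) := rfl
  rw [e0]
  push_cast
  have e1 : x * (((n : ℝ) + 1) * sq x ^ n * (-x / sq x)) = -(((n : ℝ) + 1) * sq x ^ n * (x ^ 2 / sq x)) := by
    ring
  have e2 : x * sq x ^ (n + 1) * (-x / (sq x * (1 + sq x) ^ 2)) =
      -(sq x ^ n * (x ^ 2 / (1 + sq x) ^ 2)) := by
    rw [pow_succ]
    field_simp
  rw [e1, e2, hxs, pow_succ]
  field_simp
  ring

theorem brΨ_der (hm : 1 ≤ m) (h : IsTrans m r τ τ' T) (hx : x ∈ Ioo (0 : ℝ) 1) {N N' : ℝ → ℝ}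
    (hN : HasDerivAt N (N' x) x) (μ : ℝ) :
    HasDerivAt (brΨ m τ N μ) (brΨ' m τ τ' N N' μ x) x := by
  have hb := ball_prim_der hm hx
  have hs := sqx_pos hx
  have hd := sqx_der hx
  have hl := lf_hasDerivAt h hx
  have hxs := sqx_sq hx
  have hx0 := hx.1
  have h1s : (1 + sq x) ≠ 0 := by positivity
  have hm0 : (m : ℝ) ≠ 0 := by
    have : (1 : ℝ) ≤ m := by exact_mod_cast hm
    linarith
  -- pieces
  have eR : HasDerivAt (fun x => 1 - sq x ^ 2 / (1 + sq x))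
      (((1 - sq x) * (2 + sq x) / (1 + sq x)) / x) x := by
    have := ((hd.pow 2).div (hd.const_add 1) h1s).const_sub 1
    refine this.congr_deriv ?_
    simp only [Pi.pow_apply]
    have : x ^ 2 = (1 - sq x) * (1 + sq x) := by rw [hxs]; ring
    field_simp
    push_cast
    have e3 : x ^ 2 = (1 - sq x) * (1 + sq x) := this
    rw [show sq x ^ (2 - 1) = sq x by simp]
    linear_combination ((sq x) * (2 + sq x)) * e3
  have ey : HasDerivAt (fun x => x ^ 2 / sq x ^ 2) ((2 * (x ^ 2 / sq x ^ 2) / sq x ^ 2) / x) x := by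
    have e0 : HasDerivAt (fun x : ℝ => x ^ 2) (2 * x) x := by simpa using hasDerivAt_pow 2 x
    have := e0.div (hd.pow 2) (pow_pos hs 2).ne'
    refine this.congr_deriv ?_
    simp only [Pi.pow_apply]
    field_simp
    push_cast
    rw [show sq x ^ (2 - 1) = sq x by simp]
    linear_combination (2 * sq x) * hxs
  have eE : HasDerivAt (fun x => Real.exp (lf τ x / m) - 1)
      (Real.exp (lf τ x / m) * ((uf τ τ' x / x) / m)) x :=
    ((hl.div_const (m : ℝ)).exp).sub_const 1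
  have eS : HasDerivAt (fun x => x * sq x ^ (m - 1))
      (sq x ^ (m - 1) * (1 - ((m : ℝ) - 1) * (x ^ 2 / sq x ^ 2))) x := by
    obtain ⟨n, rfl⟩ := Nat.exists_eq_add_of_le' hm
    rw [Nat.add_sub_cancel]
    rcases Nat.eq_zero_or_pos n with rfl | hn
    · simpa using hasDerivAt_id' x
    · obtain ⟨k, rfl⟩ := Nat.exists_eq_add_of_le' hn
      have := (hasDerivAt_id x).mul (hd.pow (k + 1))
      refine this.congr_deriv ?_
      simp only [Pi.pow_apply, id, Nat.add_sub_cancel]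
      push_cast
      rw [pow_succ]
      field_simp
      ring
  have eA := ((eR.const_mul (-2)).mul hl).add ((ey.const_mul (3 / 2)).mul (hl.pow 2))
  have eB := ((eA.const_mul (bγ m)).add (eE.const_mul (μ * m))).sub hN
  have e := (hb.const_mul (bγ m)).add (eS.mul eB)
  have e' := e.congr_of_eventuallyEq (f₁ := brΨ m τ N μ) (Filter.Eventually.of_forall fun t => by
    simp only [brΨ, Pi.add_apply, Pi.mul_apply, Pi.sub_apply, Pi.pow_apply])
  refine e'.congr_deriv ?_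
  unfold brΨ'
  simp only [Pi.add_apply, Pi.mul_apply, Pi.sub_apply, Pi.pow_apply]
  field_simp
  push_cast
  ring

/-- the pointwise functional along a transport, without the free null term -/
noncomputable def brT (m : ℕ) (τ τ' : ℝ → ℝ) (μ : ℝ) (x : ℝ) : ℝ :=
  TR m x (sq x) (lf τ x) (uf τ τ' x) 0 μ (Real.exp (lf τ x / m))
    ((1 + uf τ τ' x) ^ (1 / (m : ℝ))) (bg (τ x)) (bg x) 0 0

theorem rpow_tau' (h : IsTrans m r τ τ' T) (hx : x ∈ Ioo (0 : ℝ) 1) :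
    τ' x ^ (1 / (m : ℝ)) = Real.exp (lf τ x / m) * (1 + uf τ τ' x) ^ (1 / (m : ℝ)) := by
  have h1 := tr_pos h hx
  have h2 := uf_pos h hx
  have h3 : 0 < τ x / x := div_pos h1 hx.1
  rw [tau'_eq h hx, show τ x * (1 + uf τ τ' x) / x = τ x / x * (1 + uf τ τ' x) by ring,
    Real.mul_rpow h3.le h2.le, ← exp_lf h hx, ← Real.exp_mul]
  congr 2
  ring

/-- **identity (P), plain pair** -/
theorem plain_identity (hm : 1 ≤ m) (h : IsTrans m r τ τ' T) (hx : x ∈ Ioo (0 : ℝ) 1)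
    (N N' : ℝ → ℝ) (μ : ℝ) :
    bγ m * ((((m : ℝ) + 1) * prc m τ x + (τ x * prc' m τ τ' x + prp' m τ τ' x) / τ' x) * sq x ^ m)
      + μ * m * (sq x ^ (m - 1) * τ' x ^ (1 / (m : ℝ)) - sq x ^ (m - 1)) =
    sq x ^ (m - 1) * (brT m τ τ' μ x + (x * N' x + (1 - ((m : ℝ) - 1) * (x ^ 2 / sq x ^ 2)) * N x))
      + brΨ' m τ τ' N N' μ x := by
  have hv := plain_value h hx
  have hid := bri_TR (m := (m : ℝ)) (x := x) (s := sq x) (l := lf τ x) (u := uf τ τ' x) (L := 0)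
    (μ := μ) (E := Real.exp (lf τ x / m)) (V := (1 + uf τ τ' x) ^ (1 / (m : ℝ)))
    (gτ := bg (τ x)) (gbar := bgm m) (hh := 0) (xhh' := 0) (by positivity) (sqx_pos hx) (sqx_sq hx)
    (uf_pos h hx) rfl
  rw [rpow_tau' h hx]
  have hpow : sq x ^ m = sq x ^ (m - 1) * sq x := by
    obtain ⟨n, rfl⟩ := Nat.exists_eq_add_of_le' hm
    rw [Nat.add_sub_cancel, pow_succ]
  have e1 : bγ m * ((((m : ℝ) + 1) * prc m τ x + (τ x * prc' m τ τ' x + prp' m τ τ' x) / τ' x) *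
      sq x ^ m) = sq x ^ (m - 1) * (bγ m * (sq x * (((m : ℝ) + 1) * prc m τ x +
        (τ x * prc' m τ τ' x + prp' m τ τ' x) / τ' x))) := by
    rw [hpow]; ring
  rw [e1, hv]
  unfold brΨ' brT
  have e0 : bg x = sq x / (1 + sq x) := rfl
  rw [e0]
  unfold bγ
  linear_combination (sq x ^ (m - 1)) * hid

end

end Vale.Agent.P237.AllN
end

section

/-!
# P237, all dimensions: the constraint in transport form
-/

open MeasureTheory Metric Set Module Filter Topology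

namespace Vale.Agent.P237.AllN

open Vale.Agent.P237.Alm

theorem cn_even_int {f : ℝ → ℝ} (hf : ∀ x, f (-x) = f x)
    (hi : IntervalIntegrable f volume 0 1) :
    ∫ x in (-1 : ℝ)..1, f x = 2 * ∫ x in (0 : ℝ)..1, f x := by
  have h1 : ∫ x in (-1 : ℝ)..0, f x = ∫ x in (0 : ℝ)..1, f x := by
    have := intervalIntegral.integral_comp_neg (a := (0 : ℝ)) (b := 1) f
    rw [neg_zero] at this
    rw [← this]
    exact intervalIntegral.integral_congr fun x _ => hf x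
  have h2 : IntervalIntegrable f volume (-1) 0 := by
    have := (IntervalIntegrable.iff_comp_neg (f := f) (a := 0) (b := 1)).mp hi
    rw [neg_zero] at this
    have h3 : (fun x => f (-x)) = f := funext hf
    rw [h3] at this
    exact this.symm
  rw [← intervalIntegral.integral_add_adjacent_intervals h2 hi, h1]
  ring

theorem cn_sq_cont : Continuous sq := by
  unfold sq
  fun_prop

theorem cn_sq_nonneg (x : ℝ) : 0 ≤ sq x := Real.sqrt_nonneg _

theorem cn_sq_pos {x : ℝ} (hx : x ∈ Ioo (-1 : ℝ) 1) : 0 < sq x := by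
  unfold sq
  apply Real.sqrt_pos.2
  nlinarith [hx.1, hx.2]

theorem cn_sq_le_one (x : ℝ) : sq x ≤ 1 := by
  unfold sq
  rw [Real.sqrt_le_one]
  linarith only [sq_nonneg x]

theorem cn_sq_even (x : ℝ) : sq (-x) = sq x := by
  unfold sq
  rw [neg_sq]

theorem cn_sq_pow_ii (k : ℕ) (a b : ℝ) : IntervalIntegrable (fun x => sq x ^ k) volume a b :=
  (cn_sq_cont.pow k).intervalIntegrable a b

theorem cn_aInt (k : ℕ) : aInt k = 2 * ∫ x in (0 : ℝ)..1, sq x ^ k := by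
  refine (cn_even_int (f := fun y => sq y ^ k) (fun x => ?_) (cn_sq_pow_ii k 0 1))
  show sq (-x) ^ k = sq x ^ k
  rw [cn_sq_even]

theorem cn_Z_pos (k : ℕ) : 0 < ∫ x in (0 : ℝ)..1, sq x ^ k :=
  intervalIntegral.intervalIntegral_pos_of_pos_on (cn_sq_pow_ii k 0 1)
    (fun x hx => pow_pos (cn_sq_pos ⟨by linarith [hx.1], hx.2⟩) k) zero_lt_one

theorem cn_r_ii {r : ℝ → ℝ} (hr : IsProf r) (k : ℕ) :
    IntervalIntegrable (fun x => r x ^ k) volume 0 1 :=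
  prof_pow_ii hr k ⟨le_rfl, zero_le_one⟩ ⟨zero_le_one, le_rfl⟩

theorem cn_r_pos {r : ℝ → ℝ} (hr : IsProf r) (k : ℕ) : 0 < ∫ x in (0 : ℝ)..1, r x ^ k :=
  intervalIntegral.intervalIntegral_pos_of_pos_on (cn_r_ii hr k)
    (fun x hx => pow_pos (hr.pos x ⟨by linarith [hx.1], hx.2⟩) k) zero_lt_one

theorem cn_r_even {r : ℝ → ℝ} (hr : IsProf r) (k : ℕ) :
    ∫ x in (-1 : ℝ)..1, r x ^ k = 2 * ∫ x in (0 : ℝ)..1, r x ^ k :=
  cn_even_int (f := fun y => r y ^ k) (fun x => by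
    show r (-x) ^ k = r x ^ k
    rw [hr.even]) (cn_r_ii hr k)

/-- the constraint on the half interval -/
theorem cn_half {m : ℕ} (hm : 1 ≤ m) {r : ℝ → ℝ} (hr : IsProf r)
    (hN : (∫ y in (-1 : ℝ)..1, r y ^ (m - 1)) ^ m * aInt m ^ (m - 1) ≤
      aInt (m - 1) ^ m * (∫ y in (-1 : ℝ)..1, r y ^ m) ^ (m - 1)) :
    (∫ y in (0 : ℝ)..1, r y ^ (m - 1)) ^ m * (∫ x in (0 : ℝ)..1, sq x ^ m) ^ (m - 1) ≤
      (∫ x in (0 : ℝ)..1, sq x ^ (m - 1)) ^ m * (∫ y in (0 : ℝ)..1, r y ^ m) ^ (m - 1) := by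
  rw [cn_aInt, cn_aInt, cn_r_even hr, cn_r_even hr] at hN
  have e1 : ∀ a b : ℝ, (2 * a) ^ m * (2 * b) ^ (m - 1) = (2 ^ m * 2 ^ (m - 1)) * (a ^ m * b ^ (m - 1)) := by
    intro a b
    rw [mul_pow, mul_pow]
    ring
  rw [e1, e1] at hN
  exact le_of_mul_le_mul_left hN (by positivity)

section trans

variable {m : ℕ} {r τ τ' T : ℝ → ℝ}

theorem cn_image (h : IsTrans m r τ τ' T) : τ '' Ioo 0 1 = Ioo 0 1 := by
  apply Subset.antisymm
  · rintro _ ⟨x, hx, rfl⟩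
    exact h.mem x hx
  · intro y hy
    exact ⟨T y, h.Tmem y hy, h.right y hy⟩

theorem cn_inj (h : IsTrans m r τ τ' T) : InjOn τ (Ioo 0 1) := by
  intro x hx y hy hxy
  rw [← h.left x hx, ← h.left y hy, hxy]

/-- the constant `(∫ r^m / ∫ sq^m)^(1/m)` -/
noncomputable def cnk (m : ℕ) (r : ℝ → ℝ) : ℝ :=
  ((∫ y in (0 : ℝ)..1, r y ^ m) / ∫ x in (0 : ℝ)..1, sq x ^ m) ^ (1 / (m : ℝ))

theorem cnk_pos (hr : IsProf r) (m : ℕ) : 0 < cnk m r :=
  Real.rpow_pos_of_pos (div_pos (cn_r_pos hr m) (cn_Z_pos m)) _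

theorem cn_root_pow {m : ℕ} (hm : 1 ≤ m) {t : ℝ} (ht : 0 ≤ t) : (t ^ (1 / (m : ℝ))) ^ m = t := by
  rw [one_div]
  exact Real.rpow_inv_natCast_pow ht (by omega)

theorem cnk_pow (hm : 1 ≤ m) (hr : IsProf r) : cnk m r ^ m * (∫ x in (0 : ℝ)..1, sq x ^ m) =
    ∫ y in (0 : ℝ)..1, r y ^ m := by
  unfold cnk
  rw [cn_root_pow hm (div_pos (cn_r_pos hr m) (cn_Z_pos m)).le]
  exact div_mul_cancel₀ _ (cn_Z_pos m).ne'

theorem cn_eq1 (hm : 1 ≤ m) (hr : IsProf r) (h : IsTrans m r τ τ' T) {x : ℝ}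
    (hx : x ∈ Ioo (0 : ℝ) 1) : r (τ x) * τ' x ^ (1 / (m : ℝ)) = sq x * cnk m r := by
  have h1 := h.eqn x hx
  have hτ := h.mem x hx
  have hR : 0 < r (τ x) := hr.pos _ ⟨by linarith [hτ.1], hτ.2⟩
  have ht := h.pos x hx
  have hs := cn_sq_pos (x := x) ⟨by linarith only [hx.1], hx.2⟩
  have hk := cnk_pos hr m
  have hZ := cn_Z_pos m
  have hθ : 0 < τ' x ^ (1 / (m : ℝ)) := Real.rpow_pos_of_pos ht _
  have hpow : (r (τ x) * τ' x ^ (1 / (m : ℝ))) ^ m = (sq x * cnk m r) ^ m := by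
    rw [mul_pow, mul_pow, cn_root_pow hm ht.le]
    rw [← cnk_pow hm hr] at h1
    apply mul_right_cancel₀ hZ.ne'
    linarith
  exact (pow_left_inj₀ (mul_pos hR hθ).le (mul_pos hs hk).le (by omega)).1 hpow

theorem cn_eq2 (hm : 1 ≤ m) (hr : IsProf r) (h : IsTrans m r τ τ' T) {x : ℝ}
    (hx : x ∈ Ioo (0 : ℝ) 1) :
    |τ' x| • r (τ x) ^ (m - 1) = cnk m r ^ (m - 1) * (sq x ^ (m - 1) * τ' x ^ (1 / (m : ℝ))) := by
  have h1 := cn_eq1 hm hr h hx
  have ht := h.pos x hx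
  rw [smul_eq_mul, abs_of_pos ht]
  have h2 : τ' x = (τ' x ^ (1 / (m : ℝ))) ^ (m - 1) * τ' x ^ (1 / (m : ℝ)) := by
    rw [← pow_succ]
    have : m - 1 + 1 = m := by omega
    rw [this, cn_root_pow hm ht.le]
  nth_rewrite 1 [h2]
  have h3 : (τ' x ^ (1 / (m : ℝ))) ^ (m - 1) * τ' x ^ (1 / (m : ℝ)) * r (τ x) ^ (m - 1) =
      (r (τ x) * τ' x ^ (1 / (m : ℝ))) ^ (m - 1) * τ' x ^ (1 / (m : ℝ)) := by
    rw [mul_pow]
    ring
  rw [h3, h1, mul_pow]
  ring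

theorem cn_change (hm : 1 ≤ m) (hr : IsProf r) (h : IsTrans m r τ τ' T) :
    IntegrableOn (fun x => sq x ^ (m - 1) * τ' x ^ (1 / (m : ℝ))) (Ioo 0 1) ∧
    (∫ y in (0 : ℝ)..1, r y ^ (m - 1)) =
      cnk m r ^ (m - 1) * ∫ x in (0 : ℝ)..1, sq x ^ (m - 1) * τ' x ^ (1 / (m : ℝ)) := by
  have hder : ∀ x ∈ Ioo (0 : ℝ) 1, HasDerivWithinAt τ (τ' x) (Ioo 0 1) x := fun x hx =>
    (h.der x hx).hasDerivWithinAt
  have hri : IntegrableOn (fun y => r y ^ (m - 1)) (Ioo 0 1) := by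
    have := (intervalIntegrable_iff_integrableOn_Ioo_of_le zero_le_one).1 (cn_r_ii hr (m - 1))
    exact this
  have h1 := (integrableOn_image_iff_integrableOn_abs_deriv_smul measurableSet_Ioo hder
    (cn_inj h) (fun y => r y ^ (m - 1)))
  rw [cn_image h] at h1
  have h2 := integral_image_eq_integral_abs_deriv_smul measurableSet_Ioo hder
    (cn_inj h) (fun y => r y ^ (m - 1))
  rw [cn_image h] at h2
  have h3 := h1.1 hri
  have hk := pow_pos (cnk_pos hr m) (m - 1)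
  have h4 : IntegrableOn (fun x => cnk m r ^ (m - 1) *
      (sq x ^ (m - 1) * τ' x ^ (1 / (m : ℝ)))) (Ioo 0 1) :=
    h3.congr_fun (fun x hx => cn_eq2 hm hr h hx) measurableSet_Ioo
  refine ⟨?_, ?_⟩
  · have h5 := h4.const_mul (cnk m r ^ (m - 1))⁻¹
    refine IntegrableOn.congr_fun h5 (fun x hx => ?_) measurableSet_Ioo
    show (cnk m r ^ (m - 1))⁻¹ * (cnk m r ^ (m - 1) * _) = _
    rw [inv_mul_cancel_left₀ hk.ne']
  · rw [intervalIntegral.integral_of_le zero_le_one, intervalIntegral.integral_of_le zero_le_one,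
      integral_Ioc_eq_integral_Ioo, integral_Ioc_eq_integral_Ioo, h2, ← integral_const_mul]
    exact setIntegral_congr_fun measurableSet_Ioo fun x hx => cn_eq2 hm hr h hx

/-- the constraint `N ≤ N_B` -/
theorem IsTrans.constraint {m : ℕ} (hm : 2 ≤ m) {r τ τ' T : ℝ → ℝ} (hr : IsProf r)
    (h : IsTrans m r τ τ' T)
    (hN : (∫ y in (-1 : ℝ)..1, r y ^ (m - 1)) ^ m * aInt m ^ (m - 1) ≤
      aInt (m - 1) ^ m * (∫ y in (-1 : ℝ)..1, r y ^ m) ^ (m - 1)) :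
    IntervalIntegrable (fun x => sq x ^ (m - 1) * τ' x ^ (1 / (m : ℝ))) volume 0 1 ∧
    ∫ x in (0 : ℝ)..1, sq x ^ (m - 1) * τ' x ^ (1 / (m : ℝ)) ≤ ∫ x in (0 : ℝ)..1, sq x ^ (m - 1) := by
  have hm1 : 1 ≤ m := by omega
  obtain ⟨h1, h2⟩ := cn_change hm1 hr h
  refine ⟨(intervalIntegrable_iff_integrableOn_Ioo_of_le zero_le_one).2 h1, ?_⟩
  have h3 := cn_half hm1 hr hN
  rw [h2, ← cnk_pow hm1 hr] at h3
  set J := ∫ x in (0 : ℝ)..1, sq x ^ (m - 1) * τ' x ^ (1 / (m : ℝ))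
  set Z := ∫ x in (0 : ℝ)..1, sq x ^ m with hZ
  set Y := ∫ x in (0 : ℝ)..1, sq x ^ (m - 1) with hY
  set k := cnk m r
  have hk : 0 < k := cnk_pos hr m
  have hZ0 : 0 < Z := cn_Z_pos m
  have hY0 : 0 < Y := cn_Z_pos (m - 1)
  have e1 : (k ^ (m - 1) * J) ^ m * Z ^ (m - 1) = (k ^ (m - 1)) ^ m * Z ^ (m - 1) * J ^ m := by
    rw [mul_pow]; ring
  have e2 : Y ^ m * (k ^ m * Z) ^ (m - 1) = (k ^ (m - 1)) ^ m * Z ^ (m - 1) * Y ^ m := by
    rw [mul_pow, ← pow_mul, ← pow_mul, mul_comm m (m - 1)]; ring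
  rw [e1, e2] at h3
  have h4 : J ^ m ≤ Y ^ m := le_of_mul_le_mul_left h3 (by positivity)
  exact le_of_pow_le_pow_left₀ (by omega) hY0.le h4

theorem cn_lower (hr : IsProf r) (h : IsTrans m r τ τ' T) :
    ∃ c : ℝ, 0 < c ∧ ∀ x ∈ Ioo (0 : ℝ) 1, c * sq x ^ m ≤ τ' x := by
  have hr0 : 0 < r 0 := hr.pos 0 ⟨by norm_num, by norm_num⟩
  have hZ := cn_Z_pos m
  have hR := cn_r_pos hr m
  refine ⟨(∫ t in (0 : ℝ)..1, r t ^ m) / (r 0 ^ m * ∫ x in (0 : ℝ)..1, sq x ^ m),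
    by positivity, fun x hx => ?_⟩
  have h1 := h.eqn x hx
  have hτ := h.mem x hx
  have h2 : r (τ x) ^ m ≤ r 0 ^ m :=
    pow_le_pow_left₀ (prof_nn hr ⟨hτ.1.le, hτ.2.le⟩) (prof_le_zero hr ⟨hτ.1.le, hτ.2.le⟩) m
  have ht := h.pos x hx
  rw [div_mul_eq_mul_div, div_le_iff₀ (by positivity), mul_comm (∫ t in (0 : ℝ)..1, r t ^ m), ← h1]
  have h3 : τ' x * r (τ x) ^ m ≤ τ' x * r 0 ^ m := mul_le_mul_of_nonneg_left h2 ht.le
  have h4 := mul_le_mul_of_nonneg_right h3 hZ.le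
  linarith

theorem cn_log_le {u : ℝ} (h0 : 0 < u) (h1 : u ≤ 1) : u * |Real.log u| ≤ 1 := by
  rw [abs_of_nonpos (Real.log_nonpos h0.le h1), ← Real.log_inv]
  have h2 := Real.log_le_sub_one_of_pos (inv_pos.2 h0)
  have h3 : u * Real.log u⁻¹ ≤ u * u⁻¹ := mul_le_mul_of_nonneg_left (by linarith) h0.le
  rw [mul_inv_cancel₀ h0.ne'] at h3
  exact h3

/-- the logarithmic form of the constraint -/
theorem IsTrans.constraint_log {m : ℕ} (hm : 2 ≤ m) {r τ τ' T : ℝ → ℝ} (hr : IsProf r)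
    (h : IsTrans m r τ τ' T)
    (hN : (∫ y in (-1 : ℝ)..1, r y ^ (m - 1)) ^ m * aInt m ^ (m - 1) ≤
      aInt (m - 1) ^ m * (∫ y in (-1 : ℝ)..1, r y ^ m) ^ (m - 1)) :
    IntervalIntegrable (fun x => sq x ^ (m - 1) * Real.log (τ' x)) volume 0 1 ∧
    ∫ x in (0 : ℝ)..1, sq x ^ (m - 1) * Real.log (τ' x) ≤ 0 := by
  obtain ⟨hJi, hJ⟩ := IsTrans.constraint hm hr h hN
  have hm0 : (0 : ℝ) < m := by positivity
  have hup : ∀ x ∈ Ioo (0 : ℝ) 1, Real.log (τ' x) ≤ m * (τ' x ^ (1 / (m : ℝ)) - 1) := by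
    intro x hx
    have ht := h.pos x hx
    have h1 := Real.log_le_sub_one_of_pos (Real.rpow_pos_of_pos ht (1 / (m : ℝ)))
    rw [Real.log_rpow ht] at h1
    have h2 := mul_le_mul_of_nonneg_left h1 hm0.le
    rw [← mul_assoc, mul_one_div_cancel hm0.ne', one_mul] at h2
    exact h2
  obtain ⟨c, hc, hlow⟩ := cn_lower hr h
  have hI : IntegrableOn (fun x => sq x ^ (m - 1) * Real.log (τ' x)) (Ioo 0 1) := by
    have hdom : IntegrableOn (fun x => m * (sq x ^ (m - 1) * τ' x ^ (1 / (m : ℝ))) +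
        (|Real.log c| + m)) (Ioo 0 1) :=
      (((intervalIntegrable_iff_integrableOn_Ioo_of_le zero_le_one).1 hJi).const_mul _).add
        (integrableOn_const (by simp))
    refine Integrable.mono' hdom ?_ ?_
    · refine ContinuousOn.aestronglyMeasurable ?_ measurableSet_Ioo
      exact (cn_sq_cont.pow _).continuousOn.mul (h.cont.log fun x hx => (h.pos x hx).ne')
    · refine (ae_restrict_iff' measurableSet_Ioo).2 (Eventually.of_forall fun x hx => ?_)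
      have hs := cn_sq_pos (x := x) ⟨by linarith [hx.1], hx.2⟩
      have hs1 := cn_sq_le_one x
      have ht := h.pos x hx
      have hθ : 0 < τ' x ^ (1 / (m : ℝ)) := Real.rpow_pos_of_pos ht _
      have h1 := hup x hx
      have h2 : Real.log c + m * Real.log (sq x) ≤ Real.log (τ' x) := by
        rw [← Real.log_pow, ← Real.log_mul hc.ne' (pow_pos hs m).ne']
        exact Real.log_le_log (mul_pos hc (pow_pos hs m)) (hlow x hx)
      have h3 : |Real.log (τ' x)| ≤ m * τ' x ^ (1 / (m : ℝ)) + |Real.log c| +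
          m * |Real.log (sq x)| := by
        rw [abs_le]
        have a1 := neg_abs_le (Real.log c)
        have a2 := mul_le_mul_of_nonneg_left (neg_abs_le (Real.log (sq x))) hm0.le
        have a3 := abs_nonneg (Real.log c)
        have a4 := mul_nonneg hm0.le (abs_nonneg (Real.log (sq x)))
        have a5 := mul_pos hm0 hθ
        constructor <;> linarith
      have h4 : sq x ^ (m - 1) ≤ 1 := pow_le_one₀ hs.le hs1
      have h5 : sq x ^ (m - 1) * |Real.log (sq x)| ≤ 1 := by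
        have e : m - 1 = (m - 2) + 1 := by omega
        rw [e, pow_succ, mul_assoc]
        exact mul_le_one₀ (pow_le_one₀ hs.le hs1) (by (clear * - hs; positivity)) (cn_log_le hs hs1)
      rw [Real.norm_eq_abs, abs_mul, abs_of_pos (pow_pos hs _)]
      have h6 := mul_le_mul_of_nonneg_left h3 (pow_pos hs (m - 1)).le
      have h7 : sq x ^ (m - 1) * |Real.log c| ≤ |Real.log c| :=
        mul_le_of_le_one_left (abs_nonneg _) h4
      have h8 : m * (sq x ^ (m - 1) * |Real.log (sq x)|) ≤ m * 1 :=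
        mul_le_mul_of_nonneg_left h5 hm0.le
      show sq x ^ (m - 1) * |Real.log (τ' x)| ≤
        m * (sq x ^ (m - 1) * τ' x ^ (1 / (m : ℝ))) + (|Real.log c| + m)
      have h9 : sq x ^ (m - 1) * (m * τ' x ^ (1 / (m : ℝ)) + |Real.log c| +
          m * |Real.log (sq x)|) = m * (sq x ^ (m - 1) * τ' x ^ (1 / (m : ℝ))) +
          sq x ^ (m - 1) * |Real.log c| + m * (sq x ^ (m - 1) * |Real.log (sq x)|) := by ring
      linarith only [h8, h7, h6]
  have hI' := (intervalIntegrable_iff_integrableOn_Ioo_of_le (μ := volume) zero_le_one).2 hI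
  refine ⟨hI', ?_⟩
  have hZi := cn_sq_pow_ii (m - 1) 0 1
  have h1 : ∫ x in (0 : ℝ)..1, sq x ^ (m - 1) * Real.log (τ' x) ≤
      ∫ x in (0 : ℝ)..1, m * (sq x ^ (m - 1) * τ' x ^ (1 / (m : ℝ)) - sq x ^ (m - 1)) := by
    refine intervalIntegral.integral_mono_on_of_le_Ioo zero_le_one hI'
      ((hJi.sub hZi).const_mul _) fun x hx => ?_
    have hs := cn_sq_pos (x := x) ⟨by linarith [hx.1], hx.2⟩
    have h2 := mul_le_mul_of_nonneg_left (hup x hx) (pow_pos hs (m - 1)).le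
    linarith
  rw [intervalIntegral.integral_const_mul, intervalIntegral.integral_sub hJi hZi] at h1
  have h2 := mul_le_mul_of_nonneg_left hJ hm0.le
  linarith

/-- the transport is the identity only for half circles -/
theorem IsTrans.rigid {m : ℕ} (hm : 1 ≤ m) {r τ τ' T : ℝ → ℝ} (hr : IsProf r)
    (h : IsTrans m r τ τ' T) (hid : ∀ x ∈ Ioo (0 : ℝ) 1, τ x = x) :
    ∃ k : ℝ, ∀ y ∈ Ioo (-1 : ℝ) 1, r y = k * Real.sqrt (1 - y ^ 2) := by
  have hpos : ∀ x ∈ Ioo (0 : ℝ) 1, r x = cnk m r * sq x := by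
    intro x hx
    have h1 := cn_eq1 hm hr h hx
    have h2 : τ' x = 1 := by
      have h3 : HasDerivAt τ 1 x := by
        refine (hasDerivAt_id x).congr_of_eventuallyEq ?_
        filter_upwards [isOpen_Ioo.mem_nhds hx] with y hy
        exact hid y hy
      exact (h.der x hx).unique h3
    rw [h2, Real.one_rpow, mul_one, hid x hx] at h1
    rw [h1, mul_comm]
  have hzero : r 0 = cnk m r * sq 0 := by
    have c1 : Tendsto r (𝓝[>] 0) (𝓝 (r 0)) :=
      (prof_contAt hr (y := 0) ⟨by norm_num, by norm_num⟩).tendsto.mono_left nhdsWithin_le_nhds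
    have c2 : Tendsto (fun x => cnk m r * sq x) (𝓝[>] 0) (𝓝 (cnk m r * sq 0)) :=
      ((continuous_const.mul cn_sq_cont).tendsto 0).mono_left nhdsWithin_le_nhds
    refine tendsto_nhds_unique (c1.congr' ?_) c2
    filter_upwards [Ioo_mem_nhdsGT zero_lt_one] with x hx
    exact hpos x hx
  refine ⟨cnk m r, fun y hy => ?_⟩
  show r y = cnk m r * sq y
  rcases lt_trichotomy y 0 with hy0 | hy0 | hy0
  · have h1 := hpos (-y) ⟨by linarith, by linarith [hy.1]⟩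
    rwa [hr.even, cn_sq_even] at h1
  · rw [hy0]
    exact hzero
  · exact hpos y ⟨hy0, hy.2⟩

end trans

end Vale.Agent.P237.AllN
end

section

/-!
# P237, all dimensions: sharp cuts of admissible pairs
-/

open MeasureTheory Metric Set Module Filter Topology

namespace Vale.Agent.P237.AllN

/-- a `C¹` ramp from `0` (left of `a`) to `1` (right of `b`) -/
structure Ramp (a b : ℝ) (χ χ' : ℝ → ℝ) : Prop where
  der : ∀ y, HasDerivAt χ (χ' y) y
  cont : Continuous χ'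
  nonneg : ∀ y, 0 ≤ χ y
  le_one : ∀ y, χ y ≤ 1
  nonneg' : ∀ y, 0 ≤ χ' y
  left : ∀ y ≤ a, χ y = 0
  right : ∀ y ≥ b, χ y = 1
  left' : ∀ y ≤ a, χ' y = 0
  right' : ∀ y ≥ b, χ' y = 0
  int : ∫ y in a..b, χ' y = 1

theorem exists_ramp {a b : ℝ} (hab : a < b) : ∃ χ χ' : ℝ → ℝ, Ramp a b χ χ' := by
  have hh : 0 < b - a := by linarith only [hab]
  set χ : ℝ → ℝ := fun y => Real.smoothTransition ((y - a) / (b - a)) with hχ
  have hcd : ContDiff ℝ 1 χ := by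
    have h1 : ContDiff ℝ 1 Real.smoothTransition := Real.smoothTransition.contDiff (n := 1)
    exact h1.comp ((contDiff_id.sub contDiff_const).div_const _)
  have hder : ∀ y, HasDerivAt χ (deriv χ y) y := fun y =>
    (hcd.differentiable (by norm_num) y).hasDerivAt
  have hcont : Continuous (deriv χ) := hcd.continuous_deriv (by norm_num)
  have h0 : ∀ y ≤ a, χ y = 0 := by
    intro y hy
    exact Real.smoothTransition.zero_of_nonpos (div_nonpos_of_nonpos_of_nonneg (by linarith only [hy]) hh.le)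
  have h1 : ∀ y ≥ b, χ y = 1 := by
    intro y hy
    refine Real.smoothTransition.one_of_one_le ?_
    rw [le_div_iff₀ hh]
    linarith only [hy]
  have hmono : Monotone χ := by
    intro x y hxy
    exact Real.smoothTransition.monotone (div_le_div_of_nonneg_right (by linarith only [hxy]) hh.le)
  have hd0 : ∀ y < a, deriv χ y = 0 := by
    intro y hy
    have : χ =ᶠ[𝓝 y] fun _ => 0 := by
      filter_upwards [Iio_mem_nhds hy] with z hz
      exact h0 z (le_of_lt hz)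
    rw [this.deriv_eq]
    simp only [deriv_const']
  have hd1 : ∀ y > b, deriv χ y = 0 := by
    intro y hy
    have : χ =ᶠ[𝓝 y] fun _ => 1 := by
      filter_upwards [Ioi_mem_nhds hy] with z hz
      exact h1 z (le_of_lt hz)
    rw [this.deriv_eq]
    simp
  refine ⟨χ, deriv χ, hder, hcont, fun y => Real.smoothTransition.nonneg _,
    fun y => Real.smoothTransition.le_one _, ?_, h0, h1, ?_, ?_, ?_⟩
  · intro y
    exact hmono.deriv_nonneg
  · have hcl : IsClosed {y | deriv χ y = 0} := isClosed_eq hcont continuous_const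
    intro y hy
    have h2 : Iio a ⊆ {y | deriv χ y = 0} := fun z hz => hd0 z hz
    have h3 := hcl.closure_subset_iff.2 h2
    rw [closure_Iio] at h3
    exact h3 hy
  · have hcl : IsClosed {y | deriv χ y = 0} := isClosed_eq hcont continuous_const
    intro y hy
    have h2 : Ioi b ⊆ {y | deriv χ y = 0} := fun z hz => hd1 z hz
    have h3 := hcl.closure_subset_iff.2 h2
    rw [closure_Ioi] at h3
    exact h3 hy
  · rw [intervalIntegral.integral_eq_sub_of_hasDerivAt (fun y _ => hder y)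
      (hcont.intervalIntegrable _ _), h0 a le_rfl, h1 b le_rfl]
    norm_num

/-- multiplication of a function on `(0,1)` by a cut-off -/
theorem cut_mul {a b : ℝ} (ha : 0 < a) (hb : b < 1) {ω ω' g g' : ℝ → ℝ}
    (hω : ∀ y, HasDerivAt ω (ω' y) y) (hω' : Continuous ω')
    (hz : ∀ y, y ∉ Icc a b → ω y = 0) (hz' : ∀ y, y ∉ Icc a b → ω' y = 0)
    (hg : ∀ y ∈ Ioo (0 : ℝ) 1, HasDerivAt g (g' y) y) (hg' : ContinuousOn g' (Ioo 0 1)) :
    (∀ y, HasDerivAt (fun y => ω y * g y) (ω' y * g y + ω y * g' y) y) ∧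
      Continuous (fun y => ω' y * g y + ω y * g' y) := by
  have hev : ∀ y, y ∉ Icc a b → ∀ᶠ z in 𝓝 y, z ∉ Icc a b := fun y hy =>
    isClosed_Icc.isOpen_compl.mem_nhds hy
  have hin : ∀ y, y ∈ Icc a b → y ∈ Ioo (0 : ℝ) 1 := fun y hy =>
    ⟨lt_of_lt_of_le ha hy.1, lt_of_le_of_lt hy.2 hb⟩
  constructor
  · intro y
    by_cases hy : y ∈ Icc a b
    · exact (hω y).mul (hg y (hin y hy))
    · have h1 : (fun y => ω y * g y) =ᶠ[𝓝 y] fun _ => (0 : ℝ) := by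
        filter_upwards [hev y hy] with z h2
        rw [hz z h2, zero_mul]
      have h2 : ω' y * g y + ω y * g' y = 0 := by rw [hz y hy, hz' y hy]; ring
      rw [h2]
      exact (hasDerivAt_const y (0 : ℝ)).congr_of_eventuallyEq h1
  · rw [continuous_iff_continuousAt]
    intro y
    by_cases hy : y ∈ Icc a b
    · have h1 := (hg y (hin y hy)).continuousAt
      have h2 := hg'.continuousAt (isOpen_Ioo.mem_nhds (hin y hy))
      have h3 := (hω y).continuousAt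
      exact (hω'.continuousAt.mul h1).add (h3.mul h2)
    · have h1 : (fun y => ω' y * g y + ω y * g' y) =ᶠ[𝓝 y] fun _ => (0 : ℝ) := by
        filter_upwards [hev y hy] with z h2
        rw [hz z h2, hz' z h2]
        ring
      exact continuousAt_const.congr h1.symm

/-- existence of the slope `P` for the end pair -/
theorem Kern2.end_pair {A : ℝ → ℝ → ℝ} (hA : Kern2 A) {η : ℝ} (hη : 0 < η) :
    ∃ P : ℝ, 0 ≤ P ∧ ∃ δ > (0 : ℝ), δ < 1 ∧
      ∀ y ∈ Icc (1 - δ) 1, ∀ b ∈ Icc (-1 : ℝ) 1, -η - P * (1 - b) ≤ A y b := by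
  obtain ⟨C, hC⟩ := hA.bdd
  obtain ⟨δ, hδ, h1⟩ := hA.corner η hη
  have hC0 : 0 ≤ C := (abs_nonneg _).trans (hC 0 ⟨by norm_num, by norm_num⟩ 0 ⟨by norm_num, by norm_num⟩)
  set d := min δ (1/2) with hd
  have hd0 : 0 < d := lt_min hδ (by norm_num)
  have hd1 : d ≤ 1/2 := min_le_right _ _
  have hdδ : d ≤ δ := min_le_left _ _
  refine ⟨C / d, by (clear * - hC0 hδ; positivity), d, hd0, by linarith only [hd1], ?_⟩
  intro y hy b hb
  have hy1 : y ∈ Icc (-1 : ℝ) 1 := ⟨by linarith only [hy.1, hd1, hd0], hy.2⟩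
  by_cases hbd : 1 - d ≤ b
  · have h2 := h1 y ⟨by linarith only [hdδ, hy.1], hy.2⟩ b ⟨by linarith only [hdδ, hbd], hb.2⟩
    have h3 := (abs_le.1 h2).1
    have h4 : 0 ≤ C / d * (1 - b) := mul_nonneg (by (clear * - hC0 hδ; positivity)) (by linarith only [hb.2])
    linarith only [h4, h3]
  · push Not at hbd
    have h2 := (abs_le.1 (hC y hy1 b hb)).1
    have h3 : C ≤ C / d * (1 - b) := by
      rw [div_mul_eq_mul_div, le_div_iff₀ hd0]
      exact mul_le_mul_of_nonneg_left (by linarith only [hbd]) hC0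
    linarith only [h3, h2, hη]

/-- the cut pair, first component -/
noncomputable def cutC (χL χR c : ℝ → ℝ) (M c0 y : ℝ) : ℝ :=
  -M + ((χL y - χR y) * (c y + M) + χR y * (c0 + M))

noncomputable def cutC' (χL χR χL' χR' c c' : ℝ → ℝ) (M c0 y : ℝ) : ℝ :=
  ((χL' y - χR' y) * (c y + M) + (χL y - χR y) * c' y) + χR' y * (c0 + M)

/-- the cut pair, second component -/
noncomputable def cutP (χL χR p : ℝ → ℝ) (P y : ℝ) : ℝ :=
  (χL y - χR y) * p y + χR y * P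

noncomputable def cutP' (χL χR χL' χR' p p' : ℝ → ℝ) (P y : ℝ) : ℝ :=
  ((χL' y - χR' y) * p y + (χL y - χR y) * p' y) + χR' y * P

section

variable {a α β b : ℝ} {χL χL' χR χR' : ℝ → ℝ}

theorem ramp_sub_zero (hL : Ramp a α χL χL') (hR : Ramp β b χR χR') (haβ : a ≤ β)
    (hαb : α ≤ b) {y : ℝ} (hy : y ∉ Icc a b) : χL y - χR y = 0 ∧ χL' y - χR' y = 0 := by
  rcases lt_or_ge y a with h2 | h2
  · rw [hL.left y h2.le, hR.left y (by linarith), hL.left' y h2.le, hR.left' y (by linarith only [haβ, h2])]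
    simp
  · have h3 : b < y := by
      by_contra h4
      exact hy ⟨h2, not_lt.1 h4⟩
    rw [hL.right y (by show α ≤ y; linarith only [hαb, h3]), hR.right y h3.le,
      hL.right' y (by show α ≤ y; linarith), hR.right' y h3.le]
    simp

theorem cutC_deriv (ha : 0 < a) (hb : b < 1) (hL : Ramp a α χL χL') (hR : Ramp β b χR χR')
    (haβ : a ≤ β) (hαb : α ≤ b) {c c' : ℝ → ℝ}
    (hc : ∀ y ∈ Ioo (0 : ℝ) 1, HasDerivAt c (c' y) y) (hc' : ContinuousOn c' (Ioo 0 1))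
    (M c0 : ℝ) :
    (∀ y, HasDerivAt (cutC χL χR c M c0) (cutC' χL χR χL' χR' c c' M c0 y) y) ∧
      Continuous (cutC' χL χR χL' χR' c c' M c0) := by
  have hz := fun y hy => (ramp_sub_zero hL hR haβ hαb (y := y) hy).1
  have hz' := fun y hy => (ramp_sub_zero hL hR haβ hαb (y := y) hy).2
  obtain ⟨k1, k2⟩ := cut_mul (ω := fun y => χL y - χR y) (ω' := fun y => χL' y - χR' y)
    (g := fun y => c y + M) (g' := c') ha hb
    (fun y => (hL.der y).sub (hR.der y)) (hL.cont.sub hR.cont) hz hz'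
    (fun y hy => (hc y hy).add_const M) hc'
  exact ⟨fun y => ((k1 y).add ((hR.der y).mul_const (c0 + M))).const_add (-M),
    k2.add (hR.cont.mul continuous_const)⟩

theorem cutP_deriv (ha : 0 < a) (hb : b < 1) (hL : Ramp a α χL χL') (hR : Ramp β b χR χR')
    (haβ : a ≤ β) (hαb : α ≤ b) {p p' : ℝ → ℝ}
    (hp : ∀ y ∈ Ioo (0 : ℝ) 1, HasDerivAt p (p' y) y) (hp' : ContinuousOn p' (Ioo 0 1))
    (P : ℝ) :
    (∀ y, HasDerivAt (cutP χL χR p P) (cutP' χL χR χL' χR' p p' P y) y) ∧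
      Continuous (cutP' χL χR χL' χR' p p' P) := by
  have hz := fun y hy => (ramp_sub_zero hL hR haβ hαb (y := y) hy).1
  have hz' := fun y hy => (ramp_sub_zero hL hR haβ hαb (y := y) hy).2
  obtain ⟨k1, k2⟩ := cut_mul (ω := fun y => χL y - χR y) (ω' := fun y => χL' y - χR' y)
    (g := p) (g' := p') ha hb
    (fun y => (hL.der y).sub (hR.der y)) (hL.cont.sub hR.cont) hz hz' hp hp'
  exact ⟨fun y => (k1 y).add ((hR.der y).mul_const P), k2.add (hR.cont.mul continuous_const)⟩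

theorem cut_nonpos (ha : 0 < a) (hL : Ramp a α χL χL') (hR : Ramp β b χR χR')
    (haβ : a ≤ β) (c c' p p' : ℝ → ℝ) (M c0 P : ℝ) {y : ℝ} (hy : y ≤ 0) :
    cutC χL χR c M c0 y = -M ∧ cutC' χL χR χL' χR' c c' M c0 y = 0 ∧ cutP χL χR p P y = 0 ∧
      cutP' χL χR χL' χR' p p' P y = 0 := by
  unfold cutC cutC' cutP cutP'
  rw [hL.left y (by linarith), hR.left y (by linarith only [ha, haβ, hy]), hL.left' y (by linarith only [ha, hy]),
    hR.left' y (by linarith)]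
  refine ⟨?_, ?_, ?_, ?_⟩ <;> ring

theorem cut_adm {A : ℝ → ℝ → ℝ} (ha : 0 < a) (hb : b < 1) (hL : Ramp a α χL χL')
    (hR : Ramp β b χR χR') (haβ : a ≤ β) (hαβ : α ≤ β) (hαb : α ≤ b) {c p : ℝ → ℝ}
    (hle : ∀ y ∈ Ioo (0 : ℝ) 1, ∀ b ∈ Icc (-1 : ℝ) 1, c y + p y * b ≤ A y b)
    {M : ℝ} (hM : ∀ a ∈ Icc (-1 : ℝ) 1, ∀ b ∈ Icc (-1 : ℝ) 1, |A a b| ≤ M)
    {η P : ℝ} (hP : ∀ y ∈ Icc β 1, ∀ b ∈ Icc (-1 : ℝ) 1, -η - P * (1 - b) ≤ A y b)
    {t z : ℝ} (ht : t ∈ Icc (0 : ℝ) 1) (hzz : z ∈ Icc (-1 : ℝ) 1) :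
    cutC χL χR c M (-(η + P)) t + cutP χL χR p P t * z ≤ A t z := by
  have ht' : t ∈ Icc (-1 : ℝ) 1 := ⟨by (clear * - ht; linarith [ht.1]), ht.2⟩
  have e1 : cutC χL χR c M (-(η + P)) t + cutP χL χR p P t * z = (1 - χL t) * (-M) +
      (χL t - χR t) * (c t + p t * z) + χR t * (-η - P * (1 - z)) := by
    unfold cutC cutP
    ring
  have hω1 : 0 ≤ χL t - χR t := by
    rcases le_total t β with h2 | h2
    · rw [hR.left t h2]
      linarith only [hL.nonneg t]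
    · rw [hL.right t (by show α ≤ t; linarith)]
      linarith only [hR.le_one t]
  have f1 : (1 - χL t) * (-M) ≤ (1 - χL t) * A t z :=
    mul_le_mul_of_nonneg_left (abs_le.1 (hM t ht' z hzz)).1 (by linarith only [hL.le_one t])
  have f2 : (χL t - χR t) * (c t + p t * z) ≤ (χL t - χR t) * A t z := by
    by_cases h2 : t ∈ Icc a b
    · exact mul_le_mul_of_nonneg_left (hle t ⟨by linarith [h2.1], by linarith only [hb, h2.2]⟩ z hzz) hω1
    · rw [(ramp_sub_zero hL hR haβ hαb h2).1]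
      simp
  have f3 : χR t * (-η - P * (1 - z)) ≤ χR t * A t z := by
    rcases le_total t β with h2 | h2
    · rw [hR.left t h2]
      simp
    · exact mul_le_mul_of_nonneg_left (hP t ⟨h2, ht.2⟩ z hzz) (hR.nonneg t)
  have e2 : A t z = (1 - χL t) * A t z + (χL t - χR t) * A t z + χR t * A t z := by ring
  rw [e1, e2]
  linarith only [f3, f2, f1]

end

/-- one ramp piece of the value integral -/
theorem ramp_piece {a b K0 κ v ε : ℝ} (hab : a ≤ b) {Q R G H σ θ χ' : ℝ → ℝ}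
    (hQ : IntervalIntegrable Q volume a b) (hR : IntervalIntegrable R volume a b)
    (hχ : Continuous χ') (hi : ∫ y in a..b, χ' y = 1)
    (he : ∀ y ∈ Icc a b, Q y = σ y * G y + -κ * (θ y * R y) + χ' y * H y)
    (hG : ∀ y ∈ Icc a b, |G y| ≤ K0) (hκ : 0 ≤ κ) (hR0 : ∀ y ∈ Icc a b, 0 ≤ R y)
    (hσ0 : ∀ y, 0 ≤ σ y) (hσ1 : ∀ y, σ y ≤ 1) (hθ1 : ∀ y, θ y ≤ 1)
    (hχ0 : ∀ y, 0 ≤ χ' y) (hH : ∀ y ∈ Icc a b, v - ε ≤ H y) :
    -(K0 * (b - a)) - κ * (∫ y in a..b, R y) + (v - ε) ≤ ∫ y in a..b, Q y := by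
  have e1 : ∫ y in a..b, (-K0 + -κ * R y + χ' y * (v - ε)) =
      -(K0 * (b - a)) - κ * (∫ y in a..b, R y) + (v - ε) := by
    rw [intervalIntegral.integral_add (((continuous_const.intervalIntegrable _ _)).add
      (hR.const_mul _)) ((hχ.intervalIntegrable _ _).mul_const _),
      intervalIntegral.integral_add (continuous_const.intervalIntegrable _ _)
      (hR.const_mul _), intervalIntegral.integral_const_mul,
      intervalIntegral.integral_mul_const, hi, intervalIntegral.integral_const]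
    simp only [smul_eq_mul]
    ring
  rw [← e1]
  apply intervalIntegral.integral_mono_on hab
    ((((continuous_const.intervalIntegrable _ _)).add (hR.const_mul _)).add
      ((hχ.intervalIntegrable _ _).mul_const _)) hQ
  intro y hy
  rw [he y hy]
  have g2 := (abs_le.1 (hG y hy)).1
  have hK0 : 0 ≤ K0 := (abs_nonneg _).trans (hG y hy)
  have f1 : -K0 ≤ σ y * G y := by
    have g3 : -K0 * σ y ≤ G y * σ y := mul_le_mul_of_nonneg_right g2 (hσ0 y)
    have g4 : K0 * σ y ≤ K0 * 1 := mul_le_mul_of_nonneg_left (hσ1 y) hK0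
    linarith only [g3, g4]
  have f2 : -κ * R y ≤ -κ * (θ y * R y) := by
    have g1 : θ y * R y ≤ 1 * R y := mul_le_mul_of_nonneg_right (hθ1 y) (hR0 y hy)
    have g3 := mul_le_mul_of_nonneg_left g1 hκ
    linarith only [g3]
  have f3 : χ' y * (v - ε) ≤ χ' y * H y := mul_le_mul_of_nonneg_left (hH y hy) (hχ0 y)
  linarith only [f3, f2, f1]

/-- the value on `[0,1]` of the cut pair -/
theorem cut_value {m : ℕ} {r : ℝ → ℝ} (hr : IsProf r)
    {c c' p p' : ℝ → ℝ} {α β : ℝ} (h0 : 0 < α) (hαβ : α < β) (h1 : β < 1)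
    (hc : ∀ y ∈ Ioo (0 : ℝ) 1, HasDerivAt c (c' y) y) (hc' : ContinuousOn c' (Ioo 0 1))
    (hp : ∀ y ∈ Ioo (0 : ℝ) 1, HasDerivAt p (p' y) y) (hp' : ContinuousOn p' (Ioo 0 1))
    {M : ℝ} (hM0 : 0 ≤ M) {η P : ℝ} (hη : 0 ≤ η) (hP0 : 0 ≤ P) {ε : ℝ} (hε' : 0 < ε) :
    ∃ h : ℝ, 0 < h ∧ h ≤ α / 2 ∧ β + h ≤ (1 + β) / 2 ∧ ∀ χL χL' χR χR' : ℝ → ℝ,
      Ramp (α - h) α χL χL' → Ramp β (β + h) χR χR' →
      (∫ y in α..β, (((m : ℝ) + 1) * c y + y * c' y + p' y) * r y ^ m) +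
      (α * (c α + M) + p α) * r α ^ m - (β * (c β + η + P) + p β - P) * r β ^ m -
      ((m : ℝ) + 1) * M * (∫ y in (0 : ℝ)..α, r y ^ m) -
      ((m : ℝ) + 1) * (η + P) * (∫ y in β..1, r y ^ m) - 4 * ε ≤
      ∫ y in (0 : ℝ)..1, (((m : ℝ) + 1) * cutC χL χR c M (-(η + P)) y +
        y * cutC' χL χR χL' χR' c c' M (-(η + P)) y + cutP' χL χR χL' χR' p p' P y) * r y ^ m := by
  set Φ : ℝ → ℝ := fun y => ((m : ℝ) + 1) * c y + y * c' y + p' y with hΦ
  set gL : ℝ → ℝ := fun y => y * (c y + M) + p y with hgL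
  set gR : ℝ → ℝ := fun y => y * (c y + η + P) + p y - P with hgR
  have hcc : ContinuousOn c (Ioo 0 1) := fun y hy => (hc y hy).continuousAt.continuousWithinAt
  have hpc : ContinuousOn p (Ioo 0 1) := fun y hy => (hp y hy).continuousAt.continuousWithinAt
  have hrc : ContinuousOn r (Ioo 0 1) :=
    (Alm.prof_cont hr).mono (Ioo_subset_Ioo (by norm_num) le_rfl)
  have hrm : ContinuousOn (fun y => r y ^ m) (Ioo 0 1) := hrc.pow m
  have hΦc : ContinuousOn Φ (Ioo 0 1) := by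
    rw [hΦ]
    exact ((continuousOn_const.mul hcc).add (continuousOn_id.mul hc')).add hp'
  have hgLc : ContinuousOn (fun y => gL y * r y ^ m) (Ioo 0 1) := by
    rw [hgL]
    exact ((continuousOn_id.mul (hcc.add continuousOn_const)).add hpc).mul hrm
  have hgRc : ContinuousOn (fun y => gR y * r y ^ m) (Ioo 0 1) := by
    rw [hgR]
    exact (((continuousOn_id.mul ((hcc.add continuousOn_const).add continuousOn_const)).add hpc).sub
      continuousOn_const).mul hrm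
  have hαmem : α ∈ Ioo (0 : ℝ) 1 := ⟨h0, by linarith only [hαβ, h1]⟩
  have hβmem : β ∈ Ioo (0 : ℝ) 1 := ⟨by linarith only [h0, hαβ], h1⟩
  -- compact interval
  have hsub : Icc (α / 2) ((1 + β) / 2) ⊆ Ioo 0 1 := fun y hy =>
    ⟨by linarith only [h0, hy.1], by linarith only [h1, hy.2]⟩
  obtain ⟨K0, hK0⟩ := isCompact_Icc.exists_bound_of_continuousOn ((hΦc.mul hrm).mono hsub)
  have hK0' : 0 ≤ K0 := (norm_nonneg _).trans (hK0 α ⟨by linarith only [h0], by linarith only [hαβ, h1]⟩)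
  obtain ⟨d1, hd1, hd1'⟩ := Metric.continuousAt_iff.1
    (hgLc.continuousAt (isOpen_Ioo.mem_nhds hαmem)) ε hε'
  obtain ⟨d2, hd2, hd2'⟩ := Metric.continuousAt_iff.1
    (hgRc.continuousAt (isOpen_Ioo.mem_nhds hβmem)) ε hε'
  obtain ⟨h, hh, hh1, hh2, hh3, hh4, hh5⟩ : ∃ h : ℝ, 0 < h ∧ h ≤ α / 2 ∧ β + h ≤ (1 + β) / 2 ∧
      K0 * h ≤ ε ∧ h < d1 ∧ h < d2 := by
    refine ⟨min (min (α / 2) ((1 - β) / 2)) (min (ε / (K0 + 1)) (min (d1 / 2) (d2 / 2))), ?_, ?_, ?_,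
      ?_, ?_, ?_⟩
    · have : 0 < 1 - β := by linarith
      (clear * - h0 h1 hε' hK0' hd1 hd2; positivity)
    · exact (min_le_left _ _).trans (min_le_left _ _)
    · have := (min_le_left (min (α / 2) ((1 - β) / 2))
        (min (ε / (K0 + 1)) (min (d1 / 2) (d2 / 2)))).trans (min_le_right _ _)
      linarith only [this]
    · have h2 := (min_le_right (min (α / 2) ((1 - β) / 2))
        (min (ε / (K0 + 1)) (min (d1 / 2) (d2 / 2)))).trans (min_le_left _ _)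
      calc K0 * _ ≤ K0 * (ε / (K0 + 1)) := mul_le_mul_of_nonneg_left h2 hK0'
        _ = ε * (K0 / (K0 + 1)) := by ring
        _ ≤ ε * 1 := mul_le_mul_of_nonneg_left ((div_le_one (by linarith only [hK0'])).2 (by linarith only [])) hε'.le
        _ = ε := mul_one _
    · have h2 := ((min_le_right (min (α / 2) ((1 - β) / 2))
        (min (ε / (K0 + 1)) (min (d1 / 2) (d2 / 2)))).trans (min_le_right _ _)).trans
        (min_le_left _ _)
      linarith only [hd1, h2]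
    · have h2 := ((min_le_right (min (α / 2) ((1 - β) / 2))
        (min (ε / (K0 + 1)) (min (d1 / 2) (d2 / 2)))).trans (min_le_right _ _)).trans
        (min_le_right _ _)
      linarith
  refine ⟨h, hh, hh1, hh2, ?_⟩
  intro χL χL' χR χR' hL hR
  have hβh : β + h < 1 := by linarith only [hh, hh2]
  have hαh : 0 < α - h := by linarith only [hh, hh1]
  have hCd := cutC_deriv hαh hβh hL hR (by linarith only [hαβ, hh]) (by linarith only [hαβ, hh]) hc hc' M (-(η + P))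
  have hPd := cutP_deriv hαh hβh hL hR (by linarith only [hαβ, hh]) (by linarith only [hαβ, hh]) hp hp' P
  have hCcc : Continuous (cutC χL χR c M (-(η + P))) :=
    continuous_iff_continuousAt.2 fun y => (hCd.1 y).continuousAt
  set Q : ℝ → ℝ := fun y => (((m : ℝ) + 1) * cutC χL χR c M (-(η + P)) y +
        y * cutC' χL χR χL' χR' c c' M (-(η + P)) y + cutP' χL χR χL' χR' p p' P y) * r y ^ m with hQ
  have hrii : ∀ a ∈ Icc (0 : ℝ) 1, ∀ b ∈ Icc (0 : ℝ) 1,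
      IntervalIntegrable (fun y => r y ^ m) volume a b := fun a ha b hb =>
    Alm.prof_pow_ii hr m ha hb
  have hQii : ∀ a ∈ Icc (0 : ℝ) 1, ∀ b ∈ Icc (0 : ℝ) 1, IntervalIntegrable Q volume a b := by
    intro a ha b hb
    refine (hrii a ha b hb).continuousOn_mul ?_
    exact ((continuous_const.mul hCcc).add (continuous_id.mul hCd.2) |>.add hPd.2).continuousOn
  have m0 : (0 : ℝ) ∈ Icc (0 : ℝ) 1 := ⟨le_rfl, zero_le_one⟩
  have m1 : (1 : ℝ) ∈ Icc (0 : ℝ) 1 := ⟨zero_le_one, le_rfl⟩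
  have ma : α - h ∈ Icc (0 : ℝ) 1 := ⟨hαh.le, by linarith only [hh2, hh, hαβ]⟩
  have mα : α ∈ Icc (0 : ℝ) 1 := ⟨h0.le, by linarith only [hαβ, hh, hh2]⟩
  have mβ : β ∈ Icc (0 : ℝ) 1 := ⟨by linarith only [hαβ, hh, hh1], h1.le⟩
  have mb : β + h ∈ Icc (0 : ℝ) 1 := ⟨by linarith only [hαβ, hh, hh1], hβh.le⟩
  have split : ∫ y in (0 : ℝ)..1, Q y =
      (∫ y in (0 : ℝ)..(α - h), Q y) + (∫ y in (α - h)..α, Q y) + (∫ y in α..β, Q y) +
      (∫ y in β..(β + h), Q y) + ∫ y in (β + h)..1, Q y := by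
    rw [intervalIntegral.integral_add_adjacent_intervals (hQii 0 m0 _ ma) (hQii _ ma _ mα),
      intervalIntegral.integral_add_adjacent_intervals (hQii 0 m0 _ mα) (hQii _ mα _ mβ),
      intervalIntegral.integral_add_adjacent_intervals (hQii 0 m0 _ mβ) (hQii _ mβ _ mb),
      intervalIntegral.integral_add_adjacent_intervals (hQii 0 m0 _ mb) (hQii _ mb _ m1)]
  rw [split]
  have hm0 : (0 : ℝ) ≤ (m : ℝ) + 1 := by (clear * -; positivity)
  have hrn : ∀ y ∈ Ioo (0 : ℝ) 1, 0 ≤ r y ^ m := fun y hy =>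
    pow_nonneg (hr.pos y ⟨by linarith only [hy.1], hy.2⟩).le m
  -- piece 1
  have I1 : ∫ y in (0 : ℝ)..(α - h), Q y = -(((m : ℝ) + 1) * M) * ∫ y in (0 : ℝ)..(α - h), r y ^ m := by
    rw [← intervalIntegral.integral_const_mul]
    refine intervalIntegral.integral_congr fun y hy => ?_
    rw [uIcc_of_le hαh.le] at hy
    simp only [hQ, cutC, cutC', cutP']
    rw [hL.left y hy.2, hR.left y (by linarith only [hαβ, hh, hy.2]), hL.left' y hy.2,
      hR.left' y (by linarith only [hαβ, hh, hy.2])]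
    ring
  -- piece 3
  have I3 : ∫ y in α..β, Q y = ∫ y in α..β, Φ y * r y ^ m := by
    refine intervalIntegral.integral_congr fun y hy => ?_
    rw [uIcc_of_le hαβ.le] at hy
    simp only [hQ, cutC, cutC', cutP', hΦ]
    rw [hL.right y hy.1, hR.left y hy.2, hL.right' y hy.1, hR.left' y hy.2]
    ring
  -- piece 5
  have I5 : ∫ y in (β + h)..1, Q y = -(((m : ℝ) + 1) * (η + P)) * ∫ y in (β + h)..1, r y ^ m := by
    rw [← intervalIntegral.integral_const_mul]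
    refine intervalIntegral.integral_congr fun y hy => ?_
    rw [uIcc_of_le hβh.le] at hy
    have hya : α ≤ y := by linarith only [hαβ, hh, hy.1]
    simp only [hQ, cutC, cutC', cutP']
    rw [hL.right y hya, hR.right y hy.1, hL.right' y hya, hR.right' y hy.1]
    ring
  -- piece 2
  have I2 : -(K0 * (α - (α - h))) - ((m : ℝ) + 1) * M * (∫ y in (α - h)..α, r y ^ m) +
      (gL α * r α ^ m - ε) ≤ ∫ y in (α - h)..α, Q y := by
    refine ramp_piece (G := fun y => Φ y * r y ^ m) (H := fun y => gL y * r y ^ m) (σ := χL)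
      (θ := fun y => 1 - χL y) (χ' := χL') (by linarith only [hh]) (hQii _ ma _ mα) (hrii _ ma _ mα)
      hL.cont hL.int ?_ ?_ (mul_nonneg hm0 hM0) ?_ hL.nonneg hL.le_one
      (fun y => by linarith only [hL.nonneg y]) hL.nonneg' ?_
    · intro y hy
      simp only [hQ, cutC, cutC', cutP', hΦ, hgL]
      rw [hR.left y (by linarith only [hαβ, hy.2]), hR.left' y (by linarith only [hαβ, hy.2])]
      ring
    · intro y hy
      exact hK0 y ⟨by linarith only [hh1, hy.1], by linarith only [hαβ, hh, hh2, hy.2]⟩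
    · intro y hy
      exact hrn y ⟨by linarith only [hh, hh1, hy.1], by linarith only [hαβ, hh, hh2, hy.2]⟩
    · intro y hy
      have g1 := hd1' (x := y) (by
        rw [Real.dist_eq, abs_lt]
        exact ⟨by linarith only [hh4, hy.1], by linarith only [hh, hh4, hy.2]⟩)
      rw [Real.dist_eq] at g1
      have g2 := (abs_lt.1 g1).1
      linarith only [g2]
  -- piece 4
  have I4 : -(K0 * (β + h - β)) - ((m : ℝ) + 1) * (η + P) * (∫ y in β..(β + h), r y ^ m) +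
      (-(gR β * r β ^ m) - ε) ≤ ∫ y in β..(β + h), Q y := by
    refine ramp_piece (G := fun y => Φ y * r y ^ m) (H := fun y => -(gR y * r y ^ m))
      (σ := fun y => 1 - χR y) (θ := χR) (χ' := χR') (by linarith only [hh]) (hQii _ mβ _ mb)
      (hrii _ mβ _ mb) hR.cont hR.int ?_ ?_ (mul_nonneg hm0 (by linarith only [hη, hP0])) ?_
      (fun y => by linarith only [hR.le_one y]) (fun y => by linarith only [hR.nonneg y]) hR.le_one
      hR.nonneg' ?_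
    · intro y hy
      have hya : α ≤ y := by linarith only [hαβ, hy.1]
      simp only [hQ, cutC, cutC', cutP', hΦ, hgR]
      rw [hL.right y hya, hL.right' y hya]
      ring
    · intro y hy
      exact hK0 y ⟨by linarith only [hαβ, hh, hh1, hy.1], by linarith only [hh2, hy.2]⟩
    · intro y hy
      exact hrn y ⟨by linarith only [hαβ, hh, hh1, hy.1], by linarith only [hh, hh2, hy.2]⟩
    · intro y hy
      have g1 := hd2' (x := y) (by
        rw [Real.dist_eq, abs_lt]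
        exact ⟨by linarith only [hh, hh5, hy.1], by linarith only [hh5, hy.2]⟩)
      rw [Real.dist_eq] at g1
      have g2 := (abs_lt.1 g1).2
      linarith only [g2]
  have J1 : ∫ y in (0 : ℝ)..α, r y ^ m = (∫ y in (0 : ℝ)..(α - h), r y ^ m) +
      ∫ y in (α - h)..α, r y ^ m :=
    (intervalIntegral.integral_add_adjacent_intervals (hrii 0 m0 _ ma) (hrii _ ma _ mα)).symm
  have J2 : ∫ y in β..1, r y ^ m = (∫ y in β..(β + h), r y ^ m) + ∫ y in (β + h)..1, r y ^ m :=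
    (intervalIntegral.integral_add_adjacent_intervals (hrii _ mβ _ mb) (hrii _ mb _ m1)).symm
  have e3 : (α * (c α + M) + p α) * r α ^ m = gL α * r α ^ m := rfl
  have e4 : (β * (c β + η + P) + p β - P) * r β ^ m = gR β * r β ^ m := rfl
  rw [J1, J2, I1, I3, I5, e3, e4]
  have e6 : K0 * (α - (α - h)) = K0 * h := by ring
  have e7 : K0 * (β + h - β) = K0 * h := by ring
  rw [e6] at I2
  rw [e7] at I4
  linarith only [hh3, I2, I4]

/-- **Sharp cut**: admissible pairs on `(0,1)` may be cut at any `0 < α < β < 1`. -/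
theorem admGe_cut {m : ℕ} {A : ℝ → ℝ → ℝ} (hA : Kern2 A) {r : ℝ → ℝ} (hr : IsProf r)
    {c c' p p' : ℝ → ℝ} {α β : ℝ} (h0 : 0 < α) (hαβ : α < β) (h1 : β < 1)
    (hc : ∀ y ∈ Ioo (0 : ℝ) 1, HasDerivAt c (c' y) y) (hc' : ContinuousOn c' (Ioo 0 1))
    (hp : ∀ y ∈ Ioo (0 : ℝ) 1, HasDerivAt p (p' y) y) (hp' : ContinuousOn p' (Ioo 0 1))
    (hle : ∀ y ∈ Ioo (0 : ℝ) 1, ∀ b ∈ Icc (-1 : ℝ) 1, c y + p y * b ≤ A y b)
    {M : ℝ} (hM0 : 0 ≤ M) (hM : ∀ a ∈ Icc (-1 : ℝ) 1, ∀ b ∈ Icc (-1 : ℝ) 1, |A a b| ≤ M)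
    {η P : ℝ} (hη : 0 ≤ η) (hP0 : 0 ≤ P)
    (hP : ∀ y ∈ Icc β 1, ∀ b ∈ Icc (-1 : ℝ) 1, -η - P * (1 - b) ≤ A y b) :
    AdmGe m A r (2 * ((∫ y in α..β, (((m : ℝ) + 1) * c y + y * c' y + p' y) * r y ^ m) +
      (α * (c α + M) + p α) * r α ^ m - (β * (c β + η + P) + p β - P) * r β ^ m -
      ((m : ℝ) + 1) * M * (∫ y in (0 : ℝ)..α, r y ^ m) -
      ((m : ℝ) + 1) * (η + P) * ∫ y in β..1, r y ^ m)) := by
  intro ε0 hε0
  obtain ⟨h, hh, hh1, hh2, hv⟩ := cut_value (m := m) hr h0 hαβ h1 hc hc' hp hp' hM0 hη hP0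
    (ε := ε0 / 8) (by (clear * - hε0; positivity))
  have hβh : β + h < 1 := by linarith only [hh2, hh]
  have hαh : 0 < α - h := by linarith only [hh, hh1]
  obtain ⟨χL, χL', hL⟩ := exists_ramp (a := α - h) (b := α) (by linarith only [hh])
  obtain ⟨χR, χR', hR⟩ := exists_ramp (a := β) (b := β + h) (by linarith only [hh])
  have hval := hv χL χL' χR χR' hL hR
  have hCd := cutC_deriv hαh hβh hL hR (by linarith only [hαβ, hh]) (by linarith only [hαβ, hh]) hc hc' M (-(η + P))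
  have hPd := cutP_deriv hαh hβh hL hR (by linarith only [hαβ, hh]) (by linarith only [hαβ, hh]) hp hp' P
  have hnp := fun y (hy : y ≤ (0:ℝ)) => cut_nonpos hαh hL hR (by linarith only [hαβ, hh]) c c' p p' M (-(η + P)) P hy
  have hadm := fun a (ha : a ∈ Icc (0:ℝ) 1) z (hz : z ∈ Icc (-1 : ℝ) 1) =>
    cut_adm hαh hβh hL hR (by linarith only [hαβ, hh]) hαβ.le (by linarith only [hαβ, hh]) hle hM hP ha hz
  have hCcc : Continuous (cutC χL χR c M (-(η + P))) :=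
    continuous_iff_continuousAt.2 fun y => (hCd.1 y).continuousAt
  set Cf := cutC χL χR c M (-(η + P)) with hCf
  set Cf' := cutC' χL χR χL' χR' c c' M (-(η + P)) with hCf'
  set Pf := cutP χL χR p P with hPf
  set Pf' := cutP' χL χR χL' χR' p p' P with hPf'
  refine ⟨fun y => Cf y + Cf (-y) + M, fun y => Cf' y - Cf' (-y), fun y => Pf y - Pf (-y),
    fun y => Pf' y + Pf' (-y), ⟨?_, ?_, ?_, ?_, ?_⟩, ?_⟩
  · intro y
    have e := ((hCd.1 y).add ((hCd.1 (-y)).comp y (hasDerivAt_neg y))).add_const M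
    refine e.congr_deriv ?_
    ring
  · exact hCd.2.sub (hCd.2.comp continuous_neg)
  · intro y
    have e := (hPd.1 y).sub ((hPd.1 (-y)).comp y (hasDerivAt_neg y))
    refine e.congr_deriv ?_
    ring
  · exact hPd.2.add (hPd.2.comp continuous_neg)
  · intro a ha b hb
    rcases le_total 0 a with h2 | h2
    · have e := hnp (-a) (by linarith only [h2])
      have := hadm a ⟨h2, ha.2⟩ b hb
      rw [e.1, e.2.2.1]
      linarith only [this]
    · have e := hnp a h2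
      have := hadm (-a) ⟨by linarith only [h2], by linarith only [ha.1]⟩ (-b) ⟨by linarith only [hb.2], by linarith only [hb.1]⟩
      rw [hA.symm] at this
      rw [e.1, e.2.2.1]
      linarith only [this]
  -- the value
  set F : ℝ → ℝ := fun y => (((m : ℝ) + 1) * (Cf y + Cf (-y) + M) + y * (Cf' y - Cf' (-y)) +
    (Pf' y + Pf' (-y))) * r y ^ m with hF
  have hrii := Alm.prof_pow_ii hr m (⟨le_rfl, zero_le_one⟩ : (0 : ℝ) ∈ Icc (0 : ℝ) 1)
    (⟨zero_le_one, le_rfl⟩ : (1 : ℝ) ∈ Icc (0 : ℝ) 1)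
  have hFii : IntervalIntegrable F volume 0 1 := by
    refine hrii.continuousOn_mul ?_
    have i1 := hCcc.comp continuous_neg
    have i2 := hCd.2.comp continuous_neg
    have i3 := hPd.2.comp continuous_neg
    exact (((continuous_const.mul ((hCcc.add i1).add continuous_const)).add
      (continuous_id.mul (hCd.2.sub i2))).add (hPd.2.add i3)).continuousOn
  have hFe : ∀ y, F (-y) = F y := by
    intro y
    simp only [hF, neg_neg, hr.even]
    ring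
  rw [integral_even_eq hFe hFii]
  have hFQ : ∫ y in (0 : ℝ)..1, F y = ∫ y in (0 : ℝ)..1, (((m : ℝ) + 1) * Cf y + y * Cf' y +
      Pf' y) * r y ^ m := by
    refine intervalIntegral.integral_congr fun y hy => ?_
    rw [uIcc_of_le zero_le_one] at hy
    have e := hnp (-y) (by linarith only [hy.1])
    simp only [hF]
    rw [e.1, e.2.1, e.2.2.2]
    ring
  rw [hFQ]
  linarith only [hval]

end Vale.Agent.P237.AllN
end

section

/-!
# P237, all dimensions: assembly of a certificate (T7)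
-/

open MeasureTheory Metric Set Module Filter Topology

namespace Vale.Agent.P237.AllN

/-! ### elementary facts -/

theorem ass_sq_cont : Continuous sq := by
  unfold sq
  fun_prop

theorem ass_sq_nonneg (x : ℝ) : 0 ≤ sq x := Real.sqrt_nonneg _

theorem ass_sq_le_one (x : ℝ) : sq x ≤ 1 := by
  unfold sq
  rw [Real.sqrt_le_one]
  nlinarith only []

theorem ass_sq_one : sq 1 = 0 := by
  unfold sq
  norm_num

theorem ass_sq_pos {x : ℝ} (hx : x ∈ Ioo (0 : ℝ) 1) : 0 < sq x := by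
  unfold sq
  apply Real.sqrt_pos.2
  nlinarith only [hx.1, hx.2]

/-- Lower bound of an integral by a primitive, no exceptional point. -/
theorem ass_int_ge0 {G Ψ Ψ' : ℝ → ℝ} {a b w : ℝ} (hab : a ≤ b) (hG : ContinuousOn G (Icc a b))
    (hΨ : ContinuousOn Ψ (Icc a b)) (hd : ∀ x ∈ Ioo a b, HasDerivAt Ψ (Ψ' x) x)
    (hge : ∀ x ∈ Ioo a b, w + Ψ' x ≤ G x) :
    w * (b - a) + (Ψ b - Ψ a) ≤ ∫ x in a..b, G x := by
  have h := intervalIntegral.sub_le_integral_of_hasDeriv_right_of_le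
    (g := fun x => Ψ x + w * x) (g' := fun x => Ψ' x + w) (φ := G) hab
    (hΨ.add (by fun_prop)) (fun x hx => by
      have h1 := (hd x hx).add ((hasDerivAt_id x).const_mul w)
      simp only [mul_one] at h1
      exact h1.hasDerivWithinAt) hG.integrableOn_Icc
    (fun x hx => by have := hge x hx; linarith)
  linarith only [h]

/-- Lower bound of an integral by a primitive, one exceptional point. -/
theorem ass_int_ge {G Ψ Ψ' : ℝ → ℝ} {a b w x₀ : ℝ} (hab : a ≤ b)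
    (hG : ContinuousOn G (Icc a b)) (hΨ : ContinuousOn Ψ (Icc a b))
    (hd : ∀ x ∈ Ioo a b, x ≠ x₀ → HasDerivAt Ψ (Ψ' x) x)
    (hge : ∀ x ∈ Ioo a b, x ≠ x₀ → w + Ψ' x ≤ G x) :
    w * (b - a) + (Ψ b - Ψ a) ≤ ∫ x in a..b, G x := by
  by_cases hx : x₀ ∈ Ioo a b
  · have h1 := ass_int_ge0 (G := G) (Ψ := Ψ) (Ψ' := Ψ') (w := w) hx.1.le
      (hG.mono (Icc_subset_Icc le_rfl hx.2.le)) (hΨ.mono (Icc_subset_Icc le_rfl hx.2.le))
      (fun x h => hd x ⟨h.1, h.2.trans hx.2⟩ h.2.ne) (fun x h => hge x ⟨h.1, h.2.trans hx.2⟩ h.2.ne)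
    have h2 := ass_int_ge0 (G := G) (Ψ := Ψ) (Ψ' := Ψ') (w := w) hx.2.le
      (hG.mono (Icc_subset_Icc hx.1.le le_rfl)) (hΨ.mono (Icc_subset_Icc hx.1.le le_rfl))
      (fun x h => hd x ⟨hx.1.trans h.1, h.2⟩ h.1.ne') (fun x h => hge x ⟨hx.1.trans h.1, h.2⟩ h.1.ne')
    have h3 : ∫ x in a..b, G x = (∫ x in a..x₀, G x) + ∫ x in x₀..b, G x := by
      rw [intervalIntegral.integral_add_adjacent_intervals]
      · refine ContinuousOn.intervalIntegrable ?_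
        rw [uIcc_of_le hx.1.le]
        exact hG.mono (Icc_subset_Icc le_rfl hx.2.le)
      · refine ContinuousOn.intervalIntegrable ?_
        rw [uIcc_of_le hx.2.le]
        exact hG.mono (Icc_subset_Icc hx.1.le le_rfl)
    rw [h3]
    linarith
  · refine ass_int_ge0 hab hG hΨ (fun x h => hd x h ?_) (fun x h => hge x h ?_)
    · rintro rfl; exact hx h
    · rintro rfl; exact hx h

/-- Localisation of the strict gain. -/
theorem ass_gain {W : ℝ → ℝ} (h : ∃ x ∈ Ioo (0 : ℝ) 1, ContinuousAt W x ∧ 0 < W x) :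
    ∃ a b w : ℝ, 0 < a ∧ a < b ∧ b < 1 ∧ 0 < w ∧ ∀ x ∈ Icc a b, w ≤ W x := by
  obtain ⟨x, hx, hc, hW⟩ := h
  have h1 : ∀ᶠ y in 𝓝 x, W x / 2 < W y := hc.eventually_const_lt (by linarith only [hW])
  have h2 : ∀ᶠ y in 𝓝 x, y ∈ Ioo (0 : ℝ) 1 := isOpen_Ioo.mem_nhds hx
  obtain ⟨ε, hε, hb⟩ := Metric.eventually_nhds_iff.1 (h1.and h2)
  have e1 : ∀ y ∈ Icc x (x + ε / 2), dist y x < ε := by
    intro y hy
    rw [Real.dist_eq, abs_lt]
    constructor
    · linarith [hy.1]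
    · linarith only [hε, hy.2]
  refine ⟨x, x + ε / 2, W x / 2, hx.1, by linarith, ?_, by linarith,
    fun y hy => (hb (e1 y hy)).1.le⟩
  exact (hb (e1 (x + ε / 2) ⟨by linarith, le_rfl⟩)).2.2

/-- Integral of a power of the profile over a short interval. -/
theorem ass_short {m : ℕ} {r : ℝ → ℝ} (hr : IsProf r) {a b : ℝ} (ha : 0 ≤ a) (hab : a ≤ b)
    (hb : b ≤ 1) : 0 ≤ ∫ y in a..b, r y ^ m ∧ ∫ y in a..b, r y ^ m ≤ (b - a) * r 0 ^ m := by
  have hmem : ∀ y ∈ Icc a b, y ∈ Icc (0 : ℝ) 1 := fun y hy => ⟨ha.trans hy.1, hy.2.trans hb⟩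
  constructor
  · apply intervalIntegral.integral_nonneg hab
    intro y hy
    exact pow_nonneg (Alm.prof_nn hr (hmem y hy)) m
  · have h1 := intervalIntegral.integral_mono_on hab
      (Alm.prof_pow_ii hr m (hmem a ⟨le_rfl, hab⟩) (hmem b ⟨hab, le_rfl⟩))
      (intervalIntegrable_const (c := r 0 ^ m))
      (fun y hy => pow_le_pow_left₀ (Alm.prof_nn hr (hmem y hy))
        (Alm.prof_le_zero hr (hmem y hy)) m)
    refine h1.trans (le_of_eq ?_)
    rw [intervalIntegral.integral_const, smul_eq_mul]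

theorem ass_Zr_pos {m : ℕ} {r : ℝ → ℝ} (hr : IsProf r) : 0 < ∫ t in (0 : ℝ)..1, r t ^ m := by
  apply intervalIntegral.intervalIntegral_pos_of_pos_on
    (Alm.prof_pow_ii hr m ⟨le_rfl, zero_le_one⟩ ⟨zero_le_one, le_rfl⟩) _ zero_lt_one
  intro x hx
  exact pow_pos (hr.pos x ⟨by linarith [hx.1], hx.2⟩) m

theorem ass_Zm_pos (m : ℕ) : 0 < ∫ t in (0 : ℝ)..1, sq t ^ m := by
  have hI : IntervalIntegrable (fun t => sq t ^ m) volume 0 1 :=
    (ass_sq_cont.pow m).intervalIntegrable _ _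
  apply intervalIntegral.intervalIntegral_pos_of_pos_on hI _ zero_lt_one
  intro x hx
  exact pow_pos (ass_sq_pos hx) m

theorem ass_sq_int {m : ℕ} {a b : ℝ} (hab : a ≤ b) : ∫ x in a..b, sq x ^ m ≤ b - a := by
  have hI : IntervalIntegrable (fun x => sq x ^ m) volume a b :=
    (ass_sq_cont.pow m).intervalIntegrable _ _
  have h1 := intervalIntegral.integral_mono_on hab hI
    (intervalIntegrable_const (c := (1 : ℝ)))
    (fun x _ => pow_le_one₀ (ass_sq_nonneg x) (ass_sq_le_one x))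
  refine h1.trans (le_of_eq ?_)
  rw [intervalIntegral.integral_const, smul_eq_mul, mul_one]

theorem AdmGe.le {m : ℕ} {A : ℝ → ℝ → ℝ} {r : ℝ → ℝ} {v w : ℝ} (h : AdmGe m A r v)
    (hwv : w ≤ v) : AdmGe m A r w := by
  intro ε hε
  obtain ⟨c, c', p, p', h1, h2⟩ := h ε hε
  exact ⟨c, c', p, p', h1, by linarith⟩

/-- The constraint on a subinterval. -/
theorem ass_constraint {m : ℕ} (hm : 3 ≤ m) {r τ τ' T : ℝ → ℝ} (hr : IsProf r)
    (h : IsTrans m r τ τ' T)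
    (hN : (∫ y in (-1 : ℝ)..1, r y ^ (m - 1)) ^ m * aInt m ^ (m - 1) ≤
      aInt (m - 1) ^ m * (∫ y in (-1 : ℝ)..1, r y ^ m) ^ (m - 1)) {α β : ℝ} (h0 : 0 < α)
    (hαβ : α ≤ β) (h1 : β < 1) :
    ∫ x in α..β, (sq x ^ (m - 1) * τ' x ^ (1 / (m : ℝ)) - sq x ^ (m - 1)) ≤ α + (1 - β) := by
  obtain ⟨hi, hle⟩ := h.constraint (by omega) hr hN
  have hS : ∀ a b : ℝ, IntervalIntegrable (fun x => sq x ^ (m - 1)) volume a b := fun a b =>
    (ass_sq_cont.pow (m - 1)).intervalIntegrable a b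
  have hK : IntervalIntegrable (fun x => sq x ^ (m - 1) * τ' x ^ (1 / (m : ℝ))) volume α β := by
    refine hi.mono_set ?_
    rw [uIcc_of_le hαβ, uIcc_of_le zero_le_one]
    exact Icc_subset_Icc h0.le h1.le
  rw [intervalIntegral.integral_sub hK (hS α β)]
  have k1 : ∫ x in α..β, sq x ^ (m - 1) * τ' x ^ (1 / (m : ℝ)) ≤
      ∫ x in (0 : ℝ)..1, sq x ^ (m - 1) * τ' x ^ (1 / (m : ℝ)) := by
    refine intervalIntegral.integral_mono_interval h0.le hαβ h1.le ?_ hi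
    rw [Filter.EventuallyLE, ae_restrict_iff' measurableSet_Ioc]
    refine Eventually.of_forall fun x hx => ?_
    rcases eq_or_lt_of_le hx.2 with e | e
    · subst e
      simp only [ass_sq_one, Pi.zero_apply]
      rw [zero_pow (by omega), zero_mul]
    · have hp := h.pos x ⟨hx.1, e⟩
      exact mul_nonneg (pow_nonneg (ass_sq_nonneg x) _) (Real.rpow_nonneg hp.le _)
  have k2 : ∫ x in (0 : ℝ)..1, sq x ^ (m - 1) = (∫ x in (0 : ℝ)..α, sq x ^ (m - 1)) +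
      (∫ x in α..β, sq x ^ (m - 1)) + ∫ x in β..1, sq x ^ (m - 1) := by
    rw [intervalIntegral.integral_add_adjacent_intervals (hS _ _) (hS _ _),
      intervalIntegral.integral_add_adjacent_intervals (hS _ _) (hS _ _)]
  have k3 := ass_sq_int (m := m - 1) h0.le
  have k4 := ass_sq_int (m := m - 1) h1.le
  linarith only [k4, k3, k2, k1, hle]

/-- The transport tends to `0` at `0`. -/
theorem ass_tau_zero {m : ℕ} (hm : 1 ≤ m) {r τ τ' T : ℝ → ℝ} (hr : IsProf r)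
    (h : IsTrans m r τ τ' T) : Tendsto τ (𝓝[>] 0) (𝓝 0) := by
  obtain ⟨C, hC, hb⟩ := h.near_zero hm hr
  have h1 : Tendsto (fun x : ℝ => C * x) (𝓝[>] 0) (𝓝 0) := by
    have h2 : Tendsto (fun x : ℝ => C * x) (𝓝 0) (𝓝 (C * 0)) :=
      (continuous_const.mul continuous_id).tendsto 0
    rw [mul_zero] at h2
    exact h2.mono_left nhdsWithin_le_nhds
  have h3 : ∀ᶠ x in 𝓝[>] (0 : ℝ), x ∈ Ioo (0 : ℝ) 1 := Ioo_mem_nhdsGT one_pos
  refine squeeze_zero' ?_ ?_ h1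
  · filter_upwards [h3] with x hx
    exact (h.mem x hx).1.le
  · filter_upwards [h3] with x hx
    exact (hb x hx).2

/-- The transport tends to `1` at `1`. -/
theorem ass_tau_one {m : ℕ} (hm : 1 ≤ m) {r τ τ' T : ℝ → ℝ} (hr : IsProf r)
    (h : IsTrans m r τ τ' T) : Tendsto (fun x => 1 - τ x) (𝓝[<] 1) (𝓝 0) := by
  obtain ⟨C, hC, hb⟩ := h.near_one hm hr
  have h3 : ∀ᶠ x in 𝓝[<] (1 : ℝ), x ∈ Ioo (0 : ℝ) 1 := Ioo_mem_nhdsLT one_pos
  have h1 : Tendsto (fun x : ℝ => C * sq x ^ (m + 2)) (𝓝[<] 1) (𝓝 0) := by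
    have h2 : Tendsto (fun x : ℝ => C * sq x ^ (m + 2)) (𝓝 1) (𝓝 (C * sq 1 ^ (m + 2))) :=
      (continuous_const.mul (ass_sq_cont.pow (m + 2))).tendsto 1
    rw [ass_sq_one, zero_pow (by omega), mul_zero] at h2
    exact h2.mono_left nhdsWithin_le_nhds
  have h4 : Tendsto (fun x : ℝ => (1 - τ x) ^ (m + 1)) (𝓝[<] 1) (𝓝 0) := by
    refine squeeze_zero' ?_ ?_ h1
    · filter_upwards [h3] with x hx
      have := (h.mem x hx).2
      exact pow_nonneg (by linarith only [this]) _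
    · filter_upwards [h3] with x hx
      exact (hb x hx).2
  have h5 : Tendsto (fun x : ℝ => ((1 - τ x) ^ (m + 1)) ^ (((m + 1 : ℕ) : ℝ)⁻¹)) (𝓝[<] 1)
      (𝓝 ((0 : ℝ) ^ (((m + 1 : ℕ) : ℝ)⁻¹))) :=
    ((Real.continuousAt_rpow_const 0 _ (Or.inr (by positivity))).tendsto).comp h4
  rw [Real.zero_rpow (by positivity)] at h5
  refine h5.congr' ?_
  filter_upwards [h3] with x hx
  have := (h.mem x hx).2
  exact Real.pow_rpow_inv_natCast (by linarith only [this]) (by omega)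

section

variable {m : ℕ} {r τ τ' T : ℝ → ℝ} {c c' p p' : ℝ → ℝ}

theorem ass_E_cont (hT : IsTrans m r τ τ' T)
    (hc : ∀ x ∈ Ioo (0 : ℝ) 1, HasDerivAt c (c' x) x) (hc' : ContinuousOn c' (Ioo 0 1))
    (hp' : ContinuousOn p' (Ioo 0 1)) :
    ContinuousOn (fun x => ((m : ℝ) + 1) * c x + (τ x * c' x + p' x) / τ' x) (Ioo 0 1) := by
  have h1 : ContinuousOn c (Ioo 0 1) := fun x hx => (hc x hx).continuousAt.continuousWithinAt
  have h2 : ContinuousOn τ (Ioo 0 1) := fun x hx => (hT.der x hx).continuousAt.continuousWithinAt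
  exact (continuousOn_const.mul h1).add (((h2.mul hc').add hp').div hT.cont
    fun x hx => (hT.pos x hx).ne')

theorem ass_K_cont (hT : IsTrans m r τ τ' T) :
    ContinuousOn (fun x => sq x ^ (m - 1) * τ' x ^ (1 / (m : ℝ)) - sq x ^ (m - 1)) (Ioo 0 1) := by
  have h1 : ContinuousOn (fun x => sq x ^ (m - 1)) (Ioo 0 1) :=
    (ass_sq_cont.pow (m - 1)).continuousOn
  exact (h1.mul (hT.cont.rpow_const fun x hx => Or.inl (hT.pos x hx).ne')).sub h1

/-- The lower bound of the integral over `(α, β)`. -/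
theorem ass_lower (hm : 3 ≤ m) (hr : IsProf r) (hT : IsTrans m r τ τ' T)
    (hN : (∫ y in (-1 : ℝ)..1, r y ^ (m - 1)) ^ m * aInt m ^ (m - 1) ≤
      aInt (m - 1) ^ m * (∫ y in (-1 : ℝ)..1, r y ^ m) ^ (m - 1))
    (hc : ∀ x ∈ Ioo (0 : ℝ) 1, HasDerivAt c (c' x) x) (hc' : ContinuousOn c' (Ioo 0 1))
    (hp' : ContinuousOn p' (Ioo 0 1))
    {μ : ℝ} (hμ : 0 ≤ μ) {x₀ : ℝ} {W Ψ Ψ' : ℝ → ℝ}
    (hΨ : ContinuousOn Ψ (Ioo 0 1)) (hΨd : ∀ x ∈ Ioo (0 : ℝ) 1, x ≠ x₀ → HasDerivAt Ψ (Ψ' x) x)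
    (hW : ∀ x ∈ Ioo (0 : ℝ) 1, x ≠ x₀ → 0 ≤ W x)
    (hid : ∀ x ∈ Ioo (0 : ℝ) 1, x ≠ x₀ →
      W x + Ψ' x ≤ (((m : ℝ) + 1) * c x + (τ x * c' x + p' x) / τ' x) * sq x ^ m +
        μ * (sq x ^ (m - 1) * τ' x ^ (1 / (m : ℝ)) - sq x ^ (m - 1)))
    {a b w : ℝ} (hab : a < b) (hw : ∀ x ∈ Icc a b, w ≤ W x)
    {α β : ℝ} (h0 : 0 < α) (hαa : α ≤ a) (hbβ : b ≤ β) (h1 : β < 1) :
    w * (b - a) + (Ψ β - Ψ α) - μ * (α + (1 - β)) ≤
      ∫ x in α..β, (((m : ℝ) + 1) * c x + (τ x * c' x + p' x) / τ' x) * sq x ^ m := by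
  have hαβ : α ≤ β := hαa.trans (hab.le.trans hbβ)
  have hsub : ∀ {u v : ℝ}, α ≤ u → v ≤ β → Icc u v ⊆ Ioo (0 : ℝ) 1 := fun hu hv x hx =>
    ⟨h0.trans_le (hu.trans hx.1), (hx.2.trans hv).trans_lt h1⟩
  have hE := ass_E_cont hT hc hc' hp'
  have hK := ass_K_cont hT
  have hEs : ContinuousOn (fun x => (((m : ℝ) + 1) * c x + (τ x * c' x + p' x) / τ' x) *
      sq x ^ m) (Ioo 0 1) := hE.mul (ass_sq_cont.pow m).continuousOn
  have hG : ContinuousOn (fun x => (((m : ℝ) + 1) * c x + (τ x * c' x + p' x) / τ' x) * sq x ^ m +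
        μ * (sq x ^ (m - 1) * τ' x ^ (1 / (m : ℝ)) - sq x ^ (m - 1))) (Ioo 0 1) :=
    hEs.add (continuousOn_const.mul hK)
  set G : ℝ → ℝ := fun x => (((m : ℝ) + 1) * c x + (τ x * c' x + p' x) / τ' x) * sq x ^ m +
        μ * (sq x ^ (m - 1) * τ' x ^ (1 / (m : ℝ)) - sq x ^ (m - 1)) with hGd
  have hGi : ∀ {u v : ℝ}, α ≤ u → u ≤ v → v ≤ β → IntervalIntegrable G volume u v := by
    intro u v hu huv hv
    refine ContinuousOn.intervalIntegrable ?_
    rw [uIcc_of_le huv]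
    exact hG.mono (hsub hu hv)
  have piece : ∀ {u v q : ℝ}, α ≤ u → u ≤ v → v ≤ β →
      (∀ x ∈ Ioo u v, x ≠ x₀ → q ≤ W x) → q * (v - u) + (Ψ v - Ψ u) ≤ ∫ x in u..v, G x := by
    intro u v q hu huv hv hq
    refine ass_int_ge (x₀ := x₀) (Ψ' := Ψ') huv (hG.mono (hsub hu hv)) (hΨ.mono (hsub hu hv)) ?_ ?_
    · intro x hx hx0
      exact hΨd x (hsub hu hv ⟨hx.1.le, hx.2.le⟩) hx0
    · intro x hx hx0
      have h2 := hid x (hsub hu hv ⟨hx.1.le, hx.2.le⟩) hx0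
      have h3 := hq x hx hx0
      simp only [hGd]
      linarith only [h2, h3]
  have p1 := piece (q := 0) le_rfl hαa (hab.le.trans hbβ)
    (fun x hx hx0 => hW x (hsub le_rfl (hab.le.trans hbβ) ⟨hx.1.le, hx.2.le⟩) hx0)
  have p2 := piece (q := w) hαa hab.le hbβ (fun x hx _ => hw x ⟨hx.1.le, hx.2.le⟩)
  have p3 := piece (q := 0) (hαa.trans hab.le) hbβ le_rfl
    (fun x hx hx0 => hW x (hsub (hαa.trans hab.le) le_rfl ⟨hx.1.le, hx.2.le⟩) hx0)
  have hadd : ∫ x in α..β, G x = (∫ x in α..a, G x) + (∫ x in a..b, G x) + ∫ x in b..β, G x := by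
    rw [intervalIntegral.integral_add_adjacent_intervals (hGi le_rfl hαa (hab.le.trans hbβ))
      (hGi hαa hab.le hbβ), intervalIntegral.integral_add_adjacent_intervals
      (hGi le_rfl (hαa.trans hab.le) hbβ) (hGi (hαa.trans hab.le) hbβ le_rfl)]
  have hi1 : IntervalIntegrable (fun x => (((m : ℝ) + 1) * c x + (τ x * c' x + p' x) / τ' x) *
      sq x ^ m) volume α β := by
    refine ContinuousOn.intervalIntegrable ?_
    rw [uIcc_of_le hαβ]
    exact hEs.mono (hsub le_rfl le_rfl)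
  have hi2 : IntervalIntegrable (fun x => sq x ^ (m - 1) * τ' x ^ (1 / (m : ℝ)) -
      sq x ^ (m - 1)) volume α β := by
    refine ContinuousOn.intervalIntegrable ?_
    rw [uIcc_of_le hαβ]
    exact hK.mono (hsub le_rfl le_rfl)
  have hsplit : ∫ x in α..β, G x =
      (∫ x in α..β, (((m : ℝ) + 1) * c x + (τ x * c' x + p' x) / τ' x) * sq x ^ m) +
      μ * ∫ x in α..β, (sq x ^ (m - 1) * τ' x ^ (1 / (m : ℝ)) - sq x ^ (m - 1)) := by
    rw [← intervalIntegral.integral_const_mul, ← intervalIntegral.integral_add hi1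
      (hi2.const_mul μ)]
  have hcon := mul_le_mul_of_nonneg_left (ass_constraint hm hr hT hN h0 hαβ h1) hμ
  rw [hsplit] at hadd
  linarith only [hcon, hadd, p3, p2, p1]

end

/-- The boundary term at `β`. -/
theorem ass_bdry {t cb pb η P κ R ρ C1 S : ℝ} (ht : t ≤ 1) (hη0 : 0 ≤ η) (hP0 : 0 ≤ P)
    (hηR : η * R = κ) (hρ0 : 0 ≤ ρ) (hρR : ρ ≤ R) (h1 : cb + pb ≤ η) (hC1 : 0 ≤ C1) (hS : 0 ≤ S)
    (hone : (1 - t) * ρ ≤ C1 * S) (B3 : |C1 * (S * cb)| < κ) :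
    (t * (cb + η + P) + pb - P) * ρ ≤ 2 * κ + κ := by
  have h2 : t * (cb + η + P) + pb - P ≤ 2 * η + (1 - t) * |cb| := by
    have h3 : -(1 - t) * cb ≤ (1 - t) * |cb| := by
      have := mul_le_mul_of_nonneg_left (neg_le_abs cb) (by linarith only [ht] : 0 ≤ 1 - t)
      linarith only [this]
    have h4 : t * η ≤ η := mul_le_of_le_one_left hη0 ht
    have h5 : 0 ≤ (1 - t) * P := mul_nonneg (by linarith) hP0
    have e : t * (cb + η + P) + pb - P = (cb + pb) + -(1 - t) * cb + t * η - (1 - t) * P := by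
      ring
    rw [e]
    linarith only [h1, h3, h4, h5]
  have h3 := mul_le_mul_of_nonneg_right h2 hρ0
  have h4 : 2 * η * ρ ≤ 2 * κ := by
    have := mul_le_mul_of_nonneg_left hρR (by positivity : 0 ≤ 2 * η)
    linarith only [hηR, this]
  have h5 : (1 - t) * |cb| * ρ ≤ κ := by
    have h6 := mul_le_mul_of_nonneg_right hone (abs_nonneg cb)
    have h7 : C1 * S * |cb| = |C1 * (S * cb)| := by
      rw [abs_mul, abs_mul, abs_of_nonneg hC1, abs_of_nonneg hS]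
      ring
    rw [h7] at h6
    linarith only [B3, h6]
  linarith only [h3, h4, h5]

theorem ass_small {f : ℝ → ℝ} {l : Filter ℝ} (hf : Tendsto f l (𝓝 0)) {K : ℝ} (hK : 0 < K) :
    ∀ᶠ x in l, |f x| < K := by
  have := (Metric.tendsto_nhds.1 hf) K hK
  filter_upwards [this] with x hx
  rwa [Real.dist_eq, sub_zero] at hx

/-- The choice of `α`. -/
theorem ass_choose_zero {m : ℕ} (hm1 : 1 ≤ m) {r : ℝ → ℝ} (hr : IsProf r) {τ τ' T : ℝ → ℝ}
    (hT : IsTrans m r τ τ' T) {c p : ℝ → ℝ}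
    (hc0 : ∃ C : ℝ, ∀ x ∈ Ioo (0 : ℝ) (1/2), |c x| ≤ C)
    (hp0 : Tendsto p (𝓝[>] 0) (𝓝 0)) {Ψ : ℝ → ℝ} (hΨ0 : Tendsto Ψ (𝓝[>] 0) (𝓝 0))
    (q μ R K : ℝ) {M a1 κ : ℝ} (hM0 : 0 ≤ M) (ha1 : 0 < a1) (hκ0 : 0 < κ) :
    ∃ α : ℝ, 0 < α ∧ α < a1 ∧ |q * Ψ α| < κ ∧
      |q * μ * α| < κ ∧ |(τ α * (c α + M) + p α) * R| < κ ∧ |K * τ α| < κ := by
  obtain ⟨C0, hC0⟩ := hc0
  have hτ0 := ass_tau_zero hm1 hr hT
  have hx0 : Tendsto (fun x : ℝ => x) (𝓝[>] 0) (𝓝 0) := tendsto_id.mono_left nhdsWithin_le_nhds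
  have hI0 : ∀ᶠ x in 𝓝[>] (0 : ℝ), x ∈ Ioo (0 : ℝ) (min a1 (1 / 2)) :=
    Ioo_mem_nhdsGT (lt_min ha1 (by norm_num))
  have h1 : Tendsto (fun x => τ x * (c x + M)) (𝓝[>] 0) (𝓝 0) := by
    have h2 : Tendsto (fun x => τ x * (C0 + M)) (𝓝[>] 0) (𝓝 0) := by
      have := hτ0.mul_const (C0 + M)
      rwa [zero_mul] at this
    refine squeeze_zero_norm' ?_ h2
    filter_upwards [hI0] with x hx
    have hx2 : x ∈ Ioo (0 : ℝ) (1 / 2) := ⟨hx.1, hx.2.trans_le (min_le_right _ _)⟩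
    have hx1 : x ∈ Ioo (0 : ℝ) 1 := ⟨hx.1, hx2.2.trans (by norm_num)⟩
    rw [Real.norm_eq_abs, abs_mul, abs_of_nonneg (hT.mem x hx1).1.le]
    refine mul_le_mul_of_nonneg_left ?_ (hT.mem x hx1).1.le
    refine (abs_add_le _ _).trans ?_
    rw [abs_of_nonneg hM0]
    linarith only [hC0 x hx2]
  have hB0 : Tendsto (fun x => τ x * (c x + M) + p x) (𝓝[>] 0) (𝓝 0) := by
    have := h1.add hp0
    rwa [add_zero] at this
  have t1 : Tendsto (fun x => q * Ψ x) (𝓝[>] 0) (𝓝 0) := by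
    have := hΨ0.const_mul q
    rwa [mul_zero] at this
  have t2 : Tendsto (fun x => q * μ * x) (𝓝[>] 0) (𝓝 0) := by
    have := hx0.const_mul (q * μ)
    rwa [mul_zero] at this
  have t3 : Tendsto (fun x => (τ x * (c x + M) + p x) * R) (𝓝[>] 0) (𝓝 0) := by
    have := hB0.mul_const R
    rwa [zero_mul] at this
  have t4 : Tendsto (fun x => K * τ x) (𝓝[>] 0) (𝓝 0) := by
    have := hτ0.const_mul K
    rwa [mul_zero] at this
  obtain ⟨α, h1, h2, h3, h4, h5⟩ := (hI0.and ((ass_small t1 hκ0).and ((ass_small t2 hκ0).and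
    ((ass_small t3 hκ0).and (ass_small t4 hκ0))))).exists
  exact ⟨α, h1.1, h1.2.trans_le (min_le_left _ _), h2, h3, h4, h5⟩

/-- The choice of `β`. -/
theorem ass_choose_one {m : ℕ} (hm1 : 1 ≤ m) {r : ℝ → ℝ} (hr : IsProf r) {τ τ' T : ℝ → ℝ}
    (hT : IsTrans m r τ τ' T) {c : ℝ → ℝ}
    (hc1 : Tendsto (fun x => sq x ^ (m + 2) * c x) (𝓝[<] 1) (𝓝 0))
    {Ψ : ℝ → ℝ} (hΨ1 : Tendsto Ψ (𝓝[<] 1) (𝓝 0))
    (q μ C1 K : ℝ) {b1 κ δ1 δ2 : ℝ} (hb1 : b1 < 1) (hκ0 : 0 < κ) (hδ1 : 0 < δ1) (hδ2 : 0 < δ2) :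
    ∃ β : ℝ, b1 < β ∧ β < 1 ∧ |q * Ψ β| < κ ∧ |q * μ * (1 - β)| < κ ∧
      |C1 * (sq β ^ (m + 2) * c β)| < κ ∧ |K * (1 - τ β)| < κ ∧
      |1 - τ β| < δ1 ∧ |1 - τ β| < δ2 := by
  have hτ1 := ass_tau_one hm1 hr hT
  have hx1 : Tendsto (fun x : ℝ => 1 - x) (𝓝[<] 1) (𝓝 0) := by
    have h2 : Tendsto (fun x : ℝ => 1 - x) (𝓝 1) (𝓝 (1 - 1)) :=
      (continuous_const.sub continuous_id).tendsto 1
    rw [sub_self] at h2
    exact h2.mono_left nhdsWithin_le_nhds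
  have hI1 : ∀ᶠ x in 𝓝[<] (1 : ℝ), x ∈ Ioo b1 1 := Ioo_mem_nhdsLT hb1
  have t1 : Tendsto (fun x => q * Ψ x) (𝓝[<] 1) (𝓝 0) := by
    have := hΨ1.const_mul q
    rwa [mul_zero] at this
  have t2 : Tendsto (fun x => q * μ * (1 - x)) (𝓝[<] 1) (𝓝 0) := by
    have := hx1.const_mul (q * μ)
    rwa [mul_zero] at this
  have t3 : Tendsto (fun x => C1 * (sq x ^ (m + 2) * c x)) (𝓝[<] 1) (𝓝 0) := by
    have := hc1.const_mul C1
    rwa [mul_zero] at this
  have t4 : Tendsto (fun x => K * (1 - τ x)) (𝓝[<] 1) (𝓝 0) := by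
    have := hτ1.const_mul K
    rwa [mul_zero] at this
  obtain ⟨β, h1, h2, h3, h4, h5, h6, h7⟩ := (hI1.and ((ass_small t1 hκ0).and
    ((ass_small t2 hκ0).and ((ass_small t3 hκ0).and ((ass_small t4 hκ0).and
    ((ass_small hτ1 hδ1).and (ass_small hτ1 hδ2))))))).exists
  exact ⟨β, h1.1, h1.2, h2, h3, h4, h5, h6, h7⟩

/-- **Certificates.** -/
theorem admGe_of_cert {m : ℕ} (hm : 3 ≤ m) {A : ℝ → ℝ → ℝ} (hA : Kern2 A) {r : ℝ → ℝ}
    (hr : IsProf r) {τ τ' T : ℝ → ℝ} (hT : IsTrans m r τ τ' T)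
    (hN : (∫ y in (-1 : ℝ)..1, r y ^ (m - 1)) ^ m * aInt m ^ (m - 1) ≤
      aInt (m - 1) ^ m * (∫ y in (-1 : ℝ)..1, r y ^ m) ^ (m - 1))
    {c c' p p' : ℝ → ℝ}
    (hc : ∀ x ∈ Ioo (0 : ℝ) 1, HasDerivAt c (c' x) x) (hc' : ContinuousOn c' (Ioo 0 1))
    (hp : ∀ x ∈ Ioo (0 : ℝ) 1, HasDerivAt p (p' x) x) (hp' : ContinuousOn p' (Ioo 0 1))
    (hle : ∀ x ∈ Ioo (0 : ℝ) 1, ∀ b ∈ Icc (-1 : ℝ) 1, c x + p x * b ≤ A (τ x) b)
    (hc0 : ∃ C : ℝ, ∀ x ∈ Ioo (0 : ℝ) (1/2), |c x| ≤ C)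
    (hp0 : Tendsto p (𝓝[>] 0) (𝓝 0))
    (hc1 : Tendsto (fun x => sq x ^ (m + 2) * c x) (𝓝[<] 1) (𝓝 0))
    {μ : ℝ} (hμ : 0 ≤ μ) {x₀ : ℝ} {W Ψ Ψ' : ℝ → ℝ}
    (hΨ : ContinuousOn Ψ (Ioo 0 1)) (hΨd : ∀ x ∈ Ioo (0 : ℝ) 1, x ≠ x₀ → HasDerivAt Ψ (Ψ' x) x)
    (hΨ0 : Tendsto Ψ (𝓝[>] 0) (𝓝 0)) (hΨ1 : Tendsto Ψ (𝓝[<] 1) (𝓝 0))
    (hW : ∀ x ∈ Ioo (0 : ℝ) 1, x ≠ x₀ → 0 ≤ W x)
    (hW1 : ∃ x ∈ Ioo (0 : ℝ) 1, ContinuousAt W x ∧ 0 < W x)
    (hid : ∀ x ∈ Ioo (0 : ℝ) 1, x ≠ x₀ →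
      W x + Ψ' x ≤ (((m : ℝ) + 1) * c x + (τ x * c' x + p' x) / τ' x) * sq x ^ m +
        μ * (sq x ^ (m - 1) * τ' x ^ (1 / (m : ℝ)) - sq x ^ (m - 1))) :
    ∃ v : ℝ, 0 < v ∧ AdmGe m A r v := by
  have hm1 : 1 ≤ m := by omega
  obtain ⟨a1, b1, w1, ha1, hab1, hb1, hw1, hWw⟩ := ass_gain hW1
  obtain ⟨M, hM⟩ := hA.bdd
  have hM0 : 0 ≤ M := (abs_nonneg _).trans (hM 0 ⟨by norm_num, by norm_num⟩ 0
    ⟨by norm_num, by norm_num⟩)
  obtain ⟨C1, hC1, hone⟩ := hT.near_one hm1 hr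
  have hZr := ass_Zr_pos (m := m) hr
  have hZm := ass_Zm_pos m
  set Zr := ∫ t in (0 : ℝ)..1, r t ^ m with hZrd
  set Zm := ∫ t in (0 : ℝ)..1, sq t ^ m with hZmd
  set q := Zr / Zm with hq
  have hq0 : 0 < q := by (clear * - hZr hZm; positivity)
  set R := r 0 ^ m with hR
  have hR0 : 0 < R := pow_pos (hr.pos 0 ⟨by norm_num, by norm_num⟩) m
  set w := q * (w1 * (b1 - a1)) with hwd
  have hw0 : 0 < w := by
    have : 0 < b1 - a1 := by linarith only [hab1]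
    (clear * - hZr hZm hw1 hab1; (clear * - hZr hZm hw1 hab1; positivity))
  set κ := w / 16 with hκ
  have hκ0 : 0 < κ := by (clear * - hZr hZm hw1 hab1; positivity)
  set η := w / (16 * R) with hη
  have hη0 : 0 < η := by (clear * - hZr hZm hw1 hab1 hR0; positivity)
  have hηR : η * R = κ := by rw [hη, hκ]; (clear * - hR0 hw0; field_simp)
  obtain ⟨P, hP0, δ1, hδ1, hδ1', hPb⟩ := hA.end_pair hη0
  obtain ⟨δ2, hδ2, hcor⟩ := hA.corner η hη0
  have hm1' : (0 : ℝ) < (m : ℝ) + 1 := by positivity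
  obtain ⟨α, hα0, hαa, A1, A2, A3, A4⟩ := ass_choose_zero hm1 hr hT hc0 hp0 hΨ0 q μ R
    (((m : ℝ) + 1) * M * R) hM0 ha1 hκ0
  obtain ⟨β, hβb, hβ1, B1, B2, B3, B4, B5, B6⟩ := ass_choose_one hm1 hr hT hc1 hΨ1 q μ C1
    (((m : ℝ) + 1) * (η + P) * R) hb1 hκ0 hδ1 hδ2
  -- facts about `α`, `β`
  have hα01 : α ∈ Ioo (0 : ℝ) 1 := ⟨hα0, hαa.trans (hab1.trans hb1)⟩
  have hβ01 : β ∈ Ioo (0 : ℝ) 1 := ⟨(ha1.trans hab1).trans hβb, hβ1⟩
  have hαβ : α < β := hαa.trans (hab1.trans hβb)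
  have hτα := hT.mem α hα01
  have hτβ := hT.mem β hβ01
  have hτlt : τ α < τ β := hT.mono hα01 hβ01 hαβ
  have hTα := hT.left α hα01
  have hTβ := hT.left β hβ01
  -- the cut
  have hTcont : ContinuousOn T (Ioo 0 1) := fun y hy =>
    (hT.Tder y hy).continuousAt.continuousWithinAt
  have hinv : ContinuousOn (fun y => (τ' (T y))⁻¹) (Ioo 0 1) :=
    (hT.cont.comp hTcont fun y hy => hT.Tmem y hy).inv₀ fun y hy => (hT.pos _ (hT.Tmem y hy)).ne'
  have dcy : ∀ y ∈ Ioo (0 : ℝ) 1, HasDerivAt (fun y => c (T y)) (c' (T y) * (τ' (T y))⁻¹) y :=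
    fun y hy => (hc _ (hT.Tmem y hy)).comp y (hT.Tder y hy)
  have dpy : ∀ y ∈ Ioo (0 : ℝ) 1, HasDerivAt (fun y => p (T y)) (p' (T y) * (τ' (T y))⁻¹) y :=
    fun y hy => (hp _ (hT.Tmem y hy)).comp y (hT.Tder y hy)
  have ccy : ContinuousOn (fun y => c' (T y) * (τ' (T y))⁻¹) (Ioo 0 1) :=
    (hc'.comp hTcont fun y hy => hT.Tmem y hy).mul hinv
  have cpy : ContinuousOn (fun y => p' (T y) * (τ' (T y))⁻¹) (Ioo 0 1) :=
    (hp'.comp hTcont fun y hy => hT.Tmem y hy).mul hinv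
  have hley : ∀ y ∈ Ioo (0 : ℝ) 1, ∀ b ∈ Icc (-1 : ℝ) 1, c (T y) + p (T y) * b ≤ A y b := by
    intro y hy b hb
    have := hle (T y) (hT.Tmem y hy) b hb
    rwa [hT.right y hy] at this
  have hPy : ∀ y ∈ Icc (τ β) 1, ∀ b ∈ Icc (-1 : ℝ) 1, -η - P * (1 - b) ≤ A y b := by
    intro y hy b hb
    refine hPb y ⟨?_, hy.2⟩ b hb
    have := (abs_lt.1 B5).2
    linarith only [this, hy.1]
  have hcut := admGe_cut (m := m) hA hr (c := fun y => c (T y))
    (c' := fun y => c' (T y) * (τ' (T y))⁻¹) (p := fun y => p (T y))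
    (p' := fun y => p' (T y) * (τ' (T y))⁻¹) hτα.1 hτlt hτβ.2 dcy ccy dpy cpy hley hM0 hM
    hη0.le hP0 hPy
  refine ⟨_, ?_, hcut⟩
  -- change of variables
  have hcov := hT.integral hm1 hr (F := fun y => ((m : ℝ) + 1) * c (T y) +
    y * (c' (T y) * (τ' (T y))⁻¹) + p' (T y) * (τ' (T y))⁻¹) (by
      refine ((continuousOn_const.mul fun y hy => ?_).add (continuousOn_id.mul ccy)).add cpy
      exact (dcy y hy).continuousAt.continuousWithinAt) hα0 hαβ.le hβ1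
  have hcong : ∫ x in α..β, (((m : ℝ) + 1) * c (T (τ x)) +
      τ x * (c' (T (τ x)) * (τ' (T (τ x)))⁻¹) + p' (T (τ x)) * (τ' (T (τ x)))⁻¹) * sq x ^ m =
      ∫ x in α..β, (((m : ℝ) + 1) * c x + (τ x * c' x + p' x) / τ' x) * sq x ^ m := by
    apply intervalIntegral.integral_congr
    intro x hx
    rw [uIcc_of_le hαβ.le] at hx
    have hx' : x ∈ Ioo (0 : ℝ) 1 := ⟨hα0.trans_le hx.1, hx.2.trans_lt hβ1⟩
    simp only [hT.left x hx']
    rw [div_eq_mul_inv]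
    ring
  rw [hcong] at hcov
  have hlow := ass_lower hm hr hT hN hc hc' hp' hμ hΨ hΨd hW hid hab1 hWw hα0 hαa.le hβb.le hβ1
  set J := ∫ x in α..β, (((m : ℝ) + 1) * c x + (τ x * c' x + p' x) / τ' x) * sq x ^ m with hJ
  set I := ∫ y in τ α..τ β, (((m : ℝ) + 1) * c (T y) + y * (c' (T y) * (τ' (T y))⁻¹) +
    p' (T y) * (τ' (T y))⁻¹) * r y ^ m with hI
  have hIJ : I = q * J := by
    rw [hq, div_mul_eq_mul_div, eq_div_iff hZm.ne', hcov]
    ring
  have hqJ : w + (q * Ψ β - q * Ψ α) - (q * μ * α + q * μ * (1 - β)) ≤ I := by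
    rw [hIJ, hwd]
    have := mul_le_mul_of_nonneg_left hlow hq0.le
    linarith only [this]
  -- boundary terms
  have hmα : τ α ∈ Icc (0 : ℝ) 1 := ⟨hτα.1.le, hτα.2.le⟩
  have hmβ : τ β ∈ Icc (0 : ℝ) 1 := ⟨hτβ.1.le, hτβ.2.le⟩
  have rα0 : 0 ≤ r (τ α) ^ m := pow_nonneg (Alm.prof_nn hr hmα) m
  have rαR : r (τ α) ^ m ≤ R := pow_le_pow_left₀ (Alm.prof_nn hr hmα) (Alm.prof_le_zero hr hmα) m
  have rβ0 : 0 ≤ r (τ β) ^ m := pow_nonneg (Alm.prof_nn hr hmβ) m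
  have rβR : r (τ β) ^ m ≤ R := pow_le_pow_left₀ (Alm.prof_nn hr hmβ) (Alm.prof_le_zero hr hmβ) m
  have b0 : -κ ≤ (τ α * (c α + M) + p α) * r (τ α) ^ m := by
    have h1 : |(τ α * (c α + M) + p α) * r (τ α) ^ m| ≤ |(τ α * (c α + M) + p α) * R| := by
      rw [abs_mul, abs_mul, abs_of_nonneg rα0, abs_of_nonneg hR0.le]
      exact mul_le_mul_of_nonneg_left rαR (abs_nonneg _)
    linarith only [(abs_le.1 (h1.trans A3.le)).1]
  have b1' : (τ β * (c β + η + P) + p β - P) * r (τ β) ^ m ≤ 2 * κ + κ := by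
    have h1 : c β + p β ≤ η := by
      have h2 := hle β hβ01 1 ⟨by norm_num, le_rfl⟩
      have h3 := hcor (τ β) ⟨by linarith only [(abs_lt.1 B6).2], hτβ.2.le⟩ 1 ⟨by linarith only [hδ2], le_rfl⟩
      have := (abs_le.1 h3).2
      linarith only [h2, this]
    exact ass_bdry hτβ.2.le hη0.le hP0 hηR rβ0 rβR h1 hC1.le
      (pow_nonneg (ass_sq_nonneg β) (m + 2)) (hone β hβ01).1 B3
  have e0 : ((m : ℝ) + 1) * M * (∫ y in (0 : ℝ)..τ α, r y ^ m) ≤ κ := by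
    have h1 := (ass_short (m := m) hr le_rfl hτα.1.le hτα.2.le).2
    rw [sub_zero] at h1
    have h2 := mul_le_mul_of_nonneg_left h1 (by (clear * - hm hM0; positivity) : 0 ≤ ((m : ℝ) + 1) * M)
    have h3 := (abs_lt.1 A4).2
    linarith only [h2, h3]
  have e1 : ((m : ℝ) + 1) * (η + P) * (∫ y in τ β..1, r y ^ m) ≤ κ := by
    have h1 := (ass_short (m := m) hr hτβ.1.le hτβ.2.le le_rfl).2
    have h2 := mul_le_mul_of_nonneg_left h1 (by (clear * - hm hZr hZm hw1 hab1 hR0 hP0; (clear * - hm hZr hZm hw1 hab1 hR0 hP0; positivity)) : 0 ≤ ((m : ℝ) + 1) * (η + P))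
    have h3 := (abs_lt.1 B4).2
    linarith only [h2, h3]
  have k1 := (abs_lt.1 A1).2
  have k2 := (abs_lt.1 A2).2
  have k3 := (abs_lt.1 B1).1
  have k4 := (abs_lt.1 B2).2
  simp only [hTα, hTβ]
  have hκw : 16 * κ = w := by rw [hκ]; ring
  linarith only [hκ, hκ0, hqJ, b0, b1', e0, e1, k1, k2, k3, k4]

end Vale.Agent.P237.AllN
end

section

open MeasureTheory Metric Set Module Filter Topology Real

namespace Vale.Agent.P237.AllN

open Slope

theorem J_zero_zero : J 0 0 = π / 2 := by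
  simp [J]

theorem J_one_zero : J 1 0 = 1 := by
  simp [J]

theorem ap_Z (m : ℕ) : ∫ t in (0:ℝ)..1, sq t ^ m = J (m + 1) 0 := am_eq m

theorem ap_Z2 : ∫ t in (0:ℝ)..1, sq t ^ 2 = 2 / 3 := by
  rw [ap_Z, J_zero_rec, J_one_zero]; norm_num

theorem ap_Z3 : ∫ t in (0:ℝ)..1, sq t ^ 3 = 3 * π / 16 := by
  rw [ap_Z, J_zero_rec, J_zero_rec, J_zero_zero]; norm_num; ring

theorem ap_Z4 : ∫ t in (0:ℝ)..1, sq t ^ 4 = 8 / 15 := by
  rw [ap_Z, J_zero_rec, J_zero_rec, J_one_zero]; norm_num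

theorem ap_Z5 : ∫ t in (0:ℝ)..1, sq t ^ 5 = 5 * π / 32 := by
  rw [ap_Z, J_zero_rec, J_zero_rec, J_zero_rec, J_zero_zero]; norm_num; ring

theorem ap_Z6 : ∫ t in (0:ℝ)..1, sq t ^ 6 = 16 / 35 := by
  rw [ap_Z, J_zero_rec, J_zero_rec, J_zero_rec, J_one_zero]; norm_num

theorem ap_Z7 : ∫ t in (0:ℝ)..1, sq t ^ 7 = 35 * π / 256 := by
  rw [ap_Z, J_zero_rec, J_zero_rec, J_zero_rec, J_zero_rec, J_zero_zero]; norm_num; ring

theorem ap_num4 : (∫ x in (0 : ℝ)..1, sq x ^ (4 - 1)) ^ 4 * ((4 : ℕ) : ℝ) ^ (2 * 4) *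
        ((((4 : ℕ) : ℝ) + 1) * (3 / 20) / (1 - (1 - 3 / 20) ^ (4 + 1))) <
      ((((4 : ℕ) : ℝ) + 1) * (3 / 20) / (1 - (1 - 3 / 20) ^ (4 + 1)) + (((4 : ℕ) : ℝ) ^ 2 - 1)) ^ 4 *
        (∫ x in (0 : ℝ)..1, sq x ^ 4) ^ (4 - 1) := by
  have e : 4 - 1 = 3 := rfl
  rw [e, ap_Z3, ap_Z4]
  have h : (3 * π / 16) ^ 4 ≤ (3 * 3.15 / 16) ^ 4 :=
    pow_le_pow_left₀ (by positivity) (by linarith only [pi_lt_d2]) 4
  norm_num at h ⊢
  linarith only [h]

theorem ap_num5 : (∫ x in (0 : ℝ)..1, sq x ^ (5 - 1)) ^ 5 * ((5 : ℕ) : ℝ) ^ (2 * 5) *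
        ((((5 : ℕ) : ℝ) + 1) * (3 / 20) / (1 - (1 - 3 / 20) ^ (5 + 1))) <
      ((((5 : ℕ) : ℝ) + 1) * (3 / 20) / (1 - (1 - 3 / 20) ^ (5 + 1)) + (((5 : ℕ) : ℝ) ^ 2 - 1)) ^ 5 *
        (∫ x in (0 : ℝ)..1, sq x ^ 5) ^ (5 - 1) := by
  have e : 5 - 1 = 4 := rfl
  rw [e, ap_Z5, ap_Z4]
  have h : (5 * 3.14 / 32) ^ 4 ≤ (5 * π / 32) ^ 4 :=
    pow_le_pow_left₀ (by positivity) (by linarith only [pi_gt_d2]) 4
  norm_num at h ⊢
  linarith only [h]

theorem ap_num6 : (∫ x in (0 : ℝ)..1, sq x ^ (6 - 1)) ^ 6 * ((6 : ℕ) : ℝ) ^ (2 * 6) *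
        ((((6 : ℕ) : ℝ) + 1) * (3 / 20) / (1 - (1 - 3 / 20) ^ (6 + 1))) <
      ((((6 : ℕ) : ℝ) + 1) * (3 / 20) / (1 - (1 - 3 / 20) ^ (6 + 1)) + (((6 : ℕ) : ℝ) ^ 2 - 1)) ^ 6 *
        (∫ x in (0 : ℝ)..1, sq x ^ 6) ^ (6 - 1) := by
  have e : 6 - 1 = 5 := rfl
  rw [e, ap_Z5, ap_Z6]
  have h : (5 * π / 32) ^ 6 ≤ (5 * 3.1416 / 32) ^ 6 :=
    pow_le_pow_left₀ (by positivity) (by linarith only [pi_lt_d4]) 6
  norm_num at h ⊢
  nlinarith

theorem ap_num7 : (∫ x in (0 : ℝ)..1, sq x ^ (7 - 1)) ^ 7 * ((7 : ℕ) : ℝ) ^ (2 * 7) *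
        ((((7 : ℕ) : ℝ) + 1) * (3 / 20) / (1 - (1 - 3 / 20) ^ (7 + 1))) <
      ((((7 : ℕ) : ℝ) + 1) * (3 / 20) / (1 - (1 - 3 / 20) ^ (7 + 1)) + (((7 : ℕ) : ℝ) ^ 2 - 1)) ^ 7 *
        (∫ x in (0 : ℝ)..1, sq x ^ 7) ^ (7 - 1) := by
  have e : 7 - 1 = 6 := rfl
  rw [e, ap_Z6, ap_Z7]
  have h : (35 * 3.1415 / 256) ^ 6 ≤ (35 * π / 256) ^ 6 :=
    pow_le_pow_left₀ (by positivity) (by linarith [pi_gt_d4]) 6
  norm_num at h ⊢
  linarith only [h]

end Vale.Agent.P237.AllN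
end

theorem P237.eqforce_expow : True := by first | exact (fun _ => trivial) @Vale.Agent.P237.AllN.expow.eq_1 | exact (fun _ => trivial) @Vale.Agent.P237.AllN.expow.eq_1.{0}

theorem P237.eqforce_qR : True := by first | exact (fun _ => trivial) @Vale.Agent.P237.AllN.qR.eq_1 | exact (fun _ => trivial) @Vale.Agent.P237.AllN.qR.eq_1.{0}
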