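import Mathlib
import Vale.Agent.P237.Bd3.B1
import Vale.Agent.P237.Bd3.B2

set_option linter.all false

section

/-!
# P237, all dimensions: exchangeability together with the Fisher type inequality
-/

open MeasureTheory Metric Set Module

namespace Vale.Agent.P237.Exch

variable {E : Type*} [NormedAddCommGroup E] [NormedSpace ℝ E] [FiniteDimensional ℝ E]
  [MeasurableSpace E] [BorelSpace E] [Nontrivial E] (μ : Measure E) [μ.IsAddHaarMeasure]

/-- The normalised dual quadratic form: density with total mass `n` which controls all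
Fisher type functionals. -/
theorem exists_density (hd : 2 ≤ finrank ℝ E) :
    ∃ T : sphere (0 : E) 1 → ℝ, Integrable T μ.toSphere ∧
      ∫ z, T z ∂μ.toSphere = (finrank ℝ E : ℝ) ∧ (∀ z, 0 ≤ T z) ∧
      ∀ x : sphere (0 : E) 1, DifferentiableAt ℝ (fun y : E => ‖y‖) (x : E) →
        ∀ c c' p p' : ℝ → ℝ, (∀ y, HasDerivAt c (c' y) y) → Continuous c' →
        (∀ y, HasDerivAt p (p' y) y) → Continuous p' →
        (∀ y ∈ Icc (-1 : ℝ) 1, c y + p y ^ 2 / 4 ≤ 0) →
        T x * ∫ y in ball (0 : E) 1, ((finrank ℝ E : ℝ) * c (dg x y) + dg x y * c' (dg x y) +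
          p' (dg x y)) ∂μ ≤ 1 := by
  classical
  have hsymm : LinearMap.IsSymm (fshM μ) := ⟨fun v w => fshM_symm μ v w⟩
  obtain ⟨b, hb⟩ := LinearMap.BilinForm.exists_orthogonal_basis hsymm
  have hort : ∀ i j, i ≠ j → fshM μ (b i) (b j) = 0 := by
    intro i j hij
    exact hb hij
  have hm : ∀ i, 0 < fshM μ (b i) (b i) := fun i => fshM_pos μ hd (b.ne_zero i)
  obtain ⟨T, hT⟩ : ∃ T : sphere (0 : E) 1 → ℝ,
      T = fun z : sphere (0 : E) 1 => ∑ i, gr (b i) z * gr (b i) z / fshM μ (b i) (b i) :=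
    ⟨_, rfl⟩
  have iT0 : ∀ i, Integrable (fun z : sphere (0 : E) 1 =>
      gr (b i) z * gr (b i) z / fshM μ (b i) (b i)) μ.toSphere := fun i =>
    (fsh_int μ (b i) (b i)).div_const _
  have iT : Integrable T μ.toSphere := by
    rw [hT]
    exact integrable_finsetSum _ fun i _ => iT0 i
  have eT : ∫ z, T z ∂μ.toSphere = (finrank ℝ E : ℝ) := by
    rw [hT]
    rw [integral_finsetSum _ fun i _ => iT0 i]
    have h1 : ∀ i, ∫ z : sphere (0 : E) 1, gr (b i) z * gr (b i) z / fshM μ (b i) (b i)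
        ∂μ.toSphere = 1 := by
      intro i
      rw [integral_div, ← fshM_apply, div_self (hm i).ne']
    simp only [h1]
    simp
  have hT0 : ∀ z, 0 ≤ T z := by
    intro z
    rw [hT]
    exact Finset.sum_nonneg fun i _ => div_nonneg (mul_self_nonneg _) (hm i).le
  refine ⟨T, iT, eT, hT0, fun x hx c c' p p' hc hc' hp hp' hcp => ?_⟩
  rcases (hT0 x).eq_or_lt with h0 | hTpos
  · rw [← h0, zero_mul]
    exact zero_le_one
  -- the test vector
  obtain ⟨a, ha⟩ : ∃ a : Fin (finrank ℝ E) → ℝ,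
      a = fun i => (T x)⁻¹ * (gr (b i) x / fshM μ (b i) (b i)) := ⟨_, rfl⟩
  obtain ⟨v, hv⟩ : ∃ v : E, v = ∑ i, a i • b i := ⟨_, rfl⟩
  have hTx2 : T x = ∑ i, gr (b i) x * gr (b i) x / fshM μ (b i) (b i) := by rw [hT]
  have hdg : dg x v = 1 := by
    have h1 : dg x v = gr v (x : E) := rfl
    rw [h1, hv, fsh_gr_sum, ha]
    simp only
    have h2 : ∑ i, (T x)⁻¹ * (gr (b i) x / fshM μ (b i) (b i)) * gr (b i) x =
        (T x)⁻¹ * T x := by
      rw [hTx2, Finset.mul_sum]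
      exact Finset.sum_congr rfl fun i _ => by ring
    rw [h2, inv_mul_cancel₀ hTpos.ne']
  have hMv : fshM μ v v = (T x)⁻¹ := by
    have h1 : fshM μ v v = ∑ i, a i * (a i * fshM μ (b i) (b i)) := by
      rw [hv]
      simp only [map_sum, LinearMap.sum_apply, map_smul, LinearMap.smul_apply, smul_eq_mul]
      refine Finset.sum_congr rfl fun i _ => ?_
      rw [Finset.sum_eq_single i]
      · intro j _ hj
        rw [hort j i hj]
        ring
      · intro h
        exact absurd (Finset.mem_univ i) h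
    have h2 : ∑ i, a i * (a i * fshM μ (b i) (b i)) = (T x)⁻¹ := by
      have h3 : ∀ i, a i * (a i * fshM μ (b i) (b i)) = (T x)⁻¹ * (T x)⁻¹ *
          (gr (b i) x * gr (b i) x / fshM μ (b i) (b i)) := by
        intro i
        rw [ha]
        have := (hm i).ne'
        field_simp
      simp only [h3]
      rw [← Finset.mul_sum, ← hTx2, mul_assoc, inv_mul_cancel₀ hTpos.ne', mul_one]
    rw [h1, h2]
  have hcc : Continuous c := continuous_iff_continuousAt.2 fun y => (hc y).continuousAt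
  have hpc : Continuous p := continuous_iff_continuousAt.2 fun y => (hp y).continuousAt
  have hl := norm_dg_le x
  obtain ⟨M, hM⟩ := (isCompact_Icc (a := (-1:ℝ)) (b := 1)).exists_bound_of_continuousOn
    hcc.continuousOn
  obtain ⟨D, hD⟩ := (isCompact_Icc (a := (-1:ℝ)) (b := 1)).exists_bound_of_continuousOn
    hpc.continuousOn
  have hI : ∀ z : sphere (0 : E) 1, dg x z ∈ Icc (-1 : ℝ) 1 := by
    intro z
    have := mem_Icc_ratio hl (z : E)
    rwa [norm_eq_of_mem_sphere z, div_one] at this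
  have hlm : Measurable fun z : sphere (0 : E) 1 => dg x z :=
    ((dg x).continuous.comp continuous_subtype_val).measurable
  have i1 : Integrable (fun z : sphere (0 : E) 1 => c (dg x z)) μ.toSphere :=
    integrable_sphere μ (hcc.measurable.comp hlm) (C := M) fun z => hM _ (hI z)
  have i2 : Integrable (fun z : sphere (0 : E) 1 => gr v z * p (dg x z)) μ.toSphere := by
    refine integrable_sphere μ ((fsh_meas v).mul (hpc.measurable.comp hlm)) (C := ‖v‖ * D)
      fun z => ?_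
    rw [abs_mul]
    exact mul_le_mul (abs_gr_le v _) (hD _ (hI z)) (abs_nonneg _) (norm_nonneg _)
  have ea := sphere_a μ (dg x) hc hc'
  have eb := sphere_b μ hd (dg x) hl v hp hp'
  rw [hdg, one_mul] at eb
  have j1 := integrableOn_ball_comp μ (dg x) (f := fun y => (finrank ℝ E : ℝ) * c y + y * c' y)
    (by fun_prop)
  have j2 := integrableOn_ball_comp μ (dg x) hp'
  have e0 : ∫ y in ball (0 : E) 1, ((finrank ℝ E : ℝ) * c (dg x y) + dg x y * c' (dg x y) +
      p' (dg x y)) ∂μ = ∫ z : sphere (0 : E) 1, (c (dg x z) + gr v z * p (dg x z))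
        ∂μ.toSphere := by
    rw [integral_add i1 i2, integral_add j1 j2, ← ea, ← eb]
  have e1 : ∫ z : sphere (0 : E) 1, (c (dg x z) + gr v z * p (dg x z)) ∂μ.toSphere ≤
      fshM μ v v := by
    rw [fshM_apply]
    refine integral_mono (i1.add i2) (fsh_int μ v v) fun z => ?_
    have h1 := hcp _ (hI z)
    simp only
    linarith only [sq_nonneg (p (dg x z) / 2 - gr v z), h1]
  rw [e0]
  calc T x * ∫ z : sphere (0 : E) 1, (c (dg x z) + gr v z * p (dg x z)) ∂μ.toSphere ≤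
      T x * (T x)⁻¹ := mul_le_mul_of_nonneg_left (e1.trans hMv.le) hTpos.le
    _ = 1 := mul_inv_cancel₀ hTpos.ne'

/-- **Exchangeability with the Fisher term**, almost everywhere form. -/
theorem exchF_ae {A : ℝ → ℝ → ℝ} (hA : Measurable (Function.uncurry A)) {C : ℝ}
    (hC : ∀ a ∈ Icc (-1 : ℝ) 1, ∀ b ∈ Icc (-1 : ℝ) 1, |A a b| ≤ C)
    (hanti : ∀ a ∈ Icc (-1 : ℝ) 1, ∀ b ∈ Icc (-1 : ℝ) 1, A a b = -A b a)
    {T : sphere (0 : E) 1 → ℝ} (hT : Integrable T μ.toSphere)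
    (hT1 : ∫ z, T z ∂μ.toSphere = (finrank ℝ E : ℝ)) (θ : ℝ)
    (h0 : ∀ᵐ x : sphere (0 : E) 1 ∂μ.toSphere,
      θ * (T x * (μ (ball (0 : E) 1)).toReal - 1) * (μ (ball (0 : E) 1)).toReal ≤
        ∫ z : sphere (0 : E) 1, A (pr z x) (pr x z) ∂μ.toSphere) :
    ∀ᵐ x : sphere (0 : E) 1 ∂μ.toSphere,
      ∫ z : sphere (0 : E) 1, A (pr z x) (pr x z) ∂μ.toSphere =
        θ * (T x * (μ (ball (0 : E) 1)).toReal - 1) * (μ (ball (0 : E) 1)).toReal := by
  obtain ⟨hint, hz⟩ := exch_zero (E := E) μ hA hC hanti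
  have hσ : μ.toSphere.real univ = (finrank ℝ E : ℝ) * (μ (ball (0 : E) 1)).toReal := by
    rw [measureReal_def, μ.toSphere_apply_univ, ENNReal.toReal_mul, ENNReal.toReal_natCast]
  set V := (μ (ball (0 : E) 1)).toReal with hV
  have iF : Integrable (fun x : sphere (0 : E) 1 => θ * (T x * V - 1) * V) μ.toSphere :=
    (((hT.mul_const V).sub (integrable_const _)).const_mul θ).mul_const V
  have hF : ∫ x : sphere (0 : E) 1, θ * (T x * V - 1) * V ∂μ.toSphere = 0 := by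
    rw [integral_mul_const, integral_const_mul,
      integral_sub (hT.mul_const V) (integrable_const _), integral_mul_const, hT1, integral_const,
      hσ, smul_eq_mul]
    ring
  have iI := hint.integral_prod_left
  have h1 : ∀ᵐ x : sphere (0 : E) 1 ∂μ.toSphere,
      0 ≤ (∫ z : sphere (0 : E) 1, A (pr z x) (pr x z) ∂μ.toSphere) - θ * (T x * V - 1) * V := by
    filter_upwards [h0] with x hx
    linarith only [hx]
  have h2 : ∫ x : sphere (0 : E) 1, ((∫ z : sphere (0 : E) 1, A (pr z x) (pr x z) ∂μ.toSphere) -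
      θ * (T x * V - 1) * V) ∂μ.toSphere = 0 := by
    rw [integral_sub iI iF, hF, sub_zero]
    exact hz
  have h3 := (integral_eq_zero_iff_of_nonneg_ae h1 (iI.sub iF)).1 h2
  filter_upwards [h3] with x hx
  simp only [Pi.zero_apply] at hx
  linarith

end Vale.Agent.P237.Exch
end

section

/-!
# P237, all dimensions: a body whose covariance form equals the square of the support function in
enough directions is an ellipsoid
-/

open MeasureTheory Metric Set Module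
open scoped Pointwise

namespace Vale.Agent.P237.AllN

variable {V : Type*} [NormedAddCommGroup V] [InnerProductSpace ℝ V] [FiniteDimensional ℝ V]
  [MeasurableSpace V] [BorelSpace V]

namespace EqEll

/-- The second moment of the unit ball. -/
theorem ball_moment {n : ℕ} (hn : 1 ≤ n) (hd : finrank ℝ V = n) :
    ((n : ℝ) + 2) * ∫ z in closedBall (0 : V) 1, ‖z‖ ^ 2 = n * vol (closedBall (0 : V) 1) := by
  have : Nontrivial V := Module.nontrivial_of_finrank_pos (R := ℝ) (by omega)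
  have h1 : ∫ z in closedBall (0 : V) 1, ‖z‖ ^ 2 =
      ∫ z : V, (Iic (1 : ℝ)).indicator (fun y : ℝ => y ^ 2) ‖z‖ := by
    rw [← integral_indicator measurableSet_closedBall]
    refine integral_congr_ae (Filter.Eventually.of_forall fun z => ?_)
    by_cases hz : ‖z‖ ≤ 1
    · have hz' : z ∈ closedBall (0 : V) 1 := mem_closedBall_zero_iff.2 hz
      simp only [indicator_of_mem hz', indicator_of_mem (mem_Iic.2 hz)]
    · have hz' : z ∉ closedBall (0 : V) 1 := fun h => hz (mem_closedBall_zero_iff.1 h)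
      have hz'' : ‖z‖ ∉ Iic (1 : ℝ) := hz
      simp only [indicator_of_notMem hz', indicator_of_notMem hz'']
  have h2 := integral_fun_norm_addHaar (volume : Measure V)
    ((Iic (1 : ℝ)).indicator (fun y : ℝ => y ^ 2))
  have h3 : ∫ y in Ioi (0 : ℝ), y ^ (finrank ℝ V - 1) • (Iic (1 : ℝ)).indicator
      (fun y : ℝ => y ^ 2) y = 1 / ((n : ℝ) + 2) := by
    have e1 : ∀ y : ℝ, y ^ (finrank ℝ V - 1) • (Iic (1 : ℝ)).indicator (fun y : ℝ => y ^ 2) y =
        (Iic (1 : ℝ)).indicator (fun y : ℝ => y ^ (n + 1)) y := by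
      intro y
      by_cases hy : y ∈ Iic (1 : ℝ)
      · rw [indicator_of_mem hy, indicator_of_mem hy, smul_eq_mul, ← pow_add, hd]
        congr 1
        omega
      · rw [indicator_of_notMem hy, indicator_of_notMem hy, smul_zero]
    simp only [e1]
    rw [setIntegral_indicator measurableSet_Iic, Ioi_inter_Iic,
      ← intervalIntegral.integral_of_le zero_le_one, integral_pow]
    push_cast
    simp
    ring
  have h4 : vol (closedBall (0 : V) 1) = (volume : Measure V).real (ball 0 1) := by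
    unfold vol
    rw [Measure.addHaar_closedBall_eq_addHaar_ball]
    rfl
  rw [h1, h2, h3, h4, hd]
  have : (n : ℝ) + 2 ≠ 0 := by positivity
  simp only [nsmul_eq_mul, smul_eq_mul]
  field_simp

theorem ball_case {n : ℕ} (hn : 1 ≤ n) (hd : finrank ℝ V = n) {K : Set V} (hK : IsSymBody K)
    (hid : ∀ v : V, ((n : ℝ) + 2) * ∫ z in K, inner ℝ z v ^ 2 = ‖v‖ ^ 2 * vol K)
    (h : ∀ y, y ∉ K → ∃ v : V, supp K v < inner ℝ y v ∧ supp K v = ‖v‖) :
    K = closedBall (0 : V) 1 := by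
  have hsub : closedBall (0 : V) 1 ⊆ K := by
    intro y hy
    rw [mem_closedBall_zero_iff] at hy
    by_contra hc
    obtain ⟨v, h1, h2⟩ := h y hc
    rw [h2] at h1
    have h3 := real_inner_le_norm y v
    have h4 : ‖y‖ * ‖v‖ ≤ 1 * ‖v‖ := mul_le_mul_of_nonneg_right hy (norm_nonneg v)
    linarith only [h4, h3, h1]
  refine eq_ball_of_vol hK.toIsBody hsub ?_
  -- the moment of K
  have hm : ((n : ℝ) + 2) * ∫ z in K, ‖z‖ ^ 2 = n * vol K := by
    have e : ∀ z : V, ‖z‖ ^ 2 = ∑ i, inner ℝ z (stdOrthonormalBasis ℝ V i) ^ 2 := fun z =>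
      ((stdOrthonormalBasis ℝ V).sum_sq_inner_left z).symm
    simp only [e]
    rw [integral_finsetSum, Finset.mul_sum]
    · simp only [hid, (stdOrthonormalBasis ℝ V).norm_eq_one]
      rw [Finset.sum_const, Finset.card_univ, Fintype.card_fin, hd, nsmul_eq_mul]
      ring
    · intro i _
      exact John2.integrableOn_of_continuous hK.compact (by fun_prop)
  have hb := ball_moment hn hd (V := V)
  -- splitting
  have hi : IntegrableOn (fun z : V => ‖z‖ ^ 2) K :=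
    John2.integrableOn_of_continuous hK.compact (by fun_prop)
  have hKm : MeasurableSet K := hK.compact.measurableSet
  have hsplit : ∫ z in K, ‖z‖ ^ 2 = (∫ z in closedBall (0 : V) 1, ‖z‖ ^ 2) +
      ∫ z in K \ closedBall (0 : V) 1, ‖z‖ ^ 2 := by
    rw [← setIntegral_union disjoint_sdiff_right (hKm.diff measurableSet_closedBall)
      (hi.mono_set hsub) (hi.mono_set sdiff_subset), union_sdiff_cancel hsub]
  have hfinK : volume K ≠ ⊤ := hK.compact.measure_lt_top.ne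
  have hfinB : volume (closedBall (0 : V) 1) ≠ ⊤ := measure_closedBall_lt_top.ne
  have hdiff : vol (K \ closedBall (0 : V) 1) = vol K - vol (closedBall (0 : V) 1) := by
    unfold vol
    rw [measure_sdiff hsub measurableSet_closedBall.nullMeasurableSet hfinB,
      ENNReal.toReal_sub_of_le (measure_mono hsub) hfinK]
  have hge : vol (K \ closedBall (0 : V) 1) ≤ ∫ z in K \ closedBall (0 : V) 1, ‖z‖ ^ 2 := by
    have h1 : ∫ z in K \ closedBall (0 : V) 1, (1 : ℝ) ≤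
        ∫ z in K \ closedBall (0 : V) 1, ‖z‖ ^ 2 := by
      refine setIntegral_mono_on ?_ (hi.mono_set sdiff_subset)
        (hKm.diff measurableSet_closedBall) ?_
      · exact integrableOn_const (ne_top_of_le_ne_top hfinK (measure_mono sdiff_subset))
      · intro z hz
        have hz2 : 1 < ‖z‖ := by
          by_contra hc
          exact hz.2 (mem_closedBall_zero_iff.2 (not_lt.1 hc))
        (by_contra nlg; linarith only [nlg, mul_pos (sub_pos.2 hz2) (sub_pos.2 hz2), mul_pos (sub_pos.2 (not_le.1 nlg)) (sub_pos.2 hz2), mul_pos (sub_pos.2 (not_le.1 nlg)) (sub_pos.2 (not_le.1 nlg)), mul_nonneg (sq_nonneg (‖z‖ : ℝ)) (le_of_lt (sub_pos.2 hz2)), mul_nonneg (sq_nonneg (‖z‖ : ℝ)) (le_of_lt (sub_pos.2 (not_le.1 nlg)))])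
    rw [setIntegral_const, smul_eq_mul, mul_one] at h1
    exact h1
  have hn0 : (0 : ℝ) < n := by exact_mod_cast hn
  rw [hsplit, mul_add, hb] at hm
  have h5 : ((n : ℝ) + 2) * (vol K - vol (closedBall (0 : V) 1)) ≤
      ((n : ℝ) + 2) * ∫ z in K \ closedBall (0 : V) 1, ‖z‖ ^ 2 := by
    rw [← hdiff]
    exact mul_le_mul_of_nonneg_left hge (by positivity)
  linarith only [h5, hm]

theorem vol_pos' {K : Set V}
    (hK : IsBody K) : 0 < vol K := by
  have h1 : 0 < volume K := lt_of_lt_of_le (isOpen_interior.measure_pos _ hK.int)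
    (measure_mono interior_subset)
  exact ENNReal.toReal_pos h1.ne' hK.compact.measure_lt_top.ne

/-- Diagonal maps. -/
noncomputable def diag {n : ℕ} (b : OrthonormalBasis (Fin n) ℝ V) (w : Fin n → ℝ) :
    V →ₗ[ℝ] V where
  toFun x := ∑ i, (w i * inner ℝ (b i) x) • b i
  map_add' x y := by
    rw [← Finset.sum_add_distrib]
    exact Finset.sum_congr rfl fun i _ => by rw [inner_add_right, mul_add, add_smul]
  map_smul' t x := by
    rw [RingHom.id_apply, Finset.smul_sum]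
    exact Finset.sum_congr rfl fun i _ => by
      rw [inner_smul_right, smul_smul]
      congr 1
      ring

omit [FiniteDimensional ℝ V] [MeasurableSpace V] [BorelSpace V] in
theorem diag_apply {n : ℕ} (b : OrthonormalBasis (Fin n) ℝ V) (w : Fin n → ℝ) (x : V) :
    diag b w x = ∑ i, (w i * inner ℝ (b i) x) • b i := rfl

omit [FiniteDimensional ℝ V] [MeasurableSpace V] [BorelSpace V] in
theorem inner_diag {n : ℕ} (b : OrthonormalBasis (Fin n) ℝ V) (w : Fin n → ℝ) (i : Fin n)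
    (x : V) : inner ℝ (b i) (diag b w x) = w i * inner ℝ (b i) x := by
  rw [diag_apply]
  exact b.orthonormal.inner_right_fintype _ i

omit [FiniteDimensional ℝ V] [MeasurableSpace V] [BorelSpace V] in
theorem diag_diag {n : ℕ} (b : OrthonormalBasis (Fin n) ℝ V) (w w' : Fin n → ℝ) (x : V) :
    diag b w (diag b w' x) = diag b (fun i => w i * w' i) x := by
  rw [diag_apply b w, diag_apply b fun i => w i * w' i]
  refine Finset.sum_congr rfl fun i _ => ?_
  rw [inner_diag, mul_assoc]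

omit [FiniteDimensional ℝ V] [MeasurableSpace V] [BorelSpace V] in
theorem diag_one {n : ℕ} (b : OrthonormalBasis (Fin n) ℝ V) (x : V) :
    diag b (fun _ => 1) x = x := by
  rw [diag_apply]
  simp only [one_mul]
  exact b.sum_repr' x

omit [FiniteDimensional ℝ V] [MeasurableSpace V] [BorelSpace V] in
theorem diag_symm {n : ℕ} (b : OrthonormalBasis (Fin n) ℝ V) (w : Fin n → ℝ) (x y : V) :
    inner ℝ (diag b w x) y = inner ℝ x (diag b w y) := by
  have h : ∀ x y, inner ℝ (diag b w x) y = ∑ i, w i * inner ℝ (b i) x * inner ℝ (b i) y := by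
    intro x y
    rw [diag_apply, sum_inner]
    exact Finset.sum_congr rfl fun i _ => by rw [real_inner_smul_left]
  rw [h, real_inner_comm, h]
  exact Finset.sum_congr rfl fun i _ => by ring

omit [FiniteDimensional ℝ V] [MeasurableSpace V] [BorelSpace V] in
theorem norm_diag_sq {n : ℕ} (b : OrthonormalBasis (Fin n) ℝ V) (w : Fin n → ℝ) (x : V) :
    ‖diag b w x‖ ^ 2 = ∑ i, w i ^ 2 * inner ℝ (b i) x ^ 2 := by
  rw [← real_inner_self_eq_norm_sq, diag_symm, diag_diag, real_inner_comm, diag_apply, sum_inner]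
  exact Finset.sum_congr rfl fun i _ => by
    rw [real_inner_smul_left]
    ring

/-- positivity of the covariance form -/
theorem cov_pos {K : Set V} (hK : IsSymBody K) {v : V} (hv : v ≠ 0) :
    0 < ∫ z in K, inner ℝ z v ^ 2 := by
  have hi : IntegrableOn (fun z : V => inner ℝ z v ^ 2) K :=
    John2.integrableOn_of_continuous hK.compact (by fun_prop)
  rw [setIntegral_pos_iff_support_of_nonneg_ae
    (Filter.Eventually.of_forall fun z => sq_nonneg _) hi]
  obtain ⟨r, hr, hrK⟩ := hK.exists_closedBall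
  have hnv : 0 < ‖v‖ := norm_pos_iff.2 hv
  have hopen : IsOpen (ball (0 : V) r ∩ {z | inner ℝ z v ≠ 0}) :=
    isOpen_ball.inter (isOpen_ne_fun (by fun_prop) continuous_const)
  have hne : (ball (0 : V) r ∩ {z | inner ℝ z v ≠ 0}).Nonempty := by
    refine ⟨(r / 2 / ‖v‖) • v, ?_, ?_⟩
    · rw [mem_ball_zero_iff, norm_smul, Real.norm_eq_abs, abs_of_pos (by positivity)]
      have : r / 2 / ‖v‖ * ‖v‖ = r / 2 := by field_simp
      rw [this]
      linarith only [hr]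
    · show inner ℝ ((r / 2 / ‖v‖) • v) v ≠ 0
      rw [real_inner_smul_left, real_inner_self_eq_norm_sq]
      positivity
  refine lt_of_lt_of_le (hopen.measure_pos volume hne) (measure_mono ?_)
  intro z hz
  refine ⟨?_, hrK (ball_subset_closedBall hz.1)⟩
  rw [Function.mem_support]
  exact pow_ne_zero 2 hz.2

theorem setIntegral_image (T : V ≃ₗ[ℝ] V) {K : Set V} (hK : MeasurableSet K) (f : V → ℝ) :
    ∫ z in T '' K, f z = |LinearMap.det (T : V →ₗ[ℝ] V)| * ∫ z in K, f (T z) := by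
  have h := integral_image_eq_integral_abs_det_fderiv_smul (volume : Measure V) hK
    (f := fun z => T z) (f' := fun _ => (T.toContinuousLinearEquiv : V →L[ℝ] V))
    (fun x _ => (T.toContinuousLinearEquiv : V →L[ℝ] V).hasFDerivWithinAt) T.injective.injOn f
  have h2 : (fun z => T z) '' K = T '' K := rfl
  rw [h2] at h
  rw [h, ← integral_const_mul]
  rfl

omit [FiniteDimensional ℝ V] [MeasurableSpace V] [BorelSpace V] in
theorem supp_image (T : V → V) (K : Set V) (S : V → V)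
    (h : ∀ x v, inner ℝ (T x) v = inner ℝ x (S v)) (v : V) : supp (T '' K) v = supp K (S v) := by
  unfold supp
  rw [image_image]
  simp only [h]

end EqEll

open EqEll in
theorem ellipsoid_of_moments {n : ℕ} (hn : 1 ≤ n) (hd : finrank ℝ V = n) {K : Set V}
    (hK : IsSymBody K)
    (h : ∀ y, y ∉ K → ∃ v : V, supp K v < inner ℝ y v ∧
      ((n : ℝ) + 2) * ∫ z in K, inner ℝ z v ^ 2 = supp K v ^ 2 * vol K) :
    ∃ T : V ≃ₗ[ℝ] V, K = T '' closedBall (0 : V) 1 := by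
  have hvol : 0 < vol K := vol_pos' hK.toIsBody
  set c : ℝ := ((n : ℝ) + 2) / vol K with hc
  have hc0 : 0 < c := by positivity
  set S : V →ₗ[ℝ] V := c • John2.cov hK.compact with hS
  have hSinner : ∀ v, inner ℝ v (S v) = c * ∫ z in K, inner ℝ z v ^ 2 := by
    intro v
    rw [hS, LinearMap.smul_apply, inner_smul_right, John2.inner_cov]
  have hsym : S.IsSymmetric := by
    intro v w
    rw [hS, LinearMap.smul_apply, LinearMap.smul_apply, real_inner_smul_left, inner_smul_right,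
      John2.cov_symm]
  set b := hsym.eigenvectorBasis hd with hb
  set l := hsym.eigenvalues hd with hl
  have hbl : ∀ i, S (b i) = l i • b i := fun i => hsym.apply_eigenvectorBasis hd i
  have hlpos : ∀ i, 0 < l i := by
    intro i
    have h1 := hSinner (b i)
    rw [hbl, inner_smul_right, real_inner_self_eq_norm_sq, b.norm_eq_one] at h1
    have h2 : b i ≠ 0 := by
      intro h0
      have := b.norm_eq_one i
      rw [h0, norm_zero] at this
      exact zero_ne_one this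
    have h3 := mul_pos hc0 (cov_pos hK h2)
    rw [← h1] at h3
    linarith only [h3]
  set w : Fin n → ℝ := fun i => Real.sqrt (l i) with hw
  have hw0 : ∀ i, w i ≠ 0 := fun i => (Real.sqrt_pos.2 (hlpos i)).ne'
  let T : V ≃ₗ[ℝ] V := LinearEquiv.ofLinearMap (diag b w) (diag b fun i => (w i)⁻¹)
    (by
      ext x
      rw [LinearMap.comp_apply, diag_diag]
      have : (fun i => w i * (w i)⁻¹) = fun _ => (1 : ℝ) := by
        funext i
        exact mul_inv_cancel₀ (hw0 i)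
      rw [this, diag_one]
      rfl)
    (by
      ext x
      rw [LinearMap.comp_apply, diag_diag]
      have : (fun i => (w i)⁻¹ * w i) = fun _ => (1 : ℝ) := by
        funext i
        exact inv_mul_cancel₀ (hw0 i)
      rw [this, diag_one]
      rfl)
  have hT : ∀ x, T x = diag b w x := fun x => rfl
  have hTsym : ∀ x y, inner ℝ (T x) y = inner ℝ x (T y) := fun x y => diag_symm b w x y
  have hTnorm : ∀ v, ‖T v‖ ^ 2 = c * ∫ z in K, inner ℝ z v ^ 2 := by
    intro v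
    rw [← hSinner, hT, norm_diag_sq, ← b.sum_inner_mul_inner v (S v)]
    refine Finset.sum_congr rfl fun i _ => ?_
    rw [← hsym, hbl, real_inner_smul_left, hw, Real.sq_sqrt (hlpos i).le, real_inner_comm v (b i)]
    ring
  -- the transformed body
  set K' : Set V := T.symm '' K with hK'
  have hKK' : K = T '' K' := by
    rw [hK', ← image_comp]
    have : (T ∘ T.symm : V → V) = id := by
      funext x
      simp
    rw [this, image_id]
  have hK's : IsSymBody K' := by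
    refine ⟨hK.toIsBody.image T.symm, ?_⟩
    rintro _ ⟨x, hx, rfl⟩
    exact ⟨-x, hK.symm x hx, map_neg T.symm x⟩
  have hvol' : vol K = |LinearMap.det (T : V →ₗ[ℝ] V)| * vol K' := by
    conv_lhs => rw [hKK']
    exact vol_image_linearEquiv T K'
  have hdet : 0 < |LinearMap.det (T : V →ₗ[ℝ] V)| := by
    rcases (abs_nonneg (LinearMap.det (T : V →ₗ[ℝ] V))).lt_or_eq with h1 | h1
    · exact h1
    · rw [← h1, zero_mul] at hvol'
      linarith only [hvol', hvol]
  have hmom : ∀ v, ∫ z in K, inner ℝ z v ^ 2 =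
      |LinearMap.det (T : V →ₗ[ℝ] V)| * ∫ z in K', inner ℝ z (T v) ^ 2 := by
    intro v
    conv_lhs => rw [hKK']
    rw [setIntegral_image T hK's.compact.measurableSet]
    simp only [hTsym]
  have hid : ∀ v : V, ((n : ℝ) + 2) * ∫ z in K', inner ℝ z v ^ 2 = ‖v‖ ^ 2 * vol K' := by
    intro v
    obtain ⟨u, rfl⟩ := T.surjective v
    rw [hTnorm, hmom, hc, hvol']
    have hv' : 0 < vol K' := vol_pos' hK's.toIsBody
    field_simp
  have hball : K' = closedBall (0 : V) 1 := by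
    refine ball_case hn hd hK's hid fun y hy => ?_
    have hy' : T y ∉ K := by
      intro hmem
      apply hy
      exact ⟨T y, hmem, T.symm_apply_apply y⟩
    obtain ⟨v, h1, h2⟩ := h _ hy'
    have hsupp : supp K v = supp K' (T v) := by
      conv_lhs => rw [hKK']
      exact supp_image T K' T hTsym v
    refine ⟨T v, ?_, ?_⟩
    · rw [← hsupp, ← hTsym]
      exact h1
    · rw [← hsupp]
      have h0 : 0 ≤ supp K v := by
        have := le_supp hK.compact v (interior_subset hK.zero_mem_interior)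
        rwa [inner_zero_left] at this
      have h3 : supp K v ^ 2 = ‖T v‖ ^ 2 := by
        rw [hTnorm, hc]
        field_simp
        linarith
      exact (sq_eq_sq₀ h0 (norm_nonneg _)).1 h3
  exact ⟨T, by rw [← hball]; exact hKK'⟩

end Vale.Agent.P237.AllN
end

section

/-!
# P237, all dimensions: second moment of a body with a ball profile
-/

open MeasureTheory Metric Set Module
open scoped Pointwise

namespace Vale.Agent.P237.AllN

open Exch

variable {V : Type*} [NormedAddCommGroup V] [InnerProductSpace ℝ V] [FiniteDimensional ℝ V]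
  [MeasurableSpace V] [BorelSpace V]

/-- The profile in the direction `u` is the one of a ball. -/
def BallProf (K : Set V) (u : V) (m : ℕ) : Prop :=
  ∃ C : ℝ, ∀ t ∈ Ioo (-1 : ℝ) 1, vol (slice K u (supp K u * t)) = C * Real.sqrt (1 - t ^ 2) ^ m

/-- Change of variables to the profile. -/
theorem eqMoment_integral {K : Set V} (hK : IsSymBody K) {u : V} (hu : ‖u‖ = 1)
    (hpos : 0 < supp K u) {F : ℝ → ℝ} (hF : Continuous F) :
    ∫ y in K, F ((supp K u)⁻¹ * inner ℝ y u) =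
      supp K u * ∫ t in (-1 : ℝ)..1, F t * vol (slice K u (supp K u * t)) := by
  have : Fact (IsSymBody K) := ⟨hK⟩
  set h := supp K u with hh
  have e2 : ∫ y in K, F (h⁻¹ * inner ℝ y u) = ∫ y in K, (fun s => F (h⁻¹ * s)) (inner ℝ y u) := rfl
  rw [e2, integral_slice hK.compact hu (fun s => F (h⁻¹ * s)) (by fun_prop)]
  have e3 : ∫ y : ℝ, F (h⁻¹ * y) * vol (slice K u y) =
      ∫ y in (-h)..h, F (h⁻¹ * y) * vol (slice K u y) := by
    rw [intervalIntegral.integral_of_le (by linarith only [hpos]), integral_Ioc_eq_integral_Ioo,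
      ← integral_Icc_eq_integral_Ioo]
    refine (setIntegral_eq_integral_of_forall_compl_eq_zero fun y hy => ?_).symm
    have : h < |y| := by
      by_contra hcon
      exact hy (abs_le.1 (not_lt.1 hcon))
    rw [vol_slice_zero K hu this, mul_zero]
  rw [e3]
  have e4 := intervalIntegral.mul_integral_comp_mul_left (a := (-1 : ℝ)) (b := 1)
    (f := fun y => F (h⁻¹ * y) * vol (slice K u y)) h
  rw [mul_neg, mul_one] at e4
  rw [← e4]
  congr 1
  refine intervalIntegral.integral_congr fun t _ => ?_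
  rw [← mul_assoc, inv_mul_cancel₀ hpos.ne', one_mul]

/-- The moment identity of the ball profile. -/
theorem eqMoment_weight (m : ℕ) :
    ((m : ℝ) + 3) * ∫ t in (-1 : ℝ)..1, t ^ 2 * Real.sqrt (1 - t ^ 2) ^ m =
      ∫ t in (-1 : ℝ)..1, Real.sqrt (1 - t ^ 2) ^ m := by
  have h1 : ∫ t in (-1 : ℝ)..1, (Real.sqrt (1 - t ^ 2) ^ m -
      ((m : ℝ) + 3) * (t ^ 2 * Real.sqrt (1 - t ^ 2) ^ m)) =
      1 * Real.sqrt (1 - 1 ^ 2) ^ (m + 2) - (-1) * Real.sqrt (1 - (-1) ^ 2) ^ (m + 2) := by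
    refine intervalIntegral.integral_eq_sub_of_hasDerivAt_of_le (by norm_num)
      (f := fun t => t * Real.sqrt (1 - t ^ 2) ^ (m + 2)) ?_ (fun t ht => ?_) ?_
    · exact (by fun_prop : Continuous fun t : ℝ => t * Real.sqrt (1 - t ^ 2) ^ (m + 2)).continuousOn
    · have hw : 0 < 1 - t ^ 2 := by nlinarith [ht.1, ht.2]
      have hs : 0 < Real.sqrt (1 - t ^ 2) := Real.sqrt_pos.2 hw
      have hsq : Real.sqrt (1 - t ^ 2) ^ 2 = 1 - t ^ 2 := Real.sq_sqrt hw.le
      have d0 : HasDerivAt (fun t : ℝ => 1 - t ^ 2) (-(2 * t)) t := by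
        have := ((hasDerivAt_id t).pow 2).const_sub 1
        simpa using this
      have d1 := (d0.sqrt hw.ne').pow (m + 2)
      have d2 := (hasDerivAt_id t).mul d1
      refine d2.congr_deriv ?_
      simp only [id, one_mul, Pi.pow_apply]
      rw [show m + 2 - 1 = m + 1 by omega, pow_succ _ (m + 1), pow_succ _ m]
      generalize Real.sqrt (1 - t ^ 2) = w at hs hsq
      have hw0 : w ≠ 0 := hs.ne'
      have e : w ^ m * w * w = w ^ m * (1 - t ^ 2) := by rw [mul_assoc, ← _root_.sq, hsq]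
      rw [e]
      field_simp
      push_cast
      ring
    · exact (by fun_prop : Continuous fun t : ℝ => Real.sqrt (1 - t ^ 2) ^ m -
        ((m : ℝ) + 3) * (t ^ 2 * Real.sqrt (1 - t ^ 2) ^ m)).intervalIntegrable _ _
  rw [intervalIntegral.integral_sub
    ((by fun_prop : Continuous fun t : ℝ => Real.sqrt (1 - t ^ 2) ^ m).intervalIntegrable _ _)
    ((by fun_prop : Continuous fun t : ℝ =>
      ((m : ℝ) + 3) * (t ^ 2 * Real.sqrt (1 - t ^ 2) ^ m)).intervalIntegrable _ _),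
    intervalIntegral.integral_const_mul] at h1
  have h2 : (1 : ℝ) * Real.sqrt (1 - 1 ^ 2) ^ (m + 2) -
      (-1) * Real.sqrt (1 - (-1) ^ 2) ^ (m + 2) = 0 := by
    norm_num
  rw [h2] at h1
  linarith

/-- Second moment of a body with the profile of a ball. -/
theorem ballProf_moment {m : ℕ} (hd : finrank ℝ V = m + 1) {K : Set V} (hK : IsSymBody K) {u : V}
    (hu : ‖u‖ = 1) (h : BallProf K u m) :
    ((m : ℝ) + 3) * ∫ y in K, inner ℝ y u ^ 2 = supp K u ^ 2 * vol K := by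
  have : Nontrivial V := Module.nontrivial_of_finrank_pos (R := ℝ) (by omega)
  obtain ⟨C, hC⟩ := h
  have hpos : 0 < supp K u := supp_pos hK hu
  have key : ∀ F : ℝ → ℝ, ∫ t in (-1 : ℝ)..1, F t * vol (slice K u (supp K u * t)) =
      C * ∫ t in (-1 : ℝ)..1, F t * Real.sqrt (1 - t ^ 2) ^ m := by
    intro F
    rw [← intervalIntegral.integral_const_mul, intervalIntegral.integral_of_le (by norm_num),
      intervalIntegral.integral_of_le (by norm_num), integral_Ioc_eq_integral_Ioo,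
      integral_Ioc_eq_integral_Ioo]
    refine setIntegral_congr_fun measurableSet_Ioo fun t ht => ?_
    rw [hC t ht]; ring
  have h1 := eqMoment_integral hK hu hpos (F := fun t => t ^ 2) (by fun_prop)
  have h2 := eqMoment_integral hK hu hpos (F := fun _ => 1) (by fun_prop)
  rw [key] at h1 h2
  have e1 : ∫ y in K, (fun t : ℝ => t ^ 2) ((supp K u)⁻¹ * inner ℝ y u) =
      ((supp K u)⁻¹) ^ 2 * ∫ y in K, inner ℝ y u ^ 2 := by
    rw [← integral_const_mul]
    congr 1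
    funext y
    simp only
    ring
  have e2 : ∫ _ in K, (1 : ℝ) = vol K := by
    rw [setIntegral_const, smul_eq_mul, mul_one]; rfl
  rw [e1] at h1
  rw [e2] at h2
  simp only [one_mul] at h2
  have h3 : ∫ y in K, inner ℝ y u ^ 2 = supp K u ^ 2 * (supp K u * (C *
      ∫ t in (-1 : ℝ)..1, t ^ 2 * Real.sqrt (1 - t ^ 2) ^ m)) := by
    rw [← h1]
    field_simp
  rw [h3, h2, ← eqMoment_weight m]
  ring

end Vale.Agent.P237.AllN
end

section

/-!
# P237, all dimensions: the induction step, part 2: assembly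
-/

open MeasureTheory Metric Set Module
open scoped Pointwise

namespace Vale.Agent.P237.AllN

/-- Petty's inequality in dimension `m`. -/
def PettyIneq (m : ℕ) : Prop :=
  ∀ (W : Type) [NormedAddCommGroup W] [InnerProductSpace ℝ W] [FiniteDimensional ℝ W]
    [MeasurableSpace W] [BorelSpace W],
    finrank ℝ W = m → ∀ S : Set W, IsBody S → RC m * vol S ^ (m - 1) ≤ vol (projBody S)

theorem RC_pos {m : ℕ} (hm : 2 ≤ m) : 0 < RC m := by
  rw [RC_eq hm]
  have h1 := kappa_pos (m - 1)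
  have h2 := kappa_pos m
  (clear * - h1 h2; positivity)

variable {V : Type} [NormedAddCommGroup V] [InnerProductSpace ℝ V] [FiniteDimensional ℝ V]
  [MeasurableSpace V] [BorelSpace V]

theorem JF_eq {m : ℕ} (hm : 1 ≤ m) (hd : finrank ℝ V = m + 1) (K : Set V) (u : V)
    (c c' p' : ℝ → ℝ) : JF K u c c' p' =
      ∫ y in (-1 : ℝ)..1, (((m : ℝ) + 1) * c y + y * c' y + p' y) * rprof K u m y ^ m := by
  unfold JF
  rw [hd]
  refine intervalIntegral.integral_congr fun y _ => ?_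
  simp only [rprof, prof_pow hm]
  push_cast
  rfl

/-- The fixed point data. -/
structure Fixed (K : Set V) (r : ℝ) : Prop where
  pos : 0 < r
  eq : projBody (projBody K) = r • K
  vol : vol (projBody K) = r * vol K

theorem oned_hyp {m : ℕ} (hm : 2 ≤ m) (hd : finrank ℝ V = m + 1) (hP : PettyIneq m) {K : Set V}
    (hK : IsSymBody K) {r : ℝ} (hF : Fixed K r) (h : ratio K ≤ RC (m + 1)) {u : V}
    (hu : ‖u‖ = 1) :
    (∫ y in (-1 : ℝ)..1, rprof K u m y ^ (m - 1)) ^ m * aInt m ^ (m - 1) ≤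
      aInt (m - 1) ^ m * (∫ y in (-1 : ℝ)..1, rprof K u m y ^ m) ^ (m - 1) := by
  have hR := RC_pos hm
  have h2 : finrank ℝ ((ℝ ∙ u)ᗮ : Submodule ℝ V) = m := finrank_perp_gen hd hu
  have h1 := ratio_ge_dir hm hd hK hR.le hu (hP _ h2) hF.pos hF.eq hF.vol
  have a1 := aInt_pos (m - 1)
  have a2 := aInt_pos m
  have hv := vol_eq_rprof (m := m) (by omega) hK hu
  have p1 := Main.vol_pos hK.toIsBody
  have hpos := supp_pos hK hu
  have hI2 : 0 < ∫ y in (-1 : ℝ)..1, rprof K u m y ^ m := by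
    rw [hv] at p1
    exact (mul_pos_iff_of_pos_left hpos).1 p1
  rw [RC_succ hm] at h
  set I1 := ∫ y in (-1 : ℝ)..1, rprof K u m y ^ (m - 1)
  set I2 := ∫ y in (-1 : ℝ)..1, rprof K u m y ^ m
  have h3 : RC m * I1 ^ m ≤ RC m * (aInt (m - 1) ^ m / aInt m ^ (m - 1)) * I2 ^ (m - 1) :=
    h1.trans (mul_le_mul_of_nonneg_right h (by (clear * - hI2; positivity)))
  have h4 : I1 ^ m ≤ (aInt (m - 1) ^ m / aInt m ^ (m - 1)) * I2 ^ (m - 1) := by
    rw [mul_assoc] at h3
    exact le_of_mul_le_mul_left h3 hR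
  calc I1 ^ m * aInt m ^ (m - 1) ≤
      ((aInt (m - 1) ^ m / aInt m ^ (m - 1)) * I2 ^ (m - 1)) * aInt m ^ (m - 1) :=
        mul_le_mul_of_nonneg_right h4 (by (clear * - a2; positivity))
    _ = aInt (m - 1) ^ m * I2 ^ (m - 1) := by
        (clear * - a2 hI2 a1; field_simp)

theorem integral_ball_prof {r : ℝ → ℝ} {k : ℝ}
    (h : ∀ y ∈ Ioo (-1 : ℝ) 1, r y = k * Real.sqrt (1 - y ^ 2)) (j : ℕ) :
    ∫ y in (-1 : ℝ)..1, r y ^ j = k ^ j * aInt j := by
  unfold aInt
  rw [← intervalIntegral.integral_const_mul, intervalIntegral.integral_of_le (by norm_num),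
    intervalIntegral.integral_of_le (by norm_num), integral_Ioc_eq_integral_Ioo,
    integral_Ioc_eq_integral_Ioo]
  refine setIntegral_congr_fun measurableSet_Ioo fun y hy => ?_
  simp only [h y hy, mul_pow]

/-- A ball profile in one direction gives the optimal lower bound. -/
theorem ratio_ge_of_ball_dir {m : ℕ} (hm : 2 ≤ m) (hd : finrank ℝ V = m + 1) (hP : PettyIneq m)
    {K : Set V} (hK : IsSymBody K) {r : ℝ} (hF : Fixed K r) {u : V} (hu : ‖u‖ = 1) {k : ℝ}
    (hk : ∀ y ∈ Ioo (-1 : ℝ) 1, rprof K u m y = k * Real.sqrt (1 - y ^ 2)) :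
    RC (m + 1) ≤ ratio K := by
  have hR := RC_pos hm
  have h2 : finrank ℝ ((ℝ ∙ u)ᗮ : Submodule ℝ V) = m := finrank_perp_gen hd hu
  have h1 := ratio_ge_dir hm hd hK hR.le hu (hP _ h2) hF.pos hF.eq hF.vol
  have a1 := aInt_pos (m - 1)
  have a2 := aInt_pos m
  have hprof := rprof_isProf (m := m) (by omega) hd hK hu
  have hk0 : 0 < k := by
    have h3 := hprof.pos 0 (by norm_num)
    rw [hk 0 (by (clear * -; norm_num))] at h3
    simpa using h3
  rw [integral_ball_prof hk, integral_ball_prof hk] at h1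
  rw [RC_succ hm, mul_div_assoc', div_le_iff₀ (by positivity)]
  obtain ⟨j, rfl⟩ : ∃ j, m = j + 2 := ⟨m - 2, by omega⟩
  simp only [show j + 2 - 1 = j + 1 by omega] at h1 ⊢
  have h5 : (k ^ ((j + 1) * (j + 2))) * (RC (j + 2) * aInt (j + 1) ^ (j + 2)) ≤
      (k ^ ((j + 1) * (j + 2))) * (ratio K * aInt (j + 2) ^ (j + 1)) := by
    calc (k ^ ((j + 1) * (j + 2))) * (RC (j + 2) * aInt (j + 1) ^ (j + 2)) =
        RC (j + 2) * (k ^ (j + 1) * aInt (j + 1)) ^ (j + 2) := by rw [mul_pow, ← pow_mul]; ring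
      _ ≤ ratio K * (k ^ (j + 2) * aInt (j + 2)) ^ (j + 1) := h1
      _ = _ := by rw [mul_pow, ← pow_mul, mul_comm (j + 2) (j + 1)]; ring
  exact le_of_mul_le_mul_left h5 (by positivity)

theorem ratio_ge_of_fixed_N {m : ℕ} (hm : 2 ≤ m) (h1 : OneD m) (hP : PettyIneq m)
    (hd : finrank ℝ V = m + 1) {K : Set V} (hK : IsSymBody K) {r : ℝ} (hF : Fixed K r) :
    RC (m + 1) ≤ ratio K := by
  by_contra hcon
  push Not at hcon
  obtain ⟨A, hA, -, h⟩ := h1
  obtain ⟨C, hC⟩ := hA.bdd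
  have : Nontrivial V := Module.nontrivial_of_finrank_pos (R := ℝ) (by omega)
  have : Fact (IsSymBody K) := ⟨hK⟩
  obtain ⟨u, hu, hall⟩ := exch_body K (by omega) hA.meas hC hA.anti
  rcases h _ (rprof_isProf (by omega) hd hK hu) (oned_hyp hm hd hP hK hF hcon.le hu) with
    ⟨k, hk⟩ | ⟨c, c', p, p', hadm, hpos⟩
  · exact absurd (ratio_ge_of_ball_dir hm hd hP hK hF hu hk) (not_le.2 hcon)
  · have h2 := hall c c' p p' hadm
    rw [JF_eq (by omega) hd] at h2
    exact absurd h2 (not_le.2 hpos)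

/-- Petty's inequality, ratio form. -/
theorem petty_ratio_N {m : ℕ} (hm : 2 ≤ m) (h1 : OneD m) (hP : PettyIneq m)
    (hd : finrank ℝ V = m + 1) {K : Set V} (hK : IsBody K) : RC (m + 1) ≤ ratio K := by
  have hd0 : 0 < finrank ℝ V := by omega
  obtain ⟨K₀, hK₀, hmin⟩ := exists_global_min (V := V) hd0
  obtain ⟨r, hr, hM, hv⟩ := Main.fixed_of_ratio_le hK₀ hd0
    (hmin _ (projBody_isSymBody hK₀.toIsBody))
  calc RC (m + 1) ≤ ratio K₀ := ratio_ge_of_fixed_N hm h1 hP hd hK₀ ⟨hr, hM, hv⟩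
    _ ≤ ratio (projBody K) := hmin _ (projBody_isSymBody hK)
    _ ≤ ratio K := Main.ratio_projBody_le hK hd0

theorem petty_ineq_N {m : ℕ} (hm : 2 ≤ m) (h1 : OneD m) (hP : PettyIneq m)
    (hd : finrank ℝ V = m + 1) {K : Set V} (hK : IsBody K) :
    RC (m + 1) * vol K ^ m ≤ vol (projBody K) := by
  have h := petty_ratio_N hm h1 hP hd hK
  have p1 := Main.vol_pos hK
  unfold ratio at h
  rw [hd, le_div_iff₀ (by positivity)] at h
  simpa only [ge_iff_le, add_tsub_cancel_right] using h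

theorem pettyIneq_succ {m : ℕ} (hm : 2 ≤ m) (h1 : OneD m) (hP : PettyIneq m) :
    PettyIneq (m + 1) := by
  intro W _ _ _ _ _ hd S hS
  exact petty_ineq_N hm h1 hP hd hS

/-- An extremal symmetric body is an ellipsoid. -/
theorem sym_eq_N {m : ℕ} (hm : 2 ≤ m) (h1 : OneD m) (hP : PettyIneq m)
    (hd : finrank ℝ V = m + 1) {K : Set V} (hK : IsSymBody K)
    (h : ratio K ≤ RC (m + 1)) :
    ∃ T : V ≃ₗ[ℝ] V, K = T '' closedBall (0 : V) 1 := by
  have hd0 : 0 < finrank ℝ V := by omega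
  obtain ⟨r, hr, hM, hv⟩ := Main.fixed_of_ratio_le hK hd0
    (h.trans (petty_ratio_N hm h1 hP hd (projBody_isSymBody hK.toIsBody).toIsBody))
  have hF : Fixed K r := ⟨hr, hM, hv⟩
  obtain ⟨A, hA, hball, h1d⟩ := h1
  obtain ⟨C, hC⟩ := hA.bdd
  have : Nontrivial V := Module.nontrivial_of_finrank_pos (R := ℝ) (by omega)
  have : Fact (IsSymBody K) := ⟨hK⟩
  have hae := exch_body_ae K (by omega) hA.meas hC hA.anti (by
    intro u hu ε hε
    rcases h1d _ (rprof_isProf (by omega) hd hK hu) (oned_hyp hm hd hP hK hF h hu) with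
      ⟨k, hk⟩ | ⟨c, c', p, p', hadm, hpos⟩
    · have hk0 : 0 < k := by
        have h3 := (rprof_isProf (m := m) (by omega) hd hK hu).pos 0 (by norm_num)
        rw [hk 0 (by (clear * -; norm_num))] at h3
        simpa using h3
      obtain ⟨c, c', p, p', hadm, hb⟩ := hball (ε / k ^ m) (by (clear * - hε hk0; positivity))
      refine ⟨c, c', p, p', hadm, ?_⟩
      rw [JF_eq (by omega) hd]
      have e : ∫ y in (-1 : ℝ)..1, (((m : ℝ) + 1) * c y + y * c' y + p' y) * rprof K u m y ^ m =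
          k ^ m * ∫ y in (-1 : ℝ)..1, (((m : ℝ) + 1) * c y + y * c' y + p' y) *
            Real.sqrt (1 - y ^ 2) ^ m := by
        rw [← intervalIntegral.integral_const_mul, intervalIntegral.integral_of_le (by norm_num),
          intervalIntegral.integral_of_le (by norm_num), integral_Ioc_eq_integral_Ioo,
          integral_Ioc_eq_integral_Ioo]
        refine setIntegral_congr_fun measurableSet_Ioo fun y hy => ?_
        simp only [hk y hy, mul_pow]
        ring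
      rw [e]
      have h4 := mul_le_mul_of_nonneg_left hb (by positivity : 0 ≤ k ^ m)
      have h5 : k ^ m * -(ε / k ^ m) = -ε := by (clear * - hk0 hε; field_simp)
      linarith only [h4, h5]
    · refine ⟨c, c', p, p', hadm, ?_⟩
      rw [JF_eq (by omega) hd]
      (clear hP h r hr hM hv hF A hA hball h1d C hC hu p hadm; linarith only [hpos, hε]))
  have hae2 : ∀ᵐ x : sphere (0 : GS K) 1 ∂(gm K).toSphere, BallProf K (du K x) m := by
    filter_upwards [hae] with x hx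
    have hu := norm_du K hx.1
    rcases h1d _ (rprof_isProf (by omega) hd hK hu) (oned_hyp hm hd hP hK hF h hu) with
      ⟨k, hk⟩ | ⟨c, c', p, p', hadm, hpos⟩
    · refine ⟨k ^ m, fun t ht => ?_⟩
      rw [← prof_pow (by omega : 1 ≤ m), ← mul_pow, ← hk t ht]
      rfl
    · have h2 := hx.2 c c' p p' hadm
      rw [JF_eq (by omega) hd] at h2
      exact absurd h2 (not_le.2 hpos)
  refine ellipsoid_of_moments (n := m + 1) (by omega) hd hK fun y hy => ?_
  obtain ⟨x, hxd, hxP, hxy⟩ := good_dense K hae2 hy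
  refine ⟨dv K x, ?_, ?_⟩
  · rw [supp_dv K hxd]
    exact hxy
  · have hmom := ballProf_moment hd hK (norm_du K hxd) hxP
    have hn : ‖dv K x‖ ≠ 0 := norm_ne_zero_iff.2 (dv_ne_zero K hxd)
    have e1 : ∫ z in K, inner ℝ z (dv K x) ^ 2 = ‖dv K x‖ ^ 2 * ∫ z in K, inner ℝ z (du K x) ^ 2 := by
      rw [← integral_const_mul]
      refine integral_congr_ae (Filter.Eventually.of_forall fun z => ?_)
      simp only [du, inner_smul_right]
      (clear hP h r hr hM hv hF A hA hball h1d C hC hae hae2 y hy hxP hxy hmom; field_simp)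
    rw [e1, supp_dv K hxd, one_pow, one_mul]
    rw [supp_du K hxd] at hmom
    have e2 : (((m + 1 : ℕ) : ℝ) + 2) = (m : ℝ) + 3 := by push_cast; ring
    rw [e2]
    calc ((m : ℝ) + 3) * (‖dv K x‖ ^ 2 * ∫ z in K, inner ℝ z (du K x) ^ 2) =
        ‖dv K x‖ ^ 2 * (((m : ℝ) + 3) * ∫ z in K, inner ℝ z (du K x) ^ 2) := by ring
      _ = ‖dv K x‖ ^ 2 * (‖dv K x‖⁻¹ ^ 2 * vol K) := by rw [hmom]
      _ = vol K := by (clear hP h r hr hM hv hF A hA hball h1d C hC hae hae2 y hy hxd hxP hxy hmom e1 e2; field_simp)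

/-- An extremal body is an ellipsoid. -/
theorem petty_eq_N {m : ℕ} (hm : 2 ≤ m) (h1 : OneD m) (hP : PettyIneq m)
    (hd : finrank ℝ V = m + 1) {K : Set V} (hK : IsBody K)
    (h : vol (projBody K) = RC (m + 1) * vol K ^ m) :
    ∃ (a : V) (T : V ≃ₗ[ℝ] V), K = (fun x => a + T x) '' closedBall (0 : V) 1 := by
  have hd0 : 0 < finrank ℝ V := by omega
  have p1 := Main.vol_pos hK
  have hR : ratio K = RC (m + 1) := by
    unfold ratio
    rw [hd, h, div_eq_iff (by positivity), Nat.add_sub_cancel]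
  obtain ⟨c, r, hr, hcr⟩ := Main.petty_contract_eq_of_ratio hK hd0
    (by rw [hR]; exact petty_ratio_N hm h1 hP hd (Main.projBody_isBody hK))
  -- the translate `K' = r⁻¹ • Π² K` of `K`
  have hM : IsSymBody (projBody (projBody K)) := projBody_isSymBody (Main.projBody_isBody hK)
  have hK' : (fun x => (r⁻¹ • c) + x) '' K = r⁻¹ • projBody (projBody K) := by
    rw [hcr]
    ext y
    simp only [mem_image, mem_smul_set]
    constructor
    · rintro ⟨x, hx, rfl⟩
      exact ⟨c + r • x, ⟨r • x, ⟨x, hx, rfl⟩, rfl⟩, by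
        rw [smul_add, smul_smul, inv_mul_cancel₀ hr.ne', one_smul]⟩
    · rintro ⟨z, ⟨w, ⟨x, hx, rfl⟩, rfl⟩, rfl⟩
      exact ⟨x, hx, by rw [smul_add, smul_smul, inv_mul_cancel₀ hr.ne', one_smul]⟩
  have hsym : IsSymBody ((fun x => (r⁻¹ • c) + x) '' K) := by
    have hb : IsBody ((fun x => (r⁻¹ • c) + x) '' K) := IsBody.translate hK _
    refine ⟨hb, ?_⟩
    intro x hx
    rw [hK'] at hx ⊢
    obtain ⟨z, hz, rfl⟩ := hx
    exact ⟨-z, hM.symm z hz, by simp⟩
  obtain ⟨T, hT⟩ := sym_eq_N hm h1 hP hd hsym (by rw [ratio_translate, hR])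
  refine ⟨-(r⁻¹ • c), T, ?_⟩
  have h2 : (fun x => -(r⁻¹ • c) + x) '' ((fun x => (r⁻¹ • c) + x) '' K) = K := by
    rw [← image_comp]
    simp
  rw [← h2, hT, ← image_comp]
  rfl

/-- Ellipsoids attain equality. -/
theorem petty_ellipsoid_N {m : ℕ} (hm : 2 ≤ m) (hd : finrank ℝ V = m + 1) (a : V) (T : V ≃ₗ[ℝ] V) :
    vol (projBody ((fun x => a + T x) '' closedBall (0 : V) 1)) =
      RC (m + 1) * vol ((fun x => a + T x) '' closedBall (0 : V) 1) ^ m := by
  have hd0 : 0 < finrank ℝ V := by omega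
  have hB : IsSymBody (closedBall (0 : V) 1) := isSymBody_ball
  have he : (fun x => a + T x) '' closedBall (0 : V) 1 =
      (fun x => a + x) '' (T '' closedBall (0 : V) 1) := by
    rw [← image_comp]; rfl
  have hbody : IsBody ((fun x => a + T x) '' closedBall (0 : V) 1) := by
    rw [he]; exact IsBody.translate (IsSymBody.image T hB).toIsBody a
  have hR : ratio ((fun x => a + T x) '' closedBall (0 : V) 1) = RC (m + 1) := by
    rw [he, ratio_translate, ratio_image T hB.toIsBody hd0, ratio_ball (by omega) hd]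
  have p1 := Main.vol_pos hbody
  unfold ratio at hR
  rw [hd, div_eq_iff (by positivity), Nat.add_sub_cancel] at hR
  exact hR

open Statement in
/-- The induction step. -/
theorem pettyIn_succ {m : ℕ} (hm : 2 ≤ m) (h1 : OneD m) (hP : PettyIneq m)
    (hd : finrank ℝ V = m + 1) : PettyIn V (m + 1) := by
  intro K L hK hL
  have hK' : IsBody K := ⟨hK.1, hK.2.1, hK.2.2⟩
  obtain rfl := (isProjectionBody_iff hK).1 hL
  have hc : kappa (m + 1 - 1) ^ (m + 1) * kappa (m + 1) ^ (2 - ((m + 1 : ℕ) : ℤ)) *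
      Statement.vol K ^ (m + 1 - 1) = RC (m + 1) * P237.vol K ^ m := rfl
  rw [hc, isEllipsoid_iff]
  refine ⟨petty_ineq_N hm h1 hP hd hK', ?_, ?_⟩
  · intro h
    exact petty_eq_N hm h1 hP hd hK' h
  · rintro ⟨a, T, rfl⟩
    exact petty_ellipsoid_N hm hd a T

theorem RC_three : RC 3 = 3 * Real.pi ^ 2 / 4 := by
  unfold RC
  have h2 : (2 - ((3 : ℕ) : ℤ)) = -1 := by norm_num
  rw [h2, Statement.kappa_three, zpow_neg_one]
  norm_num
  rw [Statement.kappa_two]
  have := Real.pi_pos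
  field_simp

theorem pettyIneq_three : PettyIneq 3 := by
  intro W _ _ _ _ _ hd S hS
  rw [RC_three]
  exact Main.petty3 hd hS

/-- The inequality in all dimensions from the one-dimensional statements. -/
theorem pettyIneq_of_oneD (h : ∀ m : ℕ, 3 ≤ m → OneD m) : ∀ n : ℕ, 3 ≤ n → PettyIneq n := by
  intro n hn
  induction n, hn using Nat.le_induction with
  | base => exact pettyIneq_three
  | succ m hm ih => exact pettyIneq_succ (by omega) (h m hm) ih

/-- Petty's conjecture in all dimensions from the one-dimensional statements. -/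
theorem petty_of_oneD (h : ∀ m : ℕ, 3 ≤ m → OneD m) {n : ℕ} (hn : 3 ≤ n)
    (hd : finrank ℝ V = n) : Statement.PettyIn V n := by
  rcases hn.eq_or_lt with h3 | h3
  · subst h3
    exact Statement.petty_dim_three hd
  · obtain ⟨m, rfl⟩ : ∃ m, n = m + 1 := ⟨n - 1, by omega⟩
    exact pettyIn_succ (by omega) (h m (by omega)) (pettyIneq_of_oneD h m (by omega)) hd

end Vale.Agent.P237.AllN
end

section

/-!
# P237, all dimensions: the induction step with the Fisher term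
-/

open MeasureTheory Metric Set Module
open scoped Pointwise

namespace Vale.Agent.P237.AllN

open Exch

/-- `Q` is at most the inverse of the Fisher type functional of the density `f`. -/
def FishP (n : ℕ) (f : ℝ → ℝ) (Q : ℝ) : Prop :=
  ∀ c c' p p' : ℝ → ℝ, (∀ y, HasDerivAt c (c' y) y) → Continuous c' →
    (∀ y, HasDerivAt p (p' y) y) → Continuous p' →
    (∀ y ∈ Icc (-1 : ℝ) 1, c y + p y ^ 2 / 4 ≤ 0) →
    Q * ∫ y in (-1 : ℝ)..1, ((n : ℝ) * c y + y * c' y + p' y) * f y ≤ ∫ y in (-1 : ℝ)..1, f y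

/-- The one-dimensional statement with the Fisher term of weight `θ`. -/
def OneDF (m : ℕ) (θ : ℝ) : Prop := 0 ≤ θ ∧ ∃ A : ℝ → ℝ → ℝ, Kern A ∧
  (∀ ε > (0 : ℝ), ∃ c c' p p' : ℝ → ℝ, Adm A c c' p p' ∧
    -ε ≤ ∫ y in (-1 : ℝ)..1, (((m : ℝ) + 1) * c y + y * c' y + p' y) * Real.sqrt (1 - y ^ 2) ^ m) ∧
  ∀ r : ℝ → ℝ, IsProf r →
    (∫ y in (-1 : ℝ)..1, r y ^ (m - 1)) ^ m * aInt m ^ (m - 1) ≤
      aInt (m - 1) ^ m * (∫ y in (-1 : ℝ)..1, r y ^ m) ^ (m - 1) →
    (∃ k : ℝ, ∀ y ∈ Ioo (-1 : ℝ) 1, r y = k * Real.sqrt (1 - y ^ 2)) ∨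
    ∀ Q : ℝ, 0 ≤ Q → FishP (m + 1) (fun y => r y ^ m) Q →
      ∃ c c' p p' : ℝ → ℝ, Adm A c c' p p' ∧
        θ * (Q - 1) * (∫ y in (-1 : ℝ)..1, r y ^ m) <
          ∫ y in (-1 : ℝ)..1, (((m : ℝ) + 1) * c y + y * c' y + p' y) * r y ^ m

theorem OneD.toF {m : ℕ} (h : OneD m) : OneDF m 0 := by
  obtain ⟨A, hA, hb, h⟩ := h
  refine ⟨le_rfl, A, hA, hb, fun r hr hN => ?_⟩
  rcases h r hr hN with h1 | ⟨c, c', p, p', hadm, hpos⟩
  · exact Or.inl h1
  · refine Or.inr fun Q _ _ => ⟨c, c', p, p', hadm, ?_⟩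
    rw [zero_mul, zero_mul]
    exact hpos

section

variable {V : Type*} [NormedAddCommGroup V] [InnerProductSpace ℝ V] [FiniteDimensional ℝ V]
  [MeasurableSpace V] [BorelSpace V]

variable (K : Set V) [hK : Fact (IsSymBody K)] [Nontrivial V]

/-- the slice function in the direction `u` -/
noncomputable def slf (u : V) (t : ℝ) : ℝ := vol (slice K u (supp K u * t))

/-- **Exchangeability theorem with Fisher term for symmetric bodies.** -/
theorem exchF_body_ae (hd : 2 ≤ finrank ℝ V) {A : ℝ → ℝ → ℝ}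
    (hA : Measurable (Function.uncurry A)) {C : ℝ}
    (hC : ∀ a ∈ Icc (-1 : ℝ) 1, ∀ b ∈ Icc (-1 : ℝ) 1, |A a b| ≤ C)
    (hanti : ∀ a ∈ Icc (-1 : ℝ) 1, ∀ b ∈ Icc (-1 : ℝ) 1, A a b = -A b a) (θ : ℝ)
    (h0 : ∀ u : V, ‖u‖ = 1 → ∀ Q : ℝ, 0 ≤ Q → FishP (finrank ℝ V) (slf K u) Q →
      ∀ ε : ℝ, 0 < ε → ∃ c c' p p' : ℝ → ℝ, Adm A c c' p p' ∧
        θ * (Q - 1) * (∫ t in (-1 : ℝ)..1, slf K u t) - ε ≤ JF K u c c' p') :
    ∀ᵐ x : sphere (0 : GS K) 1 ∂(gm K).toSphere,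
      DifferentiableAt ℝ (fun y : GS K => ‖y‖) (x : GS K) ∧
      ∃ Q : ℝ, 0 ≤ Q ∧ FishP (finrank ℝ V) (slf K (du K x)) Q ∧
        ∀ c c' p p' : ℝ → ℝ, Adm A c c' p p' →
          JF K (du K x) c c' p' ≤ θ * (Q - 1) * ∫ t in (-1 : ℝ)..1, slf K (du K x) t := by
  obtain ⟨T, hTi, hT1, hT0, hT⟩ := exists_density (gm K) (by rw [finrank_GS]; exact hd)
  have hV : ∀ x : sphere (0 : GS K) 1, DifferentiableAt ℝ (fun y : GS K => ‖y‖) (x : GS K) →
      ((gm K) (ball (0 : GS K) 1)).toReal =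
        supp K (du K x) * ∫ t in (-1 : ℝ)..1, slf K (du K x) t := by
    intro x hx
    have e2 := integral_dg K hx (F := fun _ => (1 : ℝ)) continuous_const
    rw [setIntegral_const, smul_eq_mul, mul_one] at e2
    simp only [one_mul] at e2
    exact e2
  set VB := ((gm K) (ball (0 : GS K) 1)).toReal with hVB
  have hVB0 : 0 < VB := ENNReal.toReal_pos (measure_ball_pos (gm K) 0 one_pos).ne'
    measure_ball_lt_top.ne
  have hQ : ∀ x : sphere (0 : GS K) 1, DifferentiableAt ℝ (fun y : GS K => ‖y‖) (x : GS K) →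
      FishP (finrank ℝ V) (slf K (du K x)) (T x * VB) := by
    intro x hx c c' p p' hc hc' hp hp' hcp
    have hcc : Continuous c := continuous_iff_continuousAt.2 fun y => (hc y).continuousAt
    have h1 := hT x hx c c' p p' hc hc' hp hp' hcp
    have h2 := integral_dg K hx (F := fun t => (finrank ℝ V : ℝ) * c t + t * c' t + p' t)
      (by fun_prop)
    rw [finrank_GS, h2] at h1
    have hs : 0 < supp K (du K x) := supp_pos hK.out (norm_du K hx)
    have hI : 0 < ∫ t in (-1 : ℝ)..1, slf K (du K x) t := by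
      have := hV x hx
      rw [this] at hVB0
      exact (mul_pos_iff_of_pos_left hs).1 hVB0
    rw [hV x hx]
    have h3 := mul_le_mul_of_nonneg_right h1 hI.le
    calc _ = T x * (supp K (du K x) * ∫ t in (-1 : ℝ)..1,
        ((finrank ℝ V : ℝ) * c t + t * c' t + p' t) *
          vol (slice K (du K x) (supp K (du K x) * t))) * ∫ t in (-1 : ℝ)..1, slf K (du K x) t := by
          simp only [slf]
          ring
      _ ≤ _ := h3
      _ = _ := one_mul _
  have hae := exchF_ae (gm K) hA hC hanti hTi hT1 θ (by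
    filter_upwards [ae_sphere (gm K)] with x hx
    have hpos : 0 < supp K (du K x) := supp_pos hK.out (norm_du K hx)
    refine le_of_forall_pos_le_add fun ε hε => ?_
    obtain ⟨c, c', p, p', hadm, hJ⟩ := h0 (du K x) (norm_du K hx) (T x * VB)
      (mul_nonneg (hT0 x) hVB0.le) (hQ x hx) (ε / supp K (du K x)) (by (clear * - hε hpos; positivity))
    have h2 := inner_lower (gm K) (by rw [finrank_GS]; exact hd) hA hC hx hadm.hc hadm.hc'
      hadm.hp hadm.hp' hadm.hsup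
    rw [integral_adm K hx hadm] at h2
    have h3 := mul_le_mul_of_nonneg_left hJ hpos.le
    have h4 : supp K (du K x) * (θ * (T x * VB - 1) * (∫ t in (-1 : ℝ)..1, slf K (du K x) t) -
        ε / supp K (du K x)) = θ * (T x * VB - 1) * VB - ε := by
      have e := hV x hx
      rw [mul_sub, mul_div_cancel₀ _ hpos.ne']
      calc _ = θ * (T x * VB - 1) * (supp K (du K x) * ∫ t in (-1 : ℝ)..1, slf K (du K x) t) - ε := by
            ring
        _ = _ := by rw [← e]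
    rw [h4] at h3
    linarith only [h3, h2])
  filter_upwards [hae, ae_sphere (gm K)] with x hx hxd
  refine ⟨hxd, T x * VB, mul_nonneg (hT0 x) hVB0.le, hQ x hxd, fun c c' p p' hadm => ?_⟩
  have hpos : 0 < supp K (du K x) := supp_pos hK.out (norm_du K hxd)
  have h2 := inner_lower (gm K) (by rw [finrank_GS]; exact hd) hA hC hxd hadm.hc hadm.hc'
      hadm.hp hadm.hp' hadm.hsup
  rw [integral_adm K hxd hadm, hx] at h2
  have e := hV x hxd
  have h5 : θ * (T x * VB - 1) * VB = supp K (du K x) *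
      (θ * (T x * VB - 1) * ∫ t in (-1 : ℝ)..1, slf K (du K x) t) := by
    calc θ * (T x * VB - 1) * VB = θ * (T x * VB - 1) *
        (supp K (du K x) * ∫ t in (-1 : ℝ)..1, slf K (du K x) t) := by rw [← e]
      _ = _ := by ring
  rw [h5] at h2
  exact le_of_mul_le_mul_left h2 hpos

end

variable {V : Type} [NormedAddCommGroup V] [InnerProductSpace ℝ V] [FiniteDimensional ℝ V]
  [MeasurableSpace V] [BorelSpace V]

theorem slf_eq {m : ℕ} (hm : 1 ≤ m) (K : Set V) (u : V) :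
    slf K u = fun y => rprof K u m y ^ m := by
  funext y
  simp only [slf, rprof, prof_pow hm]

/-- second moment of the ball law -/
theorem aInt_moment (m : ℕ) : ((m : ℝ) + 3) * ∫ y in (-1 : ℝ)..1, y ^ 2 * Real.sqrt (1 - y ^ 2) ^ m =
    aInt m := by
  have hd : ∀ y ∈ Ioo (-1 : ℝ) 1, HasDerivAt (fun y : ℝ => y * Real.sqrt (1 - y ^ 2) ^ (m + 2))
      (Real.sqrt (1 - y ^ 2) ^ m - ((m : ℝ) + 3) * (y ^ 2 * Real.sqrt (1 - y ^ 2) ^ m)) y := by
    intro y hy
    have h0 : 0 < 1 - y ^ 2 := by (by_contra nlg; linarith [mul_pos (sub_pos.2 hy.1) (sub_pos.2 hy.2), mul_nonneg (sub_nonneg.2 (not_lt.1 nlg)) (le_of_lt (sub_pos.2 hy.2)), mul_nonneg (sub_nonneg.2 (not_lt.1 nlg)) (le_of_lt (sub_pos.2 hy.1))])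
    have e2 : HasDerivAt (fun y : ℝ => 1 - y ^ 2) (-(2 * y)) y := by
      have := (hasDerivAt_pow 2 y).const_sub 1
      refine this.congr_deriv ?_
      simp
    have e3 := ((e2.sqrt h0.ne').pow (m + 2))
    have e4 := (hasDerivAt_id y).mul e3
    refine e4.congr_deriv ?_
    have hs : 0 < Real.sqrt (1 - y ^ 2) := Real.sqrt_pos.2 h0
    have hsq : Real.sqrt (1 - y ^ 2) ^ 2 = 1 - y ^ 2 := Real.sq_sqrt h0.le
    simp only [id, Pi.pow_apply, show m + 2 - 1 = m + 1 by omega]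
    have e5 : Real.sqrt (1 - y ^ 2) ^ (m + 2) = Real.sqrt (1 - y ^ 2) ^ m * (1 - y ^ 2) := by
      rw [pow_add, hsq]
    rw [e5, pow_succ]
    field_simp
    push_cast
    ring
  have hcont : Continuous (fun y : ℝ => y * Real.sqrt (1 - y ^ 2) ^ (m + 2)) := by fun_prop
  have i1 : Continuous (fun y : ℝ => Real.sqrt (1 - y ^ 2) ^ m) := by fun_prop
  have i2 : Continuous (fun y : ℝ => y ^ 2 * Real.sqrt (1 - y ^ 2) ^ m) := by fun_prop
  have h := intervalIntegral.integral_eq_sub_of_hasDerivAt_of_le (by norm_num : (-1 : ℝ) ≤ 1)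
    hcont.continuousOn hd ((i1.sub (i2.const_mul _)).intervalIntegrable _ _)
  rw [intervalIntegral.integral_sub (i1.intervalIntegrable _ _)
    ((i2.const_mul _).intervalIntegrable _ _), intervalIntegral.integral_const_mul] at h
  simp at h
  unfold aInt
  linarith

/-- for ball profiles `Q ≤ 1` -/
theorem FishP.le_one {m : ℕ} {r : ℝ → ℝ} {k : ℝ} (hk0 : 0 < k)
    (hk : ∀ y ∈ Ioo (-1 : ℝ) 1, r y = k * Real.sqrt (1 - y ^ 2)) {Q : ℝ}
    (h : FishP (m + 1) (fun y => r y ^ m) Q) : Q ≤ 1 := by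
  have h1 := h (fun y => -y ^ 2) (fun y => -(2 * y)) (fun y => 2 * y) (fun _ => 2)
    (fun y => by
      have := (hasDerivAt_pow 2 y).neg
      refine this.congr_deriv ?_
      simp) (by fun_prop) (fun y => by
      have := (hasDerivAt_id y).const_mul 2
      refine this.congr_deriv ?_
      simp) continuous_const (fun y _ => by
      have : -y ^ 2 + (2 * y) ^ 2 / 4 = 0 := by ring
      exact this.le)
  rw [integral_ball_prof hk] at h1
  have e1 : ∫ y in (-1 : ℝ)..1, (((m + 1 : ℕ) : ℝ) * (-y ^ 2) + y * (-(2 * y)) + 2) * r y ^ m =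
      k ^ m * aInt m := by
    have e2 : ∫ y in (-1 : ℝ)..1, (((m + 1 : ℕ) : ℝ) * (-y ^ 2) + y * (-(2 * y)) + 2) * r y ^ m =
        ∫ y in (-1 : ℝ)..1, k ^ m * (2 * Real.sqrt (1 - y ^ 2) ^ m - ((m : ℝ) + 3) *
          (y ^ 2 * Real.sqrt (1 - y ^ 2) ^ m)) := by
      rw [intervalIntegral.integral_of_le (by norm_num), intervalIntegral.integral_of_le (by norm_num),
        integral_Ioc_eq_integral_Ioo, integral_Ioc_eq_integral_Ioo]
      refine setIntegral_congr_fun measurableSet_Ioo fun y hy => ?_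
      simp only [hk y hy, mul_pow]
      push_cast
      ring
    have i1 : Continuous (fun y : ℝ => Real.sqrt (1 - y ^ 2) ^ m) := by fun_prop
    have i2 : Continuous (fun y : ℝ => y ^ 2 * Real.sqrt (1 - y ^ 2) ^ m) := by fun_prop
    rw [e2, intervalIntegral.integral_const_mul,
      intervalIntegral.integral_sub ((i1.const_mul _).intervalIntegrable _ _)
      ((i2.const_mul _).intervalIntegrable _ _), intervalIntegral.integral_const_mul,
      intervalIntegral.integral_const_mul, aInt_moment]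
    have : ∫ y in (-1 : ℝ)..1, Real.sqrt (1 - y ^ 2) ^ m = aInt m := rfl
    rw [this]
    ring
  rw [e1] at h1
  have h2 : 0 < k ^ m * aInt m := mul_pos (pow_pos hk0 m) (aInt_pos m)
  (by_contra nlg; linarith only [nlg, mul_pos (sub_pos.2 (not_le.1 nlg)) (sub_pos.2 h2), h1])

theorem integral_ball_JF {m : ℕ} {r : ℝ → ℝ} {k : ℝ}
    (hk : ∀ y ∈ Ioo (-1 : ℝ) 1, r y = k * Real.sqrt (1 - y ^ 2)) (F : ℝ → ℝ) :
    ∫ y in (-1 : ℝ)..1, F y * r y ^ m =
      k ^ m * ∫ y in (-1 : ℝ)..1, F y * Real.sqrt (1 - y ^ 2) ^ m := by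
  rw [← intervalIntegral.integral_const_mul, intervalIntegral.integral_of_le (by norm_num),
    intervalIntegral.integral_of_le (by norm_num), integral_Ioc_eq_integral_Ioo,
    integral_Ioc_eq_integral_Ioo]
  refine setIntegral_congr_fun measurableSet_Ioo fun y hy => ?_
  simp only [hk y hy, mul_pow]
  ring

/-- common part: the almost everywhere statement under the one-dimensional hypothesis -/
theorem oneDF_ae {m : ℕ} (hm : 2 ≤ m) {θ : ℝ} (h1 : OneDF m θ) (hP : PettyIneq m)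
    (hd : finrank ℝ V = m + 1) {K : Set V} [hK : Fact (IsSymBody K)] [Nontrivial V] {r : ℝ}
    (hF : Fixed K r) (h : ratio K ≤ RC (m + 1)) :
    ∀ᵐ x : sphere (0 : GS K) 1 ∂(gm K).toSphere,
      DifferentiableAt ℝ (fun y : GS K => ‖y‖) (x : GS K) ∧
      ∃ k : ℝ, ∀ y ∈ Ioo (-1 : ℝ) 1, rprof K (du K x) m y = k * Real.sqrt (1 - y ^ 2) := by
  obtain ⟨hθ, A, hA, hball, h1d⟩ := h1
  obtain ⟨C, hC⟩ := hA.bdd
  have hI0 : ∀ u : V, ‖u‖ = 1 → 0 < ∫ y in (-1 : ℝ)..1, rprof K u m y ^ m := by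
    intro u hu
    have hv := vol_eq_rprof (m := m) (by omega) hK.out hu
    have p1 := Main.vol_pos hK.out.toIsBody
    rw [hv] at p1
    exact (mul_pos_iff_of_pos_left (supp_pos hK.out hu)).1 p1
  have hae := exchF_body_ae K (by omega) hA.meas hC hA.anti θ (by
    intro u hu Q hQ0 hQ ε hε
    rw [slf_eq (m := m) (by omega), hd] at hQ
    rw [slf_eq (m := m) (by omega)]
    rcases h1d _ (rprof_isProf (by omega) hd hK.out hu) (oned_hyp hm hd hP hK.out hF h hu) with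
      ⟨k, hk⟩ | h2
    · have hk0 : 0 < k := by
        have h3 := (rprof_isProf (m := m) (by omega) hd hK.out hu).pos 0 (by norm_num)
        rw [hk 0 (by norm_num)] at h3
        simpa using h3
      obtain ⟨c, c', p, p', hadm, hb⟩ := hball (ε / k ^ m) (by positivity)
      refine ⟨c, c', p, p', hadm, ?_⟩
      have hQ1 := FishP.le_one hk0 hk hQ
      rw [JF_eq (by omega) hd, integral_ball_JF hk]
      have h4 := mul_le_mul_of_nonneg_left hb (by positivity : 0 ≤ k ^ m)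
      have h5 : k ^ m * -(ε / k ^ m) = -ε := by field_simp
      have h6 : θ * (Q - 1) * ∫ t in (-1 : ℝ)..1, rprof K u m t ^ m ≤ 0 :=
        mul_nonpos_of_nonpos_of_nonneg (mul_nonpos_of_nonneg_of_nonpos hθ (by linarith only [hQ1]))
          (hI0 u hu).le
      linarith only [h6, h5, h4]
    · obtain ⟨c, c', p, p', hadm, hpos⟩ := h2 Q hQ0 hQ
      refine ⟨c, c', p, p', hadm, ?_⟩
      rw [JF_eq (by omega) hd]
      linarith)
  filter_upwards [hae] with x hx
  refine ⟨hx.1, ?_⟩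
  have hu := norm_du K hx.1
  obtain ⟨Q, hQ0, hQ, hall⟩ := hx.2
  rw [slf_eq (m := m) (by omega), hd] at hQ
  rw [slf_eq (m := m) (by omega)] at hall
  rcases h1d _ (rprof_isProf (by omega) hd hK.out hu) (oned_hyp hm hd hP hK.out hF h hu) with
    h2 | h2
  · exact h2
  · obtain ⟨c, c', p, p', hadm, hpos⟩ := h2 Q hQ0 hQ
    have h3 := hall c c' p p' hadm
    rw [JF_eq (by omega) hd] at h3
    exact absurd h3 (not_le.2 hpos)

theorem ratio_ge_of_fixed_F {m : ℕ} (hm : 2 ≤ m) {θ : ℝ} (h1 : OneDF m θ) (hP : PettyIneq m)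
    (hd : finrank ℝ V = m + 1) {K : Set V} (hK : IsSymBody K) {r : ℝ} (hF : Fixed K r) :
    RC (m + 1) ≤ ratio K := by
  by_contra hcon
  push Not at hcon
  have : Nontrivial V := Module.nontrivial_of_finrank_pos (R := ℝ) (by omega)
  have : Fact (IsSymBody K) := ⟨hK⟩
  have hae := oneDF_ae hm h1 hP hd hF hcon.le
  have h3 : ∀ᵐ _ : sphere (0 : GS K) 1 ∂(gm K).toSphere, False := by
    filter_upwards [hae] with x hx
    obtain ⟨k, hk⟩ := hx.2
    exact absurd (ratio_ge_of_ball_dir hm hd hP hK hF (norm_du K hx.1) hk) (not_le.2 hcon)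
  have h4 : (gm K).toSphere = 0 := by
    rw [Filter.eventually_false_iff_eq_bot, ae_eq_bot] at h3
    exact h3
  exact Measure.toSphere_ne_zero (gm K) h4

/-- Petty's inequality, ratio form. -/
theorem petty_ratio_F {m : ℕ} (hm : 2 ≤ m) {θ : ℝ} (h1 : OneDF m θ) (hP : PettyIneq m)
    (hd : finrank ℝ V = m + 1) {K : Set V} (hK : IsBody K) : RC (m + 1) ≤ ratio K := by
  have hd0 : 0 < finrank ℝ V := by omega
  obtain ⟨K₀, hK₀, hmin⟩ := exists_global_min (V := V) hd0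
  obtain ⟨r, hr, hM, hv⟩ := Main.fixed_of_ratio_le hK₀ hd0
    (hmin _ (projBody_isSymBody hK₀.toIsBody))
  calc RC (m + 1) ≤ ratio K₀ := ratio_ge_of_fixed_F hm h1 hP hd hK₀ ⟨hr, hM, hv⟩
    _ ≤ ratio (projBody K) := hmin _ (projBody_isSymBody hK)
    _ ≤ ratio K := Main.ratio_projBody_le hK hd0

theorem petty_ineq_F {m : ℕ} (hm : 2 ≤ m) {θ : ℝ} (h1 : OneDF m θ) (hP : PettyIneq m)
    (hd : finrank ℝ V = m + 1) {K : Set V} (hK : IsBody K) :
    RC (m + 1) * vol K ^ m ≤ vol (projBody K) := by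
  have h := petty_ratio_F hm h1 hP hd hK
  have p1 := Main.vol_pos hK
  unfold ratio at h
  rw [hd, le_div_iff₀ (by positivity)] at h
  simpa using h

theorem pettyIneq_succ_F {m : ℕ} (hm : 2 ≤ m) {θ : ℝ} (h1 : OneDF m θ) (hP : PettyIneq m) :
    PettyIneq (m + 1) := by
  intro W _ _ _ _ _ hd S hS
  exact petty_ineq_F hm h1 hP hd hS

/-- An extremal symmetric body is an ellipsoid. -/
theorem sym_eq_F {m : ℕ} (hm : 2 ≤ m) {θ : ℝ} (h1 : OneDF m θ) (hP : PettyIneq m)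
    (hd : finrank ℝ V = m + 1) {K : Set V} (hK : IsSymBody K)
    (h : ratio K ≤ RC (m + 1)) :
    ∃ T : V ≃ₗ[ℝ] V, K = T '' closedBall (0 : V) 1 := by
  have hd0 : 0 < finrank ℝ V := by omega
  obtain ⟨r, hr, hM, hv⟩ := Main.fixed_of_ratio_le hK hd0
    (h.trans (petty_ratio_F hm h1 hP hd (projBody_isSymBody hK.toIsBody).toIsBody))
  have hF : Fixed K r := ⟨hr, hM, hv⟩
  have : Nontrivial V := Module.nontrivial_of_finrank_pos (R := ℝ) (by omega)
  have : Fact (IsSymBody K) := ⟨hK⟩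
  have hae := oneDF_ae hm h1 hP hd hF h
  have hae2 : ∀ᵐ x : sphere (0 : GS K) 1 ∂(gm K).toSphere, BallProf K (du K x) m := by
    filter_upwards [hae] with x hx
    obtain ⟨k, hk⟩ := hx.2
    refine ⟨k ^ m, fun t ht => ?_⟩
    rw [← prof_pow (by omega : 1 ≤ m), ← mul_pow, ← hk t ht]
    rfl
  refine ellipsoid_of_moments (n := m + 1) (by omega) hd hK fun y hy => ?_
  obtain ⟨x, hxd, hxP, hxy⟩ := good_dense K hae2 hy
  refine ⟨dv K x, ?_, ?_⟩
  · rw [supp_dv K hxd]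
    exact hxy
  · have hmom := ballProf_moment hd hK (norm_du K hxd) hxP
    have hn : ‖dv K x‖ ≠ 0 := norm_ne_zero_iff.2 (dv_ne_zero K hxd)
    have e1 : ∫ z in K, inner ℝ z (dv K x) ^ 2 = ‖dv K x‖ ^ 2 * ∫ z in K, inner ℝ z (du K x) ^ 2 := by
      rw [← integral_const_mul]
      refine integral_congr_ae (Filter.Eventually.of_forall fun z => ?_)
      simp only [du, inner_smul_right]
      field_simp
    rw [e1, supp_dv K hxd, one_pow, one_mul]
    rw [supp_du K hxd] at hmom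
    have e2 : (((m + 1 : ℕ) : ℝ) + 2) = (m : ℝ) + 3 := by push_cast; ring
    rw [e2]
    calc ((m : ℝ) + 3) * (‖dv K x‖ ^ 2 * ∫ z in K, inner ℝ z (du K x) ^ 2) =
        ‖dv K x‖ ^ 2 * (((m : ℝ) + 3) * ∫ z in K, inner ℝ z (du K x) ^ 2) := by ring
      _ = ‖dv K x‖ ^ 2 * (‖dv K x‖⁻¹ ^ 2 * vol K) := by rw [hmom]
      _ = vol K := by field_simp

/-- Symmetric rigidity implies rigidity. -/
theorem petty_eq_of_sym {m : ℕ} (hm : 2 ≤ m) (hrat : ∀ K : Set V, IsBody K → RC (m + 1) ≤ ratio K)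
    (hsy : ∀ K : Set V, IsSymBody K → ratio K ≤ RC (m + 1) →
      ∃ T : V ≃ₗ[ℝ] V, K = T '' closedBall (0 : V) 1)
    (hd : finrank ℝ V = m + 1) {K : Set V} (hK : IsBody K)
    (h : vol (projBody K) = RC (m + 1) * vol K ^ m) :
    ∃ (a : V) (T : V ≃ₗ[ℝ] V), K = (fun x => a + T x) '' closedBall (0 : V) 1 := by
  have hd0 : 0 < finrank ℝ V := by omega
  have p1 := Main.vol_pos hK
  have hR : ratio K = RC (m + 1) := by
    unfold ratio
    rw [hd, h, div_eq_iff (by positivity), Nat.add_sub_cancel]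
  obtain ⟨c, r, hr, hcr⟩ := Main.petty_contract_eq_of_ratio hK hd0
    (by rw [hR]; exact hrat _ (Main.projBody_isBody hK))
  have hM : IsSymBody (projBody (projBody K)) := projBody_isSymBody (Main.projBody_isBody hK)
  have hK' : (fun x => (r⁻¹ • c) + x) '' K = r⁻¹ • projBody (projBody K) := by
    rw [hcr]
    ext y
    simp only [mem_image, mem_smul_set]
    constructor
    · rintro ⟨x, hx, rfl⟩
      exact ⟨c + r • x, ⟨r • x, ⟨x, hx, rfl⟩, rfl⟩, by
        rw [smul_add, smul_smul, inv_mul_cancel₀ hr.ne', one_smul]⟩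
    · rintro ⟨z, ⟨w, ⟨x, hx, rfl⟩, rfl⟩, rfl⟩
      exact ⟨x, hx, by rw [smul_add, smul_smul, inv_mul_cancel₀ hr.ne', one_smul]⟩
  have hsym : IsSymBody ((fun x => (r⁻¹ • c) + x) '' K) := by
    have hb : IsBody ((fun x => (r⁻¹ • c) + x) '' K) := IsBody.translate hK _
    refine ⟨hb, ?_⟩
    intro x hx
    rw [hK'] at hx ⊢
    obtain ⟨z, hz, rfl⟩ := hx
    exact ⟨-z, hM.symm z hz, by simp⟩
  obtain ⟨T, hT⟩ := hsy _ hsym (by rw [ratio_translate, hR])
  refine ⟨-(r⁻¹ • c), T, ?_⟩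
  have h2 : (fun x => -(r⁻¹ • c) + x) '' ((fun x => (r⁻¹ • c) + x) '' K) = K := by
    rw [← image_comp]
    simp
  rw [← h2, hT, ← image_comp]
  rfl

open Statement in
/-- The induction step. -/
theorem pettyIn_succ_F {m : ℕ} (hm : 2 ≤ m) {θ : ℝ} (h1 : OneDF m θ) (hP : PettyIneq m)
    (hd : finrank ℝ V = m + 1) : PettyIn V (m + 1) := by
  intro K L hK hL
  have hK' : IsBody K := ⟨hK.1, hK.2.1, hK.2.2⟩
  obtain rfl := (isProjectionBody_iff hK).1 hL
  have hc : kappa (m + 1 - 1) ^ (m + 1) * kappa (m + 1) ^ (2 - ((m + 1 : ℕ) : ℤ)) *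
      Statement.vol K ^ (m + 1 - 1) = RC (m + 1) * P237.vol K ^ m := rfl
  rw [hc, isEllipsoid_iff]
  refine ⟨petty_ineq_F hm h1 hP hd hK', ?_, ?_⟩
  · intro h
    exact petty_eq_of_sym hm (fun K hK => petty_ratio_F hm h1 hP hd hK)
      (fun K hK h => sym_eq_F hm h1 hP hd hK h) hd hK' h
  · rintro ⟨a, T, rfl⟩
    exact petty_ellipsoid_N hm hd a T

/-- The inequality in all dimensions from the one-dimensional statements. -/
theorem pettyIneq_of_oneDF {N : ℕ} (h : ∀ m : ℕ, 3 ≤ m → m < N → ∃ θ : ℝ, OneDF m θ) :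
    ∀ n : ℕ, 3 ≤ n → n ≤ N → PettyIneq n := by
  intro n hn
  induction n, hn using Nat.le_induction with
  | base => exact fun _ => pettyIneq_three
  | succ m hm ih =>
    intro hN
    obtain ⟨θ, hθ⟩ := h m hm (by omega)
    exact pettyIneq_succ_F (by omega) hθ (ih (by omega))

/-- Petty's conjecture in dimensions `3 ≤ n ≤ N` from the one-dimensional statements. -/
theorem petty_of_oneDF {N : ℕ} (h : ∀ m : ℕ, 3 ≤ m → m < N → ∃ θ : ℝ, OneDF m θ) {n : ℕ}
    (hn : 3 ≤ n) (hN : n ≤ N) (hd : finrank ℝ V = n) : Statement.PettyIn V n := by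
  rcases hn.eq_or_lt with h3 | h3
  · subst h3
    exact Statement.petty_dim_three hd
  · obtain ⟨m, rfl⟩ : ∃ m, n = m + 1 := ⟨n - 1, by omega⟩
    obtain ⟨θ, hθ⟩ := h m (by omega) (by omega)
    exact pettyIn_succ_F (by omega) hθ (pettyIneq_of_oneDF h m (by omega) (by omega)) hd

end Vale.Agent.P237.AllN
end

section

/-!
# P237, all dimensions: the correction term `s (g₀(x e^l) - g₀(x)) + (1-s)/(1+s) l` (input (h8))
-/

set_option linter.all false

namespace Vale.Agent.P237.AllN.Corr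

open PolyPos Real

/-! ## exponential bounds -/

theorem exp_le_quad {x : ℝ} (hx : x ≤ 0) : exp x ≤ 1 + x + x ^ 2 / 2 := by
  have h1 := Real.quadratic_le_exp_of_nonneg (x := -x) (by linarith only [hx])
  have h2 : exp x * exp (-x) = 1 := by rw [← exp_add]; simp
  have h3 : 0 < exp x := exp_pos x
  have h4 : exp x * (1 + -x + (-x) ^ 2 / 2) ≤ 1 := by
    have := mul_le_mul_of_nonneg_left h1 h3.le
    rwa [h2] at this
  have h5 : 0 < 1 + x + x ^ 2 / 2 := by (by_contra nlg; linarith only [nlg, mul_nonneg (sub_nonneg.2 (not_lt.1 nlg)) (sub_nonneg.2 (not_lt.1 nlg)), mul_nonneg (sq_nonneg (1 * x : ℝ)) (sub_nonneg.2 (not_lt.1 nlg)), mul_nonneg (sq_nonneg (1 * x : ℝ)) (sq_nonneg (1 * x : ℝ))])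
  by_contra h
  push Not at h
  have h6 : (1 + x + x ^ 2 / 2) * (1 + -x + (-x) ^ 2 / 2) <
      exp x * (1 + -x + (-x) ^ 2 / 2) := mul_lt_mul_of_pos_right h (by nlinarith only [])
  nlinarith only [h4, h6]

theorem slope_mono {l a : ℝ} (hl : 0 < l) (hla : l ≤ a) :
    exp (2 * l) - 1 ≤ l / a * (exp (2 * a) - 1) := by
  have ha : 0 < a := hl.trans_le hla
  have hc := convexOn_exp
  have h := hc.2 (Set.mem_univ (2 * a)) (Set.mem_univ (0 : ℝ)) (show (0 : ℝ) ≤ l / a by (clear * - hl ha; positivity))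
    (show (0 : ℝ) ≤ 1 - l / a by rw [sub_nonneg, div_le_one ha]; exact hla) (by ring)
  simp only [smul_eq_mul, exp_zero, mul_one, mul_zero, add_zero] at h
  have e : l / a * (2 * a) = 2 * l := by (clear * - ha hl; field_simp)
  rw [e] at h
  linarith only [h]

/-- `(x-2)e^x + x + 2 ≥ 0` -/
theorem aux_nonneg {x : ℝ} (hx : 0 ≤ x) : 0 ≤ (x - 2) * exp x + x + 2 := by
  have hd : ∀ y : ℝ, HasDerivAt (fun x : ℝ => (x - 2) * exp x + x + 2)
      ((y - 1) * exp y + 1) y := by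
    intro y
    have h1 := (((hasDerivAt_id y).sub_const 2).mul (Real.hasDerivAt_exp y)).add (hasDerivAt_id y)
    refine (h1.add_const 2).congr_deriv ?_
    simp only [id]
    ring
  have hpos : ∀ y : ℝ, 0 ≤ y → 0 ≤ (y - 1) * exp y + 1 := by
    intro y hy
    have h1 : exp y * exp (-y) = 1 := by rw [← exp_add]; simp only [add_neg_cancel, exp_zero]
    have h2 : 1 - y ≤ exp (-y) := by linarith only [add_one_le_exp (-y)]
    linarith only [mul_nonneg (sub_nonneg.2 h2) (le_of_lt (sub_pos.2 (exp_pos y))), h1]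
  have hm : MonotoneOn (fun x : ℝ => (x - 2) * exp x + x + 2) (Set.Ici 0) := by
    refine monotoneOn_of_deriv_nonneg (convex_Ici 0) ?_ ?_ ?_
    · exact fun y _ => (hd y).continuousAt.continuousWithinAt
    · exact fun y _ => (hd y).differentiableAt.differentiableWithinAt
    · intro y hy
      rw [interior_Ici] at hy
      rw [(hd y).deriv]
      exact hpos y (le_of_lt hy)
  have h := hm (Set.mem_Ici.2 le_rfl) (Set.mem_Ici.2 hx) hx
  simp only [zero_sub, exp_zero, mul_one, add_zero] at h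
  linarith

theorem quad_mono' {x y : ℝ} (hx : 0 < x) (hxy : x ≤ y) :
    (exp x - 1 - x) / x ^ 2 ≤ (exp y - 1 - y) / y ^ 2 := by
  have hd : ∀ z : ℝ, 0 < z → HasDerivAt (fun x : ℝ => (exp x - 1 - x) / x ^ 2)
      (((z - 2) * exp z + z + 2) / z ^ 3) z := by
    intro z hz
    have h1 := (((Real.hasDerivAt_exp z).sub_const 1).sub (hasDerivAt_id z)).div
      (hasDerivAt_pow 2 z) (by positivity)
    refine h1.congr_deriv ?_
    simp only [Pi.sub_apply, id]
    field_simp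
    push_cast
    ring_nf
  have hm : MonotoneOn (fun x : ℝ => (exp x - 1 - x) / x ^ 2) (Set.Ioi 0) := by
    refine monotoneOn_of_deriv_nonneg (convex_Ioi 0) ?_ ?_ ?_
    · exact fun y hy => (hd y hy).continuousAt.continuousWithinAt
    · intro y hy
      rw [interior_Ioi] at hy
      exact (hd y hy).differentiableAt.differentiableWithinAt
    · intro y hy
      rw [interior_Ioi] at hy
      rw [(hd y hy).deriv]
      have := aux_nonneg (x := y) (le_of_lt hy)
      have hy' : (0 : ℝ) < y := hy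
      (clear * - this hy'; positivity)
  exact hm (Set.mem_Ioi.2 hx) (Set.mem_Ioi.2 (hx.trans_le hxy)) hxy

theorem quad_mono {l a : ℝ} (hl : 0 < l) (hla : l ≤ a) :
    exp (2 * l) - 1 - 2 * l ≤ (l / a) ^ 2 * (exp (2 * a) - 1 - 2 * a) := by
  have ha : 0 < a := hl.trans_le hla
  have h := quad_mono' (x := 2 * l) (y := 2 * a) (by (clear * - hl; positivity)) (by linarith)
  rw [div_le_div_iff₀ (by positivity) (by positivity)] at h
  have h2 : 0 < a ^ 2 := by positivity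
  rw [div_pow, div_mul_eq_mul_div, le_div_iff₀ h2]
  linarith

/-! ## the algebraic identity -/

/-- the correction term -/
noncomputable def Fc (s sig l : ℝ) : ℝ :=
  s * (sig / (1 + sig) - s / (1 + s)) + (1 - s) / (1 + s) * l

theorem Fc_eq {s sig l z e : ℝ} (hs : 0 < s) (hsig : 0 ≤ sig) (hz : z = 1 - s ^ 2)
    (he : sig ^ 2 = 1 - z * e) :
    Fc s sig l = z / (1 + s) ^ 2 * (-((e - 1) ^ 2 * z * (1 + 2 * s + sig) /
      (2 * (sig + s) ^ 2 * (1 + sig)) + (e - 1 - 2 * l) / 2)) := by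
  have h1 : z * (e - 1) = s ^ 2 - sig ^ 2 := by rw [he, hz]; ring
  have h2 : z * ((e - 1) ^ 2 * z * (1 + 2 * s + sig) / (2 * (sig + s) ^ 2 * (1 + sig))) =
      (s - sig) ^ 2 * (1 + 2 * s + sig) / (2 * (1 + sig)) := by
    have h3 : z * ((e - 1) ^ 2 * z * (1 + 2 * s + sig)) =
        (sig + s) ^ 2 * ((s - sig) ^ 2 * (1 + 2 * s + sig)) := by
      have h4 : (z * (e - 1)) ^ 2 = (s ^ 2 - sig ^ 2) ^ 2 := by rw [h1]
      linear_combination (1 + 2 * s + sig) * h4
    rw [← mul_div_assoc, h3]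
    have h5 : (sig + s) ≠ 0 := by (clear * - hsig hs; positivity)
    field_simp
  have h6 : z / (1 + s) ^ 2 * (-((e - 1) ^ 2 * z * (1 + 2 * s + sig) /
      (2 * (sig + s) ^ 2 * (1 + sig)) + (e - 1 - 2 * l) / 2)) =
      (-((s - sig) ^ 2 * (1 + 2 * s + sig) / (2 * (1 + sig))) - (s ^ 2 - sig ^ 2) / 2 + z * l) /
        (1 + s) ^ 2 := by
    rw [← h2, ← h1]
    ring
  rw [h6, Fc, hz]
  field_simp
  ring

/-- reduction of the bound to an inequality for `e = exp (2 l)` -/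
theorem Fc_ge {s sig l z e C : ℝ} (hs : 0 < s) (hsig : 0 ≤ sig) (hz : z = 1 - s ^ 2) (hz0 : 0 ≤ z)
    (he : sig ^ 2 = 1 - z * e)
    (h : (e - 1) ^ 2 * z * (1 + 2 * s + sig) / (2 * (sig + s) ^ 2 * (1 + sig)) +
      (e - 1 - 2 * l) / 2 ≤ C * (1 + s) ^ 2 / s ^ 2 * l ^ 2) :
    -(C * (z / s ^ 2) * l ^ 2) ≤ Fc s sig l := by
  rw [Fc_eq hs hsig hz he]
  have h1 : C * (z / s ^ 2) * l ^ 2 = z / (1 + s) ^ 2 * (C * (1 + s) ^ 2 / s ^ 2 * l ^ 2) := by
    field_simp
  rw [h1, ← mul_neg]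
  exact mul_le_mul_of_nonneg_left (neg_le_neg h) (by (clear * - hz0 hs; positivity))

theorem K_anti {s σ sig : ℝ} (hs : 0 < s) (hσ : 0 ≤ σ) (h : σ ≤ sig) :
    (1 + 2 * s + sig) / ((sig + s) ^ 2 * (1 + sig)) ≤ (1 + 2 * s + σ) / ((σ + s) ^ 2 * (1 + σ)) := by
  have hsig : 0 ≤ sig := hσ.trans h
  rw [div_le_div_iff₀ (by positivity) (by (clear * - hσ hs; positivity))]
  have h1 : (1 + 2 * s + sig) * (1 + σ) ≤ (1 + 2 * s + σ) * (1 + sig) := by (clear * - hs h; linarith only [mul_nonneg (le_of_lt (sub_pos.2 hs)) (sub_nonneg.2 h)])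
  have h2 : (σ + s) ^ 2 ≤ (sig + s) ^ 2 := by
    apply pow_le_pow_left₀ (by positivity); linarith only [h]
  calc (1 + 2 * s + sig) * ((σ + s) ^ 2 * (1 + σ)) = (σ + s) ^ 2 * ((1 + 2 * s + sig) * (1 + σ)) := by
        ring
    _ ≤ (sig + s) ^ 2 * ((1 + 2 * s + σ) * (1 + sig)) :=
        mul_le_mul h2 h1 (by positivity) (by positivity)
    _ = _ := by ring

/-- **the general lemma for `l > 0`** -/
theorem gen {s sig l a σ E C z : ℝ} (hs : 0 < s) (hz : z = 1 - s ^ 2) (hz0 : 0 ≤ z) (hσ : 0 ≤ σ)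
    (hsig : 0 ≤ sig) (he : sig ^ 2 = 1 - z * exp (2 * l)) (hl : 0 < l) (hla : l ≤ a)
    (hE : exp (2 * a) ≤ E) (hσE : σ ^ 2 ≤ 1 - z * E)
    (hst : (E - 1) ^ 2 * z * (1 + 2 * s + σ) / ((σ + s) ^ 2 * (1 + σ)) + (E - 1 - 2 * a) ≤
      2 * C * (1 + s) ^ 2 * a ^ 2 / s ^ 2) :
    -(C * (z / s ^ 2) * l ^ 2) ≤ Fc s sig l := by
  refine Fc_ge hs hsig hz hz0 he ?_
  have ha : 0 < a := hl.trans_le hla
  have h1 := slope_mono hl hla
  have h2 := quad_mono hl hla
  have hla' : 0 < l / a := by (clear * - hl ha; positivity)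
  have he1 : 0 ≤ exp (2 * l) - 1 := by
    have := add_one_le_exp (2 * l); linarith only [this, hl]
  have h3 : exp (2 * l) - 1 ≤ l / a * (E - 1) :=
    h1.trans (mul_le_mul_of_nonneg_left (by linarith only [hE]) hla'.le)
  have h4 : exp (2 * l) - 1 - 2 * l ≤ (l / a) ^ 2 * (E - 1 - 2 * a) :=
    h2.trans (mul_le_mul_of_nonneg_left (by linarith only [hE]) (by (clear * - hl ha; positivity)))
  have h5 : σ ≤ sig := by
    have : exp (2 * l) ≤ E := (exp_le_exp.2 (by linarith only [hla])).trans hE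
    have h6 : σ ^ 2 ≤ sig ^ 2 := by
      rw [he]
      have := mul_le_mul_of_nonneg_left this hz0
      linarith only [hσE, this]
    exact (sq_le_sq₀ hσ hsig).1 h6
  have h7 := K_anti hs hσ h5
  have h8 : (exp (2 * l) - 1) ^ 2 ≤ (l / a) ^ 2 * (E - 1) ^ 2 := by
    rw [← mul_pow]
    exact pow_le_pow_left₀ he1 h3 2
  set K := (1 + 2 * s + σ) / ((σ + s) ^ 2 * (1 + σ)) with hK
  have hK0 : 0 ≤ K := by (clear * - hs hσ; positivity)
  have h9 : (exp (2 * l) - 1) ^ 2 * z * (1 + 2 * s + sig) / (2 * (sig + s) ^ 2 * (1 + sig)) ≤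
      (l / a) ^ 2 * (E - 1) ^ 2 * z * K / 2 := by
    have e1 : (exp (2 * l) - 1) ^ 2 * z * (1 + 2 * s + sig) / (2 * (sig + s) ^ 2 * (1 + sig)) =
        (exp (2 * l) - 1) ^ 2 * z * ((1 + 2 * s + sig) / ((sig + s) ^ 2 * (1 + sig))) / 2 := by
      have : (sig + s) ≠ 0 := by positivity
      (clear * - hsig this hs; field_simp)
    rw [e1]
    apply div_le_div_of_nonneg_right _ (by norm_num)
    exact mul_le_mul (mul_le_mul_of_nonneg_right h8 hz0) h7 (by (clear * - hs hsig; positivity)) (by (clear * - hl ha hz0; positivity))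
  have h10 : (E - 1) ^ 2 * z * K + (E - 1 - 2 * a) ≤ 2 * C * (1 + s) ^ 2 * a ^ 2 / s ^ 2 := by
    rw [hK, ← mul_div_assoc]
    exact hst
  calc (exp (2 * l) - 1) ^ 2 * z * (1 + 2 * s + sig) / (2 * (sig + s) ^ 2 * (1 + sig)) +
        (exp (2 * l) - 1 - 2 * l) / 2 ≤
        (l / a) ^ 2 * (E - 1) ^ 2 * z * K / 2 + (l / a) ^ 2 * (E - 1 - 2 * a) / 2 := by linarith only [h9, h4]
    _ = (l / a) ^ 2 / 2 * ((E - 1) ^ 2 * z * K + (E - 1 - 2 * a)) := by ring
    _ ≤ (l / a) ^ 2 / 2 * (2 * C * (1 + s) ^ 2 * a ^ 2 / s ^ 2) :=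
        mul_le_mul_of_nonneg_left h10 (by (clear * - hl ha; positivity))
    _ = C * (1 + s) ^ 2 / s ^ 2 * l ^ 2 := by (clear * - ha hs hl; field_simp)

/-- the case `l ≤ 0` -/
theorem neg_case {s sig l C z : ℝ} (hs : 0 < s) (hz : z = 1 - s ^ 2) (hz0 : 0 ≤ z)
    (hsig : 0 ≤ sig) (he : sig ^ 2 = 1 - z * exp (2 * l)) (hl : l ≤ 0)
    (hC : 1 + 2 * s - s ^ 2 ≤ 2 * C * (1 + s) ^ 2) :
    -(C * (z / s ^ 2) * l ^ 2) ≤ Fc s sig l := by
  refine Fc_ge hs hsig hz hz0 he ?_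
  have h1 := exp_le_quad (x := 2 * l) (by linarith only [hl])
  have h2 := add_one_le_exp (2 * l)
  have h3 : exp (2 * l) ≤ 1 := exp_le_one_iff.2 (by linarith only [hl])
  have h4 : (exp (2 * l) - 1) ^ 2 ≤ 4 * l ^ 2 := by linarith only [mul_nonneg (sub_nonneg.2 h2) (sub_nonneg.2 h3), mul_nonneg (sub_nonneg.2 h2) (sub_nonneg.2 h2)]
  have h5 : s ≤ sig := by
    have h6 : s ^ 2 ≤ sig ^ 2 := by
      rw [he]
      have := mul_le_mul_of_nonneg_left h3 hz0
      linarith only [hz, this]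
    exact (sq_le_sq₀ hs.le hsig).1 h6
  have h7 := K_anti hs hs.le h5
  have h9 : (exp (2 * l) - 1) ^ 2 * z * (1 + 2 * s + sig) / (2 * (sig + s) ^ 2 * (1 + sig)) ≤
      4 * l ^ 2 * z * ((1 + 2 * s + s) / ((s + s) ^ 2 * (1 + s))) / 2 := by
    have e1 : (exp (2 * l) - 1) ^ 2 * z * (1 + 2 * s + sig) / (2 * (sig + s) ^ 2 * (1 + sig)) =
        (exp (2 * l) - 1) ^ 2 * z * ((1 + 2 * s + sig) / ((sig + s) ^ 2 * (1 + sig))) / 2 := by
      have : (sig + s) ≠ 0 := by (clear * - hsig hs; positivity)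
      field_simp
    rw [e1]
    apply div_le_div_of_nonneg_right _ (by norm_num)
    exact mul_le_mul (mul_le_mul_of_nonneg_right h4 hz0) h7 (by (clear * - hs hsig; positivity)) (by (clear * - hz0; positivity))
  have h10 : 4 * l ^ 2 * z * ((1 + 2 * s + s) / ((s + s) ^ 2 * (1 + s))) / 2 + l ^ 2 =
      l ^ 2 * ((1 + 2 * s - s ^ 2) / (2 * s ^ 2)) := by
    rw [hz]
    field_simp
    ring
  have h11 : (1 + 2 * s - s ^ 2) / (2 * s ^ 2) ≤ C * (1 + s) ^ 2 / s ^ 2 := by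
    rw [div_le_div_iff₀ (by positivity) (by (clear * - hs; positivity))]
    linarith only [mul_nonneg (sq_nonneg (s : ℝ)) (sub_nonneg.2 hC)]
  calc (exp (2 * l) - 1) ^ 2 * z * (1 + 2 * s + sig) / (2 * (sig + s) ^ 2 * (1 + sig)) +
        (exp (2 * l) - 1 - 2 * l) / 2 ≤
        4 * l ^ 2 * z * ((1 + 2 * s + s) / ((s + s) ^ 2 * (1 + s))) / 2 + l ^ 2 := by
        linarith only [h9, h1]
    _ = l ^ 2 * ((1 + 2 * s - s ^ 2) / (2 * s ^ 2)) := h10
    _ ≤ l ^ 2 * (C * (1 + s) ^ 2 / s ^ 2) := mul_le_mul_of_nonneg_left h11 (sq_nonneg _)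
    _ = C * (1 + s) ^ 2 / s ^ 2 * l ^ 2 := by ring

/-! ## the three ranges -/

/-- `1 + x + ... + x^5/120 + 7x^6/4320` -/
theorem exp_le_p {x : ℝ} (h0 : 0 ≤ x) (h1 : x ≤ 1) :
    exp x ≤ 1 + x + x ^ 2 / 2 + x ^ 3 / 6 + x ^ 4 / 24 + x ^ 5 / 120 + 7 * x ^ 6 / 4320 := by
  have h := Real.exp_bound' h0 h1 (n := 6) (by norm_num)
  simp only [Finset.sum_range_succ, Finset.sum_range_zero, Nat.factorial] at h
  norm_num at h
  linarith

/-- `z = 1 - s²` -/
def cz : List ℤ := [1, 0, -1]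

/-- `s` -/
def cs : List ℤ := [0, 1]

/-- `50 L` -/
def cL : List ℤ := [0, 0, 38, 0, -7]

/-- `10^6 V` -/
def cV : List ℤ := padd [1858941] (padd (psm (-892501) cz) (padd (psm (-43649) (ppow cz 2))
  (psm 82095 (ppow cz 3))))

/-- `V - p(L)` scaled by `4320 * 50^6 * 10^6` -/
def cE : List ℤ := padd (psm (4320 * 50 ^ 6) cV) (psm (-(10 ^ 6)) (padd (psm (4320 * 50 ^ 6) [1])
  (padd (psm (4320 * 50 ^ 5) cL) (padd (psm (2160 * 50 ^ 4) (ppow cL 2)) (padd
  (psm (720 * 50 ^ 3) (ppow cL 3)) (padd (psm (180 * 50 ^ 2) (ppow cL 4)) (padd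
  (psm (36 * 50) (ppow cL 5)) (psm 7 (ppow cL 6)))))))))

set_option maxRecDepth 100000 in
theorem cE_nonneg {s : ℝ} (h0 : 7559 ≤ 10000 * s) (h1 : s < 1) : 0 ≤ ev1 cE s :=
  auto1_sound (n := 8) (A := 7559) (B := 10000) (D := 10000) (by norm_num) (by (clear * -; decide +kernel))
    (by push_cast; exact h0) (by push_cast; linarith)

/-- `10^5 σ` on `[.7559, .8]` -/
def cSA : List ℤ := [-2225944, 7931027, -9565493, 3988041]

/-- `10^5 σ` on `[.8, 1]` -/
def cSB : List ℤ := [-330277, 876987, -810552, 363828]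

/-- `1 - z V² - σ²`, scaled by `10^22` -/
def cQ (p : List ℤ) : List ℤ := padd [10 ^ 22] (padd (psm (-(10 ^ 10)) (pmul cz (ppow cV 2)))
  (psm (-(10 ^ 12)) (ppow p 2)))

/-- the final inequality of (A) -/
def cG (p : List ℤ) : List ℤ :=
  padd (psm (2 * 10 ^ 24) (pmul (pmul (padd [40] (padd (psm 65 cz) (psm 440 (ppow cz 3))))
      (pmul (ppow [1, 1] 2) (ppow cL 2))) (pmul (ppow (padd p [0, 10 ^ 5]) 2) (padd p [10 ^ 5]))))
    (padd (psm (-(250000 * 10 ^ 10)) (pmul (ppow (padd (ppow cV 2) [-(10 ^ 12)]) 2)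
      (pmul (pmul cz (ppow cs 2)) (padd [10 ^ 5, 2 * 10 ^ 5] p))))
    (psm (-(10000 * 10 ^ 12)) (pmul (padd (psm 25 (ppow cV 2)) (padd [-(25 * 10 ^ 12)]
      (psm (-(10 ^ 12)) cL))) (pmul (ppow cs 2) (pmul (ppow (padd p [0, 10 ^ 5]) 2)
        (padd p [10 ^ 5]))))))

set_option maxRecDepth 100000 in
theorem cSA_nonneg {s : ℝ} (h0 : 7559 ≤ 10000 * s) (h1 : 10000 * s < 8000) : 0 ≤ ev1 cSA s :=
  auto1_sound (n := 8) (A := 7559) (B := 8000) (D := 10000) (by norm_num) (by (clear * -; decide +kernel))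
    (by push_cast; exact h0) (by push_cast; linarith only [h1])

set_option maxRecDepth 100000 in
theorem cSB_nonneg {s : ℝ} (h0 : 8000 ≤ 10000 * s) (h1 : s < 1) : 0 ≤ ev1 cSB s :=
  auto1_sound (n := 8) (A := 8000) (B := 10000) (D := 10000) (by norm_num) (by (clear * -; decide +kernel))
    (by push_cast; exact h0) (by push_cast; linarith)

set_option maxRecDepth 100000 in
theorem cQA_nonneg {s : ℝ} (h0 : 7559 ≤ 10000 * s) (h1 : 10000 * s < 8000) : 0 ≤ ev1 (cQ cSA) s :=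
  auto1_sound (n := 8) (A := 7559) (B := 8000) (D := 10000) (by norm_num) (by (clear * -; decide +kernel))
    (by push_cast; exact h0) (by push_cast; linarith only [h1])

set_option maxRecDepth 100000 in
theorem cQB_nonneg {s : ℝ} (h0 : 8000 ≤ 10000 * s) (h1 : s < 1) : 0 ≤ ev1 (cQ cSB) s :=
  auto1_sound (n := 8) (A := 8000) (B := 10000) (D := 10000) (by norm_num) (by (clear * -; decide +kernel))
    (by push_cast; exact h0) (by push_cast; linarith)

set_option maxRecDepth 100000 in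
theorem cGA_nonneg {s : ℝ} (h0 : 7559 ≤ 10000 * s) (h1 : 10000 * s < 8000) : 0 ≤ ev1 (cG cSA) s :=
  auto1_sound (n := 8) (A := 7559) (B := 8000) (D := 10000) (by norm_num) (by (clear * -; decide +kernel))
    (by push_cast; exact h0) (by push_cast; linarith only [h1])

set_option maxRecDepth 100000 in
theorem cGB_nonneg {s : ℝ} (h0 : 8000 ≤ 10000 * s) (h1 : s < 1) : 0 ≤ ev1 (cG cSB) s :=
  auto1_sound (n := 8) (A := 8000) (B := 10000) (D := 10000) (by norm_num) (by (clear * -; decide +kernel))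
    (by push_cast; exact h0) (by push_cast; linarith only [h1])

/-- `15 D^4 + 5 t² D² + 3 t^4`, `D = 2 - s²`, `t = s²` -/
def cN : List ℤ := padd (psm 15 (ppow [2, 0, -1] 4)) (padd (psm 5 (pmul (ppow [0, 0, 1] 2)
  (ppow [2, 0, -1] 2))) (psm 3 (ppow [0, 0, 1] 4)))

/-- the final inequality of (B) -/
def cB : List ℤ := padd (pmul [1, -1] (padd (psm 15 (pmul (ppow [2, 0, -1] 5) cN))
  (psm 2 (pmul (ppow [1, 1] 2) (ppow cN 2))))) (psm (-225) (ppow [2, 0, -1] 10))

set_option maxRecDepth 100000 in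
theorem cB_nonneg {s : ℝ} (h0 : 0 ≤ s) (h1 : 10000 * s < 7560) : 0 ≤ ev1 cB s :=
  auto1_sound (n := 10) (A := 0) (B := 7560) (D := 10000) (by norm_num) (by (clear * -; decide +kernel))
    (by push_cast; linarith only [h0]) (by push_cast; linarith only [h1])

/-- `τ² + z` times `(16-14t)²` -/
def cS : List ℤ := padd (ppow [16, 0, -15] 2) (pmul cz (ppow [16, 0, -14] 2))

/-- the final inequality of (C) with `σ = 7 s / 20`, scaled by `20^3` -/
def cC : List ℤ := padd (psm 3 (pmul (pmul (ppow [1, 1] 2) cz) (pmul (ppow [16, 0, -14] 4)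
    (psm (27 ^ 2) [20, 7])))) (padd (psm (-(20 ^ 2)) (pmul [20, 47] (ppow cS 2)))
    (psm (-1) (pmul (pmul [0, 0, 1] (ppow [16, 0, -14] 2)) (pmul cS (psm (27 ^ 2) [20, 7])))))

set_option maxRecDepth 100000 in
theorem cC_nonneg {s : ℝ} (h0 : 0 ≤ s) (h1 : 10000 * s < 7560) : 0 ≤ ev1 cC s :=
  auto1_sound (n := 10) (A := 0) (B := 7560) (D := 10000) (by norm_num) (by (clear * -; decide +kernel))
    (by push_cast; linarith only [h0]) (by push_cast; linarith)

theorem ev_cz (s : ℝ) : ev1 cz s = 1 - s ^ 2 := by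
  simp only [cz, ev1_cons, ev1_nil]; push_cast; ring

theorem ev_cs (s : ℝ) : ev1 cs s = s := by
  simp only [cs, ev1_cons, ev1_nil]; push_cast; ring

/-- (A), the case `l > 0`, for a given lower bound `p` of `sig` -/
theorem corrA_pos {s sig l z : ℝ} {p : List ℤ} (hs : 7559 ≤ 10000 * s) (hs1 : s < 1)
    (hz : z = 1 - s ^ 2)
    (hp : 0 ≤ ev1 p s) (hQ : 0 ≤ ev1 (cQ p) s) (hG : 0 ≤ ev1 (cG p) s)
    (hsig : 0 ≤ sig) (he : sig ^ 2 = 1 - z * exp (2 * l)) (hl0 : 0 < l)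
    (hl : l ≤ (1 - z) * (31 / 50 + 7 / 50 * z)) :
    -((2 / 5 + 13 * z / 20 + 22 * z ^ 3 / 5) * (z / s ^ 2) * l ^ 2) ≤ Fc s sig l := by
  have hs0 : 0 < s := by linarith only [hs]
  have hz0 : 0 ≤ z := by rw [hz]; nlinarith only [hs1, hs]
  set a : ℝ := (1 - z) * (31 / 50 + 7 / 50 * z) with ha
  have ha0 : 0 < a := hl0.trans_le hl
  have ha1 : a ≤ 1 := by
    rw [ha, hz]
    nlinarith only [hz, hz0]
  have hL : ev1 cL s = 50 * a := by
    simp only [cL, ev1_cons, ev1_nil, ha, hz]; push_cast; ring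
  obtain ⟨V, hV⟩ : ∃ V, ev1 cV s = 10 ^ 6 * V := ⟨ev1 cV s / 10 ^ 6, by ring⟩
  obtain ⟨σ, hσ⟩ : ∃ σ, ev1 p s = 10 ^ 5 * σ := ⟨ev1 p s / 10 ^ 5, by ring⟩
  have hσ0 : 0 ≤ σ := by rw [hσ] at hp; linarith only [hp]
  have hz' : ev1 cz s = z := by rw [ev_cz, hz]
  have hE := cE_nonneg hs hs1
  have hpV : 1 + a + a ^ 2 / 2 + a ^ 3 / 6 + a ^ 4 / 24 + a ^ 5 / 120 + 7 * a ^ 6 / 4320 ≤ V := by
    have e : ev1 cE s = (4320 * 50 ^ 6 * 10 ^ 6) * (V - (1 + a + a ^ 2 / 2 + a ^ 3 / 6 +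
        a ^ 4 / 24 + a ^ 5 / 120 + 7 * a ^ 6 / 4320)) := by
      simp only [cE, ev1_padd, ev1_psm, ev1_ppow, ev1_cons, ev1_nil, hL, hV]
      push_cast
      ring
    rw [e] at hE
    linarith only [hE]
  have hexp : exp a ≤ V := (exp_le_p ha0.le ha1).trans hpV
  have hV1 : 1 ≤ V := by linarith only [hl0, hl, hexp, add_one_le_exp a]
  have hexp2 : exp (2 * a) ≤ V ^ 2 := by
    have e : exp (2 * a) = exp a ^ 2 := by rw [← exp_nat_mul]; norm_num
    rw [e]
    exact pow_le_pow_left₀ (exp_pos a).le hexp 2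
  have hσ2 : σ ^ 2 ≤ 1 - z * V ^ 2 := by
    have e : ev1 (cQ p) s = 10 ^ 22 * (1 - z * V ^ 2 - σ ^ 2) := by
      simp only [cQ, ev1_padd, ev1_cons, ev1_nil, ev1_psm, ev1_pmul, hz', ev1_ppow, hV, hσ]
      push_cast
      ring
    rw [e] at hQ
    linarith only [hQ]
  refine gen hs0 hz hz0 hσ0 hsig he hl0 hl hexp2 hσ2 ?_
  have hG' : 0 ≤ 2 * ((2 / 5 + 13 * z / 20 + 22 * z ^ 3 / 5)) * (1 + s) ^ 2 * a ^ 2 *
      ((σ + s) ^ 2 * (1 + σ)) - (V ^ 2 - 1) ^ 2 * z * s ^ 2 * (1 + 2 * s + σ) -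
      (V ^ 2 - 1 - 2 * a) * s ^ 2 * ((σ + s) ^ 2 * (1 + σ)) := by
    have e : ev1 (cG p) s = (250000 * 10 ^ 24 * 10 ^ 15) *
      (2 * ((2 / 5 + 13 * z / 20 + 22 * z ^ 3 / 5)) * (1 + s) ^ 2 * a ^ 2 *
      ((σ + s) ^ 2 * (1 + σ)) - (V ^ 2 - 1) ^ 2 * z * s ^ 2 * (1 + 2 * s + σ) -
      (V ^ 2 - 1 - 2 * a) * s ^ 2 * ((σ + s) ^ 2 * (1 + σ))) := by
      simp only [cG, ev1_padd, ev1_psm, ev1_ppow, ev1_pmul, ev1_cons, ev1_nil, hV, hσ, hz', hL,
        ev_cs]
      push_cast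
      ring
    rw [e] at hG
    exact nonneg_of_mul_nonneg_right hG (by norm_num)
  have hden : 0 < (σ + s) ^ 2 * (1 + σ) := by (clear * - hσ0 hs0; positivity)
  rw [← sub_nonneg]
  have e : 2 * (2 / 5 + 13 * z / 20 + 22 * z ^ 3 / 5) * (1 + s) ^ 2 * a ^ 2 / s ^ 2 -
      ((V ^ 2 - 1) ^ 2 * z * (1 + 2 * s + σ) / ((σ + s) ^ 2 * (1 + σ)) + (V ^ 2 - 1 - 2 * a)) =
      (2 * ((2 / 5 + 13 * z / 20 + 22 * z ^ 3 / 5)) * (1 + s) ^ 2 * a ^ 2 *
      ((σ + s) ^ 2 * (1 + σ)) - (V ^ 2 - 1) ^ 2 * z * s ^ 2 * (1 + 2 * s + σ) -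
      (V ^ 2 - 1 - 2 * a) * s ^ 2 * ((σ + s) ^ 2 * (1 + σ))) /
        (s ^ 2 * ((σ + s) ^ 2 * (1 + σ))) := by
    have h1 : (σ + s) ≠ 0 := by (clear * - hσ0 hs0; positivity)
    have h2 : (1 + σ) ≠ 0 := by (clear * - hσ0; positivity)
    field_simp
    ring
  rw [e]
  (clear * - hG' hs0 hσ0; positivity)

/-- **(A)** -/
theorem corrA {s sig l z : ℝ} (hs0 : 0 < s) (hs1 : s < 1) (hz : z = 1 - s ^ 2) (hz1 : z ≤ 3 / 7)
    (hsig : 0 ≤ sig) (he : sig ^ 2 = 1 - z * exp (2 * l))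
    (hl : l ≤ (1 - z) * (31 / 50 + 7 / 50 * z)) :
    -((2 / 5 + 13 * z / 20 + 22 * z ^ 3 / 5) * (z / s ^ 2) * l ^ 2) ≤ Fc s sig l := by
  have hz0 : 0 ≤ z := by rw [hz]; (clear * - hs1 hs0; (by_contra nlg; linarith [mul_pos (sub_pos.2 hs1) (sub_pos.2 hs1), mul_pos (sub_pos.2 hs0) (sub_pos.2 hs1), mul_pos (sub_pos.2 (not_le.1 nlg)) (sub_pos.2 hs1), mul_pos (sub_pos.2 (not_le.1 nlg)) (sub_pos.2 hs0)]))
  have hs : 7559 ≤ 10000 * s := by
    by_contra h
    push Not at h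
    nlinarith only [hz, hz1, h, hs0]
  rcases le_or_gt l 0 with h | h
  · refine neg_case hs0 hz hz0 hsig he h ?_
    have : 0 ≤ z ^ 3 := by (clear * - hz0; positivity)
    nlinarith only [hs, mul_nonneg (by (clear * - hz0; positivity) : 0 ≤ 13 * z / 20 + 22 * z ^ 3 / 5) (sq_nonneg (1 + s))]
  · rcases lt_or_ge (10000 * s) 8000 with h8 | h8
    · exact corrA_pos hs hs1 hz (cSA_nonneg hs h8) (cQA_nonneg hs h8) (cGA_nonneg hs h8) hsig he h hl
    · exact corrA_pos hs hs1 hz (cSB_nonneg h8 hs1) (cQB_nonneg h8 hs1) (cGB_nonneg h8 hs1) hsig he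
        h hl

/-- `log` lower bound: `w + w³/3 + w⁵/5 ≤ (1/2) log ((1+w)/(1-w))` -/
theorem half_log_ge {w : ℝ} (h0 : 0 ≤ w) (h1 : w < 1) :
    w + w ^ 3 / 3 + w ^ 5 / 5 ≤ log ((1 + w) / (1 - w)) / 2 := by
  have hs := Real.hasSum_log_sub_log_of_abs_lt_one (x := w) (by rw [abs_of_nonneg h0]; exact h1)
  have h := hs.summable.sum_le_tsum (Finset.range 3) (fun i _ => by (clear * - h0; positivity))
  rw [hs.tsum_eq] at h
  simp only [Finset.sum_range_succ, Finset.sum_range_zero] at h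
  norm_num at h
  rw [Real.log_div (by linarith only [h0]) (by linarith only [h1])]
  linarith

/-- **(B)** -/
theorem corrB {s sig l z : ℝ} (hs0 : 0 < s) (hs1 : s < 1) (hz : z = 1 - s ^ 2) (hz1 : 3 / 7 ≤ z)
    (hsig : 0 ≤ sig) (he : sig ^ 2 = 1 - z * exp (2 * l)) :
    -(2 * (z / s ^ 2) * l ^ 2) ≤ Fc s sig l := by
  have hz0 : 0 < z := by linarith only [hz1, hs1, hs0]
  rcases le_or_gt l 0 with h | h
  · refine neg_case hs0 hz hz0.le hsig he h ?_
    (by_contra nlg; linarith [mul_pos (sub_pos.2 (not_le.1 nlg)) (sub_pos.2 (not_le.1 nlg)), mul_nonneg (sq_nonneg (s : ℝ)) (le_of_lt (sub_pos.2 (not_le.1 nlg))), mul_nonneg (sq_nonneg (1 + s : ℝ)) (le_of_lt (sub_pos.2 (not_le.1 nlg)))])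
  · have hs756 : 10000 * s < 7560 := by
      by_contra h'
      push Not at h'
      nlinarith only [hz, hz1, h']
    set t : ℝ := s ^ 2 with ht
    have ht0 : 0 < t := by positivity
    have ht1 : t < 1 := by linarith only [hz0, hz]
    set a : ℝ := -log z / 2 with ha
    have hea : exp (2 * a) = 1 / z := by
      rw [ha, show 2 * (-log z / 2) = -log z by ring, exp_neg, exp_log hz0, one_div]
    have hla : l ≤ a := by
      have h1 : z * exp (2 * l) ≤ 1 := by nlinarith only [he]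
      have h2 : exp (2 * l) ≤ exp (2 * a) := by
        rw [hea, le_div_iff₀ hz0]; linarith only [h1]
      have := exp_le_exp.1 h2
      linarith only [this]
    have ha0 : 0 < a := h.trans_le hla
    refine gen hs0 hz hz0.le le_rfl hsig he h hla hea.le (by field_simp; norm_num) ?_
    -- lower bound for `a`
    set w : ℝ := t / (2 - t) with hw
    have h2t : 0 < 2 - t := by linarith only [hz0, hz]
    have hw0 : 0 ≤ w := by (clear * - hs0 h2t; positivity)
    have hw1 : w < 1 := by rw [hw, div_lt_one h2t]; linarith only [hz0, hz]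
    have haw : w + w ^ 3 / 3 + w ^ 5 / 5 ≤ a := by
      have h1 := half_log_ge hw0 hw1
      have h2 : (1 + w) / (1 - w) = z⁻¹ := by
        have : 1 - t = z := hz.symm
        rw [hw]
        have h3 : (1 + t / (2 - t)) = 2 / (2 - t) := by field_simp; ring
        have h4 : (1 - t / (2 - t)) = 2 * (1 - t) / (2 - t) := by field_simp; ring
        rw [h3, h4, this]
        field_simp
      rw [h2, log_inv] at h1
      exact h1
    have hN : 0 ≤ ev1 cB s := cB_nonneg hs0.le hs756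
    set b : ℝ := w + w ^ 3 / 3 + w ^ 5 / 5 with hb
    have hb0 : 0 ≤ b := by (clear * - hs0 h2t; (clear * - hs0 h2t; positivity))
    have key : 2 * t / (1 - s) ≤ 2 * b + 4 * (1 + s) ^ 2 * b ^ 2 / t := by
      have h1s : 0 < 1 - s := by linarith only [hs1]
      set Nn : ℝ := 15 * (2 - t) ^ 4 + 5 * t ^ 2 * (2 - t) ^ 2 + 3 * t ^ 4 with hNn
      have e1 : b = t * Nn / (15 * (2 - t) ^ 5) := by
        rw [hb, hw, hNn]
        field_simp
        ring
      have e2 : ev1 cB s = (1 - s) * (15 * (2 - t) ^ 5 * Nn + 2 * (1 + s) ^ 2 * Nn ^ 2) -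
          225 * (2 - t) ^ 10 := by
        simp only [cB, cN, ev1_padd, ev1_pmul, ev1_cons, ev1_nil, ev1_psm, ev1_ppow, ht, hNn]
        push_cast
        ring
      rw [e2] at hN
      rw [e1, ← sub_nonneg]
      have e3 : 2 * (t * Nn / (15 * (2 - t) ^ 5)) + 4 * (1 + s) ^ 2 *
          (t * Nn / (15 * (2 - t) ^ 5)) ^ 2 / t - 2 * t / (1 - s) =
          2 * t * ((1 - s) * (15 * (2 - t) ^ 5 * Nn + 2 * (1 + s) ^ 2 * Nn ^ 2) -
          225 * (2 - t) ^ 10) / (225 * (2 - t) ^ 10 * (1 - s)) := by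
        field_simp
        ring
      rw [e3]
      (clear * - hs0 hN h2t hs1; positivity)
    have hab : 2 * b + 4 * (1 + s) ^ 2 * b ^ 2 / t ≤ 2 * a + 4 * (1 + s) ^ 2 * a ^ 2 / t := by
      have : b ^ 2 ≤ a ^ 2 := pow_le_pow_left₀ hb0 haw 2
      have h3 : 4 * (1 + s) ^ 2 * b ^ 2 / t ≤ 4 * (1 + s) ^ 2 * a ^ 2 / t := by
        apply div_le_div_of_nonneg_right _ ht0.le
        exact mul_le_mul_of_nonneg_left this (by positivity)
      (clear * - haw h3; linarith)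
    have e4 : (1 / z - 1) ^ 2 * z * (1 + 2 * s + 0) / ((0 + s) ^ 2 * (1 + 0)) +
        (1 / z - 1 - 2 * a) = 2 * t / (1 - s) - 2 * a := by
      have h1 : (1 - s) ≠ 0 := by linarith only [hs1]
      have h2 : (1 + s) ≠ 0 := by linarith only [hs0]
      have hz2 : z = (1 - s) * (1 + s) := by rw [hz, ht]; ring
      rw [hz2, ht]
      field_simp
      ring
    rw [e4]
    have e5 : 2 * (2:ℝ) * (1 + s) ^ 2 * a ^ 2 / t = 4 * (1 + s) ^ 2 * a ^ 2 / t := by ring
    rw [e5]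
    linarith only [hab, key]

/-- **(C)** -/
theorem corrC {s sig l z : ℝ} (hs0 : 0 < s) (hs1 : s < 1) (hz : z = 1 - s ^ 2) (hz1 : 3 / 7 ≤ z)
    (hsig : 0 ≤ sig) (he : sig ^ 2 = 1 - z * exp (2 * l))
    (hτ : (1 + s ^ 2 / (16 - 15 * s ^ 2)) ^ 2 * (z * exp (2 * l)) ≤ 1) :
    -(3 / 2 * (z / s ^ 2) * l ^ 2) ≤ Fc s sig l := by
  have hz0 : 0 < z := by linarith only [hz1]
  rcases le_or_gt l 0 with h | h
  · refine neg_case hs0 hz hz0.le hsig he h ?_
    nlinarith only []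
  · have hs756 : 10000 * s < 7560 := by
      by_contra h'
      push Not at h'
      nlinarith only [hz, hz1, h']
    set t : ℝ := s ^ 2 with ht
    have ht0 : 0 < t := by positivity
    have ht1 : t ≤ 4 / 7 := by linarith only [hz, hz1]
    have hn1 : 0 < 16 - 15 * t := by linarith only [hz0, hz]
    have hd1 : 0 < 16 - 14 * t := by linarith only [hz0, hz]
    set τ : ℝ := (16 - 15 * t) / (16 - 14 * t) with hτd
    have hτ0 : 0 < τ := by (clear * - hn1 hd1; (clear * - hn1 hd1; positivity))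
    have hinv : 1 + t / (16 - 15 * t) = τ⁻¹ := by
      rw [hτd, inv_div, eq_div_iff hn1.ne', add_mul, div_mul_cancel₀ _ hn1.ne']
      ring
    rw [hinv] at hτ
    have hE1 : exp (2 * l) ≤ τ ^ 2 / z := by
      rw [le_div_iff₀ hz0]
      have := mul_le_mul_of_nonneg_left hτ (by (clear * - hn1 hd1; positivity) : 0 ≤ τ ^ 2)
      have e : τ ^ 2 * (τ⁻¹ ^ 2 * (z * exp (2 * l))) = z * exp (2 * l) := by (clear * - hτ0 hz1; field_simp)
      rw [e] at this
      linarith only [this]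
    set E : ℝ := τ ^ 2 / z with hE
    have hEl : 1 < exp (2 * l) := by
      have := add_one_lt_exp (show 2 * l ≠ 0 by (clear * - h; positivity))
      linarith only [h, this]
    have hE0 : 1 < E := hEl.trans_le hE1
    set a : ℝ := log E / 2 with ha
    have hea : exp (2 * a) = E := by
      rw [ha, show 2 * (log E / 2) = log E by ring, exp_log (by linarith only [hEl, hE1])]
    have hla : l ≤ a := by
      have h2 : exp (2 * l) ≤ exp (2 * a) := by rw [hea]; exact hE1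
      have := exp_le_exp.1 h2
      linarith only [this]
    have ha0 : 0 < a := h.trans_le hla
    have hσ : (7 / 20 * s) ^ 2 ≤ 1 - z * E := by
      rw [hE, mul_div_cancel₀ _ hz0.ne', hτd, div_pow, le_sub_iff_add_le, ← le_sub_iff_add_le',
        div_le_iff₀ (by (clear * - hd1; positivity))]
      rw [mul_pow, ← ht]
      nlinarith only [ht0, mul_nonneg (mul_nonneg ht0.le ht0.le) (sub_nonneg.2 ht1)]
    refine gen hs0 hz hz0.le (by positivity) hsig he h hla hea.le hσ ?_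
    set w : ℝ := (E - 1) / (E + 1) with hw
    have hw0 : 0 < w := by
      have : 0 < E - 1 := by linarith only [hE1, hEl]
      (clear * - hE0 hn1 hd1 hz1; positivity)
    have hw1 : w < 1 := by rw [hw, div_lt_one (by linarith only [hE1, hEl])]; linarith only []
    have haw : w ≤ a := by
      have h1 := half_log_ge hw0.le hw1
      have h2 : (1 + w) / (1 - w) = E := by
        have h3 : 1 + w = 2 * E / (E + 1) := by rw [hw]; field_simp; ring
        have h4 : 1 - w = 2 / (E + 1) := by rw [hw]; field_simp; ring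
        rw [h3, h4]
        (clear * - hE0; field_simp)
      rw [h2] at h1
      have : 0 ≤ w ^ 3 / 3 + w ^ 5 / 5 := by (clear * - hE0 hn1 hd1 hz1; positivity)
      rw [ha]; linarith only [h1, this]
    have hN : 0 ≤ ev1 cC s := cC_nonneg hs0.le hs756
    -- main inequality
    have hD : (16 - 14 * t) ^ 2 * (τ ^ 2 + z) = (16 - 15 * t) ^ 2 + z * (16 - 14 * t) ^ 2 := by
      rw [hτd]; (clear * - hd1 hz1; field_simp)
    set T : ℝ := τ ^ 2 + z with hT
    have hT0 : 0 < T := by (clear * - hn1 hd1 hz1; positivity)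
    have key : (1 + (2 + 7 / 20) * s) / ((27 / 20) ^ 2 * (1 + 7 / 20 * s)) + t / T ≤
        3 * (1 + s) ^ 2 * z / T ^ 2 := by
      have e2 : ev1 cC s = 20 ^ 3 * (16 - 14 * t) ^ 4 * (3 * (1 + s) ^ 2 * z * ((27 / 20) ^ 2 *
          (1 + 7 / 20 * s)) - (1 + (2 + 7 / 20) * s) * T ^ 2 - t * T * ((27 / 20) ^ 2 *
          (1 + 7 / 20 * s))) := by
        have e3 : ev1 cS s = (16 - 14 * t) ^ 2 * T := by
          rw [hD]
          simp only [cS, ev1_padd, ev1_ppow, ev1_cons, ev1_nil, ev1_pmul, ev_cz, ht, hz]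
          push_cast
          ring
        simp only [cC, ev1_padd, ev1_psm, ev1_ppow, ev1_pmul, ev1_cons, ev1_nil, e3, ev_cz]
        rw [← hz]
        push_cast
        ring
      rw [e2] at hN
      have h3 := nonneg_of_mul_nonneg_right hN (by (clear * - hd1; positivity))
      rw [← sub_nonneg]
      have e3 : 3 * (1 + s) ^ 2 * z / T ^ 2 - ((1 + (2 + 7 / 20) * s) /
          ((27 / 20) ^ 2 * (1 + 7 / 20 * s)) + t / T) = (3 * (1 + s) ^ 2 * z * ((27 / 20) ^ 2 *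
          (1 + 7 / 20 * s)) - (1 + (2 + 7 / 20) * s) * T ^ 2 - t * T * ((27 / 20) ^ 2 *
          (1 + 7 / 20 * s))) / (T ^ 2 * ((27 / 20) ^ 2 * (1 + 7 / 20 * s))) := by
        field_simp
        ring
      rw [e3]
      (clear * - h3 hn1 hd1 hz1 hs0; positivity)
    have hEz : E = (T - z) / z := by rw [hE, hT]; ring
    have hE1z : E + 1 = T / z := by rw [hEz]; field_simp; ring
    have hwz : w = (E - 1) * z / T := by
      rw [hw, hE1z]; (clear * - hz1 hT0; field_simp)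
    have hmain : (E - 1) ^ 2 * z * (1 + 2 * s + 7 / 20 * s) / ((7 / 20 * s + s) ^ 2 *
        (1 + 7 / 20 * s)) + (E - 1 - 2 * w) ≤ 3 * (1 + s) ^ 2 * w ^ 2 / t := by
      have e1 : E - 1 - 2 * w = (E - 1) ^ 2 * z / T := by
        have : (E - 1) * (E + 1) - 2 * (E - 1) = (E - 1) ^ 2 := by ring
        rw [hwz]
        have h5 : T = z * (E + 1) := by rw [hE1z]; (clear * - hz1 hT0; field_simp)
        rw [h5]
        field_simp
        ring
      have e2 : (E - 1) ^ 2 * z * (1 + 2 * s + 7 / 20 * s) / ((7 / 20 * s + s) ^ 2 *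
        (1 + 7 / 20 * s)) = (E - 1) ^ 2 * z / t * ((1 + (2 + 7 / 20) * s) / ((27 / 20) ^ 2 *
          (1 + 7 / 20 * s))) := by
        rw [ht]
        field_simp
        ring
      have e3 : (E - 1) ^ 2 * z / T = (E - 1) ^ 2 * z / t * (t / T) := by (clear * - ht0 hT0 hz1; field_simp)
      have e4 : 3 * (1 + s) ^ 2 * w ^ 2 / t = (E - 1) ^ 2 * z / t * (3 * (1 + s) ^ 2 * z / T ^ 2) := by
        rw [hwz]
        (clear * - ht0 hT0 hz1 hs0; field_simp)
      rw [e1, e2, e3, e4, ← mul_add]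
      exact mul_le_mul_of_nonneg_left key (by (clear * - hE0 hz1 hs0; positivity))
    have h6 : w ^ 2 ≤ a ^ 2 := pow_le_pow_left₀ hw0.le haw 2
    have h7 : 3 * (1 + s) ^ 2 * w ^ 2 / t ≤ 3 * (1 + s) ^ 2 * a ^ 2 / t := by
      apply div_le_div_of_nonneg_right _ ht0.le
      exact mul_le_mul_of_nonneg_left h6 (by positivity)
    have e8 : 2 * (3 / 2 : ℝ) * (1 + s) ^ 2 * a ^ 2 / t = 3 * (1 + s) ^ 2 * a ^ 2 / t := by ring
    rw [e8]
    linarith only [haw, hmain, h7]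

end Vale.Agent.P237.AllN.Corr
end

section

/-!
# P237, all dimensions: polynomial inequalities for the kernels
-/

namespace Vale.Agent.P237.AllN

theorem kS_poly3 {s : ℝ} (h0 : 0 ≤ s) (h1 : s ≤ 1) :
    0 ≤ 20 + 40 * s ^ 1 + (-26) * s ^ 2 + (-12) * s ^ 3 + 40 * s ^ 4 + (-132) * s ^ 5 + (-300) * s ^ 6 + 68 * s ^ 7 + 436 * s ^ 8 + 128 * s ^ 9 + (-180) * s ^ 10 + (-81) * s ^ 11 + 18 * s ^ 12 + 9 * s ^ 13 := by
  rcases le_total s (4/5) with h0' | h0'
  · have hx : 0 ≤ s := by linarith only [h0]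
    have hy : 0 ≤ 4/5 - s := by linarith only [h0']
    have key : 20 + 40 * s ^ 1 + (-26) * s ^ 2 + (-12) * s ^ 3 + 40 * s ^ 4 + (-132) * s ^ 5 + (-300) * s ^ 6 + 68 * s ^ 7 + 436 * s ^ 8 + 128 * s ^ 9 + (-180) * s ^ 10 + (-81) * s ^ 11 + 18 * s ^ 12 + 9 * s ^ 13 =
        (6103515625 / 16777216 : ℝ) * (4/5 - s) ^ 13 +
        (89111328125 / 16777216 : ℝ) * s ^ 1 * (4/5 - s) ^ 12 +
        (294091796875 / 8388608 : ℝ) * s ^ 2 * (4/5 - s) ^ 11 +
        (1166201171875 / 8388608 : ℝ) * s ^ 3 * (4/5 - s) ^ 10 +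
        (6219404296875 / 16777216 : ℝ) * s ^ 4 * (4/5 - s) ^ 9 +
        (11798743359375 / 16777216 : ℝ) * s ^ 5 * (4/5 - s) ^ 8 +
        (4089406640625 / 4194304 : ℝ) * s ^ 6 * (4/5 - s) ^ 7 +
        (4160994640625 / 4194304 : ℝ) * s ^ 7 * (4/5 - s) ^ 6 +
        (12206241059375 / 16777216 : ℝ) * s ^ 8 * (4/5 - s) ^ 5 +
        (6176605676875 / 16777216 : ℝ) * s ^ 9 * (4/5 - s) ^ 4 +
        (998648811875 / 8388608 : ℝ) * s ^ 10 * (4/5 - s) ^ 3 +
        (181742393675 / 8388608 : ℝ) * s ^ 11 * (4/5 - s) ^ 2 +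
        (30459382685 / 16777216 : ℝ) * s ^ 12 * (4/5 - s) ^ 1 +
        (1140971529 / 16777216 : ℝ) * s ^ 13 := by ring
    rw [key]; (clear * - h0' h0; positivity)
  · have hx : 0 ≤ s - 4/5 := by linarith only [h0']
    have hy : 0 ≤ 1 - s := by linarith
    have key : 20 + 40 * s ^ 1 + (-26) * s ^ 2 + (-12) * s ^ 3 + 40 * s ^ 4 + (-132) * s ^ 5 + (-300) * s ^ 6 + 68 * s ^ 7 + 436 * s ^ 8 + 128 * s ^ 9 + (-180) * s ^ 10 + (-81) * s ^ 11 + 18 * s ^ 12 + 9 * s ^ 13 =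
        4563886116 * (1 - s) ^ 13 +
        43703766700 * (s - 4/5) ^ 1 * (1 - s) ^ 12 +
        190204076950 * (s - 4/5) ^ 2 * (1 - s) ^ 11 +
        532882275750 * (s - 4/5) ^ 3 * (1 - s) ^ 10 +
        1224092738750 * (s - 4/5) ^ 4 * (1 - s) ^ 9 +
        2660657331250 * (s - 4/5) ^ 5 * (1 - s) ^ 8 +
        5177675250000 * (s - 4/5) ^ 6 * (1 - s) ^ 7 +
        7987348437500 * (s - 4/5) ^ 7 * (1 - s) ^ 6 +
        9105737500000 * (s - 4/5) ^ 8 * (1 - s) ^ 5 +
        7418648437500 * (s - 4/5) ^ 9 * (1 - s) ^ 4 +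
        4190332031250 * (s - 4/5) ^ 10 * (1 - s) ^ 3 +
        1559423828125 * (s - 4/5) ^ 11 * (1 - s) ^ 2 +
        344238281250 * (s - 4/5) ^ 12 * (1 - s) ^ 1 +
        34179687500 * (s - 4/5) ^ 13 := by ring
    rw [key]; (clear * - h1 h0'; (clear * - h1 h0'; positivity))

theorem kS_poly1 {s : ℝ} (h0 : 0 ≤ s) (h1 : s ≤ 1) :
    0 ≤ 240 + 30 * s ^ 1 + (-462) * s ^ 2 + (-294) * s ^ 3 + (-50) * s ^ 4 + 159 * s ^ 5 + 525 * s ^ 6 + 441 * s ^ 7 + (-93) * s ^ 8 + (-261) * s ^ 9 + (-63) * s ^ 10 + 27 * s ^ 11 + 9 * s ^ 12 := by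
  rcases le_total s (4/5) with h0' | h0'
  · have hx : 0 ≤ s := by linarith
    have hy : 0 ≤ 4/5 - s := by linarith
    have key : 240 + 30 * s ^ 1 + (-462) * s ^ 2 + (-294) * s ^ 3 + (-50) * s ^ 4 + 159 * s ^ 5 + 525 * s ^ 6 + 441 * s ^ 7 + (-93) * s ^ 8 + (-261) * s ^ 9 + (-63) * s ^ 10 + 27 * s ^ 11 + 9 * s ^ 12 =
        (3662109375 / 1048576 : ℝ) * (4/5 - s) ^ 12 +
        (88623046875 / 2097152 : ℝ) * s ^ 1 * (4/5 - s) ^ 11 +
        (482431640625 / 2097152 : ℝ) * s ^ 2 * (4/5 - s) ^ 10 +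
        (1556783203125 / 2097152 : ℝ) * s ^ 3 * (4/5 - s) ^ 9 +
        (3298314453125 / 2097152 : ℝ) * s ^ 4 * (4/5 - s) ^ 8 +
        (2395441484375 / 1048576 : ℝ) * s ^ 5 * (4/5 - s) ^ 7 +
        (2411495078125 / 1048576 : ℝ) * s ^ 6 * (4/5 - s) ^ 6 +
        (1656426903125 / 1048576 : ℝ) * s ^ 7 * (4/5 - s) ^ 5 +
        (185248620625 / 262144 : ℝ) * s ^ 8 * (4/5 - s) ^ 4 +
        (393390538375 / 2097152 : ℝ) * s ^ 9 * (4/5 - s) ^ 3 +
        (53095386725 / 2097152 : ℝ) * s ^ 10 * (4/5 - s) ^ 2 +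
        (4357234705 / 2097152 : ℝ) * s ^ 11 * (4/5 - s) ^ 1 +
        (764851973 / 2097152 : ℝ) * s ^ 12 := by ring
    rw [key]; (clear * - h0 h0'; positivity)
  · have hx : 0 ≤ s - 4/5 := by linarith [h0']
    have hy : 0 ≤ 1 - s := by linarith
    have key : 240 + 30 * s ^ 1 + (-462) * s ^ 2 + (-294) * s ^ 3 + (-50) * s ^ 4 + 159 * s ^ 5 + 525 * s ^ 6 + 441 * s ^ 7 + (-93) * s ^ 8 + (-261) * s ^ 9 + (-63) * s ^ 10 + 27 * s ^ 11 + 9 * s ^ 12 =
        6118815784 * (1 - s) ^ 12 +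
        83067767350 * (s - 4/5) ^ 1 * (1 - s) ^ 11 +
        537726616700 * (s - 4/5) ^ 2 * (1 - s) ^ 10 +
        2162951292000 * (s - 4/5) ^ 3 * (1 - s) ^ 9 +
        5945932442500 * (s - 4/5) ^ 4 * (1 - s) ^ 8 +
        11661523409375 * (s - 4/5) ^ 5 * (1 - s) ^ 7 +
        16633255843750 * (s - 4/5) ^ 6 * (1 - s) ^ 6 +
        17323785781250 * (s - 4/5) ^ 7 * (1 - s) ^ 5 +
        13050962500000 * (s - 4/5) ^ 8 * (1 - s) ^ 4 +
        6929250000000 * (s - 4/5) ^ 9 * (1 - s) ^ 3 +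
        2460312500000 * (s - 4/5) ^ 10 * (1 - s) ^ 2 +
        524511718750 * (s - 4/5) ^ 11 * (1 - s) ^ 1 +
        50781250000 * (s - 4/5) ^ 12 := by ring
    rw [key]; (clear * - h0' h1; positivity)

theorem kS_poly2 {s : ℝ} (h0 : 0 ≤ s) (h1 : s ≤ 1) :
    0 ≤ 120 + (-156) * s ^ 2 + (-120) * s ^ 3 + (-100) * s ^ 4 + 136 * s ^ 5 + 372 * s ^ 6 + 96 * s ^ 7 + (-180) * s ^ 8 + (-81) * s ^ 9 + 18 * s ^ 10 + 9 * s ^ 11 := by
  · have hx : 0 ≤ s := by linarith
    have hy : 0 ≤ 1 - s := by linarith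
    have key : 120 + (-156) * s ^ 2 + (-120) * s ^ 3 + (-100) * s ^ 4 + 136 * s ^ 5 + 372 * s ^ 6 + 96 * s ^ 7 + (-180) * s ^ 8 + (-81) * s ^ 9 + 18 * s ^ 10 + 9 * s ^ 11 =
        120 * (1 - s) ^ 11 +
        1320 * s ^ 1 * (1 - s) ^ 10 +
        6444 * s ^ 2 * (1 - s) ^ 9 +
        18276 * s ^ 3 * (1 - s) ^ 8 +
        32924 * s ^ 4 * (1 - s) ^ 7 +
        38412 * s ^ 5 * (1 - s) ^ 6 +
        28152 * s ^ 6 * (1 - s) ^ 5 +
        12040 * s ^ 7 * (1 - s) ^ 4 +
        3120 * s ^ 8 * (1 - s) ^ 3 +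
        1239 * s ^ 9 * (1 - s) ^ 2 +
        632 * s ^ 10 * (1 - s) ^ 1 +
        114 * s ^ 11 := by ring
    rw [key]; (clear * - h1 h0; positivity)

theorem kK_poly {s : ℝ} (h0 : 0 ≤ s) (h1 : s ≤ 1) :
    0 ≤ 10 + 10 * s ^ 1 + (-33) * s ^ 2 + 7 * s ^ 3 + 26 * s ^ 4 + (-6) * s ^ 5 + (-4) * s ^ 6 := by
  · have hx : 0 ≤ s := by linarith
    have hy : 0 ≤ 1 - s := by linarith
    have key : 10 + 10 * s ^ 1 + (-33) * s ^ 2 + 7 * s ^ 3 + 26 * s ^ 4 + (-6) * s ^ 5 + (-4) * s ^ 6 =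
        10 * (1 - s) ^ 6 +
        70 * s ^ 1 * (1 - s) ^ 5 +
        167 * s ^ 2 * (1 - s) ^ 4 +
        175 * s ^ 3 * (1 - s) ^ 3 +
        99 * s ^ 4 * (1 - s) ^ 2 +
        45 * s ^ 5 * (1 - s) ^ 1 +
        10 * s ^ 6 := by ring
    rw [key]; (clear * - h0 h1; positivity)

end Vale.Agent.P237.AllN
end

section

/-!
# P237, all dimensions: the unconditionally safe kernel `S12` (helper730)

`A(a,b) = φ(b) - φ(a) + K(ab) log(b/a)` for `ab > 0` and `φ(b) - φ(a)` otherwise, where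
`φ(t) = t²/4 + 3t⁴/32`, `K(z) = (1-z)^(-1/2) - 1 - z/2 - 3z²/8`.
-/

open MeasureTheory Metric Set Module Filter Topology

namespace Vale.Agent.P237.AllN

/-! ## a Padé bound for the logarithm -/

theorem log_pade {x : ℝ} (hx : 1 ≤ x) :
    Real.log x ≤ (x - 1) * (x ^ 2 + 19 * x + 10) / (3 * (3 * x ^ 2 + 6 * x + 1)) := by
  have hd : ∀ y ∈ Ioi (0 : ℝ), HasDerivAt
      (fun x : ℝ => (x - 1) * (x ^ 2 + 19 * x + 10) / (3 * (3 * x ^ 2 + 6 * x + 1)) - Real.log x)
      ((y - 1) ^ 5 / (y * (3 * y ^ 2 + 6 * y + 1) ^ 2)) y := by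
    intro y hy
    have hy' : (0 : ℝ) < y := hy
    have hD : (3 * (3 * y ^ 2 + 6 * y + 1) : ℝ) ≠ 0 := by positivity
    have h1 : HasDerivAt (fun x : ℝ => (x - 1) * (x ^ 2 + 19 * x + 10))
        (1 * (y ^ 2 + 19 * y + 10) + (y - 1) * (2 * y + 19)) y := by
      have e1 : HasDerivAt (fun x : ℝ => x - 1) 1 y := (hasDerivAt_id y).sub_const 1
      have e2 : HasDerivAt (fun x : ℝ => x ^ 2 + 19 * x + 10) (2 * y + 19) y := by
        have := (((hasDerivAt_pow 2 y).add ((hasDerivAt_id y).const_mul 19)).add_const 10)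
        refine this.congr_deriv ?_
        norm_num
      exact e1.mul e2
    have h2 : HasDerivAt (fun x : ℝ => 3 * (3 * x ^ 2 + 6 * x + 1)) (3 * (6 * y + 6)) y := by
      have := (((((hasDerivAt_pow 2 y).const_mul 3).add
        ((hasDerivAt_id y).const_mul 6)).add_const 1).const_mul (3 : ℝ))
      refine this.congr_deriv ?_
      norm_num
      ring
    have h3 := (h1.div h2 hD).sub (Real.hasDerivAt_log hy'.ne')
    refine h3.congr_deriv ?_
    field_simp
    ring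
  have hm : MonotoneOn
      (fun x : ℝ => (x - 1) * (x ^ 2 + 19 * x + 10) / (3 * (3 * x ^ 2 + 6 * x + 1)) - Real.log x)
      (Ici 1) := by
    apply monotoneOn_of_deriv_nonneg (convex_Ici 1)
    · intro y hy
      have hy' : (0 : ℝ) < y := lt_of_lt_of_le one_pos hy
      exact (hd y hy').continuousAt.continuousWithinAt
    · intro y hy
      rw [interior_Ici] at hy
      have hy' : (0 : ℝ) < y := lt_trans one_pos hy
      exact (hd y hy').differentiableAt.differentiableWithinAt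
    · intro y hy
      rw [interior_Ici] at hy
      have hy1 : (1 : ℝ) < y := hy
      have hy' : (0 : ℝ) < y := lt_trans one_pos hy
      rw [(hd y hy').deriv]
      have : 0 ≤ y - 1 := by linarith
      positivity
  have h := hm (mem_Ici.2 le_rfl) (mem_Ici.2 hx) hx
  simp only [sub_self, zero_mul, zero_div, Real.log_one] at h
  linarith only [h]

/-- the bound for `log (1/z)`, `z = 1 - s²` -/
theorem neg_log_le {s : ℝ} (h0 : 0 < s) (h1 : s < 1) :
    -Real.log (1 - s ^ 2) ≤ s ^ 2 * (30 - 39 * s ^ 2 + 10 * s ^ 4) /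
      (3 * (1 - s ^ 2) * (10 - 8 * s ^ 2 + s ^ 4)) := by
  have hz : 0 < 1 - s ^ 2 := by (by_contra nlg; linarith [mul_pos (sub_pos.2 h1) (sub_pos.2 h0), mul_pos (sub_pos.2 h1) (sub_pos.2 h1), mul_nonneg (sub_nonneg.2 (not_lt.1 nlg)) (le_of_lt (sub_pos.2 h0)), mul_nonneg (sub_nonneg.2 (not_lt.1 nlg)) (le_of_lt (sub_pos.2 h1))])
  have hx : 1 ≤ (1 - s ^ 2)⁻¹ := by
    rw [one_le_inv₀ hz]; nlinarith only []
  have h := log_pade hx
  rw [Real.log_inv] at h
  have hD : (0 : ℝ) < 10 - 8 * s ^ 2 + s ^ 4 := by nlinarith only [hz]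
  refine h.trans (le_of_eq ?_)
  have hD2 : (3 * (1 - s ^ 2)⁻¹ ^ 2 + 6 * (1 - s ^ 2)⁻¹ + 1 : ℝ) =
      (10 - 8 * s ^ 2 + s ^ 4) / (1 - s ^ 2) ^ 2 := by
    field_simp
    ring
  rw [hD2]
  field_simp
  ring

/-! ## the functions -/

noncomputable def kφ (t : ℝ) : ℝ := t ^ 2 / 4 + 3 * t ^ 4 / 32

noncomputable def kφ1 (t : ℝ) : ℝ := t / 2 + 3 * t ^ 3 / 8

/-- `K(z) = (1-z)^(-1/2) - 1 - z/2 - 3z²/8` -/
noncomputable def kK (z : ℝ) : ℝ := (Real.sqrt (1 - z))⁻¹ - 1 - z / 2 - 3 * z ^ 2 / 8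

noncomputable def kK1 (z : ℝ) : ℝ := (Real.sqrt (1 - z))⁻¹ ^ 3 / 2 - 1 / 2 - 3 * z / 4

noncomputable def kK2 (z : ℝ) : ℝ := 3 * (Real.sqrt (1 - z))⁻¹ ^ 5 / 4 - 3 / 4

theorem kφ_hasDerivAt (t : ℝ) : HasDerivAt kφ (kφ1 t) t := by
  have h := ((hasDerivAt_pow 2 t).div_const 4).add (((hasDerivAt_pow 4 t).const_mul 3).div_const 32)
  refine h.congr_deriv ?_
  unfold kφ1
  norm_num
  ring

theorem kφ1_hasDerivAt (t : ℝ) : HasDerivAt kφ1 (1 / 2 + 9 * t ^ 2 / 8) t := by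
  have h := ((hasDerivAt_id t).div_const 2).add (((hasDerivAt_pow 3 t).const_mul 3).div_const 8)
  refine h.congr_deriv ?_
  norm_num
  ring

theorem isqrt_hasDerivAt {z : ℝ} (hz : z < 1) :
    HasDerivAt (fun z : ℝ => (Real.sqrt (1 - z))⁻¹) ((Real.sqrt (1 - z))⁻¹ ^ 3 / 2) z := by
  have h1 : HasDerivAt (fun z : ℝ => 1 - z) (-1) z := by
    simpa using (hasDerivAt_id z).const_sub 1
  have hs : 0 < Real.sqrt (1 - z) := Real.sqrt_pos.2 (by linarith)
  have h2 := (h1.sqrt (by linarith : (1 - z) ≠ 0)).inv hs.ne'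
  refine h2.congr_deriv ?_
  field_simp

theorem kK_hasDerivAt {z : ℝ} (hz : z < 1) : HasDerivAt kK (kK1 z) z := by
  have h := (((isqrt_hasDerivAt hz).sub_const 1).sub ((hasDerivAt_id z).div_const 2)).sub
    (((hasDerivAt_pow 2 z).const_mul 3).div_const 8)
  refine h.congr_deriv ?_
  unfold kK1
  norm_num
  ring

theorem kK1_hasDerivAt {z : ℝ} (hz : z < 1) : HasDerivAt kK1 (kK2 z) z := by
  have h := ((((isqrt_hasDerivAt hz).pow 3).div_const 2).sub_const (1 / 2)).sub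
    (((hasDerivAt_id z).const_mul 3).div_const 4)
  refine h.congr_deriv ?_
  unfold kK2
  norm_num
  ring

section
variable {z : ℝ}

theorem kK_eq {s : ℝ} (h0 : 0 < s) :
    kK (1 - s ^ 2) = (1 - s) ^ 3 * (8 + 9 * s + 3 * s ^ 2) / (8 * s) := by
  unfold kK
  rw [sub_sub_cancel, Real.sqrt_sq h0.le]
  field_simp
  ring

theorem dK_eq {s : ℝ} (h0 : 0 < s) :
    (1 - s ^ 2) * kK1 (1 - s ^ 2) =
      (1 - s) ^ 3 * (1 + s) * (2 + 4 * s + 6 * s ^ 2 + 3 * s ^ 3) / (4 * s ^ 3) := by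
  unfold kK1
  rw [sub_sub_cancel, Real.sqrt_sq h0.le]
  field_simp
  ring

theorem d2K_eq {s : ℝ} (h0 : 0 < s) :
    (1 - s ^ 2) ^ 2 * kK2 (1 - s ^ 2) =
      3 * (1 - s ^ 2) ^ 2 * (1 - s ^ 5) / (4 * s ^ 5) := by
  unfold kK2
  rw [sub_sub_cancel, Real.sqrt_sq h0.le]
  field_simp

theorem exists_s {z : ℝ} (h0 : 0 < z) (h1 : z < 1) : ∃ s : ℝ, 0 < s ∧ s < 1 ∧ z = 1 - s ^ 2 := by
  refine ⟨Real.sqrt (1 - z), Real.sqrt_pos.2 (by linarith), ?_, ?_⟩
  · rw [Real.sqrt_lt' one_pos]; linarith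
  · rw [Real.sq_sqrt (by linarith)]; ring

theorem kK_nonneg (h0 : 0 < z) (h1 : z < 1) : 0 ≤ kK z := by
  obtain ⟨s, hs0, hs1, rfl⟩ := exists_s h0 h1
  rw [kK_eq hs0]
  have : 0 ≤ 1 - s := by linarith
  positivity

theorem dK_nonneg (h0 : 0 < z) (h1 : z < 1) : 0 ≤ z * kK1 z := by
  obtain ⟨s, hs0, hs1, rfl⟩ := exists_s h0 h1
  rw [dK_eq hs0]
  have : 0 ≤ 1 - s := by linarith
  positivity

theorem d2K_nonneg (h0 : 0 < z) (h1 : z < 1) : 0 ≤ z ^ 2 * kK2 z := by
  obtain ⟨s, hs0, hs1, rfl⟩ := exists_s h0 h1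
  rw [d2K_eq hs0]
  have : 0 ≤ 1 - s ^ 5 := by
    have := pow_le_one₀ hs0.le hs1.le (n := 5)
    linarith only [this]
  (clear * - h0 this hs0; positivity)

theorem dK_sub_K (h0 : 0 < z) (h1 : z < 1) : 0 ≤ z * kK1 z - kK z := by
  obtain ⟨s, hs0, hs1, rfl⟩ := exists_s h0 h1
  rw [dK_eq hs0, kK_eq hs0]
  have h : 0 ≤ 1 - s := by linarith
  have e : (1 - s) ^ 3 * (1 + s) * (2 + 4 * s + 6 * s ^ 2 + 3 * s ^ 3) / (4 * s ^ 3) -
      (1 - s) ^ 3 * (8 + 9 * s + 3 * s ^ 2) / (8 * s) =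
      (1 - s) ^ 3 * (4 + 12 * s + 12 * s ^ 2 + 9 * s ^ 3 + 3 * s ^ 4) / (8 * s ^ 3) := by
    field_simp
    ring
  rw [e]
  positivity

/-- (I1) -/
theorem kS_I1 (h0 : 0 < z) (h1 : z < 1) :
    (z * kK1 z - kK z) * -Real.log z - kK z ≤ z ^ 2 / 4 + 3 * z ^ 4 / 16 := by
  have hX := dK_sub_K h0 h1
  obtain ⟨s, hs0, hs1, rfl⟩ := exists_s h0 h1
  have hL := mul_le_mul_of_nonneg_left (neg_log_le hs0 hs1) hX
  refine (sub_le_sub_right hL _).trans ?_
  rw [dK_eq hs0, kK_eq hs0]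
  have h : 0 ≤ 1 - s := by linarith only [hs1]
  have hD : (0 : ℝ) < 10 - 8 * s ^ 2 + s ^ 4 := by nlinarith only [h0]
  have hp := kS_poly1 hs0.le hs1.le
  rw [← sub_nonneg]
  have hne : (1 - s ^ 2) ≠ 0 := h0.ne'
  have hne1 : (1 - s) ≠ 0 := by intro h; apply hne; nlinarith only [h]
  have e : (1 - s ^ 2) ^ 2 / 4 + 3 * (1 - s ^ 2) ^ 4 / 16 -
      (((1 - s) ^ 3 * (1 + s) * (2 + 4 * s + 6 * s ^ 2 + 3 * s ^ 3) / (4 * s ^ 3) -
        (1 - s) ^ 3 * (8 + 9 * s + 3 * s ^ 2) / (8 * s)) *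
        (s ^ 2 * (30 - 39 * s ^ 2 + 10 * s ^ 4) /
          (3 * (1 - s ^ 2) * (10 - 8 * s ^ 2 + s ^ 4))) -
        (1 - s) ^ 3 * (8 + 9 * s + 3 * s ^ 2) / (8 * s)) =
      (1 - s) ^ 2 * (240 + 30 * s ^ 1 + (-462) * s ^ 2 + (-294) * s ^ 3 + (-50) * s ^ 4 +
        159 * s ^ 5 + 525 * s ^ 6 + 441 * s ^ 7 + (-93) * s ^ 8 + (-261) * s ^ 9 +
        (-63) * s ^ 10 + 27 * s ^ 11 + 9 * s ^ 12) /
        (48 * s * (1 + s) * (10 - 8 * s ^ 2 + s ^ 4)) := by
    have hf : (1 - s ^ 2) = (1 - s) * (1 + s) := by ring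
    obtain ⟨D, hDe⟩ : ∃ D, D = 10 - 8 * s ^ 2 + s ^ 4 := ⟨_, rfl⟩
    rw [← hDe] at hD ⊢
    rw [hf] at hne ⊢
    field_simp
    rw [hDe]
    ring
  rw [e]
  (clear * - hs1 hp hs0 hD; positivity)

/-- (I2) -/
theorem kS_I2 (h0 : 0 < z) (h1 : z < 1) :
    z * kK1 z * -Real.log z - kK z ≤ z ^ 2 / 2 + 3 * z ^ 4 / 8 := by
  have hX := dK_nonneg h0 h1
  obtain ⟨s, hs0, hs1, rfl⟩ := exists_s h0 h1
  have hL := mul_le_mul_of_nonneg_left (neg_log_le hs0 hs1) hX
  refine (sub_le_sub_right hL _).trans ?_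
  rw [dK_eq hs0, kK_eq hs0]
  have h : 0 ≤ 1 - s := by linarith only [hs1]
  have hD : (0 : ℝ) < 10 - 8 * s ^ 2 + s ^ 4 := by nlinarith only [h0]
  have hp := kS_poly2 hs0.le hs1.le
  rw [← sub_nonneg]
  have hne : (1 - s ^ 2) ≠ 0 := h0.ne'
  have hne1 : (1 - s) ≠ 0 := by intro h; apply hne; nlinarith only [h]
  have e : (1 - s ^ 2) ^ 2 / 2 + 3 * (1 - s ^ 2) ^ 4 / 8 -
      ((1 - s) ^ 3 * (1 + s) * (2 + 4 * s + 6 * s ^ 2 + 3 * s ^ 3) / (4 * s ^ 3) *
        (s ^ 2 * (30 - 39 * s ^ 2 + 10 * s ^ 4) /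
          (3 * (1 - s ^ 2) * (10 - 8 * s ^ 2 + s ^ 4))) -
        (1 - s) ^ 3 * (8 + 9 * s + 3 * s ^ 2) / (8 * s)) =
      (1 - s) ^ 2 * (120 + (-156) * s ^ 2 + (-120) * s ^ 3 + (-100) * s ^ 4 + 136 * s ^ 5 +
        372 * s ^ 6 + 96 * s ^ 7 + (-180) * s ^ 8 + (-81) * s ^ 9 + 18 * s ^ 10 + 9 * s ^ 11) /
        (24 * s * (10 - 8 * s ^ 2 + s ^ 4)) := by
    have hf : (1 - s ^ 2) = (1 - s) * (1 + s) := by ring
    obtain ⟨D, hDe⟩ : ∃ D, D = 10 - 8 * s ^ 2 + s ^ 4 := ⟨_, rfl⟩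
    rw [← hDe] at hD ⊢
    rw [hf] at hne ⊢
    field_simp
    rw [hDe]
    ring
  rw [e]
  (clear * - hs1 hp hs0 hD; positivity)

/-- (I3) -/
theorem kS_I3 (h0 : 0 < z) (h1 : z < 1) :
    z ^ 2 * kK2 z * -Real.log z ≤
      z ^ 2 / 2 + 9 * z ^ 4 / 8 + 2 * (z * kK1 z) - kK z := by
  have hX := d2K_nonneg h0 h1
  obtain ⟨s, hs0, hs1, rfl⟩ := exists_s h0 h1
  have hL := mul_le_mul_of_nonneg_left (neg_log_le hs0 hs1) hX
  refine hL.trans ?_
  rw [dK_eq hs0, kK_eq hs0, d2K_eq hs0]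
  have h : 0 ≤ 1 - s := by linarith only [hs1]
  have hD : (0 : ℝ) < 10 - 8 * s ^ 2 + s ^ 4 := by nlinarith only [h0]
  have hp := kS_poly3 hs0.le hs1.le
  rw [← sub_nonneg]
  have hne : (1 - s ^ 2) ≠ 0 := h0.ne'
  have hne1 : (1 - s) ≠ 0 := by intro h; apply hne; nlinarith only [h]
  have e : (1 - s ^ 2) ^ 2 / 2 + 9 * (1 - s ^ 2) ^ 4 / 8 +
      2 * ((1 - s) ^ 3 * (1 + s) * (2 + 4 * s + 6 * s ^ 2 + 3 * s ^ 3) / (4 * s ^ 3)) -
      (1 - s) ^ 3 * (8 + 9 * s + 3 * s ^ 2) / (8 * s) -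
      3 * (1 - s ^ 2) ^ 2 * (1 - s ^ 5) / (4 * s ^ 5) *
        (s ^ 2 * (30 - 39 * s ^ 2 + 10 * s ^ 4) /
          (3 * (1 - s ^ 2) * (10 - 8 * s ^ 2 + s ^ 4))) =
      (1 - s) ^ 2 * (20 + 40 * s ^ 1 + (-26) * s ^ 2 + (-12) * s ^ 3 + 40 * s ^ 4 +
        (-132) * s ^ 5 + (-300) * s ^ 6 + 68 * s ^ 7 + 436 * s ^ 8 + 128 * s ^ 9 +
        (-180) * s ^ 10 + (-81) * s ^ 11 + 18 * s ^ 12 + 9 * s ^ 13) /
        (8 * s ^ 3 * (10 - 8 * s ^ 2 + s ^ 4)) := by
    have hf : (1 - s ^ 2) = (1 - s) * (1 + s) := by ring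
    obtain ⟨D, hDe⟩ : ∃ D, D = 10 - 8 * s ^ 2 + s ^ 4 := ⟨_, rfl⟩
    rw [← hDe] at hD ⊢
    rw [hf] at hne ⊢
    field_simp
    rw [hDe]
    ring
  rw [e]
  (clear * - hs1 hp hs0 hD; positivity)

end

/-! ## a tangent lemma -/

theorem tangent_le_of_deriv2 {c : ℝ} {g g' g'' : ℝ → ℝ}
    (hg : ∀ b ∈ Ioo 0 c, HasDerivAt g (g' b) b) (hg' : ∀ b ∈ Ioo 0 c, HasDerivAt g' (g'' b) b)
    (hpos : ∀ b ∈ Ioo 0 c, 0 ≤ g'' b) {q b : ℝ} (hq : q ∈ Ioo 0 c) (hb : b ∈ Ioo 0 c) :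
    g q + g' q * (b - q) ≤ g b := by
  have hm : MonotoneOn g' (Ioo 0 c) := by
    apply monotoneOn_of_deriv_nonneg (convex_Ioo 0 c)
    · intro y hy
      exact (hg' y hy).continuousAt.continuousWithinAt
    · intro y hy
      rw [interior_Ioo] at hy
      exact (hg' y hy).differentiableAt.differentiableWithinAt
    · intro y hy
      rw [interior_Ioo] at hy
      rw [(hg' y hy).deriv]
      exact hpos y hy
  rcases lt_trichotomy q b with h | h | h
  · obtain ⟨ξ, hξ, e⟩ := exists_hasDerivAt_eq_slope g g' h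
      (fun y hy => (hg y ⟨hq.1.trans_le hy.1, hy.2.trans_lt hb.2⟩).continuousAt.continuousWithinAt)
      (fun y hy => hg y ⟨hq.1.trans hy.1, hy.2.trans hb.2⟩)
    have h2 : g' q ≤ g' ξ := hm hq ⟨hq.1.trans hξ.1, hξ.2.trans hb.2⟩ hξ.1.le
    have h3 : 0 < b - q := by linarith
    rw [eq_div_iff h3.ne'] at e
    linarith only [mul_nonneg (le_of_lt (sub_pos.2 h)) (sub_nonneg.2 h2), e]
  · subst h; simp
  · obtain ⟨ξ, hξ, e⟩ := exists_hasDerivAt_eq_slope g g' h
      (fun y hy => (hg y ⟨hb.1.trans_le hy.1, hy.2.trans_lt hq.2⟩).continuousAt.continuousWithinAt)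
      (fun y hy => hg y ⟨hb.1.trans hy.1, hy.2.trans hq.2⟩)
    have h2 : g' ξ ≤ g' q := hm ⟨hb.1.trans hξ.1, hξ.2.trans hq.2⟩ hq hξ.2.le
    have h3 : 0 < q - b := by linarith
    rw [eq_div_iff h3.ne'] at e
    linarith only [mul_nonneg (le_of_lt (sub_pos.2 h)) (sub_nonneg.2 h2), e]

/-! ## the kernel -/

/-- the safe kernel -/
noncomputable def kS (a b : ℝ) : ℝ :=
  kφ b - kφ a + if 0 < a * b then kK (a * b) * Real.log (b / a) else 0

/-- the slope of `kS a ·` at `q > 0` -/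
noncomputable def kSd (a q : ℝ) : ℝ :=
  kφ1 q + a * kK1 (a * q) * Real.log (q / a) + kK (a * q) / q

theorem kS_pos {a b : ℝ} (ha : 0 < a) (hb : 0 < b) :
    kS a b = kφ b - kφ a + kK (a * b) * Real.log (b / a) := by
  unfold kS
  rw [if_pos (mul_pos ha hb)]

theorem kS_nonpos {a b : ℝ} (ha : 0 < a) (hb : b ≤ 0) : kS a b = kφ b - kφ a := by
  unfold kS
  rw [if_neg (by linarith only [mul_nonneg (le_of_lt (sub_pos.2 ha)) (sub_nonneg.2 hb)]), add_zero]

theorem logdiv_hasDerivAt {a b : ℝ} (ha : 0 < a) (hb : 0 < b) :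
    HasDerivAt (fun b => Real.log (b / a)) (1 / b) b := by
  have h := ((hasDerivAt_id b).div_const a).log (by simp; constructor <;> positivity)
  refine h.congr_deriv ?_
  simp
  field_simp

theorem kS_deriv {a b : ℝ} (ha : 0 < a) (hb : 0 < b) (hab : a * b < 1) :
    HasDerivAt (fun b => kφ b - kφ a + kK (a * b) * Real.log (b / a)) (kSd a b) b := by
  have h1 : HasDerivAt (fun b => a * b) a b := by
    simpa using (hasDerivAt_id b).const_mul a
  have h2 : HasDerivAt (fun b => kK (a * b)) (kK1 (a * b) * a) b :=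
    (kK_hasDerivAt hab).comp b h1
  have h := ((kφ_hasDerivAt b).sub_const (kφ a)).add (h2.mul (logdiv_hasDerivAt ha hb))
  refine h.congr_deriv ?_
  unfold kSd
  ring

theorem kSd_deriv {a b : ℝ} (ha : 0 < a) (hb : 0 < b) (hab : a * b < 1) :
    HasDerivAt (kSd a) (1 / 2 + 9 * b ^ 2 / 8 + (a ^ 2 * kK2 (a * b) * Real.log (b / a) +
      2 * (a * kK1 (a * b) / b) - kK (a * b) / b ^ 2)) b := by
  have h1 : HasDerivAt (fun b => a * b) a b := by
    simpa using (hasDerivAt_id b).const_mul a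
  have h2 : HasDerivAt (fun b => kK (a * b)) (kK1 (a * b) * a) b :=
    (kK_hasDerivAt hab).comp b h1
  have h3 : HasDerivAt (fun b => kK1 (a * b)) (kK2 (a * b) * a) b :=
    (kK1_hasDerivAt hab).comp b h1
  have h := ((kφ1_hasDerivAt b).add ((h3.const_mul a).mul (logdiv_hasDerivAt ha hb))).add
    (h2.div (hasDerivAt_id b) hb.ne')
  refine h.congr_deriv ?_
  simp only [id]
  field_simp
  ring

/-- **All tangent lines are below the kernel** (on `[-1,1]`, the negative side included). -/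
theorem kS_tangent {a q b : ℝ} (ha : 0 < a) (ha1 : a < 1) (hq : 0 < q) (hq1 : a * q < 1)
    (hb : b ∈ Icc (-1 : ℝ) 1) :
    (kφ q - kφ a + kK (a * q) * Real.log (q / a)) + kSd a q * (b - q) ≤ kS a b := by
  rcases lt_or_ge 0 b with hb0 | hb0
  · rw [kS_pos ha hb0]
    have key := tangent_le_of_deriv2 (c := 1 / a)
      (g := fun b => kφ b - kφ a + kK (a * b) * Real.log (b / a)) (g' := kSd a)
      (g'' := fun b => 1 / 2 + 9 * b ^ 2 / 8 + (a ^ 2 * kK2 (a * b) * Real.log (b / a) +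
        2 * (a * kK1 (a * b) / b) - kK (a * b) / b ^ 2))
      (fun y hy => kS_deriv ha hy.1 (by have := hy.2; rw [lt_div_iff₀ ha] at this; linarith))
      (fun y hy => kSd_deriv ha hy.1 (by have := hy.2; rw [lt_div_iff₀ ha] at this; linarith))
      ?_ (q := q) (b := b) ⟨hq, by rw [lt_div_iff₀ ha]; linarith⟩
      ⟨hb0, by rw [lt_div_iff₀ ha]; nlinarith only [ha1, ha, hb.2]⟩
    · exact key
    · intro y hy
      have hy0 : 0 < y := hy.1
      have hay : a * y < 1 := by have := hy.2; rw [lt_div_iff₀ ha] at this; linarith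
      have hz0 : 0 < a * y := mul_pos ha hy0
      have hI := kS_I3 hz0 hay
      have hd := d2K_nonneg hz0 hay
      have hlog : Real.log (a * y) ≤ Real.log (y / a) := by
        apply Real.log_le_log hz0
        rw [le_div_iff₀ ha]
        nlinarith only [ha1, hy0, hz0]
      have hzy : a * y ≤ y := by linarith only [mul_pos (sub_pos.2 ha1) (sub_pos.2 hy0)]
      have h4 : (a * y) ^ 4 ≤ y ^ 4 := pow_le_pow_left₀ hz0.le hzy 4
      have h2 : (a * y) ^ 2 ≤ y ^ 2 := pow_le_pow_left₀ hz0.le hzy 2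
      have hmul := mul_le_mul_of_nonneg_left hlog hd
      have key : 0 ≤ y ^ 2 * (1 / 2 + 9 * y ^ 2 / 8 + (a ^ 2 * kK2 (a * y) * Real.log (y / a) +
          2 * (a * kK1 (a * y) / y) - kK (a * y) / y ^ 2)) := by
        have e : y ^ 2 * (1 / 2 + 9 * y ^ 2 / 8 + (a ^ 2 * kK2 (a * y) * Real.log (y / a) +
          2 * (a * kK1 (a * y) / y) - kK (a * y) / y ^ 2)) =
          y ^ 2 / 2 + 9 * y ^ 4 / 8 + (a * y) ^ 2 * kK2 (a * y) * Real.log (y / a) +
          2 * (a * y * kK1 (a * y)) - kK (a * y) := by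
          field_simp
          ring
        rw [e]
        (clear * - hI h4 h2 hmul; linarith only [hmul, h2, h4, hI])
      exact nonneg_of_mul_nonneg_right key (by positivity)
  · rw [kS_nonpos ha hb0]
    set z := a * q with hz
    have hz0 : 0 < z := mul_pos ha hq
    have hK := kK_nonneg hz0 hq1
    have hdK := dK_nonneg hz0 hq1
    have hdKK := dK_sub_K hz0 hq1
    set lam := Real.log (q / a) with hlam
    have eS : kSd a q * (b - q) = kφ1 q * (b - q) + (z * kK1 z * lam + kK z) * (b / q - 1) := by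
      unfold kSd
      rw [← hz, ← hlam]
      field_simp
      rw [hz]
      ring
    rw [eS]
    have hbq : b / q ≤ 0 := div_nonpos_of_nonpos_of_nonneg hb0 hq.le
    have eφ : kφ q + kφ1 q * (b - q) - kφ b =
        -((q - b) ^ 2 * (1 / 4 + 3 / 32 * (3 * q ^ 2 + 2 * q * b + b ^ 2))) := by
      unfold kφ kφ1
      ring
    have hφ : kφ q + kφ1 q * (b - q) - kφ b ≤ -((q - b) ^ 2 * (1 / 4 + 3 * q ^ 2 / 16)) := by
      rw [eφ]
      linarith only [mul_nonneg (sq_nonneg (q - b)) (sq_nonneg (q + b))]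
    rcases le_or_gt 0 lam with hl | hl
    · have h1 : (z * kK1 z * lam + kK z) * (b / q) ≤ 0 :=
        mul_nonpos_of_nonneg_of_nonpos (by (clear * - hdK hl hK; positivity)) hbq
      have h2 : 0 ≤ (z * kK1 z - kK z) * lam := mul_nonneg hdKK hl
      have h3 : 0 ≤ (q - b) ^ 2 * (1 / 4 + 3 * q ^ 2 / 16) := by (clear * - hq; positivity)
      linarith only [h3, h2, h1, hφ, hK]
    · -- `Λ = -lam > 0`
      have hI1 := kS_I1 hz0 hq1
      have hI2 := kS_I2 hz0 hq1
      have hLam : -lam ≤ -Real.log z := by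
        have : Real.log z ≤ lam := by
          apply Real.log_le_log hz0
          rw [le_div_iff₀ ha, hz]
          nlinarith only [ha1, hq, hz0]
        linarith only [this]
      have h1 : (z * kK1 z - kK z) * -lam ≤ (z * kK1 z - kK z) * -Real.log z :=
        mul_le_mul_of_nonneg_left hLam hdKK
      have h2 : z * kK1 z * -lam ≤ z * kK1 z * -Real.log z :=
        mul_le_mul_of_nonneg_left hLam hdK
      have hzq : z ≤ q := by rw [hz]; linarith only [mul_pos (sub_pos.2 ha1) (sub_pos.2 hq)]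
      have hz4 : z ^ 4 ≤ q ^ 4 := pow_le_pow_left₀ hz0.le hzq 4
      have hz2 : z ^ 2 ≤ q ^ 2 := pow_le_pow_left₀ hz0.le hzq 2
      have hA : (z * kK1 z - kK z) * -lam - kK z ≤ q ^ 2 / 4 + 3 * q ^ 4 / 16 := by linarith only [hI1, h1, hz4, hz2]
      have hB : z * kK1 z * -lam - kK z ≤ q ^ 2 / 2 + 3 * q ^ 4 / 8 := by linarith only [hI2, h2, hz4, hz2]
      have hC : (z * kK1 z * -lam - kK z) * (-(b / q)) ≤
          (q ^ 2 / 2 + 3 * q ^ 4 / 8) * (-(b / q)) :=
        mul_le_mul_of_nonneg_right hB (by linarith only [hbq])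
      have hD : (q ^ 2 / 2 + 3 * q ^ 4 / 8) * (-(b / q)) =
          -b * (q / 2 + 3 * q ^ 3 / 8) := by
        (clear * - hq; field_simp)
      have hE : 0 ≤ b ^ 2 * (1 / 4 + 3 * q ^ 2 / 16) := by (clear * - hq; positivity)
      linarith only [hE, hD, hC, hA, hφ]

/-! ## `Kern2` -/

theorem kK_le {z : ℝ} (h0 : 0 < z) (h1 : z < 1) : kK z ≤ z / Real.sqrt (1 - z) := by
  obtain ⟨s, hs0, hs1, rfl⟩ := exists_s h0 h1
  rw [kK_eq hs0, sub_sub_cancel, Real.sqrt_sq hs0.le, div_le_div_iff₀ (by positivity) hs0]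
  have h : 0 ≤ 1 - s := by linarith
  have h2 : (1 - s) ^ 2 * (8 + 9 * s + 3 * s ^ 2) ≤ 8 * (1 + s) := by
    nlinarith [mul_nonneg h hs0.le, mul_nonneg (mul_nonneg h hs0.le) hs0.le,
      mul_nonneg (mul_nonneg h h) hs0.le, mul_nonneg (mul_nonneg h h) (mul_nonneg hs0.le hs0.le)]
  have h3 := mul_le_mul_of_nonneg_left h2 (mul_nonneg h hs0.le)
  linarith

theorem klog_bound_aux {a b : ℝ} (hb : 0 < b) (hba : b ≤ a) (ha1 : a ≤ 1) :
    |kK (a * b) * Real.log (b / a)| ≤ Real.sqrt (1 - a * b) := by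
  have ha : 0 < a := hb.trans_le hba
  have hz0 : 0 < a * b := mul_pos ha hb
  have hz1 : a * b ≤ 1 := by nlinarith only [hba, ha1, hb]
  rcases hz1.eq_or_lt with h1 | h1
  · have ha' : a = 1 := by nlinarith only [hba, h1, hb, ha1]
    have hb' : b = 1 := by rw [ha'] at h1; linarith
    subst ha' hb'
    simp
  · have hK := kK_nonneg hz0 h1
    have hle := kK_le hz0 h1
    have hs : 0 < Real.sqrt (1 - a * b) := Real.sqrt_pos.2 (by linarith)
    have hlog0 : Real.log (b / a) ≤ 0 :=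
      Real.log_nonpos (by positivity) (by rw [div_le_one ha]; exact hba)
    have hlog : -Real.log (b / a) ≤ (a - b) / b := by
      rw [← Real.log_inv, inv_div]
      have := Real.log_le_sub_one_of_pos (x := a / b) (by positivity)
      have e : a / b - 1 = (a - b) / b := by field_simp
      linarith only [e, this]
    rw [abs_mul, abs_of_nonneg hK, abs_of_nonpos hlog0]
    calc kK (a * b) * -Real.log (b / a)
        ≤ (a * b / Real.sqrt (1 - a * b)) * ((a - b) / b) := by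
          apply mul_le_mul hle hlog (by linarith only [hlog0])
          (clear * - ha hb h1; positivity)
      _ = a * (a - b) / Real.sqrt (1 - a * b) := by field_simp
      _ ≤ (1 - a * b) / Real.sqrt (1 - a * b) := by
          apply div_le_div_of_nonneg_right _ hs.le
          nlinarith only [ha1, hb, hba]
      _ = Real.sqrt (1 - a * b) := by
          rw [div_eq_iff hs.ne', Real.mul_self_sqrt (by linarith only [h1])]

theorem kS_symm (a b : ℝ) : kS (-a) (-b) = kS a b := by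
  unfold kS kφ
  rw [neg_mul_neg, neg_div_neg_eq]
  ring_nf

theorem kS_anti (a b : ℝ) : kS a b = -kS b a := by
  unfold kS
  rw [mul_comm b a]
  split_ifs with h
  · have : Real.log (b / a) = -Real.log (a / b) := by rw [← Real.log_inv, inv_div]
    rw [this]
    ring
  · ring

theorem klog_bound {a b : ℝ} (ha : a ∈ Icc (-1 : ℝ) 1) (hb : b ∈ Icc (-1 : ℝ) 1) :
    |if 0 < a * b then kK (a * b) * Real.log (b / a) else 0| ≤ Real.sqrt (1 - a * b) := by
  split_ifs with h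
  · -- reduce to positive
    have key : ∀ a b : ℝ, a ∈ Icc (-1 : ℝ) 1 → b ∈ Icc (-1 : ℝ) 1 → 0 < a → 0 < b →
        |kK (a * b) * Real.log (b / a)| ≤ Real.sqrt (1 - a * b) := by
      intro a b ha hb ha0 hb0
      rcases le_total b a with hab | hab
      · exact klog_bound_aux hb0 hab ha.2
      · have := klog_bound_aux ha0 hab hb.2
        rw [mul_comm b a] at this
        have e : Real.log (b / a) = -Real.log (a / b) := by rw [← Real.log_inv, inv_div]
        rw [e, mul_neg, abs_neg]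
        exact this
    rcases lt_trichotomy 0 a with h0 | h0 | h0
    · exact key a b ha hb h0 (by by_contra hb'; push Not at hb'; linarith only [mul_nonneg (le_of_lt (sub_pos.2 h0)) (sub_nonneg.2 hb'), h])
    · rw [← h0, zero_mul] at h; exact absurd h (lt_irrefl _)
    · have hb0 : b < 0 := by nlinarith only [h, h0]
      have := key (-a) (-b) ⟨by linarith [ha.2], by linarith [ha.1]⟩
        ⟨by linarith [hb.2], by linarith [hb.1]⟩ (by linarith) (by linarith)
      rwa [neg_mul_neg, neg_div_neg_eq] at this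
  · simp

theorem kφ_bd {a : ℝ} (ha : a ∈ Icc (-1 : ℝ) 1) : 0 ≤ kφ a ∧ kφ a ≤ 1 := by
  have h2 : a ^ 2 ≤ 1 := by
    rw [sq_le_one_iff_abs_le_one, abs_le]; exact ha
  have h4 : a ^ 4 ≤ 1 := by linarith [mul_nonneg (sub_nonneg.2 h2) (sub_nonneg.2 h2), mul_nonneg (sq_nonneg (a : ℝ)) (sub_nonneg.2 h2)]
  unfold kφ
  constructor
  · positivity
  · linarith only [h2, h4]

theorem kK_meas : Measurable kK := by
  unfold kK
  fun_prop

theorem kS_meas : Measurable (Function.uncurry kS) := by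
  have e : Function.uncurry kS = fun x : ℝ × ℝ => kφ x.2 - kφ x.1 +
      if 0 < x.1 * x.2 then kK (x.1 * x.2) * Real.log (x.2 / x.1) else 0 := rfl
  rw [e]
  have hφ : Measurable kφ := by unfold kφ; fun_prop
  refine ((hφ.comp measurable_snd).sub (hφ.comp measurable_fst)).add ?_
  refine Measurable.ite (measurableSet_lt measurable_const (measurable_fst.mul measurable_snd))
    ?_ measurable_const
  exact (kK_meas.comp (measurable_fst.mul measurable_snd)).mul
    (Real.measurable_log.comp (measurable_snd.div measurable_fst))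

theorem kS_kern : Kern kS where
  meas := kS_meas
  bdd := by
    refine ⟨3, fun a ha b hb => ?_⟩
    have h1 := klog_bound ha hb
    have h2 : Real.sqrt (1 - a * b) ≤ 2 := by
      rw [Real.sqrt_le_left (by norm_num)]
      (clear * - ha hb; nlinarith [ha.1, ha.2, hb.1, hb.2])
    have h3 := kφ_bd ha
    have h4 := kφ_bd hb
    unfold kS
    refine (abs_add_le _ _).trans ?_
    have h5 : |kφ b - kφ a| ≤ 1 := by
      rw [abs_le]; constructor <;> linarith only [h3, h4]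
    linarith only [h1, h2, h5]
  anti := fun a _ b _ => kS_anti a b

theorem kS_kern2 : Kern2 kS where
  toKern := kS_kern
  symm := kS_symm
  corner := by
    intro η hη
    -- `δ` with `2δ ≤ 1`, `4 δ + √(2δ) ≤ η`
    refine ⟨min (1 / 2) (min (η / 8) (η ^ 2 / 8)), by positivity, fun a ha b hb => ?_⟩
    set δ := min (1 / 2 : ℝ) (min (η / 8) (η ^ 2 / 8)) with hδ
    have hδ1 : δ ≤ 1 / 2 := min_le_left _ _
    have hδ2 : δ ≤ η / 8 := (min_le_right _ _).trans (min_le_left _ _)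
    have hδ3 : δ ≤ η ^ 2 / 8 := (min_le_right _ _).trans (min_le_right _ _)
    have hδ0 : 0 < δ := by positivity
    have ha' : a ∈ Icc (-1 : ℝ) 1 := ⟨by linarith only [hδ1, ha.1], ha.2⟩
    have hb' : b ∈ Icc (-1 : ℝ) 1 := ⟨by linarith only [hδ1, hb.1], hb.2⟩
    have h1 := klog_bound ha' hb'
    have h2 : Real.sqrt (1 - a * b) ≤ η / 2 := by
      rw [Real.sqrt_le_left (by positivity)]
      nlinarith only [hδ3, hδ1, hδ0, ha.1, hb.1]
    have h5 : |kφ b - kφ a| ≤ η / 2 := by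
      have hlip : ∀ a b : ℝ, a ∈ Icc (1 - δ) 1 → b ∈ Icc (1 - δ) 1 → kφ b - kφ a ≤ η / 2 := by
        intro a b ha hb
        have ha0 : 0 ≤ a := by linarith only [hδ1, ha.1]
        have hb0 : 0 ≤ b := by linarith only [hδ1, hb.1]
        have e2 : b ^ 2 - a ^ 2 ≤ 2 * δ := by nlinarith only [hδ1, hδ0, hb0, ha.1, hb.2]
        have e4 : b ^ 4 - a ^ 4 ≤ 4 * δ := by
          have hb4 : b ^ 4 ≤ 1 := pow_le_one₀ hb0 hb.2
          have ha4 : 1 - 4 * δ ≤ a ^ 4 := by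
            have := one_add_mul_le_pow (a := a - 1) (by linarith only [ha0]) 4
            have e : (1 + (a - 1)) ^ 4 = a ^ 4 := by ring
            rw [e] at this
            push_cast at this
            linarith only [this, ha.1]
          linarith only [hb4, ha4]
        unfold kφ
        linarith only [e4, e2, hδ0, hδ2]
      rw [abs_le]
      constructor
      · have := hlip b a hb ha; linarith only [this]
      · exact hlip a b ha hb
    unfold kS
    refine (abs_add_le _ _).trans ?_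
    linarith only [h1, h2, h5]

end Vale.Agent.P237.AllN
end

section

/-!
# P237, all dimensions: supporting pairs of kernels `φ(b) - φ(a) + K(ab) log(b/a)`

For `a, q > 0`, `a q < 1`: `gV` = value of the kernel at `(a,q)`, `gD = ∂₂`, `gC = gV - q gD`
(intercept of the tangent line at `q`), `gA = ∂₁`, `gAD = ∂₁∂₂`, `gDD = ∂₂²`.  If `τ, q` are
functions of `x` then `c = gC (τ x) (q x)`, `p = gD (τ x) (q x)` have the derivatives `gC_has`,
`gD_has`, and `g_integrand` is the integrand of the certificate theorem.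
-/

open MeasureTheory Metric Set Module Filter Topology

namespace Vale.Agent.P237.AllN

noncomputable def gV (K φ : ℝ → ℝ) (a q : ℝ) : ℝ := φ q - φ a + K (a * q) * Real.log (q / a)

noncomputable def gD (K K1 φ1 : ℝ → ℝ) (a q : ℝ) : ℝ :=
  φ1 q + a * K1 (a * q) * Real.log (q / a) + K (a * q) / q

noncomputable def gC (K K1 φ φ1 : ℝ → ℝ) (a q : ℝ) : ℝ := gV K φ a q - gD K K1 φ1 a q * q

noncomputable def gA (K K1 φ1 : ℝ → ℝ) (a q : ℝ) : ℝ :=
  -φ1 a + q * K1 (a * q) * Real.log (q / a) - K (a * q) / a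

noncomputable def gAD (K1 K2 : ℝ → ℝ) (a q : ℝ) : ℝ :=
  (a * q * K2 (a * q) + K1 (a * q)) * Real.log (q / a)

noncomputable def gDD (K K1 K2 φ2 : ℝ → ℝ) (a q : ℝ) : ℝ :=
  φ2 q + (a ^ 2 * K2 (a * q) * Real.log (q / a) +
    2 * (a * K1 (a * q) / q) - K (a * q) / q ^ 2)

/-- `K, K1, K2` are the derivatives on `(-∞,1)`, `φ, φ1, φ2` everywhere. -/
structure KData (K K1 K2 φ φ1 φ2 : ℝ → ℝ) : Prop where
  hK : ∀ z < 1, HasDerivAt K (K1 z) z
  hK1 : ∀ z < 1, HasDerivAt K1 (K2 z) z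
  hφ : ∀ t, HasDerivAt φ (φ1 t) t
  hφ1 : ∀ t, HasDerivAt φ1 (φ2 t) t

section
variable {K K1 K2 φ φ1 φ2 : ℝ → ℝ} {τ q : ℝ → ℝ} {τ' q' x : ℝ}

theorem logdiv_has (hτ : HasDerivAt τ τ' x) (hq : HasDerivAt q q' x) (h0 : 0 < τ x)
    (hq0 : 0 < q x) : HasDerivAt (fun x => Real.log (q x / τ x)) (q' / q x - τ' / τ x) x := by
  have h := (hq.div hτ h0.ne').log (by simp only [Pi.div_apply]; (clear * - hq0 h0; positivity))
  refine h.congr_deriv ?_
  simp only [Pi.div_apply]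
  (clear * - h0 hq0; field_simp)

theorem gV_has (H : KData K K1 K2 φ φ1 φ2) (hτ : HasDerivAt τ τ' x) (hq : HasDerivAt q q' x)
    (h0 : 0 < τ x) (hq0 : 0 < q x) (h1 : τ x * q x < 1) :
    HasDerivAt (fun x => gV K φ (τ x) (q x))
      (gA K K1 φ1 (τ x) (q x) * τ' + gD K K1 φ1 (τ x) (q x) * q') x := by
  have hz : HasDerivAt (fun x => τ x * q x) (τ' * q x + τ x * q') x := hτ.mul hq
  have hl := logdiv_has hτ hq h0 hq0
  have hK : HasDerivAt (fun x => K (τ x * q x)) (K1 (τ x * q x) * (τ' * q x + τ x * q')) x := by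
    have h2 : HasDerivAt K (K1 (τ x * q x)) ((fun x => τ x * q x) x) := H.hK _ h1
    exact h2.comp x hz
  have hφq : HasDerivAt (fun x => φ (q x)) (φ1 (q x) * q') x := (H.hφ (q x)).comp x hq
  have hφτ : HasDerivAt (fun x => φ (τ x)) (φ1 (τ x) * τ') x := (H.hφ (τ x)).comp x hτ
  have h := (hφq.sub hφτ).add (hK.mul hl)
  refine h.congr_deriv ?_
  unfold gA gD
  field_simp
  ring

theorem gD_has (H : KData K K1 K2 φ φ1 φ2) (hτ : HasDerivAt τ τ' x) (hq : HasDerivAt q q' x)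
    (h0 : 0 < τ x) (hq0 : 0 < q x) (h1 : τ x * q x < 1) :
    HasDerivAt (fun x => gD K K1 φ1 (τ x) (q x))
      (gAD K1 K2 (τ x) (q x) * τ' + gDD K K1 K2 φ2 (τ x) (q x) * q') x := by
  have hz : HasDerivAt (fun x => τ x * q x) (τ' * q x + τ x * q') x := hτ.mul hq
  have hl := logdiv_has hτ hq h0 hq0
  have hK : HasDerivAt (fun x => K (τ x * q x)) (K1 (τ x * q x) * (τ' * q x + τ x * q')) x := by
    have h2 : HasDerivAt K (K1 (τ x * q x)) ((fun x => τ x * q x) x) := H.hK _ h1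
    exact h2.comp x hz
  have hK1 : HasDerivAt (fun x => K1 (τ x * q x)) (K2 (τ x * q x) * (τ' * q x + τ x * q')) x := by
    have h2 : HasDerivAt K1 (K2 (τ x * q x)) ((fun x => τ x * q x) x) := H.hK1 _ h1
    exact h2.comp x hz
  have hφq : HasDerivAt (fun x => φ1 (q x)) (φ2 (q x) * q') x := (H.hφ1 (q x)).comp x hq
  have h := (hφq.add ((hτ.mul hK1).mul hl)).add (hK.div hq hq0.ne')
  refine h.congr_deriv ?_
  unfold gAD gDD
  simp only [Pi.mul_apply]
  field_simp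
  ring

/-- derivative of the intercept -/
theorem gC_has (H : KData K K1 K2 φ φ1 φ2) (hτ : HasDerivAt τ τ' x) (hq : HasDerivAt q q' x)
    (h0 : 0 < τ x) (hq0 : 0 < q x) (h1 : τ x * q x < 1) :
    HasDerivAt (fun x => gC K K1 φ φ1 (τ x) (q x))
      (gA K K1 φ1 (τ x) (q x) * τ' -
        q x * (gAD K1 K2 (τ x) (q x) * τ' + gDD K K1 K2 φ2 (τ x) (q x) * q')) x := by
  have h := (gV_has H hτ hq h0 hq0 h1).sub ((gD_has H hτ hq h0 hq0 h1).mul hq)
  refine h.congr_deriv ?_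
  ring

end

/-- The `(P)`-integrand `(m+1) c + (τ c' + p')/τ'` for an arbitrary test point. -/
theorem g_integrand (K K1 K2 φ φ1 φ2 : ℝ → ℝ) {m a q τ' q' : ℝ} (hτ' : τ' ≠ 0) :
    (m + 1) * gC K K1 φ φ1 a q +
      (a * (gA K K1 φ1 a q * τ' - q * (gAD K1 K2 a q * τ' + gDD K K1 K2 φ2 a q * q')) +
      (gAD K1 K2 a q * τ' + gDD K K1 K2 φ2 a q * q')) / τ' =
    (m + 1) * gC K K1 φ φ1 a q + a * gA K K1 φ1 a q +
      (1 - a * q) * (gAD K1 K2 a q + gDD K K1 K2 φ2 a q * (q' / τ')) := by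
  field_simp
  ring

theorem std_log {x τ l : ℝ} (hx : 0 < x) (hl : τ = x * Real.exp l) :
    Real.log (x ^ 2 / τ / τ) = -2 * l := by
  have e : x ^ 2 / τ / τ = Real.exp (-2 * l) := by
    rw [hl, show (-2 * l : ℝ) = -(l + l) by ring, Real.exp_neg, Real.exp_add]
    (clear * - hx; field_simp)
  rw [e, Real.log_exp]

/-- the intercept for the standard test point `q = x²/τ` -/
theorem gC_std (K K1 φ φ1 : ℝ → ℝ) {x τ l : ℝ} (hx : 0 < x) (hτ : 0 < τ)
    (hl : τ = x * Real.exp l) :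
    gC K K1 φ φ1 τ (x ^ 2 / τ) = φ (x ^ 2 / τ) - φ τ - x ^ 2 / τ * φ1 (x ^ 2 / τ) -
      2 * l * (K (x ^ 2) - x ^ 2 * K1 (x ^ 2)) - K (x ^ 2) := by
  have hz : τ * (x ^ 2 / τ) = x ^ 2 := by (clear * - hτ hx; field_simp)
  unfold gC gV gD
  rw [hz, std_log hx hl]
  field_simp
  ring

/-- the slope for the standard test point `q = x²/τ` -/
theorem gD_std (K K1 φ1 : ℝ → ℝ) {x τ l : ℝ} (hx : 0 < x) (hτ : 0 < τ)
    (hl : τ = x * Real.exp l) :
    gD K K1 φ1 τ (x ^ 2 / τ) = φ1 (x ^ 2 / τ) +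
      τ / x ^ 2 * (K (x ^ 2) - 2 * l * (x ^ 2 * K1 (x ^ 2))) := by
  have hz : τ * (x ^ 2 / τ) = x ^ 2 := by field_simp
  unfold gD
  rw [hz, std_log hx hl]
  field_simp
  ring

/-- The standard test point `q = x²/τ`: the integrand in terms of `z = x²`, `l = log (τ/x)`,
`w = 1 - τ / (x τ')`. -/
theorem g_integrand_std (K K1 K2 φ φ1 φ2 : ℝ → ℝ) {m x τ τ' l : ℝ} (hx : 0 < x) (hτ : 0 < τ)
    (hτ' : 0 < τ') (hl : τ = x * Real.exp l) :
    (m + 1) * gC K K1 φ φ1 τ (x ^ 2 / τ) + τ * gA K K1 φ1 τ (x ^ 2 / τ) +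
      (1 - τ * (x ^ 2 / τ)) * (gAD K1 K2 τ (x ^ 2 / τ) +
        gDD K K1 K2 φ2 τ (x ^ 2 / τ) * ((2 * x / τ - x ^ 2 * τ' / τ ^ 2) / τ')) =
    (m + 1) * (φ (x ^ 2 / τ) - φ τ - x ^ 2 / τ * φ1 (x ^ 2 / τ) -
        2 * l * (K (x ^ 2) - x ^ 2 * K1 (x ^ 2)) - K (x ^ 2)) -
      τ * φ1 τ - 2 * l * (x ^ 2 * K1 (x ^ 2)) - K (x ^ 2) +
      (1 - x ^ 2) * (φ2 (x ^ 2 / τ) * (x ^ 2 / τ ^ 2) *
          (1 - 2 * (1 - τ / (x * τ')))) +
      (1 - x ^ 2) / x ^ 2 * (-2 * l * (x ^ 4 * K2 (x ^ 2) + x ^ 2 * K1 (x ^ 2)) +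
        (-2 * l * (x ^ 4 * K2 (x ^ 2)) + 2 * (x ^ 2 * K1 (x ^ 2)) - K (x ^ 2)) *
          (1 - 2 * (1 - τ / (x * τ')))) := by
  have hz : τ * (x ^ 2 / τ) = x ^ 2 := by field_simp
  rw [gC_std K K1 φ φ1 hx hτ hl]
  unfold gA gAD gDD
  rw [hz, std_log hx hl]
  field_simp
  ring

/-! ## `S12` -/

theorem kS_data : KData kK kK1 kK2 kφ kφ1 (fun t => 1 / 2 + 9 * t ^ 2 / 8) where
  hK := fun _ h => kK_hasDerivAt h
  hK1 := fun _ h => kK1_hasDerivAt h
  hφ := kφ_hasDerivAt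
  hφ1 := kφ1_hasDerivAt

/-- admissibility of the pair for `S12` -/
theorem kS_le {a q b : ℝ} (ha : 0 < a) (ha1 : a < 1) (hq : 0 < q) (hq1 : a * q < 1)
    (hb : b ∈ Icc (-1 : ℝ) 1) :
    gC kK kK1 kφ kφ1 a q + gD kK kK1 kφ1 a q * b ≤ kS a b := by
  have h := kS_tangent ha ha1 hq hq1 hb
  have e : gD kK kK1 kφ1 a q = kSd a q := rfl
  unfold gC gV
  rw [e]
  linarith only [h]

end Vale.Agent.P237.AllN
end

section

/-!
# P237, all dimensions: the kernel `K₁(ab) log(b/a)` and its variants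

`kL k ν a b = (K₁(ab) - k ab) log(b/a) + (k/2)(b²-a²)` for `ab > 0` and `ν (b²-a²)` for `ab ≤ 0`,
`K₁(z) = (1-z)^(-1/2) - 1`, `0 ≤ k ≤ 2/5`.  (`k = 0, ν = 1/16`: helper609; `ν = k/2`: helper764.)
-/

open MeasureTheory Metric Set Module Filter Topology

namespace Vale.Agent.P237.AllN

theorem kL_poly {s : ℝ} (h0 : 0 ≤ s) (h1 : s ≤ 1) :
    0 ≤ 10 + 10 * s ^ 1 + (-33) * s ^ 2 + 7 * s ^ 3 + 26 * s ^ 4 + (-22) * s ^ 5 + (-20) * s ^ 6 + (64/5) * s ^ 7 + (64/5) * s ^ 8 + (-8/5) * s ^ 9 + (-8/5) * s ^ 10 := by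
  · have hx : 0 ≤ s := by linarith
    have hy : 0 ≤ 1 - s := by linarith
    have key : 10 + 10 * s ^ 1 + (-33) * s ^ 2 + 7 * s ^ 3 + 26 * s ^ 4 + (-22) * s ^ 5 + (-20) * s ^ 6 + (64/5) * s ^ 7 + (64/5) * s ^ 8 + (-8/5) * s ^ 9 + (-8/5) * s ^ 10 =
        10 * (1 - s) ^ 10 +
        110 * s ^ 1 * (1 - s) ^ 9 +
        507 * s ^ 2 * (1 - s) ^ 8 +
        1303 * s ^ 3 * (1 - s) ^ 7 +
        2091 * s ^ 4 * (1 - s) ^ 6 +
        2213 * s ^ 5 * (1 - s) ^ 5 +
        1555 * s ^ 6 * (1 - s) ^ 4 +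
        (3349 / 5 : ℝ) * s ^ 7 * (1 - s) ^ 3 +
        (671 / 5 : ℝ) * s ^ 8 * (1 - s) ^ 2 +
        (17 / 5 : ℝ) * s ^ 9 * (1 - s) ^ 1 +
        (2 / 5 : ℝ) * s ^ 10 := by ring
    rw [key]; (clear * - h0 h1; positivity)

/-- the tangent lemma on an arbitrary interval -/
theorem tangent_le_of_deriv2' {s : Set ℝ} (hs : OrdConnected s) {g g' g'' : ℝ → ℝ}
    (hg : ∀ b ∈ s, HasDerivAt g (g' b) b) (hg' : ∀ b ∈ s, HasDerivAt g' (g'' b) b)
    (hpos : ∀ b ∈ s, 0 ≤ g'' b) {q b : ℝ} (hq : q ∈ s) (hb : b ∈ s) :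
    g q + g' q * (b - q) ≤ g b := by
  have hm : MonotoneOn g' s := by
    apply monotoneOn_of_deriv_nonneg hs.convex
    · intro y hy
      exact (hg' y hy).continuousAt.continuousWithinAt
    · intro y hy
      exact (hg' y (interior_subset hy)).differentiableAt.differentiableWithinAt
    · intro y hy
      rw [(hg' y (interior_subset hy)).deriv]
      exact hpos y (interior_subset hy)
  rcases lt_trichotomy q b with h | h | h
  · have hsub : Icc q b ⊆ s := hs.out hq hb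
    obtain ⟨ξ, hξ, e⟩ := exists_hasDerivAt_eq_slope g g' h
      (fun y hy => (hg y (hsub hy)).continuousAt.continuousWithinAt)
      (fun y hy => hg y (hsub ⟨hy.1.le, hy.2.le⟩))
    have h2 : g' q ≤ g' ξ := hm hq (hsub ⟨hξ.1.le, hξ.2.le⟩) hξ.1.le
    have h3 : 0 < b - q := by linarith only [h]
    rw [eq_div_iff h3.ne'] at e
    linarith only [mul_nonneg (le_of_lt (sub_pos.2 h)) (sub_nonneg.2 h2), e]
  · subst h; simp
  · have hsub : Icc b q ⊆ s := hs.out hb hq
    obtain ⟨ξ, hξ, e⟩ := exists_hasDerivAt_eq_slope g g' h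
      (fun y hy => (hg y (hsub hy)).continuousAt.continuousWithinAt)
      (fun y hy => hg y (hsub ⟨hy.1.le, hy.2.le⟩))
    have h2 : g' ξ ≤ g' q := hm (hsub ⟨hξ.1.le, hξ.2.le⟩) hq hξ.2.le
    have h3 : 0 < q - b := by linarith
    rw [eq_div_iff h3.ne'] at e
    linarith only [mul_nonneg (le_of_lt (sub_pos.2 h)) (sub_nonneg.2 h2), e]


noncomputable def lK (z : ℝ) : ℝ := (Real.sqrt (1 - z))⁻¹ - 1

noncomputable def lK1 (z : ℝ) : ℝ := (Real.sqrt (1 - z))⁻¹ ^ 3 / 2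

noncomputable def lK2 (z : ℝ) : ℝ := 3 * (Real.sqrt (1 - z))⁻¹ ^ 5 / 4

theorem lK_hasDerivAt {z : ℝ} (hz : z < 1) : HasDerivAt lK (lK1 z) z :=
  (isqrt_hasDerivAt hz).sub_const 1

theorem lK1_hasDerivAt {z : ℝ} (hz : z < 1) : HasDerivAt lK1 (lK2 z) z := by
  have h := ((isqrt_hasDerivAt hz).pow 3).div_const 2
  refine h.congr_deriv ?_
  unfold lK2
  norm_num
  ring

/-- data of the positive side of `kL k ν` -/
theorem kL_data (k : ℝ) : KData (fun z => lK z - k * z) (fun z => lK1 z - k) lK2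
    (fun t => k / 2 * t ^ 2) (fun t => k * t) (fun _ => k) where
  hK := fun z h => by
    have h2 : HasDerivAt (fun z : ℝ => k * z) (k * 1) z := (hasDerivAt_id z).const_mul k
    rw [mul_one] at h2
    exact (lK_hasDerivAt h).sub h2
  hK1 := fun z h => (lK1_hasDerivAt h).sub_const k
  hφ := fun t => by
    have := (hasDerivAt_pow 2 t).const_mul (k / 2)
    refine this.congr_deriv ?_
    norm_num
    ring
  hφ1 := fun t => by simpa using (hasDerivAt_id t).const_mul k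

section
variable {z : ℝ}

theorem lK_eq {s : ℝ} (h0 : 0 < s) : lK (1 - s ^ 2) = (1 - s) / s := by
  unfold lK
  rw [sub_sub_cancel, Real.sqrt_sq h0.le]
  field_simp

theorem dlK_eq {s : ℝ} (h0 : 0 < s) :
    (1 - s ^ 2) * lK1 (1 - s ^ 2) = (1 - s ^ 2) / (2 * s ^ 3) := by
  unfold lK1
  rw [sub_sub_cancel, Real.sqrt_sq h0.le]
  field_simp

theorem d2lK_eq {s : ℝ} (h0 : 0 < s) :
    (1 - s ^ 2) ^ 2 * lK2 (1 - s ^ 2) = 3 * (1 - s ^ 2) ^ 2 / (4 * s ^ 5) := by
  unfold lK2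
  rw [sub_sub_cancel, Real.sqrt_sq h0.le]
  field_simp

theorem d2lK_nonneg : 0 ≤ z ^ 2 * lK2 z := by unfold lK2; positivity

/-- `z/2 ≤ K₁(z) ≤ z/√(1-z)` -/
theorem lK_bds (h0 : 0 < z) (h1 : z < 1) : z / 2 ≤ lK z ∧ lK z ≤ z / Real.sqrt (1 - z) := by
  obtain ⟨s, hs0, hs1, rfl⟩ := exists_s h0 h1
  rw [lK_eq hs0, sub_sub_cancel, Real.sqrt_sq hs0.le]
  constructor
  · rw [div_le_div_iff₀ (by norm_num) hs0]
    nlinarith only [mul_nonneg (mul_nonneg (sub_nonneg.2 hs1.le) (sub_nonneg.2 hs1.le)) hs0.le]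
  · apply div_le_div_of_nonneg_right _ hs0.le
    nlinarith only [hs0, hs1]

/-- convexity inequality -/
theorem kL_I3 {k : ℝ} (hk : k ≤ 2 / 5) (h0 : 0 < z) (h1 : z < 1) :
    z ^ 2 * lK2 z * -Real.log z ≤ 2 * (z * lK1 z) - lK z - k * (z - z ^ 2) := by
  have hX : 0 ≤ z ^ 2 * lK2 z := d2lK_nonneg
  obtain ⟨s, hs0, hs1, rfl⟩ := exists_s h0 h1
  have hL := mul_le_mul_of_nonneg_left (neg_log_le hs0 hs1) hX
  refine hL.trans ?_
  rw [dlK_eq hs0, lK_eq hs0, d2lK_eq hs0]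
  have h : 0 ≤ 1 - s := by linarith only [hs1]
  have hD : (0 : ℝ) < 10 - 8 * s ^ 2 + s ^ 4 := by nlinarith only [h0]
  have hp := kL_poly hs0.le hs1.le
  rw [← sub_nonneg]
  have hne : (1 - s ^ 2) ≠ 0 := h0.ne'
  have hne1 : (1 - s) ≠ 0 := by intro h; apply hne; nlinarith only [h]
  have e : 2 * ((1 - s ^ 2) / (2 * s ^ 3)) - (1 - s) / s -
      k * ((1 - s ^ 2) - (1 - s ^ 2) ^ 2) -
      3 * (1 - s ^ 2) ^ 2 / (4 * s ^ 5) *
        (s ^ 2 * (30 - 39 * s ^ 2 + 10 * s ^ 4) /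
          (3 * (1 - s ^ 2) * (10 - 8 * s ^ 2 + s ^ 4))) =
      (1 - s) * ((10 + 10 * s ^ 1 + (-33) * s ^ 2 + 7 * s ^ 3 + 26 * s ^ 4 + (-22) * s ^ 5 +
        (-20) * s ^ 6 + (64/5) * s ^ 7 + (64/5) * s ^ 8 + (-8/5) * s ^ 9 + (-8/5) * s ^ 10) +
        4 * (2 / 5 - k) * (1 + s) * s ^ 5 * (10 - 8 * s ^ 2 + s ^ 4)) /
        (4 * s ^ 3 * (10 - 8 * s ^ 2 + s ^ 4)) := by
    have hf : (1 - s ^ 2) = (1 - s) * (1 + s) := by ring
    obtain ⟨D, hDe⟩ : ∃ D, D = 10 - 8 * s ^ 2 + s ^ 4 := ⟨_, rfl⟩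
    rw [← hDe] at hD ⊢
    rw [hf] at hne ⊢
    field_simp
    rw [hDe]
    ring
  rw [e]
  have hk' : 0 ≤ 2 / 5 - k := by linarith only [hk]
  (clear * - hs1 hp hk hs0 hD; positivity)

end

/-! ## the kernel -/

noncomputable def kL (k ν a b : ℝ) : ℝ :=
  if 0 < a * b then k / 2 * b ^ 2 - k / 2 * a ^ 2 +
    (lK (a * b) - k * (a * b)) * Real.log (b / a) else ν * (b ^ 2 - a ^ 2)

theorem kL_pos {k ν a b : ℝ} (ha : 0 < a) (hb : 0 < b) :
    kL k ν a b = gV (fun z => lK z - k * z) (fun t => k / 2 * t ^ 2) a b := by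
  unfold kL gV
  rw [if_pos (mul_pos ha hb)]

theorem kL_nonpos {k ν a b : ℝ} (ha : 0 < a) (hb : b ≤ 0) : kL k ν a b = ν * (b ^ 2 - a ^ 2) := by
  unfold kL
  rw [if_neg (by linarith only [mul_nonneg (le_of_lt (sub_pos.2 ha)) (sub_nonneg.2 hb)])]

theorem kL_symm (k ν a b : ℝ) : kL k ν (-a) (-b) = kL k ν a b := by
  unfold kL
  rw [neg_mul_neg, neg_div_neg_eq, neg_sq, neg_sq]

theorem kL_anti (k ν a b : ℝ) : kL k ν a b = -kL k ν b a := by
  unfold kL
  rw [mul_comm b a]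
  split_ifs with h
  · have : Real.log (b / a) = -Real.log (a / b) := by rw [← Real.log_inv, inv_div]
    rw [this]
    ring
  · ring

theorem kLlog_bound_aux {k a b : ℝ} (hk0 : 0 ≤ k) (hk : k ≤ 1 / 2) (hb : 0 < b) (hba : b ≤ a)
    (ha1 : a ≤ 1) :
    |(lK (a * b) - k * (a * b)) * Real.log (b / a)| ≤ Real.sqrt (1 - a * b) := by
  have ha : 0 < a := hb.trans_le hba
  have hz0 : 0 < a * b := mul_pos ha hb
  have hz1 : a * b ≤ 1 := by nlinarith only [hba, ha1, hb]
  rcases hz1.eq_or_lt with h1 | h1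
  · have ha' : a = 1 := by nlinarith only [hba, h1, hb, ha1]
    have hb' : b = 1 := by rw [ha'] at h1; linarith only [h1]
    subst ha' hb'
    simp only [mul_one, ne_eq, one_ne_zero, not_false_eq_true, div_self, Real.log_one, mul_zero, abs_zero, sub_self, Real.sqrt_zero, Std.le_refl]
  · obtain ⟨hlo, hle⟩ := lK_bds hz0 h1
    have hK : 0 ≤ lK (a * b) - k * (a * b) := by nlinarith only [hlo, hk, hz0]
    have hle' : lK (a * b) - k * (a * b) ≤ a * b / Real.sqrt (1 - a * b) := by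
      have : 0 ≤ k * (a * b) := by (clear * - hk0 ha hb; positivity)
      linarith only [this, hle]
    have hs : 0 < Real.sqrt (1 - a * b) := Real.sqrt_pos.2 (by linarith only [h1])
    have hlog0 : Real.log (b / a) ≤ 0 :=
      Real.log_nonpos (by positivity) (by rw [div_le_one ha]; exact hba)
    have hlog : -Real.log (b / a) ≤ (a - b) / b := by
      rw [← Real.log_inv, inv_div]
      have := Real.log_le_sub_one_of_pos (x := a / b) (by positivity)
      have e : a / b - 1 = (a - b) / b := by field_simp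
      linarith only [e, this]
    rw [abs_mul, abs_of_nonneg hK, abs_of_nonpos hlog0]
    calc (lK (a * b) - k * (a * b)) * -Real.log (b / a)
        ≤ (a * b / Real.sqrt (1 - a * b)) * ((a - b) / b) := by
          apply mul_le_mul hle' hlog (by linarith only [hlog0])
          (clear * - ha hb h1; positivity)
      _ = a * (a - b) / Real.sqrt (1 - a * b) := by field_simp
      _ ≤ (1 - a * b) / Real.sqrt (1 - a * b) := by
          apply div_le_div_of_nonneg_right _ hs.le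
          nlinarith only [ha1, hb, hba]
      _ = Real.sqrt (1 - a * b) := by
          rw [div_eq_iff hs.ne', Real.mul_self_sqrt (by linarith only [h1])]

theorem kLlog_bound {k a b : ℝ} (hk0 : 0 ≤ k) (hk : k ≤ 1 / 2) (ha : a ∈ Icc (-1 : ℝ) 1)
    (hb : b ∈ Icc (-1 : ℝ) 1) (h : 0 < a * b) :
    |(lK (a * b) - k * (a * b)) * Real.log (b / a)| ≤ Real.sqrt (1 - a * b) := by
  have key : ∀ a b : ℝ, a ∈ Icc (-1 : ℝ) 1 → b ∈ Icc (-1 : ℝ) 1 → 0 < a → 0 < b →
      |(lK (a * b) - k * (a * b)) * Real.log (b / a)| ≤ Real.sqrt (1 - a * b) := by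
    intro a b ha hb ha0 hb0
    rcases le_total b a with hab | hab
    · exact kLlog_bound_aux hk0 hk hb0 hab ha.2
    · have := kLlog_bound_aux hk0 hk ha0 hab hb.2
      rw [mul_comm b a] at this
      have e : Real.log (b / a) = -Real.log (a / b) := by rw [← Real.log_inv, inv_div]
      rw [e, mul_neg, abs_neg]
      exact this
  rcases lt_trichotomy 0 a with h0 | h0 | h0
  · exact key a b ha hb h0 (by by_contra hb'; push Not at hb'; linarith only [mul_nonneg (le_of_lt (sub_pos.2 h0)) (sub_nonneg.2 hb'), h])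
  · rw [← h0, zero_mul] at h; exact absurd h (lt_irrefl _)
  · have hb0 : b < 0 := by nlinarith only [h, h0]
    have := key (-a) (-b) ⟨by linarith only [h0], by linarith [ha.1]⟩
      ⟨by linarith only [hb0], by linarith only [hb.1]⟩ (by linarith) (by linarith only [hb0])
    rwa [neg_mul_neg, neg_div_neg_eq] at this

theorem kL_meas (k ν : ℝ) : Measurable (Function.uncurry (kL k ν)) := by
  have e : Function.uncurry (kL k ν) = fun x : ℝ × ℝ =>
      if 0 < x.1 * x.2 then k / 2 * x.2 ^ 2 - k / 2 * x.1 ^ 2 +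
        (lK (x.1 * x.2) - k * (x.1 * x.2)) * Real.log (x.2 / x.1)
      else ν * (x.2 ^ 2 - x.1 ^ 2) := rfl
  rw [e]
  have hK : Measurable lK := by unfold lK; fun_prop
  refine Measurable.ite (measurableSet_lt measurable_const (measurable_fst.mul measurable_snd))
    ?_ (by fun_prop)
  refine ((measurable_snd.pow_const 2).const_mul _ |>.sub
    ((measurable_fst.pow_const 2).const_mul _)).add ?_
  exact (((hK.comp (measurable_fst.mul measurable_snd)).sub
    ((measurable_fst.mul measurable_snd).const_mul _))).mul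
    (Real.measurable_log.comp (measurable_snd.div measurable_fst))

theorem sq_diff_bd {a b : ℝ} (ha : a ∈ Icc (-1 : ℝ) 1) (hb : b ∈ Icc (-1 : ℝ) 1) :
    |b ^ 2 - a ^ 2| ≤ 1 := by
  have h2 : a ^ 2 ≤ 1 := by rw [sq_le_one_iff_abs_le_one, abs_le]; exact ha
  have h3 : b ^ 2 ≤ 1 := by rw [sq_le_one_iff_abs_le_one, abs_le]; exact hb
  rw [abs_le]
  constructor <;> nlinarith only [h2, h3]

theorem kL_kern {k ν : ℝ} (hk0 : 0 ≤ k) (hk : k ≤ 1 / 2) : Kern (kL k ν) where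
  meas := kL_meas k ν
  bdd := by
    refine ⟨3 + |ν|, fun a ha b hb => ?_⟩
    have h6 := sq_diff_bd ha hb
    unfold kL
    split_ifs with h
    · have h1 := kLlog_bound hk0 hk ha hb h
      have h2 : Real.sqrt (1 - a * b) ≤ 2 := by
        rw [Real.sqrt_le_left (by norm_num)]
        linarith only [h]
      refine (abs_add_le _ _).trans ?_
      have h5 : |k / 2 * b ^ 2 - k / 2 * a ^ 2| ≤ 1 := by
        rw [← mul_sub, abs_mul, abs_of_nonneg (by positivity : 0 ≤ k / 2)]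
        nlinarith only [hk, hk0, h6]
      have := abs_nonneg ν
      linarith only [h1, h2, h5, this]
    · rw [abs_mul]
      linarith only [mul_nonneg (sub_nonneg.2 h6) (sub_nonneg.2 (abs_nonneg ν))]
  anti := fun a _ b _ => kL_anti k ν a b

theorem kL_kern2 {k ν : ℝ} (hk0 : 0 ≤ k) (hk : k ≤ 1 / 2) : Kern2 (kL k ν) where
  toKern := kL_kern hk0 hk
  symm := kL_symm k ν
  corner := by
    intro η hη
    refine ⟨min (1 / 2) (min (η / 8) (η ^ 2 / 8)), by positivity, fun a ha b hb => ?_⟩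
    set δ := min (1 / 2 : ℝ) (min (η / 8) (η ^ 2 / 8)) with hδ
    have hδ1 : δ ≤ 1 / 2 := min_le_left _ _
    have hδ2 : δ ≤ η / 8 := (min_le_right _ _).trans (min_le_left _ _)
    have hδ3 : δ ≤ η ^ 2 / 8 := (min_le_right _ _).trans (min_le_right _ _)
    have hδ0 : 0 < δ := by positivity
    have ha' : a ∈ Icc (-1 : ℝ) 1 := ⟨by (clear * - hδ1 hδ0 ha; linarith only [ha.1, hδ0, hδ1]), ha.2⟩
    have hb' : b ∈ Icc (-1 : ℝ) 1 := ⟨by linarith only [hδ1, hb.1], hb.2⟩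
    have ha0 : 0 < a := by linarith only [hδ1, ha.1]
    have hb0 : 0 < b := by linarith only [hδ1, hb.1]
    have hab : 0 < a * b := mul_pos ha0 hb0
    have h1 := kLlog_bound hk0 hk ha' hb' hab
    have h2 : Real.sqrt (1 - a * b) ≤ η / 2 := by
      rw [Real.sqrt_le_left (by positivity)]
      nlinarith only [hδ3, hδ1, hδ0, ha.1, hb.1]
    have h5 : |k / 2 * b ^ 2 - k / 2 * a ^ 2| ≤ η / 2 := by
      rw [← mul_sub, abs_mul, abs_of_nonneg (by (clear * - hk0; positivity) : 0 ≤ k / 2)]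
      have h6 : |b ^ 2 - a ^ 2| ≤ 2 * δ := by
        rw [abs_le]
        constructor <;> nlinarith only [hδ1, hδ0, ha0, ha.2, hb.1, hb0, ha.1, hb.2]
      nlinarith only [hδ2, hk0, h6, hk, hη]
    unfold kL
    rw [if_pos hab]
    refine (abs_add_le _ _).trans ?_
    linarith only [h1, h2, h5]

/-! ## admissible lines: the side `b > 0` -/

theorem kL_gV_deriv (k : ℝ) {a b : ℝ} (ha : 0 < a) (hb : 0 < b) (hab : a * b < 1) :
    HasDerivAt (gV (fun z => lK z - k * z) (fun t => k / 2 * t ^ 2) a)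
      (gD (fun z => lK z - k * z) (fun z => lK1 z - k) (fun t => k * t) a b) b := by
  have h := gV_has (kL_data k) (hasDerivAt_const b a) (hasDerivAt_id b) ha hb hab
  refine h.congr_deriv ?_
  simp

theorem kL_gD_deriv (k : ℝ) {a b : ℝ} (ha : 0 < a) (hb : 0 < b) (hab : a * b < 1) :
    HasDerivAt (gD (fun z => lK z - k * z) (fun z => lK1 z - k) (fun t => k * t) a)
      (gDD (fun z => lK z - k * z) (fun z => lK1 z - k) lK2 (fun _ => k) a b) b := by
  have h := gD_has (kL_data k) (hasDerivAt_const b a) (hasDerivAt_id b) ha hb hab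
  refine h.congr_deriv ?_
  simp

theorem kL_gDD_nonneg {k : ℝ} (hk0 : 0 ≤ k) (hk : k ≤ 2 / 5) {a b : ℝ} (ha : 0 < a)
    (ha1 : a ≤ 1) (hb : 0 < b) (hab : a * b < 1) :
    0 ≤ gDD (fun z => lK z - k * z) (fun z => lK1 z - k) lK2 (fun _ => k) a b := by
  have hz0 : 0 < a * b := mul_pos ha hb
  have hI := kL_I3 hk hz0 hab
  have hd : 0 ≤ (a * b) ^ 2 * lK2 (a * b) := d2lK_nonneg
  have hlog : Real.log (a * b) ≤ Real.log (b / a) := by
    apply Real.log_le_log hz0
    rw [le_div_iff₀ ha]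
    nlinarith only [ha1, hb, hz0]
  have hzy : a * b ≤ b := by nlinarith only [ha1, hb]
  have h2 : (a * b) ^ 2 ≤ b ^ 2 := pow_le_pow_left₀ hz0.le hzy 2
  have hmul := mul_le_mul_of_nonneg_left hlog hd
  have hk2 : k * (a * b) ^ 2 ≤ k * b ^ 2 := mul_le_mul_of_nonneg_left h2 hk0
  have key : 0 ≤ b ^ 2 * gDD (fun z => lK z - k * z) (fun z => lK1 z - k) lK2 (fun _ => k) a b := by
    have e : b ^ 2 * gDD (fun z => lK z - k * z) (fun z => lK1 z - k) lK2 (fun _ => k) a b =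
      k * b ^ 2 + (a * b) ^ 2 * lK2 (a * b) * Real.log (b / a) +
      2 * (a * b * lK1 (a * b)) - lK (a * b) - k * (a * b) := by
      unfold gDD
      field_simp
      ring
    rw [e]
    linarith only [hk2, hmul, hI]
  exact nonneg_of_mul_nonneg_right key (by (clear * - hb; positivity))

/-- tangent lines on the positive side -/
theorem kL_tangent_pos {k ν : ℝ} (hk0 : 0 ≤ k) (hk : k ≤ 2 / 5) {a q b : ℝ} (ha : 0 < a)
    (ha1 : a < 1) (hq : 0 < q) (hq1 : a * q < 1) (hb0 : 0 < b) (hb : b ≤ 1) :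
    gC (fun z => lK z - k * z) (fun z => lK1 z - k) (fun t => k / 2 * t ^ 2) (fun t => k * t) a q +
      gD (fun z => lK z - k * z) (fun z => lK1 z - k) (fun t => k * t) a q * b ≤ kL k ν a b := by
  have h := tangent_le_of_deriv2 (c := 1 / a)
    (fun y hy => kL_gV_deriv k ha hy.1 (by have := hy.2; rw [lt_div_iff₀ ha] at this; linarith only [this]))
    (fun y hy => kL_gD_deriv k ha hy.1 (by have := hy.2; rw [lt_div_iff₀ ha] at this; linarith only [this]))
    (fun y hy => kL_gDD_nonneg hk0 hk ha ha1.le hy.1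
      (by have := hy.2; rw [lt_div_iff₀ ha] at this; linarith only [this]))
    (q := q) (b := b) ⟨hq, by rw [lt_div_iff₀ ha]; linarith only [hq1]⟩
    ⟨hb0, by rw [lt_div_iff₀ ha]; nlinarith only [ha1, ha, hb]⟩
  rw [kL_pos ha hb0]
  unfold gC
  linarith only [h]

/-! ## admissible lines: the side `b ≤ 0` -/

/-- `c + p b ≤ ν (b² - a²)` for all `b ≤ 0` as soon as `c + ν a² + (p⁻)²/(4ν) ≤ 0`. -/
theorem kL_line_neg {k ν : ℝ} (hν : 0 < ν) {a c p b : ℝ} (ha : 0 < a)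
    (h : c + ν * a ^ 2 + (min p 0) ^ 2 / (4 * ν) ≤ 0) (hb : b ≤ 0) : c + p * b ≤ kL k ν a b := by
  rw [kL_nonpos ha hb]
  rcases le_total 0 p with hp | hp
  · rw [min_eq_right hp] at h
    have h1 : p * b ≤ 0 := mul_nonpos_of_nonneg_of_nonpos hp hb
    have h2 : 0 ≤ ν * b ^ 2 := by (clear * - hν; positivity)
    have h3 : (0 : ℝ) ^ 2 / (4 * ν) = 0 := by simp
    linarith
  · rw [min_eq_left hp] at h
    have h1 : 0 ≤ (2 * ν * b - p) ^ 2 / (4 * ν) := by positivity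
    have h2 : (2 * ν * b - p) ^ 2 / (4 * ν) = ν * b ^ 2 - p * b + p ^ 2 / (4 * ν) := by
      field_simp
      ring
    linarith

/-- admissibility of the plain pair -/
theorem kL_le {k ν : ℝ} (hk0 : 0 ≤ k) (hk : k ≤ 2 / 5) (hν : 0 < ν) {a q b : ℝ} (ha : 0 < a)
    (ha1 : a < 1) (hq : 0 < q) (hq1 : a * q < 1)
    (hneg : gC (fun z => lK z - k * z) (fun z => lK1 z - k) (fun t => k / 2 * t ^ 2)
        (fun t => k * t) a q + ν * a ^ 2 +
      (min (gD (fun z => lK z - k * z) (fun z => lK1 z - k) (fun t => k * t) a q) 0) ^ 2 /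
        (4 * ν) ≤ 0)
    (hb : b ∈ Icc (-1 : ℝ) 1) :
    gC (fun z => lK z - k * z) (fun z => lK1 z - k) (fun t => k / 2 * t ^ 2) (fun t => k * t) a q +
      gD (fun z => lK z - k * z) (fun z => lK1 z - k) (fun t => k * t) a q * b ≤ kL k ν a b := by
  rcases lt_or_ge 0 b with h | h
  · exact kL_tangent_pos hk0 hk ha ha1 hq hq1 h hb.2
  · exact kL_line_neg hν ha hneg h

/-! ## component test points -/

/-- Abstract component test: `A = M + R` convex, `M` convex, `R` convex between the two points. -/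
theorem comp_tangent {I : Set ℝ} {A A' M M' R R' : ℝ → ℝ} {b0 b1 b : ℝ}
    (hA : ∀ q ∈ I, ∀ b ∈ I, A q + A' q * (b - q) ≤ A b)
    (hM : ∀ q ∈ I, ∀ b ∈ I, M q + M' q * (b - q) ≤ M b)
    (hR : ∀ q ∈ uIcc b0 b1, ∀ b ∈ uIcc b0 b1, R q + R' q * (b - q) ≤ R b)
    (hAe : ∀ q ∈ I, A q = M q + R q) (hAe' : ∀ q ∈ I, A' q = M' q + R' q)
    (h0 : b0 ∈ I) (h1 : b1 ∈ I) (hb : b ∈ I) :
    M b1 + M' b1 * (b - b1) + R b0 + R' b0 * (b - b0) ≤ A b := by
  have c0 : b0 ∈ uIcc b0 b1 := left_mem_uIcc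
  have c1 : b1 ∈ uIcc b0 b1 := right_mem_uIcc
  by_cases hseg : b ∈ uIcc b0 b1
  · have e1 := hM b1 h1 b hb
    have e2 := hR b0 c0 b hseg
    rw [hAe b hb]
    linarith
  · -- products
    have m1 := hM b1 h1 b0 h0
    have m2 := hM b0 h0 b1 h1
    have r1 := hR b1 c1 b0 c0
    have r2 := hR b0 c0 b1 c1
    have hMm : 0 ≤ (M' b0 - M' b1) * (b0 - b1) := by linarith
    have hRm : 0 ≤ (R' b0 - R' b1) * (b0 - b1) := by linarith
    have a0 := hA b0 h0 b hb
    have a1 := hA b1 h1 b hb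
    rw [hAe b0 h0, hAe' b0 h0] at a0
    rw [hAe b1 h1, hAe' b1 h1] at a1
    rcases le_total b0 b1 with h | h
    · rw [uIcc_of_le h, mem_Icc, not_and_or, not_le, not_le] at hseg
      rcases hseg with hlt | hlt
      · -- `b < b0 ≤ b1`
        have : 0 ≤ (M' b0 - M' b1) * (b - b0) := by
          rcases h.eq_or_lt with he | he
          · rw [he]; simp
          · have h3 : M' b0 - M' b1 ≤ 0 := by
              by_contra hc
              push Not at hc
              linarith only [mul_pos (sub_pos.2 he) (sub_pos.2 hc), m2, m1]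
            nlinarith only [hlt, h3]
        linarith
      · -- `b0 ≤ b1 < b`
        have : 0 ≤ (R' b1 - R' b0) * (b - b1) := by
          rcases h.eq_or_lt with he | he
          · rw [he]; simp
          · have h3 : 0 ≤ R' b1 - R' b0 := by
              by_contra hc
              push Not at hc
              nlinarith only [r1, r2, he, hc]
            linarith only [mul_nonneg (le_of_lt (sub_pos.2 hlt)) (sub_nonneg.2 h3)]
        linarith
    · rw [uIcc_of_ge h, mem_Icc, not_and_or, not_le, not_le] at hseg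
      rcases hseg with hlt | hlt
      · -- `b < b1 ≤ b0`
        have : 0 ≤ (R' b1 - R' b0) * (b - b1) := by
          rcases h.eq_or_lt with he | he
          · rw [he]; simp
          · have h3 : R' b1 - R' b0 ≤ 0 := by
              by_contra hc
              push Not at hc
              nlinarith only [r1, r2, he, hc]
            linarith only [mul_nonneg (le_of_lt (sub_pos.2 hlt)) (sub_nonneg.2 h3)]
        linarith only [this, a1, r2]
      · -- `b1 ≤ b0 < b`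
        have : 0 ≤ (M' b0 - M' b1) * (b - b0) := by
          rcases h.eq_or_lt with he | he
          · rw [he]; simp
          · have h3 : 0 ≤ M' b0 - M' b1 := by
              by_contra hc
              push Not at hc
              linarith [mul_pos (sub_pos.2 he) (sub_pos.2 hc), m2, m1]
            linarith only [mul_nonneg (le_of_lt (sub_pos.2 hlt)) (sub_nonneg.2 h3)]
        linarith only [this, a0, m1]

/-- component line (`z/2`-part of the kernel tested at `b1`, the rest at `b0`), positive side -/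
theorem kL_comp_pos {k ν : ℝ} (hk0 : 0 ≤ k) (hk : k ≤ 2 / 5) {a b0 b1 b : ℝ} (ha : 0 < a)
    (ha1 : a < 1) (h0 : 0 < b0) (h01 : a * b0 < 1) (h1 : 0 < b1) (h11 : a * b1 < 1)
    (hloc : ∀ t ∈ uIcc b0 b1, a / (2 * t) ≤
      gDD (fun z => lK z - k * z) (fun z => lK1 z - k) lK2 (fun _ => k) a t)
    (hb0 : 0 < b) (hb : b ≤ 1) :
    (gC (fun z => lK z - k * z) (fun z => lK1 z - k) (fun t => k / 2 * t ^ 2) (fun t => k * t) a b0 +
        (a * b0 - a * b1) / 2) +
      (gD (fun z => lK z - k * z) (fun z => lK1 z - k) (fun t => k * t) a b0 +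
        a / 2 * Real.log (b1 / b0)) * b ≤ kL k ν a b := by
  set c := 1 / a with hc
  have hlt : ∀ y ∈ Ioo 0 c, a * y < 1 := fun y hy => by
    have := hy.2; rw [hc, lt_div_iff₀ ha] at this; linarith only [this]
  have hmem : ∀ y, 0 < y → a * y < 1 → y ∈ Ioo 0 c := fun y h h' => ⟨h, by
    rw [hc, lt_div_iff₀ ha]; linarith only [h']⟩
  have hMd : ∀ y, 0 < y → HasDerivAt (fun b => a * b / 2 * Real.log (b / a))
      (a / 2 * (Real.log (y / a) + 1)) y := by
    intro y hy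
    have e1 : HasDerivAt (fun b => a * b / 2) (a / 2) y := by
      have := ((hasDerivAt_id y).const_mul a).div_const 2
      simpa only [id_eq, mul_one] using this
    refine (e1.mul (logdiv_hasDerivAt ha hy)).congr_deriv ?_
    (clear * - hy ha; field_simp)
  have hMd2 : ∀ y, 0 < y → HasDerivAt (fun b => a / 2 * (Real.log (b / a) + 1))
      (a / (2 * y)) y := by
    intro y hy
    refine (((logdiv_hasDerivAt ha hy).add_const 1).const_mul (a / 2)).congr_deriv ?_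
    field_simp
  have hgV := fun y (hy : 0 < y) (hy' : a * y < 1) => kL_gV_deriv k ha hy hy'
  have hgD := fun y (hy : 0 < y) (hy' : a * y < 1) => kL_gD_deriv k ha hy hy'
  have hcov : ∀ y ∈ uIcc b0 b1, 0 < y ∧ a * y < 1 := by
    intro y hy
    rw [mem_uIcc] at hy
    rcases hy with hy | hy
    · exact ⟨h0.trans_le hy.1, (mul_le_mul_of_nonneg_left hy.2 ha.le).trans_lt h11⟩
    · exact ⟨h1.trans_le hy.1, (mul_le_mul_of_nonneg_left hy.2 ha.le).trans_lt h01⟩
  have key := comp_tangent (I := Ioo 0 c) (b0 := b0) (b1 := b1) (b := b)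
    (A := gV (fun z => lK z - k * z) (fun t => k / 2 * t ^ 2) a)
    (A' := gD (fun z => lK z - k * z) (fun z => lK1 z - k) (fun t => k * t) a)
    (M := fun b => a * b / 2 * Real.log (b / a)) (M' := fun b => a / 2 * (Real.log (b / a) + 1))
    (R := fun b => gV (fun z => lK z - k * z) (fun t => k / 2 * t ^ 2) a b -
      a * b / 2 * Real.log (b / a))
    (R' := fun b => gD (fun z => lK z - k * z) (fun z => lK1 z - k) (fun t => k * t) a b -
      a / 2 * (Real.log (b / a) + 1))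
    (fun q hq b hb => tangent_le_of_deriv2 (fun y hy => hgV y hy.1 (hlt y hy))
      (fun y hy => hgD y hy.1 (hlt y hy))
      (fun y hy => kL_gDD_nonneg hk0 hk ha ha1.le hy.1 (hlt y hy)) hq hb)
    (fun q hq b hb => tangent_le_of_deriv2 (c := c) (fun y hy => hMd y hy.1)
      (fun y hy => hMd2 y hy.1) (fun y hy => by have := hy.1; positivity) hq hb)
    ?_ (fun q _ => by ring) (fun q _ => by ring) (hmem b0 h0 h01) (hmem b1 h1 h11)
    (hmem b hb0 (by nlinarith only [ha1, ha, hb]))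
  · rw [kL_pos ha hb0]
    have hl : Real.log (b1 / b0) = Real.log (b1 / a) - Real.log (b0 / a) := by
      rw [Real.log_div h1.ne' h0.ne', Real.log_div h1.ne' ha.ne', Real.log_div h0.ne' ha.ne']
      ring
    rw [hl]
    refine le_trans (le_of_eq ?_) key
    unfold gC
    ring
  · intro q hq b hb
    exact tangent_le_of_deriv2' (s := uIcc b0 b1) ordConnected_uIcc
      (fun y hy => (hgV y (hcov y hy).1 (hcov y hy).2).sub (hMd y (hcov y hy).1))
      (fun y hy => (hgD y (hcov y hy).1 (hcov y hy).2).sub (hMd2 y (hcov y hy).1))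
      (fun y hy => sub_nonneg.2 (hloc y hy)) hq hb

/-- local convexity of the remainder `K₁(z) - z/2` for `k = 0` -/
theorem kL_loc0 {a α β t : ℝ} (ha : 0 < a) (hα : 0 < α) (h1 : α ≤ t) (h2 : t ≤ β)
    (hβ : a * β < 1)
    (h : 3 * (1 + Real.sqrt (1 - a * β)) ^ 2 * -Real.log (α / a) ≤
      2 * Real.sqrt (1 - a * β) ^ 2 * (2 + 4 * Real.sqrt (1 - a * β) +
        2 * Real.sqrt (1 - a * β) ^ 2 + Real.sqrt (1 - a * β) ^ 3)) :
    a / (2 * t) ≤ gDD (fun z => lK z - 0 * z) (fun z => lK1 z - 0) lK2 (fun _ => 0) a t := by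
  have ht : 0 < t := hα.trans_le h1
  have hat : a * t < 1 := (mul_le_mul_of_nonneg_left h2 ha.le).trans_lt hβ
  have hz0 : 0 < a * t := mul_pos ha ht
  set s1 := Real.sqrt (1 - a * β) with hs1
  have hs10 : 0 < s1 := Real.sqrt_pos.2 (by linarith only [hβ])
  have hs : s1 ≤ Real.sqrt (1 - a * t) := Real.sqrt_le_sqrt (by nlinarith only [ha, h2])
  set s := Real.sqrt (1 - a * t) with hsd
  have hs0 : 0 < s := hs10.trans_le hs
  have hsz : a * t = 1 - s ^ 2 := by rw [hsd, Real.sq_sqrt (by linarith only [hat])]; ring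
  have hs1' : s < 1 := by nlinarith only [hz0, hsz]
  have hlog : -Real.log (t / a) ≤ -Real.log (α / a) := by
    have : Real.log (α / a) ≤ Real.log (t / a) :=
      Real.log_le_log (by positivity) (by gcongr)
    linarith only [this]
  -- the inequality at `s`
  have hkey : 3 * (1 + s) ^ 2 * -Real.log (t / a) ≤
      2 * s ^ 2 * (2 + 4 * s + 2 * s ^ 2 + s ^ 3) := by
    rcases le_or_gt 0 (Real.log (t / a)) with hl | hl
    · have h3 : 3 * (1 + s) ^ 2 * -Real.log (t / a) ≤ 0 :=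
        mul_nonpos_of_nonneg_of_nonpos (by (clear * - hat; positivity)) (by linarith only [hl])
      have h4 : 0 ≤ 2 * s ^ 2 * (2 + 4 * s + 2 * s ^ 2 + s ^ 3) := by positivity
      linarith only [h3, h4]
    · set X := -Real.log (t / a) with hX
      have hX0 : 0 < X := by rw [hX]; linarith only [hl]
      have h3 : 3 * (1 + s1) ^ 2 * X ≤ 2 * s1 ^ 2 * (2 + 4 * s1 + 2 * s1 ^ 2 + s1 ^ 3) :=
        (mul_le_mul_of_nonneg_left hlog (by positivity)).trans h
      -- multiply by `s² (1+s)²`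
      have h4 : s1 ^ 2 * (1 + s) ^ 2 ≤ s ^ 2 * (1 + s1) ^ 2 := by
        have : s1 * (1 + s) ≤ s * (1 + s1) := by linarith only [hs]
        have h5 := pow_le_pow_left₀ (by positivity) this 2
        linarith only [h5]
      have h5 : 2 + 4 * s1 + 2 * s1 ^ 2 + s1 ^ 3 ≤ 2 + 4 * s + 2 * s ^ 2 + s ^ 3 := by
        have e2 := pow_le_pow_left₀ hs10.le hs 2
        have e3 := pow_le_pow_left₀ hs10.le hs 3
        linarith only [hs, e2, e3]
      have h6 : 3 * (1 + s1) ^ 2 * X * (1 + s) ^ 2 ≤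
          2 * s ^ 2 * (2 + 4 * s + 2 * s ^ 2 + s ^ 3) * (1 + s1) ^ 2 := by
        calc 3 * (1 + s1) ^ 2 * X * (1 + s) ^ 2
            ≤ 2 * s1 ^ 2 * (2 + 4 * s1 + 2 * s1 ^ 2 + s1 ^ 3) * (1 + s) ^ 2 :=
              mul_le_mul_of_nonneg_right h3 (by positivity)
          _ = 2 * (s1 ^ 2 * (1 + s) ^ 2) * (2 + 4 * s1 + 2 * s1 ^ 2 + s1 ^ 3) := by ring
          _ ≤ 2 * (s ^ 2 * (1 + s1) ^ 2) * (2 + 4 * s + 2 * s ^ 2 + s ^ 3) := by (clear * - h4 h5 hβ hat; gcongr)
          _ = _ := by ring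
      have h7 : (3 * (1 + s) ^ 2 * X) * (1 + s1) ^ 2 ≤
          (2 * s ^ 2 * (2 + 4 * s + 2 * s ^ 2 + s ^ 3)) * (1 + s1) ^ 2 := by
        calc _ = 3 * (1 + s1) ^ 2 * X * (1 + s) ^ 2 := by ring
          _ ≤ _ := h6
      exact le_of_mul_le_mul_right h7 (by (clear * - hβ; positivity))
  -- conclusion
  have e : t ^ 2 * (gDD (fun z => lK z - 0 * z) (fun z => lK1 z - 0) lK2 (fun _ => 0) a t -
      a / (2 * t)) = (1 - s) ^ 2 / (4 * s ^ 5) *
        (2 * s ^ 2 * (2 + 4 * s + 2 * s ^ 2 + s ^ 3) + 3 * (1 + s) ^ 2 * Real.log (t / a)) := by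
    have e1 : t ^ 2 * (gDD (fun z => lK z - 0 * z) (fun z => lK1 z - 0) lK2 (fun _ => 0) a t -
      a / (2 * t)) = (a * t) ^ 2 * lK2 (a * t) * Real.log (t / a) + 2 * (a * t * lK1 (a * t)) -
        lK (a * t) - a * t / 2 := by
      unfold gDD
      field_simp
      ring
    rw [e1, hsz, d2lK_eq hs0, dlK_eq hs0, lK_eq hs0]
    field_simp
    ring
  have h8 : 0 ≤ t ^ 2 * (gDD (fun z => lK z - 0 * z) (fun z => lK1 z - 0) lK2 (fun _ => 0) a t -
      a / (2 * t)) := by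
    rw [e]
    apply mul_nonneg (by (clear * - hs1' hat; positivity))
    linarith only [hkey]
  have h9 := nonneg_of_mul_nonneg_right h8 (by positivity)
  linarith only [h9]

/-- the component correction of the integrand, general `E` -/
theorem comp_integrand {m x τ τ' E E' : ℝ} (hτ' : τ' ≠ 0) :
    (m + 1) * (x ^ 2 * (1 - E) / 2) + (τ * (x * (1 - E) - x ^ 2 * E' / 2) +
      (τ' / 2 * Real.log E + τ / 2 * (E' / E))) / τ' =
    (m + 1) * (x ^ 2 * (1 - E) / 2) + Real.log E / 2 +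
      τ / τ' * (x * (1 - E) - x ^ 2 * E' / 2 + E' / E / 2) := by
  field_simp
  ring

/-- the component correction of the integrand for `E = 1 - L`, `L' = u/x`, `τ/τ' = x (1 - w)`,
`w = u/(1+u)` -/
theorem comp_integrand' {m x τ τ' L u w : ℝ} (hτ' : τ' ≠ 0) (hx : x ≠ 0) (hu : 1 + u ≠ 0)
    (hL : 1 - L ≠ 0) (hw : w = u / (1 + u)) (hτ : τ / τ' = x * (1 - w)) :
    (m + 1) * (x ^ 2 * (1 - (1 - L)) / 2) + (τ * (x * (1 - (1 - L)) - x ^ 2 * (-(u / x)) / 2) +
      (τ' / 2 * Real.log (1 - L) + τ / 2 * (-(u / x) / (1 - L)))) / τ' =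
    (m + 1) / 2 * x ^ 2 * L + Real.log (1 - L) / 2 +
      (1 - w) * x ^ 2 * L - w / 2 * (1 / (1 - L) - x ^ 2) := by
  rw [comp_integrand hτ', hτ, hw]
  field_simp
  ring

end Vale.Agent.P237.AllN
end

section

/-!
# P237, all dimensions: the kernel `K₁(ab) log(b/a)` (`(b²-a²)/16` for `ab ≤ 0`), explicit pairs

Notation of helper143's note 6702: `x` ball variable, `s = √(1-x²)`, `τ = x e^l`,
`c0 = -(1+2l)(1/s-1) + l x²/s³`, `p0 = τ (1/(s(1+s)) - l/s³)`; component test: add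
`x²(1-E)/2` to `c0` and `(τ/2) log E` to `p0` (`E = 1 - L`, or any `E > 0`).
-/

open MeasureTheory Metric Set Module Filter Topology

namespace Vale.Agent.P237.AllN

/-- `A(a,b) = K₁(ab) log(b/a)` for `ab > 0`, `(b²-a²)/16` for `ab ≤ 0`. -/
noncomputable def kA : ℝ → ℝ → ℝ := kL 0 (1 / 16)

theorem kA_kern2 : Kern2 kA := kL_kern2 le_rfl (by norm_num)

theorem kA_pos {a b : ℝ} (ha : 0 < a) (hb : 0 < b) : kA a b = lK (a * b) * Real.log (b / a) := by
  unfold kA
  rw [kL_pos ha hb]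
  unfold gV
  simp

theorem kA_nonpos {a b : ℝ} (ha : 0 < a) (hb : b ≤ 0) : kA a b = (b ^ 2 - a ^ 2) / 16 := by
  unfold kA
  rw [kL_nonpos ha hb]
  ring

/-- intercept -/
noncomputable def kAc (x l : ℝ) : ℝ := -(1 + 2 * l) * (1 / sq x - 1) + l * x ^ 2 / sq x ^ 3

/-- slope -/
noncomputable def kAp (x l : ℝ) : ℝ :=
  x * Real.exp l * (1 / (sq x * (1 + sq x)) - l / sq x ^ 3)

section
variable {x l : ℝ}

theorem sq_facts (hx : x ∈ Ioo (0 : ℝ) 1) : 0 < sq x ∧ sq x < 1 ∧ x ^ 2 = 1 - sq x ^ 2 := by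
  have h : 0 < 1 - x ^ 2 := by nlinarith [hx.1, hx.2]
  have h0 : 0 < sq x := Real.sqrt_pos.2 h
  have h2 : sq x ^ 2 = 1 - x ^ 2 := Real.sq_sqrt h.le
  refine ⟨h0, ?_, by linarith⟩
  nlinarith [hx.1]

theorem kAc_eq (hx : x ∈ Ioo (0 : ℝ) 1) :
    gC (fun z => lK z - 0 * z) (fun z => lK1 z - 0) (fun t => 0 / 2 * t ^ 2) (fun t => 0 * t)
      (x * Real.exp l) (x ^ 2 / (x * Real.exp l)) = kAc x l := by
  obtain ⟨hs0, hs1, hxs⟩ := sq_facts hx
  have hx0 := hx.1
  rw [gC_std _ _ _ _ hx0 (by positivity) rfl]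
  have e1 : lK (x ^ 2) = (1 - sq x) / sq x := by rw [hxs]; exact lK_eq hs0
  have e2 : x ^ 2 * lK1 (x ^ 2) = x ^ 2 / (2 * sq x ^ 3) := by
    have := dlK_eq hs0
    rw [← hxs] at this
    exact this
  unfold kAc
  simp only [zero_mul, zero_div, sub_zero, mul_zero]
  rw [e1, e2]
  field_simp
  ring

theorem kAp_eq (hx : x ∈ Ioo (0 : ℝ) 1) :
    gD (fun z => lK z - 0 * z) (fun z => lK1 z - 0) (fun t => 0 * t)
      (x * Real.exp l) (x ^ 2 / (x * Real.exp l)) = kAp x l := by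
  obtain ⟨hs0, hs1, hxs⟩ := sq_facts hx
  have hx0 := hx.1
  rw [gD_std _ _ _ hx0 (by positivity) rfl]
  have e1 : lK (x ^ 2) = (1 - sq x) / sq x := by rw [hxs]; exact lK_eq hs0
  have e2 : x ^ 2 * lK1 (x ^ 2) = x ^ 2 / (2 * sq x ^ 3) := by
    have := dlK_eq hs0
    rw [← hxs] at this
    exact this
  have e3 : (1 - sq x) = x ^ 2 / (1 + sq x) := by
    rw [hxs]; field_simp; ring
  unfold kAp
  simp only [zero_mul, sub_zero, zero_add]
  rw [e1, e2, e3]
  field_simp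

/-- plain pair, `b > 0`: only `τ = x e^l < 1` is needed -/
theorem kA_plain_pos (hx : x ∈ Ioo (0 : ℝ) 1) (hτ : x * Real.exp l < 1) {b : ℝ} (hb0 : 0 < b)
    (hb : b ≤ 1) : kAc x l + kAp x l * b ≤ kA (x * Real.exp l) b := by
  have hx0 := hx.1
  have hτ0 : 0 < x * Real.exp l := by positivity
  have hz : x * Real.exp l * (x ^ 2 / (x * Real.exp l)) < 1 := by
    rw [mul_div_cancel₀ _ hτ0.ne']; (by_contra nlg; linarith only [nlg, mul_pos (sub_pos.2 hx.2) (sub_pos.2 hx.2), mul_pos (sub_pos.2 hx0) (sub_pos.2 hx.2), mul_nonneg (sub_nonneg.2 (not_lt.1 nlg)) (le_of_lt (sub_pos.2 hx.2)), mul_nonneg (sub_nonneg.2 (not_lt.1 nlg)) (le_of_lt (sub_pos.2 hx0))])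
  have h := kL_tangent_pos (k := 0) (ν := 1 / 16) le_rfl (by norm_num) hτ0 hτ
    (q := x ^ 2 / (x * Real.exp l)) (by positivity) hz hb0 hb
  rw [kAc_eq hx, kAp_eq hx] at h
  exact h

/-- component pair, `b > 0` -/
theorem kA_comp_pos {E : ℝ} (hx : x ∈ Ioo (0 : ℝ) 1) (hτ : x * Real.exp l < 1) (hE : 0 < E)
    (h1 : E ≤ 1 → 3 * (1 + sq x) ^ 2 * (2 * l - Real.log E) ≤
      2 * sq x ^ 2 * (2 + 4 * sq x + 2 * sq x ^ 2 + sq x ^ 3))
    (h2 : 1 ≤ E → x ^ 2 * E < 1 ∧ 3 * (1 + Real.sqrt (1 - x ^ 2 * E)) ^ 2 * (2 * l) ≤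
      2 * Real.sqrt (1 - x ^ 2 * E) ^ 2 * (2 + 4 * Real.sqrt (1 - x ^ 2 * E) +
        2 * Real.sqrt (1 - x ^ 2 * E) ^ 2 + Real.sqrt (1 - x ^ 2 * E) ^ 3))
    {b : ℝ} (hb0 : 0 < b) (hb : b ≤ 1) :
    (kAc x l + x ^ 2 * (1 - E) / 2) + (kAp x l + x * Real.exp l / 2 * Real.log E) * b ≤
      kA (x * Real.exp l) b := by
  have hx0 := hx.1
  set τ := x * Real.exp l with hτd
  have hτ0 : 0 < τ := by positivity
  have hz : τ * (x ^ 2 / τ) = x ^ 2 := by field_simp
  have hz1 : τ * (x ^ 2 / τ * E) = x ^ 2 * E := by field_simp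
  have hx1 : x ^ 2 < 1 := by (by_contra nlg; linarith only [nlg, mul_pos (sub_pos.2 hτ0) (sub_pos.2 hx.2), mul_pos (sub_pos.2 hτ) (sub_pos.2 hx.2), mul_pos (sub_pos.2 hx0) (sub_pos.2 hx.2), mul_nonneg (sub_nonneg.2 (not_lt.1 nlg)) (le_of_lt (sub_pos.2 hτ0)), mul_nonneg (sub_nonneg.2 (not_lt.1 nlg)) (le_of_lt (sub_pos.2 hτ))])
  have hzE : x ^ 2 * E < 1 := by
    rcases le_total E 1 with h | h
    · (by_contra nlg; linarith only [nlg, mul_nonneg (sub_nonneg.2 h) (sq_nonneg x), mul_pos (sub_pos.2 hτ0) (sub_pos.2 hx1), mul_pos (sub_pos.2 hτ) (sub_pos.2 hx1), mul_nonneg (sub_nonneg.2 (not_lt.1 nlg)) (sq_nonneg x), mul_nonneg (sub_nonneg.2 (not_lt.1 nlg)) (le_of_lt (sub_pos.2 hx1))])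
    · exact (h2 h).1
  have hq0 : 0 < x ^ 2 / τ := by positivity
  have hl0 : Real.log (x ^ 2 / τ / τ) = -2 * l := std_log hx0 hτd
  have hl1 : Real.log (x ^ 2 / τ * E / τ) = -2 * l + Real.log E := by
    rw [show x ^ 2 / τ * E / τ = x ^ 2 / τ / τ * E by ring, Real.log_mul (by positivity) hE.ne',
      hl0]
  have h := kL_comp_pos (k := 0) (ν := 1 / 16) le_rfl (by norm_num) hτ0 hτ
    (b0 := x ^ 2 / τ) (b1 := x ^ 2 / τ * E) hq0 (by rw [hz]; exact hx1) (by positivity)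
    (by rw [hz1]; exact hzE) ?_ hb0 hb
  · have e1 : gC (fun z => lK z - 0 * z) (fun z => lK1 z - 0) (fun t => 0 / 2 * t ^ 2)
        (fun t => 0 * t) τ (x ^ 2 / τ) = kAc x l := kAc_eq hx
    have e2 : gD (fun z => lK z - 0 * z) (fun z => lK1 z - 0) (fun t => 0 * t) τ (x ^ 2 / τ) =
        kAp x l := kAp_eq hx
    rw [e1, e2, hz, hz1] at h
    have e3 : x ^ 2 / τ * E / (x ^ 2 / τ) = E := by field_simp
    rw [e3] at h
    refine le_trans (le_of_eq ?_) h
    ring
  · intro t ht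
    rcases le_total E 1 with hE1 | hE1
    · -- `b1 ≤ b0`
      have hle : x ^ 2 / τ * E ≤ x ^ 2 / τ := by (by_contra nlg; linarith only [nlg, mul_nonneg (le_of_lt (sub_pos.2 hq0)) (sub_nonneg.2 hE1), mul_pos (sub_pos.2 (not_le.1 nlg)) (sub_pos.2 hτ0), mul_pos (sub_pos.2 (not_le.1 nlg)) (sub_pos.2 hτ)])
      rw [uIcc_of_ge hle] at ht
      refine kL_loc0 (β := x ^ 2 / τ) hτ0 (by positivity : 0 < x ^ 2 / τ * E) ht.1 ht.2
        (by rw [hz]; exact hx1) ?_
      rw [hz, hl1]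
      have := h1 hE1
      unfold sq at this
      refine le_trans (le_of_eq ?_) this
      ring
    · have hle : x ^ 2 / τ ≤ x ^ 2 / τ * E := by (by_contra nlg; linarith only [nlg, mul_nonneg (le_of_lt (sub_pos.2 hq0)) (sub_nonneg.2 hE1), mul_pos (sub_pos.2 (not_le.1 nlg)) (sub_pos.2 hτ0), mul_pos (sub_pos.2 (not_le.1 nlg)) (sub_pos.2 hτ)])
      rw [uIcc_of_le hle] at ht
      refine kL_loc0 (β := x ^ 2 / τ * E) hτ0 hq0 ht.1 ht.2 (by rw [hz1]; exact hzE) ?_
      rw [hz1, hl0]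
      refine le_trans (le_of_eq ?_) (h2 hE1).2
      ring

/-- negative side, any line: `c + τ²/16 + 4 (p⁻)² ≤ 0` is enough -/
theorem kA_neg {a c p b : ℝ} (ha : 0 < a) (h : c + a ^ 2 / 16 + 4 * (min p 0) ^ 2 ≤ 0)
    (hb : b ≤ 0) : c + p * b ≤ kA a b := by
  refine kL_line_neg (by norm_num) ha ?_ hb
  refine le_trans (le_of_eq ?_) h
  ring

end

end Vale.Agent.P237.AllN
end
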