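import Mathlib
import Vale.Agent.P237.Bd3.B2
import Vale.Agent.P237.Bd3.B3
import Vale.Agent.P237.Bd3.B1

set_option linter.all false

section

/-!
# Bounds for `u - m ((1+u)^(1/m) - 1)` by polynomial multiples of `u²/(1+u)`

Throughout `w > 0`, `w ^ m = 1 + u`, that is `w = (1+u)^(1/m)`.
-/

namespace Vale.Agent.P237.AllN.PcRho
open PolyPos

/-- `1 + w + ... + w^(m-1)` -/
def Sl : ℕ → List ℤ
  | 0 => []
  | n + 1 => 1 :: Sl n

/-- `∑ (m-1-j) w^j` -/
def Ql : ℕ → List ℤ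
  | 0 => []
  | n + 1 => (n : ℤ) :: Ql n

/-- `∑_{j<n} (a+j) v^j` -/
def Up (a : ℤ) : ℕ → List ℤ
  | 0 => []
  | n + 1 => a :: Up (a + 1) n

/-- composition of coefficient lists -/
def pcomp : List ℤ → List ℤ → List ℤ
  | [], _ => []
  | [a], _ => [a]
  | a :: b :: p, q => padd [a] (pmul q (pcomp (b :: p) q))

theorem ev1_pcomp (p q : List ℤ) (x : ℝ) : ev1 (pcomp p q) x = ev1 p (ev1 q x) := by
  induction p with
  | nil => simp only [pcomp, ev1_nil]
  | cons a p ih =>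
    cases p with
    | nil => simp only [pcomp, ev1_cons, ev1_nil, mul_zero, add_zero]
    | cons b p =>
      rw [pcomp, ev1_padd, ev1_pmul, ih, ev1_cons, ev1_cons a, ev1_nil]
      ring

theorem ev1_X (m : ℕ) (x : ℝ) : ev1 (ppow [0, 1] m) x = x ^ m := by
  rw [ev1_ppow, ev1_cons, ev1_cons, ev1_nil]
  (clear * -; norm_num)

theorem Sl_eq (m : ℕ) (w : ℝ) : (w - 1) * ev1 (Sl m) w = w ^ m - 1 := by
  induction m with
  | zero => simp only [Sl, ev1_nil, mul_zero, pow_zero, sub_self]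
  | succ n ih =>
    rw [Sl, ev1_cons, mul_add, ← mul_assoc, mul_comm (w - 1) w, mul_assoc, ih, pow_succ]
    push_cast
    ring

theorem Ql_eq (m : ℕ) (w : ℝ) : (w - 1) ^ 2 * ev1 (Ql m) w = w ^ m - 1 - m * (w - 1) := by
  induction m with
  | zero => simp only [Ql, ev1_nil, mul_zero, pow_zero, sub_self, CharP.cast_eq_zero, zero_mul]
  | succ n ih =>
    rw [Ql, ev1_cons]
    have : (w - 1) ^ 2 * (((n : ℤ) : ℝ) + w * ev1 (Ql n) w) =
        (w - 1) ^ 2 * (n : ℝ) + w * ((w - 1) ^ 2 * ev1 (Ql n) w) := by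
      push_cast
      ring
    rw [this, ih, pow_succ]
    push_cast
    ring

theorem Up_eq (n : ℕ) : ∀ (a : ℤ) (v : ℝ), (1 - v) ^ 2 * ev1 (Up a n) v =
    a + (1 - a) * v - (a + n) * v ^ n + (a + n - 1) * v ^ (n + 1) := by
  induction n with
  | zero =>
    intro a v
    simp only [Up, ev1_nil, mul_zero, CharP.cast_eq_zero, add_zero, pow_zero, mul_one, add_sub_cancel_left, zero_add, pow_one]
    ring
  | succ n ih =>
    intro a v
    rw [Up, ev1_cons]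
    have : (1 - v) ^ 2 * ((a : ℝ) + v * ev1 (Up (a + 1) n) v) =
        (1 - v) ^ 2 * (a : ℝ) + v * ((1 - v) ^ 2 * ev1 (Up (a + 1) n) v) := by ring
    rw [this, ih]
    push_cast
    ring

/-- the polynomial of the check in the variable `w`: `R(u) S² N - N w^m Q`, `c = N R` in `u` -/
def PW (m : ℕ) (c : List ℤ) (N : ℤ) : List ℤ :=
  padd (pmul (pcomp c (padd (ppow [0, 1] m) [-1])) (pmul (Sl m) (Sl m)))
    (psm (-N) (pmul (ppow [0, 1] m) (Ql m)))

/-- the polynomial of the check in the variable `v = 1/w`: `N R(n) S² - N Q'`, `c = N R` in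
`n = 1 - v^m` -/
def PV (m : ℕ) (c : List ℤ) (N : ℤ) : List ℤ :=
  padd (pmul (pcomp c (padd [1] (psm (-1) (ppow [0, 1] m)))) (pmul (Sl m) (Sl m)))
    (psm (-N) (Up 1 (m - 1)))

theorem of_PW {m : ℕ} {c : List ℤ} {N : ℤ} (hN : 0 < N) {w u : ℝ} (hw : 0 < w)
    (hu : w ^ m = 1 + u) (h : 0 ≤ ev1 (PW m c N) w) :
    u - m * (w - 1) ≤ ev1 c u / N * (u ^ 2 / (1 + u)) := by
  have hN' : (0 : ℝ) < N := by exact_mod_cast hN
  have h1u : 0 < 1 + u := by rw [← hu]; positivity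
  have he : ev1 (padd (ppow [0, 1] m) [-1]) w = u := by
    rw [ev1_padd, ev1_X, ev1_cons, ev1_nil, hu]
    push_cast
    ring
  rw [PW, ev1_padd, ev1_pmul, ev1_pcomp, he, ev1_pmul, ev1_psm, ev1_pmul, ev1_X, hu] at h
  have hS := Sl_eq m w
  have hQ := Ql_eq m w
  rw [hu] at hS hQ
  have h2 := mul_nonneg (sq_nonneg (w - 1)) h
  have h3 : (w - 1) ^ 2 * (ev1 c u * (ev1 (Sl m) w * ev1 (Sl m) w) +
      ((-N : ℤ) : ℝ) * ((1 + u) * ev1 (Ql m) w)) =
      ev1 c u * ((w - 1) * ev1 (Sl m) w) ^ 2 - N * ((1 + u) * ((w - 1) ^ 2 * ev1 (Ql m) w)) := by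
    push_cast
    ring
  rw [h3, hS, hQ] at h2
  rw [div_mul_div_comm, le_div_iff₀ (by (clear * - hN h1u; positivity))]
  linarith only [h2]

theorem of_PV {m : ℕ} (hm : 1 ≤ m) {c : List ℤ} {N : ℤ} (hN : 0 < N) {w u : ℝ} (hw : 0 < w)
    (hu : w ^ m = 1 + u) (h : 0 ≤ ev1 (PV m c N) w⁻¹) :
    u - m * (w - 1) ≤ ev1 c (u / (1 + u)) / N * (u ^ 2 / (1 + u)) := by
  have hN' : (0 : ℝ) < N := by exact_mod_cast hN
  have h1u : 0 < 1 + u := by rw [← hu]; (clear * - hw; positivity)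
  obtain ⟨k, rfl⟩ : ∃ k, m = k + 1 := ⟨m - 1, by omega⟩
  have hv : (w⁻¹) ^ (k + 1) = (1 + u)⁻¹ := by rw [inv_pow, hu]
  have hvk : (w⁻¹) ^ k = w * (1 + u)⁻¹ := by
    rw [← hv, pow_succ]
    (clear * - hw; field_simp)
  have he : ev1 (padd [1] (psm (-1) (ppow [0, 1] (k + 1)))) w⁻¹ = u / (1 + u) := by
    rw [ev1_padd, ev1_psm, ev1_X, ev1_cons, ev1_nil, hv]
    push_cast
    field_simp
    ring
  rw [PV, ev1_padd, ev1_pmul, ev1_pcomp, he, ev1_pmul, ev1_psm] at h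
  have hS := Sl_eq (k + 1) w⁻¹
  have hQ := Up_eq k 1 w⁻¹
  rw [hv] at hS hQ
  rw [hvk] at hQ
  have h2 := mul_nonneg (sq_nonneg (w⁻¹ - 1)) h
  set S := ev1 (Sl (k + 1)) w⁻¹ with hSdef
  have h3 : (w⁻¹ - 1) ^ 2 * (ev1 c (u / (1 + u)) * (S * S) +
      ((-N : ℤ) : ℝ) * ev1 (Up 1 (k + 1 - 1)) w⁻¹) =
      ev1 c (u / (1 + u)) * ((w⁻¹ - 1) * S) ^ 2 -
        N * ((1 - w⁻¹) ^ 2 * ev1 (Up 1 k) w⁻¹) := by
    rw [Nat.add_sub_cancel]
    push_cast
    ring
  rw [h3, hS, hQ] at h2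
  have h4 : ev1 c (u / (1 + u)) * ((1 + u)⁻¹ - 1) ^ 2 =
      (ev1 c (u / (1 + u)) * (u ^ 2 / (1 + u))) / (1 + u) := by
    field_simp
    ring
  have h5 : ((1 : ℤ) : ℝ) + (1 - ((1 : ℤ) : ℝ)) * w⁻¹ - (((1 : ℤ) : ℝ) + (k : ℝ)) *
      (w * (1 + u)⁻¹) + (((1 : ℤ) : ℝ) + (k : ℝ) - 1) * (1 + u)⁻¹ =
      (u - ((k + 1 : ℕ) : ℝ) * (w - 1)) / (1 + u) := by
    push_cast
    field_simp
    ring
  have h6 : ev1 c (u / (1 + u)) * (u ^ 2 / (1 + u)) / (1 + u) -
      N * ((u - ((k + 1 : ℕ) : ℝ) * (w - 1)) / (1 + u)) =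
      (ev1 c (u / (1 + u)) * (u ^ 2 / (1 + u)) - N * (u - ((k + 1 : ℕ) : ℝ) * (w - 1))) /
        (1 + u) := by ring
  rw [h5, h4, h6] at h2
  have h7 := (le_div_iff₀ h1u).1 h2
  rw [div_mul_eq_mul_div, le_div_iff₀ hN']
  (clear * - h7; linarith only [h7])

/-- range of `w` from a range of `u`: upper end -/
theorem w_lt {m : ℕ} {B D Un Ud : ℤ} (hD : 0 < D) (hB : 0 < B) (hUd : 0 < Ud)
    (h : (Ud + Un) * D ^ m < Ud * B ^ m) {w u : ℝ}
    (hu : w ^ m = 1 + u) (hU : (Ud : ℝ) * u ≤ Un) : (D : ℝ) * w < B := by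
  have hD' : (0 : ℝ) < D := by exact_mod_cast hD
  have hB' : (0 : ℝ) < B := by exact_mod_cast hB
  have hUd' : (0 : ℝ) < Ud := by exact_mod_cast hUd
  have h' : ((Ud : ℝ) + Un) * (D : ℝ) ^ m < Ud * (B : ℝ) ^ m := by exact_mod_cast h
  by_contra hcon
  rw [not_lt] at hcon
  have h1 : (B : ℝ) ^ m ≤ ((D : ℝ) * w) ^ m := pow_le_pow_left₀ hB'.le hcon m
  rw [mul_pow, hu] at h1
  have h2 : (0 : ℝ) < (D : ℝ) ^ m := by positivity
  have h3 : (Ud : ℝ) * (B : ℝ) ^ m ≤ Ud * ((D : ℝ) ^ m * (1 + u)) :=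
    mul_le_mul_of_nonneg_left h1 hUd'.le
  have h4 : (Ud : ℝ) * ((D : ℝ) ^ m * (1 + u)) = (Ud + Ud * u) * (D : ℝ) ^ m := by ring
  have h5 : ((Ud : ℝ) + Ud * u) * (D : ℝ) ^ m ≤ (Ud + Un) * (D : ℝ) ^ m :=
    mul_le_mul_of_nonneg_right (by linarith only [hU]) h2.le
  linarith only [h', h3, h5]

/-- range of `w` from a range of `u`: lower end -/
theorem le_w {m : ℕ} {A D Un Ud : ℤ} (hD : 0 < D) (hm : m ≠ 0) (hUd : 0 < Ud)
    (h : Ud * A ^ m ≤ (Ud + Un) * D ^ m) {w u : ℝ} (hw : 0 < w)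
    (hu : w ^ m = 1 + u) (hU : (Un : ℝ) ≤ Ud * u) : (A : ℝ) ≤ D * w := by
  have hD' : (0 : ℝ) < D := by exact_mod_cast hD
  have hUd' : (0 : ℝ) < Ud := by exact_mod_cast hUd
  have h' : (Ud : ℝ) * (A : ℝ) ^ m ≤ (Ud + Un) * (D : ℝ) ^ m := by exact_mod_cast h
  by_contra hcon
  rw [not_le] at hcon
  have h1 : ((D : ℝ) * w) ^ m < (A : ℝ) ^ m := pow_lt_pow_left₀ hcon (by positivity) hm
  rw [mul_pow, hu] at h1
  have h2 : (0 : ℝ) < (D : ℝ) ^ m := by positivity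
  have h3 : (Ud : ℝ) * ((D : ℝ) ^ m * (1 + u)) < Ud * (A : ℝ) ^ m :=
    mul_lt_mul_of_pos_left h1 hUd'
  have h4 : (Ud : ℝ) * ((D : ℝ) ^ m * (1 + u)) = (Ud + Ud * u) * (D : ℝ) ^ m := by ring
  have h5 : ((Ud : ℝ) + Un) * (D : ℝ) ^ m ≤ (Ud + Ud * u) * (D : ℝ) ^ m :=
    mul_le_mul_of_nonneg_right (by linarith only [hU]) h2.le
  linarith only [h5, h3, h']

/-! ## constants for `5 ≤ m ≤ 15` -/

/-- `10^4 c` -/
def cT : ℕ → ℤ
  | 5 => 514
  | 6 => 530
  | 7 => 541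
  | 8 => 546
  | 9 => 553
  | 10 => 559
  | 11 => 564
  | 12 => 563
  | 13 => 562
  | 14 => 565
  | 15 => 560
  | _ => 0

/-- `10^3` × the end of the range of `u` for the constant `c` -/
def UT : ℕ → ℤ
  | 5 => 743
  | 6 => 734
  | 7 => 725
  | 8 => 736
  | 9 => 725
  | 10 => 717
  | 11 => 710
  | 12 => 725
  | 13 => 738
  | 14 => 731
  | 15 => 761
  | _ => 0

/-- `10^4 q₃` -/
def q3T : ℕ → ℤ
  | 5 => 1080
  | 6 => 1060
  | 7 => 1050
  | 8 => 1030
  | 9 => 1020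
  | 10 => 1010
  | 11 => 1000
  | 12 => 1000
  | 13 => 1000
  | 14 => 1000
  | 15 => 1000
  | _ => 0

/-- `10^4 q₄` -/
def q4T : ℕ → ℤ
  | 5 => 12260
  | 6 => 11760
  | 7 => 11420
  | 8 => 11160
  | 9 => 10960
  | 10 => 10810
  | 11 => 10680
  | 12 => 10580
  | 13 => 10490
  | 14 => 10410
  | 15 => 10350
  | _ => 0

/-- `10^4` × the constant term of the line at `E = .09` -/
def al9 : ℕ → ℤ
  | 5 => 359
  | 6 => 400
  | 7 => 431
  | 8 => 456
  | 9 => 476
  | 10 => 493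
  | 11 => 507
  | 12 => 519
  | 13 => 529
  | 14 => 538
  | 15 => 546
  | _ => 0

/-- `10^4` × the slope of the line at `E = .09` -/
def be9 : ℕ → ℤ
  | 5 => 8106
  | 6 => 8530
  | 7 => 8834
  | 8 => 9064
  | 9 => 9243
  | 10 => 9387
  | 11 => 9504
  | 12 => 9602
  | 13 => 9685
  | 14 => 9756
  | 15 => 9818
  | _ => 0

/-- `10^4` × the constant term of the line at `E = .1` -/
def al10 : ℕ → ℤ
  | 5 => 397
  | 6 => 440
  | 7 => 474
  | 8 => 501
  | 9 => 523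
  | 10 => 540
  | 11 => 555
  | 12 => 568
  | 13 => 579
  | 14 => 589
  | 15 => 597
  | _ => 0

/-- `10^4` × the slope of the line at `E = .1` -/
def be10 : ℕ → ℤ
  | 5 => 7708
  | 6 => 8098
  | 7 => 8378
  | 8 => 8588
  | 9 => 8752
  | 10 => 8882
  | 11 => 8990
  | 12 => 9079
  | 13 => 9154
  | 14 => 9219
  | 15 => 9275
  | _ => 0

/-- Taylor coefficients of `(1+u) (u - m((1+u)^(1/m) - 1)) / u²` at `u = 0` -/
noncomputable def r0 (m : ℕ) : ℝ := (1 - 1 / (m : ℝ)) / 2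

/-- second coefficient -/
noncomputable def r1 (m : ℕ) : ℝ := (1 - 1 / (m : ℝ) ^ 2) / 6

/-- third coefficient -/
noncomputable def r2 (m : ℕ) : ℝ :=
  -((1 - 1 / (m : ℝ)) * (2 - 1 / (m : ℝ)) * (1 + 1 / (m : ℝ))) / 24

/-- common denominator -/
def NN (m : ℕ) : ℤ := 24 * (m : ℤ) ^ 3 * 10000

/-- `r0 * NN` -/
def z0 (m : ℕ) : ℤ := 12 * (m : ℤ) ^ 2 * (m - 1) * 10000

/-- `r1 * NN` -/
def z1 (m : ℕ) : ℤ := 4 * (m : ℤ) * (m ^ 2 - 1) * 10000

/-- `r2 * NN` -/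
def z2 (m : ℕ) : ℤ := -((m - 1) * (2 * m - 1) * (m + 1)) * 10000

theorem z0_eq {m : ℕ} (hm : m ≠ 0) : (z0 m : ℝ) = r0 m * NN m := by
  have : (m : ℝ) ≠ 0 := by exact_mod_cast hm
  rw [z0, r0, NN]
  push_cast
  field_simp
  ring

theorem z1_eq {m : ℕ} (hm : m ≠ 0) : (z1 m : ℝ) = r1 m * NN m := by
  have : (m : ℝ) ≠ 0 := by exact_mod_cast hm
  rw [z1, r1, NN]
  push_cast
  field_simp
  ring

theorem z2_eq {m : ℕ} (hm : m ≠ 0) : (z2 m : ℝ) = r2 m * NN m := by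
  have : (m : ℝ) ≠ 0 := by exact_mod_cast hm
  rw [z2, r2, NN]
  push_cast
  field_simp

/-- `NN / 10000` -/
def MM (m : ℕ) : ℤ := 24 * (m : ℤ) ^ 3

theorem MM_eq (m : ℕ) : (MM m : ℝ) = (1 / 10000) * NN m := by
  rw [MM, NN]
  push_cast
  ring

theorem NN_pos {m : ℕ} (hm : m ≠ 0) : 0 < NN m := by
  rw [NN]
  positivity

/-! ## the seven statements -/

/-- `(r(u) ≤ r₀ + r₁u - cu²` for `0 ≤ u ≤ U`) -/
def OkC (m : ℕ) : Prop := ∀ u w : ℝ, 0 < w → w ^ m = 1 + u → 0 ≤ u → u ≤ (UT m : ℝ) / 1000 →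
  u - m * (w - 1) ≤ (r0 m + r1 m * u - (cT m : ℝ) / 10000 * u ^ 2) * (u ^ 2 / (1 + u))

/-- `r(u) ≤ r₀ + r₁u + r₂u²` for `u ≤ 0` -/
def OkNeg (m : ℕ) : Prop := ∀ u w : ℝ, 0 < w → w ^ m = 1 + u → u ≤ 0 →
  u - m * (w - 1) ≤ (r0 m + r1 m * u + r2 m * u ^ 2) * (u ^ 2 / (1 + u))

/-- `r ≤ α + β E` on `3/500 ≤ E ≤ 1/4`, `E = 1 + u` (line at `.09`) -/
def Ok9 (m : ℕ) : Prop := ∀ u w : ℝ, 0 < w → w ^ m = 1 + u → 3 / 500 ≤ 1 + u → 1 + u ≤ 1 / 4 →
  u - m * (w - 1) ≤ ((al9 m : ℝ) / 10000 + (be9 m : ℝ) / 10000 * (1 + u)) * (u ^ 2 / (1 + u))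

/-- `r ≤ α + β E` on `3/500 ≤ E ≤ 1/4`, `E = 1 + u` (line at `.1`) -/
def Ok10 (m : ℕ) : Prop := ∀ u w : ℝ, 0 < w → w ^ m = 1 + u → 3 / 500 ≤ 1 + u → 1 + u ≤ 1 / 4 →
  u - m * (w - 1) ≤ ((al10 m : ℝ) / 10000 + (be10 m : ℝ) / 10000 * (1 + u)) * (u ^ 2 / (1 + u))

/-- `r ≤ r₀ + r₁n + (r₁+r₂)n² + q₃n³` for `0 ≤ n ≤ 13/20`, `n = u/(1+u)` -/
def OkN3 (m : ℕ) : Prop := ∀ u w : ℝ, 0 < w → w ^ m = 1 + u → 0 ≤ u → u / (1 + u) ≤ 13 / 20 →
  u - m * (w - 1) ≤ (r0 m + r1 m * (u / (1 + u)) + (r1 m + r2 m) * (u / (1 + u)) ^ 2 +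
    (q3T m : ℝ) / 10000 * (u / (1 + u)) ^ 3) * (u ^ 2 / (1 + u))

/-- `r ≤ 1 - q₄/E` for `n ≥ 13/20` -/
def OkN1 (m : ℕ) : Prop := ∀ u w : ℝ, 0 < w → w ^ m = 1 + u → 13 / 20 ≤ u / (1 + u) →
  u - m * (w - 1) ≤ (1 - (q4T m : ℝ) / 10000 / (1 + u)) * (u ^ 2 / (1 + u))

/-- `r ≤ r₀ + (1-r₀)n` for `u ≥ 0` -/
def OkN0 (m : ℕ) : Prop := ∀ u w : ℝ, 0 < w → w ^ m = 1 + u → 0 ≤ u →
  u - m * (w - 1) ≤ (r0 m + (1 - r0 m) * (u / (1 + u))) * (u ^ 2 / (1 + u))

theorem w_eq_one {m : ℕ} (hm : m ≠ 0) {w : ℝ} (hw : 0 < w) (h : w ^ m = 1 + 0) : w = 1 := by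
  rw [add_zero] at h
  exact (pow_eq_one_iff_of_nonneg hw.le hm).1 h

theorem w_lt_one {m : ℕ} {w u : ℝ} (h : w ^ m = 1 + u) (hu : u < 0) : w < 1 := by
  by_contra hcon
  have := one_le_pow₀ (not_lt.1 hcon) (n := m)
  linarith

theorem one_lt_w {m : ℕ} {w u : ℝ} (hw : 0 < w) (h : w ^ m = 1 + u) (hu : 0 < u) : 1 < w := by
  by_contra hcon
  have := pow_le_one₀ hw.le (not_lt.1 hcon) (n := m)
  linarith only [h, hu, this]

theorem okC_of {m : ℕ} (hm : m ≠ 0) {B D : ℤ}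
    (h : 0 < D ∧ 0 < B ∧ (1000 + UT m) * D ^ m < 1000 * B ^ m)
    (h2 : auto1 0 D B D (PW m [z0 m, z1 m, -cT m * MM m] (NN m)) = true) : OkC m := by
  intro u w hw hu h0 h1
  obtain ⟨hD, hB, h3⟩ := h
  have hN : (NN m : ℝ) ≠ 0 := by
    have := NN_pos hm
    exact_mod_cast this.ne'
  have h4 := of_PW (NN_pos hm) hw hu (auto1_sound hD h2
    (le_w (Un := 0) (Ud := 1) hD hm (by norm_num) (by simp) hw hu (by simpa only [Int.cast_zero, Int.cast_one, one_mul] using h0))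
    (w_lt (Un := UT m) (Ud := 1000) hD hB (by norm_num) h3 hu (by push_cast; linarith)))
  refine h4.trans_eq ?_
  congr 1
  simp only [ev1_cons, ev1_nil, Int.cast_mul, Int.cast_neg]
  rw [z0_eq hm, z1_eq hm, MM_eq]
  field_simp
  ring

theorem okNeg_of {m : ℕ} (hm : m ≠ 0)
    (h2 : auto1 0 0 1 1 (PW m [z0 m, z1 m, z2 m] (NN m)) = true) : OkNeg m := by
  intro u w hw hu h0
  rcases h0.lt_or_eq with h0 | h0
  · have hN : (NN m : ℝ) ≠ 0 := by
      have := NN_pos hm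
      exact_mod_cast this.ne'
    have h4 := of_PW (NN_pos hm) hw hu (auto1_sound one_pos h2 (by simpa only [Int.cast_zero, Int.cast_one, one_mul] using hw.le)
      (by simpa only [Int.cast_one, one_mul] using w_lt_one hu h0))
    refine h4.trans_eq ?_
    congr 1
    simp only [ev1_cons, ev1_nil]
    rw [z0_eq hm, z1_eq hm, z2_eq hm]
    field_simp
    ring
  · subst h0
    rw [w_eq_one hm hw hu]
    simp only [sub_self, mul_zero, add_zero, ne_eq, OfNat.ofNat_ne_zero, not_false_eq_true, zero_pow, div_one, Std.le_refl]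

theorem okLine_of {m : ℕ} (hm : m ≠ 0) {a b A T B D A' B' D' : ℤ}
    (h : 0 < D ∧ 0 < B ∧ 0 < D' ∧ 500 * A ^ m ≤ 3 * D ^ m ∧ D' ^ m < 4 * B' ^ m ∧ 0 < B' ∧
      T * D' = A' * D ∧ B = T)
    (h2 : auto1 0 A B D (PW m [(a + b) * MM m, b * MM m] (NN m)) = true)
    (h3 : auto1 0 A' B' D' (PW m [(a + b) * MM m, b * MM m] (NN m)) = true) :
    ∀ u w : ℝ, 0 < w → w ^ m = 1 + u → 3 / 500 ≤ 1 + u → 1 + u ≤ 1 / 4 →
    u - m * (w - 1) ≤ ((a : ℝ) / 10000 + (b : ℝ) / 10000 * (1 + u)) * (u ^ 2 / (1 + u)) := by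
  intro u w hw hu h0 h1
  obtain ⟨hD, hB, hD', hA, hB', hB'', hT, rfl⟩ := h
  have hN : (NN m : ℝ) ≠ 0 := by
    have := NN_pos hm
    exact_mod_cast this.ne'
  have hP : 0 ≤ ev1 (PW m [(a + b) * MM m, b * MM m] (NN m)) w := by
    rcases lt_or_ge ((D : ℝ) * w) B with hlt | hge
    · exact auto1_sound hD h2 (le_w (Un := -497) (Ud := 500) hD hm (by norm_num)
        (by linarith only [hA]) hw hu (by push_cast; linarith only [h0])) hlt
    · refine auto1_sound hD' h3 ?_ (w_lt (Un := -3) (Ud := 4) hD' hB'' (by norm_num)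
        (by linarith only [hB']) hu (by push_cast; linarith only [h1]))
      have h5 : ((B : ℝ) * D') = A' * D := by exact_mod_cast hT
      have hDr : (0 : ℝ) < D := by exact_mod_cast hD
      have hDr' : (0 : ℝ) < D' := by exact_mod_cast hD'
      have h6 : (A' : ℝ) * D ≤ (D' * w) * D := by
        rw [← h5]
        calc (B : ℝ) * D' ≤ (D * w) * D' := mul_le_mul_of_nonneg_right hge hDr'.le
          _ = (D' * w) * D := by ring
      exact le_of_mul_le_mul_right h6 hDr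
  have h4 := of_PW (NN_pos hm) hw hu hP
  refine h4.trans_eq ?_
  congr 1
  simp only [ev1_cons, ev1_nil, Int.cast_mul, Int.cast_add]
  rw [MM_eq]
  field_simp
  ring

theorem okN3_of {m : ℕ} (hm : m ≠ 0) {A D : ℤ} (h : 0 < D ∧ 20 * A ^ m ≤ 7 * D ^ m)
    (h2 : auto1 0 A D D (PV m [z0 m, z1 m, z1 m + z2 m, q3T m * MM m] (NN m)) = true) :
    OkN3 m := by
  intro u w hw hu h0 h1
  obtain ⟨hD, hA⟩ := h
  rcases h0.lt_or_eq with h0 | h0
  · have hN : (NN m : ℝ) ≠ 0 := by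
      have := NN_pos hm
      exact_mod_cast this.ne'
    have h1u : 0 < 1 + u := by linarith only [h0]
    have hw1 := one_lt_w hw hu h0
    have hv : (w⁻¹) ^ m = 1 + (-(u / (1 + u))) := by
      rw [inv_pow, hu]
      field_simp
      ring
    have h4 := of_PV (by omega) (NN_pos hm) hw hu (auto1_sound hD h2
      (le_w (Un := -13) (Ud := 20) hD hm (by norm_num) (by linarith only [hA]) (by (clear * - hw; positivity)) hv
        (by push_cast; linarith only [h1]))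
      (by
        have hDr : (0 : ℝ) < D := by exact_mod_cast hD
        have : w⁻¹ < 1 := inv_lt_one_of_one_lt₀ hw1
        nlinarith only [hDr, this]))
    refine h4.trans_eq ?_
    congr 1
    simp only [ev1_cons, ev1_nil, Int.cast_mul, Int.cast_add]
    rw [z0_eq hm, z1_eq hm, z2_eq hm, MM_eq]
    generalize u / (1 + u) = n
    field_simp
    ring
  · subst h0
    rw [w_eq_one hm hw hu]
    simp only [sub_self, mul_zero, add_zero, div_one, ne_eq, OfNat.ofNat_ne_zero, not_false_eq_true, zero_pow, Std.le_refl]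

theorem okN1_of {m : ℕ} (hm : m ≠ 0) {B D : ℤ} (h : 0 < D ∧ 0 < B ∧ 7 * D ^ m < 20 * B ^ m)
    (h2 : auto1 0 0 B D (PV m [NN m - q4T m * MM m, q4T m * MM m] (NN m)) = true) :
    OkN1 m := by
  intro u w hw hu h1
  obtain ⟨hD, hB, h3⟩ := h
  have hN : (NN m : ℝ) ≠ 0 := by
    have := NN_pos hm
    exact_mod_cast this.ne'
  have h1u : 0 < 1 + u := by rw [← hu]; positivity
  have hv : (w⁻¹) ^ m = 1 + (-(u / (1 + u))) := by
    rw [inv_pow, hu]
    field_simp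
    ring
  have hDr : (0 : ℝ) < D := by exact_mod_cast hD
  have h4 := of_PV (by omega) (NN_pos hm) hw hu (auto1_sound hD h2
    (by push_cast; positivity)
    (w_lt (Un := -13) (Ud := 20) hD hB (by norm_num) (by linarith only [h3]) hv (by push_cast; linarith only [h1])))
  refine h4.trans_eq ?_
  congr 1
  simp only [ev1_cons, ev1_nil, Int.cast_mul, Int.cast_sub]
  rw [MM_eq]
  field_simp
  ring

theorem okN0_of {m : ℕ} (hm : m ≠ 0)
    (h2 : auto1 0 0 1 1 (PV m [z0 m, NN m - z0 m] (NN m)) = true) :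
    OkN0 m := by
  intro u w hw hu h0
  rcases h0.lt_or_eq with h0 | h0
  · have hN : (NN m : ℝ) ≠ 0 := by
      have := NN_pos hm
      exact_mod_cast this.ne'
    have h1u : 0 < 1 + u := by linarith only [h0]
    have hw1 := one_lt_w hw hu h0
    have h4 := of_PV (by omega) (NN_pos hm) hw hu (auto1_sound one_pos h2
      (by simpa only [Int.cast_zero, Int.cast_one, one_mul, inv_nonneg] using hw.le) (by simpa only [Int.cast_one, one_mul] using inv_lt_one_of_one_lt₀ hw1))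
    refine h4.trans_eq ?_
    congr 1
    simp only [ev1_cons, ev1_nil, Int.cast_sub]
    rw [z0_eq hm]
    generalize u / (1 + u) = n
    field_simp
    ring
  · subst h0
    rw [w_eq_one hm hw hu]
    simp only [sub_self, mul_zero, add_zero, div_one, ne_eq, OfNat.ofNat_ne_zero, not_false_eq_true, zero_pow, Std.le_refl]

theorem Sl_nonneg {w : ℝ} (hw : 0 ≤ w) (n : ℕ) : 0 ≤ ev1 (Sl n) w := by
  induction n with
  | zero => simp [Sl, ev1_nil]
  | succ n ih =>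
    rw [Sl, ev1_cons]
    push_cast
    positivity

theorem Ql_le {w : ℝ} (hw : 0 ≤ w) (n : ℕ) :
    ev1 (Ql (n + 1)) w ≤ n * ev1 (Sl (n + 1)) w := by
  induction n with
  | zero => simp [Ql, ev1_cons, ev1_nil]
  | succ n ih =>
    rw [Ql, Sl, ev1_cons, ev1_cons]
    have h1 := mul_le_mul_of_nonneg_left ih hw
    have h2 := mul_nonneg hw (Sl_nonneg hw (n + 1))
    push_cast
    linarith

/-- crude bound, all `m` -/
theorem pm_le {m : ℕ} (hm : 1 ≤ m) {u w : ℝ} (hw : 0 < w) (hu : w ^ m = 1 + u) :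
    u - m * (w - 1) ≤ (m - 1) * u ^ 2 := by
  obtain ⟨n, rfl⟩ : ∃ n, m = n + 1 := ⟨m - 1, by omega⟩
  have hS := Sl_eq (n + 1) w
  have hQ := Ql_eq (n + 1) w
  have hQS := Ql_le hw.le n
  have hS0 := Sl_nonneg hw.le n
  have hS1 : 1 ≤ ev1 (Sl (n + 1)) w := by
    rw [Sl, ev1_cons]
    push_cast
    nlinarith only [hw, hS0]
  rw [hu] at hS hQ
  have hSS : ev1 (Sl (n + 1)) w ≤ ev1 (Sl (n + 1)) w ^ 2 := by nlinarith only [hS1]
  have h1 : ev1 (Ql (n + 1)) w ≤ n * ev1 (Sl (n + 1)) w ^ 2 :=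
    hQS.trans (mul_le_mul_of_nonneg_left hSS (Nat.cast_nonneg n))
  have h2 := mul_le_mul_of_nonneg_left h1 (sq_nonneg (w - 1))
  rw [hQ] at h2
  have h3 : (w - 1) ^ 2 * (n * ev1 (Sl (n + 1)) w ^ 2) =
      n * ((w - 1) * ev1 (Sl (n + 1)) w) ^ 2 := by ring
  rw [h3, hS] at h2
  have h4 : 1 + u - 1 = u := by ring
  rw [h4] at h2
  push_cast at h2 ⊢
  linarith only [h2]

end Vale.Agent.P237.AllN.PcRho
end

section

/-!
# The seven bounds of `PcRho` for `15 ≤ m ≤ 15`: kernel checks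
-/

namespace Vale.Agent.P237.AllN.PcRho
open PolyPos

/-! ### `m = 15` -/

theorem pc_15 : PW 15 [z0 15, z1 15, -cT 15 * MM 15] (NN 15) =
    [198240000, 396480000, 594720000, 792960000, 991200000, 1189440000, 1387680000, 1585920000,
    1784160000, 1982400000, 2180640000, 2378880000, 2577120000, 2775360000, 2973600000,
    -8339520000, -7502640000, -6665760000, -5828880000, -4992000000, -4155120000, -3318240000,
    -2481360000, -1644480000, -807600000, 29280000, 866160000, 1703040000, 2539920000,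
    3376800000, 3106320000, 2835840000, 2565360000, 2294880000, 2024400000, 1753920000,
    1483440000, 1212960000, 942480000, 672000000, 401520000, 131040000, -139440000,
    -409920000, -680400000, -635040000, -589680000, -544320000, -498960000, -453600000,
    -408240000, -362880000, -317520000, -272160000, -226800000, -181440000, -136080000,
    -90720000, -45360000] := by
  decide +kernel

theorem okC_15 : OkC 15 :=
  okC_of (B := 27) (D := 26) (by norm_num) (by (clear * -; decide +kernel)) (by rw [pc_15]; (clear * -; decide +kernel))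

theorem pneg_15 : PW 15 [z0 15, z1 15, z2 15] (NN 15) =
    [178640000, 357280000, 535920000, 714560000, 893200000, 1071840000, 1250480000, 1429120000,
    1607760000, 1786400000, 1965040000, 2143680000, 2322320000, 2500960000, 2679600000,
    -8574720000, -7679040000, -6783360000, -5887680000, -4992000000, -4096320000, -3200640000,
    -2304960000, -1409280000, -513600000, 382080000, 1277760000, 2173440000, 3069120000,
    3964800000, 3635520000, 3306240000, 2976960000, 2647680000, 2318400000, 1989120000,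
    1659840000, 1330560000, 1001280000, 672000000, 342720000, 13440000, -315840000,
    -645120000, -974400000, -909440000, -844480000, -779520000, -714560000, -649600000,
    -584640000, -519680000, -454720000, -389760000, -324800000, -259840000, -194880000,
    -129920000, -64960000] := by
  (clear * -; decide +kernel)

theorem okNeg_15 : OkNeg 15 :=
  okNeg_of (by norm_num) (by rw [pneg_15]; (clear * -; decide +kernel))

theorem p9_15 : PW 15 [(al9 15 + be9 15) * MM 15, be9 15 * MM 15] (NN 15) =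
    [44226000, 88452000, 132678000, 176904000, 221130000, 265356000, 309582000, 353808000,
    398034000, 442260000, 486486000, 530712000, 574938000, 619164000, 663390000, -9925578000,
    -8364546000, -6803514000, -5242482000, -3681450000, -2120418000, -559386000, 1001646000,
    2562678000, 4123710000, 5684742000, 7245774000, 8806806000, 10367838000, 11928870000,
    11133612000, 10338354000, 9543096000, 8747838000, 7952580000, 7157322000, 6362064000,
    5566806000, 4771548000, 3976290000, 3181032000, 2385774000, 1590516000, 795258000] := by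
  (clear * -; decide +kernel)

theorem ok9_15 : Ok9 15 :=
  okLine_of (A := 14) (T := 17) (B := 17) (D := 20) (A' := 51) (B' := 55) (D' := 60)
    (by norm_num) (by (clear * -; decide +kernel)) (by rw [p9_15]; decide +kernel)
    (by rw [p9_15]; decide +kernel)

theorem p10_15 : PW 15 [(al10 15 + be10 15) * MM 15, be10 15 * MM 15] (NN 15) =
    [48357000, 96714000, 145071000, 193428000, 241785000, 290142000, 338499000, 386856000,
    435213000, 483570000, 531927000, 580284000, 628641000, 676998000, 725355000, -9911727000,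
    -8398809000, -6885891000, -5372973000, -3860055000, -2347137000, -834219000, 678699000,
    2191617000, 3704535000, 5217453000, 6730371000, 8243289000, 9756207000, 11269125000,
    10517850000, 9766575000, 9015300000, 8264025000, 7512750000, 6761475000, 6010200000,
    5258925000, 4507650000, 3756375000, 3005100000, 2253825000, 1502550000, 751275000] := by
  (clear * -; decide +kernel)

theorem ok10_15 : Ok10 15 :=
  okLine_of (A := 49) (T := 60) (B := 60) (D := 70) (A' := 72) (B' := 77) (D' := 84)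
    (by norm_num) (by (clear * -; decide +kernel)) (by rw [p10_15]; decide +kernel)
    (by rw [p10_15]; decide +kernel)

theorem pn3_15 : PV 15 [z0 15, z1 15, z1 15 + z2 15, q3T 15 * MM 15] (NN 15) =
    [-147160000, -294320000, -441480000, -588640000, -735800000, -882960000, -1030120000,
    -1177280000, -1324440000, -1471600000, -1618760000, -1765920000, -1913080000, -2060240000,
    9942600000, 8763480000, 7584360000, 6405240000, 5226120000, 4047000000, 2867880000,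
    1688760000, 509640000, -669480000, -1848600000, -3027720000, -4206840000, -5385960000,
    -6565080000, -7744200000, -6915480000, -6086760000, -5258040000, -4429320000, -3600600000,
    -2771880000, -1943160000, -1114440000, -285720000, 543000000, 1371720000, 2200440000,
    3029160000, 3857880000, 4686600000, 4293160000, 3899720000, 3506280000, 3112840000,
    2719400000, 2325960000, 1932520000, 1539080000, 1145640000, 752200000, 358760000,
    -34680000, -428120000, -821560000, -1215000000, -1134000000, -1053000000, -972000000,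
    -891000000, -810000000, -729000000, -648000000, -567000000, -486000000, -405000000,
    -324000000, -243000000, -162000000, -81000000] := by
  (clear * -; decide +kernel)

theorem okN3_15 : OkN3 15 :=
  okN3_of (A := 27) (D := 29) (by norm_num) (by (clear * -; decide +kernel)) (by rw [pn3_15]; decide +kernel)

theorem pn1_15 : PV 15 [NN 15 - q4T 15 * MM 15, q4T 15 * MM 15] (NN 15) =
    [0, 0, 0, 0, 0, 0, 0, 0, 0, 0, 0, 0, 0, 0, 12150000000, 10501650000, 8853300000, 7204950000,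
    5556600000, 3908250000, 2259900000, 611550000, -1036800000, -2685150000, -4333500000,
    -5981850000, -7630200000, -9278550000, -10926900000, -12575250000, -11736900000,
    -10898550000, -10060200000, -9221850000, -8383500000, -7545150000, -6706800000,
    -5868450000, -5030100000, -4191750000, -3353400000, -2515050000, -1676700000, -838350000] := by
  (clear * -; decide +kernel)

theorem okN1_15 : OkN1 15 :=
  okN1_of (B := 69) (D := 74) (by norm_num) (by (clear * -; decide +kernel)) (by rw [pn1_15]; decide +kernel)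

theorem pn0_15 : PV 15 [z0 15, NN 15 - z0 15] (NN 15) =
    [0, 0, 0, 0, 0, 0, 0, 0, 0, 0, 0, 0, 0, 0, 12150000000, 10908000000, 9666000000, 8424000000,
    7182000000, 5940000000, 4698000000, 3456000000, 2214000000, 972000000, -270000000,
    -1512000000, -2754000000, -3996000000, -5238000000, -6480000000, -6048000000, -5616000000,
    -5184000000, -4752000000, -4320000000, -3888000000, -3456000000, -3024000000, -2592000000,
    -2160000000, -1728000000, -1296000000, -864000000, -432000000] := by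
  (clear * -; decide +kernel)

theorem okN0_15 : OkN0 15 :=
  okN0_of (by norm_num) (by rw [pn0_15]; (clear * -; decide +kernel))

end Vale.Agent.P237.AllN.PcRho
end

section

/-!
# P237: the one-cell function of the a priori bound for large `m`
-/

namespace Vale.Agent.P237.AllN

/-- `W_p(b) = (1 - e^{-b}) exp(p (1 - b/(e^b - 1)))` -/
noncomputable def aplW (p b : ℝ) : ℝ :=
  (1 - Real.exp (-b)) * Real.exp (p * (1 - b / (Real.exp b - 1)))

end Vale.Agent.P237.AllN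
end

section

/-!
# P237: analytic lemmas for the a priori bound for large `m`
-/

open Set Filter Topology

namespace Vale.Agent.P237.AllN

theorem aj_exp_sub_pos {t : ℝ} (ht : 0 < t) : 0 < Real.exp t - 1 := by
  have := Real.add_one_lt_exp ht.ne'
  linarith only [ht, this]

/-- `t² e^t ≤ (e^t - 1)²` -/
theorem aj_sinh {t : ℝ} (ht : 0 ≤ t) : t ^ 2 * Real.exp t ≤ (Real.exp t - 1) ^ 2 := by
  have h1 : t / 2 ≤ Real.sinh (t / 2) := Real.self_le_sinh_iff.2 (by linarith)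
  rw [Real.sinh_eq] at h1
  have hE := Real.exp_pos (t / 2)
  have e1 : Real.exp t = Real.exp (t / 2) * Real.exp (t / 2) := by
    rw [← Real.exp_add]
    congr 1
    ring
  have e2 : Real.exp (-(t / 2)) * Real.exp (t / 2) = 1 := by
    rw [← Real.exp_add]
    simp
  have h2 : t * Real.exp (t / 2) ≤ Real.exp t - 1 := by
    have h3 : t ≤ Real.exp (t / 2) - Real.exp (-(t / 2)) := by (clear * - h1; linarith only [h1])
    have h4 := mul_le_mul_of_nonneg_right h3 hE.le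
    rw [sub_mul, e2, ← e1] at h4
    exact h4
  have h5 : 0 ≤ t * Real.exp (t / 2) := by (clear * - ht; positivity)
  calc t ^ 2 * Real.exp t = (t * Real.exp (t / 2)) ^ 2 := by rw [e1]; ring
    _ ≤ (Real.exp t - 1) ^ 2 := pow_le_pow_left₀ h5 h2 2

/-- `ψ(t) = 1/(e^t-1) - 1/t` is increasing -/
theorem aj_psi {a b : ℝ} (ha : 0 < a) (hab : a ≤ b) :
    1 / (Real.exp a - 1) - 1 / a ≤ 1 / (Real.exp b - 1) - 1 / b := by
  have hd : ∀ t : ℝ, 0 < t → HasDerivAt (fun t => 1 / (Real.exp t - 1) - 1 / t)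
      (-Real.exp t / (Real.exp t - 1) ^ 2 + 1 / t ^ 2) t := by
    intro t ht
    have h1 := (aj_exp_sub_pos ht).ne'
    have h2 := ((hasDerivAt_const t (1 : ℝ)).div ((Real.hasDerivAt_exp t).sub_const 1) h1).sub
      ((hasDerivAt_const t (1 : ℝ)).div (hasDerivAt_id' t) ht.ne')
    refine h2.congr_deriv ?_
    field_simp
    ring
  have hm : MonotoneOn (fun t => 1 / (Real.exp t - 1) - 1 / t) (Ici a) := by
    apply monotoneOn_of_deriv_nonneg (convex_Ici a)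
    · exact fun t ht => (hd t (ha.trans_le ht)).continuousAt.continuousWithinAt
    · intro t ht
      rw [interior_Ici] at ht
      exact (hd t (ha.trans ht)).differentiableAt.differentiableWithinAt
    · intro t ht
      rw [interior_Ici] at ht
      have ht0 : 0 < t := ha.trans ht
      rw [(hd t ht0).deriv]
      have h1 := aj_exp_sub_pos ht0
      have h2 := aj_sinh ht0.le
      have h3 : Real.exp t / (Real.exp t - 1) ^ 2 ≤ 1 / t ^ 2 := by
        rw [div_le_div_iff₀ (by (clear * - h1; positivity)) (by positivity)]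
        linarith only [h2]
      have e : -Real.exp t / (Real.exp t - 1) ^ 2 = -(Real.exp t / (Real.exp t - 1) ^ 2) := by ring
      rw [e]
      linarith only [h3]
  exact hm (mem_Ici.2 le_rfl) (mem_Ici.2 hab) hab

/-- `h(b) = 1 - b/(e^b-1)` -/
noncomputable def ajh (b : ℝ) : ℝ := 1 - b / (Real.exp b - 1)

theorem ajh_der {b : ℝ} (hb : 0 < b) :
    HasDerivAt ajh ((b * Real.exp b - Real.exp b + 1) / (Real.exp b - 1) ^ 2) b := by
  have h1 := (aj_exp_sub_pos hb).ne'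
  have h2 := ((hasDerivAt_id' b).div ((Real.hasDerivAt_exp b).sub_const 1) h1).const_sub 1
  refine h2.congr_deriv ?_
  field_simp
  ring

theorem ajh_num {b : ℝ} : 0 ≤ b * Real.exp b - Real.exp b + 1 := by
  have h1 := Real.add_one_le_exp (-b)
  have h2 := Real.exp_pos b
  have e : Real.exp (-b) * Real.exp b = 1 := by
    rw [← Real.exp_add]
    simp
  linarith only [mul_nonneg (sub_nonneg.2 h1) (le_of_lt (sub_pos.2 h2)), e]

theorem ajh_nonneg {b : ℝ} (hb : 0 < b) : 0 ≤ ajh b := by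
  unfold ajh
  have h1 := aj_exp_sub_pos hb
  have h2 := Real.add_one_le_exp b
  have : b / (Real.exp b - 1) ≤ 1 := by
    rw [div_le_one h1]
    linarith only [h2]
  linarith only [this]

theorem ajh_mono {a b : ℝ} (ha : 0 < a) (hab : a ≤ b) : ajh a ≤ ajh b := by
  have hm : MonotoneOn ajh (Ici a) := by
    apply monotoneOn_of_deriv_nonneg (convex_Ici a)
    · exact fun t ht => (ajh_der (ha.trans_le ht)).continuousAt.continuousWithinAt
    · intro t ht
      rw [interior_Ici] at ht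
      exact (ajh_der (ha.trans ht)).differentiableAt.differentiableWithinAt
    · intro t ht
      rw [interior_Ici] at ht
      have ht0 : 0 < t := ha.trans ht
      rw [(ajh_der ht0).deriv]
      exact div_nonneg ajh_num (sq_nonneg _)
  exact hm (mem_Ici.2 le_rfl) (mem_Ici.2 hab) hab

theorem aplW_eq (p b : ℝ) : aplW p b = (1 - Real.exp (-b)) * Real.exp (p * ajh b) := rfl

theorem aj_one_sub {b : ℝ} (hb : 0 < b) : 0 < 1 - Real.exp (-b) := by
  have : Real.exp (-b) < 1 := by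
    rw [Real.exp_lt_one_iff]
    linarith
  linarith only [this]

/-- **(L1)** -/
theorem apl_jensen {p b : ℝ} (hp0 : 0 < p) (hp1 : p ≤ 1) (hb : 0 < b) :
    p * (1 - Real.exp (-b)) / (1 - Real.exp (-(p * b))) ≤
      Real.exp (-((1 - p) * (1 - b / (Real.exp b - 1)))) := by
  have hpb : 0 < p * b := mul_pos hp0 hb
  have h1 := aj_one_sub hb
  have h2 := aj_one_sub hpb
  have hd : ∀ t : ℝ, 0 < t → HasDerivAt (fun t => Real.log (1 - Real.exp (-t)) - Real.log t)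
      (1 / (Real.exp t - 1) - 1 / t) t := by
    intro t ht
    have h3 := aj_one_sub ht
    have h4 : HasDerivAt (fun t => 1 - Real.exp (-t)) (Real.exp (-t)) t := by
      have := ((hasDerivAt_id' t).fun_neg.exp).const_sub 1
      refine this.congr_deriv ?_
      ring
    have h5 := (h4.log h3.ne').sub (Real.hasDerivAt_log ht.ne')
    refine h5.congr_deriv ?_
    have e : Real.exp (-t) = 1 / Real.exp t := by rw [Real.exp_neg, one_div]
    have h6 := (Real.exp_pos t).ne'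
    have h7 := (aj_exp_sub_pos ht).ne'
    have h8 : Real.exp (-t) / (1 - Real.exp (-t)) = 1 / (Real.exp t - 1) := by
      rw [div_eq_div_iff h3.ne' h7, e]
      field_simp
    rw [h8, one_div t]
  -- the function is above its tangent
  have hd2 : ∀ t : ℝ, 0 < t → HasDerivAt (fun t => (Real.log (1 - Real.exp (-t)) - Real.log t) -
      (1 / (Real.exp b - 1) - 1 / b) * t)
      (1 / (Real.exp t - 1) - 1 / t - (1 / (Real.exp b - 1) - 1 / b)) t := by
    intro t ht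
    have h3 := (hd t ht).sub ((hasDerivAt_id' t).const_mul (1 / (Real.exp b - 1) - 1 / b))
    rw [mul_one] at h3
    exact h3
  have hm : AntitoneOn (fun t => (Real.log (1 - Real.exp (-t)) - Real.log t) -
      (1 / (Real.exp b - 1) - 1 / b) * t) (Icc (p * b) b) := by
    apply antitoneOn_of_deriv_nonpos (convex_Icc _ _)
    · exact fun t ht => (hd2 t (hpb.trans_le ht.1)).continuousAt.continuousWithinAt
    · intro t ht
      rw [interior_Icc] at ht
      exact (hd2 t (hpb.trans ht.1)).differentiableAt.differentiableWithinAt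
    · intro t ht
      rw [interior_Icc] at ht
      rw [(hd2 t (hpb.trans ht.1)).deriv]
      have := aj_psi (hpb.trans ht.1) ht.2.le
      linarith only [this]
  have hle : p * b ≤ b := by linarith only [mul_nonneg (sub_nonneg.2 hp1) (le_of_lt (sub_pos.2 hb))]
  have h3 := hm ⟨le_rfl, hle⟩ ⟨hle, le_rfl⟩ hle
  simp only at h3
  have e1 : Real.log (p * b) = Real.log p + Real.log b := Real.log_mul hp0.ne' hb.ne'
  have e2 : (1 / (Real.exp b - 1) - 1 / b) * (b - p * b) =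
      -((1 - p) * (1 - b / (Real.exp b - 1))) := by
    field_simp
    ring
  have h4 : Real.log (p * (1 - Real.exp (-b)) / (1 - Real.exp (-(p * b)))) ≤
      -((1 - p) * (1 - b / (Real.exp b - 1))) := by
    rw [Real.log_div (mul_pos hp0 h1).ne' h2.ne', Real.log_mul hp0.ne' h1.ne', ← e2]
    rw [e1] at h3
    linarith only [h3]
  rw [← Real.log_le_iff_le_exp (by (clear * - hp0 h1 h2; positivity))]
  exact h4

/-- **(L2a)** -/
theorem aplW_mono {p a b : ℝ} (hp : 0 ≤ p) (ha : 0 < a) (hab : a ≤ b) : aplW p a ≤ aplW p b := by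
  rw [aplW_eq, aplW_eq]
  have h1 := aj_one_sub ha
  have h2 : Real.exp (-b) ≤ Real.exp (-a) := Real.exp_le_exp.2 (by linarith only [hab])
  apply mul_le_mul (by linarith only [h2]) _ (Real.exp_pos _).le (by linarith only [h1, h2])
  exact Real.exp_le_exp.2 (mul_le_mul_of_nonneg_left (ajh_mono ha hab) hp)

/-- **(L2b)** -/
theorem aplW_div {p a b : ℝ} (_hp : 0 ≤ p) (hp1 : p ≤ 1) (ha : 0 < a) (hab : a ≤ b) :
    a * aplW p b ≤ b * aplW p a := by
  have hb : 0 < b := ha.trans_le hab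
  have hd : ∀ t : ℝ, 0 < t → HasDerivAt (fun t => Real.log (1 - Real.exp (-t)) + p * ajh t -
      Real.log t) (1 / (Real.exp t - 1) + p * ((t * Real.exp t - Real.exp t + 1) /
        (Real.exp t - 1) ^ 2) - 1 / t) t := by
    intro t ht
    have h3 := aj_one_sub ht
    have h4 : HasDerivAt (fun t => 1 - Real.exp (-t)) (Real.exp (-t)) t := by
      have := ((hasDerivAt_id' t).fun_neg.exp).const_sub 1
      refine this.congr_deriv ?_
      ring
    have h5 := ((h4.log h3.ne').add ((ajh_der ht).const_mul p)).sub (Real.hasDerivAt_log ht.ne')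
    refine h5.congr_deriv ?_
    have e : Real.exp (-t) = 1 / Real.exp t := by rw [Real.exp_neg, one_div]
    have h6 := (Real.exp_pos t).ne'
    have h7 := (aj_exp_sub_pos ht).ne'
    have h8 : Real.exp (-t) / (1 - Real.exp (-t)) = 1 / (Real.exp t - 1) := by
      rw [div_eq_div_iff h3.ne' h7, e]
      field_simp
    rw [h8, one_div t]
  have hm : AntitoneOn (fun t => Real.log (1 - Real.exp (-t)) + p * ajh t - Real.log t)
      (Ici a) := by
    apply antitoneOn_of_deriv_nonpos (convex_Ici a)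
    · exact fun t ht => (hd t (ha.trans_le ht)).continuousAt.continuousWithinAt
    · intro t ht
      rw [interior_Ici] at ht
      exact (hd t (ha.trans ht)).differentiableAt.differentiableWithinAt
    · intro t ht
      rw [interior_Ici] at ht
      have ht0 : 0 < t := ha.trans ht
      rw [(hd t ht0).deriv]
      have h1 := aj_exp_sub_pos ht0
      have h2 := aj_sinh ht0.le
      have h3 : p * ((t * Real.exp t - Real.exp t + 1) / (Real.exp t - 1) ^ 2) ≤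
          (t * Real.exp t - Real.exp t + 1) / (Real.exp t - 1) ^ 2 := by
        have := div_nonneg (ajh_num (b := t)) (sq_nonneg (Real.exp t - 1))
        linarith only [mul_nonneg (sub_nonneg.2 hp1) (sub_nonneg.2 this)]
      have h4 : 1 / (Real.exp t - 1) + (t * Real.exp t - Real.exp t + 1) / (Real.exp t - 1) ^ 2 =
          t * Real.exp t / (Real.exp t - 1) ^ 2 := by
        field_simp
        ring
      have h5 : t * Real.exp t / (Real.exp t - 1) ^ 2 ≤ 1 / t := by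
        rw [div_le_div_iff₀ (by positivity) ht0]
        linarith only [h2]
      linarith
  have h1 := hm (mem_Ici.2 le_rfl) (mem_Ici.2 hab) hab
  simp only at h1
  have ea := aj_one_sub ha
  have eb := aj_one_sub hb
  have h2 : Real.log (aplW p b / b) ≤ Real.log (aplW p a / a) := by
    rw [aplW_eq, aplW_eq, Real.log_div (by (clear * - eb; positivity)) hb.ne', Real.log_div (by positivity) ha.ne',
      Real.log_mul eb.ne' (Real.exp_pos _).ne', Real.log_mul ea.ne' (Real.exp_pos _).ne',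
      Real.log_exp, Real.log_exp]
    exact h1
  have pa : 0 < aplW p a := by rw [aplW_eq]; (clear * - ea; positivity)
  have pb : 0 < aplW p b := by rw [aplW_eq]; (clear * - eb; positivity)
  have h3 := (Real.log_le_log_iff (div_pos pb hb) (div_pos pa ha)).1 h2
  rw [div_le_div_iff₀ hb ha] at h3
  linarith only [h3]

/-! ### (L3) -/

/-- Padé bound of the logarithm -/
theorem aj_pade {σ : ℝ} (h0 : 0 ≤ σ) (h1 : σ < 1) :
    σ * (6 - 3 * σ) / (6 - 6 * σ + σ ^ 2) ≤ -Real.log (1 - σ) := by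
  have hq : ∀ t ∈ Ico (0 : ℝ) 1, 0 < 6 - 6 * t + t ^ 2 := fun t ht => by
    (by_contra nlg; linarith only [nlg, mul_pos (sub_pos.2 ht.2) (sub_pos.2 ht.2), mul_nonneg (sub_nonneg.2 (not_lt.1 nlg)) (le_of_lt (sub_pos.2 ht.2)), mul_nonneg (sq_nonneg (t : ℝ)) (le_of_lt (sub_pos.2 ht.2))])
  have hd : ∀ t ∈ Ico (0 : ℝ) 1, HasDerivAt
      (fun t => -Real.log (1 - t) - t * (6 - 3 * t) / (6 - 6 * t + t ^ 2))
      (1 / (1 - t) - (36 - 36 * t + 12 * t ^ 2) / (6 - 6 * t + t ^ 2) ^ 2) t := by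
    intro t ht
    have h2 : 1 - t ≠ 0 := by linarith only [ht.2]
    have h3 := hq t ht
    have a1 : HasDerivAt (fun t : ℝ => 1 - t) (-1) t := by
      simpa only using (hasDerivAt_id' t).const_sub 1
    have a2 : HasDerivAt (fun t : ℝ => t * (6 - 3 * t)) (6 - 6 * t) t := by
      refine ((hasDerivAt_id' t).mul (((hasDerivAt_id' t).const_mul 3).const_sub 6)).congr_deriv ?_
      ring
    have a3 : HasDerivAt (fun t : ℝ => 6 - 6 * t + t ^ 2) (-6 + 2 * t) t := by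
      have a4 : HasDerivAt (fun t : ℝ => t ^ 2) (2 * t) t := by simpa only [Nat.cast_ofNat, Nat.add_one_sub_one, pow_one] using hasDerivAt_pow 2 t
      refine ((((hasDerivAt_id' t).const_mul 6).const_sub 6).add a4).congr_deriv ?_
      ring
    refine ((a1.log h2).neg.sub (a2.div a3 h3.ne')).congr_deriv ?_
    have h3' := h3.ne'
    field_simp
    ring
  have hm : MonotoneOn (fun t => -Real.log (1 - t) - t * (6 - 3 * t) / (6 - 6 * t + t ^ 2))
      (Ico (0 : ℝ) 1) := by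
    apply monotoneOn_of_deriv_nonneg (convex_Ico 0 1)
    · exact fun t ht => (hd t ht).continuousAt.continuousWithinAt
    · intro t ht
      rw [interior_Ico] at ht
      exact (hd t ⟨ht.1.le, ht.2⟩).differentiableAt.differentiableWithinAt
    · intro t ht
      rw [interior_Ico] at ht
      rw [(hd t ⟨ht.1.le, ht.2⟩).deriv]
      have h3 := hq t ⟨ht.1.le, ht.2⟩
      have h4 : 0 < 1 - t := by linarith only [ht.2]
      have h5 : (36 - 36 * t + 12 * t ^ 2) / (6 - 6 * t + t ^ 2) ^ 2 ≤ 1 / (1 - t) := by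
        rw [div_le_div_iff₀ (by (clear * - h3; positivity)) h4]
        linarith only [mul_nonneg (sq_nonneg (t : ℝ)) (sq_nonneg (t : ℝ))]
      linarith only [h5]
  have h2 := hm ⟨le_rfl, zero_lt_one⟩ ⟨h0, h1⟩ h0
  simp only at h2
  norm_num at h2
  linarith only [h2]

/-- the polynomial inequality behind (L3) -/
theorem aj_poly {σ : ℝ} (h0 : 0 ≤ σ) (h1 : σ ≤ 1) :
    (6 - 6 * σ + σ ^ 2) ^ 4 ≤
    ((6 - 6 * σ + σ ^ 2) ^ 3 + (48 / 49 * (σ * (3 - 2 * σ))) * (6 - 6 * σ + σ ^ 2) ^ 2 +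
      (48 / 49 * (σ * (3 - 2 * σ))) ^ 2 / 2 * (6 - 6 * σ + σ ^ 2) +
      (48 / 49 * (σ * (3 - 2 * σ))) ^ 3 / 6) *
      ((6 - 6 * σ + σ ^ 2) + 48 / 49 * (σ * (3 - σ))) * (1 - 87 / 100 * σ) := by
  have h2 : 0 ≤ 1 - σ := by linarith
  have e : ((6 - 6 * σ + σ ^ 2) ^ 3 + (48 / 49 * (σ * (3 - 2 * σ))) * (6 - 6 * σ + σ ^ 2) ^ 2 +
      (48 / 49 * (σ * (3 - 2 * σ))) ^ 2 / 2 * (6 - 6 * σ + σ ^ 2) +
      (48 / 49 * (σ * (3 - 2 * σ))) ^ 3 / 6) *
      ((6 - 6 * σ + σ ^ 2) + 48 / 49 * (σ * (3 - σ))) * (1 - 87 / 100 * σ) -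
      (6 - 6 * σ + σ ^ 2) ^ 4 = σ * (173988/1225 * (σ ^ 0 * (1 - σ) ^ 8) +
      33899472/60025 * (σ ^ 1 * (1 - σ) ^ 7) +
      2700129168/2941225 * (σ ^ 2 * (1 - σ) ^ 6) +
      113477694552/144120025 * (σ ^ 3 * (1 - σ) ^ 5) +
      1135081026/2941225 * (σ ^ 4 * (1 - σ) ^ 4) +
      15795147636/144120025 * (σ ^ 5 * (1 - σ) ^ 3) +
      2431308132/144120025 * (σ ^ 6 * (1 - σ) ^ 2) +
      160816662/144120025 * (σ ^ 7 * (1 - σ) ^ 1) +
      735909/115296020 * (σ ^ 8 * (1 - σ) ^ 0)) := by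
    ring
  have h3 : 0 ≤ σ * (173988/1225 * (σ ^ 0 * (1 - σ) ^ 8) +
      33899472/60025 * (σ ^ 1 * (1 - σ) ^ 7) +
      2700129168/2941225 * (σ ^ 2 * (1 - σ) ^ 6) +
      113477694552/144120025 * (σ ^ 3 * (1 - σ) ^ 5) +
      1135081026/2941225 * (σ ^ 4 * (1 - σ) ^ 4) +
      15795147636/144120025 * (σ ^ 5 * (1 - σ) ^ 3) +
      2431308132/144120025 * (σ ^ 6 * (1 - σ) ^ 2) +
      160816662/144120025 * (σ ^ 7 * (1 - σ) ^ 1) +
      735909/115296020 * (σ ^ 8 * (1 - σ) ^ 0)) := by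
    (clear * - h0 h1; positivity)
  (clear * - h3; linarith)

/-- the derivative condition of (L3) -/
theorem aj_cond {p b : ℝ} (hp : 48 / 49 ≤ p) (hp1 : p ≤ 1) (hb : 0 < b) :
    1 ≤ Real.exp (p * ajh b) * (1 + p * (b / (1 - Real.exp (-b)) - 1)) *
      (1 - 87 / 100 * (1 - Real.exp (-b))) := by
  obtain ⟨σ, hσ⟩ : ∃ σ : ℝ, σ = 1 - Real.exp (-b) := ⟨_, rfl⟩
  have hσ0 : 0 < σ := by rw [hσ]; exact aj_one_sub hb
  have hσ1 : σ < 1 := by
    rw [hσ]
    (clear * -; linarith [Real.exp_pos (-b)])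
  have hb' : b = -Real.log (1 - σ) := by
    rw [hσ, sub_sub_cancel, Real.log_exp, neg_neg]
  have hpade := aj_pade hσ0.le hσ1
  rw [← hb'] at hpade
  rw [← hσ]
  set d := 6 - 6 * σ + σ ^ 2 with hd
  have hd0 : 0 < d := by rw [hd]; (by_contra nlg; linarith only [nlg, mul_pos (sub_pos.2 hσ1) (sub_pos.2 hσ1), mul_nonneg (sub_nonneg.2 (not_lt.1 nlg)) (le_of_lt (sub_pos.2 hσ1)), mul_nonneg (sq_nonneg (σ : ℝ)) (le_of_lt (sub_pos.2 hσ1))])
  -- `l = b/σ`
  obtain ⟨l, hl⟩ : ∃ l : ℝ, l = b / σ := ⟨_, rfl⟩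
  obtain ⟨l0, hl0⟩ : ∃ l0 : ℝ, l0 = (6 - 3 * σ) / d := ⟨_, rfl⟩
  have hll : l0 ≤ l := by
    rw [hl, hl0, le_div_iff₀ hσ0]
    calc (6 - 3 * σ) / d * σ = σ * (6 - 3 * σ) / d := by ring
      _ ≤ b := hpade
  have hl01 : 1 ≤ l0 := by
    rw [hl0, le_div_iff₀ hd0, hd]
    (by_contra nlg; linarith only [nlg, mul_pos (sub_pos.2 hσ0) (sub_pos.2 hσ1), mul_pos (sub_pos.2 hσ0) (sub_pos.2 hσ0), mul_pos (sub_pos.2 (not_le.1 nlg)) (sub_pos.2 hσ1), mul_pos (sub_pos.2 (not_le.1 nlg)) (sub_pos.2 hσ0)])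
  have hσl : (1 - σ) * l ≤ 1 := by
    have h1 : (1 - σ) * b ≤ σ := by
      have h2 := Real.add_one_le_exp b
      have h3 : 1 - σ = Real.exp (-b) := by rw [hσ]; ring
      have h4 : Real.exp (-b) * Real.exp b = 1 := by rw [← Real.exp_add]; simp
      have h5 := mul_le_mul_of_nonneg_left h2 (Real.exp_pos (-b)).le
      rw [h4] at h5
      rw [h3, hσ]
      linarith only [h5]
    rw [hl, ← mul_div_assoc, div_le_one hσ0]
    exact h1
  have hh : ajh b = 1 - (1 - σ) * l := by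
    unfold ajh
    have h1 := (aj_exp_sub_pos hb).ne'
    have h3 : 1 - σ = Real.exp (-b) := by rw [hσ]; ring
    have h4 : Real.exp (-b) * Real.exp b = 1 := by rw [← Real.exp_add]; simp
    have h5 : σ * Real.exp b = Real.exp b - 1 := by
      rw [hσ]
      linear_combination (-1 : ℝ) * h4
    rw [h3, hl]
    congr 1
    rw [← mul_div_assoc, div_eq_div_iff h1 hσ0.ne']
    linear_combination (b * Real.exp (-b)) * h5 - (b * σ) * h4
  rw [← hl, hh]
  have hp0 : 0 < p := by linarith only [hp]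
  -- replace `l` by `l0`
  have hA : 0 < 1 + p * (l0 - 1) := by nlinarith only [hl01, hp]
  have s1 : Real.exp (p * (1 - (1 - σ) * l0)) * (1 + p * (l0 - 1)) ≤
      Real.exp (p * (1 - (1 - σ) * l)) * (1 + p * (l - 1)) := by
    have e1 : Real.exp (p * (1 - (1 - σ) * l)) =
        Real.exp (p * (1 - (1 - σ) * l0)) * Real.exp (-(p * (1 - σ) * (l - l0))) := by
      rw [← Real.exp_add]
      congr 1
      ring
    rw [e1, mul_assoc]
    apply mul_le_mul_of_nonneg_left _ (Real.exp_pos _).le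
    have h1 := Real.add_one_le_exp (-(p * (1 - σ) * (l - l0)))
    have h2 : 0 ≤ 1 + p * (l - 1) := by linarith only [mul_nonneg (sub_nonneg.2 hll) (sub_nonneg.2 hp), hA, hll]
    have h3 := mul_le_mul_of_nonneg_right h1 h2
    have h4 : (1 - σ) * (1 + p * (l - 1)) ≤ 1 := by nlinarith only [hσl, hp, hp1, hσ0]
    have h5 : 0 ≤ p * (l - l0) := mul_nonneg hp0.le (by linarith only [hll])
    have h6 := mul_le_mul_of_nonneg_left h4 h5
    linarith only [h6, h3]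
  -- replace `p` by `48/49`
  have hh0 : 0 ≤ 1 - (1 - σ) * l0 := by
    have := mul_le_mul_of_nonneg_left hll (by linarith only [hσ1] : 0 ≤ 1 - σ)
    linarith only [hσl, this]
  have s2 : Real.exp (48 / 49 * (1 - (1 - σ) * l0)) * (1 + 48 / 49 * (l0 - 1)) ≤
      Real.exp (p * (1 - (1 - σ) * l0)) * (1 + p * (l0 - 1)) := by
    apply mul_le_mul _ _ (by nlinarith only [hl01]) (Real.exp_pos _).le
    · exact Real.exp_le_exp.2 (mul_le_mul_of_nonneg_right hp hh0)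
    · have := mul_le_mul_of_nonneg_right hp (by linarith only [hl01] : 0 ≤ l0 - 1)
      linarith only [this]
  -- Taylor
  have e2 : 1 - (1 - σ) * l0 = σ * (3 - 2 * σ) / d := by
    rw [hl0, eq_div_iff hd0.ne']
    have : (6 - 3 * σ) / d * d = 6 - 3 * σ := div_mul_cancel₀ _ hd0.ne'
    linear_combination (-(1 - σ)) * this + hd
  have e3 : 1 + 48 / 49 * (l0 - 1) = (d + 48 / 49 * (σ * (3 - σ))) / d := by
    rw [hl0, eq_div_iff hd0.ne']
    have : (6 - 3 * σ) / d * d = 6 - 3 * σ := div_mul_cancel₀ _ hd0.ne'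
    linear_combination (48 / 49) * this - (48 / 49) * hd
  set y := 48 / 49 * (1 - (1 - σ) * l0) with hy
  have hy0 : 0 ≤ y := by rw [hy]; (clear * - hh0; positivity)
  have s3 : 1 + y + y ^ 2 / 2 + y ^ 3 / 6 ≤ Real.exp y := by
    have h1 := Real.sum_le_exp_of_nonneg hy0 4
    simp only [Finset.sum_range_succ, Finset.sum_range_zero, Nat.factorial] at h1
    norm_num at h1
    (clear * - h1; linarith)
  have hy2 : y = 48 / 49 * (σ * (3 - 2 * σ)) / d := by rw [hy, e2]; ring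
  have s4 : (1 + y + y ^ 2 / 2 + y ^ 3 / 6) * (1 + 48 / 49 * (l0 - 1)) ≤
      Real.exp (p * (1 - (1 - σ) * l)) * (1 + p * (l - 1)) := by
    refine le_trans ?_ (s2.trans s1)
    exact mul_le_mul_of_nonneg_right s3 (by linarith only [hl01])
  have hP : 0 < 1 - 87 / 100 * σ := by linarith only [hσ1]
  refine le_trans ?_ (mul_le_mul_of_nonneg_right s4 hP.le)
  have h7 := aj_poly hσ0.le hσ1.le
  rw [← hd] at h7
  rw [e3, hy2]
  have e4 : (1 + 48 / 49 * (σ * (3 - 2 * σ)) / d + (48 / 49 * (σ * (3 - 2 * σ)) / d) ^ 2 / 2 +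
      (48 / 49 * (σ * (3 - 2 * σ)) / d) ^ 3 / 6) * ((d + 48 / 49 * (σ * (3 - σ))) / d) *
      (1 - 87 / 100 * σ) =
      ((d ^ 3 + (48 / 49 * (σ * (3 - 2 * σ))) * d ^ 2 +
      (48 / 49 * (σ * (3 - 2 * σ))) ^ 2 / 2 * d + (48 / 49 * (σ * (3 - 2 * σ))) ^ 3 / 6) *
      (d + 48 / 49 * (σ * (3 - σ))) * (1 - 87 / 100 * σ)) / d ^ 4 := by
    (clear * - hd0; field_simp)
  rw [e4, le_div_iff₀ (by (clear * - hd0; positivity)), one_mul]
  exact h7

/-- (L3) for the largest `P` -/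
theorem apl_cyl_top {p b : ℝ} (hp : 48 / 49 ≤ p) (hp1 : p ≤ 1) (hb : 0 < b) :
    -Real.log (1 - 87 / 100 * (1 - Real.exp (-b))) ≤ 87 / 100 * aplW p b := by
  have hp0 : 0 < p := by linarith only [hp]
  have hd : ∀ t : ℝ, 0 < t → HasDerivAt
      (fun t => 87 / 100 * ((1 - Real.exp (-t)) * Real.exp (p * ajh t)) +
        Real.log (1 - 87 / 100 * (1 - Real.exp (-t))))
      (87 / 100 * (Real.exp (-t) * Real.exp (p * ajh t) + (1 - Real.exp (-t)) *
        (Real.exp (p * ajh t) * (p * ((t * Real.exp t - Real.exp t + 1) /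
          (Real.exp t - 1) ^ 2)))) +
        -(87 / 100 * Real.exp (-t)) / (1 - 87 / 100 * (1 - Real.exp (-t)))) t := by
    intro t ht
    have h4 : HasDerivAt (fun t => 1 - Real.exp (-t)) (Real.exp (-t)) t := by
      have := ((hasDerivAt_id' t).fun_neg.exp).const_sub 1
      refine this.congr_deriv ?_
      ring
    have h5 : 1 - 87 / 100 * (1 - Real.exp (-t)) ≠ 0 := by
      have := Real.exp_pos (-t)
      have : 0 < 1 - 87 / 100 * (1 - Real.exp (-t)) := by linarith only [this]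
      exact this.ne'
    exact ((h4.mul ((ajh_der ht).const_mul p).exp).const_mul (87 / 100)).add
      (((h4.const_mul (87 / 100)).const_sub 1).log h5)
  have hnn : ∀ t : ℝ, 0 < t → 0 ≤
      87 / 100 * (Real.exp (-t) * Real.exp (p * ajh t) + (1 - Real.exp (-t)) *
        (Real.exp (p * ajh t) * (p * ((t * Real.exp t - Real.exp t + 1) /
          (Real.exp t - 1) ^ 2)))) +
        -(87 / 100 * Real.exp (-t)) / (1 - 87 / 100 * (1 - Real.exp (-t))) := by
    intro t ht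
    have h1 := aj_cond hp hp1 ht
    have hE := Real.exp_pos (-t)
    have hσ := aj_one_sub ht
    have hexp := aj_exp_sub_pos ht
    have hD : 0 < 1 - 87 / 100 * (1 - Real.exp (-t)) := by linarith only [hE]
    have e1 : (t * Real.exp t - Real.exp t + 1) / (Real.exp t - 1) ^ 2 =
        Real.exp (-t) * (t / (1 - Real.exp (-t)) - 1) / (1 - Real.exp (-t)) := by
      have e : Real.exp (-t) = 1 / Real.exp t := by rw [Real.exp_neg, one_div]
      have h6 := (Real.exp_pos t).ne'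
      have h7 : 1 - 1 / Real.exp t = (Real.exp t - 1) / Real.exp t := by (clear * - h6 hexp; field_simp)
      rw [e, h7]
      field_simp
      ring
    have e2 : 87 / 100 * (Real.exp (-t) * Real.exp (p * ajh t) + (1 - Real.exp (-t)) *
        (Real.exp (p * ajh t) * (p * ((t * Real.exp t - Real.exp t + 1) /
          (Real.exp t - 1) ^ 2)))) +
        -(87 / 100 * Real.exp (-t)) / (1 - 87 / 100 * (1 - Real.exp (-t))) =
        87 / 100 * Real.exp (-t) * ((Real.exp (p * ajh t) *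
          (1 + p * (t / (1 - Real.exp (-t)) - 1)) * (1 - 87 / 100 * (1 - Real.exp (-t))) - 1) /
          (1 - 87 / 100 * (1 - Real.exp (-t)))) := by
      have h8 := hσ.ne'
      have h9 := hD.ne'
      have e3 : (1 - Real.exp (-t)) * (Real.exp (p * ajh t) * (p *
          (Real.exp (-t) * (t / (1 - Real.exp (-t)) - 1) / (1 - Real.exp (-t))))) =
          Real.exp (p * ajh t) * p * Real.exp (-t) * (t / (1 - Real.exp (-t)) - 1) := by
        (clear * - h8 hp; field_simp)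
      rw [e1, e3, sub_div, mul_div_cancel_right₀ _ h9]
      ring
    rw [e2]
    apply mul_nonneg (by positivity)
    exact div_nonneg (by linarith only [h1]) hD.le
  have hm : MonotoneOn (fun t => 87 / 100 * ((1 - Real.exp (-t)) * Real.exp (p * ajh t)) +
        Real.log (1 - 87 / 100 * (1 - Real.exp (-t)))) (Ioi 0) := by
    apply monotoneOn_of_deriv_nonneg (convex_Ioi 0)
    · exact fun t ht => (hd t ht).continuousAt.continuousWithinAt
    · intro t ht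
      rw [interior_Ioi] at ht
      exact (hd t ht).differentiableAt.differentiableWithinAt
    · intro t ht
      rw [interior_Ioi] at ht
      rw [(hd t ht).deriv]
      exact hnn t ht
  have hlim : Tendsto (fun ε : ℝ => Real.log (1 - 87 / 100 * (1 - Real.exp (-ε)))) (𝓝[>] 0)
      (𝓝 0) := by
    have hc : ContinuousAt (fun ε : ℝ => Real.log (1 - 87 / 100 * (1 - Real.exp (-ε)))) 0 := by
      apply ContinuousAt.log
      · (clear * -; fun_prop)
      · simp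
    have h1 := hc.tendsto
    simp only [neg_zero, Real.exp_zero, sub_self, mul_zero, sub_zero, Real.log_one] at h1
    exact h1.mono_left nhdsWithin_le_nhds
  have h0 : 0 ≤ 87 / 100 * ((1 - Real.exp (-b)) * Real.exp (p * ajh b)) +
        Real.log (1 - 87 / 100 * (1 - Real.exp (-b))) := by
    apply le_of_tendsto hlim
    filter_upwards [Ioo_mem_nhdsGT hb] with ε hε
    have h1 := hm (mem_Ioi.2 hε.1) (mem_Ioi.2 hb) hε.2.le
    simp only at h1
    have h2 : 0 ≤ 87 / 100 * ((1 - Real.exp (-ε)) * Real.exp (p * ajh ε)) := by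
      have := aj_one_sub hε.1
      (clear * - this; positivity)
    linarith only [h1, h2]
  rw [aplW_eq]
  linarith only [h0]

/-- **(L3)** -/
theorem apl_cyl {p P b : ℝ} (hp : 48 / 49 ≤ p) (hp1 : p ≤ 1) (hP0 : 0 ≤ P) (hP : P ≤ 87 / 100)
    (hb : 0 < b) : -Real.log (1 - P * (1 - Real.exp (-b))) ≤ P * aplW p b := by
  have h1 := apl_cyl_top hp hp1 hb
  have hσ := aj_one_sub hb
  have hσ1 : 1 - Real.exp (-b) < 1 := by linarith only [Real.exp_pos (-b)]
  set σ := 1 - Real.exp (-b) with hσd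
  -- concavity of the logarithm
  have hconc := strictConcaveOn_log_Ioi.concaveOn
  have hx : (1 - 87 / 100 * σ) ∈ Ioi (0 : ℝ) := by
    rw [mem_Ioi]
    linarith only [hσ1]
  have ht0 : 0 ≤ P / (87 / 100) := by (clear * - hP0; positivity)
  have ht1 : P / (87 / 100) ≤ 1 := by
    rw [div_le_one (by norm_num)]
    exact hP
  have h2 := hconc.2 hx (mem_Ioi.2 zero_lt_one) ht0 (by linarith only [hP] : 0 ≤ 1 - P / (87 / 100))
    (by ring)
  simp only [smul_eq_mul, Real.log_one, mul_zero, add_zero] at h2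
  have e : P / (87 / 100) * (1 - 87 / 100 * σ) + (1 - P / (87 / 100)) * 1 = 1 - P * σ := by ring
  rw [e] at h2
  have h3 := mul_le_mul_of_nonneg_left h1 ht0
  have e2 : P / (87 / 100) * (87 / 100 * aplW p b) = P * aplW p b := by ring
  rw [e2] at h3
  linarith only [h3, h2]

end Vale.Agent.P237.AllN
end

section

/-!
# P237, block D, `l > 0`, `m z ≤ 1`: lower bound of `T`, bounds of `e₁ - T` and `e₁`
-/

namespace Vale.Agent.P237.AllN

theorem pa_y_ge {z s : ℝ} (hs0 : 0 < s) (hs : s ^ 2 = 1 - z) (hz0 : 0 ≤ z) : z ≤ z / s ^ 2 := by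
  rw [le_div_iff₀ (by positivity)]
  linarith only [mul_nonneg (sub_nonneg.2 hz0) (sub_nonneg.2 hz0), mul_eq_zero_of_left (sub_eq_zero.2 hs) (z - (0))]

/-- lower bound of `T` -/
theorem pa_lower {m z s l u G N g0 t3 k2 β κb φ K : ℝ} (hm : 25 ≤ m) (hz0 : 0 ≤ z) (hs0 : 0 < s)
    (hs : s ^ 2 = 1 - z) (hu : 0 < 1 + u) (hl0 : 0 ≤ l)
    (hg : g0 * l ^ 2 ≤ Real.exp (-(2 * l)) - 1 + 2 * l) (ht3 : z / s ^ 3 ≤ t3 * z)
    (hG : -(4 / 5 * (z * l ^ 2)) ≤ G) (hS : -(k2 * (z * l ^ 2)) ≤ dpS m z s l 0)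
    (hβ : β ≤ 4 * s ^ 2 * Real.exp (-(2 * l)) + dpC z s l) (hN : -φ ≤ N) (hφ : 0 ≤ φ)
    (hκ : 2 * (m + 1) / ((m - 1) * s) ≤ κb) (hK : 9 * t3 + 4 / 5 + k2 = K) (hM : m * z ≤ 1)
    (hg3 : 3 * (g0 - 6 / 25) ≤ K) :
    m * z * l ^ 2 * (28 / 25 * (g0 - 9 / 25) - K / 25 + 84 / 625 * (m * z)) +
      β * (u ^ 2 / (1 + u)) - κb * φ - 6 / 25 * (m + 3) * z * u * l ≤ dpT m z s l u G N := by
  rw [dpT_eq]
  have hW : 0 ≤ u ^ 2 / (1 + u) := by (clear * - hu; positivity)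
  have hl2 : 0 ≤ l ^ 2 := sq_nonneg l
  have hy := pa_y_ge hs0 hs hz0
  have h1 := mul_le_mul_of_nonneg_left hg (by (clear * - hm hz0; positivity) : 0 ≤ (m + 3) * z)
  have h2 := mul_le_mul_of_nonneg_right ht3 hl2
  have h2' : 0 ≤ 3 * (m - 3) * (z ^ 2 / s ^ 5) * l ^ 2 := by
    have : 0 ≤ m - 3 := by linarith only [hm]
    (clear * - this hs0; positivity)
  have h3 := mul_le_mul_of_nonneg_right hβ hW
  have h4 : -(κb * φ) ≤ 2 * (m + 1) / ((m - 1) * s) * N := by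
    have h5 : 0 ≤ 2 * (m + 1) / ((m - 1) * s) := by
      have : 0 < m - 1 := by linarith only [hm]
      (clear * - hm this hs0; positivity)
    have h6 := mul_le_mul_of_nonneg_left hN h5
    have h7 := mul_le_mul_of_nonneg_right hκ hφ
    linarith only [h6, h7]
  have h5 : 3 / 25 * (m + 3) * z * ((m * z - 3) * l ^ 2) ≤
      3 / 25 * (m + 3) * z * ((m * (z / s ^ 2) - 3) * l ^ 2) := by
    apply mul_le_mul_of_nonneg_left _ (by (clear * - hm hz0; positivity))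
    apply mul_le_mul_of_nonneg_right _ hl2
    linarith only [mul_nonneg (sub_nonneg.2 hy) (sub_nonneg.2 hm), hy]
  have h6 : 0 ≤ z * l ^ 2 * ((m - 25) * (K / 25 - 3 / 25 * (g0 - 9 / 25 + 3 / 25 * (m * z)))) := by
    apply mul_nonneg (by (clear * - hz0; positivity))
    apply mul_nonneg (by linarith only [hm])
    linarith only [hM, hg3]
  have e : 3 / 25 * (m + 3) * z * ((m * (z / s ^ 2) - 3) * l ^ 2 - 2 * u * l) =
      3 / 25 * (m + 3) * z * ((m * (z / s ^ 2) - 3) * l ^ 2) - 6 / 25 * (m + 3) * z * u * l := by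
    ring
  rw [e]
  have e2 : (3 * (m - 3) * (z ^ 2 / s ^ 5) - 9 * (z / s ^ 3)) * l ^ 2 =
      3 * (m - 3) * (z ^ 2 / s ^ 5) * l ^ 2 - 9 * (z / s ^ 3 * l ^ 2) := by ring
  rw [e2, ← hK] at *
  have e3 : (m + 3) * z * (g0 * l ^ 2) - 9 * (t3 * z * l ^ 2) - 4 / 5 * (z * l ^ 2) -
      k2 * (z * l ^ 2) + 3 / 25 * (m + 3) * z * ((m * z - 3) * l ^ 2) -
      m * z * l ^ 2 * (28 / 25 * (g0 - 9 / 25) - (9 * t3 + 4 / 5 + k2) / 25 + 84 / 625 * (m * z)) =
      z * l ^ 2 * ((m - 25) * ((9 * t3 + 4 / 5 + k2) / 25 -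
        3 / 25 * (g0 - 9 / 25 + 3 / 25 * (m * z)))) := by ring
  linarith only [hG, hS, h1, h2, h2', h3, h4, h5, h6]

/-- bounds of the coefficients of `e₁` -/
theorem pa_q {z s c : ℝ} (hs0 : 0 < s) (hs : s ^ 2 = 1 - z) (hz0 : 0 ≤ z) (hz : z ≤ 1 / 25)
    (hc0 : 0 ≤ c) (hc : c ≤ 1) : 0 ≤ 2 * c / s - 2 * s ^ 2 + 2 * (1 - c) ∧
    2 * c / s - 2 * s ^ 2 + 2 * (1 - c) ≤ 3042 / 1000 * z := by
  have h1 := pa_inv_le hs0 hs hz0 hz
  have h2 := pa_inv_ge hs0 hs hz0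
  have e : 2 * c / s - 2 * s ^ 2 + 2 * (1 - c) = 2 * (c * (1 / s - 1)) + 2 * z := by
    rw [hs]; ring
  rw [e]
  have h3 : 0 ≤ c * (1 / s - 1) := mul_nonneg hc0 (by linarith only [hz0, h2])
  have h4 : c * (1 / s - 1) ≤ 1 * (521 / 1000 * z) :=
    mul_le_mul hc (by linarith only [h1]) (by linarith only [h2, hz0]) (by norm_num)
  constructor <;> linarith only [h4, hz0, h3]

theorem pa_r {m z s c : ℝ} (hm : 25 ≤ m) (hs0 : 0 < s) (hs : s ^ 2 = 1 - z) (hz0 : 0 ≤ z)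
    (hz : z ≤ 1 / 25) (hc0 : 1 - 1 / (2 * m) ≤ c) (hc : c ≤ 1) :
    -(62 / 1000 * z) ≤ 2 * c / s - 2 + 2 * (1 - c) * (1 - m * (z / s ^ 2)) ∧
    2 * c / s - 2 + 2 * (1 - c) * (1 - m * (z / s ^ 2)) ≤ 1042 / 1000 * z := by
  have h1 := pa_inv_le hs0 hs hz0 hz
  have h2 := pa_inv_ge hs0 hs hz0
  have hm0 : 0 < m := by linarith only [hm]
  have hmi : 1 / (2 * m) ≤ 1 / 50 := by
    apply one_div_le_one_div_of_le <;> linarith only [hm]
  have hc00 : 49 / 50 ≤ c := by linarith only [hc0, hmi]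
  have e : 2 * c / s - 2 + 2 * (1 - c) * (1 - m * (z / s ^ 2)) =
      2 * (c * (1 / s - 1)) - 2 * (1 - c) * m * (z / s ^ 2) := by ring
  rw [e]
  have hy0 : 0 ≤ z / s ^ 2 := by (clear * - hz0 hs0; positivity)
  have hy : z / s ^ 2 ≤ 10417 / 10000 * z := by
    rw [div_le_iff₀ (by positivity), hs]
    linarith only [mul_nonneg (sub_nonneg.2 hz0) (sub_nonneg.2 hz), mul_nonneg (sub_nonneg.2 hz0) (sub_nonneg.2 hz0)]
  have h3 : 49 / 50 * (z / 2) ≤ c * (1 / s - 1) :=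
    mul_le_mul hc00 (by linarith only [h2]) (by linarith only [hz0]) (by linarith only [hc0, hmi])
  have h4 : c * (1 / s - 1) ≤ 1 * (521 / 1000 * z) :=
    mul_le_mul hc (by linarith only [h1]) (by linarith only [hz0, h2]) (by norm_num)
  have h5 : 0 ≤ 2 * (1 - c) * m * (z / s ^ 2) := by
    have : 0 ≤ 1 - c := by linarith only [hc]
    (clear * - hc hm hz0 hs0; positivity)
  have h6 : 2 * (1 - c) * m ≤ 1 := by
    have : (1 - c) * m ≤ 1 / (2 * m) * m := mul_le_mul_of_nonneg_right (by linarith only [hc0]) hm0.le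
    have e2 : 1 / (2 * m) * m = 1 / 2 := by field_simp
    linarith only [this, e2]
  have h7 := mul_le_mul_of_nonneg_right h6 hy0
  constructor <;> linarith only [h4, h5, hz0, hy, h3, h7]

/-- upper bound of `e₁ - T` -/
theorem pa_upper {m z s l u c G N t3 k2 ν κ' φ K : ℝ} (hm : 25 ≤ m) (hz0 : 0 ≤ z)
    (hs0 : 0 < s) (hs : s ^ 2 = 1 - z) (hu : 0 < 1 + u) (hl0 : 0 ≤ l) (hz : z ≤ 1 / 25)
    (hc0 : 1 - 1 / (2 * m) ≤ c) (hc : c ≤ 1)
    (ht3 : z / s ^ 3 ≤ t3 * z)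
    (hG : -(4 / 5 * (z * l ^ 2)) ≤ G) (hS : -(k2 * (z * l ^ 2)) ≤ dpS m z s l 0)
    (hν : -ν ≤ dpC z s l) (hN : -φ ≤ N) (hφ : 0 ≤ φ)
    (hκ : 2 * (m + 1) / ((m - 1) * s) - 2 * c / s ≤ κ') (hK : 9 * t3 + 4 / 5 + k2 = K)
    (hK0 : 0 ≤ K) (hM : m * z ≤ 1) :
    dpE m z s l u c N - dpT m z s l u G N ≤
      m * z * l ^ 2 * (K / 25 + 252 / 625 - 84 / 625 * (m * z)) + 1042 / 1000 * z * l +
      ν * (u ^ 2 / (1 + u)) + κ' * φ + 6 / 25 * (m + 3) * z * u * l +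
      (2 * c / s - 2 * s ^ 2 + 2 * (1 - c)) * u := by
  rw [dpT_eq]
  unfold dpE
  have hW : 0 ≤ u ^ 2 / (1 + u) := by (clear * - hu; positivity)
  have hl2 : 0 ≤ l ^ 2 := sq_nonneg l
  have hy := pa_y_ge hs0 hs hz0
  have h2 := mul_le_mul_of_nonneg_right ht3 hl2
  have h2' : 0 ≤ 3 * (m - 3) * (z ^ 2 / s ^ 5) * l ^ 2 := by
    have : 0 ≤ m - 3 := by linarith only [hm]
    (clear * - this hs0; positivity)
  have h3 := mul_le_mul_of_nonneg_right hν hW
  have h4 : (2 * c / s - 2 * (m + 1) / ((m - 1) * s)) * N ≤ κ' * φ := by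
    have hm1 : 0 < m - 1 := by linarith only [hm]
    have h5 : 0 ≤ 2 * (m + 1) / ((m - 1) * s) - 2 * c / s := by
      rw [sub_nonneg, div_le_div_iff₀ hs0 (by (clear * - hm1 hs0; positivity))]
      (clear * - hs0 hm1 hc; linarith only [mul_nonneg (mul_nonneg hs0.le hm1.le) (by linarith : 0 ≤ 1 - c), hs0])
    have h6 := mul_le_mul_of_nonneg_left hN h5
    have h7 := mul_le_mul_of_nonneg_right hκ hφ
    linarith only [h7, h6]
  have h5 : 3 / 25 * (m + 3) * z * ((m * z - 3) * l ^ 2) ≤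
      3 / 25 * (m + 3) * z * ((m * (z / s ^ 2) - 3) * l ^ 2) := by
    apply mul_le_mul_of_nonneg_left _ (by (clear * - hm hz0; positivity))
    apply mul_le_mul_of_nonneg_right _ hl2
    nlinarith only [hy, hm]
  have h6 : 0 ≤ z * l ^ 2 * ((m - 25) * (K / 25 + 3 / 25 * (9 / 25 - 3 / 25 * (m * z)))) := by
    apply mul_nonneg (by (clear * - hz0; positivity))
    apply mul_nonneg (by linarith only [hm])
    linarith only [hK0, hM]
  have h8 := mul_le_mul_of_nonneg_right (pa_r hm hs0 hs hz0 hz hc0 hc).2 hl0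
  have e : 3 / 25 * (m + 3) * z * ((m * (z / s ^ 2) - 3) * l ^ 2 - 2 * u * l) =
      3 / 25 * (m + 3) * z * ((m * (z / s ^ 2) - 3) * l ^ 2) - 6 / 25 * (m + 3) * z * u * l := by
    ring
  rw [e]
  have e2 : (3 * (m - 3) * (z ^ 2 / s ^ 5) - 9 * (z / s ^ 3)) * l ^ 2 =
      3 * (m - 3) * (z ^ 2 / s ^ 5) * l ^ 2 - 9 * (z / s ^ 3 * l ^ 2) := by ring
  rw [e2, ← hK] at *
  have e3 : m * z * l ^ 2 * ((9 * t3 + 4 / 5 + k2) / 25 + 252 / 625 - 84 / 625 * (m * z)) -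
      9 * (t3 * z * l ^ 2) - 4 / 5 * (z * l ^ 2) - k2 * (z * l ^ 2) +
      3 / 25 * (m + 3) * z * ((m * z - 3) * l ^ 2) =
      z * l ^ 2 * ((m - 25) * ((9 * t3 + 4 / 5 + k2) / 25 +
        3 / 25 * (9 / 25 - 3 / 25 * (m * z)))) := by ring
  linarith only [h8, h6, h5, h4, h3, h2', h2, hS, hG]

/-- lower bound of `e₁` -/
theorem pa_e1 {m z s l u c N φ β g0 : ℝ} (hm : 25 ≤ m) (hz0 : 0 ≤ z)
    (hs0 : 0 < s) (hs : s ^ 2 = 1 - z) (hu : 0 < 1 + u) (hl0 : 0 ≤ l) (hz : z ≤ 1 / 25)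
    (hc0 : 1 - 1 / (2 * m) ≤ c) (hc : c ≤ 1)
    (hg : g0 * l ^ 2 ≤ Real.exp (-(2 * l)) - 1 + 2 * l) (hg0 : 0 ≤ g0)
    (hβ : β ≤ 4 * s ^ 2 * Real.exp (-(2 * l))) (hN : -φ ≤ N) (hφ : 0 ≤ φ) :
    β * (u ^ 2 / (1 + u)) - 2 / s * φ + (2 * c / s - 2 * s ^ 2 + 2 * (1 - c)) * u -
      62 / 1000 * z * l ≤ dpE m z s l u c N := by
  unfold dpE
  have hW : 0 ≤ u ^ 2 / (1 + u) := by (clear * - hu; positivity)
  have h1 := mul_le_mul_of_nonneg_left hg (by (clear * - hm hz0; positivity) : 0 ≤ (m + 3) * z)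
  have h1' : 0 ≤ (m + 3) * z * (g0 * l ^ 2) := by (clear * - hm hz0 hg0; positivity)
  have h3 := mul_le_mul_of_nonneg_right hβ hW
  have hc00 : 0 ≤ c := by
    have hmi : 1 / (2 * m) ≤ 1 / 50 := by
      apply one_div_le_one_div_of_le <;> linarith only [hm]
    linarith only [hmi, hc0]
  have h4 : -(2 / s * φ) ≤ 2 * c / s * N := by
    have h5 : 0 ≤ 2 * c / s := by (clear * - hc00 hs0; positivity)
    have h6 := mul_le_mul_of_nonneg_left hN h5
    have h7 : 2 * c / s ≤ 2 / s := by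
      apply div_le_div_of_nonneg_right _ hs0.le
      linarith only [hc]
    have h8 := mul_le_mul_of_nonneg_right h7 hφ
    linarith only [h6, h8]
  have h8 := mul_le_mul_of_nonneg_right (pa_r hm hs0 hs hz0 hz hc0 hc).1 hl0
  linarith

end Vale.Agent.P237.AllN
end

section

/-!
# P237, block D, `l > 0`, `m z ≤ 1`: polynomial inequalities (kernel checked)
-/

namespace Vale.Agent.P237.AllN

open PolyPos

-- scale C = 2000000000
def paP2 : List (List (List ℤ)) :=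
  [[[0, 0, 97200000], [], [286920000], [], []],
  [[0, 0, 0, -147600000], [0, -96768000], [], [], []],
  [[0, 0, 243000000, 0, -72853625], [0, 0, -37738500], [762206220, 0, -915542350], [-200868900], [-2643176480]],
  [[0, 0, 0, -479138500, 0, 77305500], [0, -262219560, 0, -161807160], [0, -610888612, 0, 624052800], [0, -885674496], []],
  [[0, 0, 15090220, 0, 89814600], [0, 0, -71968512, 0, 198374400], [252943200, 0, 81840192], [12329856], [442837248]],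
  [[0, 0, 0, -67896000], [0, -44513280], [0, 35984256, 0, -99187200], [0, 14450688], []],
  [[], [], [22256640], [], [-3612672]]]

-- scale C = 500000000
def paPA : List (List (List ℤ)) :=
  [[[77310000, 0, 43470000], [], [], []],
  [[0, -24192000], [0, 0, 0, -42930000], [], []],
  [[204501555, 0, 108675000], [-52948575, 0, -14463645], [-731422080, 0, -356396145, 0, -36531950], []],
  [[0, -65554890], [0, -160693503, 0, -149536645], [0, -234476928, 0, -68618055], [0, 0, 0, 189578880, 0, 27797175]],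
  [[65802600, 0, 12590755], [3082464, 0, -17992128], [117238464, 0, 35171808, 0, 26122905], [0, 0, 0, 0, 57697920]],
  [[0, -11128320], [0, 8996064, 0, -19747800], [0, 3612672], [0, 0, 0, -28848960]],
  [[5564160], [], [-903168], []]]

-- scale C = 500000000
def paPB : List (List (List ℤ)) :=
  [[[43470000, 0, 77310000], [], [], []],
  [[0, -24192000], [-42930000], [], []],
  [[108675000, 0, 204501555], [0, -14463645, 0, -52948575], [-36531950, 0, -356396145, 0, -731422080], []],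
  [[0, -65554890], [-149536645, 0, -160693503], [0, -68618055, 0, -234476928], [27797175, 0, 189578880]],
  [[12590755, 0, 65802600], [0, -17992128, 0, 3082464], [26122905, 0, 35171808, 0, 117238464], [0, 57697920]],
  [[0, -11128320], [-19747800, 0, 8996064], [0, 0, 0, 3612672], [0, 0, -28848960]],
  [[0, 0, 5564160], [], [0, 0, 0, 0, -903168], []]]


set_option maxRecDepth 100000 in
theorem pa_poly2 {X l v : ℝ} (hX0 : 0 ≤ X) (hX : X ≤ 4 / 5) (hl0 : 2 / 5 ≤ l) (hl : l ≤ 1 / 2)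
    (hv0 : 0 ≤ v) (hv : v ≤ 4054 / 10000) :
    0 ≤ 9 / 10 * (l ^ 2 * (0.797 + 0.1344 * X ^ 2) + v ^ 2 * (0.27 - 0.41 * (v * X)) -
      0.2688 * (X * v * l)) * ((0.2 + 0.5 * X ^ 2 + 0.092 * X ^ 4) -
      X ^ 2 * (0.1217 * (v * X) + 0.0417 * l + l ^ 2 * (0.8456 - 0.1344 * X ^ 2) +
        0.2688 * (v * X * l) + 0.10475 * v ^ 2)) -
      X ^ 2 * (0.1217 * (v * X) + 0.0417 * l + l ^ 2 * (0.8456 - 0.1344 * X ^ 2) +
        0.2688 * (v * X * l) + 0.10475 * v ^ 2) ^ 2 := by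
  have h := check3_sound (A := 0) (B := 801) (D := 1000) (A' := 400) (B' := 501) (D' := 1000)
    (A'' := 0) (B'' := 406) (D'' := 1000) (by norm_num) (by norm_num) (by norm_num)
    (p := paP2) (by (clear * -; decide +kernel)) (x := X) (y := l) (z := v)
    (by push_cast; linarith only [hX0]) (by push_cast; linarith only [hX]) (by push_cast; linarith only [hl0])
    (by push_cast; linarith only [hl]) (by push_cast; linarith only [hv0]) (by push_cast; linarith only [hv])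
  have e : ev3 paP2 X l v = 2000000000 * (9 / 10 * (l ^ 2 * (0.797 + 0.1344 * X ^ 2) +
      v ^ 2 * (0.27 - 0.41 * (v * X)) -
      0.2688 * (X * v * l)) * ((0.2 + 0.5 * X ^ 2 + 0.092 * X ^ 4) -
      X ^ 2 * (0.1217 * (v * X) + 0.0417 * l + l ^ 2 * (0.8456 - 0.1344 * X ^ 2) +
        0.2688 * (v * X * l) + 0.10475 * v ^ 2)) -
      X ^ 2 * (0.1217 * (v * X) + 0.0417 * l + l ^ 2 * (0.8456 - 0.1344 * X ^ 2) +
        0.2688 * (v * X * l) + 0.10475 * v ^ 2) ^ 2) := by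
    simp only [ev3, ev2, ev1, paP2, evL]
    push_cast
    ring
  rw [e] at h
  exact nonneg_of_mul_nonneg_right h (by norm_num)

set_option maxRecDepth 100000 in
theorem pa_polyA {X l t : ℝ} (hX0 : 0 ≤ X) (hX : X ≤ 1) (hl0 : 0 ≤ l) (hl : l ≤ 2 / 5)
    (ht0 : 0 ≤ t) (ht : t ≤ 1) :
    0 ≤ 9 / 10 * ((0.859 + 0.1344 * X ^ 2) + t ^ 2 * (0.483 - 0.477 * (l * t * X)) -
      0.2688 * (X * t)) * ((0.2 + 0.5 * X ^ 2 + 0.092 * X ^ 4) -
      X ^ 2 * l * (0.1217 * (t * X) + 0.0417 + l * (0.8832 - 0.1344 * X ^ 2) +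
        0.2688 * (l * t * X) + 0.1295 * (l * t ^ 2))) -
      X ^ 2 * (0.1217 * (t * X) + 0.0417 + l * (0.8832 - 0.1344 * X ^ 2) +
        0.2688 * (l * t * X) + 0.1295 * (l * t ^ 2)) ^ 2 := by
  have h := check3_sound (A := 0) (B := 1001) (D := 1000) (A' := 0) (B' := 401) (D' := 1000)
    (A'' := 0) (B'' := 1001) (D'' := 1000) (by norm_num) (by norm_num) (by norm_num)
    (p := paPA) (by (clear * -; decide +kernel)) (x := X) (y := l) (z := t)
    (by push_cast; linarith only [hX0]) (by push_cast; linarith only [hX]) (by push_cast; linarith only [hl0])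
    (by push_cast; linarith only [hl]) (by push_cast; linarith only [ht0]) (by push_cast; linarith only [ht])
  have e : ev3 paPA X l t = 500000000 * (9 / 10 * ((0.859 + 0.1344 * X ^ 2) +
      t ^ 2 * (0.483 - 0.477 * (l * t * X)) -
      0.2688 * (X * t)) * ((0.2 + 0.5 * X ^ 2 + 0.092 * X ^ 4) -
      X ^ 2 * l * (0.1217 * (t * X) + 0.0417 + l * (0.8832 - 0.1344 * X ^ 2) +
        0.2688 * (l * t * X) + 0.1295 * (l * t ^ 2))) -
      X ^ 2 * (0.1217 * (t * X) + 0.0417 + l * (0.8832 - 0.1344 * X ^ 2) +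
        0.2688 * (l * t * X) + 0.1295 * (l * t ^ 2)) ^ 2) := by
    simp only [paPA, ev3, ev2, ev1, evL]
    push_cast
    ring
  rw [e] at h
  exact nonneg_of_mul_nonneg_right h (by norm_num)

set_option maxRecDepth 100000 in
theorem pa_polyB {X v t : ℝ} (hX0 : 0 ≤ X) (hX : X ≤ 1) (hv0 : 0 ≤ v) (hv : v ≤ 4084 / 10000)
    (ht0 : 0 ≤ t) (ht : t ≤ 1) :
    0 ≤ 9 / 10 * (t ^ 2 * (0.859 + 0.1344 * X ^ 2) + (0.483 - 0.477 * (v * X)) -
      0.2688 * (X * t)) * ((0.2 + 0.5 * X ^ 2 + 0.092 * X ^ 4) -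
      X ^ 2 * v * (0.1217 * X + 0.0417 * t + v * t ^ 2 * (0.8832 - 0.1344 * X ^ 2) +
        0.2688 * (v * t * X) + 0.1295 * v)) -
      X ^ 2 * (0.1217 * X + 0.0417 * t + v * t ^ 2 * (0.8832 - 0.1344 * X ^ 2) +
        0.2688 * (v * t * X) + 0.1295 * v) ^ 2 := by
  have h := check3_sound (A := 0) (B := 1001) (D := 1000) (A' := 0) (B' := 409) (D' := 1000)
    (A'' := 0) (B'' := 1001) (D'' := 1000) (by norm_num) (by norm_num) (by norm_num)
    (p := paPB) (by (clear * -; decide +kernel)) (x := X) (y := v) (z := t)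
    (by push_cast; linarith only [hX0]) (by push_cast; linarith only [hX]) (by push_cast; linarith only [hv0])
    (by push_cast; linarith only [hv]) (by push_cast; linarith only [ht0]) (by push_cast; linarith only [ht])
  have e : ev3 paPB X v t = 500000000 * (9 / 10 * (t ^ 2 * (0.859 + 0.1344 * X ^ 2) +
      (0.483 - 0.477 * (v * X)) -
      0.2688 * (X * t)) * ((0.2 + 0.5 * X ^ 2 + 0.092 * X ^ 4) -
      X ^ 2 * v * (0.1217 * X + 0.0417 * t + v * t ^ 2 * (0.8832 - 0.1344 * X ^ 2) +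
        0.2688 * (v * t * X) + 0.1295 * v)) -
      X ^ 2 * (0.1217 * X + 0.0417 * t + v * t ^ 2 * (0.8832 - 0.1344 * X ^ 2) +
        0.2688 * (v * t * X) + 0.1295 * v) ^ 2) := by
    simp only [paPB, ev3, ev2, ev1, evL]
    push_cast
    ring
  rw [e] at h
  exact nonneg_of_mul_nonneg_right h (by norm_num)

/-- the inequality on `X ≤ 1`, `l ≤ 2/5` -/
theorem pa_poly1 {X l v : ℝ} (hX0 : 0 ≤ X) (hX : X ≤ 1) (hl0 : 0 ≤ l) (hl : l ≤ 2 / 5)
    (hv0 : 0 ≤ v) (hv : v ≤ 4084 / 10000) :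
    0 ≤ 9 / 10 * (l ^ 2 * (0.859 + 0.1344 * X ^ 2) + v ^ 2 * (0.483 - 0.477 * (v * X)) -
      0.2688 * (X * v * l)) * ((0.2 + 0.5 * X ^ 2 + 0.092 * X ^ 4) -
      X ^ 2 * (0.1217 * (v * X) + 0.0417 * l + l ^ 2 * (0.8832 - 0.1344 * X ^ 2) +
        0.2688 * (v * X * l) + 0.1295 * v ^ 2)) -
      X ^ 2 * (0.1217 * (v * X) + 0.0417 * l + l ^ 2 * (0.8832 - 0.1344 * X ^ 2) +
        0.2688 * (v * X * l) + 0.1295 * v ^ 2) ^ 2 := by
  rcases le_total v l with h | h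
  · rcases hl0.eq_or_lt with h0 | h0
    · have hv' : v = 0 := by linarith only [hv0, h, h0]
      rw [← h0, hv']
      norm_num
    · have ht : v / l ≤ 1 := by rw [div_le_one h0]; exact h
      have ht0 : 0 ≤ v / l := by positivity
      have hp := pa_polyA hX0 hX hl0 hl ht0 ht
      have hv' : v = l * (v / l) := by field_simp
      generalize v / l = t at hp hv'
      subst hv'
      have := mul_nonneg (sq_nonneg l) hp
      linarith only [this]
  · rcases hv0.eq_or_lt with h0 | h0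
    · have hl' : l = 0 := by linarith only [hl0, h, h0]
      rw [← h0, hl']
      norm_num
    · have ht : l / v ≤ 1 := by rw [div_le_one h0]; exact h
      have ht0 : 0 ≤ l / v := by positivity
      have hp := pa_polyB hX0 hX hv0 hv ht0 ht
      have hl' : l = v * (l / v) := by field_simp
      generalize l / v = t at hp hl'
      subst hl'
      have := mul_nonneg (sq_nonneg v) hp
      linarith only [this]

end Vale.Agent.P237.AllN
end

section

/-!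
# P237, block D, region `l ≤ 0`, part 2: the bounds of `e - T` and of `e`
-/

set_option linter.all false

namespace Vale.Agent.P237.AllN
namespace FNeg


/-- `q ≤ qb` -/
theorem q_le {c σ : ℝ} (h : 1 ≤ σ) (hc2 : c ≤ 1) :
    2 * c * σ - 2 / σ ^ 2 + 2 * (1 - c) ≤ 2 * (σ - 1) + 2 * (1 - 1 / σ ^ 2) := by
  have e : 2 * (σ - 1) + 2 * (1 - 1 / σ ^ 2) - (2 * c * σ - 2 / σ ^ 2 + 2 * (1 - c)) = 2 * (1 - c) * (σ - 1) := by
    ring
  have : 0 ≤ 2 * (1 - c) * (σ - 1) := by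
    apply mul_nonneg <;> nlinarith only [h, hc2]
  linarith

theorem q_nonneg {c σ : ℝ} (h : 1 ≤ σ) (hc0 : 0 ≤ c) :
    0 ≤ 2 * c * σ - 2 / σ ^ 2 + 2 * (1 - c) := by
  have h1 : 1 / σ ^ 2 ≤ 1 := by
    rw [div_le_one (by positivity)]; nlinarith
  have e : 2 * c * σ - 2 / σ ^ 2 + 2 * (1 - c) = 2 * c * (σ - 1) + 2 * (1 - 1 / σ ^ 2) := by ring
  rw [e]
  have := mul_nonneg hc0 (by linarith only [h] : 0 ≤ σ - 1)
  linarith only [this, h1]

/-- `-r ≤ (σ-1)(σ-1+1/m)` -/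
theorem r_ge {m c σ y : ℝ} (hm : 15 ≤ m) (h : 1 ≤ σ) (hy : σ ^ 2 = 1 + y) (hc1 : 1 - 1 / (2 * m) ≤ c) :
    -(2 * c * σ - 2 + 2 * (1 - c) * (1 - m * y)) ≤ (σ - 1) * (σ - 1 + 1 / m) := by
  have hm0 : 0 < m := by linarith only [hm]
  have hy' : y = σ ^ 2 - 1 := by linarith only [hy]
  have h1 : 2 * (1 - c) * m ≤ 1 := by
    have : (1 - c) ≤ 1 / (2 * m) := by linarith only [hc1]
    have := mul_le_mul_of_nonneg_right this (by linarith only [hm] : 0 ≤ 2 * m)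
    rw [div_mul_cancel₀ _ (by positivity : 2 * m ≠ 0)] at this
    linarith only [this]
  have h2 : 2 * (1 - c) ≤ 1 / m := by
    rw [le_div_iff₀ hm0]; exact h1
  have h3 : 0 ≤ (σ - 1) := by linarith only [h]
  have e : -(2 * c * σ - 2 + 2 * (1 - c) * (1 - m * y))
      = -2 * (σ - 1) + 2 * (1 - c) * (σ - 1) + (2 * (1 - c) * m) * y := by ring
  rw [e]
  have hy0 : 0 ≤ y := by nlinarith only [h, hy]
  have h4 := mul_le_mul_of_nonneg_right h1 hy0
  have h5 := mul_le_mul_of_nonneg_right h2 h3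
  rw [hy'] at h4 ⊢
  linarith only [h5, h4]

/-- `r ≤ y` -/
theorem r_le {m c σ y : ℝ} (hm : 15 ≤ m) (h : 1 ≤ σ) (hy : σ ^ 2 = 1 + y) (hc2 : c ≤ 1) (hc0 : 0 ≤ c) :
    2 * c * σ - 2 + 2 * (1 - c) * (1 - m * y) ≤ y := by
  have hy0 : 0 ≤ y := by nlinarith only [h, hy]
  have h1 : 0 ≤ (1 - c) * (m * y) := by
    apply mul_nonneg (by linarith only [hc2]) (by nlinarith only [hy0, hm])
  linarith only [mul_nonneg (sub_nonneg.2 h) (sub_nonneg.2 h), mul_nonneg (sub_nonneg.2 hc2) (sub_nonneg.2 h), h1, hy]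

theorem cross_id {σ y a u : ℝ} (h : 1 ≤ σ) (hy : σ ^ 2 = 1 + y) (hu : -1 < u) :
    6 * y * σ * a * (u ^ 2 / (1 + u)) - 6 * y * (1 + 2 * y) / σ ^ 3 * a * u
       = -(6 * y * (1 + 2 * y) / σ ^ 3 * a * (u / (1 + u))) + 6 * (y / σ) ^ 3 * a * (u ^ 2 / (1 + u)) := by
  have hσ : 0 < σ := by linarith only [h]
  have e1 : 6 * y * σ - 6 * y * (1 + 2 * y) / σ ^ 3 = 6 * (y / σ) ^ 3 := by
    have : y = σ ^ 2 - 1 := by linarith only [hy]
    rw [this]; field_simp; ring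
  have e2 : 6 * y * (1 + 2 * y) / σ ^ 3 * a * u = 6 * y * (1 + 2 * y) / σ ^ 3 * a * (u / (1 + u) + u ^ 2 / (1 + u)) := by
    rw [← hW2 hu]
  rw [e2]
  linear_combination a * (u ^ 2 / (1 + u)) * e1

/-- `T` -/
noncomputable def Tf (m κ σ y a u E Cr N : ℝ) : ℝ :=
  (m + 3) * (y / σ ^ 2) * (E - 1 - 2 * a)
      + (4 * σ - 4 / (1 + σ) - 2 / σ ^ 2 + 4 * E / σ ^ 2 + 6 * y * σ * a) * (u ^ 2 / (1 + u))
      - 6 * y * (1 + 2 * y) / σ ^ 3 * a * u + 3 * (y / σ) ^ 3 * ((m - 3) * y - 7) * a ^ 2 + Cr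
      + κ * σ * N

/-- `e1` -/
noncomputable def ef (m c σ y a u E N : ℝ) : ℝ :=
  (m + 3) * (y / σ ^ 2) * (E - 1 - 2 * a) + 4 * E / σ ^ 2 * (u ^ 2 / (1 + u)) + 2 * c * σ * N
    + (2 * c * σ - 2 / σ ^ 2 + 2 * (1 - c)) * u
    - (2 * c * σ - 2 + 2 * (1 - c) * (1 - m * y)) * a

/-- `ρ` -/
noncomputable def rhof (m y : ℝ) : ℝ := 0.2 + 0.5 * (m * y) + 0.1 * (m * (m - 2) * y ^ 2)

theorem efTf {m c κ σ y a u E Cr N : ℝ} :
    ef m c σ y a u E N - Tf m κ σ y a u E Cr N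
      = (2 * c * σ - 2 / σ ^ 2 + 2 * (1 - c)) * u
        - (2 * c * σ - 2 + 2 * (1 - c) * (1 - m * y)) * a
        - (4 * σ - 4 / (1 + σ) - 2 / σ ^ 2) * (u ^ 2 / (1 + u))
        - (6 * y * σ * a * (u ^ 2 / (1 + u)) - 6 * y * (1 + 2 * y) / σ ^ 3 * a * u)
        - 3 * (y / σ) ^ 3 * ((m - 3) * y - 7) * a ^ 2 - Cr - (κ - 2 * c) * σ * N := by
  unfold ef Tf; ring

/-- `B ≥ -Pb`, `u ≥ 0` -/
theorem Bpos {m c κ σ y a u E Cr N cc φ : ℝ} (hm : 15 ≤ m) (h : 1 ≤ σ) (hy : σ ^ 2 = 1 + y)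
    (ha : 0 ≤ a) (hu : 0 ≤ u)
    (hφ : φ ≤ u ^ 2 / (2 + u)) (hK : 0 ≤ κ - 2 * c)
    (hc1 : 1 - 1 / (2 * m) ≤ c) (hc2 : c ≤ 1)
    (hCr : -(cc * a ^ 2) ≤ Cr) (hN : -φ ≤ N) :
    -(Tf m κ σ y a u E Cr N - ef m c σ y a u E N) ≤
      (u / (1 + u)) * ((2 * (σ - 1) + 2 * (1 - 1 / σ ^ 2)) * (2 / (2 + u)) + (κ - 2 * c) * σ * (u * (1 + u) / (2 + u)))
      + a * (6 * y * (1 + 2 * y) / σ ^ 3 * (u / (1 + u)) + (cc + 3 * (y / σ) ^ 3 * (7 - (m - 3) * y)) * a
        + (σ - 1) * (σ - 1 + 1 / m)) := by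
  have hσ : 0 < σ := by linarith only [h]
  have hy0 : 0 ≤ y := by nlinarith only [h, hy]
  have h0 := @efTf m c κ σ y a u E Cr N
  have h1 : ef m c σ y a u E N - Tf m κ σ y a u E Cr N = -(Tf m κ σ y a u E Cr N - ef m c σ y a u E N) := by ring
  rw [← h1, h0, cross_id h hy (by linarith only [hu])]
  have hq := mul_le_mul_of_nonneg_right (q_le h hc2) hu
  have hr := mul_le_mul_of_nonneg_right (r_ge hm h hy hc1) ha
  have hWp : 0 ≤ u ^ 2 / (1 + u) := by (clear * - hu; positivity)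
  have hC := mul_le_mul_of_nonneg_right (sC0 h) hWp
  have hNN : -((κ - 2 * c) * σ * N) ≤ (κ - 2 * c) * σ * (u ^ 2 / (2 + u)) := by
    have := mul_le_mul_of_nonneg_left (show -N ≤ u ^ 2 / (2 + u) by linarith only [hN, hφ]) (mul_nonneg hK hσ.le)
    linarith only [this]
  have h3 : 0 ≤ 6 * (y / σ) ^ 3 * a * (u ^ 2 / (1 + u)) := by (clear * - hy0 h ha hu; positivity)
  set qb := 2 * (σ - 1) + 2 * (1 - 1 / σ ^ 2) with hqb
  have hqb0 : 0 ≤ qb := by
    have : 1 / σ ^ 2 ≤ 1 := by rw [div_le_one (by positivity)]; linarith only [hy0, hy]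
    rw [hqb]; linarith only [this, h]
  have h4 : qb * u - 1.5 * qb * (u ^ 2 / (1 + u)) ≤ (u / (1 + u)) * (qb * (2 / (2 + u))) := by
    have e : (u / (1 + u)) * (qb * (2 / (2 + u))) - (qb * u - 1.5 * qb * (u ^ 2 / (1 + u)))
        = qb * (u * (u ^ 2 / 2)) / ((1 + u) * (2 + u)) := by
      field_simp; ring
    have : 0 ≤ qb * (u * (u ^ 2 / 2)) / ((1 + u) * (2 + u)) := by (clear * - hqb0 hu; positivity)
    (clear * - e this; linarith)
  have h5 : (κ - 2 * c) * σ * (u ^ 2 / (2 + u)) = (u / (1 + u)) * ((κ - 2 * c) * σ * (u * (1 + u) / (2 + u))) := by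
    (clear * - hu h; field_simp)
  have e6 : (u / (1 + u)) * (qb * (2 / (2 + u)) + (κ - 2 * c) * σ * (u * (1 + u) / (2 + u)))
      = (u / (1 + u)) * (qb * (2 / (2 + u))) + (κ - 2 * c) * σ * (u ^ 2 / (2 + u)) := by
    rw [h5]; ring
  rw [e6]
  have e7 : a * (6 * y * (1 + 2 * y) / σ ^ 3 * (u / (1 + u)) + (cc + 3 * (y / σ) ^ 3 * (7 - (m - 3) * y)) * a
        + (σ - 1) * (σ - 1 + 1 / m))
      = 6 * y * (1 + 2 * y) / σ ^ 3 * a * (u / (1 + u)) + cc * a ^ 2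
        - 3 * (y / σ) ^ 3 * ((m - 3) * y - 7) * a ^ 2 + (σ - 1) * (σ - 1 + 1 / m) * a := by ring
  rw [e7]
  linarith only [hCr, hr, hNN, h3, hq, hC, h4]

theorem q_low {c σ : ℝ} (h : 1 ≤ σ) (hc : 29 / 30 ≤ c) :
    29 / 15 * (σ - 1) + 2 * (1 - 1 / σ ^ 2) ≤ 2 * c * σ - 2 / σ ^ 2 + 2 * (1 - c) := by
  have e : 2 * c * σ - 2 / σ ^ 2 + 2 * (1 - c) = 2 * c * (σ - 1) + 2 * (1 - 1 / σ ^ 2) := by ring
  rw [e]
  linarith only [mul_nonneg (sub_nonneg.2 hc) (sub_nonneg.2 h)]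

theorem keyneg1 {K m σ y u q : ℝ} (hm : 15 ≤ m) (h : 1 ≤ σ) (hy : σ ^ 2 = 1 + y)
    (hu : u ≤ 0) (hu3 : -(m * y / 2) ≤ u)
    (hK : 0 ≤ K) (hK2 : K * m ≤ 5.286) (hy2 : y ≤ 2 / 15)
    (hq : 29 / 15 * (σ - 1) + 2 * (1 - 1 / σ ^ 2) ≤ q) : K * σ / 2 * (-u) ≤ q := by
  have hσ : 0 < σ := by (clear * - h; linarith)
  have hy0 : 0 ≤ y := by (by_contra nlg; linarith only [nlg, mul_nonneg (le_of_lt (sub_pos.2 (not_le.1 nlg))) (sub_nonneg.2 hm), hu3, hu])
  have g1 : K * (-u) ≤ 2.643 * y := by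
    have g1a : K * (-u) ≤ K * (m * y / 2) :=
      mul_le_mul_of_nonneg_left (by linarith only [hu3]) hK
    have g2 : K * (m * y / 2) = (K * m) * (y / 2) := by ring
    rw [g2] at g1a
    have g2b := mul_le_mul_of_nonneg_right hK2 (by linarith only [hy0] : 0 ≤ y / 2)
    linarith only [g2b, g1a]
  have g3 : K * σ / 2 * (-u) ≤ 1.3215 * y * σ := by
    have := mul_le_mul_of_nonneg_right g1 hσ.le
    linarith only [this]
  have hσ2 : σ ≤ 1.07 := by nlinarith only [hy, hy2]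
  have g4 : 1 - 1 / σ ^ 2 = y / σ ^ 2 := by
    have : y = σ ^ 2 - 1 := by linarith only [hy]
    rw [this]; (clear * - h; field_simp)
  have g5 : y / 1.134 ≤ y / σ ^ 2 := by
    apply div_le_div_of_nonneg_left hy0 (by positivity) (by linarith only [hy, hy2])
  have g6 : 1.3215 * y * σ ≤ 1.42 * y := by
    have := mul_le_mul_of_nonneg_left hσ2 (by positivity : 0 ≤ 1.3215 * y)
    linarith only [this, hy0]
  have g8 : y / 1.134 = y * (1 / 1.134) := by ring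
  have g9 : (0.88 : ℝ) ≤ 1 / 1.134 := by norm_num
  have g10 := mul_le_mul_of_nonneg_left g9 hy0
  rw [g4] at hq
  linarith only [g8, g6, g5, g3, hy0, hq, h]

theorem keyneg2 {K m σ y u q : ℝ} (hm : 15 ≤ m) (h : 1 ≤ σ) (hy : σ ^ 2 = 1 + y)
    (hu : u ≤ 0) (hu1 : -1 < u)
    (hK : 0 ≤ K) (hK2 : K * m ≤ 5.286) (hy2 : 2 / 15 ≤ y)
    (hq : 29 / 15 * (σ - 1) + 2 * (1 - 1 / σ ^ 2) ≤ q) : K * σ / 2 * (-u) ≤ q := by
  have hσ : 0 < σ := by linarith only [h]
  have g0 : K ≤ 0.3524 := by nlinarith only [hK2, hm]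
  have g1 : K * (-u) ≤ 0.3524 := by
    have := mul_le_mul_of_nonneg_left (by linarith only [hu1] : -u ≤ 1) hK
    linarith only [g0, this]
  have g3 : K * σ / 2 * (-u) ≤ 0.1762 * σ := by
    have := mul_le_mul_of_nonneg_right g1 hσ.le
    linarith only [this]
  have g4 : 1 / σ ^ 2 ≤ 15 / 17 := by
    rw [div_le_div_iff₀ (by positivity) (by norm_num)]; linarith only [hy, hy2]
  have g5 : 1.06 ≤ σ := by nlinarith only [hy, hy2, h]
  linarith only [hq, g3, g4, g5]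

theorem keyneg {K m σ y u q : ℝ} (hm : 15 ≤ m) (h : 1 ≤ σ) (hy : σ ^ 2 = 1 + y)
    (hu : u ≤ 0) (hu1 : -1 < u) (hu3 : -(m * y / 2) ≤ u)
    (hK : 0 ≤ K) (hK2 : K * m ≤ 5.286)
    (hq : 29 / 15 * (σ - 1) + 2 * (1 - 1 / σ ^ 2) ≤ q) : K * σ / 2 * (-u) ≤ q := by
  rcases le_total y (2 / 15) with hy2 | hy2
  · exact keyneg1 hm h hy hu hu3 hK hK2 hy2 hq
  · exact keyneg2 hm h hy hu hu1 hK hK2 hy2 hq

theorem finneg {K σ u q qb : ℝ} (hu : u ≤ 0) (hu1 : -1 < u) (hq0 : 0 ≤ q) (hqb : q ≤ qb)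
    (hkey : K * σ / 2 * (-u) ≤ q) :
    K * σ * (u ^ 2 / (1 + u) / 2) ≤ -(q * u) + 1.5 * qb * (u ^ 2 / (1 + u)) := by
  have hU : 0 < 1 + u := by linarith only [hu1]
  have hU' : (1 + u) ≠ 0 := hU.ne'
  have e3 : -(q * u) + 1.5 * qb * (u ^ 2 / (1 + u)) - K * σ * (u ^ 2 / (1 + u) / 2)
      = (-u) / (1 + u) * (q * (1 + u) + 1.5 * qb * (-u) - K * σ / 2 * (-u)) := by
    field_simp
    ring
  have h7 : 0 ≤ (-u) / (1 + u) := div_nonneg (by linarith only [hu]) hU.le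
  have h8 : 0 ≤ q * (1 + u) + 1.5 * qb * (-u) - K * σ / 2 * (-u) := by
    have := mul_nonneg (by linarith only [hu] : 0 ≤ -u) (sub_nonneg.2 hqb)
    have := mul_nonneg (by linarith only [hu] : 0 ≤ -u) hq0
    (clear hu1 hU hU' e3 h7; nlinarith)
  have := mul_nonneg h7 h8
  linarith only [e3, this]

/-- `B ≥ -Pb`, `u ≤ 0` -/
theorem Bneg {m c κ σ y a u E Cr N cc φ : ℝ} (hm : 15 ≤ m) (h : 1 ≤ σ) (hy : σ ^ 2 = 1 + y)
    (ha : 0 ≤ a) (hu : u ≤ 0) (hu1 : -1 < u) (hu3 : -(m * y / 2) ≤ u)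
    (hφ : φ ≤ u ^ 2 / (1 + u) / 2) (hK : 0 ≤ κ - 2 * c) (hK2 : (κ - 2 * c) * m ≤ 5.286)
    (hc1 : 1 - 1 / (2 * m) ≤ c) (hc2 : c ≤ 1)
    (hCr : -(cc * a ^ 2) ≤ Cr) (hN : -φ ≤ N) :
    -(Tf m κ σ y a u E Cr N - ef m c σ y a u E N) ≤
      a * ((cc + 3 * (y / σ) ^ 3 * (7 - (m - 3) * y)) * a + (σ - 1) * (σ - 1 + 1 / m)) := by
  have hσ : 0 < σ := by linarith only [h]
  have hy0 : 0 ≤ y := by (by_contra nlg; linarith only [nlg, mul_nonneg (le_of_lt (sub_pos.2 (not_le.1 nlg))) (sub_nonneg.2 hm), hu3, hu])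
  have hU : 0 < 1 + u := by linarith only [hu1]
  have hm0 : 0 < m := by linarith only [hm]
  have h0 := @efTf m c κ σ y a u E Cr N
  have h1 : ef m c σ y a u E N - Tf m κ σ y a u E Cr N = -(Tf m κ σ y a u E Cr N - ef m c σ y a u E N) := by ring
  rw [← h1, h0]
  have hr := mul_le_mul_of_nonneg_right (r_ge hm h hy hc1) ha
  have hWp : 0 ≤ u ^ 2 / (1 + u) := by (clear * - hU; positivity)
  have hC := mul_le_mul_of_nonneg_right (sC0 h) hWp
  have h3 : 0 ≤ 6 * y * σ * a * (u ^ 2 / (1 + u)) := by (clear * - hy0 h ha hU; positivity)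
  have h3' : 0 ≤ -(6 * y * (1 + 2 * y) / σ ^ 3 * a * u) := by
    have := mul_nonneg (by (clear * - hy0 h ha; positivity) : 0 ≤ 6 * y * (1 + 2 * y) / σ ^ 3 * a) (by linarith only [hu] : 0 ≤ -u)
    linarith only [this]
  have hNN : -((κ - 2 * c) * σ * N) ≤ (κ - 2 * c) * σ * (u ^ 2 / (1 + u) / 2) := by
    have := mul_le_mul_of_nonneg_left (show -N ≤ u ^ 2 / (1 + u) / 2 by linarith only [hφ, hN]) (mul_nonneg hK hσ.le)
    linarith only [this]
  have hc29 : 29 / 30 ≤ c := by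
    have : 1 / (2 * m) ≤ 1 / 30 := by
      apply div_le_div_of_nonneg_left (by norm_num) (by norm_num) (by linarith only [hm])
    linarith only [hc1, this]
  have hqb := q_le h hc2
  have hqlow := q_low h hc29
  have hq0 := q_nonneg h (by linarith only [hc29] : 0 ≤ c)
  have hkey := keyneg hm h hy hu hu1 hu3 hK hK2 hqlow
  have hfin := finneg (K := κ - 2 * c) (σ := σ) hu hu1 hq0 hqb hkey
  generalize 2 * c * σ - 2 / σ ^ 2 + 2 * (1 - c) = q at *
  generalize 2 * (σ - 1) + 2 * (1 - 1 / σ ^ 2) = qb at *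
  have e7 : a * ((cc + 3 * (y / σ) ^ 3 * (7 - (m - 3) * y)) * a + (σ - 1) * (σ - 1 + 1 / m))
      = cc * a ^ 2 - 3 * (y / σ) ^ 3 * ((m - 3) * y - 7) * a ^ 2 + (σ - 1) * (σ - 1 + 1 / m) * a := by ring
  rw [e7]
  generalize (σ - 1) * (σ - 1 + 1 / m) * a = X1 at *
  generalize 3 * (y / σ) ^ 3 * ((m - 3) * y - 7) * a ^ 2 = X2 at *
  linarith only [hr, hfin, hC, hNN, h3', h3, hCr]

/-- `2cσφ ≤ qu + 4W/σ²` for `u ≥ 0` -/
theorem epos {c σ u : ℝ} (h : 1 ≤ σ) (hc0 : 0 ≤ c) (hc2 : c ≤ 1) (hu : 0 ≤ u) :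
    2 * c * σ * (u ^ 2 / (2 + u)) ≤
      4 / σ ^ 2 * (u ^ 2 / (1 + u)) + (2 * c * σ - 2 / σ ^ 2 + 2 * (1 - c)) * u := by
  have hσ : 0 < σ := by linarith
  have h1u : (1 + u) ≠ 0 := by linarith
  have h2u : (2 + u) ≠ 0 := by linarith only [hu]
  have e : 4 / σ ^ 2 * (u ^ 2 / (1 + u)) + (2 * c * σ - 2 / σ ^ 2 + 2 * (1 - c)) * u
      - 2 * c * σ * (u ^ 2 / (2 + u))
      = u * (c * (4 * σ / (2 + u) - 2) + 2 - 2 / σ ^ 2 + 4 / σ ^ 2 * (u / (1 + u))) := by
    field_simp; ring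
  have hz : 1 / σ ^ 2 ≤ 1 := by rw [div_le_one (by positivity)]; nlinarith only [h]
  have hz2 : 2 / σ ^ 2 = 2 * (1 / σ ^ 2) := by ring
  have h3 : 0 ≤ c * (4 * σ / (2 + u) - 2) + 2 - 2 / σ ^ 2 + 4 / σ ^ 2 * (u / (1 + u)) := by
    have h4 : 0 ≤ 4 / σ ^ 2 * (u / (1 + u)) := by (clear * - h hu; positivity)
    rcases le_total 0 (4 * σ / (2 + u) - 2) with h5 | h5
    · have := mul_nonneg hc0 h5
      linarith only [hz, hz2, h4, this]
    · have h6 : 4 * σ / (2 + u) - 2 ≤ c * (4 * σ / (2 + u) - 2) := by linarith only [mul_nonneg (sub_nonneg.2 hc2) (sub_nonneg.2 h5)]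
      have h7 : 1 / σ ^ 2 * (4 / (2 + u)) ≤ 4 * σ / (2 + u) := by
        have : 1 / σ ^ 2 * (4 / (2 + u)) ≤ 1 * (4 / (2 + u)) :=
          mul_le_mul_of_nonneg_right hz (by positivity)
        have : 4 / (2 + u) ≤ 4 * σ / (2 + u) := by gcongr; linarith only [h]
        (clear c hc0 hc2 hσ h1u h2u e hz2 h4 h5 h6; linarith)
      have h8 : 0 ≤ 1 / σ ^ 2 * (4 / (2 + u) - 2 + 4 * (u / (1 + u))) := by
        apply mul_nonneg (by (clear * - h; positivity))
        have : 4 / (2 + u) - 2 + 4 * (u / (1 + u)) = (2 * u * (3 + u)) / ((2 + u) * (1 + u)) := by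
          field_simp; ring
        rw [this]; (clear * - hu; positivity)
      have e8 : 1 / σ ^ 2 * (4 / (2 + u) - 2 + 4 * (u / (1 + u)))
         = 1 / σ ^ 2 * (4 / (2 + u)) - 2 / σ ^ 2 + 4 / σ ^ 2 * (u / (1 + u)) := by ring
      rw [e8] at h8
      linarith only [h8, h7, h6]
  have := mul_nonneg hu h3
  linarith only [this, e]

theorem Apos {m c σ y a u E N φ : ℝ} (hm : 15 ≤ m) (h : 1 ≤ σ) (hy : σ ^ 2 = 1 + y)
    (ha : 0 ≤ a) (hu : 0 ≤ u)
    (hE : 1 + 2 * a + 2 * a ^ 2 + 4 / 3 * a ^ 3 + 2 / 3 * a ^ 4 ≤ E)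
    (hφ : φ ≤ u ^ 2 / (2 + u)) (hc0 : 0 ≤ c) (hc2 : c ≤ 1) (hN : -φ ≤ N) :
    -(ef m c σ y a u E N) ≤ y * a := by
  have hσ : 0 < σ := by linarith only [h]
  have hy0 : 0 ≤ y := by nlinarith only [h, hy]
  have h1 : 0 ≤ (m + 3) * (y / σ ^ 2) * (E - 1 - 2 * a) := by
    have : 0 ≤ 2 * a ^ 2 + 4 / 3 * a ^ 3 + 2 / 3 * a ^ 4 := by (clear * - ha; positivity)
    have : 0 ≤ E - 1 - 2 * a := by linarith
    have : 0 ≤ m + 3 := by linarith only [hm]
    (clear c u N φ hu hφ hc0 hc2 hN hσ this; positivity)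
  have hWp : 0 ≤ u ^ 2 / (1 + u) := by positivity
  have h5 : 4 / σ ^ 2 * (u ^ 2 / (1 + u)) ≤ 4 * E / σ ^ 2 * (u ^ 2 / (1 + u)) := by
    apply mul_le_mul_of_nonneg_right _ hWp
    apply div_le_div_of_nonneg_right _ (by positivity)
    have : 0 ≤ 2 * a + 2 * a ^ 2 + 4 / 3 * a ^ 3 + 2 / 3 * a ^ 4 := by (clear * - ha; positivity)
    linarith only [hE, this]
  have h6 := epos h hc0 hc2 hu
  have h7 := mul_le_mul_of_nonneg_right (r_le hm h hy hc2 hc0) ha
  have h8 : -(2 * c * σ * N) ≤ 2 * c * σ * (u ^ 2 / (2 + u)) := by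
    have := mul_le_mul_of_nonneg_left (show -N ≤ u ^ 2 / (2 + u) by linarith only [hφ, hN]) (by (clear * - hc0 h; positivity) : 0 ≤ 2 * c * σ)
    linarith only [this]
  unfold ef
  linarith

/-- general lower bound of `e`, `u ≤ 0` -/
theorem Aneg0 {m c σ y a u E N φ : ℝ} (hm : 15 ≤ m) (h : 1 ≤ σ) (hy : σ ^ 2 = 1 + y)
    (ha : 0 ≤ a) (hu : u ≤ 0) (hu1 : -1 < u)
    (hE : 1 + 2 * a + 2 * a ^ 2 + 4 / 3 * a ^ 3 + 2 / 3 * a ^ 4 ≤ E)
    (hc0 : 0 ≤ c) (hc2 : c ≤ 1) (hN : -φ ≤ N) (hφ0 : 0 ≤ φ) :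
    -(ef m c σ y a u E N) ≤ (2 * (σ - 1) + 2 * (1 - 1 / σ ^ 2)) * (-u) + y * a
      + (2 * σ * φ - 4 / σ ^ 2 * (u ^ 2 / (1 + u))) := by
  have hσ : 0 < σ := by linarith only [h]
  have hy0 : 0 ≤ y := by nlinarith only [h, hy]
  have hU : 0 < 1 + u := by linarith only [hu1]
  have h1 : 0 ≤ (m + 3) * (y / σ ^ 2) * (E - 1 - 2 * a) := by
    have : 0 ≤ 2 * a ^ 2 + 4 / 3 * a ^ 3 + 2 / 3 * a ^ 4 := by (clear * - ha; positivity)
    have : 0 ≤ E - 1 - 2 * a := by linarith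
    have : 0 ≤ m + 3 := by linarith only [hm]
    (clear c u N φ hu hu1 hc0 hc2 hN hφ0 hσ hU this; positivity)
  have hWp : 0 ≤ u ^ 2 / (1 + u) := by (clear * - hU; positivity)
  have h5 : 4 / σ ^ 2 * (u ^ 2 / (1 + u)) ≤ 4 * E / σ ^ 2 * (u ^ 2 / (1 + u)) := by
    apply mul_le_mul_of_nonneg_right _ hWp
    apply div_le_div_of_nonneg_right _ (by positivity)
    have : 0 ≤ 2 * a + 2 * a ^ 2 + 4 / 3 * a ^ 3 + 2 / 3 * a ^ 4 := by (clear * - ha; positivity)
    (clear * - hE this; linarith)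
  have h7 := mul_le_mul_of_nonneg_right (r_le hm h hy hc2 hc0) ha
  have h8 : -(2 * c * σ * N) ≤ 2 * σ * φ := by
    have g1 := mul_le_mul_of_nonneg_left (show -N ≤ φ by linarith only [hN]) (by (clear * - hc0 h; positivity) : 0 ≤ 2 * c * σ)
    have g2 : 2 * c * σ * φ ≤ 2 * σ * φ := by
      have : 0 ≤ σ * φ := by (clear * - h hφ0; positivity)
      linarith only [mul_nonneg (sub_nonneg.2 hc2) (sub_nonneg.2 this)]
    linarith only [g1, g2]
  have h9 := mul_le_mul_of_nonneg_right (q_le h hc2) (by linarith only [hu] : 0 ≤ -u)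
  unfold ef
  linarith only [h9, h8, h7, h5, h1]

/-- `ρ` lower bound -/
theorem rho_low {m y : ℝ} (hm : 15 ≤ m) (hy0 : 0 ≤ y) :
    0.2 + 0.5 * (m * y) + 13 / 150 * (m * y) ^ 2 ≤ rhof m y := by
  unfold rhof
  have : 13 / 150 * (m * y) ^ 2 ≤ 0.1 * (m * (m - 2) * y ^ 2) := by
    have : 0.1 * (m * (m - 2) * y ^ 2) - 13 / 150 * (m * y) ^ 2 = (m * (m - 15) / 75) * y ^ 2 := by ring
    have : 0 ≤ (m * (m - 15) / 75) * y ^ 2 := by
      have : 0 ≤ m - 15 := by linarith only [hm]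
      have : 0 ≤ m := by linarith only [hm]
      (clear * - hm; positivity)
    linarith only [this]
  (clear * - this; linarith)

theorem a_bound {m a : ℝ} (hm : 15 ≤ m) (ha2 : a ^ 2 ≤ 0.174 * m) : a ≤ 0.10771 * m := by
  have : a ^ 2 ≤ (0.10771 * m) ^ 2 := by nlinarith
  by_contra hcon
  push Not at hcon
  nlinarith only [hm, ha2, hcon]
end FNeg
end Vale.Agent.P237.AllN
end

section

/-!
# P237, block D, region `l ≤ 0`: the correction term
-/

set_option linter.all false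

open Set Real

namespace Vale.Agent.P237.AllN
namespace FNeg

theorem corr_poly {s S : ℝ} (hs : 0 < s) (hsS : s ≤ S) (hS : S ≤ 1) :
    2 * s ^ 2 * (1 + s) * (1 + s + S * (1 - s)) ≤ (S + s) * (S * (1 + S)) * (1 + 2 * s - s ^ 2) := by
  have hA : 0 < 1 + 2 * s - s ^ 2 := by nlinarith
  have h1 : s * (1 + s + S * (1 - s)) ≤ S * (1 + 2 * s - s ^ 2) := by
    have : 0 ≤ (S - s) * (1 + s) := mul_nonneg (by linarith only [hsS]) (by linarith only [hs])
    linarith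
  have h2 : 2 * s ^ 2 * (1 + s) * (1 + s + S * (1 - s)) ≤ 2 * s * (1 + s) * (S * (1 + 2 * s - s ^ 2)) := by
    have := mul_le_mul_of_nonneg_left h1 (by positivity : 0 ≤ 2 * s * (1 + s))
    linarith
  have h3 : 2 * s * (1 + s) ≤ (S + s) * (1 + S) := by
    apply mul_le_mul (by linarith only [hsS]) (by linarith only [hsS]) (by linarith only [hs]) (by linarith only [hs, hsS])
  have h4 := mul_le_mul_of_nonneg_right h3 (mul_nonneg (by linarith only [hs, hsS]) hA.le : 0 ≤ S * (1 + 2 * s - s ^ 2))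
  linarith only [h2, h4]

theorem corr_alg {s S z : ℝ} (hs : 0 < s) (hsS : s ≤ S) (hS : S ≤ 1) :
    (1 - s) / (s * (1 + s)) - (1 - S) / (S * (1 + S)) ≤
      (1 + 2 * s - s ^ 2) / (s ^ 3 * (1 + s) ^ 2) * ((S ^ 2 - s ^ 2) / 2) := by
  have hS0 : 0 < S := by linarith
  have h := corr_poly hs hsS hS
  have e1 : (1 - s) / (s * (1 + s)) - (1 - S) / (S * (1 + S))
      = (S - s) * (1 + s + S * (1 - s)) / (s * (1 + s) * (S * (1 + S))) := by
    field_simp; ring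
  have e2 : (1 + 2 * s - s ^ 2) / (s ^ 3 * (1 + s) ^ 2) * ((S ^ 2 - s ^ 2) / 2)
      = (S - s) * ((S + s) * (1 + 2 * s - s ^ 2)) / (2 * s ^ 3 * (1 + s) ^ 2) := by
    field_simp; ring
  rw [e1, e2, div_le_div_iff₀ (by positivity) (by positivity)]
  have h2 := mul_le_mul_of_nonneg_left h (mul_nonneg (by linarith only [hsS] : 0 ≤ S - s) (by (clear * - hs; positivity) : 0 ≤ s * (1 + s)))
  linarith only [h2]

/-- derivative bound -/
theorem corr_der {x l : ℝ} (hx0 : 0 < x) (hx1 : x < 1) (hl : l ≤ 0) :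
    2 * (-(x * exp l) ^ 2 / (sq (x * exp l) * (1 + sq (x * exp l)) ^ 2) +
      x ^ 2 / (sq x * (1 + sq x) ^ 2)) +
      2 * (x ^ 2 * (1 + 2 * sq x - sq x ^ 2) / (sq x ^ 3 * (1 + sq x) ^ 2)) * l ≤ 0 := by
  have he : exp l ≤ 1 := exp_le_one_iff.2 hl
  have hτ0 : 0 < x * exp l := by (clear * - hx0; positivity)
  have hτx : x * exp l ≤ x := by linarith only [mul_nonneg (le_of_lt (sub_pos.2 hx0)) (sub_nonneg.2 he)]
  have hτ1 : x * exp l < 1 := by linarith only [hx1, hτx]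
  set τ := x * exp l with hτ
  have hs2 : sq x ^ 2 = 1 - x ^ 2 := br_sq_sq ⟨by linarith only [hx0], hx1.le⟩
  have hS2 : sq τ ^ 2 = 1 - τ ^ 2 := br_sq_sq ⟨by linarith only [hτ0], hτ1.le⟩
  have hs0 : 0 < sq x := br_sq_pos ⟨by linarith only [hx0], hx1⟩
  have hS0 : 0 < sq τ := br_sq_pos ⟨by linarith only [hτ0], hτ1⟩
  have hS1 : sq τ ≤ 1 := br_sq_le_one τ
  have hsS : sq x ≤ sq τ := by
    by_contra hcon
    push Not at hcon
    nlinarith only [hs2, hS2, hτ0, hτx, hcon, hS0]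
  have hlog : (x ^ 2 - τ ^ 2) / (2 * x ^ 2) ≤ -l := by
    have h1 : exp (2 * l) = (τ / x) ^ 2 := by
      rw [hτ]
      have : exp (2 * l) = exp l ^ 2 := by rw [← exp_nat_mul]; norm_num
      rw [this]; (clear * - hx0; field_simp)
    have h2 := add_one_le_exp (2 * l)
    rw [h1] at h2
    have h3 : (x ^ 2 - τ ^ 2) / (2 * x ^ 2) = (1 - (τ / x) ^ 2) / 2 := by (clear * - hx0; field_simp)
    rw [h3]; linarith only [h2]
  generalize sq x = s at *
  generalize sq τ = S at *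
  have ha := corr_alg (z := 0) hs0 hsS hS1
  have e1 : -τ ^ 2 / (S * (1 + S) ^ 2) = -((1 - S) / (S * (1 + S))) := by
    have : τ ^ 2 = (1 - S) * (1 + S) := by linarith only [hS2]
    rw [neg_div, this]; (clear * - hS0; field_simp)
  have e2 : x ^ 2 / (s * (1 + s) ^ 2) = (1 - s) / (s * (1 + s)) := by
    have : x ^ 2 = (1 - s) * (1 + s) := by linarith only [hs2]
    rw [this]; (clear * - hs0; field_simp)
  rw [e1, e2]
  have hA : 0 < 1 + 2 * s - s ^ 2 := by nlinarith only [hs2, hs0]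
  have h5 := mul_le_mul_of_nonneg_left hlog (by (clear * - hx0 hA hs0; positivity) : 0 ≤ x ^ 2 * (1 + 2 * s - s ^ 2) / (s ^ 3 * (1 + s) ^ 2))
  have e3 : x ^ 2 * (1 + 2 * s - s ^ 2) / (s ^ 3 * (1 + s) ^ 2) * ((x ^ 2 - τ ^ 2) / (2 * x ^ 2))
      = (1 + 2 * s - s ^ 2) / (s ^ 3 * (1 + s) ^ 2) * ((S ^ 2 - s ^ 2) / 2) := by
    have : x ^ 2 - τ ^ 2 = S ^ 2 - s ^ 2 := by linarith only [hs2, hS2]
    rw [this]; (clear * - hx0 hs0 hA; field_simp)
  rw [e3] at h5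
  linarith only [h5, ha]

/-- **the correction term**, `l ≤ 0` -/
theorem corr_ge {x l : ℝ} (hx0 : 0 < x) (hx1 : x < 1) (hl : l ≤ 0) :
    -(x ^ 2 * (1 + 2 * sq x - sq x ^ 2) / (sq x ^ 3 * (1 + sq x) ^ 2) * l ^ 2) ≤
      2 * (bg (x * exp l) - bg x + x ^ 2 * l / (sq x * (1 + sq x) ^ 2)) := by
  have hs0 : 0 < sq x := br_sq_pos ⟨by linarith only [hx0], hx1⟩
  set A := x ^ 2 / (sq x * (1 + sq x) ^ 2) with hA
  set C := x ^ 2 * (1 + 2 * sq x - sq x ^ 2) / (sq x ^ 3 * (1 + sq x) ^ 2) with hC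
  have hd : ∀ y : ℝ, y ≤ 0 → HasDerivAt (fun y => 2 * (bg (x * exp y) - bg x + A * y) + C * y ^ 2)
      (2 * (-(x * exp y) ^ 2 / (sq (x * exp y) * (1 + sq (x * exp y)) ^ 2) + A) + 2 * C * y) y := by
    intro y hy
    have he : exp y ≤ 1 := exp_le_one_iff.2 hy
    have hτ0 : 0 < x * exp y := by positivity
    have hτ1 : x * exp y < 1 := by nlinarith only [hx1, hx0, he]
    have h1 : HasDerivAt (fun y => x * exp y) (x * exp y) y := (hasDerivAt_exp y).const_mul x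
    have h2 := (bg_hasDerivAt (y := x * exp y) ⟨by linarith only [hτ0], hτ1⟩).comp y h1
    have h3 : HasDerivAt (fun y => A * y) A y := by simpa using (hasDerivAt_id y).const_mul A
    have h4 : HasDerivAt (fun y => C * y ^ 2) (2 * C * y) y := by
      have := (hasDerivAt_pow 2 y).const_mul C
      refine this.congr_deriv ?_
      simp only [Nat.cast_ofNat, Nat.add_one_sub_one, pow_one]; ring
    have h5 := (((h2.sub_const (bg x)).add h3).const_mul 2).add h4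
    refine h5.congr_deriv ?_
    ring
  have hanti : AntitoneOn (fun y => 2 * (bg (x * exp y) - bg x + A * y) + C * y ^ 2) (Iic 0) := by
    apply antitoneOn_of_deriv_nonpos (convex_Iic 0)
    · intro y hy; exact (hd y hy).continuousAt.continuousWithinAt
    · intro y hy
      rw [interior_Iic] at hy
      exact (hd y (le_of_lt hy)).differentiableAt.differentiableWithinAt
    · intro y hy
      rw [interior_Iic] at hy
      rw [(hd y (le_of_lt hy)).deriv]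
      exact corr_der hx0 hx1 (le_of_lt hy)
  have h := hanti (mem_Iic.2 hl) (mem_Iic.2 le_rfl) hl
  simp only [exp_zero, mul_one, sub_self, mul_zero, add_zero, zero_add] at h
  have e : x ^ 2 * l / (sq x * (1 + sq x) ^ 2) = A * l := by rw [hA]; ring
  rw [e]
  norm_num at h
  linarith only [h]

end FNeg
end Vale.Agent.P237.AllN
end

section

/-!
# P237, block D, `l > 0`, `1 ≤ m z ≤ 9`, `u ≥ 0`: upper bound of `e₁ - T`
-/

namespace Vale.Agent.P237.AllN

theorem fpu_b3 {u : ℝ} (hu : 0 ≤ u) :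
    u ^ 2 / (2 + 31 / 25 * u) ≤ (877 / 10000 + 2283 / 10000 * u) * u := by
  have hk : 0 < 2 + 31 / 25 * u := by linarith [hu]
  rw [div_le_iff₀ hk]
  have h1 : 0 ≤ (877 / 10000 + 2283 / 10000 * u) * (2 + 31 / 25 * u) - u := by
    nlinarith only [sq_nonneg (u - 77 / 100)]
  nlinarith only [h1, hu]

theorem fpu_kc {m s c : ℝ} (hm : 27 ≤ m) (hs0 : 0 < s) (hc : c ≤ 1) :
    0 ≤ 2 * (m + 1) / ((m - 1) * s) - 2 * c / s := by
  have hm1 : 0 < m - 1 := by linarith only [hm]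
  have e : 2 * (m + 1) / ((m - 1) * s) - 2 * c / s = (2 / s) * ((m + 1) / (m - 1) - c) := by
    field_simp
  rw [e]
  apply mul_nonneg (by positivity)
  have : 1 ≤ (m + 1) / (m - 1) := by
    rw [le_div_iff₀ hm1]
    linarith only []
  linarith only [this, hc]

theorem fpu_b4 {m z s u c N w : ℝ} (hm : 27 ≤ m) (hz0 : 0 < z) (hs0 : 0 < s)
    (hs : s ^ 2 = 1 - z) (hz : z ≤ 1 / 3) (hw : w = m * z) (hu : 0 ≤ u)
    (hc0 : 1 - 1 / (2 * m) ≤ c) (hc : c ≤ 1)
    (hN : -(u ^ 2 / (2 + 31 / 25 * u)) ≤ N) :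
    (2 * c / s - 2 * (m + 1) / ((m - 1) * s)) * N ≤
      517 / 100 * z * (1 - z / 2) / (w * (1 - z)) * ((877 / 10000 + 2283 / 10000 * u) * u) := by
  have hkd := fpu_kd hm hz0 hs0 hs hz hw hc0
  have h5 := fpu_kc hm hs0 hc
  have h6 := mul_le_mul_of_nonneg_left hN h5
  have hk : 0 < 2 + 31 / 25 * u := by linarith only [hu]
  have h8 : 0 ≤ u ^ 2 / (2 + 31 / 25 * u) := by (clear * - hu; positivity)
  have hp : 0 ≤ 517 / 100 * z * (1 - z / 2) / (w * (1 - z)) := h5.trans hkd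
  have h7 := mul_le_mul hkd (fpu_b3 hu) h8 hp
  have h9 : (2 * c / s - 2 * (m + 1) / ((m - 1) * s)) * N =
    -((2 * (m + 1) / ((m - 1) * s) - 2 * c / s) * N) := by ring
  rw [h9]
  have h10 : (2 * (m + 1) / ((m - 1) * s) - 2 * c / s) * -(u ^ 2 / (2 + 31 / 25 * u)) =
    -((2 * (m + 1) / ((m - 1) * s) - 2 * c / s) * (u ^ 2 / (2 + 31 / 25 * u))) := by ring
  rw [h10] at h6
  exact (neg_le_neg h6).trans ((neg_neg _).le.trans h7)

theorem fpu_identU {F z w u l g q : ℝ} (hF : F = g + q) (hz1 : 0 < 1 - z) (hw0 : 0 < w) :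
    fpuP F z w / (1 - z) ^ 2 * l ^ 2 +
      2 * z ^ 2 / (w * (1 - z)) * l + 6 / 25 * (w + 3 * z) * u * l +
      z * fpuA z w u / (w * (1 - z)) * u =
      517 / 100 * z * (1 - z / 2) / (w * (1 - z)) * ((877 / 10000 + 2283 / 10000 * u) * u) +
      z * (3 - 9 / 4 * z) / (1 - z) * u + 2 * z ^ 2 / (w * (1 - z)) * l +
      z * g / (1 - z) ^ 2 * l ^ 2 + z * q / (1 - z) ^ 2 * l ^ 2 -
      3 / 25 * (w + 3 * z) * ((w / (1 - z) - 3) * l ^ 2 - 2 * u * l) := by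
  rw [hF]
  unfold fpuP fpuA
  field_simp
  ring

/-- upper bound of `e₁ - T` -/
theorem fpu_U {m z s l u c G N C g q w : ℝ} (hm : 27 ≤ m) (hz0 : 0 < z) (hs0 : 0 < s)
    (hs : s ^ 2 = 1 - z) (hz : z ≤ 1 / 3) (hw : w = m * z) (hl : 0 ≤ l) (hu : 0 ≤ u)
    (hC : 4 ≤ C) (hc0 : 1 - 1 / (2 * m) ≤ c) (hc : c ≤ 1) (hc2 : c ^ 2 ≤ (m + 1) / (m + 2))
    (hK : -(z * g / (1 - z) ^ 2 * l ^ 2) +
      9 / 2 * z * (1 - z) * (1 - 4 * l + C * l ^ 2) * (u ^ 2 / (1 + u)) ≤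
      (3 * (m - 3) * (z ^ 2 / s ^ 5) - 9 * (z / s ^ 3)) * l ^ 2 +
      (4 / s - 4 * s / (1 + s) - 2 * s ^ 2 - 6 * (z / s ^ 3) * l) * (u ^ 2 / (1 + u)) +
      dpS m z s l (u ^ 2 / (1 + u)))
    (hG : -(z * q / (1 - z) ^ 2 * l ^ 2) ≤ G)
    (hN : -(u ^ 2 / (2 + 31 / 25 * u)) ≤ N) :
    dpE m z s l u c N - dpT m z s l u G N ≤ fpuP (g + q) z w / (1 - z) ^ 2 * l ^ 2 +
      2 * z ^ 2 / (w * (1 - z)) * l + 6 / 25 * (w + 3 * z) * u * l +
      z * fpuA z w u / (w * (1 - z)) * u := by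
  have hm1 : 0 < m - 1 := by linarith only [hm]
  have hm0 : 0 < m := by linarith only [hm]
  have hz1 : 0 < 1 - z := by linarith only [hz]
  have hw0 : 0 < w := by rw [hw]; positivity
  have hu1 : 0 < 1 + u := by linarith only [hu]
  have hW : 0 ≤ u ^ 2 / (1 + u) := by (clear * - hu; positivity)
  have hQ : (m + 3) * z = w + 3 * z := by rw [hw]; ring
  have hy : m * (z / s ^ 2) = w / (1 - z) := by rw [hs, hw]; ring
  have b0 : 0 ≤ 9 / 2 * z * (1 - z) * (1 - 4 * l + C * l ^ 2) * (u ^ 2 / (1 + u)) := by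
    have : 0 ≤ 1 - 4 * l + C * l ^ 2 := by
      have h1 : 1 - 4 * l + C * l ^ 2 = (1 - 2 * l) ^ 2 + (C - 4) * l ^ 2 := by ring
      rw [h1]
      have := mul_nonneg (sub_nonneg.2 hC) (sq_nonneg l)
      (clear * - hC; positivity)
    (clear * - hz0 hz1 this hu; positivity)
  have b1 := mul_le_mul_of_nonneg_right (fpu_q hz0 hs0 hs hz hc) hu
  have b2 := mul_le_mul_of_nonneg_right (fpu_r_le hm hz0 hs0 hs hz hw hc hc2) hl
  have b4 := fpu_b4 hm hz0 hs0 hs hz hw hu hc0 hc hN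
  have hT : dpE m z s l u c N - dpT m z s l u G N =
      (2 * c / s - 2 * (m + 1) / ((m - 1) * s)) * N +
      (2 * c / s - 2 * s ^ 2 + 2 * (1 - c)) * u +
      (2 * c / s - 2 + 2 * (1 - c) * (1 - m * (z / s ^ 2))) * l -
      ((3 * (m - 3) * (z ^ 2 / s ^ 5) - 9 * (z / s ^ 3)) * l ^ 2 +
      (4 / s - 4 * s / (1 + s) - 2 * s ^ 2 - 6 * (z / s ^ 3) * l) * (u ^ 2 / (1 + u)) +
      dpS m z s l (u ^ 2 / (1 + u))) - G -
      3 / 25 * (w + 3 * z) * ((w / (1 - z) - 3) * l ^ 2 - 2 * u * l) := by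
    rw [← hQ, ← hy]
    unfold dpT dpE
    ring
  rw [hT, fpu_identU rfl hz1 hw0]
  generalize (2 * c / s - 2 * (m + 1) / ((m - 1) * s)) * N = X1 at *
  generalize (2 * c / s - 2 * s ^ 2 + 2 * (1 - c)) * u = X2 at *
  generalize (2 * c / s - 2 + 2 * (1 - c) * (1 - m * (z / s ^ 2))) * l = X3 at *
  generalize dpS m z s l (u ^ 2 / (1 + u)) = X4 at *
  generalize (3 * (m - 3) * (z ^ 2 / s ^ 5) - 9 * (z / s ^ 3)) * l ^ 2 = X5 at *
  generalize (4 / s - 4 * s / (1 + s) - 2 * s ^ 2 - 6 * (z / s ^ 3) * l) * (u ^ 2 / (1 + u)) = X6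
    at *
  linarith only [hK, b2, b1, b4, b0, hG]

end Vale.Agent.P237.AllN
end

section

/-!
# P237, block D: lower bounds for the correction `2 (bg (x e^l) - bg x + z l / (s (1+s)²))`, `l ≥ 0`
-/

namespace Vale.Agent.P237.AllN

open PolyPos

/-- the polynomial of the correction bound (`s = √(1-z)`, `q` the coefficient) -/
noncomputable def fgH (s l q : ℝ) : ℝ :=
  s ^ 5 * (1 + s) ^ 2 * q - (1 - s) ^ 2 * (s ^ 3 + 1 / 2 * (1 + s) ^ 2 * q * l) ^ 2 -
    (2 + 4 / 3 * l + 2 / 3 * l ^ 2 + 8 / 25 * l ^ 3) * s ^ 8 -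
    (2 + 2 * l + 4 / 3 * l ^ 2 + 2 / 3 * l ^ 3 + 8 / 25 * l ^ 4) *
      (2 * (1 - s) * s ^ 4 * (s ^ 3 + 1 / 2 * (1 + s) ^ 2 * q * l) +
        (1 - s) ^ 2 * l * (s ^ 3 + 1 / 2 * (1 + s) ^ 2 * q * l) ^ 2)

/-- Taylor bound of `e^(2l)` -/
theorem fg_exp {l : ℝ} (h0 : 0 ≤ l) (h1 : 2 * l ≤ 1) :
    Real.exp (2 * l) ≤ 1 + 2 * l + 2 * l ^ 2 + 4 / 3 * l ^ 3 + 2 / 3 * l ^ 4 + 8 / 25 * l ^ 5 := by
  have h := Real.exp_bound' (x := 2 * l) (by linarith only [h0]) h1 (n := 5) (by norm_num)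
  refine h.trans (le_of_eq ?_)
  simp only [Finset.sum_range_succ, Finset.sum_range_zero, Nat.factorial]
  push_cast
  ring

/-- the correction bound from the polynomial inequality -/
theorem fg_core {x l q : ℝ} (hx1 : x ^ 2 < 1) (hl0 : 0 ≤ l) (hl : 2 * l ≤ 1) (hq : 0 ≤ q)
    (hH : 0 ≤ fgH (sq x) l q) :
    -(x ^ 2 * q / (1 - x ^ 2) ^ 2 * l ^ 2) ≤
      2 * (bg (x * Real.exp l) - bg x + x ^ 2 / (sq x * (1 + sq x) ^ 2) * l) := by
  set s : ℝ := sq x with hs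
  have hs2 : s ^ 2 = 1 - x ^ 2 := by
    rw [hs, sq, Real.sq_sqrt (by linarith)]
  have hs0 : 0 < s := by
    rw [hs, sq]
    exact Real.sqrt_pos.2 (by linarith only [hx1])
  have hs1 : s ≤ 1 := by nlinarith only [hs2]
  have hz : x ^ 2 = (1 - s) * (1 + s) := by linarith
  have h1s : 0 < 1 + s := by linarith
  have hp : 0 ≤ 1 - s := by linarith only [hs1]
  have hzs : 1 - x ^ 2 = s ^ 2 := hs2.symm
  -- the two functions
  set NG : ℝ := s ^ 5 - (1 - s) * (s ^ 3 * l + 1 / 2 * (1 + s) ^ 2 * q * l ^ 2) with hNG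
  set dd : ℝ := s ^ 4 + (1 - s) * (s ^ 3 * l + 1 / 2 * (1 + s) ^ 2 * q * l ^ 2) with hdd
  have hM : 0 ≤ s ^ 3 * l + 1 / 2 * (1 + s) ^ 2 * q * l ^ 2 := by (clear * - hs0 hl0 hq; positivity)
  have hdd0 : 0 < dd := by
    have : 0 < s ^ 4 := by positivity
    have : 0 ≤ (1 - s) * (s ^ 3 * l + 1 / 2 * (1 + s) ^ 2 * q * l ^ 2) := mul_nonneg hp hM
    (clear hl hH hz h1s hzs hdd; linarith)
  have hsum : NG + dd = s ^ 4 * (1 + s) := by
    rw [hNG, hdd]
    ring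
  have hD0 : 0 < s ^ 4 * (1 + s) := by (clear * - hs0; positivity)
  -- the main inequality
  have key : NG ^ 2 ≤ (1 - x ^ 2 * Real.exp (2 * l)) * dd ^ 2 := by
    have he := fg_exp hl0 hl
    have h1 : 1 - x ^ 2 * (1 + 2 * l + 2 * l ^ 2 + 4 / 3 * l ^ 3 + 2 / 3 * l ^ 4 +
        8 / 25 * l ^ 5) ≤ 1 - x ^ 2 * Real.exp (2 * l) := by
      have := mul_le_mul_of_nonneg_left he (sq_nonneg x)
      linarith only [this]
    refine le_trans ?_ (mul_le_mul_of_nonneg_right h1 (sq_nonneg dd))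
    have h2 : 0 ≤ (1 - s) * (1 + s) * l ^ 2 * fgH s l q := by (clear * - hs1 hs0 hH; positivity)
    have h3 : (1 - x ^ 2 * (1 + 2 * l + 2 * l ^ 2 + 4 / 3 * l ^ 3 + 2 / 3 * l ^ 4 +
        8 / 25 * l ^ 5)) * dd ^ 2 - NG ^ 2 = (1 - s) * (1 + s) * l ^ 2 * fgH s l q := by
      rw [hz, hNG, hdd, fgH]
      ring
    linarith only [h3, h2]
  have hbg : NG / (s ^ 4 * (1 + s)) ≤ bg (x * Real.exp l) := by
    have hsq0 : 0 ≤ sq (x * Real.exp l) := Real.sqrt_nonneg _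
    rcases le_or_gt NG 0 with hn | hn
    · have : NG / (s ^ 4 * (1 + s)) ≤ 0 := div_nonpos_of_nonpos_of_nonneg hn hD0.le
      refine this.trans ?_
      unfold bg
      (clear * - hsq0; positivity)
    · have h4 : NG / dd ≤ sq (x * Real.exp l) := by
        unfold sq
        apply Real.le_sqrt_of_sq_le
        have e1 : (x * Real.exp l) ^ 2 = x ^ 2 * Real.exp (2 * l) := by
          rw [mul_pow, ← Real.exp_nat_mul]
          norm_num
        rw [e1, div_pow, div_le_iff₀ (by (clear * - hs0 hs1 hl0 hq; (clear * - hs0 hs1 hl0 hq; positivity)))]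
        exact key
      have h5 : 0 < NG / dd := div_pos hn hdd0
      unfold bg
      rw [div_le_div_iff₀ hD0 (by linarith only [h5, h4]), ← hsum]
      have h6 : NG ≤ sq (x * Real.exp l) * dd := by
        rw [div_le_iff₀ hdd0] at h4
        exact h4
      linarith only [h6]
  have e2 : NG / (s ^ 4 * (1 + s)) = s / (1 + s) - x ^ 2 / (s * (1 + s) ^ 2) * l -
      1 / 2 * (x ^ 2 * q / (1 - x ^ 2) ^ 2 * l ^ 2) := by
    rw [hzs, hz, hNG]
    field_simp
    ring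
  have e3 : bg x = s / (1 + s) := by rw [bg, ← hs]
  rw [e3]
  linarith only [e2, hbg]

/-- the same polynomial as an expression, `q = a + b z + c z²` -/
def fgE (a b c : Fr) : Ex :=
  let s := Ex.X
  let l := Ex.Y
  let k (n : ℤ) (d : ℕ) : Ex := Ex.c ⟨n, d⟩
  let z := k 1 0 - s * s
  let p := k 1 0 - s
  let r := k 1 0 + s
  let q := Ex.c a + Ex.c b * z + Ex.c c * (z * z)
  let s2 := s * s
  let s3 := s2 * s
  let s4 := s2 * s2
  let M := s3 + k 1 1 * (r * r) * q * l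
  s4 * s * (r * r) * q - p * p * (M * M) -
    (k 2 0 + k 4 2 * l + k 2 2 * (l * l) + k 8 24 * (l * (l * l))) * (s4 * s4) -
    (k 2 0 + k 2 0 * l + k 4 2 * (l * l) + k 2 2 * (l * (l * l)) +
      k 8 24 * ((l * l) * (l * l))) *
      (k 2 0 * p * s4 * M + p * p * l * (M * M))

theorem fgE_R (a b c : Fr) (s l : ℝ) :
    (fgE a b c).R s l = fgH s l (a.R + b.R * (1 - s ^ 2) + c.R * (1 - s ^ 2) ^ 2) := by
  simp only [fgE, Ex.R_sub, Ex.R_mul, Ex.R_X, Ex.R_add, Ex.R_c, Ex.R_Y, fgH]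
  simp only [show ∀ (n : ℤ) (d : ℕ), Fr.R ⟨n, d⟩ = (n : ℝ) / ((d : ℝ) + 1) from fun _ _ => rfl]
  push_cast
  ring

/-- the correction bound from the check of the expression -/
theorem fg_of_check {B L f : ℕ} {a b c : Fr} {A' D' : ℕ} {A : ℤ} {D : ℕ} (hD : 0 < D) (hD' : 0 < D')
    (hA : A < D) (hA' : 0 < A')
    (h : Ex.nn B L f A D D 0 A' D' (fgE a b c) = true)
    {x l : ℝ} (hx1 : x ^ 2 < 1) (hx : (D : ℝ) ^ 2 * x ^ 2 ≤ (D : ℝ) ^ 2 - (A : ℝ) ^ 2)
    (hA0 : 0 ≤ A)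
    (hl0 : 0 ≤ l) (hl1 : (D' : ℝ) * l ≤ A') (hl : 2 * l ≤ 1)
    (hq : 0 ≤ a.R + b.R * x ^ 2 + c.R * (x ^ 2) ^ 2) :
    -(x ^ 2 * (a.R + b.R * x ^ 2 + c.R * (x ^ 2) ^ 2) / (1 - x ^ 2) ^ 2 * l ^ 2) ≤
      2 * (bg (x * Real.exp l) - bg x + x ^ 2 / (sq x * (1 + sq x) ^ 2) * l) := by
  apply fg_core hx1 hl0 hl hq
  have hs2 : sq x ^ 2 = 1 - x ^ 2 := by
    rw [sq, Real.sq_sqrt (by linarith only [hx1])]
  have hs0 : 0 ≤ sq x := Real.sqrt_nonneg _
  have hs1 : sq x ≤ 1 := by nlinarith only [hs2]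
  have hDr : (0 : ℝ) < D := by exact_mod_cast hD
  have hAr : (0 : ℝ) ≤ A := by exact_mod_cast hA0
  have h1 : (A : ℝ) ≤ D * sq x := by
    have : (A : ℝ) ^ 2 ≤ (D * sq x) ^ 2 := by
      rw [mul_pow, hs2]
      linarith only [hx]
    exact le_of_sq_le_sq this (by positivity)
  have h2 := Ex.nn_closed hD hD' hA (by exact_mod_cast hA') h (x := sq x) (y := l) h1
    (by push_cast; nlinarith only [hs1]) (by push_cast; (clear * - hD' hl0; (clear * - hD' hl0; positivity))) (by push_cast; exact hl1)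
  rw [fgE_R] at h2
  have e : (1 - sq x ^ 2) = x ^ 2 := by linarith only [hs2]
  rw [e] at h2
  exact h2

theorem fg1_40_check : Ex.nn (2 ^ 512) 40 4000 4 5 5 0 2 5
    (fgE ⟨27, 39⟩ ⟨3, 9⟩ ⟨29, 9⟩) = true := by
  (clear * -; decide +kernel)

/-- correction bound, `0 ≤ l ≤ 2/5`, `x² ≤ 9/25` -/
theorem fg1_40 {x l : ℝ} (hx : x ^ 2 ≤ 9 / 25) (hl0 : 0 ≤ l) (hl1 : l ≤ 2 / 5) :
    -(x ^ 2 * (27 / 40 + 3 / 10 * x ^ 2 + 29 / 10 * (x ^ 2) ^ 2) / (1 - x ^ 2) ^ 2 * l ^ 2) ≤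
      2 * (bg (x * Real.exp l) - bg x + x ^ 2 / (sq x * (1 + sq x) ^ 2) * l) := by
  have h := fg_of_check (x := x) (l := l) (by norm_num) (by norm_num) (by norm_num) (by norm_num)
    fg1_40_check (by linarith only [hx]) (by push_cast; linarith only [hx]) (by norm_num) hl0 (by push_cast; linarith only [hl1])
    (by linarith only [hl1]) (by
      simp only [Fr.R]
      push_cast
      nlinarith only [])
  simp only [Fr.R] at h
  push_cast at h
  norm_num at h ⊢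
  linarith only [h]

theorem fg1_44_check : Ex.nn (2 ^ 512) 40 4000 40 49 49 0 11 25
    (fgE ⟨97, 99⟩ ⟨-9, 3⟩ ⟨91, 9⟩) = true := by
  (clear * -; decide +kernel)

/-- correction bound, `0 ≤ l ≤ 11/25`, `x² ≤ 1/3` -/
theorem fg1_44 {x l : ℝ} (hx : x ^ 2 ≤ 1 / 3) (hl0 : 0 ≤ l) (hl1 : l ≤ 11 / 25) :
    -(x ^ 2 * (97 / 100 - 9 / 4 * x ^ 2 + 91 / 10 * (x ^ 2) ^ 2) / (1 - x ^ 2) ^ 2 * l ^ 2) ≤
      2 * (bg (x * Real.exp l) - bg x + x ^ 2 / (sq x * (1 + sq x) ^ 2) * l) := by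
  have h := fg_of_check (x := x) (l := l) (by norm_num) (by norm_num) (by norm_num) (by norm_num)
    fg1_44_check (by linarith only [hx]) (by push_cast; linarith only [hx]) (by norm_num) hl0 (by push_cast; linarith only [hl1])
    (by linarith only [hl1]) (by
      simp only [Fr.R]
      push_cast
      nlinarith only [])
  simp only [Fr.R] at h
  push_cast at h
  norm_num at h
  rw [sub_eq_add_neg (97 / 100 : ℝ)]
  exact h

theorem fg1_43_check : Ex.nn (2 ^ 512) 40 4000 22 25 25 0 43 100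
    (fgE ⟨86, 124⟩ ⟨19, 39⟩ ⟨2, 0⟩) = true := by
  (clear * -; decide +kernel)

/-- correction bound, `0 ≤ l ≤ 43/100`, `x² ≤ 9/40` -/
theorem fg1_43 {x l : ℝ} (hx : x ^ 2 ≤ 9 / 40) (hl0 : 0 ≤ l) (hl1 : l ≤ 43 / 100) :
    -(x ^ 2 * (86 / 125 + 19 / 40 * x ^ 2 + 2 * (x ^ 2) ^ 2) / (1 - x ^ 2) ^ 2 * l ^ 2) ≤
      2 * (bg (x * Real.exp l) - bg x + x ^ 2 / (sq x * (1 + sq x) ^ 2) * l) := by
  have h := fg_of_check (x := x) (l := l) (by norm_num) (by norm_num) (by norm_num) (by norm_num)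
    fg1_43_check (by (clear * - hx; linarith)) (by push_cast; linarith only [hx]) (by norm_num) hl0 (by push_cast; linarith only [hl1])
    (by linarith only [hl1]) (by
      simp only [Fr.R]
      push_cast
      nlinarith only [])
  simp only [Fr.R] at h
  push_cast at h
  norm_num at h ⊢
  linarith only [h]

theorem fg1_475_check : Ex.nn (2 ^ 512) 40 4000 22 25 25 0 19 40
    (fgE ⟨143, 199⟩ ⟨1, 1⟩ ⟨3, 0⟩) = true := by
  (clear * -; decide +kernel)

/-- correction bound, `0 ≤ l ≤ 19/40`, `x² ≤ 9/40` -/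
theorem fg1_475 {x l : ℝ} (hx : x ^ 2 ≤ 9 / 40) (hl0 : 0 ≤ l) (hl1 : l ≤ 19 / 40) :
    -(x ^ 2 * (143 / 200 + 1 / 2 * x ^ 2 + 3 * (x ^ 2) ^ 2) / (1 - x ^ 2) ^ 2 * l ^ 2) ≤
      2 * (bg (x * Real.exp l) - bg x + x ^ 2 / (sq x * (1 + sq x) ^ 2) * l) := by
  have h := fg_of_check (x := x) (l := l) (by norm_num) (by norm_num) (by norm_num) (by norm_num)
    fg1_475_check (by linarith only [hx]) (by push_cast; linarith only [hx]) (by norm_num) hl0 (by push_cast; linarith only [hl1])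
    (by linarith only [hl1]) (by
      simp only [Fr.R]
      push_cast
      nlinarith only [])
  simp only [Fr.R] at h
  push_cast at h
  norm_num at h ⊢
  linarith only [h]

theorem fg1_50_check : Ex.nn (2 ^ 512) 40 4000 63 64 64 0 1 2
    (fgE ⟨29, 39⟩ ⟨19, 24⟩ ⟨3, 1⟩) = true := by
  (clear * -; decide +kernel)

/-- correction bound, `0 ≤ l ≤ 1/2`, `x² ≤ 3/100` -/
theorem fg1_50 {x l : ℝ} (hx : x ^ 2 ≤ 3 / 100) (hl0 : 0 ≤ l) (hl1 : l ≤ 1 / 2) :
    -(x ^ 2 * (29 / 40 + 19 / 25 * x ^ 2 + 3 / 2 * (x ^ 2) ^ 2) / (1 - x ^ 2) ^ 2 * l ^ 2) ≤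
      2 * (bg (x * Real.exp l) - bg x + x ^ 2 / (sq x * (1 + sq x) ^ 2) * l) := by
  have h := fg_of_check (x := x) (l := l) (by norm_num) (by norm_num) (by norm_num) (by norm_num)
    fg1_50_check (by linarith only [hx]) (by push_cast; linarith only [hx]) (by norm_num) hl0 (by push_cast; linarith only [hl1])
    (by linarith only [hl1]) (by
      simp only [Fr.R]
      push_cast
      nlinarith only [])
  simp only [Fr.R] at h
  push_cast at h
  norm_num at h ⊢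
  linarith only [h]

end Vale.Agent.P237.AllN
end

section

/-!
# P237, block D: rational bounds for the logarithm on `(0,1]`
-/

open Set

namespace Vale.Agent.P237.AllN

theorem fv_nonneg {F F' : ℝ → ℝ} (h1 : F 1 = 0)
    (hd : ∀ x ∈ Ioc (0 : ℝ) 1, HasDerivAt F (F' x) x) (hF : ∀ x ∈ Ioc (0 : ℝ) 1, F' x ≤ 0)
    {x : ℝ} (hx : x ∈ Ioc (0 : ℝ) 1) : 0 ≤ F x := by
  have hsub : Icc x 1 ⊆ Ioc (0 : ℝ) 1 := fun y hy => ⟨hx.1.trans_le hy.1, hy.2⟩
  have hanti : AntitoneOn F (Icc x 1) := by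
    apply antitoneOn_of_deriv_nonpos (convex_Icc x 1)
    · exact fun y hy => (hd y (hsub hy)).continuousAt.continuousWithinAt
    · intro y hy
      rw [interior_Icc] at hy
      exact (hd y (hsub (Ioo_subset_Icc_self hy))).differentiableAt.differentiableWithinAt
    · intro y hy
      rw [interior_Icc] at hy
      have hy' := hsub (Ioo_subset_Icc_self hy)
      rw [(hd y hy').deriv]
      exact hF y hy'
  have := hanti (left_mem_Icc.2 hx.2) (right_mem_Icc.2 hx.2) hx.2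
  linarith only [h1, this]

theorem fv_poly (c0 c1 c2 c3 c4 x : ℝ) :
    HasDerivAt (fun x : ℝ => c0 + c1 * x + c2 * x ^ 2 + c3 * x ^ 3 + c4 * x ^ 4)
      (c1 + 2 * c2 * x + 3 * c3 * x ^ 2 + 4 * c4 * x ^ 3) x := by
  have h1 := (hasDerivAt_id x).const_mul c1
  have h2 := (hasDerivAt_pow 2 x).const_mul c2
  have h3 := (hasDerivAt_pow 3 x).const_mul c3
  have h4 := (hasDerivAt_pow 4 x).const_mul c4
  have h := (((h1.const_add c0).add h2).add h3).add h4
  refine (h.congr_deriv ?_)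
  norm_num
  ring

/-- lower bound for `-log` (Gauss, three nodes) -/
theorem fv_log_ge {E : ℝ} (hE : E ∈ Ioc (0 : ℝ) 1) :
    (1 - E) * (11 + 38 * E + 11 * E ^ 2) / (3 * (1 + E) * (1 + 8 * E + E ^ 2)) ≤ -Real.log E := by
  have key := fv_nonneg (F := fun x => -Real.log x -
      (11 + 27 * x + -27 * x ^ 2 + -11 * x ^ 3 + 0 * x ^ 4) /
        (3 + 27 * x + 27 * x ^ 2 + 3 * x ^ 3 + 0 * x ^ 4))
    (F' := fun x => -(9 * (1 - x) ^ 6) / (x * (3 + 27 * x + 27 * x ^ 2 + 3 * x ^ 3) ^ 2))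
    (by norm_num) ?_ ?_ hE
  · have e : (1 - E) * (11 + 38 * E + 11 * E ^ 2) / (3 * (1 + E) * (1 + 8 * E + E ^ 2)) =
        (11 + 27 * E + -27 * E ^ 2 + -11 * E ^ 3 + 0 * E ^ 4) /
        (3 + 27 * E + 27 * E ^ 2 + 3 * E ^ 3 + 0 * E ^ 4) := by
      congr 1 <;> ring
    rw [e]
    simpa only [neg_mul, zero_mul, add_zero, ge_iff_le, sub_nonneg] using key
  · intro x hx
    have hx0 := hx.1
    have hne : 3 + 27 * x + 27 * x ^ 2 + 3 * x ^ 3 + 0 * x ^ 4 ≠ 0 := by (clear * - hx0; positivity)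
    have h := ((Real.hasDerivAt_log hx0.ne').neg).sub ((fv_poly 11 27 (-27) (-11) 0 x).div
      (fv_poly 3 27 27 3 0 x) hne)
    refine h.congr_deriv ?_
    have hne' : 3 + 27 * x + 27 * x ^ 2 + 3 * x ^ 3 ≠ 0 := by positivity
    simp only [zero_mul, add_zero, mul_zero]
    field_simp
    ring
  · intro x hx
    have hx0 := hx.1
    have : 0 ≤ 9 * (1 - x) ^ 6 / (x * (3 + 27 * x + 27 * x ^ 2 + 3 * x ^ 3) ^ 2) := by (clear * - hx0; positivity)
    rw [neg_div]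
    linarith

/-- upper bound for `-log` (Lobatto, four nodes) -/
theorem fv_log_le {p : ℝ} (hp : p ∈ Ioc (0 : ℝ) 1) :
    -Real.log p ≤ (1 - p ^ 2) * (1 + 28 * p + p ^ 2) / (12 * p * (1 + 3 * p + p ^ 2)) := by
  have key := fv_nonneg (F := fun x => Real.log x +
      (1 + 28 * x + 0 * x ^ 2 + -28 * x ^ 3 + -1 * x ^ 4) /
        (0 + 12 * x + 36 * x ^ 2 + 12 * x ^ 3 + 0 * x ^ 4))
    (F' := fun x => -(12 * (1 - x) ^ 6) / ((12 * x + 36 * x ^ 2 + 12 * x ^ 3) ^ 2))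
    (by norm_num) ?_ ?_ hp
  · have e : (1 - p ^ 2) * (1 + 28 * p + p ^ 2) / (12 * p * (1 + 3 * p + p ^ 2)) =
        (1 + 28 * p + 0 * p ^ 2 + -28 * p ^ 3 + -1 * p ^ 4) /
        (0 + 12 * p + 36 * p ^ 2 + 12 * p ^ 3 + 0 * p ^ 4) := by
      congr 1 <;> ring
    rw [e]
    have key' : 0 ≤ Real.log p + (1 + 28 * p + 0 * p ^ 2 + -28 * p ^ 3 + -1 * p ^ 4) /
        (0 + 12 * p + 36 * p ^ 2 + 12 * p ^ 3 + 0 * p ^ 4) := key
    linarith only [key]
  · intro x hx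
    have hx0 := hx.1
    have hne : 0 + 12 * x + 36 * x ^ 2 + 12 * x ^ 3 + 0 * x ^ 4 ≠ 0 := by (clear * - hx0; positivity)
    have h := (Real.hasDerivAt_log hx0.ne').add ((fv_poly 1 28 0 (-28) (-1) x).div
      (fv_poly 0 12 36 12 0 x) hne)
    refine h.congr_deriv ?_
    have hne' : 12 * x + 36 * x ^ 2 + 12 * x ^ 3 ≠ 0 := by positivity
    have hne2 : 12 + 36 * x + 12 * x ^ 2 ≠ 0 := by positivity
    simp only [zero_mul, add_zero, mul_zero, zero_add]
    field_simp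
    ring
  · intro x hx
    have hx0 := hx.1
    have : 0 ≤ 12 * (1 - x) ^ 6 / ((12 * x + 36 * x ^ 2 + 12 * x ^ 3) ^ 2) := by (clear * - hx0; positivity)
    rw [neg_div]
    linarith only [this]

/-- `log x ≥ 2(x-1)/(x+1)` for `x ≥ 1` in the form `-log p ≥ 2(1-p)/(1+p)`, `0 < p ≤ 1` -/
theorem fv_log_ge1 {p : ℝ} (hp : p ∈ Ioc (0 : ℝ) 1) : 2 * (1 - p) / (1 + p) ≤ -Real.log p := by
  have key := fv_nonneg (F := fun x => -Real.log x -
      (2 + -2 * x + 0 * x ^ 2 + 0 * x ^ 3 + 0 * x ^ 4) /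
        (1 + 1 * x + 0 * x ^ 2 + 0 * x ^ 3 + 0 * x ^ 4))
    (F' := fun x => -((1 - x) ^ 2) / (x * (1 + x) ^ 2))
    (by norm_num) ?_ ?_ hp
  · have e : 2 * (1 - p) / (1 + p) = (2 + -2 * p + 0 * p ^ 2 + 0 * p ^ 3 + 0 * p ^ 4) /
        (1 + 1 * p + 0 * p ^ 2 + 0 * p ^ 3 + 0 * p ^ 4) := by
      congr 1 <;> ring
    rw [e]
    simpa only [neg_mul, zero_mul, add_zero, one_mul, ge_iff_le, sub_nonneg] using key
  · intro x hx
    have hx0 := hx.1
    have hne : 1 + 1 * x + 0 * x ^ 2 + 0 * x ^ 3 + 0 * x ^ 4 ≠ 0 := by (clear * - hx0; (clear * - hx0; positivity))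
    have h := ((Real.hasDerivAt_log hx0.ne').neg).sub ((fv_poly 2 (-2) 0 0 0 x).div
      (fv_poly 1 1 0 0 0 x) hne)
    refine h.congr_deriv ?_
    have hne' : 1 + x ≠ 0 := by positivity
    simp only [zero_mul, add_zero, mul_zero, one_mul]
    field_simp
    ring
  · intro x hx
    have hx0 := hx.1
    have : 0 ≤ (1 - x) ^ 2 / (x * (1 + x) ^ 2) := by (clear * - hx0; positivity)
    rw [neg_div]
    linarith only [this]

/-- `-log p ≤ (1/p - p)/2`, `0 < p ≤ 1` -/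
theorem fv_log_le1 {p : ℝ} (hp : p ∈ Ioc (0 : ℝ) 1) : -Real.log p ≤ (1 - p ^ 2) / (2 * p) := by
  have key := fv_nonneg (F := fun x => Real.log x +
      (1 + 0 * x + -1 * x ^ 2 + 0 * x ^ 3 + 0 * x ^ 4) /
        (0 + 2 * x + 0 * x ^ 2 + 0 * x ^ 3 + 0 * x ^ 4))
    (F' := fun x => -((1 - x) ^ 2) / (2 * x ^ 2))
    (by norm_num) ?_ ?_ hp
  · have e : (1 - p ^ 2) / (2 * p) = (1 + 0 * p + -1 * p ^ 2 + 0 * p ^ 3 + 0 * p ^ 4) /
        (0 + 2 * p + 0 * p ^ 2 + 0 * p ^ 3 + 0 * p ^ 4) := by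
      congr 1 <;> ring
    rw [e]
    have key' : 0 ≤ Real.log p + (1 + 0 * p + -1 * p ^ 2 + 0 * p ^ 3 + 0 * p ^ 4) /
        (0 + 2 * p + 0 * p ^ 2 + 0 * p ^ 3 + 0 * p ^ 4) := key
    linarith only [key]
  · intro x hx
    have hx0 := hx.1
    have hne : 0 + 2 * x + 0 * x ^ 2 + 0 * x ^ 3 + 0 * x ^ 4 ≠ 0 := by (clear * - hx0; positivity)
    have h := (Real.hasDerivAt_log hx0.ne').add ((fv_poly 1 0 (-1) 0 0 x).div
      (fv_poly 0 2 0 0 0 x) hne)
    refine h.congr_deriv ?_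
    simp only [zero_mul, add_zero, mul_zero, zero_add]
    field_simp
    ring
  · intro x hx
    have hx0 := hx.1
    have : 0 ≤ (1 - x) ^ 2 / (2 * x ^ 2) := by (clear * - hx0; positivity)
    rw [neg_div]
    linarith only [this]

/-- the minimum of `δ (1-p)²/p - (p - 1 - log p)` is at `p₀`, `δ = p₀/(1+p₀)` -/
theorem fv_min {p q : ℝ} (hp : p ∈ Ioc (0 : ℝ) 1) (hq : q ∈ Ioc (0 : ℝ) 1) :
    p - 1 - Real.log p ≤ q / (1 + q) * ((1 - p) ^ 2 / p) +
      (-Real.log q - 2 * (1 - q) / (1 + q)) := by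
  have hp0 := hp.1
  have hq0 := hq.1
  have hp1 := hp.2
  have hq1 := hq.2
  have e : q / (1 + q) * ((1 - p) ^ 2 / p) + (-Real.log q - 2 * (1 - q) / (1 + q)) -
      (p - 1 - Real.log p) = (Real.log p - Real.log q) - (p - q) * (1 + p) / (p * (1 + q)) := by
    field_simp
    ring
  suffices h : (p - q) * (1 + p) / (p * (1 + q)) ≤ Real.log p - Real.log q by linarith only [h, e]
  rcases le_total q p with h | h
  · have h1 := fv_log_ge1 (p := q / p) ⟨by positivity, by rw [div_le_one hp0]; exact h⟩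
    rw [Real.log_div hq0.ne' hp0.ne'] at h1
    have h2 : (p - q) * (1 + p) / (p * (1 + q)) ≤ 2 * (1 - q / p) / (1 + q / p) := by
      have e2 : 2 * (1 - q / p) / (1 + q / p) = 2 * (p - q) / (p + q) := by
        (clear * - hp0 hq0; field_simp)
      rw [e2, div_le_div_iff₀ (by positivity) (by positivity)]
      have h3 : 0 ≤ (p - q) * ((p - q) * (1 - p)) :=
        mul_nonneg (by linarith only [h]) (mul_nonneg (by linarith only [h]) (by linarith only [hp1]))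
      linarith only [h3]
    linarith only [h1, h2]
  · have h1 := fv_log_le1 (p := p / q) ⟨by positivity, by rw [div_le_one hq0]; exact h⟩
    rw [Real.log_div hp0.ne' hq0.ne'] at h1
    have h2 : (1 - (p / q) ^ 2) / (2 * (p / q)) ≤ -((p - q) * (1 + p) / (p * (1 + q))) := by
      have e2 : (1 - (p / q) ^ 2) / (2 * (p / q)) = (q ^ 2 - p ^ 2) / (2 * p * q) := by
        field_simp
      rw [e2, ← neg_div, div_le_div_iff₀ (by positivity) (by positivity)]
      have h3 : 0 ≤ p * ((q - p) * ((q - p) * (1 - q))) :=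
        mul_nonneg hp0.le (mul_nonneg (by linarith only [h]) (mul_nonneg (by linarith only [h]) (by linarith only [hq1])))
      linarith only [h3]
    linarith only [h2, h1]

/-- bound for the value at the minimum -/
theorem fv_val {q : ℝ} (hq : q ∈ Ioc (0 : ℝ) 1) : -Real.log q - 2 * (1 - q) / (1 + q) ≤
    (1 - q) ^ 3 * (1 + 8 * q + q ^ 2) / (12 * q * (1 + q) * (1 + 3 * q + q ^ 2)) := by
  have hq0 := hq.1
  have h := fv_log_le hq
  have e : (1 - q) ^ 3 * (1 + 8 * q + q ^ 2) / (12 * q * (1 + q) * (1 + 3 * q + q ^ 2)) =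
      (1 - q ^ 2) * (1 + 28 * q + q ^ 2) / (12 * q * (1 + 3 * q + q ^ 2)) -
        2 * (1 - q) / (1 + q) := by
    field_simp
    ring
  linarith only [e, h]

end Vale.Agent.P237.AllN
end

section

/-!
# P237, block D, `X ≥ 3`, `u ≥ 0`, `1/5 ≤ z ≤ 49/100`: polynomial expressions in `(s, E)`

`E = e^{-2l}`, `z = 1 - s²`, `L = N/D` the lower bound of `-log E`.
-/

namespace Vale.Agent.P237.AllN.Fxq

open PolyPos

/-- the constant `n/d` -/
def xk (n : ℤ) (d : ℕ) : Ex := Ex.c ⟨n, d - 1⟩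

theorem xk_R (n : ℤ) (d : ℕ) (x y : ℝ) (hd : 1 ≤ d) : (xk n d).R x y = n / d := by
  unfold xk
  rw [Ex.R_c, Fr.R]
  congr 1
  obtain ⟨k, rfl⟩ := Nat.exists_eq_add_of_le' hd
  simp

/-- powers -/
noncomputable def xp (a : Ex) (n : ℕ) : Ex :=
  Nat.rec (motive := fun _ => Ex) (xk 1 1) (fun _ b => a * b) n

theorem xp_R (a : Ex) (n : ℕ) (x y : ℝ) : (xp a n).R x y = a.R x y ^ n := by
  induction n with
  | zero =>
    show (xk 1 1).R x y = _
    rw [xk_R _ _ _ _ le_rfl]; simp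
  | succ n ih =>
    show (a * xp a n).R x y = _
    rw [Ex.R_mul, ih, pow_succ]; ring

/-! ## expressions, `X = s`, `Y = E` -/

def xz : Ex := xk 1 1 - Ex.X * Ex.X
def xN : Ex := (xk 1 1 - Ex.Y) * (xk 11 1 + Ex.Y * (xk 38 1 + xk 11 1 * Ex.Y))
def xD : Ex := xk 3 1 * ((xk 1 1 + Ex.Y) * (xk 1 1 + Ex.Y * (xk 8 1 + Ex.Y)))
def xD2 : Ex := xD * xD
def xND : Ex := xN * xD
def xN2 : Ex := xN * xN
noncomputable def xE6 : Ex := xp Ex.Y 6
def xH : Ex := xk 2 1 * (Ex.X * Ex.X * ((xk 1 1 + Ex.X) * Ex.Y)) -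
  xz * ((xk 1 1 - Ex.Y) * (xk 1 1 + xk 2 1 * Ex.X))
def xq : Ex := (xk 1 1 + Ex.X) * (xk 1 1 + Ex.X)
noncomputable def xqH : Ex := xq * xH
noncomputable def xs3 : Ex := xp Ex.X 3

/-- `D² (E^k - 1 + k L)` -/
noncomputable def xA (k : ℕ) : Ex := (xp Ex.Y k - xk 1 1) * xD2 + xk k 1 * xND

/-- `D² E^k (E^{-k} - 1 - k L)` -/
noncomputable def xB (k : ℕ) : Ex := (xk 1 1 - xp Ex.Y k) * xD2 - xk k 1 * (xp Ex.Y k * xND)

/-- `E⁶ D² m_k` -/
noncomputable def xm (k : ℕ) : Ex := xk (2 * k - 1 : ℤ) (2 * k) * (xE6 * xA k) -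
  (xk 1 (2 * k) * (xp Ex.Y (6 - k) * xB k) + xk (k * (k - 1) : ℤ) 2 * (xE6 * xN2))

/-- `E⁶ D² h_k` -/
noncomputable def xh (k : ℕ) : Ex := xk (k * (k - 1) * (2 * k - 1) : ℤ) 2 * (xE6 * xN2) -
  xk ((2 * k - 1) * (k - 1) : ℤ) k * (xE6 * xA k)

noncomputable def mR (k : ℕ) (E L : ℝ) : ℝ :=
  (2 * k - 1) / (2 * k) * (E ^ k - 1 + k * L) - 1 / (2 * k) * ((E ^ k)⁻¹ - 1 - k * L) -
    k * (k - 1) / 2 * L ^ 2

noncomputable def hR (k : ℕ) (E L : ℝ) : ℝ :=
  k * (k - 1) * (2 * k - 1) / 2 * L ^ 2 - (2 * k - 1) * (k - 1) / k * (E ^ k - 1 + k * L)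

noncomputable def vN (E : ℝ) : ℝ := (1 - E) * (11 + 38 * E + 11 * E ^ 2)
noncomputable def vD (E : ℝ) : ℝ := 3 * (1 + E) * (1 + 8 * E + E ^ 2)
noncomputable def vL (E : ℝ) : ℝ := vN E / vD E

theorem vD_pos {E : ℝ} (hE : 0 < E) : 0 < vD E := by unfold vD; positivity

theorem xz_R (s E : ℝ) : xz.R s E = 1 - s ^ 2 := by
  unfold xz
  rw [Ex.R_sub, Ex.R_mul, Ex.R_X, xk_R _ _ _ _ le_rfl]
  push_cast
  ring

theorem xN_R (s E : ℝ) : xN.R s E = vN E := by
  unfold xN vN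
  simp only [Ex.R_add, Ex.R_sub, Ex.R_mul, Ex.R_Y]
  simp (discharger := norm_num) only [xk_R]
  push_cast
  ring

theorem xD_R (s E : ℝ) : xD.R s E = vD E := by
  unfold xD vD
  simp only [Ex.R_add, Ex.R_mul, Ex.R_Y]
  simp (discharger := norm_num) only [xk_R]
  push_cast
  ring

theorem xD2_R (s E : ℝ) : xD2.R s E = vD E ^ 2 := by
  unfold xD2; rw [Ex.R_mul, xD_R]; ring

theorem xND_R {E : ℝ} (hE : 0 < E) (s : ℝ) : xND.R s E = vD E ^ 2 * vL E := by
  unfold xND vL; rw [Ex.R_mul, xD_R, xN_R]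
  have := (vD_pos hE).ne'
  field_simp

theorem xN2_R {E : ℝ} (hE : 0 < E) (s : ℝ) : xN2.R s E = vD E ^ 2 * vL E ^ 2 := by
  unfold xN2 vL; rw [Ex.R_mul, xN_R]
  have := (vD_pos hE).ne'
  field_simp

theorem xE6_R (s E : ℝ) : xE6.R s E = E ^ 6 := by unfold xE6; rw [xp_R, Ex.R_Y]

theorem xA_R {E : ℝ} (hE : 0 < E) (s : ℝ) (k : ℕ) :
    (xA k).R s E = vD E ^ 2 * (E ^ k - 1 + k * vL E) := by
  unfold xA
  rw [Ex.R_add, Ex.R_mul, Ex.R_mul, Ex.R_sub, xp_R, Ex.R_Y, xD2_R, xND_R hE,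
    xk_R _ _ _ _ le_rfl, xk_R _ _ _ _ le_rfl]
  push_cast
  ring

theorem xB_R {E : ℝ} (hE : 0 < E) (s : ℝ) (k : ℕ) :
    (xB k).R s E = vD E ^ 2 * (E ^ k * ((E ^ k)⁻¹ - 1 - k * vL E)) := by
  unfold xB
  rw [Ex.R_sub, Ex.R_mul, Ex.R_mul, Ex.R_sub, Ex.R_mul, xp_R, Ex.R_Y, xD2_R, xND_R hE,
    xk_R _ _ _ _ le_rfl, xk_R _ _ _ _ le_rfl]
  have : E ^ k * (E ^ k)⁻¹ = 1 := mul_inv_cancel₀ (pow_pos hE k).ne'
  push_cast
  linear_combination -vD E ^ 2 * this

theorem xm_R {E : ℝ} (hE : 0 < E) (s : ℝ) {k : ℕ} (hk : 1 ≤ k) (hk6 : k ≤ 6) :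
    (xm k).R s E = E ^ 6 * vD E ^ 2 * mR k E (vL E) := by
  unfold xm mR
  rw [Ex.R_sub, Ex.R_add, Ex.R_mul, Ex.R_mul, Ex.R_mul, Ex.R_mul, Ex.R_mul, Ex.R_mul, xE6_R,
    xA_R hE, xp_R, Ex.R_Y, xB_R hE, xN2_R hE, xk_R _ _ _ _ (by omega), xk_R _ _ _ _ (by omega),
    xk_R _ _ _ _ (by omega)]
  have h6 : E ^ (6 - k) * E ^ k = E ^ 6 := by rw [← pow_add, Nat.sub_add_cancel hk6]
  have hk0 : (k : ℝ) ≠ 0 := by positivity
  push_cast
  linear_combination -(1 / (2 * k) * vD E ^ 2 * ((E ^ k)⁻¹ - 1 - k * vL E)) * h6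

theorem xh_R {E : ℝ} (hE : 0 < E) (s : ℝ) {k : ℕ} (hk : 1 ≤ k) :
    (xh k).R s E = E ^ 6 * vD E ^ 2 * hR k E (vL E) := by
  unfold xh hR
  rw [Ex.R_sub, Ex.R_mul, Ex.R_mul, Ex.R_mul, Ex.R_mul, xE6_R,
    xA_R hE, xN2_R hE, xk_R _ _ _ _ (by omega), xk_R _ _ _ _ (by omega)]
  push_cast
  ring

/-- kernel sum: coefficient of `w` -/
noncomputable def xK1 : Ex := xz * (xk 3 4 * xm 2 + xz * (xk 5 8 * xm 3 + xz * (xk 35 64 * xm 4 +
  xz * (xk 63 128 * xm 5 + xz * (xk 231 512 * xm 6)))))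

noncomputable def xg (k : ℕ) : Ex := xk (1 + 2 * k : ℤ) 1 * (xz * xm k) + xh k

/-- kernel sum: constant coefficient -/
noncomputable def xK0 : Ex := xz * (xk 3 4 * xg 2 + xz * (xk 5 8 * xg 3 + xz * (xk 35 64 * xg 4 +
  xz * (xk 63 128 * xg 5 + xz * (xk 231 512 * xg 6)))))

noncomputable def k1R (z E L : ℝ) : ℝ := z * (3 / 4 * mR 2 E L + z * (5 / 8 * mR 3 E L + z * (
  35 / 64 * mR 4 E L + z * (63 / 128 * mR 5 E L + z * (231 / 512 * mR 6 E L)))))

noncomputable def gR (k : ℕ) (z E L : ℝ) : ℝ := (1 + 2 * k) * (z * mR k E L) + hR k E L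

noncomputable def k0R (z E L : ℝ) : ℝ := z * (3 / 4 * gR 2 z E L + z * (5 / 8 * gR 3 z E L + z * (
  35 / 64 * gR 4 z E L + z * (63 / 128 * gR 5 z E L + z * (231 / 512 * gR 6 z E L)))))

theorem xK1_R {E : ℝ} (hE : 0 < E) (s : ℝ) :
    xK1.R s E = E ^ 6 * vD E ^ 2 * k1R (1 - s ^ 2) E (vL E) := by
  unfold xK1 k1R
  simp only [Ex.R_add, Ex.R_mul, xz_R]
  rw [xm_R hE s (k := 2) (by norm_num) (by norm_num), xm_R hE s (k := 3) (by norm_num) (by norm_num),
    xm_R hE s (k := 4) (by norm_num) (by norm_num), xm_R hE s (k := 5) (by norm_num) (by norm_num),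
    xm_R hE s (k := 6) (by norm_num) (by norm_num)]
  simp (discharger := norm_num) only [xk_R]
  push_cast
  ring

theorem xg_R {E : ℝ} (hE : 0 < E) (s : ℝ) {k : ℕ} (hk : 1 ≤ k) (hk6 : k ≤ 6) :
    (xg k).R s E = E ^ 6 * vD E ^ 2 * gR k (1 - s ^ 2) E (vL E) := by
  unfold xg gR
  rw [Ex.R_add, Ex.R_mul, Ex.R_mul, xz_R, xm_R hE s hk hk6, xh_R hE s hk,
    xk_R _ _ _ _ le_rfl]
  push_cast
  ring

theorem xK0_R {E : ℝ} (hE : 0 < E) (s : ℝ) :
    xK0.R s E = E ^ 6 * vD E ^ 2 * k0R (1 - s ^ 2) E (vL E) := by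
  unfold xK0 k0R
  simp only [Ex.R_add, Ex.R_mul, xz_R]
  rw [xg_R hE s (k := 2) (by norm_num) (by norm_num), xg_R hE s (k := 3) (by norm_num) (by norm_num),
    xg_R hE s (k := 4) (by norm_num) (by norm_num), xg_R hE s (k := 5) (by norm_num) (by norm_num),
    xg_R hE s (k := 6) (by norm_num) (by norm_num)]
  simp (discharger := norm_num) only [xk_R]
  push_cast
  ring

end Vale.Agent.P237.AllN.Fxq
end

theorem P237.eqforce_cT : True := by first | exact (fun _ => trivial) @Vale.Agent.P237.AllN.PcRho.cT.eq_1 | exact (fun _ => trivial) @Vale.Agent.P237.AllN.PcRho.cT.eq_1.{0}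

theorem P237.eqforce_UT : True := by first | exact (fun _ => trivial) @Vale.Agent.P237.AllN.PcRho.UT.eq_1 | exact (fun _ => trivial) @Vale.Agent.P237.AllN.PcRho.UT.eq_1.{0}

theorem P237.eqforce_q3T : True := by first | exact (fun _ => trivial) @Vale.Agent.P237.AllN.PcRho.q3T.eq_1 | exact (fun _ => trivial) @Vale.Agent.P237.AllN.PcRho.q3T.eq_1.{0}

theorem P237.eqforce_q4T : True := by first | exact (fun _ => trivial) @Vale.Agent.P237.AllN.PcRho.q4T.eq_1 | exact (fun _ => trivial) @Vale.Agent.P237.AllN.PcRho.q4T.eq_1.{0}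

theorem P237.eqforce_al9 : True := by first | exact (fun _ => trivial) @Vale.Agent.P237.AllN.PcRho.al9.eq_1 | exact (fun _ => trivial) @Vale.Agent.P237.AllN.PcRho.al9.eq_1.{0}

theorem P237.eqforce_be9 : True := by first | exact (fun _ => trivial) @Vale.Agent.P237.AllN.PcRho.be9.eq_1 | exact (fun _ => trivial) @Vale.Agent.P237.AllN.PcRho.be9.eq_1.{0}
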