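import Mathlib
import Vale.Agent.P237.Bd3.B4
import Vale.Agent.P237.Bd3.B5
import Vale.Agent.P237.Bd3.B2
import Vale.Agent.P237.Bd3.B7

set_option linter.all false

section

/-!
# P237, plain certificate (m ≥ 5): from the quadratic forms to the pointwise inequality (right, `u ≥ 0`)
-/

namespace Vale.Agent.P237.AllN

open PolyPos

theorem regRP {P : Pm} (hm : 0 < P.m) {kap lp C rh s be z t u l lam : ℝ}
    (hs : 0 < s) (hts : t = s * s) (hz : z = 1 - t) (hz0 : 0 ≤ z) (hbe : 0 < be)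
    (hu : u = (1 - be) / be)
    (hδ : z - 3 / ((P.m : ℝ) + 2) ≠ 0) (hrb : 0 ≤ rh) (hkap : 0 ≤ kap)
    (hm1 : 1 ≤ P.m) (hD : 0 < 2 * be * ((P.m : ℝ) + 2 - (P.m + 1) * t) + t)
    (hl : l ≤ t * (lp - 2 / (2 * be * ((P.m : ℝ) + 2 - (P.m + 1) * t) + t)))
    (hF : FormNN (entRP Fr.R P kap lp C rh s be)) :
    P.eps.R * (u ^ 2 / (1 + u)) ≤
      pcLow P.m P.k1.R P.th.R P.c2.R (1 - t / (1 + s)) C (rh / (1 + u)) (z / t) l u lam +
      pcNR P.m P.a4.R (3 / ((P.m : ℝ) + 2)) z (z / t) (l - lam) u := by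
  have hm' : (P.m : ℝ) ≠ 0 := by exact_mod_cast hm.ne'
  have hm2 : (1 : ℝ) ≤ P.m := by exact_mod_cast hm1
  have hm1 : (P.m : ℝ) + 1 ≠ 0 := by positivity
  have ht : 0 < t := by rw [hts]; positivity
  have htne := ht.ne'
  have hbne := hbe.ne'
  have hs1 : (1 : ℝ) + s ≠ 0 := by positivity
  have hE : 1 + u = 1 / be := by
    rw [hu]
    field_simp
    ring
  have hE0 : 0 < 1 + u := by rw [hE]; positivity
  set e := (l - lam) / (z - 3 / ((P.m : ℝ) + 2)) with hedef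
  set D := 2 * be * ((P.m : ℝ) + 2 - (P.m + 1) * t) + t with hDdef
  have hDne := hD.ne'
  have h := hF u (e / (t * be)) (lam / (t * be))
  have h1 : 0 ≤ ((P.m : ℝ) - 1) / (P.m + 1) := div_nonneg (by linarith only [hm2]) (by linarith only [])
  have hη : 0 ≤ kap *
      ((3 * (((P.m : ℝ) - 1) / (P.m + 1)) * z + 1 / (P.m : ℝ) * (rh * t)) / t) := by
    (clear * - hkap hm2 hm hz0 hrb ht; positivity)
  refine pc_right_ge (η := kap *
      ((3 * (((P.m : ℝ) - 1) / (P.m + 1)) * z + 1 / (P.m : ℝ) * (rh * t)) / t))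
    (lm := t * (lp - 2 / D)) (e := e) hm' ht hE0 hδ ?_ hη (Or.inr hl) ?_
  · rw [hedef, mul_comm, div_mul_cancel₀ _ hδ]
    ring
  · refine nonneg_of_mul_nonneg_right (a := D * (1 + s)) (h.trans (le_of_eq ?_))
      (mul_pos hD (by linarith only [hs]))
    simp only [entRP, Fr.R1, Fr.R2, Fr.R3, Fr.R12, Fr.Rm12, Fr.R32, Fr.R92, Pm.cx_R, Pm.cg_R,
      Pm.c1_R, Pm.c3_R, Pm.cm_R, Pm.ci_R P hm, Pm.ch_R P hm]
    rw [← hts, ← hz, ← hDdef]
    have hu2 : (1 - be) = u * be := by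
      rw [hu]
      (clear * - hbne; field_simp)
    have hE2 : (1 + u) = 1 / be := hE
    rw [hu2, hE2]
    clear_value D e
    field_simp
    ring

end Vale.Agent.P237.AllN
end

section

/-!
# P237, plain certificate (m ≥ 5): from the quadratic forms to the pointwise inequality (right, `u ≥ 0`, near `x = 1`)
-/

namespace Vale.Agent.P237.AllN

open PolyPos

theorem regRS {P : Pm} (hm : 0 < P.m) {kap lp C r0 s v z t u l lam : ℝ}
    (hs : 0 < s) (hts : t = s * s) (hz : z = 1 - t) (hz0 : 0 ≤ z) (hv : 0 ≤ v)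
    (hu : v = u * s)
    (hδ : z - 3 / ((P.m : ℝ) + 2) ≠ 0) (hr0 : 0 ≤ r0) (hkap : 0 ≤ kap)
    (hm1 : 1 ≤ P.m) (hD : 0 < 2 * s * ((P.m : ℝ) + 2 - (P.m + 1) * t) + t * (s + v))
    (hl : l ≤ t * (lp - 2 * (s + v) / (2 * s * ((P.m : ℝ) + 2 - (P.m + 1) * t) + t * (s + v))))
    (hF : FormNN (entRS Fr.R P kap lp C r0 s v)) :
    P.eps.R * (u ^ 2 / (1 + u)) ≤
      pcLow P.m P.k1.R P.th.R P.c2.R (1 - t / (1 + s)) C ((r0 * s + v) / (s + v) / (1 + u))
        (z / t) l u lam +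
      pcNR P.m P.a4.R (3 / ((P.m : ℝ) + 2)) z (z / t) (l - lam) u := by
  have hm' : (P.m : ℝ) ≠ 0 := by exact_mod_cast hm.ne'
  have hm2 : (1 : ℝ) ≤ P.m := by exact_mod_cast hm1
  have hm1 : (P.m : ℝ) + 1 ≠ 0 := by positivity
  have ht : 0 < t := by rw [hts]; positivity
  have htne := ht.ne'
  have hsne := hs.ne'
  have hs1 : (1 : ℝ) + s ≠ 0 := by positivity
  have hq : 0 < s + v := by positivity
  obtain ⟨q, hqd⟩ : ∃ q, q = s + v := ⟨_, rfl⟩
  rw [← hqd] at hq hD hl ⊢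
  have hqne := hq.ne'
  have hE : 1 + u = q / s := by
    rw [hqd, hu]
    (clear * - hsne; field_simp)
  have hE0 : 0 < 1 + u := by rw [hE]; positivity
  set e := (l - lam) / (z - 3 / ((P.m : ℝ) + 2)) with hedef
  set D := 2 * s * ((P.m : ℝ) + 2 - (P.m + 1) * t) + t * q with hDdef
  have hDne := hD.ne'
  have h := hF (u / q) (e / (t * s * q)) (lam / (t * s * q))
  have h1 : 0 ≤ ((P.m : ℝ) - 1) / (P.m + 1) := div_nonneg (by linarith only [hm2]) (by linarith only [])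
  have hη : 0 ≤ kap *
      ((3 * (((P.m : ℝ) - 1) / (P.m + 1)) * z + 1 / (P.m : ℝ) * ((r0 * s + v) / q * t)) / t) := by
    (clear * - hkap hm2 hm hz0 hr0 hs hv hq ht; positivity)
  refine pc_right_ge (η := kap *
      ((3 * (((P.m : ℝ) - 1) / (P.m + 1)) * z + 1 / (P.m : ℝ) * ((r0 * s + v) / q * t)) / t))
    (lm := t * (lp - 2 * q / D)) (e := e) hm' ht hE0 hδ ?_ hη (Or.inr hl) ?_
  · rw [hedef, mul_comm, div_mul_cancel₀ _ hδ]
    ring
  · refine nonneg_of_mul_nonneg_right (a := D / q * (1 + s)) (h.trans (le_of_eq ?_))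
      (mul_pos (div_pos hD hq) (by linarith only [hs]))
    simp only [entRS, Fr.R1, Fr.R2, Fr.R3, Fr.R12, Fr.Rm12, Fr.R32, Fr.R92, Pm.cx_R, Pm.cg_R,
      Pm.c1_R, Pm.c3_R, Pm.cm_R, Pm.ci_R P hm, Pm.ch_R P hm]
    rw [← hts, ← hz, ← hqd, ← hDdef, hE]
    obtain ⟨w, hw⟩ : ∃ w, w = r0 * s + v := ⟨_, rfl⟩
    rw [← hw, hu]
    clear_value D e
    field_simp
    ring

end Vale.Agent.P237.AllN
end

section

/-!
# P237, plain certificate: kernel checks for `m = 6`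
-/

namespace Vale.Agent.P237.AllN

open PolyPos

/-- data of the certificate, `m = 6` -/
def D6 : Dat := ⟨⟨6, ⟨43, 39⟩, ⟨187, 499⟩, ⟨551, 999⟩, ⟨1, 0⟩, ⟨13, 124⟩, ⟨27, 99⟩, ⟨43, 1999⟩, ⟨1, 999⟩, ⟨1, 999⟩⟩,
  ⟨469, 499⟩, ⟨53, 999⟩, ⟨53, 499⟩, ⟨147, 124⟩, ⟨57, 124⟩, ⟨13, 49⟩, ⟨1, 24⟩, ⟨853, 999⟩, 3, 613, 1187, 791, 938, 2 ^ 1024, 40⟩

theorem chk6_LP :
    D6.kLP (.leaf 0) = true := by
  decide +kernel

theorem chk6_LM :
    D6.kLM (.sx (.leaf 0) (.sy (.leaf 0) (.sx (.leaf 0) (.sy (.leaf 0) .out)))) = true := by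
  decide +kernel

theorem chk6_RMT0 :
    D6.kRM D6.rbT 6 0 791 250 1000 (.sx (.leaf 0) (.leaf 0)) = true := by
  decide +kernel

theorem chk6_RMt0 :
    D6.kRM D6.rbG 6 0 791 6 250 (.sx (.leaf 0) (.sy (.sx (.leaf 0) (.sy (.sx (.leaf 0) .out)
    (.leaf 0))) (.leaf 0))) = true := by
  decide +kernel

theorem chk6_RMc0 :
    D6.kRM D6.rbC 6 0 791 0 6 (.sx (.leaf 0) (.leaf 0)) = true := by
  decide +kernel

theorem chk6_RP1 :
    D6.kRP1 (.sx (.leaf 1) (.sy (.sx (.leaf 1) (.sy (.sx (.leaf 1) .out) (.leaf 1))) (.leaf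
    0))) = true := by
  decide +kernel

theorem chk6_RP2 :
    D6.kRP2 (.sx (.sy .out (.leaf 0)) .out) = true := by
  decide +kernel

theorem chk6_RS :
    D6.kRS (.leaf 1) = true := by
  decide +kernel

end Vale.Agent.P237.AllN
end

section

/-!
# P237, all dimensions: the uniform plain certificate (`m ≥ 15`), left region

`y = x²/s²`, `Y = (m-1) y`, `x₀² = 2/(m+1)`, `Y(x₀) = 2`, `U = u²/(1+u)`, `w = u - log (1+u)`.
-/

open Set

namespace Vale.Agent.P237.AllN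

/-! ### logarithm bounds -/

theorem u15_w_nonneg {u : ℝ} (hu : 0 < 1 + u) : 0 ≤ u - Real.log (1 + u) := by
  have := Real.log_le_sub_one_of_pos hu
  linarith

theorem u15_w_pos_le {u : ℝ} (hu : 0 ≤ u) : u - Real.log (1 + u) ≤ u ^ 2 / (2 + u) := by
  have h := Real.le_log_one_add_of_nonneg hu
  have e : u - 2 * u / (u + 2) = u ^ 2 / (2 + u) := by field_simp; ring
  linarith only [h, e]

theorem u15_w_pos_ge {u : ℝ} (hu : 0 ≤ u) : u ^ 2 / (1 + u) / 2 ≤ u - Real.log (1 + u) := by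
  have hd : ∀ t : ℝ, 0 ≤ t → HasDerivAt (fun t : ℝ => t - Real.log (1 + t) - t ^ 2 / (1 + t) / 2)
      (t ^ 2 / (2 * (1 + t) ^ 2)) t := by
    intro t ht
    have h1 : (1 + t) ≠ 0 := by (clear * - ht; positivity)
    have hl := ((hasDerivAt_id t).const_add 1).log h1
    have hq := ((hasDerivAt_pow 2 t).div ((hasDerivAt_id t).const_add 1) h1).div_const 2
    refine (((hasDerivAt_id t).sub hl).sub hq).congr_deriv ?_
    simp only [id]
    field_simp
    push_cast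
    ring
  have hm : MonotoneOn (fun t : ℝ => t - Real.log (1 + t) - t ^ 2 / (1 + t) / 2) (Icc 0 u) := by
    apply monotoneOn_of_deriv_nonneg (convex_Icc _ _)
    · exact fun t ht => (hd t ht.1).continuousAt.continuousWithinAt
    · exact fun t ht => (hd t (interior_subset ht).1).differentiableAt.differentiableWithinAt
    · intro t ht
      rw [(hd t (interior_subset ht).1).deriv]
      (clear * -; positivity)
  have := hm ⟨le_rfl, hu⟩ ⟨hu, le_rfl⟩ hu
  simp only [add_zero, Real.log_one, sub_self, ne_eq, OfNat.ofNat_ne_zero, not_false_eq_true, zero_pow, div_one, zero_div, sub_nonneg] at this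
  linarith only [this]

theorem u15_w_neg_le {u : ℝ} (hu : -1 < u) (hu0 : u ≤ 0) :
    u - Real.log (1 + u) ≤ (1 / 2 + u / 6) * (u ^ 2 / (1 + u)) := by
  have hd : ∀ t : ℝ, -1 < t → HasDerivAt
      (fun t : ℝ => (1 / 2 + t / 6) * (t ^ 2 / (1 + t)) - (t - Real.log (1 + t)))
      (t ^ 3 / (3 * (1 + t) ^ 2)) t := by
    intro t ht
    have h1 : (1 + t) ≠ 0 := by linarith only [ht]
    have hl := ((hasDerivAt_id t).const_add 1).log h1
    have hq := ((hasDerivAt_pow 2 t).div ((hasDerivAt_id t).const_add 1) h1)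
    have hc := ((hasDerivAt_id t).div_const 6).const_add (1 / 2)
    refine ((hc.mul hq).sub ((hasDerivAt_id t).sub hl)).congr_deriv ?_
    simp only [id, Pi.div_apply]
    field_simp
    push_cast
    ring
  have hm : AntitoneOn (fun t : ℝ => (1 / 2 + t / 6) * (t ^ 2 / (1 + t)) - (t - Real.log (1 + t)))
      (Icc u 0) := by
    apply antitoneOn_of_deriv_nonpos (convex_Icc _ _)
    · exact fun t ht => (hd t (by linarith only [hu, ht.1])).continuousAt.continuousWithinAt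
    · exact fun t ht => (hd t (by linarith only [hu, (interior_subset ht).1])).differentiableAt.differentiableWithinAt
    · intro t ht
      have ht' := interior_subset ht
      rw [(hd t (by linarith [ht'.1])).deriv]
      have h3 : t ^ 3 ≤ 0 := by
        have : t ^ 3 = t * t ^ 2 := by ring
        rw [this]
        exact mul_nonpos_of_nonpos_of_nonneg ht'.2 (sq_nonneg t)
      have h4 : 0 < 1 + t := by linarith [ht'.1]
      exact div_nonpos_of_nonpos_of_nonneg h3 (by (clear * - h4; positivity))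
  have := hm ⟨le_rfl, hu0⟩ ⟨hu0, le_rfl⟩ hu0
  simp only [one_div, zero_div, add_zero, ne_eq, OfNat.ofNat_ne_zero, not_false_eq_true, zero_pow, div_one, mul_zero, Real.log_one, sub_self, sub_nonneg, tsub_le_iff_right] at this
  linarith only [this]

/-! ### the quadratic form -/

theorem u15_aff {A B w1 w2 w : ℝ} (h1 : 0 ≤ A + B * w1) (h2 : 0 ≤ A + B * w2) (hw1 : w1 ≤ w)
    (hw2 : w ≤ w2) : 0 ≤ A + B * w := by
  rcases le_total 0 B with h | h
  · linarith only [h1, mul_le_mul_of_nonneg_left hw1 h]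
  · linarith only [h2, mul_le_mul_of_nonpos_left hw2 h]

theorem u15_Q {a b U w Y : ℝ} (hY0 : 0 ≤ Y) (hY2 : Y ≤ 2) (hw1 : U / 2 ≤ w) (hw2 : w ≤ U) :
    0 ≤ 6 * (a - b) ^ 2 + 9 * a * b - 9 / 2 * a ^ 2 + (9 / 7 * Y - 1 / 2) * a ^ 2 -
      3 * Y * a * U - 9 * b * w + 44 / 5 * U ^ 2 := by
  have c1 : 0 ≤ (6 * (a - b) ^ 2 + 9 * a * b - 9 / 2 * a ^ 2 - 1 / 2 * a ^ 2 - 9 * b * w +
      44 / 5 * U ^ 2) + (9 / 7 * a ^ 2 - 3 * a * U) * 0 := by
    have := u15_aff (A := 6 * (a - b) ^ 2 + 9 * a * b - 9 / 2 * a ^ 2 - 1 / 2 * a ^ 2 +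
      44 / 5 * U ^ 2) (B := -9 * b) (w1 := U / 2) (w2 := U) (w := w)
      (by nlinarith only [sq_nonneg (a - 3 / 2 * b), sq_nonneg (b - 3 / 5 * U)])
      (by nlinarith only [sq_nonneg (a - 3 / 2 * b), sq_nonneg (b - 6 / 5 * U)]) hw1 hw2
    linarith
  have c2 : 0 ≤ (6 * (a - b) ^ 2 + 9 * a * b - 9 / 2 * a ^ 2 - 1 / 2 * a ^ 2 - 9 * b * w +
      44 / 5 * U ^ 2) + (9 / 7 * a ^ 2 - 3 * a * U) * 2 := by
    have := u15_aff (A := 6 * (a - b) ^ 2 + 9 * a * b - 9 / 2 * a ^ 2 - 1 / 2 * a ^ 2 +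
      44 / 5 * U ^ 2 + (9 / 7 * a ^ 2 - 3 * a * U) * 2) (B := -9 * b) (w1 := U / 2) (w2 := U)
      (w := w)
      (by nlinarith only [sq_nonneg (a - 21 / 50 * b - 21 / 25 * U), sq_nonneg (b - 117 / 179 * U)])
      (by linarith only [sq_nonneg U, sq_nonneg (b - 192 / 179 * U), sq_nonneg (a - 21 / 50 * b - 21 / 25 * U)]) hw1 hw2
    (clear * - this; linarith)
  have := u15_aff c1 c2 hY0 hY2
  linarith only [this]

/-! ### the reduced inequality -/

theorem u15_left_pos {M Y l lam u U w S : ℝ} (hM : 16 ≤ M) (hY0 : 0 < Y) (hY2 : Y ≤ 2)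
    (hu : 0 ≤ u) (hU : U * (1 + u) = u ^ 2) (hS : 13 / 20 * Y ≤ S) (huk : u ^ 2 ≤ 17 / 100 * Y)
    (hw1 : U / 2 ≤ w) (hw2 : w * (2 + u) ≤ u ^ 2) :
    U / 10 ≤ M * (U - w) - 2 * u ^ 2 + (S - 2) * U - 3 * Y * l * U - 9 * lam * w +
      Y * (6 * (l - lam) ^ 2 + 9 * lam * l - 9 / 2 * l ^ 2 + (9 / 7 * Y - 1 / 2) * l ^ 2) := by
  have hu1 : 0 < 1 + u := by linarith only [hu]
  have hU0 : 0 ≤ U := by
    by_contra h
    push Not at h
    linarith only [mul_pos (sub_pos.2 h) (sub_pos.2 hu1), hU, sq_nonneg (u : ℝ)]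
  have hUw : U ≤ (U - w) * (2 + u) := by nlinarith only [hU, hw2]
  have hwU : w ≤ U := by
    by_contra h
    push Not at h
    nlinarith only [hU, hw2, h, hu]
  have hUu : U ≤ u ^ 2 := by (by_contra nlg; linarith only [nlg, mul_nonneg (le_of_lt (sub_pos.2 (not_le.1 nlg))) (sub_nonneg.2 hu), mul_nonneg (sq_nonneg (u : ℝ)) (sub_nonneg.2 hu), hU])
  have hT : 0 ≤ Y * (Y * (6 * (l - lam) ^ 2 + 9 * lam * l - 9 / 2 * l ^ 2 +
      (9 / 7 * Y - 1 / 2) * l ^ 2) - 3 * Y * l * U - 9 * lam * w + 3 / 2 * U) := by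
    have h1 := u15_Q (a := Y * l) (b := Y * lam) hY0.le hY2 hw1 hwU
    have h2 : U * U ≤ U * (17 / 100 * Y) := mul_le_mul_of_nonneg_left (hUu.trans huk) hU0
    nlinarith only [h1, h2]
  have hT' := nonneg_of_mul_nonneg_right hT hY0
  have h3 : 0 ≤ (M - 16) * (U - w) := mul_nonneg (by linarith only [hM]) (by linarith only [hwU])
  -- `16 (U-w) - 2 (1+u) U + (S - 7/2) U ≥ U/10`
  have h4 : 0 ≤ (16 * (U - w) - 2 * ((1 + u) * U) + (S - 18 / 5) * U) * (2 + u) := by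
    have h5 : 19 / 5 * u ^ 2 ≤ S := by nlinarith only [hS, huk]
    have h6 : 0 ≤ 24 / 5 - 48 / 5 * u + 28 / 5 * u ^ 2 + 19 / 5 * u ^ 3 := by
      nlinarith only [hu, sq_nonneg (u - 6 / 7)]
    have h7 : 0 ≤ U * (24 / 5 - 48 / 5 * u + 28 / 5 * u ^ 2 + 19 / 5 * u ^ 3) :=
      mul_nonneg hU0 h6
    have h8 : 0 ≤ (S - 19 / 5 * u ^ 2) * (U * (2 + u)) :=
      mul_nonneg (by linarith only [hY0, hS, huk]) (mul_nonneg hU0 (by linarith only [hu]))
    linarith only [h8, h7, hw2, hU]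
  have h9 := nonneg_of_mul_nonneg_left h4 (by linarith only [hu])
  have h10 : (1 + u) * U = u ^ 2 := by linarith only [hU]
  rw [h10] at h9
  (clear * - hT' h3 h9; linarith)

theorem u15_left_neg {M Y l lam u U w S : ℝ} (hM : 16 ≤ M) (hY0 : 0 < Y) (hY2 : Y ≤ 2)
    (hu1 : 0 < 1 + u) (hu : u ≤ 0) (hU : U * (1 + u) = u ^ 2) (hS : 0 ≤ S)
    (hl : l ≤ 127 / 200) (hlam : lam ≤ 3 / 5) (hw0 : 0 ≤ w) (hw : w ≤ (1 / 2 + u / 6) * U) :
    U / 10 ≤ M * (U - w) - 2 * u ^ 2 + (S - 2) * U - 3 * Y * l * U - 9 * lam * w +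
      Y * (6 * (l - lam) ^ 2 + 9 * lam * l - 9 / 2 * l ^ 2 + (9 / 7 * Y - 1 / 2) * l ^ 2) := by
  have hU0 : 0 ≤ U := by
    by_contra h
    push Not at h
    nlinarith only [hw0, hw, h, hu1]
  have huU : u * U ≤ 0 := mul_nonpos_of_nonpos_of_nonneg hu hU0
  have hwU : w ≤ U := by linarith only [huU, hU0, hw]
  have h1 : 0 ≤ (M - 16) * (U - w) := mul_nonneg (by linarith only [hM]) (by linarith only [hw, hU0, huU])
  have h2 : 0 ≤ S * U := mul_nonneg hS hU0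
  have h3 : 0 ≤ (3 / 5 - lam) * w := mul_nonneg (by linarith only [hlam]) hw0
  have h4 : 0 ≤ Y * (6 * (lam - l / 4) ^ 2) := by (clear * - hY0; positivity)
  have h5 : 0 ≤ U * (4 / 27 - u ^ 2 - u ^ 3) := by
    apply mul_nonneg hU0
    have : 4 / 27 - u ^ 2 - u ^ 3 = (u + 2 / 3) ^ 2 * (1 / 3 - u) := by ring
    rw [this]
    exact mul_nonneg (sq_nonneg _) (by linarith only [hu])
  have h6 : u ^ 4 ≤ 4 / 27 * U := by
    have : u ^ 4 = u ^ 2 * (U * (1 + u)) := by rw [hU]; ring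
    linarith only [this, h5]
  have key : 381 / 100 * (u * U) - 63 / 40 * u ^ 4 ≤
      - 3 * Y * l * U + Y * ((9 / 7 * Y + 5 / 8) * l ^ 2) := by
    have hY1 : 0 ≤ Y * (5 / 8 - 1 / 7 * Y) * l ^ 2 :=
      mul_nonneg (mul_nonneg hY0.le (by linarith only [hY2])) (sq_nonneg l)
    rcases le_total l 0 with h | h
    · have h7 : 0 ≤ (-l) * (Y * U) := mul_nonneg (by linarith only [h]) (mul_nonneg hY0.le hU0)
      have h8 : 0 ≤ u ^ 4 := by (clear * -; positivity)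
      have h9 : 0 ≤ Y * ((9 / 7 * Y + 5 / 8) * l ^ 2) := by (clear * - hY0; positivity)
      linarith only [h9, h8, h7, huU]
    · have h7 : Y * l ≤ 127 / 100 := by nlinarith only [hY2, hY0, hl]
      have h8 : 0 ≤ (127 / 100 - Y * l) * (-(u * U)) := mul_nonneg (by linarith only [h7]) (by linarith only [huU])
      have h9 : 0 ≤ (Y * l - 21 / 20 * u ^ 2) ^ 2 := sq_nonneg _
      have h10 : - 3 * Y * l * U = 3 * (Y * l) * (u * U) - 3 * (Y * l) * (U * (1 + u)) := by ring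
      rw [h10, hU]
      linarith only [h9, h8, hY1]
  have h11 : (1 + u) * U = u ^ 2 := by linarith only [hU]
  linarith

/-! ### the left region -/

theorem u15_left_SY {m x s p Y S : ℝ} (hm : 15 ≤ m) (hs : 0 < s) (hxs : x ^ 2 + s ^ 2 = 1)
    (hp : p = x ^ 2 / s ^ 2) (hY : Y = (m - 1) * p) (hx8 : x ^ 2 ≤ 1 / 8)
    (hS : S = (m - 1) * (1 - 2 * (s ^ 2 / (1 + s)))) : 13 / 20 * Y ≤ S := by
  have hp0 : 0 ≤ p := by rw [hp]; (clear * - hs; positivity)
  have h1 : 1 - 2 * (s ^ 2 / (1 + s)) = p * (s ^ 2 * (1 + 2 * s) / (1 + s) ^ 2) := by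
    rw [hp]
    field_simp
    have : x ^ 2 = (1 - s) * (1 + s) := by linarith only [hxs]
    rw [this]
    ring
  have h2 : 13 / 20 ≤ s ^ 2 * (1 + 2 * s) / (1 + s) ^ 2 := by
    rw [le_div_iff₀ (by positivity)]
    have h3 : 7 / 8 ≤ s ^ 2 := by linarith only [hxs, hx8]
    have h4 : 93 / 100 ≤ s := by nlinarith only [hs, hxs, hx8]
    nlinarith only [h4]
  rw [hS, h1, hY]
  have := mul_le_mul_of_nonneg_left h2 (mul_nonneg (by linarith only [hm] : 0 ≤ m - 1) hp0)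
  linarith only [this]

theorem u15_left_G {m p Y t l lam u U w S F : ℝ} (hm : 15 ≤ m) (hp0 : 0 < p)
    (hY : Y = (m - 1) * p) (hY0 : 0 < Y) (ht1 : t * (2 - Y) = 1) (ht2 : 1 / 2 ≤ t)
    (hF : -(1 / 2 * p) * l ^ 2 ≤ F)
    (core : U / 10 ≤ (m + 1) * (U - w) - 2 * u ^ 2 + (S - 2) * U - 3 * Y * l * U -
      9 * lam * w + Y * (6 * (l - lam) ^ 2 + 9 * lam * l - 9 / 2 * l ^ 2 +
        (9 / 7 * Y - 1 / 2) * l ^ 2)) :
    U / 10 ≤ (m - 1 + S) * U - (m + 1) * w - 3 * Y * l * U - 9 * lam * w +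
      9 * Y * lam * l - 3 / 2 * Y * (3 - (m - 3) * p) * l ^ 2 + (m - 1) * F +
      (16 * Y * (1 + p) * t ^ 2 * (l - lam) ^ 2 + 8 * Y * t * (l - lam) * u +
      (1 - Y) * (4 * Y * t) * (l - lam) ^ 2) := by
  have hG : 16 * Y * (1 + p) * t ^ 2 * (l - lam) ^ 2 + 8 * Y * t * (l - lam) * u +
      (1 - Y) * (4 * Y * t) * (l - lam) ^ 2 = 2 * (u + 2 * Y * t * (l - lam)) ^ 2 - 2 * u ^ 2 +
        4 * Y * (1 + t) * (l - lam) ^ 2 + 16 * Y * p * t ^ 2 * (l - lam) ^ 2 := by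
    linear_combination (8 * Y * t * (l - lam) ^ 2 + 4 * Y * (l - lam) ^ 2) * ht1
  rw [hG]
  have h1 : 6 * Y * (l - lam) ^ 2 ≤ 4 * Y * (1 + t) * (l - lam) ^ 2 := by
    apply mul_le_mul_of_nonneg_right _ (sq_nonneg _)
    linarith only [mul_nonneg (le_of_lt (sub_pos.2 hY0)) (sub_nonneg.2 ht2)]
  have h2 : 0 ≤ 16 * Y * p * t ^ 2 * (l - lam) ^ 2 := by positivity
  have h3 : 0 ≤ (m - 1) * (F + 1 / 2 * p * l ^ 2) := mul_nonneg (by linarith only [hm]) (by linarith only [hF])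
  have h4 : 0 ≤ Y * ((m - 3) * p - 6 / 7 * Y) * l ^ 2 := by
    apply mul_nonneg (mul_nonneg hY0.le _) (sq_nonneg l)
    rw [hY]
    linarith only [mul_nonneg (sub_nonneg.2 hm) (le_of_lt (sub_pos.2 hp0))]
  have h5 : (m - 1) * (F + 1 / 2 * p * l ^ 2) = (m - 1) * F + 1 / 2 * Y * l ^ 2 := by
    rw [hY]; ring
  rw [h5] at h3
  have h6 := sq_nonneg (u + 2 * Y * t * (l - lam))
  obtain ⟨q1, hq1⟩ : ∃ q, q = (u + 2 * Y * t * (l - lam)) ^ 2 := ⟨_, rfl⟩
  obtain ⟨q2, hq2⟩ : ∃ q, q = 16 * Y * p * t ^ 2 * (l - lam) ^ 2 := ⟨_, rfl⟩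
  obtain ⟨q3, hq3⟩ : ∃ q, q = 4 * Y * (1 + t) * (l - lam) ^ 2 := ⟨_, rfl⟩
  rw [← hq1] at h6 ⊢
  rw [← hq2] at h2 ⊢
  rw [← hq3] at h1 ⊢
  linarith only [core, h3, h4, h6, h2, h1]

theorem u15_left_alg {m s p Y t l lam u U w S F : ℝ} (hm1 : 0 < m + 1)
    (hY : Y = (m - 1) * p) (hS : S = (m - 1) * (1 - 2 * (s ^ 2 / (1 + s)))) :
    1 / (m + 1) * ((m - 1 + S) * U - (m + 1) * w - 3 * Y * l * U - 9 * lam * w +
      9 * Y * lam * l - 3 / 2 * Y * (3 - (m - 3) * p) * l ^ 2 + (m - 1) * F +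
      (16 * Y * (1 + p) * t ^ 2 * (l - lam) ^ 2 + 8 * Y * t * (l - lam) * u +
      (1 - Y) * (4 * Y * t) * (l - lam) ^ 2)) =
      (m - 1) / (m + 1) * (2 * (1 - s ^ 2 / (1 + s)) - 3 * p * l) * U -
        (1 + 9 * lam / (m + 1)) * w +
        Y * ((1 + 9 * lam / (m + 1)) - 1) * l -
        3 / 2 * ((m - 1) / (m + 1)) * p * (3 - (m - 3) * p) * l ^ 2 +
        (m - 1) / (m + 1) * F +
      (16 * Y * (1 + p) * t ^ 2 / (m + 1)) * (l - lam) ^ 2 +
      2 * (4 * Y * t / (m + 1)) * (l - lam) * u +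
      (1 - Y) * (4 * Y * t / (m + 1)) * (l - lam) ^ 2 := by
  obtain ⟨q, hq⟩ : ∃ q, q = s ^ 2 / (1 + s) := ⟨_, rfl⟩
  rw [← hq] at hS ⊢
  subst hS hY
  field_simp
  ring

/-- **Left region of the uniform plain certificate** (all real `m ≥ 15`, `x² < x₀² = 2/(m+1)`). -/
theorem u15_left {m x s l u lam F x0s : ℝ} (hm : 15 ≤ m) (hx : 0 < x) (hs : 0 < s)
    (hxs : x ^ 2 + s ^ 2 = 1) (hx0s : x0s = 2 / (m + 1)) (hlt : x ^ 2 < x0s) (hu : 0 < 1 + u)
    (huk : 0 ≤ u → u ^ 2 ≤ 17 / 100 * ((m - 1) * (x ^ 2 / s ^ 2)))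
    (hl : l ≤ 127 / 200) (hlam : lam ≤ 3 / 5)
    (hF : -(1 / 2 * (x ^ 2 / s ^ 2)) * l ^ 2 ≤ F) :
    1 / (10 * (m + 1)) * (u ^ 2 / (1 + u)) ≤
      (m - 1) / (m + 1) * (2 * (1 - s ^ 2 / (1 + s)) - 3 * (x ^ 2 / s ^ 2) * l) *
          (u ^ 2 / (1 + u)) -
        (1 + 9 * lam / (m + 1)) * (u - Real.log (1 + u)) +
        (m - 1) * (x ^ 2 / s ^ 2) * ((1 + 9 * lam / (m + 1)) - 1) * l -
        3 / 2 * ((m - 1) / (m + 1)) * (x ^ 2 / s ^ 2) * (3 - (m - 3) * (x ^ 2 / s ^ 2)) * l ^ 2 +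
        (m - 1) / (m + 1) * F +
      (2 * (4 * (m - 1) / (m + 1) ^ 2) * (x ^ 2 * x0s / (x0s - x ^ 2) ^ 2)) * (l - lam) ^ 2 +
      2 * (4 * (m - 1) / (m + 1) ^ 2 * (x ^ 2 / (x0s - x ^ 2))) * (l - lam) * u +
      (1 - (m - 1) * (x ^ 2 / s ^ 2)) * (4 * (m - 1) / (m + 1) ^ 2 * (x ^ 2 / (x0s - x ^ 2))) *
        (l - lam) ^ 2 := by
  subst hx0s
  have hm1 : 0 < m + 1 := by linarith only [hm]
  have hs2 : 0 < s ^ 2 := by positivity
  have hx2 : 0 < x ^ 2 := by positivity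
  have hlt' : x ^ 2 * (m + 1) < 2 := by rwa [lt_div_iff₀ hm1] at hlt
  obtain ⟨p, hp⟩ : ∃ p, p = x ^ 2 / s ^ 2 := ⟨_, rfl⟩
  have hp0 : 0 < p := by rw [hp]; positivity
  obtain ⟨Y, hY⟩ : ∃ Y, Y = (m - 1) * p := ⟨_, rfl⟩
  have hY0 : 0 < Y := by rw [hY]; exact mul_pos (by linarith only [hm]) hp0
  have hsY : s ^ 2 * (2 - Y) = 2 - (m + 1) * x ^ 2 := by
    rw [hY, hp]
    field_simp
    linarith only [hxs]
  have hY2 : 0 < 2 - Y := by
    have : 0 < s ^ 2 * (2 - Y) := by rw [hsY]; linarith only [hlt']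
    exact (pos_iff_pos_of_mul_pos this).1 hs2
  obtain ⟨t, ht⟩ : ∃ t, t = 1 / (2 - Y) := ⟨_, rfl⟩
  have ht1 : t * (2 - Y) = 1 := by rw [ht]; (clear * - hY2; field_simp)
  have ht0 : 0 < t := by rw [ht]; (clear * - hY2; positivity)
  have ht2 : 1 / 2 ≤ t := by nlinarith only [ht1, hY0, ht0]
  have hd : 2 / (m + 1) - x ^ 2 = s ^ 2 * (2 - Y) / (m + 1) := by
    rw [hsY]; (clear * - hm; field_simp)
  have e1 : 4 * (m - 1) / (m + 1) ^ 2 * (x ^ 2 / (2 / (m + 1) - x ^ 2)) =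
      4 * Y * t / (m + 1) := by
    have h : x ^ 2 = p * s ^ 2 := by rw [hp]; field_simp
    rw [hd, ht, h, hY]
    rw [hY] at hY2
    have := hY2.ne'
    field_simp
  have e2 : 2 * (4 * (m - 1) / (m + 1) ^ 2) * (x ^ 2 * (2 / (m + 1)) /
      (2 / (m + 1) - x ^ 2) ^ 2) = 16 * Y * (1 + p) * t ^ 2 / (m + 1) := by
    have h : x ^ 2 = p * s ^ 2 := by rw [hp]; (clear * - hs hx; field_simp)
    have h1 : 1 + p = 1 / s ^ 2 := by rw [hp]; field_simp; linarith only [hxs]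
    rw [hd, h1, ht, h, hY]
    rw [hY] at hY2
    have := hY2.ne'
    field_simp
    ring
  rw [e1, e2, ← hp, ← hY]
  rw [← hp] at hF
  rw [← hp, ← hY] at huk
  obtain ⟨U, hU⟩ : ∃ U, U = u ^ 2 / (1 + u) := ⟨_, rfl⟩
  obtain ⟨w, hw⟩ : ∃ w, w = u - Real.log (1 + u) := ⟨_, rfl⟩
  obtain ⟨S, hS⟩ : ∃ S, S = (m - 1) * (1 - 2 * (s ^ 2 / (1 + s))) := ⟨_, rfl⟩
  have hUu : U * (1 + u) = u ^ 2 := by rw [hU]; (clear * - hu; field_simp)
  have hSY : 13 / 20 * Y ≤ S := u15_left_SY hm hs hxs hp hY (by nlinarith only [hlt', hm]) hS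
  -- core inequality
  have core : U / 10 ≤ (m + 1) * (U - w) - 2 * u ^ 2 + (S - 2) * U - 3 * Y * l * U -
      9 * lam * w + Y * (6 * (l - lam) ^ 2 + 9 * lam * l - 9 / 2 * l ^ 2 +
        (9 / 7 * Y - 1 / 2) * l ^ 2) := by
    rcases le_total 0 u with h | h
    · refine u15_left_pos (by linarith only [hm]) hY0 (by linarith only [hY2]) h hUu hSY (huk h) ?_ ?_
      · rw [hU, hw]; exact u15_w_pos_ge h
      · rw [hw]
        have := u15_w_pos_le h
        rwa [le_div_iff₀ (by linarith only [h])] at this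
    · refine u15_left_neg (by linarith only [hm]) hY0 (by linarith only [hY2]) hu h hUu (by linarith only [hY0, hSY]) hl hlam ?_ ?_
      · rw [hw]; exact u15_w_nonneg hu
      · rw [hw, hU]; exact u15_w_neg_le (by linarith only [hu]) h
  have hfin := u15_left_G hm hp0 hY hY0 ht1 ht2 hF core
  have hfin2 := mul_le_mul_of_nonneg_left hfin (by (clear * - hm; positivity) : (0 : ℝ) ≤ 1 / (m + 1))
  rw [u15_left_alg (s := s) hm1 hY hS] at hfin2
  rw [← hU, ← hw]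
  calc 1 / (10 * (m + 1)) * U = 1 / (m + 1) * (U / 10) := by (clear * - hm; field_simp)
    _ ≤ _ := hfin2

end Vale.Agent.P237.AllN
end

section

/-!
# P237, all dimensions: the Fisher type functional, cuts
-/

open MeasureTheory Metric Set Module Filter Topology

namespace Vale.Agent.P237.AllN

/-- the value on `[0,1]` of the cut pair, general right end pair -/
theorem cut_value_gen {m : ℕ} {r : ℝ → ℝ} (hr : IsProf r)
    {c c' p p' : ℝ → ℝ} {α β : ℝ} (h0 : 0 < α) (hαβ : α < β) (h1 : β < 1)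
    (hc : ∀ y ∈ Ioo (0 : ℝ) 1, HasDerivAt c (c' y) y) (hc' : ContinuousOn c' (Ioo 0 1))
    (hp : ∀ y ∈ Ioo (0 : ℝ) 1, HasDerivAt p (p' y) y) (hp' : ContinuousOn p' (Ioo 0 1))
    {M : ℝ} (hM0 : 0 ≤ M) {η P : ℝ} (hηP : 0 ≤ η + P) {ε : ℝ} (hε' : 0 < ε) :
    ∃ h : ℝ, 0 < h ∧ h ≤ α / 2 ∧ β + h ≤ (1 + β) / 2 ∧ ∀ χL χL' χR χR' : ℝ → ℝ,
      Ramp (α - h) α χL χL' → Ramp β (β + h) χR χR' →
      (∫ y in α..β, (((m : ℝ) + 1) * c y + y * c' y + p' y) * r y ^ m) +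
      (α * (c α + M) + p α) * r α ^ m - (β * (c β + η + P) + p β - P) * r β ^ m -
      ((m : ℝ) + 1) * M * (∫ y in (0 : ℝ)..α, r y ^ m) -
      ((m : ℝ) + 1) * (η + P) * (∫ y in β..1, r y ^ m) - 4 * ε ≤
      ∫ y in (0 : ℝ)..1, (((m : ℝ) + 1) * cutC χL χR c M (-(η + P)) y +
        y * cutC' χL χR χL' χR' c c' M (-(η + P)) y + cutP' χL χR χL' χR' p p' P y) * r y ^ m := by
  set Φ : ℝ → ℝ := fun y => ((m : ℝ) + 1) * c y + y * c' y + p' y with hΦ
  set gL : ℝ → ℝ := fun y => y * (c y + M) + p y with hgL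
  set gR : ℝ → ℝ := fun y => y * (c y + η + P) + p y - P with hgR
  have hcc : ContinuousOn c (Ioo 0 1) := fun y hy => (hc y hy).continuousAt.continuousWithinAt
  have hpc : ContinuousOn p (Ioo 0 1) := fun y hy => (hp y hy).continuousAt.continuousWithinAt
  have hrc : ContinuousOn r (Ioo 0 1) :=
    (Alm.prof_cont hr).mono (Ioo_subset_Ioo (by norm_num) le_rfl)
  have hrm : ContinuousOn (fun y => r y ^ m) (Ioo 0 1) := hrc.pow m
  have hΦc : ContinuousOn Φ (Ioo 0 1) := by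
    rw [hΦ]
    exact ((continuousOn_const.mul hcc).add (continuousOn_id.mul hc')).add hp'
  have hgLc : ContinuousOn (fun y => gL y * r y ^ m) (Ioo 0 1) := by
    rw [hgL]
    exact ((continuousOn_id.mul (hcc.add continuousOn_const)).add hpc).mul hrm
  have hgRc : ContinuousOn (fun y => gR y * r y ^ m) (Ioo 0 1) := by
    rw [hgR]
    exact (((continuousOn_id.mul ((hcc.add continuousOn_const).add continuousOn_const)).add hpc).sub
      continuousOn_const).mul hrm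
  have hαmem : α ∈ Ioo (0 : ℝ) 1 := ⟨h0, by linarith⟩
  have hβmem : β ∈ Ioo (0 : ℝ) 1 := ⟨by linarith, h1⟩
  -- compact interval
  have hsub : Icc (α / 2) ((1 + β) / 2) ⊆ Ioo 0 1 := fun y hy =>
    ⟨by linarith [hy.1], by linarith [hy.2]⟩
  obtain ⟨K0, hK0⟩ := isCompact_Icc.exists_bound_of_continuousOn ((hΦc.mul hrm).mono hsub)
  have hK0' : 0 ≤ K0 := (norm_nonneg _).trans (hK0 α ⟨by linarith, by linarith⟩)
  obtain ⟨d1, hd1, hd1'⟩ := Metric.continuousAt_iff.1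
    (hgLc.continuousAt (isOpen_Ioo.mem_nhds hαmem)) ε hε'
  obtain ⟨d2, hd2, hd2'⟩ := Metric.continuousAt_iff.1
    (hgRc.continuousAt (isOpen_Ioo.mem_nhds hβmem)) ε hε'
  obtain ⟨h, hh, hh1, hh2, hh3, hh4, hh5⟩ : ∃ h : ℝ, 0 < h ∧ h ≤ α / 2 ∧ β + h ≤ (1 + β) / 2 ∧
      K0 * h ≤ ε ∧ h < d1 ∧ h < d2 := by
    refine ⟨min (min (α / 2) ((1 - β) / 2)) (min (ε / (K0 + 1)) (min (d1 / 2) (d2 / 2))), ?_, ?_, ?_,
      ?_, ?_, ?_⟩
    · have : 0 < 1 - β := by linarith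
      (clear * - h0 h1 hε' hK0' hd1 hd2; positivity)
    · exact (min_le_left _ _).trans (min_le_left _ _)
    · have := (min_le_left (min (α / 2) ((1 - β) / 2))
        (min (ε / (K0 + 1)) (min (d1 / 2) (d2 / 2)))).trans (min_le_right _ _)
      linarith
    · have h2 := (min_le_right (min (α / 2) ((1 - β) / 2))
        (min (ε / (K0 + 1)) (min (d1 / 2) (d2 / 2)))).trans (min_le_left _ _)
      calc K0 * _ ≤ K0 * (ε / (K0 + 1)) := mul_le_mul_of_nonneg_left h2 hK0'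
        _ = ε * (K0 / (K0 + 1)) := by ring
        _ ≤ ε * 1 := mul_le_mul_of_nonneg_left ((div_le_one (by linarith)).2 (by linarith)) hε'.le
        _ = ε := mul_one _
    · have h2 := ((min_le_right (min (α / 2) ((1 - β) / 2))
        (min (ε / (K0 + 1)) (min (d1 / 2) (d2 / 2)))).trans (min_le_right _ _)).trans
        (min_le_left _ _)
      linarith
    · have h2 := ((min_le_right (min (α / 2) ((1 - β) / 2))
        (min (ε / (K0 + 1)) (min (d1 / 2) (d2 / 2)))).trans (min_le_right _ _)).trans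
        (min_le_right _ _)
      linarith
  refine ⟨h, hh, hh1, hh2, ?_⟩
  intro χL χL' χR χR' hL hR
  have hβh : β + h < 1 := by linarith
  have hαh : 0 < α - h := by linarith
  have hCd := cutC_deriv hαh hβh hL hR (by linarith) (by linarith) hc hc' M (-(η + P))
  have hPd := cutP_deriv hαh hβh hL hR (by linarith) (by linarith) hp hp' P
  have hCcc : Continuous (cutC χL χR c M (-(η + P))) :=
    continuous_iff_continuousAt.2 fun y => (hCd.1 y).continuousAt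
  set Q : ℝ → ℝ := fun y => (((m : ℝ) + 1) * cutC χL χR c M (-(η + P)) y +
        y * cutC' χL χR χL' χR' c c' M (-(η + P)) y + cutP' χL χR χL' χR' p p' P y) * r y ^ m with hQ
  have hrii : ∀ a ∈ Icc (0 : ℝ) 1, ∀ b ∈ Icc (0 : ℝ) 1,
      IntervalIntegrable (fun y => r y ^ m) volume a b := fun a ha b hb =>
    Alm.prof_pow_ii hr m ha hb
  have hQii : ∀ a ∈ Icc (0 : ℝ) 1, ∀ b ∈ Icc (0 : ℝ) 1, IntervalIntegrable Q volume a b := by
    intro a ha b hb
    refine (hrii a ha b hb).continuousOn_mul ?_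
    exact ((continuous_const.mul hCcc).add (continuous_id.mul hCd.2) |>.add hPd.2).continuousOn
  have m0 : (0 : ℝ) ∈ Icc (0 : ℝ) 1 := ⟨le_rfl, zero_le_one⟩
  have m1 : (1 : ℝ) ∈ Icc (0 : ℝ) 1 := ⟨zero_le_one, le_rfl⟩
  have ma : α - h ∈ Icc (0 : ℝ) 1 := ⟨hαh.le, by linarith⟩
  have mα : α ∈ Icc (0 : ℝ) 1 := ⟨h0.le, by linarith⟩
  have mβ : β ∈ Icc (0 : ℝ) 1 := ⟨by linarith, h1.le⟩
  have mb : β + h ∈ Icc (0 : ℝ) 1 := ⟨by linarith, hβh.le⟩
  have split : ∫ y in (0 : ℝ)..1, Q y =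
      (∫ y in (0 : ℝ)..(α - h), Q y) + (∫ y in (α - h)..α, Q y) + (∫ y in α..β, Q y) +
      (∫ y in β..(β + h), Q y) + ∫ y in (β + h)..1, Q y := by
    rw [intervalIntegral.integral_add_adjacent_intervals (hQii 0 m0 _ ma) (hQii _ ma _ mα),
      intervalIntegral.integral_add_adjacent_intervals (hQii 0 m0 _ mα) (hQii _ mα _ mβ),
      intervalIntegral.integral_add_adjacent_intervals (hQii 0 m0 _ mβ) (hQii _ mβ _ mb),
      intervalIntegral.integral_add_adjacent_intervals (hQii 0 m0 _ mb) (hQii _ mb _ m1)]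
  rw [split]
  have hm0 : (0 : ℝ) ≤ (m : ℝ) + 1 := by positivity
  have hrn : ∀ y ∈ Ioo (0 : ℝ) 1, 0 ≤ r y ^ m := fun y hy =>
    pow_nonneg (hr.pos y ⟨by linarith [hy.1], hy.2⟩).le m
  -- piece 1
  have I1 : ∫ y in (0 : ℝ)..(α - h), Q y = -(((m : ℝ) + 1) * M) * ∫ y in (0 : ℝ)..(α - h), r y ^ m := by
    rw [← intervalIntegral.integral_const_mul]
    refine intervalIntegral.integral_congr fun y hy => ?_
    rw [uIcc_of_le hαh.le] at hy
    simp only [hQ, cutC, cutC', cutP']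
    rw [hL.left y hy.2, hR.left y (by linarith [hy.2]), hL.left' y hy.2,
      hR.left' y (by linarith [hy.2])]
    ring
  -- piece 3
  have I3 : ∫ y in α..β, Q y = ∫ y in α..β, Φ y * r y ^ m := by
    refine intervalIntegral.integral_congr fun y hy => ?_
    rw [uIcc_of_le hαβ.le] at hy
    simp only [hQ, cutC, cutC', cutP', hΦ]
    rw [hL.right y hy.1, hR.left y hy.2, hL.right' y hy.1, hR.left' y hy.2]
    ring
  -- piece 5
  have I5 : ∫ y in (β + h)..1, Q y = -(((m : ℝ) + 1) * (η + P)) * ∫ y in (β + h)..1, r y ^ m := by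
    rw [← intervalIntegral.integral_const_mul]
    refine intervalIntegral.integral_congr fun y hy => ?_
    rw [uIcc_of_le hβh.le] at hy
    have hya : α ≤ y := by linarith [hy.1]
    simp only [hQ, cutC, cutC', cutP']
    rw [hL.right y hya, hR.right y hy.1, hL.right' y hya, hR.right' y hy.1]
    ring
  -- piece 2
  have I2 : -(K0 * (α - (α - h))) - ((m : ℝ) + 1) * M * (∫ y in (α - h)..α, r y ^ m) +
      (gL α * r α ^ m - ε) ≤ ∫ y in (α - h)..α, Q y := by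
    refine ramp_piece (G := fun y => Φ y * r y ^ m) (H := fun y => gL y * r y ^ m) (σ := χL)
      (θ := fun y => 1 - χL y) (χ' := χL') (by linarith) (hQii _ ma _ mα) (hrii _ ma _ mα)
      hL.cont hL.int ?_ ?_ (mul_nonneg hm0 hM0) ?_ hL.nonneg hL.le_one
      (fun y => by linarith [hL.nonneg y]) hL.nonneg' ?_
    · intro y hy
      simp only [hQ, cutC, cutC', cutP', hΦ, hgL]
      rw [hR.left y (by linarith [hy.2]), hR.left' y (by linarith [hy.2])]
      ring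
    · intro y hy
      exact hK0 y ⟨by linarith [hy.1], by linarith [hy.2]⟩
    · intro y hy
      exact hrn y ⟨by linarith [hy.1], by linarith [hy.2]⟩
    · intro y hy
      have g1 := hd1' (x := y) (by
        rw [Real.dist_eq, abs_lt]
        exact ⟨by linarith [hy.1], by linarith [hy.2]⟩)
      rw [Real.dist_eq] at g1
      have g2 := (abs_lt.1 g1).1
      linarith
  -- piece 4
  have I4 : -(K0 * (β + h - β)) - ((m : ℝ) + 1) * (η + P) * (∫ y in β..(β + h), r y ^ m) +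
      (-(gR β * r β ^ m) - ε) ≤ ∫ y in β..(β + h), Q y := by
    refine ramp_piece (G := fun y => Φ y * r y ^ m) (H := fun y => -(gR y * r y ^ m))
      (σ := fun y => 1 - χR y) (θ := χR) (χ' := χR') (by linarith) (hQii _ mβ _ mb)
      (hrii _ mβ _ mb) hR.cont hR.int ?_ ?_ (mul_nonneg hm0 hηP) ?_
      (fun y => by linarith [hR.le_one y]) (fun y => by linarith [hR.nonneg y]) hR.le_one
      hR.nonneg' ?_
    · intro y hy
      have hya : α ≤ y := by linarith [hy.1]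
      simp only [hQ, cutC, cutC', cutP', hΦ, hgR]
      rw [hL.right y hya, hL.right' y hya]
      ring
    · intro y hy
      exact hK0 y ⟨by linarith [hy.1], by linarith [hy.2]⟩
    · intro y hy
      exact hrn y ⟨by linarith [hy.1], by linarith [hy.2]⟩
    · intro y hy
      have g1 := hd2' (x := y) (by
        rw [Real.dist_eq, abs_lt]
        exact ⟨by linarith [hy.1], by linarith [hy.2]⟩)
      rw [Real.dist_eq] at g1
      have g2 := (abs_lt.1 g1).2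
      linarith
  have J1 : ∫ y in (0 : ℝ)..α, r y ^ m = (∫ y in (0 : ℝ)..(α - h), r y ^ m) +
      ∫ y in (α - h)..α, r y ^ m :=
    (intervalIntegral.integral_add_adjacent_intervals (hrii 0 m0 _ ma) (hrii _ ma _ mα)).symm
  have J2 : ∫ y in β..1, r y ^ m = (∫ y in β..(β + h), r y ^ m) + ∫ y in (β + h)..1, r y ^ m :=
    (intervalIntegral.integral_add_adjacent_intervals (hrii _ mβ _ mb) (hrii _ mb _ m1)).symm
  have e3 : (α * (c α + M) + p α) * r α ^ m = gL α * r α ^ m := rfl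
  have e4 : (β * (c β + η + P) + p β - P) * r β ^ m = gR β * r β ^ m := rfl
  rw [J1, J2, I1, I3, I5, e3, e4]
  have e6 : K0 * (α - (α - h)) = K0 * h := by ring
  have e7 : K0 * (β + h - β) = K0 * h := by ring
  rw [e6] at I2
  rw [e7] at I4
  linarith only [I4, I2, hh3]

/-- pairs for the Fisher type functional -/
structure FisPair (c c' p p' : ℝ → ℝ) : Prop where
  hc : ∀ y, HasDerivAt c (c' y) y
  hc' : Continuous c'
  hp : ∀ y, HasDerivAt p (p' y) y
  hp' : Continuous p'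
  hsup : ∀ y ∈ Icc (-1 : ℝ) 1, c y + p y ^ 2 / 4 ≤ 0

/-- the Fisher type functional is at least `w` on the profile `r` -/
def FisGe (m : ℕ) (r : ℝ → ℝ) (w : ℝ) : Prop :=
  ∀ ε > (0 : ℝ), ∃ c c' p p' : ℝ → ℝ, FisPair c c' p p' ∧
    w - ε ≤ ∫ y in (-1 : ℝ)..1, (((m : ℝ) + 1) * c y + y * c' y + p' y) * r y ^ m

theorem FisGe.mono {m : ℕ} {r : ℝ → ℝ} {v w : ℝ} (h : FisGe m r v) (hwv : w ≤ v) :
    FisGe m r w := by
  intro ε hε
  obtain ⟨c, c', p, p', h1, h2⟩ := h ε hε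
  exact ⟨c, c', p, p', h1, by linarith⟩

theorem FisGe.of_forall_lt {m : ℕ} {r : ℝ → ℝ} {w : ℝ} (h : ∀ κ > (0 : ℝ), FisGe m r (w - κ)) :
    FisGe m r w := by
  intro ε hε
  obtain ⟨c, c', p, p', h1, h2⟩ := h (ε / 2) (by positivity) (ε / 2) (by positivity)
  exact ⟨c, c', p, p', h1, by linarith⟩

theorem FishP.mul_le {m : ℕ} {r : ℝ → ℝ} {Q w : ℝ} (hQ : FishP (m + 1) (fun y => r y ^ m) Q)
    (hQ0 : 0 ≤ Q) (h : FisGe m r w) : Q * w ≤ ∫ y in (-1 : ℝ)..1, r y ^ m := by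
  refine le_of_forall_pos_le_add fun ε hε => ?_
  obtain ⟨c, c', p, p', h1, h2⟩ := h (ε / (Q + 1)) (by positivity)
  have h3 := hQ c c' p p' h1.hc h1.hc' h1.hp h1.hp' h1.hsup
  have e : ((m + 1 : ℕ) : ℝ) = (m : ℝ) + 1 := by push_cast; ring
  rw [e] at h3
  have h4 := mul_le_mul_of_nonneg_left h2 hQ0
  have h5 : Q * (ε / (Q + 1)) ≤ ε := by
    rw [← mul_div_assoc, div_le_iff₀ (by positivity)]
    linarith only [hε]
  have h6 : Q * (w - ε / (Q + 1)) = Q * w - Q * (ε / (Q + 1)) := by ring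
  rw [h6] at h4
  linarith

section

variable {a α β b : ℝ} {χL χL' χR χR' : ℝ → ℝ}

/-- the constraint for the cut Fisher pair -/
theorem fis_cut_adm (hL : Ramp a α χL χL') (hR : Ramp β b χR χR')
    (hαβ : α ≤ β) {q : ℝ → ℝ} (q0 : ℝ) (t : ℝ) :
    cutC χL χR (fun y => -q y ^ 2) 0 (-(q0 ^ 2)) t +
      cutP χL χR (fun y => 2 * q y) (2 * q0) t ^ 2 / 4 ≤ 0 := by
  have hω1 : 0 ≤ χL t - χR t := by
    rcases le_total t β with h2 | h2
    · rw [hR.left t h2]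
      linarith [hL.nonneg t]
    · rw [hL.right t (by show α ≤ t; linarith)]
      linarith [hR.le_one t]
  have hR0 := hR.nonneg t
  have hL1 := hL.le_one t
  have e : cutC χL χR (fun y => -q y ^ 2) 0 (-(q0 ^ 2)) t +
      cutP χL χR (fun y => 2 * q y) (2 * q0) t ^ 2 / 4 =
      -((χL t - χR t) * χR t * (q t - q0) ^ 2 +
        (1 - χL t) * ((χL t - χR t) * q t ^ 2 + χR t * q0 ^ 2)) := by
    unfold cutC cutP
    ring
  rw [e]
  have h1 : 0 ≤ (χL t - χR t) * χR t * (q t - q0) ^ 2 := by positivity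
  have h2 : 0 ≤ (1 - χL t) * ((χL t - χR t) * q t ^ 2 + χR t * q0 ^ 2) :=
    mul_nonneg (by linarith) (by positivity)
  linarith

end

/-- **Sharp cut** for the Fisher type functional. -/
theorem fisGe_cut {m : ℕ} {r : ℝ → ℝ} (hr : IsProf r)
    {q q' : ℝ → ℝ} {α β : ℝ} (h0 : 0 < α) (hαβ : α < β) (h1 : β < 1)
    (hq : ∀ y ∈ Ioo (0 : ℝ) 1, HasDerivAt q (q' y) y) (hq' : ContinuousOn q' (Ioo 0 1)) :
    FisGe m r (2 * ((∫ y in α..β, (-((m : ℝ) + 1) * q y ^ 2 + 2 * q' y * (1 - y * q y)) * r y ^ m) +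
      (2 * q α - α * q α ^ 2) * r α ^ m - ((m : ℝ) + 1) * q β ^ 2 * ∫ y in β..1, r y ^ m)) := by
  intro ε0 hε0
  have hqc : ContinuousOn q (Ioo 0 1) := fun y hy => (hq y hy).continuousAt.continuousWithinAt
  have hc : ∀ y ∈ Ioo (0 : ℝ) 1, HasDerivAt (fun y => -q y ^ 2) (-(2 * q y * q' y)) y := by
    intro y hy
    have := ((hq y hy).pow 2).neg
    refine this.congr_deriv ?_
    simp
  have hc' : ContinuousOn (fun y => -(2 * q y * q' y)) (Ioo 0 1) :=
    ((continuousOn_const.mul hqc).mul hq').neg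
  have hp : ∀ y ∈ Ioo (0 : ℝ) 1, HasDerivAt (fun y => 2 * q y) (2 * q' y) y := fun y hy =>
    (hq y hy).const_mul 2
  have hp' : ContinuousOn (fun y => 2 * q' y) (Ioo 0 1) := continuousOn_const.mul hq'
  obtain ⟨h, hh, hh1, hh2, hv⟩ := cut_value_gen (m := m) hr h0 hαβ h1 hc hc' hp hp'
    (M := 0) le_rfl (η := q β ^ 2 - 2 * q β) (P := 2 * q β) (by linarith only [sq_nonneg (q β)])
    (ε := ε0 / 8) (by positivity)
  have hβh : β + h < 1 := by linarith
  have hαh : 0 < α - h := by linarith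
  obtain ⟨χL, χL', hL⟩ := exists_ramp (a := α - h) (b := α) (by linarith)
  obtain ⟨χR, χR', hR⟩ := exists_ramp (a := β) (b := β + h) (by linarith)
  have hval := hv χL χL' χR χR' hL hR
  have e0 : -(q β ^ 2 - 2 * q β + 2 * q β) = -(q β ^ 2) := by ring
  rw [e0] at hval
  have hCd := cutC_deriv hαh hβh hL hR (by linarith) (by linarith) hc hc' 0 (-(q β ^ 2))
  have hPd := cutP_deriv hαh hβh hL hR (by linarith) (by linarith) hp hp' (2 * q β)
  have hnp := fun y (hy : y ≤ (0:ℝ)) => cut_nonpos hαh hL hR (by linarith) (fun y => -q y ^ 2)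
    (fun y => -(2 * q y * q' y)) (fun y => 2 * q y) (fun y => 2 * q' y) 0 (-(q β ^ 2)) (2 * q β) hy
  have hadm := fun t => fis_cut_adm hL hR hαβ.le (q := q) (q β) t
  have hCcc : Continuous (cutC χL χR (fun y => -q y ^ 2) 0 (-(q β ^ 2))) :=
    continuous_iff_continuousAt.2 fun y => (hCd.1 y).continuousAt
  set Cf := cutC χL χR (fun y => -q y ^ 2) 0 (-(q β ^ 2)) with hCf
  set Cf' := cutC' χL χR χL' χR' (fun y => -q y ^ 2) (fun y => -(2 * q y * q' y)) 0
    (-(q β ^ 2)) with hCf'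
  set Pf := cutP χL χR (fun y => 2 * q y) (2 * q β) with hPf
  set Pf' := cutP' χL χR χL' χR' (fun y => 2 * q y) (fun y => 2 * q' y) (2 * q β) with hPf'
  refine ⟨fun y => Cf y + Cf (-y), fun y => Cf' y - Cf' (-y), fun y => Pf y - Pf (-y),
    fun y => Pf' y + Pf' (-y), ⟨?_, ?_, ?_, ?_, ?_⟩, ?_⟩
  · intro y
    have e := ((hCd.1 y).add ((hCd.1 (-y)).comp y (hasDerivAt_neg y)))
    refine e.congr_deriv ?_
    ring
  · exact hCd.2.sub (hCd.2.comp continuous_neg)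
  · intro y
    have e := (hPd.1 y).sub ((hPd.1 (-y)).comp y (hasDerivAt_neg y))
    refine e.congr_deriv ?_
    ring
  · exact hPd.2.add (hPd.2.comp continuous_neg)
  · intro a ha
    rcases le_total 0 a with h2 | h2
    · have e := hnp (-a) (by linarith only [h2])
      have := hadm a
      rw [e.1, e.2.2.1]
      simpa using this
    · have e := hnp a h2
      have := hadm (-a)
      rw [e.1, e.2.2.1]
      simpa using this
  -- the value
  set F : ℝ → ℝ := fun y => (((m : ℝ) + 1) * (Cf y + Cf (-y)) + y * (Cf' y - Cf' (-y)) +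
    (Pf' y + Pf' (-y))) * r y ^ m with hF
  have hrii := Alm.prof_pow_ii hr m (⟨le_rfl, zero_le_one⟩ : (0 : ℝ) ∈ Icc (0 : ℝ) 1)
    (⟨zero_le_one, le_rfl⟩ : (1 : ℝ) ∈ Icc (0 : ℝ) 1)
  have hFii : IntervalIntegrable F volume 0 1 := by
    refine hrii.continuousOn_mul ?_
    have i1 := hCcc.comp continuous_neg
    have i2 := hCd.2.comp continuous_neg
    have i3 := hPd.2.comp continuous_neg
    exact (((continuous_const.mul (hCcc.add i1)).add
      (continuous_id.mul (hCd.2.sub i2))).add (hPd.2.add i3)).continuousOn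
  have hFe : ∀ y, F (-y) = F y := by
    intro y
    simp only [hF, neg_neg, hr.even]
    ring
  rw [integral_even_eq hFe hFii]
  have hFQ : ∫ y in (0 : ℝ)..1, F y = ∫ y in (0 : ℝ)..1, (((m : ℝ) + 1) * Cf y + y * Cf' y +
      Pf' y) * r y ^ m := by
    refine intervalIntegral.integral_congr fun y hy => ?_
    rw [uIcc_of_le zero_le_one] at hy
    have e := hnp (-y) (by linarith only [hy.1])
    simp only [hF]
    rw [e.1, e.2.1, e.2.2.2]
    ring
  rw [hFQ]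
  have hI : ∫ y in α..β, (((m : ℝ) + 1) * (-q y ^ 2) + y * -(2 * q y * q' y) + 2 * q' y) * r y ^ m =
      ∫ y in α..β, (-((m : ℝ) + 1) * q y ^ 2 + 2 * q' y * (1 - y * q y)) * r y ^ m := by
    refine intervalIntegral.integral_congr fun y _ => ?_
    ring
  rw [hI] at hval
  have e1 : (α * (-q α ^ 2 + 0) + 2 * q α) * r α ^ m = (2 * q α - α * q α ^ 2) * r α ^ m := by ring
  have e2 : (β * (-q β ^ 2 + (q β ^ 2 - 2 * q β) + 2 * q β) + 2 * q β - 2 * q β) * r β ^ m = 0 := by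
    ring
  have e3 : ((m : ℝ) + 1) * (q β ^ 2 - 2 * q β + 2 * q β) = ((m : ℝ) + 1) * q β ^ 2 := by ring
  rw [e1, e2, e3] at hval
  linarith

end Vale.Agent.P237.AllN
end

section

/-!
# P237, all dimensions: lines of the safe kernel `kS` (contact `q ≤ a`) are admissible for `kA`

(helper275's mixture: for one and the same kernel `kA` one may use the `K₁ log` lines and, for
`l ≥ 0`, the lines of `S12`, and all convex combinations.)
-/

open MeasureTheory Metric Set Module Filter Topology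

namespace Vale.Agent.P237.AllN

theorem two_log_le {x : ℝ} (hx : 1 ≤ x) : 2 * Real.log x ≤ x - 1 / x := by
  have hd : ∀ y ∈ Ioi (0 : ℝ), HasDerivAt (fun x : ℝ => x - 1 / x - 2 * Real.log x)
      ((y - 1) ^ 2 / y ^ 2) y := by
    intro y hy
    have hy' : (0 : ℝ) < y := hy
    have h1 : HasDerivAt (fun x : ℝ => 1 / x) (-(y ^ 2)⁻¹) y := by
      simpa only [one_div] using hasDerivAt_inv hy'.ne'
    have h := ((hasDerivAt_id y).sub h1).sub ((Real.hasDerivAt_log hy'.ne').const_mul 2)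
    refine h.congr_deriv ?_
    field_simp
    ring
  have hm : MonotoneOn (fun x : ℝ => x - 1 / x - 2 * Real.log x) (Ici 1) := by
    apply monotoneOn_of_deriv_nonneg (convex_Ici 1)
    · intro y hy
      have hy' : (0 : ℝ) < y := lt_of_lt_of_le one_pos hy
      exact (hd y hy').continuousAt.continuousWithinAt
    · intro y hy
      rw [interior_Ici] at hy
      have hy' : (0 : ℝ) < y := lt_trans one_pos hy
      exact (hd y hy').differentiableAt.differentiableWithinAt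
    · intro y hy
      rw [interior_Ici] at hy
      have hy' : (0 : ℝ) < y := lt_trans one_pos hy
      rw [(hd y hy').deriv]
      (clear * - hy'; positivity)
  have h := hm (mem_Ici.2 le_rfl) (mem_Ici.2 hx) hx
  simp only [Real.log_one] at h
  norm_num at h
  simpa only [one_div, ge_iff_le] using h

/-- `S12 ≤ K₁ log` for `b ≤ a` -/
theorem kS_le_kA_of_le {a b : ℝ} (hb : 0 < b) (hba : b ≤ a) : kS a b ≤ kA a b := by
  have ha : 0 < a := hb.trans_le hba
  rw [kS_pos ha hb, kA_pos ha hb]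
  have e1 : kK (a * b) = lK (a * b) - a * b / 2 - 3 * (a * b) ^ 2 / 8 := by
    unfold kK lK; ring
  have hl1 := two_log_le (x := a / b) (by rw [le_div_iff₀ hb]; (clear * - hba; linarith))
  have hl2 := two_log_le (x := (a / b) ^ 2) (by
    apply one_le_pow₀; rw [le_div_iff₀ hb]; linarith only [hba])
  rw [Real.log_pow] at hl2
  have hlog : Real.log (b / a) = -Real.log (a / b) := by rw [← Real.log_inv, inv_div]
  set Λ := Real.log (a / b) with hΛ
  have h1 : a * b / 2 * Λ ≤ (a ^ 2 - b ^ 2) / 4 := by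
    have e : (a ^ 2 - b ^ 2) / 4 = a * b / 4 * (a / b - 1 / (a / b)) := by
      (clear * - ha hb; field_simp)
    rw [e]
    have : 0 ≤ a * b / 4 := by (clear * - ha hb; positivity)
    linarith only [mul_nonneg (sub_nonneg.2 hl1) (sub_nonneg.2 this)]
  have h2 : 3 * (a * b) ^ 2 / 8 * Λ ≤ 3 * (a ^ 4 - b ^ 4) / 32 := by
    have e : 3 * (a ^ 4 - b ^ 4) / 32 = 3 * (a * b) ^ 2 / 32 * ((a / b) ^ 2 - 1 / (a / b) ^ 2) := by
      field_simp
    rw [e]
    have : 0 ≤ 3 * (a * b) ^ 2 / 32 := by positivity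
    push_cast at hl2
    linarith only [mul_nonneg (sq_nonneg (1 * a * (1 * b) : ℝ)) (sub_nonneg.2 hl2)]
  rw [e1, hlog]
  unfold kφ
  linarith only [h2, h1]

/-- the slope of the `S12` line is nonnegative for contact `q ≤ a` -/
theorem kSd_nonneg {a q : ℝ} (ha : 0 < a) (ha1 : a < 1) (hq : 0 < q) (hqa : q ≤ a) :
    0 ≤ kSd a q := by
  have hq1 : a * q < 1 := by nlinarith
  set z := a * q with hz
  have hz0 : 0 < z := mul_pos ha hq
  have hdK := dK_nonneg hz0 hq1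
  have hI2 := kS_I2 hz0 hq1
  set lam := Real.log (q / a) with hlam
  have hLam : -lam ≤ -Real.log z := by
    have : Real.log z ≤ lam := by
      apply Real.log_le_log hz0
      rw [le_div_iff₀ ha, hz]
      nlinarith only [ha1, hq, hz0]
    linarith only [this]
  have h2 : z * kK1 z * -lam ≤ z * kK1 z * -Real.log z :=
    mul_le_mul_of_nonneg_left hLam hdK
  have hzq : z ≤ q := by rw [hz]; nlinarith only [ha1, hq]
  have hz4 : z ^ 4 ≤ q ^ 4 := pow_le_pow_left₀ hz0.le hzq 4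
  have hz2 : z ^ 2 ≤ q ^ 2 := pow_le_pow_left₀ hz0.le hzq 2
  have hB : z * kK1 z * -lam - kK z ≤ q ^ 2 / 2 + 3 * q ^ 4 / 8 := by linarith only [hI2, h2, hz4, hz2]
  have e : q * kSd a q = q ^ 2 / 2 + 3 * q ^ 4 / 8 - (z * kK1 z * -lam - kK z) := by
    unfold kSd kφ1
    rw [← hz, ← hlam]
    field_simp
    rw [hz]
    ring
  have h : 0 ≤ q * kSd a q := by rw [e]; (clear * - hI2 h2 hz4 hz2; linarith)
  exact nonneg_of_mul_nonneg_right h hq

theorem kSd_diag {a : ℝ} (ha : 0 < a) : kSd a a = lK (a * a) / a := by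
  unfold kSd
  rw [div_self ha.ne', Real.log_one]
  unfold kφ1 kK lK
  field_simp
  ring

/-- **`S12` lines with contact `q ≤ a` are below `kA`.** -/
theorem kS_line_le_kA {a q b : ℝ} (ha : 0 < a) (ha1 : a < 1) (hq : 0 < q) (hqa : q ≤ a)
    (hb : b ∈ Icc (-1 : ℝ) 1) :
    gC kK kK1 kφ kφ1 a q + gD kK kK1 kφ1 a q * b ≤ kA a b := by
  have hq1 : a * q < 1 := by nlinarith
  have hsd : gD kK kK1 kφ1 a q = kSd a q := rfl
  have hs0 := kSd_nonneg ha ha1 hq hqa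
  rcases le_or_gt b 0 with hb0 | hb0
  · -- `b ≤ 0`
    have h0 := kS_le ha ha1 hq hq1 (b := 0) ⟨by norm_num, by norm_num⟩
    rw [kS_nonpos ha le_rfl] at h0
    rw [kA_nonpos ha hb0, hsd]
    rw [hsd] at h0
    have h1 : kSd a q * b ≤ 0 := mul_nonpos_of_nonneg_of_nonpos hs0 hb0
    have h2 : kφ 0 - kφ a ≤ -(a ^ 2 / 16) := by
      unfold kφ
      linarith only [mul_nonneg (sq_nonneg (1 * a : ℝ)) (sq_nonneg (1 * a : ℝ)), sq_nonneg (1 * a : ℝ)]
    (clear * - h0 h1 h2; linarith only [sq_nonneg b, h2, h1, h0])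
  · rcases le_total b a with hba | hba
    · exact (kS_le ha ha1 hq hq1 hb).trans (kS_le_kA_of_le hb0 hba)
    · -- `b ≥ a`
      have h0 := kS_le ha ha1 hq hq1 (b := a) ⟨by linarith only [ha], ha1.le⟩
      have h1 : kS a a = 0 := by
        rw [kS_pos ha ha, div_self ha.ne', Real.log_one]; ring
      rw [h1] at h0
      -- slope monotonicity
      have haa : a * a < 1 := by nlinarith only [ha1, ha]
      have hc := kS_tangent ha ha1 ha haa (b := q) ⟨by linarith only [hq], by linarith⟩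
      have hd := kS_tangent ha ha1 hq hq1 (b := a) ⟨by linarith only [ha], ha1.le⟩
      rw [h1] at hd
      rw [div_self ha.ne', Real.log_one, kSd_diag ha, kS_pos ha hq] at hc
      have hmono : kSd a q * (a - q) ≤ lK (a * a) / a * (a - q) := by
        have e0 : kφ a - kφ a + kK (a * a) * 0 = 0 := by ring
        rw [e0] at hc
        (clear * - hc hd; linarith)
      have hsl : kSd a q * (b - a) ≤ lK (a * a) / a * (b - a) := by
        rcases hqa.eq_or_lt with he | he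
        · rw [he, kSd_diag ha]
        · have h3 : kSd a q ≤ lK (a * a) / a := by
            by_contra hcon
            push Not at hcon
            linarith only [mul_pos (sub_pos.2 he) (sub_pos.2 hcon), hd, hc]
          exact mul_le_mul_of_nonneg_right h3 (by linarith only [hba])
      -- tangent of `K₁ log` at `a`
      have hT := kL_tangent_pos (k := 0) (ν := 1 / 16) le_rfl (by norm_num) ha ha1 ha haa
        (b := b) hb0 hb.2
      have eT : gC (fun z => lK z - 0 * z) (fun z => lK1 z - 0) (fun t => 0 / 2 * t ^ 2)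
          (fun t => 0 * t) a a + gD (fun z => lK z - 0 * z) (fun z => lK1 z - 0)
          (fun t => 0 * t) a a * b = lK (a * a) / a * (b - a) := by
        unfold gC gV gD
        rw [div_self ha.ne', Real.log_one]
        field_simp
        ring
      rw [eT] at hT
      have hT' : lK (a * a) / a * (b - a) ≤ kA a b := hT
      rw [hsd] at h0 ⊢
      linarith only [hT', hsl, h0]

/-- the `S12` pair at `q = x²/τ`, `τ = x e^l`, `l ≥ 0` -/
theorem kS_std_le_kA {x l b : ℝ} (hx : x ∈ Ioo (0 : ℝ) 1) (hl : 0 ≤ l)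
    (hτ : x * Real.exp l < 1) (hb : b ∈ Icc (-1 : ℝ) 1) :
    gC kK kK1 kφ kφ1 (x * Real.exp l) (x ^ 2 / (x * Real.exp l)) +
      gD kK kK1 kφ1 (x * Real.exp l) (x ^ 2 / (x * Real.exp l)) * b ≤
      kA (x * Real.exp l) b := by
  have hx0 := hx.1
  have h1 : 1 ≤ Real.exp l := Real.one_le_exp hl
  apply kS_line_le_kA (by positivity) hτ (by (clear * - hx0; positivity)) _ hb
  rw [div_le_iff₀ (by positivity)]
  have : x ≤ x * Real.exp l := by linarith only [mul_nonneg (le_of_lt (sub_pos.2 hx0)) (sub_nonneg.2 h1)]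
  (by_contra nlg; linarith only [nlg, mul_nonneg (sub_nonneg.2 this) (sub_nonneg.2 this), mul_nonneg (le_of_lt (sub_pos.2 (not_le.1 nlg))) (sub_nonneg.2 h1), mul_nonneg (mul_self_nonneg (x * Real.exp l : ℝ)) (sub_nonneg.2 h1)])

end Vale.Agent.P237.AllN
end

section

/-!
# P237, all dimensions: polynomial inequalities for the hybrid kernel
-/

namespace Vale.Agent.P237.AllN

open PolyPos

/-- `z = 1 - s²` -/
def fz : List ℤ := [1, 0, -1]

/-- `s` -/
def fs : List ℤ := [0, 1]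

/-- `30 - 39 s² + 10 s⁴` -/
def fN : List ℤ := [30, 0, -39, 0, 10]

/-- `10 - 8 s² + s⁴` -/
def fD : List ℤ := [10, 0, -8, 0, 1]

/-- `512 Σ κ_k z^k`, `k = 2..6` -/
def fA0 : List ℤ := padd (psm 384 (ppow fz 2)) (padd (psm 320 (ppow fz 3)) (padd
  (psm 280 (ppow fz 4)) (padd (psm 252 (ppow fz 5)) (psm 231 (ppow fz 6)))))

/-- `512 Σ k κ_k z^(k-1)` -/
def fA1 : List ℤ := padd (psm 768 fz) (padd (psm 960 (ppow fz 2)) (padd
  (psm 1120 (ppow fz 3)) (padd (psm 1260 (ppow fz 4)) (psm 1386 (ppow fz 5)))))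

/-- `512 Σ k (k-1) κ_k z^(k-2)` -/
def fA2 : List ℤ := padd [768] (padd (psm 1920 fz) (padd
  (psm 3360 (ppow fz 2)) (padd (psm 5040 (ppow fz 3)) (psm 6930 (ppow fz 4)))))

/-- `512 Σ_{k=2..5} κ_k (2k-1) z^(2k)` -/
def fB1 : List ℤ := padd (psm 1152 (ppow fz 4)) (padd (psm 1600 (ppow fz 6)) (padd
  (psm 1960 (ppow fz 8)) (psm 2268 (ppow fz 10))))

/-- `512 Σ_{k=2..5} κ_k z^(2k)` -/
def fB2 : List ℤ := padd (psm 384 (ppow fz 4)) (padd (psm 320 (ppow fz 6)) (padd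
  (psm 280 (ppow fz 8)) (psm 252 (ppow fz 10))))

/-- `512 s³ hK` -/
def fH0 : List ℤ := padd [0, 0, 1024, -1024] (psm (-1) (pmul (ppow fs 3) (padd (psm 512 fz) fA0)))

/-- `512 s³ z hK1 / z` -/
def fH1 : List ℤ := padd [512, 0, 0, -512] (psm (-1) (pmul (ppow fs 3) fA1))

/-- `512 s⁵ z² hK2 / z²` -/
def fH2 : List ℤ := padd [768] (psm (-1) (pmul (ppow fs 5) fA2))

/-- (C1) -/
def fP1 : List ℤ := padd (psm 3 (pmul fD (padd (pmul (ppow fs 3) fB1) (padd
  (psm 2 (pmul fz fH1)) (psm (-1) fH0))))) (psm (-1) (pmul fN (pmul fz fH2)))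

/-- (C2) -/
def fP2 : List ℤ := padd (psm 3 (pmul fD (padd (pmul (ppow fs 3) fB2) fH0)))
  (psm (-1) (pmul fN (pmul (ppow fs 2) fH1)))

set_option maxRecDepth 100000 in
theorem fH1_nonneg {s : ℝ} (h0 : 0 ≤ s) (h1 : s < 1) : 0 ≤ ev1 fH1 s :=
  auto1_sound (n := 5) (A := 0) (B := 1) (D := 1) (by norm_num) (by (clear * -; decide +kernel))
    (by simpa only [Int.cast_zero, Int.cast_one, one_mul] using h0) (by simpa only [Int.cast_one, one_mul] using h1)

set_option maxRecDepth 100000 in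
theorem fH2_nonneg {s : ℝ} (h0 : 0 ≤ s) (h1 : s < 1) : 0 ≤ ev1 fH2 s :=
  auto1_sound (n := 5) (A := 0) (B := 1) (D := 1) (by norm_num) (by (clear * -; decide +kernel))
    (by simpa only [Int.cast_zero, Int.cast_one, one_mul] using h0) (by simpa using h1)

set_option maxRecDepth 100000 in
theorem fP1_nonneg {s : ℝ} (h0 : 0 ≤ s) (h1 : s < 1) : 0 ≤ ev1 fP1 s :=
  auto1_sound (n := 6) (A := 0) (B := 1) (D := 1) (by norm_num) (by decide +kernel)
    (by simpa only [Int.cast_zero, Int.cast_one, one_mul] using h0) (by simpa only [Int.cast_one, one_mul] using h1)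

set_option maxRecDepth 100000 in
theorem fP2_nonneg {s : ℝ} (h0 : 0 ≤ s) (h1 : s < 1) : 0 ≤ ev1 fP2 s :=
  auto1_sound (n := 6) (A := 0) (B := 1) (D := 1) (by norm_num) (by (clear * -; decide +kernel))
    (by simpa only [Int.cast_zero, Int.cast_one, one_mul] using h0) (by simpa only [Int.cast_one, one_mul] using h1)

end Vale.Agent.P237.AllN
end

section

/-!
# P237, all dimensions: the kernel of the scheme with the Fisher term

`kF a b = K(ab) log(b/a)` for `ab > 0`, `0` for `ab ≤ 0`, `K(z) = 2((1-z)^(-1/2) - 1) - z`.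
Every tangent line with nonnegative slope is admissible (`kFq_le`), and so is every line of the
convex hybrid kernel (powers `2..6` replaced by differences) with contact `q ≤ a` (`kH_le`).
-/

open MeasureTheory Metric Set Module Filter Topology

namespace Vale.Agent.P237.AllN

open PolyPos

noncomputable def fK (z : ℝ) : ℝ := 2 * (Real.sqrt (1 - z))⁻¹ - 2 - z

noncomputable def fK1 (z : ℝ) : ℝ := (Real.sqrt (1 - z))⁻¹ ^ 3 - 1

noncomputable def fK2 (z : ℝ) : ℝ := 3 * (Real.sqrt (1 - z))⁻¹ ^ 5 / 2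

theorem fK_hasDerivAt {z : ℝ} (hz : z < 1) : HasDerivAt fK (fK1 z) z := by
  have h := (((isqrt_hasDerivAt hz).const_mul 2).sub_const 2).sub (hasDerivAt_id z)
  refine h.congr_deriv ?_
  unfold fK1
  ring

theorem fK1_hasDerivAt {z : ℝ} (hz : z < 1) : HasDerivAt fK1 (fK2 z) z := by
  have h := ((isqrt_hasDerivAt hz).pow 3).sub_const 1
  refine h.congr_deriv ?_
  unfold fK2
  norm_num
  ring

/-- data of the log lines -/
theorem kF_data : KData fK fK1 fK2 (fun _ => 0) (fun _ => 0) (fun _ => 0) where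
  hK := fun _ h => fK_hasDerivAt h
  hK1 := fun _ h => fK1_hasDerivAt h
  hφ := fun t => hasDerivAt_const t 0
  hφ1 := fun t => hasDerivAt_const t 0

theorem fK_eq {s : ℝ} (h0 : 0 < s) : fK (1 - s ^ 2) = (1 - s) ^ 2 * (2 + s) / s := by
  unfold fK
  rw [sub_sub_cancel, Real.sqrt_sq h0.le]
  field_simp
  ring

theorem fK1_eq {s : ℝ} (h0 : 0 < s) : fK1 (1 - s ^ 2) = (1 - s ^ 3) / s ^ 3 := by
  unfold fK1
  rw [sub_sub_cancel, Real.sqrt_sq h0.le]
  field_simp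

theorem fK2_eq {s : ℝ} (h0 : 0 < s) : fK2 (1 - s ^ 2) = 3 / (2 * s ^ 5) := by
  unfold fK2
  rw [sub_sub_cancel, Real.sqrt_sq h0.le]
  field_simp

/-- `0 < K(z)` -/
theorem fK_pos {z : ℝ} (h0 : 0 < z) (h1 : z < 1) : 0 < fK z := by
  obtain ⟨s, hs0, hs1, rfl⟩ := exists_s h0 h1
  rw [fK_eq hs0]
  have : 0 < 1 - s := by linarith
  positivity

theorem fK1_pos {z : ℝ} (h0 : 0 < z) (h1 : z < 1) : 0 < fK1 z := by
  obtain ⟨s, hs0, hs1, rfl⟩ := exists_s h0 h1
  rw [fK1_eq hs0]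
  have : 0 < 1 - s ^ 3 := by
    have := pow_lt_one₀ hs0.le hs1 (n := 3) (by norm_num)
    linarith
  positivity

theorem fK_le {z : ℝ} (h0 : 0 < z) (h1 : z < 1) : fK z ≤ 2 * (z / Real.sqrt (1 - z)) := by
  have h := (lK_bds h0 h1).2
  have e : fK z = 2 * lK z - z := by unfold fK lK; ring
  rw [e]
  linarith

/-- structure: where the slope is nonnegative the kernel is strictly convex -/
theorem fK_conv {z Λ : ℝ} (h0 : 0 < z) (h1 : z < 1) (hL : Λ ≤ -Real.log z)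
    (hs : z * fK1 z * Λ ≤ fK z) : 0 < 2 * (z * fK1 z) - fK z - z ^ 2 * fK2 z * Λ := by
  obtain ⟨s, hs0, hs1, rfl⟩ := exists_s h0 h1
  rw [fK1_eq hs0, fK_eq hs0] at *
  rw [fK2_eq hs0]
  have h1s : 0 < 1 - s := by linarith only [hs1]
  have hz : 1 - s ^ 2 = (1 - s) * (1 + s) := by ring
  have e : 2 * ((1 - s ^ 2) * ((1 - s ^ 3) / s ^ 3)) - (1 - s) ^ 2 * (2 + s) / s -
      (1 - s ^ 2) ^ 2 * (3 / (2 * s ^ 5)) * Λ =
      (1 - s) ^ 2 / (2 * s ^ 5) *
        (2 * s ^ 2 * (2 + 4 * s + 2 * s ^ 2 + s ^ 3) - 3 * (1 + s) ^ 2 * Λ) := by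
    rw [hz]
    field_simp
    ring
  rw [e]
  apply mul_pos (by positivity)
  rcases le_total s (2 / 5) with hc | hc
  · -- `Λ ≤ s²/(1-s²)`
    have h2 : 0 < 1 - s ^ 2 := by linarith only [h0]
    have hL2 : Λ ≤ s ^ 2 / (1 - s ^ 2) := by
      have h3 := Real.log_le_sub_one_of_pos (x := (1 - s ^ 2)⁻¹) (by positivity)
      rw [Real.log_inv] at h3
      have e2 : (1 - s ^ 2)⁻¹ - 1 = s ^ 2 / (1 - s ^ 2) := by field_simp; ring
      linarith only [hL, h3, e2]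
    have h4 : 3 * (1 + s) ^ 2 * Λ ≤ 3 * (1 + s) ^ 2 * (s ^ 2 / (1 - s ^ 2)) :=
      mul_le_mul_of_nonneg_left hL2 (by positivity)
    have h5 : 3 * (1 + s) ^ 2 * (s ^ 2 / (1 - s ^ 2)) <
        2 * s ^ 2 * (2 + 4 * s + 2 * s ^ 2 + s ^ 3) := by
      rw [← mul_div_assoc, div_lt_iff₀ h2, hz]
      have h6 : 0 < s ^ 2 * (1 + s) * (2 * (2 + 4 * s + 2 * s ^ 2 + s ^ 3) * (1 - s) -
          3 * (1 + s)) := by
        apply mul_pos (by positivity)
        nlinarith only [hc, hs0, h0]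
      linarith only [h6]
    linarith only [h4, h5]
  · -- `Λ ≤ K/dK`
    have h3 : Λ ≤ s ^ 2 * (2 + s) / ((1 + s) * (1 + s + s ^ 2)) := by
      rw [le_div_iff₀ (by positivity)]
      have e2 : (1 - s ^ 2) * ((1 - s ^ 3) / s ^ 3) * Λ - (1 - s) ^ 2 * (2 + s) / s =
          (1 - s) ^ 2 / s ^ 3 * (Λ * ((1 + s) * (1 + s + s ^ 2)) - s ^ 2 * (2 + s)) := by
        field_simp
        ring
      by_contra hcon
      push Not at hcon
      have : 0 < (1 - s) ^ 2 / s ^ 3 * (Λ * ((1 + s) * (1 + s + s ^ 2)) - s ^ 2 * (2 + s)) := by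
        apply mul_pos (by positivity)
        linarith only [hcon]
      linarith only [hs, e2, this]
    have h4 : 3 * (1 + s) ^ 2 * Λ ≤
        3 * (1 + s) ^ 2 * (s ^ 2 * (2 + s) / ((1 + s) * (1 + s + s ^ 2))) :=
      mul_le_mul_of_nonneg_left h3 (by positivity)
    have h5 : 3 * (1 + s) ^ 2 * (s ^ 2 * (2 + s) / ((1 + s) * (1 + s + s ^ 2))) <
        2 * s ^ 2 * (2 + 4 * s + 2 * s ^ 2 + s ^ 3) := by
      rw [← mul_div_assoc, div_lt_iff₀ (by positivity)]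
      have h6 : 0 < s ^ 2 * (1 + s) * (2 * (2 + 4 * s + 2 * s ^ 2 + s ^ 3) * (1 + s + s ^ 2) -
          3 * (1 + s) * (2 + s)) := by
        apply mul_pos (by positivity)
        nlinarith only [hc, pow_pos hs0 5]
      linarith only [h6]
    linarith only [h4, h5]

/-! ## lines with nonnegative slope in a function with the up-set property -/

/-- if `g' ≥ 0` implies `g'' > 0`, then tangents with nonnegative slope are below `g` -/
theorem upset_tangent {c : ℝ} {g g' g'' : ℝ → ℝ}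
    (hg : ∀ b ∈ Ioo 0 c, HasDerivAt g (g' b) b) (hg' : ∀ b ∈ Ioo 0 c, HasDerivAt g' (g'' b) b)
    (hpos : ∀ b ∈ Ioo 0 c, 0 ≤ g' b → 0 < g'' b) {q b : ℝ} (hq : q ∈ Ioo 0 c) (hb : b ∈ Ioo 0 c)
    (hs : 0 ≤ g' q) : g q + g' q * (b - q) ≤ g b := by
  -- persistence
  have pers : ∀ t0 ∈ Ioo 0 c, ∀ t1 ∈ Ioo 0 c, t0 ≤ t1 → 0 ≤ g' t0 → 0 ≤ g' t1 := by
    intro t0 h0 t1 h1 h01 hh
    have hsub : Icc t0 t1 ⊆ Ioo 0 c := fun y hy => ⟨h0.1.trans_le hy.1, hy.2.trans_lt h1.2⟩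
    have key := image_le_of_deriv_right_lt_deriv_boundary (f := fun y => -g' y)
      (f' := fun y => -g'' y) (B := fun _ => (0 : ℝ)) (B' := fun _ => 0) (a := t0) (b := t1)
      (fun y hy => ((hg' y (hsub hy)).continuousAt.neg).continuousWithinAt)
      (fun y hy => ((hg' y (hsub ⟨hy.1, hy.2.le⟩)).neg).hasDerivWithinAt)
      (by simpa only [Left.neg_nonpos_iff] using hh) (fun y => hasDerivAt_const y 0)
      (fun y hy he => by
        have h3 : 0 < g'' y := hpos y (hsub ⟨hy.1, hy.2.le⟩) (by simp at he; linarith)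
        simpa using h3)
    have := key (right_mem_Icc.2 h01)
    simpa only [ge_iff_le, Left.neg_nonpos_iff] using this
  -- convexity where `g' ≥ 0`
  have conv : ∀ t0 ∈ Ioo 0 c, 0 ≤ g' t0 → ∀ p ∈ Ico t0 c, ∀ r ∈ Ico t0 c,
      g p + g' p * (r - p) ≤ g r := by
    intro t0 h0 hh p hp r hr
    have hsub : Ico t0 c ⊆ Ioo 0 c := fun y hy => ⟨h0.1.trans_le hy.1, hy.2⟩
    exact tangent_le_of_deriv2' (s := Ico t0 c) ordConnected_Ico
      (fun y hy => hg y (hsub hy)) (fun y hy => hg' y (hsub hy))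
      (fun y hy => (hpos y (hsub hy) (pers t0 h0 y (hsub hy) hy.1 hh)).le) hp hr
  rcases le_total q b with h | h
  · exact conv q hq hs q ⟨le_rfl, hq.2⟩ b ⟨h, hb.2⟩
  · by_cases hbs : 0 ≤ g' b
    · exact conv b hb hbs q ⟨h, hq.2⟩ b ⟨le_rfl, hb.2⟩
    · push Not at hbs
      -- the zero of `g'` between `b` and `q`
      have hcont : ContinuousOn g' (Icc b q) := fun y hy =>
        (hg' y ⟨hb.1.trans_le hy.1, hy.2.trans_lt hq.2⟩).continuousAt.continuousWithinAt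
      obtain ⟨t, ht, ht0⟩ := intermediate_value_Icc h hcont (show (0 : ℝ) ∈ Icc (g' b) (g' q) from
        ⟨hbs.le, hs⟩)
      have htI : t ∈ Ioo 0 c := ⟨hb.1.trans_le ht.1, ht.2.trans_lt hq.2⟩
      have h1 := conv t htI ht0.ge q ⟨ht.2, hq.2⟩ t ⟨le_rfl, htI.2⟩
      -- `g' ≤ 0` on `[b,t]`
      have hneg : ∀ y ∈ Icc b t, g' y ≤ 0 := by
        intro y hy
        by_contra hcon
        push Not at hcon
        have hyI : y ∈ Ioo 0 c := ⟨hb.1.trans_le hy.1, hy.2.trans_lt htI.2⟩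
        rcases hy.2.eq_or_lt with he | he
        · rw [he, ht0] at hcon; exact lt_irrefl _ hcon
        · -- strictly positive after `y`
          have hst : StrictMonoOn g' (Icc y t) := by
            apply strictMonoOn_of_deriv_pos (convex_Icc y t)
            · exact fun w hw => (hg' w ⟨hyI.1.trans_le hw.1, hw.2.trans_lt htI.2⟩).continuousAt.continuousWithinAt
            · intro w hw
              rw [interior_Icc] at hw
              have hwI : w ∈ Ioo 0 c := ⟨hyI.1.trans hw.1, hw.2.trans htI.2⟩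
              rw [(hg' w hwI).deriv]
              exact hpos w hwI (pers y hyI w hwI hw.1.le hcon.le)
          have := hst (left_mem_Icc.2 he.le) (right_mem_Icc.2 he.le) he
          rw [ht0] at this
          linarith
      have h2 : g t ≤ g b := by
        have hanti : AntitoneOn g (Icc b t) := by
          apply antitoneOn_of_deriv_nonpos (convex_Icc b t)
          · exact fun w hw => (hg w ⟨hb.1.trans_le hw.1, hw.2.trans_lt htI.2⟩).continuousAt.continuousWithinAt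
          · intro w hw
            rw [interior_Icc] at hw
            exact (hg w ⟨hb.1.trans hw.1, hw.2.trans htI.2⟩).differentiableAt.differentiableWithinAt
          · intro w hw
            rw [interior_Icc] at hw
            rw [(hg w ⟨hb.1.trans hw.1, hw.2.trans htI.2⟩).deriv]
            exact hneg w ⟨hw.1.le, hw.2.le⟩
        exact hanti (left_mem_Icc.2 ht.1) (right_mem_Icc.2 ht.1) ht.1
      have h3 : g' q * (b - q) ≤ g' q * (t - q) := mul_le_mul_of_nonneg_left (by linarith [ht.1]) hs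
      linarith

/-! ## the kernel -/

noncomputable def kF (a b : ℝ) : ℝ := if 0 < a * b then fK (a * b) * Real.log (b / a) else 0

theorem kF_pos {a b : ℝ} (ha : 0 < a) (hb : 0 < b) : kF a b = fK (a * b) * Real.log (b / a) := by
  unfold kF
  rw [if_pos (mul_pos ha hb)]

theorem kF_nonpos {a b : ℝ} (ha : 0 < a) (hb : b ≤ 0) : kF a b = 0 := by
  unfold kF
  rw [if_neg (by linarith only [mul_nonneg (le_of_lt (sub_pos.2 ha)) (sub_nonneg.2 hb)])]

theorem kF_symm (a b : ℝ) : kF (-a) (-b) = kF a b := by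
  unfold kF
  rw [neg_mul_neg, neg_div_neg_eq]

theorem kF_anti (a b : ℝ) : kF a b = -kF b a := by
  unfold kF
  rw [mul_comm b a]
  split_ifs with h
  · have : Real.log (b / a) = -Real.log (a / b) := by rw [← Real.log_inv, inv_div]
    rw [this]
    ring
  · ring

theorem kF_eq_kL {a b : ℝ} : kF a b = 2 * kL (1 / 2) 0 a b -
    (if 0 < a * b then (1 / 2) * b ^ 2 - (1 / 2) * a ^ 2 else 0) := by
  unfold kF kL
  split_ifs with h
  · have e : fK (a * b) = 2 * (lK (a * b) - 1 / 2 * (a * b)) := by unfold fK lK; ring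
    rw [e]
    ring
  · ring

theorem kF_bound {a b : ℝ} (ha : a ∈ Icc (-1 : ℝ) 1) (hb : b ∈ Icc (-1 : ℝ) 1) :
    |kF a b| ≤ 2 * Real.sqrt (1 - a * b) := by
  unfold kF
  split_ifs with h
  · have e : fK (a * b) = 2 * (lK (a * b) - 1 / 2 * (a * b)) := by unfold fK lK; ring
    rw [e, mul_assoc, abs_mul, abs_two]
    have := kLlog_bound (k := 1 / 2) (by norm_num) le_rfl ha hb h
    linarith only [this]
  · simp only [abs_zero, Nat.ofNat_pos, mul_nonneg_iff_of_pos_left, Real.sqrt_nonneg]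

theorem kF_meas : Measurable (Function.uncurry kF) := by
  have e : Function.uncurry kF = fun x : ℝ × ℝ =>
      if 0 < x.1 * x.2 then fK (x.1 * x.2) * Real.log (x.2 / x.1) else 0 := rfl
  rw [e]
  have hK : Measurable fK := by unfold fK; fun_prop
  refine Measurable.ite (measurableSet_lt measurable_const (measurable_fst.mul measurable_snd))
    ?_ measurable_const
  exact (hK.comp (measurable_fst.mul measurable_snd)).mul
    (Real.measurable_log.comp (measurable_snd.div measurable_fst))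

theorem kF_kern2 : Kern2 kF where
  meas := kF_meas
  bdd := by
    refine ⟨4, fun a ha b hb => (kF_bound ha hb).trans ?_⟩
    have h2 : Real.sqrt (1 - a * b) ≤ 2 := by
      rw [Real.sqrt_le_left (by norm_num)]
      nlinarith [ha.1, ha.2, hb.1, hb.2]
    linarith
  anti := fun a _ b _ => kF_anti a b
  symm := kF_symm
  corner := by
    intro η hη
    refine ⟨min (1 / 2) (η ^ 2 / 8), by positivity, fun a ha b hb => ?_⟩
    set δ := min (1 / 2 : ℝ) (η ^ 2 / 8) with hδ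
    have hδ1 : δ ≤ 1 / 2 := min_le_left _ _
    have hδ3 : δ ≤ η ^ 2 / 8 := min_le_right _ _
    have hδ0 : 0 < δ := by positivity
    have ha' : a ∈ Icc (-1 : ℝ) 1 := ⟨by linarith only [hδ1, ha.1], ha.2⟩
    have hb' : b ∈ Icc (-1 : ℝ) 1 := ⟨by linarith only [hδ1, hb.1], hb.2⟩
    refine (kF_bound ha' hb').trans ?_
    have h2 : Real.sqrt (1 - a * b) ≤ η / 2 := by
      rw [Real.sqrt_le_left (by positivity)]
      nlinarith only [hδ3, hδ1, hδ0, ha.1, hb.1]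
    linarith only [h2]

/-! ## log lines -/

/-- intercept of the log line with contact `q` -/
noncomputable def kFc (a q : ℝ) : ℝ := gC fK fK1 (fun _ => 0) (fun _ => 0) a q

/-- slope of the log line with contact `q` -/
noncomputable def kFp (a q : ℝ) : ℝ := gD fK fK1 (fun _ => 0) a q

theorem kF_gV_deriv {a b : ℝ} (ha : 0 < a) (hb : 0 < b) (hab : a * b < 1) :
    HasDerivAt (gV fK (fun _ => 0) a) (kFp a b) b := by
  have h := gV_has kF_data (hasDerivAt_const b a) (hasDerivAt_id b) ha hb hab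
  refine h.congr_deriv ?_
  simp [kFp]

theorem kFp_deriv {a b : ℝ} (ha : 0 < a) (hb : 0 < b) (hab : a * b < 1) :
    HasDerivAt (kFp a) (gDD fK fK1 fK2 (fun _ => 0) a b) b := by
  have h := gD_has kF_data (hasDerivAt_const b a) (hasDerivAt_id b) ha hb hab
  refine h.congr_deriv ?_
  simp

theorem kFp_mul {a q : ℝ} (hq : 0 < q) :
    kFp a q * q = fK (a * q) - a * q * fK1 (a * q) * -Real.log (q / a) := by
  unfold kFp gD
  field_simp
  ring

theorem kFcp {a q : ℝ} (b : ℝ) :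
    kFc a q + kFp a q * b = gV fK (fun _ => 0) a q + kFp a q * (b - q) := by
  unfold kFc kFp gC
  ring

theorem kF_gV {a b : ℝ} (ha : 0 < a) (hb : 0 < b) : gV fK (fun _ => 0) a b = kF a b := by
  rw [kF_pos ha hb]
  unfold gV
  ring

theorem neg_log_div_le {a b : ℝ} (ha : 0 < a) (ha1 : a ≤ 1) (hb : 0 < b) :
    -Real.log (b / a) ≤ -Real.log (a * b) := by
  have : Real.log (a * b) ≤ Real.log (b / a) := by
    apply Real.log_le_log (by positivity)
    rw [le_div_iff₀ ha]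
    have h1 : a * a ≤ 1 := by nlinarith
    linarith only [mul_nonneg (le_of_lt (sub_pos.2 hb)) (sub_nonneg.2 h1)]
  linarith

/-- where the slope is nonnegative the kernel is convex -/
theorem kF_upset {a b : ℝ} (ha : 0 < a) (ha1 : a ≤ 1) (hb : 0 < b) (hab : a * b < 1)
    (hs : 0 ≤ kFp a b) : 0 < gDD fK fK1 fK2 (fun _ => 0) a b := by
  have hz0 : 0 < a * b := mul_pos ha hb
  have h1 : 0 ≤ kFp a b * b := mul_nonneg hs hb.le
  rw [kFp_mul hb] at h1
  have h2 := fK_conv hz0 hab (neg_log_div_le ha ha1 hb) (by linarith)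
  have h3 : 0 < b ^ 2 * gDD fK fK1 fK2 (fun _ => 0) a b := by
    have e : b ^ 2 * gDD fK fK1 fK2 (fun _ => 0) a b =
        2 * (a * b * fK1 (a * b)) - fK (a * b) -
          (a * b) ^ 2 * fK2 (a * b) * -Real.log (b / a) := by
      unfold gDD
      field_simp
      ring
    rw [e]
    exact h2
  exact (mul_pos_iff_of_pos_left (by positivity)).1 h3

/-- log lines with nonnegative slope, positive side (contact anywhere, `b` up to `1/a`) -/
theorem kFq_pos {a q b : ℝ} (ha : 0 < a) (ha1 : a ≤ 1) (hq : 0 < q) (hq1 : a * q < 1)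
    (hs : 0 ≤ kFp a q) (hb0 : 0 < b) (hb : a * b < 1) :
    gV fK (fun _ => 0) a q + kFp a q * (b - q) ≤ gV fK (fun _ => 0) a b := by
  have hlt : ∀ y ∈ Ioo 0 (1 / a), a * y < 1 := fun y hy => by
    have := hy.2; rw [lt_div_iff₀ ha] at this; linarith
  exact upset_tangent (c := 1 / a) (g'' := gDD fK fK1 fK2 (fun _ => 0) a)
    (fun y hy => kF_gV_deriv ha hy.1 (hlt y hy)) (fun y hy => kFp_deriv ha hy.1 (hlt y hy))
    (fun y hy => kF_upset ha ha1 hy.1 (hlt y hy)) ⟨hq, by rw [lt_div_iff₀ ha]; linarith⟩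
    ⟨hb0, by rw [lt_div_iff₀ ha]; linarith⟩ hs

/-- **log lines with nonnegative slope are admissible** -/
theorem kFq_le {a q b : ℝ} (ha : 0 < a) (ha1 : a < 1) (hq : 0 < q) (hq1 : a * q < 1)
    (hs : 0 ≤ kFp a q) (hb : b ∈ Icc (-1 : ℝ) 1) : kFc a q + kFp a q * b ≤ kF a b := by
  have hpos : ∀ b, 0 < b → b ≤ 1 → kFc a q + kFp a q * b ≤ kF a b := by
    intro b hb0 hb1
    rw [kFcp, ← kF_gV ha hb0]
    exact kFq_pos ha ha1.le hq hq1 hs hb0 (by nlinarith only [ha1, ha, hb1])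
  rcases lt_or_ge 0 b with h | h
  · exact hpos b h hb.2
  · rw [kF_nonpos ha h]
    -- the value at `a` is `0`
    have h1 := hpos a ha ha1.le
    rw [kF_pos ha ha, div_self ha.ne', Real.log_one, mul_zero] at h1
    have h2 : kFp a q * b ≤ kFp a q * a := mul_le_mul_of_nonneg_left (by linarith) hs
    linarith

/-- contact `q ≥ a`: the slope is nonnegative -/
theorem kFp_nonneg_of_le {a q : ℝ} (ha : 0 < a) (hqa : a ≤ q) (hq1 : a * q < 1) :
    0 ≤ kFp a q := by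
  have hq : 0 < q := ha.trans_le hqa
  have hz0 : 0 < a * q := mul_pos ha hq
  have h1 : 0 ≤ Real.log (q / a) := Real.log_nonneg (by rw [le_div_iff₀ ha]; linarith)
  have h2 := fK_pos hz0 hq1
  have h3 := fK1_pos hz0 hq1
  have h4 : 0 ≤ q * kFp a q := by
    rw [mul_comm, kFp_mul hq]
    have : 0 ≤ a * q * fK1 (a * q) * Real.log (q / a) := by positivity
    linarith only [h2, this]
  exact nonneg_of_mul_nonneg_right h4 hq

end Vale.Agent.P237.AllN
end

section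

/-!
# P237, block D: the inequalities (ALPHA) of the a priori steps
-/

open Real

namespace Vale.Agent.P237.AllN

open PolyPos

theorem al_exp_neg {v : ℝ} (h0 : 0 ≤ v) (h1 : v ≤ 16 / 100) :
    1 - v + 47 / 100 * v ^ 2 ≤ exp (-v) := by
  have h := Real.exp_bound (x := -v) (by rw [abs_neg, abs_of_nonneg h0]; linarith only [h1])
    (n := 4) (by norm_num)
  rw [abs_neg, abs_of_nonneg h0] at h
  have h2 := (abs_le.1 h).1
  simp only [Finset.sum_range_succ, Finset.sum_range_zero, Nat.factorial] at h2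
  norm_num at h2
  have h3 : v ^ 3 ≤ 16 / 100 * v ^ 2 := by linarith only [mul_nonneg (sq_nonneg (1 * v : ℝ)) (sub_nonneg.2 h1)]
  have h4 : v ^ 4 ≤ (16 / 100) ^ 2 * v ^ 2 := by nlinarith only [h3, h0]
  nlinarith only [h2, h4]

theorem al_exp_three : (2008 / 100 : ℝ) ≤ exp 3 := by
  have := Real.sum_le_exp_of_nonneg (x := 3) (by norm_num) 14
  refine le_trans ?_ this
  norm_num [Finset.sum_range_succ, Nat.factorial]

theorem apl_ge {b : ℝ} (hb : 3 ≤ b) :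
    exp 1 * (1 - (1 + b) * exp (-b) + 47 / 100 * b ^ 2 * exp (-b) ^ 2) ≤ aplW 1 b := by
  unfold aplW
  set q := exp (-b) with hq
  have hq0 : 0 < q := exp_pos _
  have hqe : exp b = 1 / q := by rw [hq, exp_neg]; simp
  have hE : 20 * (b - 2) ≤ exp b := by
    have h1 : exp b = exp 3 * exp (b - 3) := by rw [← exp_add]; ring_nf
    have h2 := add_one_le_exp (b - 3)
    rw [h1]
    calc 20 * (b - 2) ≤ exp 3 * (b - 2) :=
          mul_le_mul_of_nonneg_right (by linarith only [al_exp_three]) (by linarith only [hb])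
      _ ≤ exp 3 * exp (b - 3) := mul_le_mul_of_nonneg_left (by linarith) (exp_pos _).le
  have hqb : b * q ≤ 3 / 20 := by
    rw [hqe, le_div_iff₀ hq0] at hE
    nlinarith only [hE, hb]
  have hq1 : q ≤ 1 / 20 := by nlinarith only [hqb, hb]
  have hq2 : 0 < 1 - q := by linarith
  have hv : b / (exp b - 1) = b * q / (1 - q) := by
    rw [hqe]
    (clear * - hq0 hq2 hb; field_simp)
  have hv0 : 0 ≤ b * q / (1 - q) := by positivity
  have hv1 : b * q / (1 - q) ≤ 16 / 100 := by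
    rw [div_le_iff₀ hq2]; linarith only [hqb, hq1]
  have h1 := al_exp_neg hv0 hv1
  have e1 : exp (1 * (1 - b / (exp b - 1))) = exp 1 * exp (-(b * q / (1 - q))) := by
    rw [hv, ← exp_add]
    ring_nf
  rw [e1]
  have h2 : 1 - (1 + b) * q + 47 / 100 * b ^ 2 * q ^ 2 ≤
      (1 - q) * (1 - b * q / (1 - q) + 47 / 100 * (b * q / (1 - q)) ^ 2) := by
    have e2 : (1 - q) * (1 - b * q / (1 - q) + 47 / 100 * (b * q / (1 - q)) ^ 2) =
        1 - (1 + b) * q + 47 / 100 * b ^ 2 * q ^ 2 / (1 - q) := by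
      field_simp
      ring
    rw [e2]
    have h3 : 47 / 100 * b ^ 2 * q ^ 2 ≤ 47 / 100 * b ^ 2 * q ^ 2 / (1 - q) := by
      rw [le_div_iff₀ hq2]
      linarith only [show 0 ≤ 47 / 100 * b ^ 2 * q ^ 2 * q by positivity]
    linarith only [h3]
  calc exp 1 * (1 - (1 + b) * q + 47 / 100 * b ^ 2 * q ^ 2) ≤
        exp 1 * ((1 - q) * (1 - b * q / (1 - q) + 47 / 100 * (b * q / (1 - q)) ^ 2)) :=
        mul_le_mul_of_nonneg_left h2 (exp_pos _).le
    _ ≤ exp 1 * ((1 - q) * exp (-(b * q / (1 - q)))) :=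
        mul_le_mul_of_nonneg_left (mul_le_mul_of_nonneg_left h1 hq2.le) (exp_pos _).le
    _ = (1 - q) * (exp 1 * exp (-(b * q / (1 - q)))) := by ring

/-- the constant: `√(π/2) exp(1/2 - B) ≤ e k` -/
theorem al_const {B k : ℝ}
    (h : 12534 / 10000 * exp (-(1 / 2 + B)) ≤ k) :
    √(π / 2) * exp (1 / 2 - B) ≤ exp 1 * k := by
  have h1 : √(π / 2) ≤ 12534 / 10000 := by
    rw [Real.sqrt_le_left (by norm_num)]
    have := Real.pi_lt_d4
    norm_num at this ⊢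
    linarith only [this]
  have h2 : exp (1 / 2 - B) = exp 1 * exp (-(1 / 2 + B)) := by
    rw [← exp_add]; ring_nf
  rw [h2]
  calc √(π / 2) * (exp 1 * exp (-(1 / 2 + B))) = exp 1 * (√(π / 2) * exp (-(1 / 2 + B))) := by ring
    _ ≤ exp 1 * (12534 / 10000 * exp (-(1 / 2 + B))) :=
        mul_le_mul_of_nonneg_left (mul_le_mul_of_nonneg_right h1 (exp_pos _).le) (exp_pos _).le
    _ ≤ exp 1 * k := mul_le_mul_of_nonneg_left h (exp_pos _).le

theorem al_k {y k : ℝ} {n : ℕ} (hy : 0 ≤ y) (hk : 0 < k)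
    (h : 12534 / 10000 ≤ k * ∑ i ∈ Finset.range n, y ^ i / i.factorial) :
    12534 / 10000 * exp (-y) ≤ k := by
  have h1 := Real.sum_le_exp_of_nonneg hy n
  rw [exp_neg, ← div_eq_mul_inv, div_le_iff₀ (exp_pos y)]
  exact h.trans (mul_le_mul_of_nonneg_left h1 hk.le)

/-- reduction to a polynomial inequality -/
theorem al_red {b X k B Q : ℝ} (hb : 3 ≤ b) (hX : 0 ≤ X)
    (hk : √(π / 2) * exp (1 / 2 - B) ≤ exp 1 * k) (hQ : exp (-b) ≤ Q) (hQ1 : b * Q ≤ 1)
    (h : k * b ≤ X * (1 - (1 + b) * Q + 47 / 100 * b ^ 2 * Q ^ 2)) :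
    √(π / 2) * exp (1 / 2 - B) * b ≤ X * aplW 1 b := by
  have h1 := apl_ge hb
  set q := exp (-b) with hq
  have hq0 : 0 < q := exp_pos _
  have h2 : 1 - (1 + b) * Q + 47 / 100 * b ^ 2 * Q ^ 2 ≤
      1 - (1 + b) * q + 47 / 100 * b ^ 2 * q ^ 2 := by
    have h3 : 47 / 100 * b ^ 2 * (Q ^ 2 - q ^ 2) ≤ (1 + b) * (Q - q) := by
      have e : 47 / 100 * b ^ 2 * (Q ^ 2 - q ^ 2) = (47 / 100 * b * (b * (Q + q))) * (Q - q) := by
        ring
      rw [e]
      apply mul_le_mul_of_nonneg_right _ (by linarith only [hQ])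
      have : b * (Q + q) ≤ 2 := by linarith only [mul_nonneg (sub_nonneg.2 hQ) (sub_nonneg.2 hb), hQ, hQ1]
      (by_contra nlg; linarith only [nlg, mul_nonneg (le_of_lt (sub_pos.2 hq0)) (sub_nonneg.2 this), mul_pos (sub_pos.2 hq0) (sub_pos.2 hq0), mul_nonneg (sub_nonneg.2 hQ) (le_of_lt (sub_pos.2 hq0)), mul_nonneg (sub_nonneg.2 hQ) (sub_nonneg.2 hQ), mul_nonneg (sub_nonneg.2 hQ1) (sub_nonneg.2 hQ), mul_nonneg (sub_nonneg.2 hb) (sub_nonneg.2 this), mul_nonneg (sub_nonneg.2 hb) (le_of_lt (sub_pos.2 hq0)), mul_nonneg (sub_nonneg.2 hb) (sub_nonneg.2 hQ), mul_nonneg (sq_nonneg (1 * q : ℝ)) (sub_nonneg.2 hb), mul_nonneg (sq_nonneg (1 * Q : ℝ)) (sub_nonneg.2 hb), mul_nonneg (mul_self_nonneg (1 : ℝ)) (sub_nonneg.2 this), mul_nonneg (mul_self_nonneg (1 : ℝ)) (sub_nonneg.2 hb), mul_nonneg (mul_self_nonneg (1 : ℝ)) (le_of_lt (sub_pos.2 (not_le.1 nlg)))])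
    linarith only [h3]
  calc √(π / 2) * exp (1 / 2 - B) * b ≤ exp 1 * k * b := mul_le_mul_of_nonneg_right hk (by linarith only [hb])
    _ = exp 1 * (k * b) := by ring
    _ ≤ exp 1 * (X * (1 - (1 + b) * Q + 47 / 100 * b ^ 2 * Q ^ 2)) :=
        mul_le_mul_of_nonneg_left h (exp_pos _).le
    _ ≤ exp 1 * (X * (1 - (1 + b) * q + 47 / 100 * b ^ 2 * q ^ 2)) :=
        mul_le_mul_of_nonneg_left (mul_le_mul_of_nonneg_left h2 hX) (exp_pos _).le
    _ = X * (exp 1 * (1 - (1 + b) * q + 47 / 100 * b ^ 2 * q ^ 2)) := by ring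
    _ ≤ X * aplW 1 b := mul_le_mul_of_nonneg_left h1 hX

/-- upper bound of `exp (-b)` -/
theorem al_q {b b0 E0 : ℝ} (hE : E0 ≤ exp b0) (hE0 : 0 < E0) (hb : b0 ≤ b) :
    exp (-b) ≤ 1 / (E0 * (1 + (b - b0) + (b - b0) ^ 2 / 2 + (b - b0) ^ 3 / 6)) := by
  have ht : 0 ≤ b - b0 := by linarith only [hb]
  have h1 := Real.sum_le_exp_of_nonneg ht 4
  simp only [Finset.sum_range_succ, Finset.sum_range_zero, Nat.factorial] at h1
  norm_num at h1
  have h2 : exp b = exp b0 * exp (b - b0) := by rw [← exp_add]; ring_nf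
  have h3 : 0 < 1 + (b - b0) + (b - b0) ^ 2 / 2 + (b - b0) ^ 3 / 6 := by (clear * - hb; positivity)
  have h4 : E0 * (1 + (b - b0) + (b - b0) ^ 2 / 2 + (b - b0) ^ 3 / 6) ≤ exp b := by
    rw [h2]
    exact mul_le_mul hE h1 h3.le (exp_pos _).le
  rw [exp_neg, ← one_div]
  exact one_div_le_one_div_of_le (by positivity) h4

/-- `600 E0 p(t)`, `E0 = c/100` -/
def alE (c : ℤ) : List ℤ := psm c [6, 6, 3, 1]

theorem ev_alE (c : ℤ) (t : ℝ) :
    ev1 (alE c) t = 600 * ((c : ℝ) / 100 * (1 + t + t ^ 2 / 2 + t ^ 3 / 6)) := by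
  simp only [alE, ev1_psm, ev1_cons, ev1_nil]
  push_cast
  ring

def alQ1 : List ℤ :=
  padd (psm 10000 (pmul [1003, 200] (padd (pmul (alE 2008) (alE 2008))
    (padd (psm (-600) (pmul [4, 1] (alE 2008))) (psm 169200 (ppow [3, 1] 2))))))
  (psm (-(5096 * 528)) (pmul [3, 1] (pmul (alE 2008) (alE 2008))))

set_option maxRecDepth 100000 in
theorem alQ1_nonneg {t : ℝ} (h0 : 0 ≤ t) (h1 : 1000 * t < 1587) : 0 ≤ ev1 alQ1 t :=
  auto1_sound (n := 10) (A := 0) (B := 1587) (D := 1000) (by norm_num) (by (clear * -; decide +kernel))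
    (by push_cast; linarith) (by push_cast; linarith)

/-- the case `19/10 ≤ X ≤ 5/2` -/
theorem apl_alpha1 {X : ℝ} (h1 : 19 / 10 ≤ X) (h2 : X ≤ 5 / 2) :
    √(π / 2) * exp (1 / 2 - 2 / 5) * ((528 * X - 403) / 200) ≤
      X * aplW 1 ((528 * X - 403) / 200) := by
  set b := (528 * X - 403) / 200 with hb
  have hX : X = (200 * b + 403) / 528 := by rw [hb]; ring
  have hb3 : 3 ≤ b := by rw [hb]; linarith only [h1]
  have hb4 : b ≤ 4586 / 1000 := by rw [hb]; linarith only [h2]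
  have hq := al_q al_exp_three (by norm_num) hb3
  have hk : √(π / 2) * exp (1 / 2 - 2 / 5) ≤ exp 1 * (5096 / 10000) := by
    apply al_const
    apply al_k (n := 8) (by norm_num) (by norm_num)
    norm_num [Finset.sum_range_succ, Nat.factorial]
  set t := b - 3 with ht
  have ht0 : 0 ≤ t := by linarith only [h1, hb]
  have hD : 0 < 2008 / 100 * (1 + t + t ^ 2 / 2 + t ^ 3 / 6) := by (clear * - hb3; positivity)
  refine al_red hb3 (by linarith only [h1]) hk hq ?_ ?_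
  · rw [mul_one_div, div_le_one hD]
    linarith only [mul_nonneg (sub_nonneg.2 ht0) (sub_nonneg.2 ht0), mul_nonneg (sq_nonneg (1 * b - 1 * 3 : ℝ)) (sub_nonneg.2 ht0), ht0]
  · have hQ := alQ1_nonneg ht0 (by linarith only [h2, hb])
    have hbt : b = 3 + t := by linarith only []
    have hXt : X = (1003 + 200 * t) / 528 := by rw [hX, hbt]; ring
    set D := 2008 / 100 * (1 + t + t ^ 2 / 2 + t ^ 3 / 6) with hD'
    have e : ev1 alQ1 t = (528 * 360000 * 10000 * D ^ 2) *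
        (X * (1 - (1 + b) * (1 / D) + 47 / 100 * b ^ 2 * (1 / D) ^ 2) - 5096 / 10000 * b) := by
      simp only [alQ1, ev1_padd, ev1_psm, ev1_pmul, ev1_cons, ev1_nil, ev_alE, ev1_ppow]
      have hD2 : ((2008 : ℤ) : ℝ) / 100 * (1 + t + t ^ 2 / 2 + t ^ 3 / 6) = D := by
        rw [hD']; norm_num
      rw [hD2, hbt, hXt]
      push_cast
      field_simp
      ring
    rw [e] at hQ
    have := nonneg_of_mul_nonneg_right hQ (by (clear * - hb3; positivity))
    linarith only [this]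

def alQ2 : List ℤ :=
  padd (psm 1000000 (pmul [70, 10] (padd (alE 10660) [-3402, -600])))
  (psm (-(4946 * 28)) (pmul [467, 100] (alE 10660)))

def alQ3 : List ℤ :=
  padd (psm 1000000 (pmul [858, 100] (padd (alE 23270) [-3870, -600])))
  (psm (-(4728 * 312)) (pmul [545, 100] (alE 23270)))

set_option maxRecDepth 100000 in
theorem alQ2_nonneg {t : ℝ} (h0 : 0 ≤ t) (h1 : 1000 * t < 701) : 0 ≤ ev1 alQ2 t :=
  auto1_sound (n := 10) (A := 0) (B := 701) (D := 1000) (by norm_num) (by (clear * -; decide +kernel))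
    (by push_cast; linarith) (by push_cast; linarith)

set_option maxRecDepth 100000 in
theorem alQ3_nonneg {t : ℝ} (h0 : 0 ≤ t) (h1 : 1000 * t < 781) : 0 ≤ ev1 alQ3 t :=
  auto1_sound (n := 10) (A := 0) (B := 781) (D := 1000) (by norm_num) (by (clear * -; decide +kernel))
    (by push_cast; linarith) (by push_cast; linarith)

theorem al_simple {b X k D : ℝ} (hD : 0 < D) (hX : 0 ≤ X)
    (h : 0 ≤ X * (D - (1 + b)) - k * b * D) :
    k * b ≤ X * (1 - (1 + b) * (1 / D) + 47 / 100 * b ^ 2 * (1 / D) ^ 2) := by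
  have h1 : 0 ≤ X * (47 / 100 * b ^ 2 * (1 / D) ^ 2) := by (clear * - hX hD; positivity)
  have h2 : k * b ≤ X * (1 - (1 + b) * (1 / D)) := by
    have e : X * (1 - (1 + b) * (1 / D)) - k * b = (X * (D - (1 + b)) - k * b * D) / D := by
      (clear * - hD; field_simp)
    have : 0 ≤ (X * (D - (1 + b)) - k * b * D) / D := by positivity
    (clear * - e this; linarith)
  have e2 : X * (1 - (1 + b) * (1 / D) + 47 / 100 * b ^ 2 * (1 / D) ^ 2) =
      X * (1 - (1 + b) * (1 / D)) + X * (47 / 100 * b ^ 2 * (1 / D) ^ 2) := by ring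
  linarith only [h1, h2]

/-- the case `5/2 ≤ X ≤ 11/4` -/
theorem apl_alpha2 {X : ℝ} (h1 : 5 / 2 ≤ X) (h2 : X ≤ 11 / 4) :
    √(π / 2) * exp (1 / 2 - 43 / 100) * ((280 * X - 233) / 100) ≤
      X * aplW 1 ((280 * X - 233) / 100) := by
  set b := (280 * X - 233) / 100 with hb
  have hX : X = (100 * b + 233) / 280 := by rw [hb]; ring
  have hb3 : 467 / 100 ≤ b := by rw [hb]; (clear * - h1; linarith)
  have hb4 : b ≤ 537 / 100 := by rw [hb]; linarith only [h2]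
  have hE : (10660 / 100 : ℝ) ≤ exp (467 / 100) := by
    have := Real.sum_le_exp_of_nonneg (x := 467 / 100) (by norm_num) 17
    refine le_trans ?_ this
    norm_num [Finset.sum_range_succ, Nat.factorial]
  have hq := al_q hE (by norm_num) hb3
  have hk : √(π / 2) * exp (1 / 2 - 43 / 100) ≤ exp 1 * (4946 / 10000) := by
    apply al_const
    apply al_k (n := 8) (by norm_num) (by norm_num)
    norm_num [Finset.sum_range_succ, Nat.factorial]
  set t := b - 467 / 100 with ht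
  have ht0 : 0 ≤ t := by linarith only [h1, hb, ht]
  have hD : 0 < 10660 / 100 * (1 + t + t ^ 2 / 2 + t ^ 3 / 6) := by (clear * - hb3; positivity)
  refine al_red (by linarith only [h1, hb]) (by linarith only [h1]) hk hq ?_ ?_
  · rw [mul_one_div, div_le_one hD]
    nlinarith only [ht, ht0]
  · have hQ := alQ2_nonneg ht0 (by linarith only [ht, hb, h2])
    have hbt : b = 467 / 100 + t := by linarith only [ht]
    have hXt : X = (700 + 100 * t) / 280 := by rw [hX, hbt]; ring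
    refine al_simple hD (by linarith only [h1]) ?_
    set D := 10660 / 100 * (1 + t + t ^ 2 / 2 + t ^ 3 / 6) with hD'
    have e : ev1 alQ2 t = (28 * 600 * 1000000) * (X * (D - (1 + b)) - 4946 / 10000 * b * D) := by
      simp only [alQ2, ev1_padd, ev1_psm, ev1_pmul, ev1_cons, ev1_nil, ev_alE]
      have hD2 : ((10660 : ℤ) : ℝ) / 100 * (1 + t + t ^ 2 / 2 + t ^ 3 / 6) = D := by
        rw [hD']; norm_num
      rw [hD2, hbt, hXt]
      push_cast
      ring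
    rw [e] at hQ
    exact nonneg_of_mul_nonneg_right hQ (by norm_num)

/-- the case `11/4 ≤ X ≤ 3` -/
theorem apl_alpha3 {X : ℝ} (h1 : 11 / 4 ≤ X) (h2 : X ≤ 3) :
    √(π / 2) * exp (1 / 2 - 19 / 40) * ((312 * X - 313) / 100) ≤
      X * aplW 1 ((312 * X - 313) / 100) := by
  set b := (312 * X - 313) / 100 with hb
  have hX : X = (100 * b + 313) / 312 := by rw [hb]; ring
  have hb3 : 545 / 100 ≤ b := by rw [hb]; linarith only [h1]
  have hb4 : b ≤ 623 / 100 := by rw [hb]; linarith only [h2]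
  have hE : (23270 / 100 : ℝ) ≤ exp (545 / 100) := by
    have := Real.sum_le_exp_of_nonneg (x := 545 / 100) (by norm_num) 19
    refine le_trans ?_ this
    norm_num [Finset.sum_range_succ, Nat.factorial]
  have hq := al_q hE (by norm_num) hb3
  have hk : √(π / 2) * exp (1 / 2 - 19 / 40) ≤ exp 1 * (4728 / 10000) := by
    apply al_const
    apply al_k (n := 8) (by norm_num) (by norm_num)
    norm_num [Finset.sum_range_succ, Nat.factorial]
  set t := b - 545 / 100 with ht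
  have ht0 : 0 ≤ t := by linarith only [h1, hb, ht]
  have hD : 0 < 23270 / 100 * (1 + t + t ^ 2 / 2 + t ^ 3 / 6) := by (clear * - hb3; positivity)
  refine al_red (by linarith only [h1, hb]) (by linarith only [h1]) hk hq ?_ ?_
  · rw [mul_one_div, div_le_one hD]
    nlinarith only [ht, ht0]
  · have hQ := alQ3_nonneg ht0 (by linarith only [h2, hb, ht])
    have hbt : b = 545 / 100 + t := by linarith only [ht]
    have hXt : X = (858 + 100 * t) / 312 := by rw [hX, hbt]; ring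
    refine al_simple hD (by linarith only [h1]) ?_
    set D := 23270 / 100 * (1 + t + t ^ 2 / 2 + t ^ 3 / 6) with hD'
    have e : ev1 alQ3 t = (312 * 600 * 1000000) * (X * (D - (1 + b)) - 4728 / 10000 * b * D) := by
      simp only [alQ3, ev1_padd, ev1_psm, ev1_pmul, ev1_cons, ev1_nil, ev_alE]
      have hD2 : ((23270 : ℤ) : ℝ) / 100 * (1 + t + t ^ 2 / 2 + t ^ 3 / 6) = D := by
        rw [hD']; norm_num
      rw [hD2, hbt, hXt]
      push_cast
      ring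
    rw [e] at hQ
    exact nonneg_of_mul_nonneg_right hQ (by norm_num)

end Vale.Agent.P237.AllN
end

section

/-!
# P237, block D, `l > 0`, `m z ≤ 1`: the pointwise test
-/

namespace Vale.Agent.P237.AllN

theorem pa_conv1 {M l u : ℝ} (hM0 : 0 < M) (hM : M ≤ 1) (hl0 : 0 ≤ l) (hl : l ≤ 2 / 5)
    (hu0 : 0 ≤ u) (hu : u ^ 2 ≤ 16679 / 100000 * M) :
    (M * (0.1217 * u + 0.0417 * l + l ^ 2 * (0.8832 - 0.1344 * M) + 0.2688 * (u * l)) +
      0.1295 * u ^ 2) ^ 2 ≤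
    9 / 10 * ((M * l ^ 2 * (0.859 + 0.1344 * M) + u ^ 2 * (0.483 - 0.477 * u) -
      0.2688 * (M * u * l)) * ((0.2 + 0.5 * M + 0.092 * M ^ 2) -
      (M * (0.1217 * u + 0.0417 * l + l ^ 2 * (0.8832 - 0.1344 * M) + 0.2688 * (u * l)) +
      0.1295 * u ^ 2))) := by
  have hX0 : 0 < Real.sqrt M := Real.sqrt_pos.2 hM0
  have hXX : Real.sqrt M ^ 2 = M := Real.sq_sqrt hM0.le
  have hX1 : Real.sqrt M ≤ 1 := by
    rw [Real.sqrt_le_one]; exact hM
  have hv0 : 0 ≤ u / Real.sqrt M := by (clear * - hu0 hM0; positivity)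
  have hv : u / Real.sqrt M ≤ 4084 / 10000 := by
    rw [div_le_iff₀ hX0]
    apply le_of_pow_le_pow_left₀ (n := 2) (by norm_num) (by positivity)
    rw [mul_pow, hXX]
    refine hu.trans (mul_le_mul_of_nonneg_right (by norm_num) hM0.le)
  have hp := pa_poly1 hX0.le hX1 hl0 hl hv0 hv
  have hvX : u / Real.sqrt M * Real.sqrt M = u := by field_simp
  have hXv : Real.sqrt M * (u / Real.sqrt M) = u := by (clear * - hM0; field_simp)
  have h4 : Real.sqrt M ^ 4 = M ^ 2 := by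
    rw [show (4 : ℕ) = 2 * 2 by norm_num, pow_mul, hXX]
  have hv2 : (u / Real.sqrt M) ^ 2 * M = u ^ 2 := by
    rw [div_pow, hXX]; (clear * - hM0; field_simp)
  rw [hvX, hXv, hXX, h4] at hp
  have h1 := mul_nonneg hM0.le hp
  generalize (u / Real.sqrt M) ^ 2 = V at h1 hv2
  rw [← sub_nonneg]
  refine h1.trans (le_of_eq ?_)
  rw [← hv2]
  ring

theorem pa_conv2 {M l u : ℝ} (hM0 : 0 < M) (hM : M ≤ 16 / 25) (hl0 : 2 / 5 ≤ l) (hl : l ≤ 1 / 2)
    (hu0 : 0 ≤ u) (hu : u ^ 2 ≤ 16434 / 100000 * M) :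
    (M * (0.1217 * u + 0.0417 * l + l ^ 2 * (0.8456 - 0.1344 * M) + 0.2688 * (u * l)) +
      0.10475 * u ^ 2) ^ 2 ≤
    9 / 10 * ((M * l ^ 2 * (0.797 + 0.1344 * M) + u ^ 2 * (0.27 - 0.41 * u) -
      0.2688 * (M * u * l)) * ((0.2 + 0.5 * M + 0.092 * M ^ 2) -
      (M * (0.1217 * u + 0.0417 * l + l ^ 2 * (0.8456 - 0.1344 * M) + 0.2688 * (u * l)) +
      0.10475 * u ^ 2))) := by
  have hX0 : 0 < Real.sqrt M := Real.sqrt_pos.2 hM0
  have hXX : Real.sqrt M ^ 2 = M := Real.sq_sqrt hM0.le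
  have hX1 : Real.sqrt M ≤ 4 / 5 := by
    apply le_of_pow_le_pow_left₀ (n := 2) (by norm_num) (by positivity)
    rw [hXX]; norm_num; linarith only [hM]
  have hv0 : 0 ≤ u / Real.sqrt M := by positivity
  have hv : u / Real.sqrt M ≤ 4054 / 10000 := by
    rw [div_le_iff₀ hX0]
    apply le_of_pow_le_pow_left₀ (n := 2) (by norm_num) (by positivity)
    rw [mul_pow, hXX]
    refine hu.trans (mul_le_mul_of_nonneg_right (by norm_num) hM0.le)
  have hp := pa_poly2 hX0.le hX1 hl0 hl hv0 hv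
  have hvX : u / Real.sqrt M * Real.sqrt M = u := by field_simp
  have hXv : Real.sqrt M * (u / Real.sqrt M) = u := by (clear * - hM0; field_simp)
  have h4 : Real.sqrt M ^ 4 = M ^ 2 := by
    rw [show (4 : ℕ) = 2 * 2 by norm_num, pow_mul, hXX]
  have hv2 : (u / Real.sqrt M) ^ 2 * M = u ^ 2 := by
    rw [div_pow, hXX]; (clear * - hM0; field_simp)
  rw [hvX, hXv, hXX, h4] at hp
  have h1 := mul_nonneg hM0.le hp
  generalize (u / Real.sqrt M) ^ 2 = V at h1 hv2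
  rw [← sub_nonneg]
  refine h1.trans (le_of_eq ?_)
  rw [← hv2]
  ring

/-! ## common facts -/

theorem pa_ratio {m : ℝ} (hm : 25 ≤ m) : (m + 1) / (m - 1) ≤ 13 / 12 := by
  rw [div_le_div_iff₀ (by linarith only [hm]) (by norm_num)]
  linarith only [hm]

theorem pa_kappa {m s σ : ℝ} (hm : 25 ≤ m) (hs0 : 0 < s) (hσ : 1 / s ≤ σ) :
    2 * (m + 1) / ((m - 1) * s) ≤ 13 / 6 * σ := by
  have h := pa_ratio hm
  have e : 2 * (m + 1) / ((m - 1) * s) = 2 * ((m + 1) / (m - 1)) * (1 / s) := by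
    have : m - 1 ≠ 0 := by intro h; linarith only [hm, h]
    field_simp
  rw [e]
  have h0 : 0 < 1 / s := by positivity
  have h1 : 0 < (m + 1) / (m - 1) := div_pos (by linarith only [hm]) (by linarith only [hm])
  calc 2 * ((m + 1) / (m - 1)) * (1 / s) ≤ 2 * (13 / 12) * σ := by gcongr
    _ = 13 / 6 * σ := by ring

theorem pa_c_ge {m c : ℝ} (hm : 25 ≤ m) (hc0 : 1 - 1 / (2 * m) ≤ c) : 49 / 50 ≤ c := by
  have hmi : 1 / (2 * m) ≤ 1 / 50 := by
    apply one_div_le_one_div_of_le <;> linarith only [hm]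
  linarith only [hc0, hmi]

theorem pa_kappa' {m s c σ : ℝ} (hm : 25 ≤ m) (hs0 : 0 < s) (hσ : 1 / s ≤ σ)
    (hc0 : 1 - 1 / (2 * m) ≤ c) :
    2 * (m + 1) / ((m - 1) * s) - 2 * c / s ≤ 31 / 150 * σ := by
  have h := pa_ratio hm
  have hc := pa_c_ge hm hc0
  have e : 2 * (m + 1) / ((m - 1) * s) - 2 * c / s = 2 * ((m + 1) / (m - 1) - c) * (1 / s) := by
    have : m - 1 ≠ 0 := by intro h; linarith only [hm, h]
    field_simp
  rw [e]
  have h0 : 0 < 1 / s := by positivity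
  have h1 : 2 * ((m + 1) / (m - 1) - c) * (1 / s) ≤ 31 / 150 * (1 / s) :=
    mul_le_mul_of_nonneg_right (by linarith only [h, hc]) h0.le
  exact h1.trans (mul_le_mul_of_nonneg_left hσ (by norm_num))

theorem pa_rho {m z s : ℝ} (hm : 25 ≤ m) (hs0 : 0 < s) (hs : s ^ 2 = 1 - z) (hz0 : 0 ≤ z) :
    0.2 + 0.5 * (m * z) + 0.092 * (m * z) ^ 2 ≤ dpR m (z / s ^ 2) := by
  unfold dpR
  have hy := pa_y_ge hs0 hs hz0
  have h1 : m * z ≤ m * (z / s ^ 2) := mul_le_mul_of_nonneg_left hy (by linarith only [hm])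
  have h2 : z ^ 2 ≤ (z / s ^ 2) ^ 2 := pow_le_pow_left₀ hz0 hy 2
  have h3 : 23 / 25 * (m * z) ^ 2 ≤ m * (m - 2) * (z / s ^ 2) ^ 2 := by
    have h4 : 23 / 25 * m ^ 2 ≤ m * (m - 2) := by nlinarith only [hm]
    have h5 := mul_le_mul h4 h2 (by positivity) (by nlinarith only [h4])
    linarith only [h5]
  norm_num
  linarith only [h1, h3]

/-- `ψ(2l)` -/
theorem pa_psi {l g : ℝ} (hl0 : 0 ≤ l)
    (h : g ≤ 2 - 4 / 3 * l + 2 / 3 * l ^ 2 - 4 / 15 * l ^ 3) :
    g * l ^ 2 ≤ Real.exp (-(2 * l)) - 1 + 2 * l := by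
  have h1 := pa_E5 (t := 2 * l) (by linarith only [hl0])
  have h2 := mul_le_mul_of_nonneg_right h (sq_nonneg l)
  linarith only [h2, h1]

theorem pa_m3 {m z u l : ℝ} (hm : 25 ≤ m) (hz0 : 0 ≤ z) (hu : 0 ≤ u) (hl : 0 ≤ l) :
    6 / 25 * (m + 3) * z * u * l ≤ 0.2688 * (m * z * u * l) := by
  have h : 0 ≤ z * u * l * (m - 25) := by
    have : 0 ≤ m - 25 := by linarith
    positivity
  norm_num
  linarith

end Vale.Agent.P237.AllN
end

section

/-!
# P237, block D, `l > 0`, `m z ≤ 1`: the pointwise test, the four cases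
-/

namespace Vale.Agent.P237.AllN

theorem pa_a1 {l : ℝ} (hl : l ≤ 2 / 5) : 0.4493 ≤ Real.exp (-(2 * l)) := by
  have h1 : Real.exp (-(4 / 5)) ≤ Real.exp (-(2 * l)) := Real.exp_le_exp.2 (by linarith)
  refine le_trans ?_ h1
  have h3 : Real.exp (-(4 / 5)) * Real.exp (4 / 5) = 1 := by
    rw [← Real.exp_add]; norm_num
  have h4 : 0 < Real.exp (-(4 / 5)) := Real.exp_pos _
  have h5 := pa_exp45
  nlinarith only [h3, h4, h5]

theorem pa_a2 {l : ℝ} (hl : l ≤ 1 / 2) : 0.36787 ≤ Real.exp (-(2 * l)) := by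
  have h1 : Real.exp (-1) ≤ Real.exp (-(2 * l)) := Real.exp_le_exp.2 (by linarith only [hl])
  refine le_trans ?_ h1
  have h3 : Real.exp (-1) * Real.exp 1 = 1 := by
    rw [← Real.exp_add]; norm_num
  have h4 : 0 < Real.exp (-1) := Real.exp_pos _
  have h5 := pa_exp1
  nlinarith only [h3, h4, h5]

theorem pa_Wle {u : ℝ} (hu : 0 ≤ u) : u ^ 2 / (1 + u) ≤ u ^ 2 := by
  apply div_le_self (sq_nonneg u)
  linarith only [hu]

theorem pa_phile {u : ℝ} (hu : 0 ≤ u) : u ^ 2 / (2 + u) ≤ u ^ 2 / 2 := by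
  apply div_le_div_of_nonneg_left (sq_nonneg u) (by norm_num)
  linarith only [hu]

theorem pa_wphi1 {u : ℝ} (hu0 : 0 ≤ u) : 0.483 * u ^ 2 - 0.477 * u ^ 3 ≤
    1.70 * (u ^ 2 / (1 + u)) - 2.212 * (u ^ 2 / (2 + u)) := by
  have e : 1.70 * (u ^ 2 / (1 + u)) - 2.212 * (u ^ 2 / (2 + u)) -
      (0.483 * u ^ 2 - 0.477 * u ^ 3) = u ^ 2 * (0.222 - 1.007 * u + 0.948 * u ^ 2 +
      0.477 * u ^ 3) / ((1 + u) * (2 + u)) := by
    have h1 : 1 + u ≠ 0 := by positivity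
    have h2 : 2 + u ≠ 0 := by positivity
    field_simp
    ring
  have h1 : 0 ≤ 0.222 - 1.007 * u + 0.948 * u ^ 2 + 0.477 * u ^ 3 := by
    have a2 : 0 ≤ (u + 0.81) * (u - 0.405) ^ 2 := by (clear * - hu0; positivity)
    have e2 : 0.222 - 1.007 * u + 0.948 * u ^ 2 + 0.477 * u ^ 3 =
        0.477 * ((u + 0.81) * (u - 0.405) ^ 2) + 0.948 * (u - 0.407) ^ 2 +
        (0.00159040875 - 0.000608225 * u) := by ring
    rcases le_total u 1 with h | h
    · rw [e2]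
      have a3 := sq_nonneg (u - 0.407)
      norm_num at a2 a3 ⊢
      linarith only [h, a2, a3]
    · have a4 : 1 ≤ u ^ 2 := by nlinarith only [h]
      have a5 : u ≤ u ^ 3 := by (by_contra nlg; linarith only [nlg, mul_nonneg (sub_nonneg.2 a4) (sub_nonneg.2 a4), mul_nonneg (sub_nonneg.2 a2) (sub_nonneg.2 a4), mul_nonneg (le_of_lt (sub_pos.2 (not_le.1 nlg))) (sub_nonneg.2 a4), mul_nonneg (le_of_lt (sub_pos.2 (not_le.1 nlg))) (sub_nonneg.2 a2), mul_pos (sub_pos.2 (not_le.1 nlg)) (sub_pos.2 (not_le.1 nlg)), mul_nonneg (sq_nonneg (1000 * u - 1 * 407 : ℝ)) (sub_nonneg.2 a4)])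
      have a6 : u ≤ u ^ 2 := by nlinarith only [h]
      norm_num
      linarith only [a4, a5, a6]
  have h2 : 0 ≤ u ^ 2 * (0.222 - 1.007 * u + 0.948 * u ^ 2 +
      0.477 * u ^ 3) / ((1 + u) * (2 + u)) := by (clear * - h1 hu0; positivity)
  linarith only [e, h2]

theorem pa_wphi2 {u : ℝ} (hu0 : 0 ≤ u) : 0.27 * u ^ 2 - 0.41 * u ^ 3 ≤
    1.4335 * (u ^ 2 / (1 + u)) - 2.1956 * (u ^ 2 / (2 + u)) := by
  have e : 1.4335 * (u ^ 2 / (1 + u)) - 2.1956 * (u ^ 2 / (2 + u)) -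
      (0.27 * u ^ 2 - 0.41 * u ^ 3) = u ^ 2 * (0.1314 - 0.7521 * u + 0.96 * u ^ 2 +
      0.41 * u ^ 3) / ((1 + u) * (2 + u)) := by
    have h1 : 1 + u ≠ 0 := by positivity
    have h2 : 2 + u ≠ 0 := by positivity
    field_simp
    ring
  have h1 : 0 ≤ 0.1314 - 0.7521 * u + 0.96 * u ^ 2 + 0.41 * u ^ 3 := by
    have a2 : 0 ≤ (u + 0.648) * (u - 0.324) ^ 2 := by (clear * - hu0; positivity)
    have e2 : 0.1314 - 0.7521 * u + 0.96 * u ^ 2 + 0.41 * u ^ 3 =
        0.41 * ((u + 0.648) * (u - 0.324) ^ 2) + 0.96 * (u - 0.3245) ^ 2 +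
        (0.00242173632 + 0.00006048 * u) := by ring
    rw [e2]
    have a3 := sq_nonneg (u - 0.3245)
    (clear * - hu0; positivity)
  have h2 : 0 ≤ u ^ 2 * (0.1314 - 0.7521 * u + 0.96 * u ^ 2 +
      0.41 * u ^ 3) / ((1 + u) * (2 + u)) := by positivity
  linarith only [e, h2]

/-- `1.725 W ≥ (2/s) φ`, `u ≥ 0` -/
theorem pa_e_pos {u s β σ : ℝ} (hu : 0 ≤ u) (hσ : 1 / s ≤ σ) (h : 2 * σ ≤ β * (2 + u) / (1 + u)) :
    0 ≤ β * (u ^ 2 / (1 + u)) - 2 / s * (u ^ 2 / (2 + u)) := by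
  have h0 : 0 ≤ u ^ 2 / (2 + u) := by positivity
  have h1 : 2 / s * (u ^ 2 / (2 + u)) ≤ 2 * σ * (u ^ 2 / (2 + u)) := by
    apply mul_le_mul_of_nonneg_right _ h0
    have : 2 / s = 2 * (1 / s) := by ring
    linarith only [hσ, this]
  have h2 := mul_le_mul_of_nonneg_right h h0
  have e : β * (2 + u) / (1 + u) * (u ^ 2 / (2 + u)) = β * (u ^ 2 / (1 + u)) := by
    have h1 : 1 + u ≠ 0 := by positivity
    have h2 : 2 + u ≠ 0 := by positivity
    field_simp
  linarith only [h1, h2, e]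

theorem pa_T1low {M l u : ℝ} (hM0 : 0 < M) (hM : M ≤ 1) (hub : u ≤ 0.4084) :
    0.72 * (M * l ^ 2) + 0.15 * u ^ 2 ≤
      M * l ^ 2 * (0.859 + 0.1344 * M) + u ^ 2 * (0.483 - 0.477 * u) - 0.2688 * (M * u * l) := by
  have hul : 2 * (u * l) ≤ u ^ 2 + l ^ 2 := by linarith only [sq_nonneg (u - l)]
  have h1 : 0 ≤ M * l ^ 2 := by positivity
  have h2 := mul_le_mul_of_nonneg_left hul hM0.le
  have h3 : M * u ^ 2 ≤ 1 * u ^ 2 := mul_le_mul_of_nonneg_right hM (sq_nonneg u)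
  have h4 : 0 ≤ u ^ 2 * (0.4084 - u) := mul_nonneg (sq_nonneg u) (by linarith only [hub])
  have h5 : 0 ≤ M * (M * l ^ 2) := mul_nonneg hM0.le h1
  norm_num at h4 ⊢
  linarith only [sq_nonneg u, h4, h5, h3, h2, h1]

theorem pa_T2low {M l u : ℝ} (hM0 : 0 < M) (hM : M ≤ 16 / 25) (hub : u ≤ 0.3244) :
    0.65 * (M * l ^ 2) + 0.05 * u ^ 2 ≤
      M * l ^ 2 * (0.797 + 0.1344 * M) + u ^ 2 * (0.27 - 0.41 * u) - 0.2688 * (M * u * l) := by
  have hul : 2 * (u * l) ≤ u ^ 2 + l ^ 2 := by linarith only [sq_nonneg (u - l)]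
  have h1 : 0 ≤ M * l ^ 2 := by positivity
  have h2 := mul_le_mul_of_nonneg_left hul hM0.le
  have h3 : M * u ^ 2 ≤ 16 / 25 * u ^ 2 := mul_le_mul_of_nonneg_right hM (sq_nonneg u)
  have h4 : 0 ≤ u ^ 2 * (0.3244 - u) := mul_nonneg (sq_nonneg u) (by linarith only [hub])
  have h5 : 0 ≤ M * (M * l ^ 2) := mul_nonneg hM0.le h1
  norm_num at h4 ⊢
  linarith [sq_nonneg u]

theorem pa_P1 {M l u : ℝ} (hM0 : 0 < M) (hM : M ≤ 1) (hl0 : 0 ≤ l) (hl : l ≤ 2 / 5)
    (hu0 : 0 ≤ u) (hub : u ≤ 0.4084) (hu2 : u ^ 2 ≤ 16679 / 100000 * M) :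
    0 ≤ M * (0.1217 * u + 0.0417 * l + l ^ 2 * (0.8832 - 0.1344 * M) +
        0.2688 * (u * l)) + 0.1295 * u ^ 2 ∧
    M * (0.1217 * u + 0.0417 * l + l ^ 2 * (0.8832 - 0.1344 * M) +
        0.2688 * (u * l)) + 0.1295 * u ^ 2 ≤ 0.4 * M := by
  constructor
  · have : 0 ≤ 0.8832 - 0.1344 * M := by norm_num; linarith only [hM]
    (clear * - hM0 hu0 hl0 this; positivity)
  · have h1 : 0.1217 * u + 0.0417 * l + l ^ 2 * (0.8832 - 0.1344 * M) +
        0.2688 * (u * l) ≤ 0.3 := by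
      have a1 : l ^ 2 ≤ 4 / 25 := by nlinarith only [hl, hl0]
      have a2 : u * l ≤ 0.4084 * (2 / 5) := mul_le_mul hub hl hl0 (by norm_num)
      have a3 : l ^ 2 * (0.8832 - 0.1344 * M) ≤ 4 / 25 * 0.8832 :=
        mul_le_mul a1 (by norm_num; linarith only [hM0]) (by norm_num; linarith only [hM]) (by norm_num)
      norm_num at a2 a3 hub ⊢
      linarith only [hl, a2, a3, hub]
    have h2 := mul_le_mul_of_nonneg_left h1 hM0.le
    norm_num at h2 ⊢
    linarith only [hM0, hu2, h2]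

theorem pa_P2 {M l u : ℝ} (hM0 : 0 < M) (hM : M ≤ 16 / 25) (hl0 : 0 ≤ l) (hl : l ≤ 1 / 2)
    (hu0 : 0 ≤ u) (hub : u ≤ 0.3244) (hu2 : u ^ 2 ≤ 16434 / 100000 * M) :
    0 ≤ M * (0.1217 * u + 0.0417 * l + l ^ 2 * (0.8456 - 0.1344 * M) +
        0.2688 * (u * l)) + 0.10475 * u ^ 2 ∧
    M * (0.1217 * u + 0.0417 * l + l ^ 2 * (0.8456 - 0.1344 * M) +
        0.2688 * (u * l)) + 0.10475 * u ^ 2 ≤ 0.4 * M := by
  constructor
  · have : 0 ≤ 0.8456 - 0.1344 * M := by norm_num; linarith only [hM]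
    (clear * - hM0 hu0 hl0 this; positivity)
  · have h1 : 0.1217 * u + 0.0417 * l + l ^ 2 * (0.8456 - 0.1344 * M) +
        0.2688 * (u * l) ≤ 0.35 := by
      have a1 : l ^ 2 ≤ 1 / 4 := by linarith [mul_nonneg (sub_nonneg.2 hl) (sub_nonneg.2 hl0), mul_nonneg (sub_nonneg.2 hl) (sub_nonneg.2 hl)]
      have a2 : u * l ≤ 0.3244 * (1 / 2) := mul_le_mul hub hl hl0 (by norm_num)
      have a3 : l ^ 2 * (0.8456 - 0.1344 * M) ≤ 1 / 4 * 0.8456 :=
        mul_le_mul a1 (by norm_num; linarith only [hM0]) (by norm_num; linarith only [hM]) (by norm_num)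
      norm_num at a2 a3 hub ⊢
      linarith only [hub, a3, a2, hl]
    have h2 := mul_le_mul_of_nonneg_left h1 hM0.le
    norm_num at h2 ⊢
    linarith only [hM0, hu2, h2]

/-- the part `E` -/
theorem pa_Eend {M z l T0 ρ : ℝ} (hM0 : 0 < M) (hM : M ≤ 1) (hz0 : 0 < z)
    (hz : z ≤ 1 / 25 * M) (hl0 : 0 ≤ l) (hl : l ≤ 1 / 2) (hT : 0.65 * (M * l ^ 2) ≤ T0)
    (hρ : 0.2 + 0.5 * M ≤ ρ) : 62 / 1000 * (z * l) < ρ ∧
    (62 / 1000 * (z * l)) ^ 2 ≤ 9 / 10 * (T0 * (ρ - 62 / 1000 * (z * l))) := by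
  have hzl : z * l ≤ 1 / 25 * (1 / 2) := mul_le_mul (by linarith only [hM, hz]) hl hl0 (by norm_num)
  have h2 : 0.19 ≤ ρ - 62 / 1000 * (z * l) := by norm_num at hρ ⊢; linarith only [hρ, hzl, hz, hz0]
  refine ⟨by norm_num at h2; linarith only [hz0, hz, hρ, hzl], ?_⟩
  have h0 : 0 ≤ M * l ^ 2 := by positivity
  have hT0 : 0 ≤ T0 := le_trans (by positivity) hT
  have h4 := mul_le_mul hT h2 (by norm_num) hT0
  have h5 : z ^ 2 ≤ 1 / 625 * M := by nlinarith only [hM, hz, hz0]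
  have h5' := mul_le_mul_of_nonneg_right h5 (sq_nonneg l)
  have e1 : (62 / 1000 * (z * l)) ^ 2 = 961 / 250000 * (z ^ 2 * l ^ 2) := by ring
  rw [e1]
  norm_num at h4 ⊢
  linarith only [h4, h5', h0]

/-- algebraic end of the case `u ≥ 0`, `l ≤ 2/5` -/
theorem pa_fin1 {M z l u T e ρ : ℝ} (hM0 : 0 < M) (hM : M ≤ 1) (hz0 : 0 < z)
    (hz : z ≤ 1 / 25 * M) (hl0 : 0 ≤ l) (hl : l ≤ 2 / 5) (hu0 : 0 ≤ u)
    (hu2 : u ^ 2 ≤ 16679 / 100000 * M)
    (hT' : M * l ^ 2 * (0.859 + 0.1344 * M) + u ^ 2 * (0.483 - 0.477 * u) -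
      0.2688 * (M * u * l) ≤ T)
    (hP' : e - T ≤ M * (0.1217 * u + 0.0417 * l + l ^ 2 * (0.8832 - 0.1344 * M) +
        0.2688 * (u * l)) + 0.1295 * u ^ 2)
    (he : -(62 / 1000 * (z * l)) ≤ e) (hρ : 0.2 + 0.5 * M + 0.092 * M ^ 2 ≤ ρ) :
    JTest T e ρ u := by
  have hub : u ≤ 0.4084 := by
    apply le_of_pow_le_pow_left₀ (n := 2) (by norm_num) (by norm_num)
    refine hu2.trans ?_
    norm_num
    linarith only [hM]
  have hconv := pa_conv1 hM0 hM hl0 hl hu0 hu2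
  have hTlow := pa_T1low (l := l) hM0 hM hub
  obtain ⟨hP0, hPρ0⟩ := pa_P1 hM0 hM hl0 hl hu0 hub hu2
  have hM2 : 0 ≤ M ^ 2 := sq_nonneg _
  have hMl : 0 ≤ M * l ^ 2 := by (clear * - hM0; positivity)
  have hT0 : 0 ≤ M * l ^ 2 * (0.859 + 0.1344 * M) + u ^ 2 * (0.483 - 0.477 * u) -
      0.2688 * (M * u * l) := le_trans (by (clear * - hM0; positivity)) hTlow
  have hρ2 : 0.2 + 0.5 * M ≤ ρ := le_trans (by linarith only [hM2]) hρ
  have hT65 : 0.65 * (M * l ^ 2) ≤ M * l ^ 2 * (0.859 + 0.1344 * M) +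
      u ^ 2 * (0.483 - 0.477 * u) - 0.2688 * (M * u * l) := by
    refine le_trans ?_ hTlow
    have := sq_nonneg u
    norm_num
    linarith only [hMl, this]
  obtain ⟨hE1, hE2⟩ := pa_Eend hM0 hM hz0 hz hl0 (by linarith only [hl]) hT65 hρ2
  refine JTest.of_bounds (θ := 9 / 10) (E := 62 / 1000 * (z * l)) hT' hT0 (fun hu0' => ?_)
    (by norm_num) hP' hP0 ?_ ?_ he (by (clear * - hz0 hl0; positivity)) hE1 hE2
  · refine lt_of_lt_of_le ?_ hTlow
    have : 0 < u ^ 2 := by positivity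
    (clear * - hM0 hu0 hu0'; positivity)
  · refine lt_of_le_of_lt hPρ0 (lt_of_lt_of_le ?_ hρ2)
    norm_num
    linarith only [hz0, hz]
  · refine hconv.trans ?_
    apply mul_le_mul_of_nonneg_left _ (by norm_num)
    apply mul_le_mul_of_nonneg_left _ hT0
    linarith only [hρ]

/-- algebraic end of the case `u ≥ 0`, `2/5 ≤ l ≤ 1/2` -/
theorem pa_fin2 {M z l u T e ρ : ℝ} (hM0 : 0 < M) (hM : M ≤ 16 / 25) (hz0 : 0 < z)
    (hz : z ≤ 1 / 25 * M) (hl0 : 2 / 5 ≤ l) (hl : l ≤ 1 / 2) (hu0 : 0 ≤ u)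
    (hu2 : u ^ 2 ≤ 16434 / 100000 * M)
    (hT' : M * l ^ 2 * (0.797 + 0.1344 * M) + u ^ 2 * (0.27 - 0.41 * u) -
      0.2688 * (M * u * l) ≤ T)
    (hP' : e - T ≤ M * (0.1217 * u + 0.0417 * l + l ^ 2 * (0.8456 - 0.1344 * M) +
        0.2688 * (u * l)) + 0.10475 * u ^ 2)
    (he : -(62 / 1000 * (z * l)) ≤ e) (hρ : 0.2 + 0.5 * M + 0.092 * M ^ 2 ≤ ρ) :
    JTest T e ρ u := by
  have hl00 : 0 ≤ l := by linarith only [hl0]
  have hub : u ≤ 0.3244 := by
    apply le_of_pow_le_pow_left₀ (n := 2) (by norm_num) (by norm_num)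
    refine hu2.trans ?_
    norm_num
    linarith only [hM]
  have hconv := pa_conv2 hM0 hM hl0 hl hu0 hu2
  have hTlow := pa_T2low (l := l) hM0 hM hub
  obtain ⟨hP0, hPρ0⟩ := pa_P2 hM0 hM hl00 hl hu0 hub hu2
  have hM2 : 0 ≤ M ^ 2 := sq_nonneg _
  have hMl : 0 ≤ M * l ^ 2 := by positivity
  have hT0 : 0 ≤ M * l ^ 2 * (0.797 + 0.1344 * M) + u ^ 2 * (0.27 - 0.41 * u) -
      0.2688 * (M * u * l) := le_trans (by positivity) hTlow
  have hρ2 : 0.2 + 0.5 * M ≤ ρ := le_trans (by linarith only [hM2]) hρ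
  have hT65 : 0.65 * (M * l ^ 2) ≤ M * l ^ 2 * (0.797 + 0.1344 * M) +
      u ^ 2 * (0.27 - 0.41 * u) - 0.2688 * (M * u * l) := by
    refine le_trans ?_ hTlow
    have := sq_nonneg u
    norm_num
    linarith only [this]
  obtain ⟨hE1, hE2⟩ := pa_Eend hM0 (by linarith only [hM]) hz0 hz hl00 hl hT65 hρ2
  refine JTest.of_bounds (θ := 9 / 10) (E := 62 / 1000 * (z * l)) hT' hT0 (fun hu0' => ?_)
    (by norm_num) hP' hP0 ?_ ?_ he (by positivity) hE1 hE2
  · refine lt_of_lt_of_le ?_ hTlow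
    have : 0 < u ^ 2 := by positivity
    positivity
  · refine lt_of_le_of_lt hPρ0 (lt_of_lt_of_le ?_ hρ2)
    norm_num
    linarith only [hz0, hz]
  · refine hconv.trans ?_
    apply mul_le_mul_of_nonneg_left _ (by norm_num)
    apply mul_le_mul_of_nonneg_left _ hT0
    linarith only [hρ]

end Vale.Agent.P237.AllN
end

section

/-!
# P237, block D, `l > 0`, `1 ≤ m z ≤ 9`, `u ≥ 0`: lower bound of `e₁`
-/

namespace Vale.Agent.P237.AllN

theorem fpu_e4a {z u : ℝ} (hz0 : 0 < z) (hz : z ≤ 1 / 3) (hu : 0 ≤ u) (hu1 : u ≤ 5 / 4) :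
    0 ≤ (1 - z / 100) * ((2 + 6 / 25 * u) / (2 + 31 / 25 * u)) - (1 - z) +
        19 / 25 * (1 - z) * (u / (1 + u)) := by
  have hk : 0 < 2 + 31 / 25 * u := by linarith only [hu]
  have hu2 : 0 < 1 + u := by linarith only [hu]
  have i4 : (1 - z / 100) * ((2 + 6 / 25 * u) / (2 + 31 / 25 * u)) - (1 - z) +
      19 / 25 * (1 - z) * (u / (1 + u)) =
      (u * (13 / 25 - 36 / 625 * u) + z * (99 / 50 + 1061 / 625 * u + 369 / 1250 * u ^ 2)) /
        ((2 + 31 / 25 * u) * (1 + u)) := by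
    field_simp
    ring
  rw [i4]
  apply div_nonneg _ (by positivity)
  have : 0 ≤ 13 / 25 - 36 / 625 * u := by linarith only [hu1]
  positivity

theorem fpu_e4 {z s u c : ℝ} (hs0 : 0 < s)
    (hs : s ^ 2 = 1 - z) (hz0 : 0 < z) (hz : z ≤ 1 / 3) (hu : 0 ≤ u) (hu1 : u ≤ 5 / 4)
    (hcs : 1 - z / 100 ≤ c / s) :
    0 ≤ 4 * s ^ 2 * (19 / 50) * (u ^ 2 / (1 + u)) -
      2 * c / s * (u ^ 2 / (2 + 31 / 25 * u)) + (2 * c / s - 2 * s ^ 2) * u := by
  have hk : 0 < 2 + 31 / 25 * u := by linarith only [hu]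
  have hu2 : 0 < 1 + u := by linarith only [hu]
  rw [hs]
  have i1 : 4 * (1 - z) * (19 / 50) * (u ^ 2 / (1 + u)) -
    2 * c / s * (u ^ 2 / (2 + 31 / 25 * u)) + (2 * c / s - 2 * (1 - z)) * u =
    2 * u * (c / s * ((2 + 6 / 25 * u) / (2 + 31 / 25 * u)) - (1 - z) +
      19 / 25 * (1 - z) * (u / (1 + u))) := by
    field_simp
    ring
  rw [i1]
  apply mul_nonneg (by positivity)
  have i2 : (1 - z / 100) * ((2 + 6 / 25 * u) / (2 + 31 / 25 * u)) ≤
      c / s * ((2 + 6 / 25 * u) / (2 + 31 / 25 * u)) :=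
    mul_le_mul_of_nonneg_right hcs (by (clear * - hu; positivity))
  have i3 := fpu_e4a hz0 hz hu hu1
  linarith only [i2, i3]

theorem fpu_cs {m z s c w : ℝ} (hm : 27 ≤ m) (hz0 : 0 < z) (hs0 : 0 < s)
    (hs : s ^ 2 = 1 - z) (hz : z ≤ 1 / 3) (hw : w = m * z) (hw1 : 1 ≤ w)
    (hc0 : 1 - 1 / (2 * m) ≤ c) : 1 - z / 100 ≤ c / s := by
  have hm0 : 0 < m := by linarith only [hm]
  rw [le_div_iff₀ hs0]
  have h1 := fpu_s_le hs hz0.le hz
  have h2 : s ≤ 1 - z / 2 := by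
    have := sq_nonneg z
    linarith only [h1, this]
  have h3 : 1 / (2 * m) ≤ z / 2 := by
    rw [div_le_div_iff₀ (by positivity) (by norm_num)]
    rw [hw] at hw1
    linarith only [hw1]
  have h4 : (1 - z / 100) * s ≤ (1 - z / 100) * (1 - z / 2) :=
    mul_le_mul_of_nonneg_left h2 (by linarith only [hz])
  have h5 : (1 - z / 100) * (1 - z / 2) ≤ 1 - z / 2 := by
    have : 0 ≤ z / 100 * (1 - z / 2) := mul_nonneg (by linarith only [hz0]) (by linarith only [hz])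
    linarith only [this]
  linarith only [hc0, h3, h4, h5]

/-- lower bound of `e₁` -/
theorem fpu_L {m z s l u c N w : ℝ} (hm : 27 ≤ m) (hz0 : 0 < z) (hs0 : 0 < s)
    (hs : s ^ 2 = 1 - z) (hz : z ≤ 1 / 3) (hw : w = m * z) (hw1 : 1 ≤ w) (hl : 0 ≤ l)
    (hu : 0 ≤ u) (hu1 : u ≤ 5 / 4)
    (hc0 : 1 - 1 / (2 * m) ≤ c) (hc : c ≤ 1)
    (ha : 19 / 50 ≤ Real.exp (-(2 * l)))
    (hN : -(u ^ 2 / (2 + 31 / 25 * u)) ≤ N) :
    -(1 / 8 * (z / (1 - z)) * l) ≤ dpE m z s l u c N := by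
  have hm0 : 0 < m := by linarith only [hm]
  have hz1 : 0 < 1 - z := by linarith only [hz]
  have hu2 : 0 < 1 + u := by linarith only [hu]
  have hk : 0 < 2 + 31 / 25 * u := by linarith only [hu]
  have hW : 0 ≤ u ^ 2 / (1 + u) := by (clear * - hu; positivity)
  have hmi : 1 / (2 * m) ≤ 1 / 54 := by
    apply one_div_le_one_div_of_le <;> linarith only [hm]
  have hc1 : 0 < c := by linarith only [hc0, hmi]
  have r1 := mul_le_mul_of_nonneg_right (fpu_r_ge hm hz0 hs0 hs hz hc0) hl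
  have e1 : 0 ≤ (m + 3) * z * (Real.exp (-(2 * l)) - 1 + 2 * l) := by
    have := Real.add_one_le_exp (-(2 * l))
    apply mul_nonneg (by positivity)
    linarith only [this]
  have e2 : 4 * s ^ 2 * (19 / 50) * (u ^ 2 / (1 + u)) ≤
      4 * s ^ 2 * Real.exp (-(2 * l)) * (u ^ 2 / (1 + u)) := by
    apply mul_le_mul_of_nonneg_right _ hW
    apply mul_le_mul_of_nonneg_left ha (by positivity)
  have e3 : -(2 * c / s * (u ^ 2 / (2 + 31 / 25 * u))) ≤ 2 * c / s * N := by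
    have := mul_le_mul_of_nonneg_left hN (by positivity : 0 ≤ 2 * c / s)
    have h1 : 2 * c / s * -(u ^ 2 / (2 + 31 / 25 * u)) =
      -(2 * c / s * (u ^ 2 / (2 + 31 / 25 * u))) := by ring
    rw [h1] at this
    exact this
  have e4 := fpu_e4 hs0 hs hz0 hz hu hu1 (fpu_cs hm hz0 hs0 hs hz hw hw1 hc0)
  have e5 : 0 ≤ 2 * (1 - c) * u := by
    have : 0 ≤ 1 - c := by linarith only [hc]
    (clear * - hc hu; positivity)
  have e6 : (2 * c / s - 2 * s ^ 2 + 2 * (1 - c)) * u =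
    (2 * c / s - 2 * s ^ 2) * u + 2 * (1 - c) * u := by ring
  have e7 : -(1 / 8 * (z / (1 - z))) * l = -(1 / 8 * (z / (1 - z)) * l) := by ring
  rw [e7] at r1
  unfold dpE
  rw [e6]
  generalize 2 * c / s * (u ^ 2 / (2 + 31 / 25 * u)) = X1 at *
  generalize 2 * c / s * N = X2 at *
  generalize 4 * s ^ 2 * Real.exp (-(2 * l)) * (u ^ 2 / (1 + u)) = X3 at *
  generalize (2 * c / s - 2 * s ^ 2) * u = X4 at *
  generalize 4 * s ^ 2 * (19 / 50) * (u ^ 2 / (1 + u)) = X5 at *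
  generalize (2 * c / s - 2 + 2 * (1 - c) * (1 - m * (z / s ^ 2))) * l = X6 at *
  generalize (m + 3) * z * (Real.exp (-(2 * l)) - 1 + 2 * l) = X7 at *
  generalize 2 * (1 - c) * u = X8 at *
  linarith only [e3, e2, e4, r1, e1, e5]

end Vale.Agent.P237.AllN
end

section

/-!
# P237, block D: elementary bounds for the region `l > 0`, `u ≥ 0`
-/

open Set

namespace Vale.Agent.P237.AllN

/-- `ψ(t) = e^(-t) - 1 + t`: the ratio `ψ(t)/t²` is decreasing -/
theorem psi_ratio {t T : ℝ} (ht : 0 ≤ t) (htT : t ≤ T) :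
    (Real.exp (-T) - 1 + T) * t ^ 2 ≤ (Real.exp (-t) - 1 + t) * T ^ 2 := by
  rcases ht.eq_or_lt with h | h
  · rw [← h]
    simp
  · -- `(2 - t) ≤ (2 + t) e^(-t)`
    have key : ∀ x : ℝ, 0 ≤ x → 2 - x ≤ (2 + x) * Real.exp (-x) := by
      have hd : ∀ x : ℝ, HasDerivAt (fun x : ℝ => (2 + x) * Real.exp (-x) - (2 - x))
          (1 - (1 + x) * Real.exp (-x)) x := by
        intro x
        have h1 : HasDerivAt (fun x : ℝ => Real.exp (-x)) (-Real.exp (-x)) x := by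
          have := (hasDerivAt_neg x).exp
          refine this.congr_deriv ?_
          ring
        have h2 := (((hasDerivAt_id x).const_add 2).mul h1).sub ((hasDerivAt_id x).const_sub 2)
        refine h2.congr_deriv ?_
        simp only [id]
        ring
      have hm : MonotoneOn (fun x : ℝ => (2 + x) * Real.exp (-x) - (2 - x)) (Ici 0) := by
        apply monotoneOn_of_deriv_nonneg (convex_Ici 0)
        · exact fun x _ => (hd x).continuousAt.continuousWithinAt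
        · exact fun x _ => (hd x).differentiableAt.differentiableWithinAt
        · intro x hx
          rw [interior_Ici] at hx
          rw [(hd x).deriv]
          have h1 := Real.add_one_le_exp x
          have h2 : (1 + x) * Real.exp (-x) ≤ Real.exp x * Real.exp (-x) :=
            mul_le_mul_of_nonneg_right (by linarith) (Real.exp_pos _).le
          rw [← Real.exp_add, add_neg_cancel, Real.exp_zero] at h2
          linarith
      intro x hx
      have := hm (mem_Ici.2 le_rfl) (mem_Ici.2 hx) hx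
      simp only [neg_zero, Real.exp_zero] at this
      linarith
    have hd : ∀ x ∈ Ioi (0 : ℝ), HasDerivAt (fun x : ℝ => (Real.exp (-x) - 1 + x) / x ^ 2)
        ((2 - x - (2 + x) * Real.exp (-x)) / x ^ 3) x := by
      intro x hx
      have hx0 : x ≠ 0 := (mem_Ioi.1 hx).ne'
      have h1 : HasDerivAt (fun x : ℝ => Real.exp (-x)) (-Real.exp (-x)) x := by
        have := (hasDerivAt_neg x).exp
        refine this.congr_deriv ?_
        ring
      have h3 : HasDerivAt (fun x : ℝ => x ^ 2) (2 * x) x := by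
        simpa using hasDerivAt_pow 2 x
      have h2 := ((h1.sub_const 1).add (hasDerivAt_id' x)).div h3 (pow_ne_zero 2 hx0)
      refine h2.congr_deriv ?_
      simp only [Pi.add_apply]
      field_simp
      ring
    have hanti : AntitoneOn (fun x : ℝ => (Real.exp (-x) - 1 + x) / x ^ 2) (Ioi 0) := by
      apply antitoneOn_of_deriv_nonpos (convex_Ioi 0)
      · exact fun x hx => (hd x hx).continuousAt.continuousWithinAt
      · intro x hx
        rw [interior_Ioi] at hx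
        exact (hd x hx).differentiableAt.differentiableWithinAt
      · intro x hx
        rw [interior_Ioi] at hx
        rw [(hd x hx).deriv]
        exact div_nonpos_of_nonpos_of_nonneg (by linarith [key x (mem_Ioi.1 hx).le])
          (pow_nonneg (mem_Ioi.1 hx).le 3)
    have h1 := hanti (mem_Ioi.2 h) (mem_Ioi.2 (h.trans_le htT)) htT
    simp only at h1
    have hT0 : 0 < T := h.trans_le htT
    rw [div_le_div_iff₀ (by positivity) (by positivity)] at h1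
    exact h1

/-- general form of (E1) -/
theorem exp_quad {l L e : ℝ} (hl : 0 ≤ l) (hlL : l ≤ L) (hL : 0 < L)
    (he : 1 - 2 * L + e * L ^ 2 ≤ Real.exp (-(2 * L))) :
    1 - 2 * l + e * l ^ 2 ≤ Real.exp (-(2 * l)) := by
  have h := psi_ratio (t := 2 * l) (T := 2 * L) (by linarith only [hl]) (by linarith)
  have h1 : e * L ^ 2 ≤ Real.exp (-(2 * L)) - 1 + 2 * L := by linarith
  have h2 : e * L ^ 2 * (2 * l) ^ 2 ≤ (Real.exp (-(2 * L)) - 1 + 2 * L) * (2 * l) ^ 2 :=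
    mul_le_mul_of_nonneg_right h1 (sq_nonneg _)
  have h3 : L ^ 2 * (e * l ^ 2) ≤ L ^ 2 * (Real.exp (-(2 * l)) - 1 + 2 * l) := by linarith
  have h4 := le_of_mul_le_mul_left h3 (by positivity)
  linarith only [h4]

theorem exp_num {t a : ℝ} (ha : 0 < a) (ht0 : 0 ≤ t) (ht1 : t ≤ 1)
    (h : a * ((∑ i ∈ Finset.range 9, t ^ i / (Nat.factorial i : ℝ)) +
      t ^ 9 * ((9 : ℕ) + 1) / ((Nat.factorial 9 : ℝ) * (9 : ℕ))) ≤ 1) : a ≤ Real.exp (-t) := by
  have h1 := Real.exp_bound' ht0 ht1 (n := 9) (by norm_num)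
  rw [Real.exp_neg, le_inv_comm₀ ha (Real.exp_pos t)]
  rw [inv_eq_one_div, le_div_iff₀ ha, mul_comm]
  exact (mul_le_mul_of_nonneg_left h1 ha.le).trans h

/-- **(E1)**, `l ≤ 2/5` -/
theorem exp_E1a {l : ℝ} (hl : 0 ≤ l) (hl1 : l ≤ 2 / 5) :
    1 - 2 * l + 1558 / 1000 * l ^ 2 ≤ Real.exp (-(2 * l)) := by
  refine exp_quad hl hl1 (by norm_num) ?_
  refine exp_num (by norm_num) (by norm_num) (by norm_num) ?_
  simp only [Finset.sum_range_succ, Finset.sum_range_zero, Nat.factorial]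
  norm_num

/-- **(E1)**, `l ≤ 43/100` -/
theorem exp_E1b {l : ℝ} (hl : 0 ≤ l) (hl1 : l ≤ 43 / 100) :
    1 - 2 * l + 1531 / 1000 * l ^ 2 ≤ Real.exp (-(2 * l)) := by
  refine exp_quad hl hl1 (by norm_num) ?_
  refine exp_num (by norm_num) (by norm_num) (by norm_num) ?_
  simp only [Finset.sum_range_succ, Finset.sum_range_zero, Nat.factorial]
  norm_num

/-- **(E1)**, `l ≤ 19/40` -/
theorem exp_E1c {l : ℝ} (hl : 0 ≤ l) (hl1 : l ≤ 19 / 40) :
    1 - 2 * l + 1492 / 1000 * l ^ 2 ≤ Real.exp (-(2 * l)) := by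
  refine exp_quad hl hl1 (by norm_num) ?_
  refine exp_num (by norm_num) (by norm_num) (by norm_num) ?_
  simp only [Finset.sum_range_succ, Finset.sum_range_zero, Nat.factorial]
  norm_num

/-- **(E1)**, `l ≤ 1/2` -/
theorem exp_E1d {l : ℝ} (hl : 0 ≤ l) (hl1 : l ≤ 1 / 2) :
    1 - 2 * l + 1471 / 1000 * l ^ 2 ≤ Real.exp (-(2 * l)) := by
  refine exp_quad hl hl1 (by norm_num) ?_
  refine exp_num (by norm_num) (by norm_num) (by norm_num) ?_
  simp only [Finset.sum_range_succ, Finset.sum_range_zero, Nat.factorial]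
  norm_num

/-- Padé bound from below -/
theorem log_pade_low {u : ℝ} (hu : 0 ≤ u) :
    3 * u * (2 + u) / (6 + 6 * u + u ^ 2) ≤ Real.log (1 + u) := by
  have hd : ∀ y ∈ Ici (0 : ℝ), HasDerivAt
      (fun y : ℝ => Real.log (1 + y) - 3 * y * (2 + y) / (6 + 6 * y + y ^ 2))
      (y ^ 4 / ((1 + y) * (6 + 6 * y + y ^ 2) ^ 2)) y := by
    intro y hy
    have hy' : (0 : ℝ) ≤ y := hy
    have hD : (6 + 6 * y + y ^ 2 : ℝ) ≠ 0 := by positivity
    have h0 : (1 + y : ℝ) ≠ 0 := by positivity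
    have h1 : HasDerivAt (fun y : ℝ => 1 + y) 1 y := (hasDerivAt_id' y).const_add 1
    have h2 : HasDerivAt (fun y : ℝ => 3 * y * (2 + y)) (6 + 6 * y) y := by
      have := ((hasDerivAt_id' y).const_mul 3).mul ((hasDerivAt_id' y).const_add 2)
      refine this.congr_deriv ?_
      ring
    have h3 : HasDerivAt (fun y : ℝ => 6 + 6 * y + y ^ 2) (6 + 2 * y) y := by
      have := (((hasDerivAt_id' y).const_mul 6).const_add 6).add (hasDerivAt_pow 2 y)
      refine this.congr_deriv ?_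
      norm_num
    refine ((h1.log h0).sub (h2.div h3 hD)).congr_deriv ?_
    field_simp
    ring
  have hm : MonotoneOn
      (fun y : ℝ => Real.log (1 + y) - 3 * y * (2 + y) / (6 + 6 * y + y ^ 2)) (Ici 0) := by
    apply monotoneOn_of_deriv_nonneg (convex_Ici 0)
    · exact fun x hx => (hd x hx).continuousAt.continuousWithinAt
    · intro x hx
      rw [interior_Ici] at hx
      exact (hd x (mem_Ici.2 (mem_Ioi.1 hx).le)).differentiableAt.differentiableWithinAt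
    · intro x hx
      rw [interior_Ici] at hx
      have hx0 : 0 < x := hx
      rw [(hd x (mem_Ici.2 hx0.le)).deriv]
      positivity
  have := hm (mem_Ici.2 le_rfl) (mem_Ici.2 hu) hu
  simp only [add_zero, Real.log_one, mul_zero, zero_mul, zero_div, sub_zero] at this
  linarith only [this]

/-- Padé bound for the defect of the logarithm -/
theorem log_defect {u : ℝ} (hu : 0 ≤ u) :
    u - Real.log (1 + u) ≤ u ^ 2 * (3 + u) / (6 + 6 * u + u ^ 2) := by
  have h := log_pade_low hu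
  have e : u ^ 2 * (3 + u) / (6 + 6 * u + u ^ 2) =
      u - 3 * u * (2 + u) / (6 + 6 * u + u ^ 2) := by
    have h1 : (0 : ℝ) < 6 + 6 * u + u ^ 2 := by positivity
    field_simp
    ring
  rw [e]
  linarith

/-- **(E2)** -/
theorem log_E2 {u : ℝ} (hu : 0 ≤ u) (hu1 : u ≤ 5 / 4) :
    u - Real.log (1 + u) ≤ u ^ 2 / (2 + 31 / 25 * u) := by
  rcases le_total u (7 / 6) with h | h
  · refine (log_defect hu).trans ?_
    rw [div_le_div_iff₀ (by positivity) (by positivity)]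
    have h1 : (3 + u) * (2 + 31 / 25 * u) ≤ 6 + 6 * u + u ^ 2 := by linarith only [mul_nonneg (sub_nonneg.2 hu) (sub_nonneg.2 h)]
    calc u ^ 2 * (3 + u) * (2 + 31 / 25 * u) = u ^ 2 * ((3 + u) * (2 + 31 / 25 * u)) := by ring
      _ ≤ u ^ 2 * (6 + 6 * u + u ^ 2) := mul_le_mul_of_nonneg_left h1 (sq_nonneg u)
  · have h0 : (0 : ℝ) < 1 + u := by linarith only [h]
    have h1 : Real.log (1 + u) = 2 * Real.log (3 / 2) + Real.log ((1 + u) / (9 / 4)) := by
      have : (2 : ℝ) * Real.log (3 / 2) = Real.log (9 / 4) := by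
        rw [show (9 / 4 : ℝ) = (3 / 2) ^ 2 by norm_num, Real.log_pow]
        norm_num
      rw [this, ← Real.log_mul (by norm_num) (by positivity)]
      congr 1
      field_simp
    have h2 := log_pade_low (u := 1 / 2) (by norm_num)
    have h3 := Real.one_sub_inv_le_log_of_pos (x := (1 + u) / (9 / 4)) (by positivity)
    rw [inv_div] at h3
    have h4 : u - (2 * (15 / 37) + (1 - 9 / 4 / (1 + u))) ≤ u ^ 2 / (2 + 31 / 25 * u) := by
      rw [le_div_iff₀ (by positivity)]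
      have h5 : (u - (2 * (15 / 37) + (1 - 9 / 4 / (1 + u)))) * (2 + 31 / 25 * u) =
          ((u - 67 / 37) * (1 + u) + 9 / 4) * (2 + 31 / 25 * u) / (1 + u) := by
        field_simp
        ring
      rw [h5, div_le_iff₀ h0]
      nlinarith only [h, mul_nonneg (mul_nonneg (sub_nonneg.2 h) (sub_nonneg.2 hu1)) hu]
    have h6 : (15 / 37 : ℝ) ≤ Real.log (3 / 2) := by
      rw [show (1 + 1 / 2 : ℝ) = 3 / 2 by norm_num] at h2
      refine le_trans ?_ h2
      norm_num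
    linarith

end Vale.Agent.P237.AllN
end

section

/-!
# P237, block D, `X ≥ 3`, `u ≥ 0`, `1/5 ≤ z ≤ 49/100`: the test polynomials

`F(u) = T₀ - θ' e₀ + u G₁`, coefficients in `w = m z`, multiplied by the common denominator.
-/

namespace Vale.Agent.P237.AllN.Fxq

open PolyPos

noncomputable def xs5 : Ex := xp Ex.X 5
noncomputable def xJ : Ex := xs5 * xqH
noncomputable def xEN : Ex := xE6 * xN2 * xqH
noncomputable def xXa : Ex := xE6 * (xD * ((Ex.Y - xk 1 1) * xD + xN))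
noncomputable def xDEN : Ex := xE6 * xD2 * xJ
noncomputable def xLL : Ex := xE6 * xND * xJ

noncomputable def xT2 : Ex := xk 3 100 * (xs3 * xEN)
noncomputable def xT1 : Ex := xJ * (xXa + xK1) +
  xEN * (xk 3 4 * xz + xk 9 100 * ((xz - Ex.X * Ex.X) * xs3))
noncomputable def xT0 : Ex := xJ * (xk 3 1 * (xz * xXa) + xK0) -
  xEN * (xz * (xk 9 4 + xk 27 100 * xs5)) -
  xk 2 1 * (Ex.X * xz * ((xk 1 1 - Ex.Y) * (xk 1 1 + Ex.X)) * (xs5 * (xE6 * xD2))) +
  xz * (xND * xE6) * (xp Ex.X 4 * xH)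

/-- `F₀`, coefficients -/
noncomputable def xFa (tp c4 t2 : Ex) : Ex := xT0 -
  tp * (xJ * (xk 3 1 * (xz * xXa)) + xk 1 29 * (xz * xs3 * (xE6 * xND * xqH))) -
  (c4 * t2 * (Ex.X * Ex.X * Ex.Y) + xk 1 50) * xDEN
noncomputable def xFb (tp : Ex) : Ex := xT1 - tp * (xJ * xXa)

def xsg : Ex := xk 1 1 + Ex.X * (xk 6 1 + xk 6 1 * Ex.X)

/-- `G₁ · s · sg · DEN`: constant coefficient; `t21 = 2t - t²` -/
noncomputable def xG0 (tp c4 t21 kF : Ex) : Ex :=
  (c4 * t21 * (xs3 * Ex.Y * xsg) - tp * ((xk 2 1 - xk 2 1 * xs3) * xsg) -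
    kF * (xk 1 1 + xk 3 1 * Ex.X)) * xDEN - xk 9 25 * (xz * (Ex.X * xsg)) * xLL
/-- `G₁ · s · sg · DEN`: coefficient of `w` -/
noncomputable def xG1 : Ex := xk (-3) 25 * (Ex.X * xsg) * xLL

/-- `F(1/s)` -/
noncomputable def yFa (tp c4 t2 t21 kF : Ex) : Ex :=
  Ex.X * Ex.X * xsg * xFa tp c4 t2 + xG0 tp c4 t21 kF
noncomputable def yFb (tp : Ex) : Ex := Ex.X * Ex.X * xsg * xFb tp + xG1
noncomputable def yFc : Ex := Ex.X * Ex.X * xsg * xT2

/-- `F(U_t)`, `U_t = (w+z+1)(E-z)/(2 z s²) - 1` -/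
def xu1 : Ex := Ex.Y - xz
def xu0 : Ex := (xk 1 1 + xz) * (Ex.Y - xz) - xk 2 1 * (xz * (Ex.X * Ex.X))
noncomputable def zFa (tp c4 t2 t21 kF : Ex) : Ex :=
  xk 2 1 * (xz * xs3) * xsg * xFa tp c4 t2 + xu0 * xG0 tp c4 t21 kF
noncomputable def zFb (tp c4 t21 kF : Ex) : Ex :=
  xk 2 1 * (xz * xs3) * xsg * xFb tp + (xu0 * xG1 + xu1 * xG0 tp c4 t21 kF)
noncomputable def zFc : Ex := xk 2 1 * (xz * xs3) * xsg * xT2 + xu1 * xG1

/-- `-(G₁(w0)) s² sg D` -/
noncomputable def xGm (tp c4 t21 kF W : Ex) : Ex :=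
  xk 3 25 * ((W + xk 3 1 * xz) * (xN * (Ex.X * Ex.X * xsg))) -
  ((c4 * t21 * (xp Ex.X 4 * Ex.Y * xsg) - tp * ((xk 2 1 * Ex.X - xk 2 1 * xp Ex.X 4) * xsg) -
    kF * ((xk 1 1 + xk 3 1 * Ex.X) * Ex.X)) * xD)

/-- values and derivatives at `w = W`, `w = W/E` -/
def q0 (a b c W : Ex) : Ex := a + W * (b + c * W)
def q1 (b c W : Ex) : Ex := b + xk 2 1 * (c * W)
def p0 (a b c W : Ex) : Ex := a * (Ex.Y * Ex.Y) + W * (b * Ex.Y + c * W)
def p1 (b c W : Ex) : Ex := b * Ex.Y + xk 2 1 * (c * W)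

/-! ## real values -/

noncomputable def vH (s E : ℝ) : ℝ :=
  2 * s ^ 2 * (1 + s) * E - (1 - s ^ 2) * (1 - E) * (1 + 2 * s)
noncomputable def vq (s E : ℝ) : ℝ := (1 + s) ^ 2 * vH s E
noncomputable def vd (s E : ℝ) : ℝ := E ^ 6 * vD E ^ 2 * (s ^ 5 * vq s E)
noncomputable def vsg (s : ℝ) : ℝ := 6 * s ^ 2 + 6 * s + 1

noncomputable def r2 (s L : ℝ) : ℝ := 3 / 100 * (L ^ 2 / s ^ 2)
noncomputable def r1 (s z E L : ℝ) : ℝ := (E - 1 + L) + k1R z E L +
  (3 / 4 * (z / s ^ 5) + 9 / 100 * ((z - s ^ 2) / s ^ 2)) * L ^ 2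
noncomputable def r0 (s z E L : ℝ) : ℝ := 3 * z * (E - 1 + L) + k0R z E L -
  (9 / 4 * (z / s ^ 5) + 27 / 100 * z) * L ^ 2 -
  2 * s * z * (1 - E) / ((1 + s) * vH s E) + z * L / (s * (1 + s) ^ 2)

noncomputable def fa (tp c4 t2 s z E L : ℝ) : ℝ := r0 s z E L -
  tp * (3 * z * (E - 1 + L) + 1 / 29 * (z * L / s ^ 2)) - (c4 * t2 * (s ^ 2 * E) + 1 / 50)
noncomputable def fb (tp s z E L : ℝ) : ℝ := r1 s z E L - tp * (E - 1 + L)

noncomputable def g0 (tp c4 t21 kF s z E L : ℝ) : ℝ := c4 * t21 * (s ^ 2 * E) -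
  tp * (2 / s - 2 * s ^ 2) - kF * ((1 + 3 * s) / (s * vsg s)) - 9 / 25 * (z * L)
noncomputable def g1 (L : ℝ) : ℝ := -(3 / 25 * L)

theorem xH_R (s E : ℝ) : xH.R s E = vH s E := by
  unfold xH vH
  simp only [Ex.R_add, Ex.R_sub, Ex.R_mul, Ex.R_X, Ex.R_Y, xz_R]
  simp (discharger := norm_num) only [xk_R]
  push_cast
  ring

theorem xqH_R (s E : ℝ) : xqH.R s E = vq s E := by
  unfold xqH xq vq
  simp only [Ex.R_add, Ex.R_mul, Ex.R_X, xH_R]
  simp (discharger := norm_num) only [xk_R]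
  push_cast
  ring

theorem xs3_R (s E : ℝ) : xs3.R s E = s ^ 3 := by unfold xs3; rw [xp_R, Ex.R_X]
theorem xs5_R (s E : ℝ) : xs5.R s E = s ^ 5 := by unfold xs5; rw [xp_R, Ex.R_X]

theorem xJ_R (s E : ℝ) : xJ.R s E = s ^ 5 * vq s E := by
  unfold xJ; rw [Ex.R_mul, xs5_R, xqH_R]

theorem xEN_R {E : ℝ} (hE : 0 < E) (s : ℝ) :
    xEN.R s E = E ^ 6 * vD E ^ 2 * vL E ^ 2 * vq s E := by
  unfold xEN; rw [Ex.R_mul, Ex.R_mul, xE6_R, xN2_R hE, xqH_R]; ring

theorem xXa_R {E : ℝ} (hE : 0 < E) (s : ℝ) :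
    xXa.R s E = E ^ 6 * vD E ^ 2 * (E - 1 + vL E) := by
  unfold xXa
  simp only [Ex.R_add, Ex.R_sub, Ex.R_mul, Ex.R_Y, xE6_R, xD_R, xN_R]
  rw [xk_R _ _ _ _ le_rfl]
  have : vN E = vD E * vL E := by
    unfold vL
    have := (vD_pos hE).ne'
    field_simp
  rw [this]
  push_cast
  ring

theorem xDEN_R (s E : ℝ) : xDEN.R s E = vd s E := by
  unfold xDEN vd; rw [Ex.R_mul, Ex.R_mul, xE6_R, xD2_R, xJ_R]

theorem xLL_R {E : ℝ} (hE : 0 < E) (s : ℝ) : xLL.R s E = vd s E * vL E := by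
  unfold xLL vd; rw [Ex.R_mul, Ex.R_mul, xE6_R, xND_R hE, xJ_R]; ring

theorem xT2_R {s E : ℝ} (hs : 0 < s) (hE : 0 < E) :
    xT2.R s E = vd s E * r2 s (vL E) := by
  unfold xT2 vd r2; rw [Ex.R_mul, Ex.R_mul, xs3_R, xEN_R hE, xk_R _ _ _ _ (by norm_num)]
  push_cast
  field_simp

theorem xT1_R {s E : ℝ} (hs : 0 < s) (hE : 0 < E) :
    xT1.R s E = vd s E * r1 s (1 - s ^ 2) E (vL E) := by
  unfold xT1 vd r1
  simp only [Ex.R_add, Ex.R_sub, Ex.R_mul, Ex.R_X, xJ_R, xXa_R hE, xK1_R hE, xEN_R hE, xz_R, xs3_R]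
  generalize k1R (1 - s ^ 2) E (vL E) = K
  generalize vL E = L
  generalize vq s E = Q
  generalize vD E = D
  simp (discharger := norm_num) only [xk_R]
  push_cast
  field_simp

theorem xT0_R {s E : ℝ} (hs : 0 < s) (hE : 0 < E) (hH : vH s E ≠ 0) :
    xT0.R s E = vd s E * r0 s (1 - s ^ 2) E (vL E) := by
  unfold xT0 vd r0
  simp only [Ex.R_add, Ex.R_sub, Ex.R_mul, Ex.R_X, Ex.R_Y, xJ_R, xXa_R hE, xK0_R hE, xEN_R hE,
    xz_R, xs5_R, xE6_R, xD2_R, xND_R hE, xp_R, xH_R]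
  unfold vq
  generalize k0R (1 - s ^ 2) E (vL E) = K
  generalize vL E = L
  generalize vH s E = H at *
  generalize vD E = D
  simp (discharger := norm_num) only [xk_R]
  have h1 : 1 + s ≠ 0 := by positivity
  push_cast
  field_simp

theorem xFa_R {s E : ℝ} (hs : 0 < s) (hE : 0 < E) (hH : vH s E ≠ 0) (tp c4 t2 : Ex) :
    (xFa tp c4 t2).R s E = vd s E *
      fa (tp.R s E) (c4.R s E) (t2.R s E) s (1 - s ^ 2) E (vL E) := by
  unfold xFa fa
  simp only [Ex.R_add, Ex.R_sub, Ex.R_mul, Ex.R_X, Ex.R_Y, xT0_R hs hE hH, xJ_R, xXa_R hE,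
    xz_R, xs3_R, xE6_R, xND_R hE, xqH_R, xDEN_R]
  generalize r0 s (1 - s ^ 2) E (vL E) = K
  unfold vd
  generalize vL E = L
  generalize vq s E = Q
  generalize vD E = D
  generalize tp.R s E = tp
  generalize c4.R s E = c4
  generalize t2.R s E = t2
  simp (discharger := norm_num) only [xk_R]
  push_cast
  field_simp

theorem xFb_R {s E : ℝ} (hs : 0 < s) (hE : 0 < E) (tp : Ex) :
    (xFb tp).R s E = vd s E * fb (tp.R s E) s (1 - s ^ 2) E (vL E) := by
  unfold xFb fb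
  simp only [Ex.R_sub, Ex.R_mul, xT1_R hs hE, xJ_R, xXa_R hE]
  unfold vd
  ring

theorem xsg_R (s E : ℝ) : xsg.R s E = vsg s := by
  unfold xsg vsg
  simp only [Ex.R_add, Ex.R_mul, Ex.R_X]
  simp (discharger := norm_num) only [xk_R]
  push_cast
  ring

theorem xG0_R {s E : ℝ} (hs : 0 < s) (hE : 0 < E) (tp c4 t21 kF : Ex) :
    (xG0 tp c4 t21 kF).R s E = vd s E * (s * vsg s) *
      g0 (tp.R s E) (c4.R s E) (t21.R s E) (kF.R s E) s (1 - s ^ 2) E (vL E) := by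
  unfold xG0 g0
  simp only [Ex.R_add, Ex.R_sub, Ex.R_mul, Ex.R_X, Ex.R_Y, xs3_R, xsg_R, xDEN_R, xz_R, xLL_R hE]
  have h : vsg s ≠ 0 := by unfold vsg; positivity
  generalize vsg s = G at *
  generalize vL E = L
  generalize vd s E = D
  generalize tp.R s E = tp
  generalize c4.R s E = c4
  generalize t21.R s E = t21
  generalize kF.R s E = kF
  simp (discharger := norm_num) only [xk_R]
  push_cast
  field_simp

theorem xG1_R {s E : ℝ} (hE : 0 < E) :
    xG1.R s E = vd s E * (s * vsg s) * g1 (vL E) := by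
  unfold xG1 g1
  simp only [Ex.R_mul, Ex.R_X, xsg_R, xLL_R hE]
  simp (discharger := norm_num) only [xk_R]
  push_cast
  ring

theorem yFa_R {s E : ℝ} (hs : 0 < s) (hE : 0 < E) (hH : vH s E ≠ 0) (tp c4 t2 t21 kF : Ex) :
    (yFa tp c4 t2 t21 kF).R s E = vd s E * (s ^ 2 * vsg s) *
      (fa (tp.R s E) (c4.R s E) (t2.R s E) s (1 - s ^ 2) E (vL E) + 1 / s *
      g0 (tp.R s E) (c4.R s E) (t21.R s E) (kF.R s E) s (1 - s ^ 2) E (vL E)) := by
  unfold yFa
  simp only [Ex.R_add, Ex.R_mul, Ex.R_X, xsg_R, xFa_R hs hE hH, xG0_R hs hE]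
  field_simp

theorem yFb_R {s E : ℝ} (hs : 0 < s) (hE : 0 < E) (tp : Ex) :
    (yFb tp).R s E = vd s E * (s ^ 2 * vsg s) *
      (fb (tp.R s E) s (1 - s ^ 2) E (vL E) + 1 / s * g1 (vL E)) := by
  unfold yFb
  simp only [Ex.R_add, Ex.R_mul, Ex.R_X, xsg_R, xFb_R hs hE, xG1_R hE]
  field_simp

theorem yFc_R {s E : ℝ} (hs : 0 < s) (hE : 0 < E) :
    yFc.R s E = vd s E * (s ^ 2 * vsg s) * r2 s (vL E) := by
  unfold yFc
  simp only [Ex.R_mul, Ex.R_X, xsg_R, xT2_R hs hE]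
  ring

theorem xu1_R (s E : ℝ) : xu1.R s E = E - (1 - s ^ 2) := by
  unfold xu1; rw [Ex.R_sub, Ex.R_Y, xz_R]

theorem xu0_R (s E : ℝ) : xu0.R s E = (1 + (1 - s ^ 2)) * (E - (1 - s ^ 2)) -
    2 * ((1 - s ^ 2) * s ^ 2) := by
  unfold xu0
  simp only [Ex.R_add, Ex.R_sub, Ex.R_mul, Ex.R_X, Ex.R_Y, xz_R]
  simp (discharger := norm_num) only [xk_R]
  push_cast
  ring

/-- `U_t = v0 + v1 w` -/
noncomputable def v0 (s z E : ℝ) : ℝ := ((1 + z) * (E - z) - 2 * (z * s ^ 2)) / (2 * z * s ^ 2)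
noncomputable def v1 (s z E : ℝ) : ℝ := (E - z) / (2 * z * s ^ 2)

theorem zFa_R {s E : ℝ} (hs : 0 < s) (hs1 : s < 1) (hE : 0 < E) (hH : vH s E ≠ 0)
    (tp c4 t2 t21 kF : Ex) :
    (zFa tp c4 t2 t21 kF).R s E = vd s E * (2 * (1 - s ^ 2) * s ^ 3 * vsg s) *
      (fa (tp.R s E) (c4.R s E) (t2.R s E) s (1 - s ^ 2) E (vL E) + v0 s (1 - s ^ 2) E *
      g0 (tp.R s E) (c4.R s E) (t21.R s E) (kF.R s E) s (1 - s ^ 2) E (vL E)) := by
  unfold zFa v0
  simp only [Ex.R_add, Ex.R_mul, xs3_R, xz_R, xsg_R, xFa_R hs hE hH, xG0_R hs hE, xu0_R,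
    xk_R _ _ _ _ le_rfl]
  have hz : 1 - s ^ 2 ≠ 0 := by nlinarith
  generalize fa (tp.R s E) (c4.R s E) (t2.R s E) s (1 - s ^ 2) E (vL E) = A
  generalize g0 (tp.R s E) (c4.R s E) (t21.R s E) (kF.R s E) s (1 - s ^ 2) E (vL E) = B
  generalize 1 - s ^ 2 = z at *
  push_cast
  field_simp

theorem zFb_R {s E : ℝ} (hs : 0 < s) (hs1 : s < 1) (hE : 0 < E)
    (tp c4 t21 kF : Ex) :
    (zFb tp c4 t21 kF).R s E = vd s E * (2 * (1 - s ^ 2) * s ^ 3 * vsg s) *
      (fb (tp.R s E) s (1 - s ^ 2) E (vL E) + (v0 s (1 - s ^ 2) E * g1 (vL E) +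
      v1 s (1 - s ^ 2) E *
      g0 (tp.R s E) (c4.R s E) (t21.R s E) (kF.R s E) s (1 - s ^ 2) E (vL E))) := by
  unfold zFb v0 v1
  simp only [Ex.R_add, Ex.R_mul, xs3_R, xz_R, xsg_R, xFb_R hs hE, xG0_R hs hE, xu0_R, xu1_R,
    xG1_R hE, xk_R _ _ _ _ le_rfl]
  have hz : 1 - s ^ 2 ≠ 0 := by nlinarith
  generalize fb (tp.R s E) s (1 - s ^ 2) E (vL E) = A
  generalize g0 (tp.R s E) (c4.R s E) (t21.R s E) (kF.R s E) s (1 - s ^ 2) E (vL E) = B
  generalize g1 (vL E) = C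
  generalize 1 - s ^ 2 = z at *
  push_cast
  field_simp

theorem zFc_R {s E : ℝ} (hs : 0 < s) (hs1 : s < 1) (hE : 0 < E) :
    zFc.R s E = vd s E * (2 * (1 - s ^ 2) * s ^ 3 * vsg s) *
      (r2 s (vL E) + v1 s (1 - s ^ 2) E * g1 (vL E)) := by
  unfold zFc v1
  simp only [Ex.R_add, Ex.R_mul, xs3_R, xz_R, xsg_R, xT2_R hs hE, xu1_R, xG1_R hE,
    xk_R _ _ _ _ le_rfl]
  have hz : 1 - s ^ 2 ≠ 0 := by nlinarith
  generalize r2 s (vL E) = A
  generalize g1 (vL E) = C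
  generalize 1 - s ^ 2 = z at *
  push_cast
  field_simp

theorem xGm_R {s E : ℝ} (hs : 0 < s) (hE : 0 < E) (tp c4 t21 kF W : Ex) :
    (xGm tp c4 t21 kF W).R s E = -(s ^ 2 * vsg s * vD E *
      (g0 (tp.R s E) (c4.R s E) (t21.R s E) (kF.R s E) s (1 - s ^ 2) E (vL E) +
        g1 (vL E) * W.R s E)) := by
  unfold xGm g0 g1
  simp only [Ex.R_add, Ex.R_sub, Ex.R_mul, Ex.R_X, Ex.R_Y, xp_R, xsg_R, xz_R, xD_R, xN_R]
  have h : vsg s ≠ 0 := by unfold vsg; positivity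
  have hN : vN E = vD E * vL E := by
    unfold vL
    have := (vD_pos hE).ne'
    field_simp
  rw [hN]
  generalize vsg s = G at *
  generalize vL E = L
  generalize vD E = D
  generalize tp.R s E = tp
  generalize c4.R s E = c4
  generalize t21.R s E = t21
  generalize kF.R s E = kF
  generalize W.R s E = w
  simp (discharger := norm_num) only [xk_R]
  push_cast
  field_simp
  ring

theorem q0_R (a b c W : Ex) (s E : ℝ) : (q0 a b c W).R s E =
    a.R s E + b.R s E * W.R s E + c.R s E * W.R s E ^ 2 := by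
  unfold q0; simp only [Ex.R_add, Ex.R_mul]; ring
theorem q1_R (b c W : Ex) (s E : ℝ) : (q1 b c W).R s E =
    b.R s E + 2 * c.R s E * W.R s E := by
  unfold q1; simp only [Ex.R_add, Ex.R_mul, xk_R _ _ _ _ le_rfl]; push_cast; ring
theorem p0_R {E : ℝ} (hE : 0 < E) (a b c W : Ex) (s : ℝ) : (p0 a b c W).R s E = E ^ 2 * (
    a.R s E + b.R s E * (W.R s E / E) + c.R s E * (W.R s E / E) ^ 2) := by
  unfold p0; simp only [Ex.R_add, Ex.R_mul, Ex.R_Y]; field_simp; ring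
theorem p1_R {E : ℝ} (hE : 0 < E) (b c W : Ex) (s : ℝ) : (p1 b c W).R s E = E * (
    b.R s E + 2 * c.R s E * (W.R s E / E)) := by
  unfold p1; simp only [Ex.R_add, Ex.R_mul, Ex.R_Y, xk_R _ _ _ _ le_rfl]; push_cast; field_simp

end Vale.Agent.P237.AllN.Fxq
end

section

/-!
# P237, block D, `X ≥ 3`, `u ≥ 0`, `1/5 ≤ z ≤ 49/100`: families of checks
-/

namespace Vale.Agent.P237.AllN.Fxq

open PolyPos

/-- `w ≥ W`, `U = 1/s` -/
noncomputable def famA (tp c4 kF t2 t21 W : Ex) : List Ex :=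
  [q0 (xFa tp c4 t2) (xFb tp) xT2 W, q1 (xFb tp) xT2 W,
   q0 (yFa tp c4 t2 t21 kF) (yFb tp) yFc W, q1 (yFb tp) yFc W]
/-- `w ≥ C/E`, `U = 1/s` -/
noncomputable def famB (tp c4 kF t2 t21 C : Ex) : List Ex :=
  [p0 (xFa tp c4 t2) (xFb tp) xT2 C, p1 (xFb tp) xT2 C,
   p0 (yFa tp c4 t2 t21 kF) (yFb tp) yFc C, p1 (yFb tp) yFc C]
/-- `w ≥ W`, tail -/
noncomputable def famC (tp c4 kF t2 t21 W : Ex) : List Ex :=
  [q0 (zFa tp c4 t2 t21 kF) (zFb tp c4 t21 kF) zFc W, q1 (zFb tp c4 t21 kF) zFc W, zFc,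
   xGm tp c4 t21 kF W]
/-- `w ≥ C/E`, `w ≥ 9`, tail -/
noncomputable def famD (tp c4 kF t2 t21 C : Ex) : List Ex :=
  [p0 (zFa tp c4 t2 t21 kF) (zFb tp c4 t21 kF) zFc C, p1 (zFb tp c4 t21 kF) zFc C, zFc,
   xGm tp c4 t21 kF (xk 9 1)]

/-- `t²`, `2t - t²`, `t = n/10` -/
def xt2 (n : ℤ) : Ex := xk (n * n) 100
def xt21 (n : ℤ) : Ex := xk (20 * n - n * n) 100

end Vale.Agent.P237.AllN.Fxq
end
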