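import Vale.Agent.P237.Bd3.B4
import Vale.Agent.P237.Bd3.B1
import Vale.Agent.P237.Bd3.B2
import Vale.Agent.P237.Bd3.B5

set_option linter.all false

section

/-!
# P237, almost Petty: the integrals of the transported test function
-/

open MeasureTheory Metric Set Module Filter Real
open scoped Topology

namespace Vale.Agent.P237.Alm

open AllN

theorem cZ_pos (m : ℕ) : 0 < cZ m := by
  unfold cZ
  refine intervalIntegral.intervalIntegral_pos_of_pos_on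
    (Continuous.intervalIntegrable (by fun_prop) _ _) (fun β hβ => ?_) (by positivity)
  exact pow_pos (cos_pos_of_mem_Ioo ⟨by linarith [hβ.1, pi_pos], hβ.2⟩) _

variable {m : ℕ} {r : ℝ → ℝ} (hr : IsProf r) {al : ℝ → ℝ} (ha : IsAngle m al)

include hr ha

/-- derivative of a primitive along the angle -/
theorem prim_has (hm : 1 ≤ m) {q : ℝ → ℝ} (hq : Continuous q) {y : ℝ} (hy : y ∈ Ioo (0 : ℝ) 1) :
    HasDerivWithinAt (fun y => ∫ β in (0 : ℝ)..(al (vv m r y)), q β)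
      (q (al (vv m r y)) * (cZ m / cos (al (vv m r y)) ^ (m - 1) * vd m r y)) (Ioi y) y := by
  have h1 : HasDerivAt (fun u : ℝ => ∫ β in (0 : ℝ)..u, q β) (q (al (vv m r y)))
      (al (vv m r y)) := (hq.integral_hasStrictDerivAt 0 _).hasDerivAt
  exact h1.comp_hasDerivWithinAt y (aa_has hr ha hm hy)

theorem prim_cont (hm : 1 ≤ m) {q : ℝ → ℝ} (hq : Continuous q) :
    ContinuousOn (fun y => ∫ β in (0 : ℝ)..(al (vv m r y)), q β) (Ico 0 1) := by
  have h1 : Continuous (fun u : ℝ => ∫ β in (0 : ℝ)..u, q β) :=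
    intervalIntegral.continuous_primitive (fun a b => hq.intervalIntegrable a b) 0
  exact h1.comp_continuousOn (aa_cont hr ha hm)

theorem int_cos (hm : 2 ≤ m) {y1 : ℝ} (h0 : 0 ≤ y1) (h1 : y1 < 1) :
    ∫ y in (0 : ℝ)..y1, 1 / cos (al (vv m r y)) * vd m r y =
      1 / cZ m * ∫ β in (0 : ℝ)..(al (vv m r y1)), cos β ^ (m - 2) := by
  have hsub : Icc 0 y1 ⊆ Ico (0 : ℝ) 1 := fun y hy => ⟨hy.1, hy.2.trans_lt h1⟩
  have hZ := cZ_pos m
  have h := intervalIntegral.integral_eq_sub_of_hasDeriv_right_of_le h0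
    (f := fun y => 1 / cZ m * ∫ β in (0 : ℝ)..(al (vv m r y)), cos β ^ (m - 2))
    (f' := fun y => 1 / cos (al (vv m r y)) * vd m r y)
    (continuousOn_const.mul ((prim_cont hr ha (by omega) (by fun_prop)).mono hsub)) ?_ ?_
  · rw [h, vv_zero, ha.zero]
    simp
  · intro y hy
    have hy1 : y ∈ Ioo (0 : ℝ) 1 := ⟨hy.1, hy.2.trans h1⟩
    have hc := aa_cos_pos hr ha (by omega) (y := y) ⟨hy1.1.le, hy1.2⟩
    refine ((prim_has hr ha (by omega) (q := fun β => cos β ^ (m - 2)) (by fun_prop)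
      hy1).const_mul (1 / cZ m)).congr_deriv ?_
    obtain ⟨k, rfl⟩ : ∃ k, m = k + 2 := ⟨m - 2, by omega⟩
    simp only [show k + 2 - 1 = k + 1 by omega, show k + 2 - 2 = k by omega]
    field_simp
    ring
  · refine ii_mul_vd hr h0 h1 ?_
    refine continuousOn_const.div ?_ fun y hy => (aa_cos_pos hr ha (by omega) (hsub hy)).ne'
    exact continuous_cos.comp_continuousOn ((aa_cont hr ha (by omega)).mono hsub)

omit ha in
theorem int_inv (hm : 2 ≤ m) {y1 : ℝ} (h0 : 0 ≤ y1) (h1 : y1 < 1) :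
    ∫ y in (0 : ℝ)..y1, 1 / r y * vd m r y =
      (m : ℝ) / (((m : ℝ) + 1) * hI m r) * ((m : ℝ) / ((m : ℝ) - 1) *
        (∫ y in (0 : ℝ)..y1, r y ^ (m - 1)) - y1 * r y1 ^ (m - 1) / ((m : ℝ) - 1)) := by
  have hsub : Icc 0 y1 ⊆ Ico (0 : ℝ) 1 := fun y hy => ⟨hy.1, hy.2.trans_lt h1⟩
  have hrc := prof_contOn hr h1
  have hIp := hI_pos (m := m) hr
  have hm1 : (1 : ℝ) < m := by exact_mod_cast hm
  have h := intervalIntegral.integral_eq_sub_of_hasDeriv_right_of_le h0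
    (f := fun y => (m : ℝ) / (((m : ℝ) + 1) * hI m r) * ((m : ℝ) / ((m : ℝ) - 1) *
        (∫ y in (0 : ℝ)..y, r y ^ (m - 1)) - y * r y ^ (m - 1) / ((m : ℝ) - 1)))
    (f' := fun y => 1 / r y * vd m r y) ?_ ?_ ?_
  · rw [h]
    simp
  · refine continuousOn_const.mul ((continuousOn_const.mul ?_).sub
      ((continuousOn_id.mul (hrc.pow _)).div_const _))
    exact (RR_cont (m := m - 1) hr).mono fun y hy => ⟨hy.1, hy.2.trans h1.le⟩
  · intro y hy
    have hy1 : y ∈ Ioo (0 : ℝ) 1 := ⟨hy.1, hy.2.trans h1⟩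
    have hpos := prof_pos' hr (y := y) ⟨hy1.1.le, hy1.2⟩
    have e1 := (RR_has (m := m - 1) hr hy1).hasDerivWithinAt (s := Ioi y)
    have e2 := pow_rd hr (y := y) ⟨by linarith only [hy1.1], hy1.2⟩ (m - 1)
    have e3 := (hasDerivWithinAt_id y (Ioi y)).mul e2
    have e4 := ((e1.const_mul ((m : ℝ) / ((m : ℝ) - 1))).sub
      (e3.div_const ((m : ℝ) - 1))).const_mul ((m : ℝ) / (((m : ℝ) + 1) * hI m r))
    refine e4.congr_deriv ?_
    unfold vd
    obtain ⟨k, rfl⟩ : ∃ k, m = k + 2 := ⟨m - 2, by omega⟩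
    simp only [show k + 2 - 1 = k + 1 by omega, show k + 1 - 1 = k by omega, id, one_mul]
    push_cast at hm1 ⊢
    have hk : (k : ℝ) + 2 - 1 ≠ 0 := by linarith
    have hk2 : (k : ℝ) + 2 + 1 ≠ 0 := by positivity
    field_simp
    ring
  · refine ii_mul_vd hr h0 h1 ?_
    exact continuousOn_const.div hrc fun y hy => (prof_pos' hr (hsub hy)).ne'

theorem int_quad (hm : 3 ≤ m) {y1 : ℝ} (h0 : 0 ≤ y1) (h1 : y1 < 1) :
    ∫ y in (0 : ℝ)..y1, (((m + 1 : ℕ) : ℝ) * tan (al (vv m r y)) ^ 2 +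
        2 * y * tan (al (vv m r y)) *
          (cZ m / cos (al (vv m r y)) ^ (m + 1) * vd m r y)) * r y ^ m =
      tan (al (vv m r y1)) ^ 2 * (y1 * r y1 ^ m) + ((m : ℝ) + 1) * hI m r / cZ m *
        ∫ β in (0 : ℝ)..(al (vv m r y1)), sin β ^ 2 * cos β ^ (m - 3) := by
  have hsub : Icc 0 y1 ⊆ Ico (0 : ℝ) 1 := fun y hy => ⟨hy.1, hy.2.trans_lt h1⟩
  have hrc := prof_contOn hr h1
  have hIp := hI_pos (m := m) hr
  have hZ := cZ_pos m
  have htc := (tan_cont hr ha (by omega)).mono hsub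
  have hcc : ContinuousOn (fun y => cos (al (vv m r y))) (Icc 0 y1) :=
    continuous_cos.comp_continuousOn ((aa_cont hr ha (by omega)).mono hsub)
  have h := intervalIntegral.integral_eq_sub_of_hasDeriv_right_of_le h0
    (f := fun y => tan (al (vv m r y)) ^ 2 * (y * r y ^ m) + ((m : ℝ) + 1) * hI m r / cZ m *
        ∫ β in (0 : ℝ)..(al (vv m r y)), sin β ^ 2 * cos β ^ (m - 3))
    (f' := fun y => (((m + 1 : ℕ) : ℝ) * tan (al (vv m r y)) ^ 2 +
        2 * y * tan (al (vv m r y)) *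
          (cZ m / cos (al (vv m r y)) ^ (m + 1) * vd m r y)) * r y ^ m) ?_ ?_ ?_
  · rw [h, vv_zero, ha.zero]
    simp
  · exact ((htc.pow 2).mul (continuousOn_id.mul (hrc.pow _))).add
      (continuousOn_const.mul ((prim_cont hr ha (by omega) (by fun_prop)).mono hsub))
  · intro y hy
    have hy1 : y ∈ Ioo (0 : ℝ) 1 := ⟨hy.1, hy.2.trans h1⟩
    have hc := aa_cos_pos hr ha (by omega) (y := y) ⟨hy1.1.le, hy1.2⟩
    have e1 := (tan_has hr ha (by omega) hy1).pow 2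
    have e2 := pow_rd hr (y := y) ⟨by linarith only [hy1.1], hy1.2⟩ m
    have e3 := (hasDerivWithinAt_id y (Ioi y)).mul e2
    have e4 := (prim_has hr ha (by omega) (q := fun β => sin β ^ 2 * cos β ^ (m - 3))
      (by fun_prop) hy1).const_mul (((m : ℝ) + 1) * hI m r / cZ m)
    refine ((e1.mul e3).add e4).congr_deriv ?_
    have hcne := hc.ne'
    simp only [Pi.mul_apply, Pi.pow_apply, id, one_mul, Nat.add_one_sub_one, pow_one]
    have ht : sin (al (vv m r y)) = tan (al (vv m r y)) * cos (al (vv m r y)) := by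
      rw [tan_mul_cos hcne]
    rw [ht]
    generalize tan (al (vv m r y)) = t
    generalize cos (al (vv m r y)) = c at hcne
    have hv : ((m : ℝ) + 1) * hI m r * vd m r y = (m : ℝ) * r y ^ (m - 1) * (r y - y * rd r y) := by
      unfold vd
      field_simp
    have hcast : ((m + 1 : ℕ) : ℝ) = (m : ℝ) + 1 := by push_cast; ring
    rw [hcast]
    have hpow : r y ^ m = r y ^ (m - 1) * r y := by
      rw [← pow_succ]
      congr 1
      omega
    have hsimp : ((m : ℝ) + 1) * hI m r / cZ m * ((t * c) ^ 2 * c ^ (m - 3) *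
        (cZ m / c ^ (m - 1) * vd m r y)) = t ^ 2 * (((m : ℝ) + 1) * hI m r * vd m r y) := by
      obtain ⟨k, rfl⟩ : ∃ k, m = k + 3 := ⟨m - 3, by omega⟩
      simp only [show k + 3 - 1 = k + 2 by omega, show k + 3 - 3 = k by omega]
      field_simp
      ring
    rw [hsimp, hv, hpow]
    push_cast
    ring
  · have e : (fun y => (((m + 1 : ℕ) : ℝ) * tan (al (vv m r y)) ^ 2 +
        2 * y * tan (al (vv m r y)) *
          (cZ m / cos (al (vv m r y)) ^ (m + 1) * vd m r y)) * r y ^ m) = fun y =>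
        ((m + 1 : ℕ) : ℝ) * tan (al (vv m r y)) ^ 2 * r y ^ m +
        (2 * y * tan (al (vv m r y)) * (cZ m / cos (al (vv m r y)) ^ (m + 1)) * r y ^ m) *
          vd m r y := by
      funext y
      ring
    rw [e]
    refine IntervalIntegrable.add ?_ (ii_mul_vd hr h0 h1 ?_)
    · apply ContinuousOn.intervalIntegrable
      rw [uIcc_of_le h0]
      exact (continuousOn_const.mul (htc.pow 2)).mul (hrc.pow m)
    · refine (((continuousOn_const.mul continuousOn_id).mul htc).mul ?_).mul (hrc.pow m)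
      exact continuousOn_const.div (hcc.pow _) fun y hy =>
        (pow_pos (aa_cos_pos hr ha (by omega) (hsub hy)) _).ne'

/-- interior part of the tangent inequality -/
theorem int_young (hm : 3 ≤ m) {y1 : ℝ} (h0 : 0 ≤ y1) (h1 : y1 < 1) {lam : ℝ} (hl : 0 < lam) :
    (1 + 1 / (m : ℝ)) / lam * (1 / cZ m * ∫ β in (0 : ℝ)..(al (vv m r y1)), cos β ^ (m - 2)) -
      1 / (m : ℝ) / lam ^ (m + 1) / cZ m * (∫ y in (0 : ℝ)..y1,
        (cZ m / cos (al (vv m r y)) ^ (m + 1) * vd m r y) * r y ^ m) ≤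
      ∫ y in (0 : ℝ)..y1, 1 / r y * vd m r y := by
  have hsub : Icc 0 y1 ⊆ Ico (0 : ℝ) 1 := fun y hy => ⟨hy.1, hy.2.trans_lt h1⟩
  have hrc := prof_contOn hr h1
  have hZ := cZ_pos m
  have hcc : ContinuousOn (fun y => cos (al (vv m r y))) (Icc 0 y1) :=
    continuous_cos.comp_continuousOn ((aa_cont hr ha (by omega)).mono hsub)
  have i1 : IntervalIntegrable (fun y => 1 / cos (al (vv m r y)) * vd m r y) volume 0 y1 :=
    ii_mul_vd hr h0 h1 (continuousOn_const.div hcc fun y hy =>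
      (aa_cos_pos hr ha (by omega) (hsub hy)).ne')
  have i2 : IntervalIntegrable (fun y => (cZ m / cos (al (vv m r y)) ^ (m + 1) * vd m r y) *
      r y ^ m) volume 0 y1 := by
    have := ii_mul_vd (m := m) hr h0 h1 (c := fun y => cZ m / cos (al (vv m r y)) ^ (m + 1) *
      r y ^ m) ((continuousOn_const.div (hcc.pow _) fun y hy =>
        (pow_pos (aa_cos_pos hr ha (by omega) (hsub hy)) _).ne').mul (hrc.pow m))
    refine this.congr fun y _ => ?_
    ring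
  have i3 : IntervalIntegrable (fun y => 1 / r y * vd m r y) volume 0 y1 :=
    ii_mul_vd hr h0 h1 (continuousOn_const.div hrc fun y hy => (prof_pos' hr (hsub hy)).ne')
  rw [← int_cos hr ha (by omega) h0 h1, ← intervalIntegral.integral_const_mul,
    ← intervalIntegral.integral_const_mul, ← intervalIntegral.integral_sub (i1.const_mul _)
    (i2.const_mul _)]
  refine intervalIntegral.integral_mono_on h0 ((i1.const_mul _).sub (i2.const_mul _)) i3
    fun y hy => ?_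
  have hy1 := hsub hy
  have hv := vd_nonneg (m := m) hr hy1
  have hc := aa_cos_pos hr ha (by omega : 1 ≤ m) hy1
  have hp := prof_pos' hr hy1
  have hy2 := young_pt hm hp (mul_pos hl hc)
  have h3 := mul_le_mul_of_nonneg_right hy2 hv
  refine le_trans (le_of_eq ?_) h3
  rw [mul_pow]
  field_simp

end Vale.Agent.P237.Alm
end

section

set_option linter.all false

/-!
# P237, almost Petty: extension of the test functions to Lipschitz functions
-/

open MeasureTheory Metric Set Module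

namespace Vale.Agent.P237.Alm

open AllN

open Filter Topology

/-- constant continuation outside of `[0,1]` -/
noncomputable def ecl (p : ℝ → ℝ) (t : ℝ) : ℝ := p (max 0 (min t 1))

/-- even difference quotient -/
noncomputable def eqh (p : ℝ → ℝ) (h t : ℝ) : ℝ := (ecl p (|t| + h) - ecl p |t|) / h

theorem ecl_lip {p : ℝ → ℝ} {D : ℝ}
    (hp : ∀ x ∈ Icc (0 : ℝ) 1, ∀ y ∈ Icc (0 : ℝ) 1, |p x - p y| ≤ D * |x - y|) (hD : 0 ≤ D)
    (x y : ℝ) : |ecl p x - ecl p y| ≤ D * |x - y| := by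
  have hm : ∀ t : ℝ, max 0 (min t 1) ∈ Icc (0 : ℝ) 1 := fun t =>
    ⟨le_max_left _ _, max_le zero_le_one (min_le_right _ _)⟩
  refine (hp _ (hm x) _ (hm y)).trans (mul_le_mul_of_nonneg_left ?_ hD)
  refine (abs_max_sub_max_le_max _ _ _ _).trans (max_le (by simp) ?_)
  exact (abs_min_sub_min_le_max _ _ _ _).trans (max_le le_rfl (by simp))

theorem ecl_cont {p : ℝ → ℝ} {D : ℝ}
    (hp : ∀ x ∈ Icc (0 : ℝ) 1, ∀ y ∈ Icc (0 : ℝ) 1, |p x - p y| ≤ D * |x - y|) (hD : 0 ≤ D) :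
    Continuous (ecl p) := by
  have : LipschitzWith ⟨D, hD⟩ (ecl p) := LipschitzWith.of_dist_le_mul fun x y => by
    rw [Real.dist_eq, Real.dist_eq]
    exact ecl_lip hp hD x y
  exact this.continuous

theorem ecl_eq {p : ℝ → ℝ} {t : ℝ} (h0 : 0 ≤ t) (h1 : t ≤ 1) : ecl p t = p t := by
  rw [ecl, min_eq_left h1, max_eq_right h0]

theorem eqh_cont {p : ℝ → ℝ} {D : ℝ}
    (hp : ∀ x ∈ Icc (0 : ℝ) 1, ∀ y ∈ Icc (0 : ℝ) 1, |p x - p y| ≤ D * |x - y|) (hD : 0 ≤ D)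
    (h : ℝ) : Continuous (eqh p h) := by
  have h1 := ecl_cont hp hD
  unfold eqh
  exact ((h1.comp (continuous_abs.add continuous_const)).sub
    (h1.comp continuous_abs)).div_const _

theorem eqh_neg (p : ℝ → ℝ) (h t : ℝ) : eqh p h (-t) = eqh p h t := by
  unfold eqh
  rw [abs_neg]

theorem eqh_le {p : ℝ → ℝ} {D : ℝ}
    (hp : ∀ x ∈ Icc (0 : ℝ) 1, ∀ y ∈ Icc (0 : ℝ) 1, |p x - p y| ≤ D * |x - y|) (hD : 0 ≤ D)
    {h : ℝ} (hh : 0 < h) (t : ℝ) : |eqh p h t| ≤ D := by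
  unfold eqh
  rw [abs_div, abs_of_pos hh, div_le_iff₀ hh]
  refine (ecl_lip hp hD _ _).trans (le_of_eq ?_)
  rw [add_sub_cancel_left, abs_of_pos hh]

theorem eqh_tendsto {p g : ℝ → ℝ}
    (hg : ∀ y ∈ Ioo (0 : ℝ) 1, HasDerivWithinAt p (g y) (Ioi y) y) {y : ℝ}
    (hy : y ∈ Ioo (0 : ℝ) 1) :
    Tendsto (fun j : ℕ => eqh p (1 / ((j : ℝ) + 1)) y) atTop (𝓝 (g y)) := by
  have h0 : Tendsto (fun j : ℕ => 1 / ((j : ℝ) + 1)) atTop (𝓝 0) :=
    tendsto_one_div_add_atTop_nhds_zero_nat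
  have h1 := (hasDerivWithinAt_iff_tendsto_slope' (by simp)).1 (hg y hy)
  have h2 : Tendsto (fun j : ℕ => y + 1 / ((j : ℝ) + 1)) atTop (𝓝[Ioi y] y) := by
    rw [tendsto_nhdsWithin_iff]
    refine ⟨by simpa using h0.const_add y, Eventually.of_forall fun j => ?_⟩
    have : (0 : ℝ) < 1 / ((j : ℝ) + 1) := by positivity
    simp only [mem_Ioi]
    linarith
  refine (h1.comp h2).congr' ?_
  filter_upwards [(tendsto_order.1 h0).2 (1 - y) (by linarith [hy.2])] with j hj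
  have h3 : (0 : ℝ) < 1 / ((j : ℝ) + 1) := by positivity
  have h4 := hy.1
  simp only [Function.comp_apply, slope_def_field, eqh]
  rw [abs_of_pos h4, ecl_eq (by linarith) (by linarith only [hj]), ecl_eq h4.le hy.2.le,
    add_sub_cancel_left]

theorem fish_ae : ∀ᵐ x : ℝ, x ≠ 1 := by
  simp [ae_iff, measure_singleton]

theorem fish_g_int {p g : ℝ → ℝ} {D : ℝ}
    (hp : ∀ x ∈ Icc (0 : ℝ) 1, ∀ y ∈ Icc (0 : ℝ) 1, |p x - p y| ≤ D * |x - y|) (hD : 0 ≤ D)
    (hg : ∀ y ∈ Ioo (0 : ℝ) 1, HasDerivWithinAt p (g y) (Ioi y) y) :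
    IntervalIntegrable g volume 0 1 := by
  rw [intervalIntegrable_iff_integrableOn_Ioo_of_le zero_le_one]
  refine Integrable.of_bound (C := D) ?_ ?_
  · refine aestronglyMeasurable_of_tendsto_ae (u := atTop)
      (f := fun j : ℕ => eqh p (1 / ((j : ℝ) + 1)))
      (fun j => (eqh_cont hp hD _).aestronglyMeasurable) ?_
    rw [ae_restrict_iff' measurableSet_Ioo]
    exact Eventually.of_forall fun y hy => eqh_tendsto hg hy
  · rw [ae_restrict_iff' measurableSet_Ioo]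
    refine Eventually.of_forall fun y hy => ?_
    have h1 := (eqh_tendsto hg hy).abs
    exact le_of_tendsto h1 (Eventually.of_forall fun j => eqh_le hp hD (by positivity) y)

/-- the primitive of the difference quotient -/
noncomputable def ePh (p : ℝ → ℝ) (h y : ℝ) : ℝ := ∫ t in (0 : ℝ)..y, eqh p h t

theorem ePh_deriv {p : ℝ → ℝ} {D : ℝ}
    (hp : ∀ x ∈ Icc (0 : ℝ) 1, ∀ y ∈ Icc (0 : ℝ) 1, |p x - p y| ≤ D * |x - y|) (hD : 0 ≤ D)
    (h y : ℝ) : HasDerivAt (ePh p h) (eqh p h y) y :=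
  ((eqh_cont hp hD h).integral_hasStrictDerivAt 0 y).hasDerivAt

theorem ePh_cont {p : ℝ → ℝ} {D : ℝ}
    (hp : ∀ x ∈ Icc (0 : ℝ) 1, ∀ y ∈ Icc (0 : ℝ) 1, |p x - p y| ≤ D * |x - y|) (hD : 0 ≤ D)
    (h : ℝ) : Continuous (ePh p h) :=
  continuous_iff_continuousAt.2 fun y => (ePh_deriv hp hD h y).continuousAt

theorem ePh_neg (p : ℝ → ℝ) (h y : ℝ) : ePh p h (-y) = - ePh p h y := by
  unfold ePh
  have h1 := intervalIntegral.integral_comp_neg (a := (0 : ℝ)) (b := y) (eqh p h)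
  simp only [eqh_neg, neg_zero] at h1
  rw [h1, intervalIntegral.integral_symm]

theorem ePh_le {p : ℝ → ℝ} {D : ℝ}
    (hp : ∀ x ∈ Icc (0 : ℝ) 1, ∀ y ∈ Icc (0 : ℝ) 1, |p x - p y| ≤ D * |x - y|) (hD : 0 ≤ D)
    {h : ℝ} (hh : 0 < h) {y : ℝ} (hy : y ∈ Icc (0 : ℝ) 1) : |ePh p h y| ≤ D := by
  unfold ePh
  have h1 := intervalIntegral.norm_integral_le_of_norm_le_const (a := (0 : ℝ)) (b := y) (C := D)
    (f := eqh p h) fun x _ => eqh_le hp hD hh x
  rw [Real.norm_eq_abs, sub_zero, abs_of_nonneg hy.1] at h1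
  exact h1.trans (mul_le_of_le_one_right hD hy.2)

theorem ePh_tendsto {p g : ℝ → ℝ} {D : ℝ} (hp0 : p 0 = 0)
    (hp : ∀ x ∈ Icc (0 : ℝ) 1, ∀ y ∈ Icc (0 : ℝ) 1, |p x - p y| ≤ D * |x - y|) (hD : 0 ≤ D)
    (hg : ∀ y ∈ Ioo (0 : ℝ) 1, HasDerivWithinAt p (g y) (Ioi y) y) {y : ℝ}
    (hy : y ∈ Ioo (0 : ℝ) 1) :
    Tendsto (fun j : ℕ => ePh p (1 / ((j : ℝ) + 1)) y) atTop (𝓝 (p y)) := by
  have hpc : ContinuousOn p (Icc 0 y) :=
    (ecl_cont hp hD).continuousOn.congr fun x hx => (ecl_eq hx.1 (hx.2.trans hy.2.le)).symm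
  have h1 : ∫ t in (0 : ℝ)..y, g t = p y := by
    rw [intervalIntegral.integral_eq_sub_of_hasDeriv_right_of_le hy.1.le hpc
      (fun x hx => hg x ⟨hx.1, hx.2.trans hy.2⟩) ((fish_g_int hp hD hg).mono_set ?_), hp0,
      sub_zero]
    rw [uIcc_of_le hy.1.le, uIcc_of_le zero_le_one]
    exact Icc_subset_Icc_right hy.2.le
  rw [← h1]
  unfold ePh
  refine intervalIntegral.tendsto_integral_filter_of_dominated_convergence (fun _ => D)
    (Eventually.of_forall fun j => (eqh_cont hp hD _).aestronglyMeasurable)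
    (Eventually.of_forall fun j => Eventually.of_forall fun x _ => eqh_le hp hD (by positivity) x)
    (by simp) ?_
  refine Eventually.of_forall fun x hx => ?_
  rw [uIoc_of_le hy.1.le] at hx
  exact eqh_tendsto hg ⟨hx.1, hx.2.trans_lt hy.2⟩

theorem fish_half {n : ℕ} {f : ℝ → ℝ} (hf : Fish n f) (he : ∀ y, f (-y) = f y)
    (hi : IntervalIntegrable f volume 0 1) (h0 : ∀ y ∈ Icc (0 : ℝ) 1, 0 ≤ f y)
    {C : ℝ} (hC : ∀ y ∈ Icc (0 : ℝ) 1, f y ≤ C) {p g : ℝ → ℝ} {D : ℝ} (hp0 : p 0 = 0)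
    (hp : ∀ x ∈ Icc (0 : ℝ) 1, ∀ y ∈ Icc (0 : ℝ) 1, |p x - p y| ≤ D * |x - y|)
    (hg : ∀ y ∈ Ioo (0 : ℝ) 1, HasDerivWithinAt p (g y) (Ioi y) y) :
    (∫ y in (0 : ℝ)..1, g y * f y) ^ 2 ≤ (∫ y in (0 : ℝ)..1, f y) *
      ∫ y in (0 : ℝ)..1, ((n : ℝ) * p y ^ 2 + 2 * y * p y * g y) * f y := by
  have hD : 0 ≤ D := by
    have h1 := hp 0 ⟨le_rfl, zero_le_one⟩ 1 ⟨zero_le_one, le_rfl⟩
    have h2 := (abs_nonneg _).trans h1
    simpa using h2
  have hC0 : 0 ≤ C := (h0 0 ⟨le_rfl, zero_le_one⟩).trans (hC 0 ⟨le_rfl, zero_le_one⟩)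
  have hfm : AEStronglyMeasurable f (volume.restrict (uIoc (0 : ℝ) 1)) :=
    hi.aestronglyMeasurable_restrict_uIoc
  have hfle : ∀ y ∈ Icc (0 : ℝ) 1, |f y| ≤ C := fun y hy => by
    rw [abs_of_nonneg (h0 y hy)]; exact hC y hy
  -- the inequality for the smooth functions
  have key : ∀ j : ℕ, (∫ y in (0 : ℝ)..1, eqh p (1 / ((j : ℝ) + 1)) y * f y) ^ 2 ≤
      (∫ y in (0 : ℝ)..1, f y) * ∫ y in (0 : ℝ)..1, ((n : ℝ) * ePh p (1 / ((j : ℝ) + 1)) y ^ 2 +
        2 * y * ePh p (1 / ((j : ℝ) + 1)) y * eqh p (1 / ((j : ℝ) + 1)) y) * f y := by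
    intro j
    set h : ℝ := 1 / ((j : ℝ) + 1)
    have cq := eqh_cont hp hD h
    have cP := ePh_cont hp hD h
    have h1 := hf (ePh p h) (eqh p h) (ePh_deriv hp hD h) cq
    rw [integral_even_eq he hi, integral_even_eq (f := fun y => eqh p h y * f y)
      (fun y => by simp only [eqh_neg, he]) (hi.continuousOn_mul cq.continuousOn),
      integral_even_eq (f := fun y => ((n : ℝ) * ePh p h y ^ 2 + 2 * y * ePh p h y * eqh p h y) * f y)
        (fun y => by simp only [eqh_neg, ePh_neg, he]; ring)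
        (hi.continuousOn_mul (Continuous.continuousOn (by fun_prop)))] at h1
    linarith
  -- limits
  have l1 : Tendsto (fun j : ℕ => ∫ y in (0 : ℝ)..1, eqh p (1 / ((j : ℝ) + 1)) y * f y) atTop
      (𝓝 (∫ y in (0 : ℝ)..1, g y * f y)) := by
    refine intervalIntegral.tendsto_integral_filter_of_dominated_convergence (fun _ => D * C)
      (Eventually.of_forall fun j => (eqh_cont hp hD _).aestronglyMeasurable.mul hfm)
      (Eventually.of_forall fun j => Eventually.of_forall fun x hx => ?_) (by simp) ?_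
    · rw [uIoc_of_le zero_le_one] at hx
      rw [norm_mul]
      exact mul_le_mul (eqh_le hp hD (by positivity) x) (hfle x ⟨hx.1.le, hx.2⟩) (norm_nonneg _) hD
    · filter_upwards [fish_ae] with x hx1 hx
      rw [uIoc_of_le zero_le_one] at hx
      exact (eqh_tendsto hg ⟨hx.1, lt_of_le_of_ne hx.2 hx1⟩).mul_const _
  have l2 : Tendsto (fun j : ℕ => ∫ y in (0 : ℝ)..1, ((n : ℝ) * ePh p (1 / ((j : ℝ) + 1)) y ^ 2 +
        2 * y * ePh p (1 / ((j : ℝ) + 1)) y * eqh p (1 / ((j : ℝ) + 1)) y) * f y) atTop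
      (𝓝 (∫ y in (0 : ℝ)..1, ((n : ℝ) * p y ^ 2 + 2 * y * p y * g y) * f y)) := by
    refine intervalIntegral.tendsto_integral_filter_of_dominated_convergence
      (fun _ => ((n : ℝ) * D ^ 2 + 2 * D * D) * C)
      (Eventually.of_forall fun j => ?_)
      (Eventually.of_forall fun j => Eventually.of_forall fun x hx => ?_) (by simp) ?_
    · have cq := eqh_cont hp hD (1 / ((j : ℝ) + 1))
      have cP := ePh_cont hp hD (1 / ((j : ℝ) + 1))
      exact (Continuous.aestronglyMeasurable (by fun_prop)).mul hfm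
    · rw [uIoc_of_le zero_le_one] at hx
      have b1 := eqh_le hp hD (h := 1 / ((j : ℝ) + 1)) (by positivity) x
      have b2 := ePh_le hp hD (h := 1 / ((j : ℝ) + 1)) (by positivity) ⟨hx.1.le, hx.2⟩
      rw [norm_mul]
      refine mul_le_mul ?_ (hfle x ⟨hx.1.le, hx.2⟩) (norm_nonneg _) (by (clear * - hD; positivity))
      refine (norm_add_le _ _).trans (add_le_add ?_ ?_)
      · rw [norm_mul, norm_pow, Real.norm_eq_abs, Real.norm_eq_abs, Nat.abs_cast]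
        exact mul_le_mul_of_nonneg_left (pow_le_pow_left₀ (abs_nonneg _) b2 2) (Nat.cast_nonneg _)
      · rw [norm_mul, norm_mul, norm_mul, Real.norm_eq_abs, Real.norm_eq_abs, Real.norm_eq_abs,
          Real.norm_eq_abs, abs_of_pos (zero_lt_two' ℝ), abs_of_pos hx.1]
        have b3 : 2 * x * |ePh p (1 / ((j : ℝ) + 1)) x| ≤ 2 * D := by
          have : x * |ePh p (1 / ((j : ℝ) + 1)) x| ≤ 1 * D :=
            mul_le_mul hx.2 b2 (abs_nonneg _) zero_le_one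
          linarith only [this]
        exact mul_le_mul b3 b1 (abs_nonneg _) (by positivity)
    · filter_upwards [fish_ae] with x hx1 hx
      rw [uIoc_of_le zero_le_one] at hx
      have hx' : x ∈ Ioo (0 : ℝ) 1 := ⟨hx.1, lt_of_le_of_ne hx.2 hx1⟩
      have t1 := eqh_tendsto hg hx'
      have t2 := ePh_tendsto hp0 hp hD hg hx'
      exact (((t2.pow 2).const_mul _).add ((t2.const_mul _).mul t1)).mul_const _
  exact le_of_tendsto_of_tendsto' (l1.pow 2) (l2.const_mul _) key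

end Vale.Agent.P237.Alm
end

section

/-!
# P237, almost Petty: the cut-off test function
-/

open MeasureTheory Metric Set Module Filter Real
open scoped Topology

namespace Vale.Agent.P237.Alm

open AllN

theorem lip_of_right_deriv {p g : ℝ → ℝ} {D : ℝ} (hc : ContinuousOn p (Icc 0 1))
    (hg : ∀ y ∈ Ioo (0 : ℝ) 1, HasDerivWithinAt p (g y) (Ioi y) y)
    (hb : ∀ y ∈ Ioo (0 : ℝ) 1, |g y| ≤ D) :
    ∀ x ∈ Icc (0 : ℝ) 1, ∀ y ∈ Icc (0 : ℝ) 1, |p x - p y| ≤ D * |x - y| := by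
  have key : ∀ x y : ℝ, 0 < x → x ≤ y → y ≤ 1 → |p y - p x| ≤ D * (y - x) := by
    intro x y hx hxy hy
    have h := norm_image_sub_le_of_norm_deriv_right_le_segment (f := p) (f' := g) (a := x)
      (b := y) (C := D) (hc.mono (Icc_subset_Icc hx.le hy))
      (fun z hz => (hg z ⟨hx.trans_le hz.1, hz.2.trans_le hy⟩).Ici_of_Ioi)
      (fun z hz => hb z ⟨hx.trans_le hz.1, hz.2.trans_le hy⟩) y ⟨hxy, le_rfl⟩
    exact h
  have key0 : ∀ x y : ℝ, 0 ≤ x → x ≤ y → y ≤ 1 → |p y - p x| ≤ D * (y - x) := by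
    intro x y hx hxy hy
    rcases eq_or_lt_of_le hx with h0 | h0
    · rcases eq_or_lt_of_le hxy with h1 | h1
      · rw [h1]; simp
      · rw [← h0] at h1 ⊢
        have hc0 : Tendsto p (𝓝[>] 0) (𝓝 (p 0)) := by
          have := hc 0 ⟨le_rfl, zero_le_one⟩
          refine this.mono_left ?_
          have : 𝓝[>] (0 : ℝ) = 𝓝[Ioo 0 1] 0 := (nhdsWithin_Ioo_eq_nhdsGT zero_lt_one).symm
          rw [this]
          exact nhdsWithin_mono _ Ioo_subset_Icc_self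
        have t1 : Tendsto (fun x => |p y - p x|) (𝓝[>] 0) (𝓝 |p y - p 0|) :=
          (tendsto_const_nhds.sub hc0).abs
        have t2 : Tendsto (fun x : ℝ => D * (y - x)) (𝓝[>] 0) (𝓝 (D * (y - 0))) := by
          refine Tendsto.mono_left ?_ nhdsWithin_le_nhds
          exact (tendsto_const_nhds.sub tendsto_id).const_mul D
        refine le_of_tendsto_of_tendsto t1 t2 ?_
        filter_upwards [Ioo_mem_nhdsGT h1] with z hz
        exact key z y hz.1 hz.2.le hy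
    · exact key x y h0 hxy hy
  intro x hx y hy
  rcases le_total x y with h | h
  · rw [abs_sub_comm (p x), abs_sub_comm x, abs_of_nonneg (by linarith : 0 ≤ y - x)]
    exact key0 x y hx.1 h hy.2
  · rw [abs_of_nonneg (by linarith only [h] : 0 ≤ x - y)]
    exact key0 y x hy.1 h hx.2

/-- the test function: transported up to `y1`, then linear -/
noncomputable def ph (m : ℕ) (r al : ℝ → ℝ) (y1 P1 y : ℝ) : ℝ :=
  if y ≤ y1 then tan (al (vv m r y)) else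
    tan (al (vv m r y1)) + (P1 - tan (al (vv m r y1))) / (1 - y1) * (y - y1)

/-- its right derivative -/
noncomputable def gh (m : ℕ) (r al : ℝ → ℝ) (y1 P1 y : ℝ) : ℝ :=
  if y < y1 then cZ m / cos (al (vv m r y)) ^ (m + 1) * vd m r y else
    (P1 - tan (al (vv m r y1))) / (1 - y1)

variable {m : ℕ} {r : ℝ → ℝ} (hr : IsProf r) {al : ℝ → ℝ} (ha : IsAngle m al)

include hr ha

theorem ph_zero {y1 P1 : ℝ} (h0 : 0 < y1) : ph m r al y1 P1 0 = 0 := by
  unfold ph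
  rw [if_pos h0.le, vv_zero, ha.zero, tan_zero]

theorem gh_has (hm : 1 ≤ m) {y1 P1 : ℝ} (h0 : 0 < y1) (h1 : y1 < 1) {y : ℝ}
    (hy : y ∈ Ioo (0 : ℝ) 1) :
    HasDerivWithinAt (ph m r al y1 P1) (gh m r al y1 P1 y) (Ioi y) y := by
  by_cases hc : y < y1
  · have e := tan_has hr ha hm hy
    unfold gh
    rw [if_pos hc]
    refine e.congr_of_eventuallyEq ?_ ?_
    · filter_upwards [Ioo_mem_nhdsGT hc] with z hz
      unfold ph
      rw [if_pos hz.2.le]
    · unfold ph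
      rw [if_pos hc.le]
  · unfold gh
    rw [if_neg hc]
    push Not at hc
    have e : HasDerivWithinAt (fun y => tan (al (vv m r y1)) +
        (P1 - tan (al (vv m r y1))) / (1 - y1) * (y - y1))
        ((P1 - tan (al (vv m r y1))) / (1 - y1)) (Ioi y) y := by
      have := (((hasDerivWithinAt_id y (Ioi y)).sub_const y1).const_mul
        ((P1 - tan (al (vv m r y1))) / (1 - y1))).const_add (tan (al (vv m r y1)))
      simpa only [hasDerivWithinAt_Ioi_iff_Ici, hasDerivWithinAt_const_add_iff, id_eq, mul_one] using this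
    refine e.congr ?_ ?_
    · intro z hz
      unfold ph
      rw [if_neg (not_le.2 (hc.trans_lt hz))]
    · unfold ph
      rcases eq_or_lt_of_le hc with h | h
      · rw [if_pos h.symm.le, ← h]
        simp
      · rw [if_neg (not_le.2 h)]

theorem ph_cont (hm : 1 ≤ m) {y1 P1 : ℝ} (h0 : 0 < y1) (h1 : y1 < 1) :
    ContinuousOn (ph m r al y1 P1) (Icc 0 1) := by
  have e : Icc (0 : ℝ) 1 = Icc 0 y1 ∪ Icc y1 1 := (Icc_union_Icc_eq_Icc h0.le h1.le).symm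
  rw [e]
  refine ContinuousOn.union_of_isClosed ?_ ?_ isClosed_Icc isClosed_Icc
  · refine ((tan_cont hr ha hm).mono fun y hy => ⟨hy.1, hy.2.trans_lt h1⟩).congr fun y hy => ?_
    unfold ph
    rw [if_pos hy.2]
  · have hc : ContinuousOn (fun y => tan (al (vv m r y1)) +
        (P1 - tan (al (vv m r y1))) / (1 - y1) * (y - y1)) (Icc y1 1) := by (clear * -; fun_prop)
    refine hc.congr fun y hy => ?_
    unfold ph
    rcases eq_or_lt_of_le hy.1 with h | h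
    · rw [if_pos h.symm.le, ← h]
      simp
    · rw [if_neg (not_le.2 h)]

theorem gh_bdd (hm : 1 ≤ m) {y1 P1 : ℝ} (h0 : 0 < y1) (h1 : y1 < 1) :
    ∃ D : ℝ, ∀ y ∈ Ioo (0 : ℝ) 1, |gh m r al y1 P1 y| ≤ D := by
  have hsub : Icc 0 y1 ⊆ Ico (0 : ℝ) 1 := fun y hy => ⟨hy.1, hy.2.trans_lt h1⟩
  have hcc : ContinuousOn (fun y => cZ m / cos (al (vv m r y)) ^ (m + 1)) (Icc 0 y1) := by
    have : ContinuousOn (fun y => cos (al (vv m r y))) (Icc 0 y1) :=
      continuous_cos.comp_continuousOn ((aa_cont hr ha hm).mono hsub)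
    exact continuousOn_const.div (this.pow _) fun y hy =>
      (pow_pos (aa_cos_pos hr ha hm (hsub hy)) _).ne'
  obtain ⟨M, hM⟩ := isCompact_Icc.exists_bound_of_continuousOn hcc
  have hM0 : 0 ≤ M := (norm_nonneg _).trans (hM 0 ⟨le_rfl, h0.le⟩)
  have hIp := hI_pos (m := m) hr
  set V : ℝ := (m : ℝ) * r 0 ^ (m - 1) * (r 0 - rd r y1) / (((m : ℝ) + 1) * hI m r) with hV
  have hr0 : 0 ≤ r 0 := prof_nn hr ⟨le_rfl, zero_le_one⟩
  have hd1 : rd r y1 ≤ 0 := rd_nonpos hr ⟨h0.le, h1⟩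
  have hV0 : 0 ≤ V := by
    rw [hV]
    have : 0 ≤ r 0 - rd r y1 := by linarith only [hr0, hd1]
    (clear * - hm hr0 this hIp; positivity)
  have hvd : ∀ y ∈ Ioo (0 : ℝ) y1, vd m r y ≤ V := by
    intro y hy
    rw [hV]
    unfold vd
    have hy1 : y ∈ Icc (0 : ℝ) 1 := ⟨hy.1.le, (hy.2.trans h1).le⟩
    have e1 := prof_le_zero hr hy1
    have e2 : rd r y1 ≤ rd r y := rd_anti hr ⟨by linarith only [hy.1], hy.2.trans h1⟩
      ⟨by linarith only [h0], h1⟩ hy.2.le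
    have e3 := rd_nonpos hr (y := y) ⟨hy.1.le, hy.2.trans h1⟩
    have e4 : r y - y * rd r y ≤ r 0 - rd r y1 := by nlinarith only [e1, h1, hd1, e2, hy.1, hy.2]
    have e5 : 0 ≤ r y - y * rd r y := by
      have := mul_nonneg hy.1.le (neg_nonneg.2 e3)
      have := prof_nn hr hy1
      linarith
    have e6 := prof_nn hr hy1
    have e7 : 0 ≤ r 0 - rd r y1 := by linarith only [hr0, hd1]
    refine div_le_div_of_nonneg_right ?_ (by positivity)
    refine mul_le_mul ?_ e4 e5 (by (clear * - hm hr0; positivity))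
    exact mul_le_mul_of_nonneg_left (pow_le_pow_left₀ e6 e1 _) (by positivity)
  refine ⟨max (M * V) |(P1 - tan (al (vv m r y1))) / (1 - y1)|, fun y hy => ?_⟩
  unfold gh
  split_ifs with hc
  · refine le_trans ?_ (le_max_left _ _)
    rw [abs_mul, abs_of_nonneg (vd_nonneg (m := m) hr ⟨hy.1.le, hy.2⟩)]
    exact mul_le_mul (hM y ⟨hy.1.le, hc.le⟩) (hvd y ⟨hy.1, hc⟩)
      (vd_nonneg hr ⟨hy.1.le, hy.2⟩) hM0
  · exact le_max_right _ _

/-- the interior parts of the integrands are integrable -/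
theorem A_ii (hm : 1 ≤ m) {y1 : ℝ} (h0 : 0 ≤ y1) (h1 : y1 < 1) :
    IntervalIntegrable (fun y => (cZ m / cos (al (vv m r y)) ^ (m + 1) * vd m r y) *
      r y ^ m) volume 0 y1 := by
  have hsub : Icc 0 y1 ⊆ Ico (0 : ℝ) 1 := fun y hy => ⟨hy.1, hy.2.trans_lt h1⟩
  have hrc := prof_contOn hr h1
  have hcc : ContinuousOn (fun y => cos (al (vv m r y))) (Icc 0 y1) :=
    continuous_cos.comp_continuousOn ((aa_cont hr ha hm).mono hsub)
  have := ii_mul_vd (m := m) hr h0 h1 (c := fun y => cZ m / cos (al (vv m r y)) ^ (m + 1) *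
      r y ^ m) ((continuousOn_const.div (hcc.pow _) fun y hy =>
        (pow_pos (aa_cos_pos hr ha hm (hsub hy)) _).ne').mul (hrc.pow m))
  refine this.congr fun y _ => ?_
  ring

theorem Q_ii (hm : 1 ≤ m) {y1 : ℝ} (h0 : 0 ≤ y1) (h1 : y1 < 1) :
    IntervalIntegrable (fun y => (((m + 1 : ℕ) : ℝ) * tan (al (vv m r y)) ^ 2 +
        2 * y * tan (al (vv m r y)) *
          (cZ m / cos (al (vv m r y)) ^ (m + 1) * vd m r y)) * r y ^ m) volume 0 y1 := by
  have hsub : Icc 0 y1 ⊆ Ico (0 : ℝ) 1 := fun y hy => ⟨hy.1, hy.2.trans_lt h1⟩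
  have hrc := prof_contOn hr h1
  have htc := (tan_cont hr ha hm).mono hsub
  have hcc : ContinuousOn (fun y => cos (al (vv m r y))) (Icc 0 y1) :=
    continuous_cos.comp_continuousOn ((aa_cont hr ha hm).mono hsub)
  have e : (fun y => (((m + 1 : ℕ) : ℝ) * tan (al (vv m r y)) ^ 2 +
        2 * y * tan (al (vv m r y)) *
          (cZ m / cos (al (vv m r y)) ^ (m + 1) * vd m r y)) * r y ^ m) = fun y =>
        ((m + 1 : ℕ) : ℝ) * tan (al (vv m r y)) ^ 2 * r y ^ m +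
        (2 * y * tan (al (vv m r y)) * (cZ m / cos (al (vv m r y)) ^ (m + 1)) * r y ^ m) *
          vd m r y := by
    funext y
    ring
  rw [e]
  refine IntervalIntegrable.add ?_ (ii_mul_vd hr h0 h1 ?_)
  · apply ContinuousOn.intervalIntegrable
    rw [uIcc_of_le h0]
    exact (continuousOn_const.mul (htc.pow 2)).mul (hrc.pow m)
  · refine (((continuousOn_const.mul continuousOn_id).mul htc).mul ?_).mul (hrc.pow m)
    exact continuousOn_const.div (hcc.pow _) fun y hy =>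
      (pow_pos (aa_cos_pos hr ha hm (hsub hy)) _).ne'

/-- left side of the test -/
theorem lhs_eq (hm : 1 ≤ m) {y1 P1 : ℝ} (h0 : 0 < y1) (h1 : y1 < 1) :
    ∫ y in (0 : ℝ)..1, gh m r al y1 P1 y * r y ^ m =
      (∫ y in (0 : ℝ)..y1, (cZ m / cos (al (vv m r y)) ^ (m + 1) * vd m r y) * r y ^ m) +
      (P1 - tan (al (vv m r y1))) / (1 - y1) * ∫ y in y1..1, r y ^ m := by
  have e1 : EqOn (fun y => (cZ m / cos (al (vv m r y)) ^ (m + 1) * vd m r y) * r y ^ m)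
      (fun y => gh m r al y1 P1 y * r y ^ m) (Ioo 0 y1) := by
    intro y hy
    simp only [gh, if_pos hy.2]
  have e2 : EqOn (fun y => (P1 - tan (al (vv m r y1))) / (1 - y1) * r y ^ m)
      (fun y => gh m r al y1 P1 y * r y ^ m) (Ioo y1 1) := by
    intro y hy
    simp only [gh, if_neg (not_lt.2 hy.1.le)]
  have i2 : IntervalIntegrable (fun y => r y ^ m) volume y1 1 :=
    prof_pow_ii hr m ⟨h0.le, h1.le⟩ ⟨zero_le_one, le_rfl⟩
  rw [← intervalIntegral.integral_const_mul, intervalIntegral.integral_congr_Ioo_of_le h0.le e1,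
    intervalIntegral.integral_congr_Ioo_of_le h1.le e2,
    intervalIntegral.integral_add_adjacent_intervals]
  · exact (A_ii hr ha hm h0.le h1).congr_uIoo (by rwa [uIoo_of_le h0.le])
  · exact (i2.const_mul _).congr_uIoo (by rwa [uIoo_of_le h1.le])

/-- right side of the test -/
theorem rhs_le (hm : 3 ≤ m) {y1 P1 : ℝ} (h0 : 0 < y1) (h1 : y1 < 1)
    (hP : tan (al (vv m r y1)) ≤ P1) :
    ∫ y in (0 : ℝ)..1, (((m + 1 : ℕ) : ℝ) * ph m r al y1 P1 y ^ 2 +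
        2 * y * ph m r al y1 P1 y * gh m r al y1 P1 y) * r y ^ m ≤
      ((m : ℝ) + 1) * hI m r / cZ m *
        (∫ β in (0 : ℝ)..(al (vv m r y1)), sin β ^ 2 * cos β ^ (m - 3)) +
      r y1 ^ m * (P1 ^ 2 * (1 + ((m : ℝ) + 1) * (1 - y1))) := by
  have hm1 : 1 ≤ m := by omega
  set t1 : ℝ := tan (al (vv m r y1)) with ht1
  have hal := aa_mem hr ha hm1 (y := y1) ⟨h0.le, h1⟩
  have ht0 : 0 ≤ t1 := tan_nonneg_of_nonneg_of_le_pi_div_two hal.1 hal.2.le
  set s : ℝ := (P1 - t1) / (1 - y1) with hs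
  have hy1 : 0 < 1 - y1 := by linarith only [h1]
  have hs0 : 0 ≤ s := div_nonneg (by linarith only [hP]) hy1.le
  have e1 : EqOn (fun y => (((m + 1 : ℕ) : ℝ) * tan (al (vv m r y)) ^ 2 +
        2 * y * tan (al (vv m r y)) *
          (cZ m / cos (al (vv m r y)) ^ (m + 1) * vd m r y)) * r y ^ m)
      (fun y => (((m + 1 : ℕ) : ℝ) * ph m r al y1 P1 y ^ 2 +
        2 * y * ph m r al y1 P1 y * gh m r al y1 P1 y) * r y ^ m) (Ioo 0 y1) := by
    intro y hy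
    simp only [gh, ph, if_pos hy.2, if_pos hy.2.le]
  have e2 : EqOn (fun y => (((m + 1 : ℕ) : ℝ) * (t1 + s * (y - y1)) ^ 2 +
        2 * y * (t1 + s * (y - y1)) * s) * r y ^ m)
      (fun y => (((m + 1 : ℕ) : ℝ) * ph m r al y1 P1 y ^ 2 +
        2 * y * ph m r al y1 P1 y * gh m r al y1 P1 y) * r y ^ m) (Ioo y1 1) := by
    intro y hy
    simp only [gh, ph, if_neg (not_lt.2 hy.1.le), if_neg (not_le.2 hy.1)]
    rfl
  have i2 : IntervalIntegrable (fun y => r y ^ m) volume y1 1 :=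
    prof_pow_ii hr m ⟨h0.le, h1.le⟩ ⟨zero_le_one, le_rfl⟩
  have i3 : IntervalIntegrable (fun y => (((m + 1 : ℕ) : ℝ) * (t1 + s * (y - y1)) ^ 2 +
        2 * y * (t1 + s * (y - y1)) * s) * r y ^ m) volume y1 1 :=
    i2.continuousOn_mul (by fun_prop)
  have hsum : (∫ y in (0 : ℝ)..1, (((m + 1 : ℕ) : ℝ) * ph m r al y1 P1 y ^ 2 +
        2 * y * ph m r al y1 P1 y * gh m r al y1 P1 y) * r y ^ m) =
      (∫ y in (0 : ℝ)..y1, (((m + 1 : ℕ) : ℝ) * tan (al (vv m r y)) ^ 2 +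
        2 * y * tan (al (vv m r y)) *
          (cZ m / cos (al (vv m r y)) ^ (m + 1) * vd m r y)) * r y ^ m) +
      ∫ y in y1..1, (((m + 1 : ℕ) : ℝ) * (t1 + s * (y - y1)) ^ 2 +
        2 * y * (t1 + s * (y - y1)) * s) * r y ^ m := by
    rw [intervalIntegral.integral_congr_Ioo_of_le h0.le e1,
      intervalIntegral.integral_congr_Ioo_of_le h1.le e2,
      intervalIntegral.integral_add_adjacent_intervals]
    · exact (Q_ii hr ha hm1 h0.le h1).congr_uIoo (by rwa [uIoo_of_le h0.le])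
    · exact i3.congr_uIoo (by rwa [uIoo_of_le h1.le])
  rw [hsum, int_quad hr ha hm h0.le h1, ← ht1]
  have hf0 : 0 ≤ r y1 ^ m := pow_nonneg (prof_pos' hr ⟨h0.le, h1⟩).le m
  have hcast : ((m + 1 : ℕ) : ℝ) = (m : ℝ) + 1 := by push_cast; ring
  have hramp : (∫ y in y1..1, (((m + 1 : ℕ) : ℝ) * (t1 + s * (y - y1)) ^ 2 +
        2 * y * (t1 + s * (y - y1)) * s) * r y ^ m) ≤
      r y1 ^ m * (((m : ℝ) + 1) * (1 - y1) * P1 ^ 2 + (P1 ^ 2 - t1 ^ 2)) := by
    have hval : ∫ y in y1..1, (((m : ℝ) + 1) * P1 ^ 2 + 2 * (t1 + s * (y - y1)) * s) * r y1 ^ m =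
        r y1 ^ m * (((m : ℝ) + 1) * (1 - y1) * P1 ^ 2 + (P1 ^ 2 - t1 ^ 2)) := by
      rw [intervalIntegral.integral_eq_sub_of_hasDerivAt (f := fun y =>
        (((m : ℝ) + 1) * P1 ^ 2 * y + (t1 + s * (y - y1)) ^ 2) * r y1 ^ m)]
      · have hP1 : t1 + s * (1 - y1) = P1 := by
          rw [hs]
          field_simp
          ring
        rw [hP1, sub_self, mul_zero, add_zero]
        ring
      · intro y _
        have a1 : HasDerivAt (fun y : ℝ => t1 + s * (y - y1)) s y := by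
          simpa using (((hasDerivAt_id y).sub_const y1).const_mul s).const_add t1
        have a2 := ((((hasDerivAt_id y).const_mul (((m : ℝ) + 1) * P1 ^ 2)).add
          (a1.pow 2)).mul_const (r y1 ^ m))
        refine (a2.congr_deriv ?_).congr_of_eventuallyEq ?_
        · simp only [mul_one, Nat.cast_ofNat, Nat.add_one_sub_one, pow_one]
        · exact Eventually.of_forall fun z => by simp
      · exact Continuous.intervalIntegrable (by fun_prop) _ _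
    rw [← hval]
    refine intervalIntegral.integral_mono_on h1.le i3
      (Continuous.intervalIntegrable (by fun_prop) _ _) fun y hy => ?_
    have b0 : 0 ≤ y - y1 := by linarith only [hy.1]
    have b1 : 0 ≤ t1 + s * (y - y1) := by (clear * - ht0 hP h1 b0; positivity)
    have b2 : t1 + s * (y - y1) ≤ P1 := by
      have : s * (y - y1) ≤ s * (1 - y1) := mul_le_mul_of_nonneg_left (by linarith only [hy.2]) hs0
      have h3 : s * (1 - y1) = P1 - t1 := by rw [hs]; (clear * - hy1; field_simp)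
      linarith only [this, h3]
    have b3 : r y ^ m ≤ r y1 ^ m := by
      have q1 : y1 ∈ Icc (0 : ℝ) 1 := ⟨h0.le, h1.le⟩
      have q2 : y ∈ Icc (0 : ℝ) 1 := ⟨h0.le.trans hy.1, hy.2⟩
      exact pow_le_pow_left₀ (prof_nn hr q2) (prof_anti hr q1 q2 hy.1) m
    have b4 : 0 ≤ r y ^ m := pow_nonneg (prof_nn hr ⟨h0.le.trans hy.1, hy.2⟩) m
    have b5 : (t1 + s * (y - y1)) ^ 2 ≤ P1 ^ 2 := pow_le_pow_left₀ b1 b2 2
    have b6 : 2 * y * (t1 + s * (y - y1)) * s ≤ 2 * (t1 + s * (y - y1)) * s := by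
      have : 0 ≤ (t1 + s * (y - y1)) * s := mul_nonneg b1 hs0
      nlinarith only [this, hy.2]
    rw [hcast]
    have hy0 : 0 ≤ y := h0.le.trans hy.1
    refine mul_le_mul ?_ b3 b4 (by (clear * - hm ht0 hP h1 b0; positivity))
    have : ((m : ℝ) + 1) * (t1 + s * (y - y1)) ^ 2 ≤ ((m : ℝ) + 1) * P1 ^ 2 :=
      mul_le_mul_of_nonneg_left b5 (by positivity)
    linarith only [b6, this]
  have hlast : t1 ^ 2 * (y1 * r y1 ^ m) ≤ t1 ^ 2 * r y1 ^ m :=
    mul_le_mul_of_nonneg_left (mul_le_of_le_one_left hf0 h1.le) (by (clear * -; positivity))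
  linarith only [hramp, hlast]

end Vale.Agent.P237.Alm
end

section

/-!
# P237, almost Petty: the bound for the cut-off test function
-/

open MeasureTheory Metric Set Module Filter Real
open scoped Topology

namespace Vale.Agent.P237.Alm

open AllN

/-- The slope of the ramp. -/
noncomputable def PP (m : ℕ) (r al : ℝ → ℝ) (y1 : ℝ) : ℝ :=
  (cos (al (vv m r y1)) ^ (m - 1) / ((m : ℝ) - 1)) / ((1 - vv m r y1) * cZ m)

variable {m : ℕ} {r : ℝ → ℝ} (hr : IsProf r) {al : ℝ → ℝ} (ha : IsAngle m al)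

include hr ha

theorem tail_cos (hm : 1 ≤ m) {y1 : ℝ} (h0 : 0 ≤ y1) (h1 : y1 < 1) :
    ∫ β in (al (vv m r y1))..(π / 2), cos β ^ (m - 1) = (1 - vv m r y1) * cZ m := by
  have e1 := ha.int _ (vv_mem hr hm (y := y1) ⟨h0, h1⟩)
  have e2 : (∫ β in (0 : ℝ)..(al (vv m r y1)), cos β ^ (m - 1)) +
      ∫ β in (al (vv m r y1))..(π / 2), cos β ^ (m - 1) = cZ m :=
    intervalIntegral.integral_add_adjacent_intervals
      (Continuous.intervalIntegrable (by fun_prop) _ _)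
      (Continuous.intervalIntegrable (by fun_prop) _ _)
  rw [e1] at e2
  linarith only [e2]

omit ha in
theorem one_sub_pos (hm : 1 ≤ m) {y1 : ℝ} (h0 : 0 ≤ y1) (h1 : y1 < 1) : 0 < 1 - vv m r y1 := by
  have := vv_lt_one hr hm (y := y1) ⟨h0, h1⟩
  linarith only [this]

theorem tan_le_PP (hm : 3 ≤ m) {y1 : ℝ} (h0 : 0 ≤ y1) (h1 : y1 < 1) :
    tan (al (vv m r y1)) ≤ PP m r al y1 := by
  have hal := aa_mem hr ha (by omega : 1 ≤ m) (y := y1) ⟨h0, h1⟩
  have hc := aa_cos_pos hr ha (by omega : 1 ≤ m) (y := y1) ⟨h0, h1⟩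
  have hZ := cZ_pos m
  have hap := one_sub_pos (m := m) hr (by omega) h0 h1
  unfold PP
  rw [le_div_iff₀ (by (clear * - hap hZ; positivity)), ← tail_cos hr ha (by omega) h0 h1,
    ← int_sin_mul hm, ← intervalIntegral.integral_const_mul]
  refine intervalIntegral.integral_mono_on hal.2.le
    (Continuous.intervalIntegrable (by fun_prop) _ _)
    (Continuous.intervalIntegrable (by fun_prop) _ _) fun β hβ => ?_
  set α := al (vv m r y1) with hα
  have hcβ : 0 ≤ cos β := cos_nonneg_of_mem_Icc ⟨by linarith only [hal.1, hβ.1, pi_pos], hβ.2⟩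
  have hs : 0 ≤ sin (β - α) := sin_nonneg_of_nonneg_of_le_pi (by linarith [hβ.1])
    (by linarith only [hβ.2, hal.1, pi_pos])
  have e1 : sin β - tan α * cos β = sin (β - α) / cos α := by
    rw [tan_eq_sin_div_cos, sin_sub]
    (clear * - hc; field_simp)
  have e2 : tan α * cos β ≤ sin β := by
    have := div_nonneg hs hc.le
    linarith only [this, e1]
  have e3 : cos β ^ (m - 1) = cos β * cos β ^ (m - 2) := by
    rw [← pow_succ']
    congr 1
    omega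
  rw [e3, ← mul_assoc]
  exact mul_le_mul_of_nonneg_right e2 (pow_nonneg hcβ _)

theorem PP_sq_le (hm : 3 ≤ m) {y1 : ℝ} (h0 : 0 ≤ y1) (h1 : y1 < 1) :
    PP m r al y1 ^ 2 * ((1 - vv m r y1) * cZ m) ≤
      ∫ β in (al (vv m r y1))..(π / 2), sin β ^ 2 * cos β ^ (m - 3) := by
  have hal := aa_mem hr ha (by omega : 1 ≤ m) (y := y1) ⟨h0, h1⟩
  have hZ := cZ_pos m
  have hap := one_sub_pos (m := m) hr (by omega) h0 h1
  have h := tail_cs hm hal.1 hal.2.le
  rw [tail_cos hr ha (by omega) h0 h1] at h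
  unfold PP
  rw [div_pow, div_mul_eq_mul_div, div_le_iff₀ (by positivity)]
  have h2 := mul_le_mul_of_nonneg_right h (by (clear * - hap hZ; positivity) : 0 ≤ (1 - vv m r y1) * cZ m)
  refine h2.trans (le_of_eq ?_)
  ring

omit hr ha in
theorem S_add (hm : 3 ≤ m) (α : ℝ) : (∫ β in (0 : ℝ)..α, sin β ^ 2 * cos β ^ (m - 3)) +
    (∫ β in α..(π / 2), sin β ^ 2 * cos β ^ (m - 3)) = 1 / ((m : ℝ) - 2) * cZ m := by
  rw [intervalIntegral.integral_add_adjacent_intervals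
      (Continuous.intervalIntegrable (by fun_prop) _ _)
      (Continuous.intervalIntegrable (by fun_prop) _ _), int_sin_sq hm]
  rfl

theorem S_nn (hm : 3 ≤ m) {y1 : ℝ} (h0 : 0 ≤ y1) (h1 : y1 < 1) :
    0 ≤ ∫ β in (0 : ℝ)..(al (vv m r y1)), sin β ^ 2 * cos β ^ (m - 3) := by
  have hal := aa_mem hr ha (by omega : 1 ≤ m) (y := y1) ⟨h0, h1⟩
  refine intervalIntegral.integral_nonneg hal.1 fun β hβ => ?_
  have hcβ : 0 ≤ cos β := cos_nonneg_of_mem_Icc ⟨by linarith only [hβ.1, pi_pos],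
    by linarith only [hβ.2, hal.2]⟩
  (clear * - hcβ; positivity)

theorem S2_nn (hm : 3 ≤ m) {y1 : ℝ} (h0 : 0 ≤ y1) (h1 : y1 < 1) :
    0 ≤ ∫ β in (al (vv m r y1))..(π / 2), sin β ^ 2 * cos β ^ (m - 3) := by
  have hal := aa_mem hr ha (by omega : 1 ≤ m) (y := y1) ⟨h0, h1⟩
  refine intervalIntegral.integral_nonneg hal.2.le fun β hβ => ?_
  have hcβ : 0 ≤ cos β := cos_nonneg_of_mem_Icc ⟨by linarith only [pi_pos, hβ.1, hal.1], hβ.2⟩
  positivity

/-- The main estimate from the Fisher inequality. -/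
theorem cut_bound (hm : 3 ≤ m) (hF : Fish (m + 1) (fun y => r y ^ m)) {y1 : ℝ} (h0 : 0 < y1)
    (h1 : y1 < 1) {r1 : ℝ} (hr1 : 0 ≤ r1) (hle : ∀ y ∈ Ico (0 : ℝ) 1, r1 ≤ r y) :
    (∫ y in (0 : ℝ)..y1, (cZ m / cos (al (vv m r y)) ^ (m + 1) * vd m r y) * r y ^ m) +
      (PP m r al y1 - tan (al (vv m r y1))) * r1 ^ m ≤
      hI m r * √(((m : ℝ) + 1) / ((m : ℝ) - 2) * ((1 + ((m : ℝ) + 1) * (1 - y1)) / y1)) := by
  have hm1 : 1 ≤ m := by omega
  have hm3 : (3 : ℝ) ≤ m := by exact_mod_cast hm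
  have hP := tan_le_PP hr ha hm h0.le h1
  have hIp := hI_pos (m := m) hr
  have hZ := cZ_pos m
  have hap := one_sub_pos (m := m) hr hm1 h0.le h1
  obtain ⟨D, hD⟩ := gh_bdd (P1 := PP m r al y1) hr ha hm1 h0 h1
  have hfish := fish_half (n := m + 1) hF (fun y => by simp only [hr.even])
    (prof_pow_ii hr m ⟨le_rfl, zero_le_one⟩ ⟨zero_le_one, le_rfl⟩)
    (fun y hy => pow_nonneg (prof_nn hr hy) m)
    (C := r 0 ^ m) (fun y hy => pow_le_pow_left₀ (prof_nn hr hy) (prof_le_zero hr hy) m)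
    (ph_zero hr ha h0) (lip_of_right_deriv (ph_cont hr ha hm1 h0 h1)
      (fun y hy => gh_has hr ha hm1 h0 h1 hy) hD)
    (fun y hy => gh_has (P1 := PP m r al y1) hr ha hm1 h0 h1 hy)
  rw [lhs_eq hr ha hm1 h0 h1] at hfish
  have hrhs := rhs_le hr ha hm h0 h1 hP
  have hge : (1 - y1) * r1 ^ m ≤ ∫ y in y1..1, r y ^ m := by
    have h2 : ∫ _ in y1..1, r1 ^ m = (1 - y1) * r1 ^ m := by simp
    rw [← h2]
    refine intervalIntegral.integral_mono_on_of_le_Ioo h1.le (by simp)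
      (prof_pow_ii hr m ⟨h0.le, h1.le⟩ ⟨zero_le_one, le_rfl⟩) fun s hs => ?_
    exact pow_le_pow_left₀ hr1 (hle s ⟨h0.le.trans hs.1.le, hs.2⟩) m
  set A := ∫ y in (0 : ℝ)..y1, (cZ m / cos (al (vv m r y)) ^ (m + 1) * vd m r y) * r y ^ m
    with hA
  have hA0 : 0 ≤ A := by
    rw [hA]
    refine intervalIntegral.integral_nonneg h0.le fun y hy => ?_
    have hy1 : y ∈ Ico (0 : ℝ) 1 := ⟨hy.1, hy.2.trans_lt h1⟩
    have e1 := vd_nonneg (m := m) hr hy1
    have e2 := aa_cos_pos hr ha hm1 hy1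
    have e3 := prof_pos' hr hy1
    (clear * - hZ e2 e1 e3; positivity)
  set t1 := tan (al (vv m r y1)) with ht1
  set P := PP m r al y1 with hPdef
  have hy1 : 0 < 1 - y1 := by linarith only [h1]
  have hd : 0 ≤ P - t1 := by linarith only [hP]
  have hr1m : 0 ≤ r1 ^ m := pow_nonneg hr1 m
  have hlow : A + (P - t1) * r1 ^ m ≤ A + (P - t1) / (1 - y1) * ∫ y in y1..1, r y ^ m := by
    have : (P - t1) / (1 - y1) * ((1 - y1) * r1 ^ m) ≤
        (P - t1) / (1 - y1) * ∫ y in y1..1, r y ^ m :=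
      mul_le_mul_of_nonneg_left hge (div_nonneg hd hy1.le)
    have e : (P - t1) / (1 - y1) * ((1 - y1) * r1 ^ m) = (P - t1) * r1 ^ m := by
      (clear * - hy1; field_simp)
    linarith only [this, e]
  have hL0 : 0 ≤ A + (P - t1) * r1 ^ m := by (clear * - hA0 hP hr1; positivity)
  set S1 := ∫ β in (0 : ℝ)..(al (vv m r y1)), sin β ^ 2 * cos β ^ (m - 3) with hS1
  set S2 := ∫ β in (al (vv m r y1))..(π / 2), sin β ^ 2 * cos β ^ (m - 3) with hS2
  have hS12 : S1 + S2 = 1 / ((m : ℝ) - 2) * cZ m := S_add hm _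
  have hS1n : 0 ≤ S1 := S_nn hr ha hm h0.le h1
  have hS2n : 0 ≤ S2 := S2_nn hr ha hm h0.le h1
  have hPS : P ^ 2 * ((1 - vv m r y1) * cZ m) ≤ S2 := PP_sq_le hr ha hm h0.le h1
  have hone := one_sub_vv (m := m) hr (y := y1) ⟨h0.le, h1.le⟩
  have hf : y1 * r y1 ^ m ≤ ((m : ℝ) + 1) * hI m r * (1 - vv m r y1) := by
    rw [hone]
    have : 0 ≤ ∫ s in y1..1, r s ^ m := le_trans (by (clear * - h1 hr1; positivity)) hge
    have h2 : 0 ≤ ((m : ℝ) + 1) * ∫ s in y1..1, r s ^ m := by (clear * - hm this; positivity)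
    linarith only [h2]
  set κ := (1 + ((m : ℝ) + 1) * (1 - y1)) / y1 with hκ
  have hκ1 : 1 ≤ κ := by
    rw [hκ, le_div_iff₀ h0]
    nlinarith only [h1]
  have hfin : ((m : ℝ) + 1) * hI m r / cZ m * S1 +
      r y1 ^ m * (P ^ 2 * (1 + ((m : ℝ) + 1) * (1 - y1))) ≤
      hI m r * (((m : ℝ) + 1) / ((m : ℝ) - 2) * κ) := by
    have e1 : r y1 ^ m * (P ^ 2 * (1 + ((m : ℝ) + 1) * (1 - y1))) =
        (y1 * r y1 ^ m) * (P ^ 2 * κ) := by
      rw [hκ]
      (clear * - h0 hm hy1; field_simp)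
    have e2 : (y1 * r y1 ^ m) * (P ^ 2 * κ) ≤
        (((m : ℝ) + 1) * hI m r * (1 - vv m r y1)) * (P ^ 2 * κ) :=
      mul_le_mul_of_nonneg_right hf (by (clear * - hm h1 h0; positivity))
    have e3 : (((m : ℝ) + 1) * hI m r * (1 - vv m r y1)) * (P ^ 2 * κ) =
        ((m : ℝ) + 1) * hI m r / cZ m * κ * (P ^ 2 * ((1 - vv m r y1) * cZ m)) := by
      (clear * - hZ hκ1 hap hIp hm; field_simp)
    have e4 : ((m : ℝ) + 1) * hI m r / cZ m * κ * (P ^ 2 * ((1 - vv m r y1) * cZ m)) ≤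
        ((m : ℝ) + 1) * hI m r / cZ m * κ * S2 :=
      mul_le_mul_of_nonneg_left hPS (by positivity)
    have e5 : ((m : ℝ) + 1) * hI m r / cZ m * S1 ≤ ((m : ℝ) + 1) * hI m r / cZ m * κ * S1 := by
      have : 0 ≤ ((m : ℝ) + 1) * hI m r / cZ m * S1 := by (clear * - hm hIp hZ hS1n; positivity)
      linarith only [mul_nonneg (sub_nonneg.2 hκ1) (sub_nonneg.2 this)]
    have e6 : ((m : ℝ) + 1) * hI m r / cZ m * κ * S1 + ((m : ℝ) + 1) * hI m r / cZ m * κ * S2 =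
        hI m r * (((m : ℝ) + 1) / ((m : ℝ) - 2) * κ) := by
      rw [← mul_add, hS12]
      have : (m : ℝ) - 2 ≠ 0 := by linarith only [hm3]
      (clear * - hZ this hκ1 hIp hm; field_simp)
    linarith only [e1, e2, e3, e4, e5, e6]
  have hsq : (A + (P - t1) * r1 ^ m) ^ 2 ≤
      hI m r ^ 2 * (((m : ℝ) + 1) / ((m : ℝ) - 2) * κ) := by
    have e1 : (A + (P - t1) * r1 ^ m) ^ 2 ≤
        (A + (P - t1) / (1 - y1) * ∫ y in y1..1, r y ^ m) ^ 2 := pow_le_pow_left₀ hL0 hlow 2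
    have e2 : (∫ y in (0 : ℝ)..1, r y ^ m) = hI m r := rfl
    rw [e2] at hfish
    have e3 := mul_le_mul_of_nonneg_left (hrhs.trans hfin) hIp.le
    calc _ ≤ _ := e1
      _ ≤ _ := hfish
      _ ≤ _ := e3
      _ = _ := by ring
  rw [← Real.sqrt_sq hL0]
  have e7 : hI m r * √(((m : ℝ) + 1) / ((m : ℝ) - 2) * κ) =
      √(hI m r ^ 2 * (((m : ℝ) + 1) / ((m : ℝ) - 2) * κ)) := by
    rw [Real.sqrt_mul (sq_nonneg (hI m r)), Real.sqrt_sq hIp.le]
  rw [e7]
  exact Real.sqrt_le_sqrt hsq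

end Vale.Agent.P237.Alm
end

section

/-!
# P237: elementary inputs of the pointwise inequality (bounds for `τ`, `l` and `u`)
-/

open MeasureTheory Set Finset

namespace Vale.Agent.P237.AllN

open Alm

section

variable {m : ℕ} {r τ τ' T : ℝ → ℝ} {x : ℝ}

theorem pin_E (τ τ' : ℝ → ℝ) (x : ℝ) : 1 + uf τ τ' x = x * τ' x / τ x := by
  unfold uf
  ring

theorem pin_exp (h : IsTrans m r τ τ' T) (hx : x ∈ Ioo (0 : ℝ) 1) :
    x * Real.exp (lf τ x) = τ x := by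
  have h1 := tr_pos h hx
  have h2 : 0 < x := hx.1
  unfold lf
  rw [Real.exp_log (by positivity)]
  (clear * - h2 h1; field_simp)

theorem pin_le_one (h : IsTrans m r τ τ' T) (hx : x ∈ Ioo (0 : ℝ) 1) :
    x * Real.exp (lf τ x) < 1 := by
  rw [pin_exp h hx]
  exact (h.mem x hx).2

/-- comparison with the cylinder: lower bound of the slope -/
theorem IsTrans.pin_cyl (hr : IsProf r) (h : IsTrans m r τ τ' T) (hx : x ∈ Ioo (0 : ℝ) 1) :
    x * sq x ^ m ≤ (1 + uf τ τ' x) * ∫ t in (0 : ℝ)..x, sq t ^ m := by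
  have hτ := h.mem x hx
  have hI := sl_V_pos m hr (y := 0) ⟨le_rfl, zero_lt_one⟩
  have hZ := sl_q_pos m (x := 0) ⟨le_rfl, zero_lt_one⟩
  have h1 := h.mass x hx
  have h2 := h.eqn x hx
  have hp := h.pos x hx
  have h3 : τ x * r (τ x) ^ m ≤ ∫ t in (0 : ℝ)..τ x, r t ^ m :=
    Slope.le_integral_left m (prof_anti hr) (fun t ht => prof_nn hr ht) hτ.1.le hτ.2.le
  set I := ∫ t in (0 : ℝ)..1, r t ^ m
  set Z := ∫ t in (0 : ℝ)..1, sq t ^ m
  set P := ∫ t in (0 : ℝ)..x, sq t ^ m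
  set F := ∫ t in (0 : ℝ)..τ x, r t ^ m
  have h4 : sq x ^ m * τ x ≤ τ' x * P := by
    have h5 : (sq x ^ m * τ x) * I ≤ (τ' x * P) * I := by
      calc (sq x ^ m * τ x) * I = τ' x * (τ x * r (τ x) ^ m) * Z := by
            linear_combination (-(τ x)) * h2
        _ ≤ τ' x * F * Z := by
            apply mul_le_mul_of_nonneg_right _ hZ.le
            exact mul_le_mul_of_nonneg_left h3 hp.le
        _ = (τ' x * P) * I := by linear_combination (τ' x) * h1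
    exact le_of_mul_le_mul_right h5 hI
  rw [pin_E, div_mul_eq_mul_div, le_div_iff₀ hτ.1]
  have := mul_le_mul_of_nonneg_left h4 hx.1.le
  linarith only [this]

theorem pin_P_pos (m : ℕ) (hx : x ∈ Ioo (0 : ℝ) 1) : 0 < ∫ t in (0 : ℝ)..x, sq t ^ m := by
  apply intervalIntegral.intervalIntegral_pos_of_pos_on (sl_sq_ii m 0 x) _ hx.1
  intro t ht
  exact pow_pos (sl_sq_pos ⟨by linarith only [ht.1], ht.2.trans hx.2⟩) m

theorem pin_sq_le_one (t : ℝ) : sq t ≤ 1 := by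
  unfold sq
  rw [Real.sqrt_le_left (by norm_num)]
  linarith only [sq_nonneg t]

/-- **(h3)** -/
theorem IsTrans.pin_h3 (hr : IsProf r) (h : IsTrans m r τ τ' T) (hx : x ∈ Ioo (0 : ℝ) 1) :
    sq x ^ m ≤ 1 + uf τ τ' x := by
  have h1 := h.pin_cyl hr hx
  have h2 := uf_pos h hx
  have h3 : (∫ t in (0 : ℝ)..x, sq t ^ m) ≤ x := by
    have h4 := intervalIntegral.integral_mono_on hx.1.le (sl_sq_ii m 0 x)
      (intervalIntegrable_const (c := (1 : ℝ)))
      (fun t _ => pow_le_one₀ (sl_sq_nonneg t) (pin_sq_le_one t))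
    simpa only [ge_iff_le, intervalIntegral.integral_const, sub_zero, smul_eq_mul, mul_one] using h4
  have h4 := mul_le_mul_of_nonneg_left h3 h2.le
  have hx0 := hx.1
  (by_contra nlg; linarith only [nlg, mul_pos (sub_pos.2 (not_le.1 nlg)) (sub_pos.2 hx0), h4, h1])

theorem pin_sq_sq {t : ℝ} (ht : t ∈ Icc (0 : ℝ) 1) : sq t ^ 2 = 1 - t ^ 2 := trn_sq_sq ht

theorem pin_sq_le {t : ℝ} (ht : t ∈ Icc (0 : ℝ) 1) : sq t ≤ 1 - t ^ 2 / 2 := by
  have h1 := pin_sq_sq ht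
  have h2 := sl_sq_nonneg t
  have h3 : t ^ 2 ≤ 1 := by nlinarith only [h1]
  nlinarith only [h1]

theorem pin_int_poly (n : ℕ) (c : ℕ → ℝ) (x : ℝ) :
    ∫ t in (0 : ℝ)..x, ∑ i ∈ range n, c i * (t ^ 2) ^ i =
      x * ∑ i ∈ range n, c i * (x ^ 2) ^ i / (2 * i + 1) := by
  have h1 : ∀ t : ℝ, ∑ i ∈ range n, c i * (t ^ 2) ^ i = ∑ i ∈ range n, c i * t ^ (2 * i) := by
    intro t
    simp only [pow_mul]
  simp only [h1]
  rw [intervalIntegral.integral_finsetSum]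
  · rw [Finset.mul_sum]
    refine Finset.sum_congr rfl fun i _ => ?_
    rw [intervalIntegral.integral_const_mul, integral_pow]
    push_cast
    rw [pow_succ]
    ring
  · intro i _
    exact (by fun_prop : Continuous fun t : ℝ => c i * t ^ (2 * i)).intervalIntegrable _ _

theorem pin_P_ge (n : ℕ) (c : ℕ → ℝ) (hx0 : 0 ≤ x)
    (hle : ∀ t ∈ Icc 0 x, ∑ i ∈ range n, c i * (t ^ 2) ^ i ≤ sq t ^ m) :
    x * ∑ i ∈ range n, c i * (x ^ 2) ^ i / (2 * i + 1) ≤ ∫ t in (0 : ℝ)..x, sq t ^ m := by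
  rw [← pin_int_poly]
  exact intervalIntegral.integral_mono_on hx0
    ((by fun_prop : Continuous fun t : ℝ => ∑ i ∈ range n, c i * (t ^ 2) ^ i).intervalIntegrable _ _)
    (sl_sq_ii m 0 x) hle

theorem pin_P_le (n : ℕ) (c : ℕ → ℝ) (hx0 : 0 ≤ x)
    (hle : ∀ t ∈ Icc 0 x, sq t ^ m ≤ ∑ i ∈ range n, c i * (t ^ 2) ^ i) :
    (∫ t in (0 : ℝ)..x, sq t ^ m) ≤ x * ∑ i ∈ range n, c i * (x ^ 2) ^ i / (2 * i + 1) := by
  rw [← pin_int_poly]
  exact intervalIntegral.integral_mono_on hx0 (sl_sq_ii m 0 x)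
    ((by fun_prop : Continuous fun t : ℝ => ∑ i ∈ range n, c i * (t ^ 2) ^ i).intervalIntegrable _ _)
    hle

/-- **(h3)** for `m = 5` -/
theorem IsTrans.pin_h3_five (hr : IsProf r) (h : IsTrans 5 r τ τ' T) (hx : x ∈ Ioo (0 : ℝ) 1)
    (hz : x ^ 2 ≤ 14 / 25) : sq x ^ 4 ≤ 1 + uf τ τ' x := by
  have h1 := h.pin_cyl hr hx
  have h2 := uf_pos h hx
  have hs := sl_sq_pos (mem_neg hx)
  have h3 : (∫ t in (0 : ℝ)..x, sq t ^ 5) ≤ x * sq x := by
    have h4 := pin_P_le (m := 5) (x := x) 4 (fun i => ([1, -5 / 2, 2, -1 / 2] : List ℝ).getD i 0)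
      hx.1.le (by
        intro t ht
        have ht' : t ∈ Icc (0 : ℝ) 1 := ⟨ht.1, ht.2.trans hx.2.le⟩
        have e1 := pin_sq_sq ht'
        have e2 := pin_sq_le ht'
        have e3 : sq t ^ 5 = (1 - t ^ 2) ^ 2 * sq t := by rw [← e1]; ring
        rw [e3]
        simp only [Finset.sum_range_succ, Finset.sum_range_zero, List.getD_cons_zero,
          List.getD_cons_succ]
        have e4 := mul_le_mul_of_nonneg_left e2 (sq_nonneg (1 - t ^ 2))
        linarith only [e4])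
    simp only [Finset.sum_range_succ, Finset.sum_range_zero, List.getD_cons_zero,
      List.getD_cons_succ] at h4
    refine h4.trans (mul_le_mul_of_nonneg_left ?_ hx.1.le)
    have e1 := pin_sq_sq (Ioo_subset_Icc_self hx)
    have hz0 : 0 < x ^ 2 := by have := hx.1; positivity
    set z := x ^ 2
    refine (le_abs_self _).trans (abs_le_of_sq_le_sq ?_ hs.le)
    rw [e1]
    push_cast
    have g1 : 0 ≤ 2 / 3 - 269 / 180 * z + 17 / 21 * z ^ 2 - 293 / 1050 * z ^ 3 := by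
      nlinarith only [hz]
    have g2 : 0 ≤ z ^ 4 * (2 / 35 - z / 196) := by
      apply mul_nonneg (by (clear * - hz0; positivity))
      linarith only [hz]
    nlinarith only [hz0, g1, g2]
  have h4 := mul_le_mul_of_nonneg_left h3 h2.le
  have hx0 := hx.1
  have h5 : x * sq x ^ 5 ≤ (1 + uf τ τ' x) * (x * sq x) := h1.trans h4
  have h6 : (x * sq x) * sq x ^ 4 ≤ (x * sq x) * (1 + uf τ τ' x) := by linarith only [h1, h4]
  exact le_of_mul_le_mul_left h6 (by positivity)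

/-- the tail of the ball law -/
theorem pin_tail (m : ℕ) (hx : x ∈ Ioo (0 : ℝ) 1) :
    x * sq x ^ (m + 2) ≤ (((m : ℝ) + 1) * x ^ 2 + 1) * ∫ t in x..1, sq t ^ m := by
  have hD : ∀ t : ℝ, 0 < ((m : ℝ) + 1) * t ^ 2 + 1 := fun t => by positivity
  have hder : ∀ t ∈ Ioo x 1, HasDerivAt
      (fun t : ℝ => -(t * sq t ^ (m + 2) / (((m : ℝ) + 1) * t ^ 2 + 1)))
      (-(((1 * sq t ^ (m + 2) + t * (((m : ℝ) + 2) * sq t ^ (m + 1) * (-(t / sq t)))) *
        (((m : ℝ) + 1) * t ^ 2 + 1) - t * sq t ^ (m + 2) * (((m : ℝ) + 1) * (2 * t))) /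
        (((m : ℝ) + 1) * t ^ 2 + 1) ^ 2)) t := by
    intro t ht
    have ht1 : t ∈ Ioo (0 : ℝ) 1 := ⟨hx.1.trans ht.1, ht.2⟩
    have hs := sl_sq_pos (mem_neg ht1)
    have d1 : HasDerivAt sq (-(t / sq t)) t := by
      have h0 : 0 < 1 - t ^ 2 := by nlinarith only [ht1.1, ht1.2]
      have e2 : HasDerivAt (fun y : ℝ => 1 - y ^ 2) (-(2 * t)) t := by
        have := (hasDerivAt_pow 2 t).const_sub 1
        refine this.congr_deriv ?_
        simp only [Nat.cast_ofNat, Nat.add_one_sub_one, pow_one]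
      have e3 := e2.sqrt h0.ne'
      refine e3.congr_deriv ?_
      unfold sq
      (clear * - h0; field_simp)
    have d2 := d1.pow (m + 2)
    have d3 : HasDerivAt (fun t : ℝ => sq t ^ (m + 2))
        (((m : ℝ) + 2) * sq t ^ (m + 1) * (-(t / sq t))) t := by
      refine d2.congr_deriv ?_
      push_cast
      rfl
    have d4 := (hasDerivAt_id t).mul d3
    have d5 : HasDerivAt (fun t : ℝ => ((m : ℝ) + 1) * t ^ 2 + 1) (((m : ℝ) + 1) * (2 * t)) t := by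
      have := ((hasDerivAt_pow 2 t).const_mul ((m : ℝ) + 1)).add_const 1
      refine this.congr_deriv ?_
      simp only [Nat.cast_ofNat, Nat.add_one_sub_one, pow_one]
    exact (d4.div d5 (hD t).ne').neg
  have hcont : Continuous fun t : ℝ => -(t * sq t ^ (m + 2) / (((m : ℝ) + 1) * t ^ 2 + 1)) := by
    have := sl_sq_cont
    refine Continuous.neg (Continuous.div (by fun_prop) (by fun_prop) fun t => (hD t).ne')
  have hle : ∀ t ∈ Ioo x 1, -(((1 * sq t ^ (m + 2) + t * (((m : ℝ) + 2) * sq t ^ (m + 1) *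
      (-(t / sq t)))) * (((m : ℝ) + 1) * t ^ 2 + 1) - t * sq t ^ (m + 2) *
      (((m : ℝ) + 1) * (2 * t))) / (((m : ℝ) + 1) * t ^ 2 + 1) ^ 2) ≤ sq t ^ m := by
    intro t ht
    have ht1 : t ∈ Ioo (0 : ℝ) 1 := ⟨hx.1.trans ht.1, ht.2⟩
    have hs := sl_sq_pos (mem_neg ht1)
    have e1 := pin_sq_sq (Ioo_subset_Icc_self ht1)
    have e2 : sq t ^ (m + 1) * (-(t / sq t)) = -(t * sq t ^ m) := by
      rw [pow_succ]
      (clear * - hs; field_simp)
    have e3 : t * (((m : ℝ) + 2) * sq t ^ (m + 1) * (-(t / sq t))) =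
        -(((m : ℝ) + 2) * t ^ 2 * sq t ^ m) := by
      linear_combination (t * ((m : ℝ) + 2)) * e2
    rw [e3, ← neg_div, div_le_iff₀ (by (clear * -; positivity)), pow_add, e1]
    have hm0 : (0 : ℝ) ≤ m := Nat.cast_nonneg m
    have e4 : sq t ^ m * (((m : ℝ) + 1) * t ^ 2 + 1) ^ 2 -
        -((1 * (sq t ^ m * (1 - t ^ 2)) + -(((m : ℝ) + 2) * t ^ 2 * sq t ^ m)) *
        (((m : ℝ) + 1) * t ^ 2 + 1) - t * (sq t ^ m * (1 - t ^ 2)) * (((m : ℝ) + 1) * (2 * t))) =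
        sq t ^ m * (2 * (1 - t ^ 2)) := by ring
    have e5 : 0 ≤ sq t ^ m * (2 * (1 - t ^ 2)) := by
      rw [← e1]
      (clear * - hs; positivity)
    linarith only [e5]
  have key := intervalIntegral.sub_le_integral_of_hasDeriv_right_of_le hx.2.le hcont.continuousOn
    (fun t ht => (hder t ht).hasDerivWithinAt)
    (((sl_sq_cont.pow m : Continuous fun t => sq t ^ m)).continuousOn.integrableOn_Icc) hle
  have e1 : sq (1 : ℝ) = 0 := by unfold sq; simp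
  rw [e1] at key
  simp only [zero_pow (by omega : m + 2 ≠ 0), mul_zero, zero_div, neg_zero, zero_sub,
    neg_neg] at key
  rw [div_le_iff₀ (hD x)] at key
  simp only [Pi.pow_apply] at key
  linarith only [key]

/-- **(h5)** -/
theorem IsTrans.pin_h5 (hm : 1 ≤ m) (hr : IsProf r) (h : IsTrans m r τ τ' T)
    (hx : x ∈ Ioo (0 : ℝ) 1) :
    (1 + (1 + uf τ τ' x) * sq x ^ 2 / (((m : ℝ) + 2) - ((m : ℝ) + 1) * sq x ^ 2)) *
      (x * Real.exp (lf τ x)) ≤ 1 := by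
  rw [pin_exp h hx]
  have hτ := h.mem x hx
  have hp := h.pos x hx
  have hs := sl_sq_pos (mem_neg hx)
  have e1 := pin_sq_sq (Ioo_subset_Icc_self hx)
  have h1 := h.slope_tail hm hr x hx
  have h2 := pin_tail m hx
  have e2 : ((m : ℝ) + 2) - ((m : ℝ) + 1) * sq x ^ 2 = ((m : ℝ) + 1) * x ^ 2 + 1 := by
    rw [e1]; ring
  rw [e2]
  have hD : 0 < ((m : ℝ) + 1) * x ^ 2 + 1 := by (clear * - hm; positivity)
  set D := ((m : ℝ) + 1) * x ^ 2 + 1
  have h3 : τ' x * x * sq x ^ 2 ≤ D * (1 - τ x) := by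
    have h4 : (τ' x * x * sq x ^ 2) * sq x ^ m ≤ (D * (1 - τ x)) * sq x ^ m := by
      calc (τ' x * x * sq x ^ 2) * sq x ^ m = τ' x * (x * sq x ^ (m + 2)) := by ring
        _ ≤ τ' x * (D * ∫ t in x..1, sq t ^ m) := mul_le_mul_of_nonneg_left h2 hp.le
        _ = D * (τ' x * ∫ t in x..1, sq t ^ m) := by ring
        _ ≤ D * ((1 - τ x) * sq x ^ m) := mul_le_mul_of_nonneg_left h1 hD.le
        _ = _ := by ring
    exact le_of_mul_le_mul_right h4 (pow_pos hs m)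
  have h4 : (1 + (1 + uf τ τ' x) * sq x ^ 2 / D) * τ x = τ x + (τ' x * x * sq x ^ 2) / D := by
    rw [pin_E]
    have := hτ.1.ne'
    (clear * - hD this; field_simp)
  rw [h4]
  have h5 : (τ' x * x * sq x ^ 2) / D ≤ 1 - τ x := by
    rw [div_le_iff₀ hD]
    linarith only [h3]
  linarith only [h5]

/-- comparison with the cone -/
theorem IsTrans.pin_cone (hr : IsProf r) (h : IsTrans m r τ τ' T) (hx : x ∈ Ioo (0 : ℝ) 1) :
    (1 - τ x) ^ (m + 1) * (∫ t in (0 : ℝ)..1, sq t ^ m) ≤ ∫ t in x..1, sq t ^ m := by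
  have hτ := h.mem x hx
  have hI := sl_V_pos m hr (y := 0) ⟨le_rfl, zero_lt_one⟩
  have hZ := sl_q_pos m (x := 0) ⟨le_rfl, zero_lt_one⟩
  have h1 := h.sl_mass hr hx
  set a := τ x
  have ha : 0 < 1 - a := by linarith [hτ.2]
  have e1 : (1 - a) • (∫ v in (0 : ℝ)..1, r (a + (1 - a) * v) ^ m) = ∫ t in a..1, r t ^ m := by
    have := intervalIntegral.smul_integral_comp_add_mul (a := (0 : ℝ)) (b := 1)
      (fun t => r t ^ m) (1 - a) a
    rw [this]
    congr 1 <;> ring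
  have hmem : ∀ v ∈ Icc (0 : ℝ) 1, a + (1 - a) * v ∈ Icc (0 : ℝ) 1 := by
    intro v hv
    constructor
    · nlinarith only [ha, hτ.1, hv.1]
    · linarith only [mul_nonneg (le_of_lt (sub_pos.2 ha)) (sub_nonneg.2 hv.2)]
  have hanti : AntitoneOn (fun v => r (a + (1 - a) * v) ^ m) (Icc 0 1) := by
    intro v hv w hw hvw
    refine pow_le_pow_left₀ (prof_nn hr (hmem w hw)) ?_ m
    exact prof_anti hr (hmem v hv) (hmem w hw) (by nlinarith only [ha, hvw])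
  have h2 : (1 - a) ^ m * (∫ v in (0 : ℝ)..1, r v ^ m) ≤
      ∫ v in (0 : ℝ)..1, r (a + (1 - a) * v) ^ m := by
    rw [← intervalIntegral.integral_const_mul]
    apply intervalIntegral.integral_mono_on zero_le_one
    · exact (prof_pow_ii hr m ⟨le_rfl, zero_le_one⟩ ⟨zero_le_one, le_rfl⟩).const_mul _
    · exact AntitoneOn.intervalIntegrable (by rwa [Set.uIcc_of_le zero_le_one])
    · intro v hv
      rw [← mul_pow]
      refine pow_le_pow_left₀ (mul_nonneg ha.le (prof_nn hr hv)) ?_ m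
      have m1 : v ∈ Icc (-1 : ℝ) 1 := ⟨by linarith [hv.1], hv.2⟩
      have m2 : (1 : ℝ) ∈ Icc (-1 : ℝ) 1 := ⟨by norm_num, le_rfl⟩
      have hc := hr.conc.2 m1 m2 ha.le hτ.1.le (by ring)
      simp only [smul_eq_mul, mul_one] at hc
      have h3 := mul_nonneg hτ.1.le hr.nonneg
      have e : (1 - a) * v + a = a + (1 - a) * v := by ring
      rw [e] at hc
      linarith only [hc, h3]
  rw [smul_eq_mul] at e1
  have h4 : (1 - a) ^ (m + 1) * (∫ v in (0 : ℝ)..1, r v ^ m) ≤ ∫ t in a..1, r t ^ m := by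
    rw [← e1, pow_succ']
    have := mul_le_mul_of_nonneg_left h2 ha.le
    linarith only [this]
  have h5 := mul_le_mul_of_nonneg_right h4 hZ.le
  rw [h1] at h5
  have h6 : ((1 - a) ^ (m + 1) * (∫ t in (0 : ℝ)..1, sq t ^ m)) * (∫ v in (0 : ℝ)..1, r v ^ m) ≤
      (∫ t in x..1, sq t ^ m) * (∫ v in (0 : ℝ)..1, r v ^ m) := by linarith only [h5]
  exact le_of_mul_le_mul_right h6 hI

theorem pin_split (m : ℕ) (x : ℝ) : (∫ t in (0 : ℝ)..x, sq t ^ m) + ∫ t in x..1, sq t ^ m =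
    ∫ t in (0 : ℝ)..1, sq t ^ m :=
  intervalIntegral.integral_add_adjacent_intervals (sl_sq_ii m 0 x) (sl_sq_ii m x 1)

/-- `x ≤ (m+1) τ` -/
theorem IsTrans.pin_tau_ge (hr : IsProf r) (h : IsTrans m r τ τ' T) (hx : x ∈ Ioo (0 : ℝ) 1) :
    x ≤ ((m : ℝ) + 1) * τ x := by
  have hτ := h.mem x hx
  have hZ := sl_q_pos m (x := 0) ⟨le_rfl, zero_lt_one⟩
  have h1 := h.pin_cone hr hx
  have h2 := pin_split m x
  have h3 := one_add_mul_le_pow (a := -τ x) (by linarith [hτ.2]) (m + 1)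
  have h4 := (trGood_sq m).avg (Ioo_subset_Icc_self hx)
  have h5 : x * (∫ t in (0 : ℝ)..1, sq t ^ m) ≤ ∫ t in (0 : ℝ)..x, sq t ^ m := h4
  have h6 : (1 + ((m + 1 : ℕ) : ℝ) * -τ x) * (∫ t in (0 : ℝ)..1, sq t ^ m) ≤
      (1 - τ x) ^ (m + 1) * (∫ t in (0 : ℝ)..1, sq t ^ m) := by
    apply mul_le_mul_of_nonneg_right _ hZ.le
    have e : (1 - τ x) ^ (m + 1) = (1 + -τ x) ^ (m + 1) := by ring
    rw [e]
    exact h3
  push_cast at h6
  have h7 : x * (∫ t in (0 : ℝ)..1, sq t ^ m) ≤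
      (((m : ℝ) + 1) * τ x) * ∫ t in (0 : ℝ)..1, sq t ^ m := by linarith only [h1, h2, h5, h6]
  exact le_of_mul_le_mul_right h7 hZ

theorem pin_exp_ge (c : ℝ) (hc : 0 ≤ c) : 1 + c + c ^ 2 / 2 + c ^ 3 / 6 + c ^ 4 / 24 +
    c ^ 5 / 120 + c ^ 6 / 720 + c ^ 7 / 5040 ≤ Real.exp c := by
  have h := Real.sum_le_exp_of_nonneg hc 8
  simp only [Finset.sum_range_succ, Finset.sum_range_zero, Nat.factorial] at h
  norm_num at h
  linarith

/-- **(h6)** -/
theorem IsTrans.pin_h6 (hm : 5 ≤ m) (hr : IsProf r) (h : IsTrans m r τ τ' T)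
    (hx : x ∈ Ioo (0 : ℝ) 1) : -(9 / 25 * (m : ℝ)) ≤ lf τ x := by
  have hτ := h.mem x hx
  have h1 := h.pin_tau_ge hr hx
  have hm' : (5 : ℝ) ≤ m := by exact_mod_cast hm
  have h2 : 1 / ((m : ℝ) + 1) ≤ τ x / x := by
    rw [div_le_div_iff₀ (by positivity) hx.1]
    linarith only [h1]
  have h3 : Real.log (1 / ((m : ℝ) + 1)) ≤ lf τ x := by
    unfold lf
    exact Real.log_le_log (by positivity) h2
  rw [one_div, Real.log_inv] at h3
  have h4 : Real.log ((m : ℝ) + 1) ≤ 9 / 25 * m := by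
    have e : (m : ℝ) + 1 = 6 * (((m : ℝ) + 1) / 6) := by ring
    rw [e, Real.log_mul (by norm_num) (by positivity)]
    have h5 := Real.log_le_sub_one_of_pos (x := ((m : ℝ) + 1) / 6) (by positivity)
    have h6 : Real.log 6 ≤ 9 / 5 := by
      rw [Real.log_le_iff_le_exp (by norm_num)]
      have := pin_exp_ge (9 / 5) (by norm_num)
      norm_num at this
      linarith only [this]
    linarith only [hm', h5, h6]
  linarith only [h3, h4]

/-- lower bound for `l` at a point -/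
theorem IsTrans.pin_ge_of (hr : IsProf r) (h : IsTrans m r τ τ' T) (hx : x ∈ Ioo (0 : ℝ) 1)
    {c ρ Q : ℝ} (hρ : 0 ≤ ρ) (hQ : Q < ρ ^ (m + 1))
    (hP : (1 - Q) * (∫ t in (0 : ℝ)..1, sq t ^ m) ≤ ∫ t in (0 : ℝ)..x, sq t ^ m)
    (hc : x ≤ (1 - ρ) * Real.exp c) : -c ≤ lf τ x := by
  by_contra hcon
  push Not at hcon
  have hτ := h.mem x hx
  have hZ := sl_q_pos m (x := 0) ⟨le_rfl, zero_lt_one⟩
  have h1 := h.pin_cone hr hx
  have h2 := pin_split m x
  have h3 : τ x < 1 - ρ := by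
    rw [← pin_exp h hx]
    have h4 : Real.exp (lf τ x) < Real.exp (-c) := Real.exp_lt_exp.2 hcon
    calc x * Real.exp (lf τ x) < x * Real.exp (-c) := mul_lt_mul_of_pos_left h4 hx.1
      _ ≤ ((1 - ρ) * Real.exp c) * Real.exp (-c) :=
          mul_le_mul_of_nonneg_right hc (Real.exp_pos _).le
      _ = 1 - ρ := by rw [mul_assoc, ← Real.exp_add]; simp
  have h5 : ρ ^ (m + 1) ≤ (1 - τ x) ^ (m + 1) := pow_le_pow_left₀ hρ (by linarith only [h3]) _
  have h6 : Q * (∫ t in (0 : ℝ)..1, sq t ^ m) < (1 - τ x) ^ (m + 1) *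
      ∫ t in (0 : ℝ)..1, sq t ^ m := mul_lt_mul_of_pos_right (hQ.trans_le h5) hZ
  linarith only [hP, h1, h2, h6]

theorem pin_am (m : ℕ) : (∫ t in (0 : ℝ)..1, sq t ^ m) = Slope.am m := rfl

theorem pin_am_rec (m : ℕ) : Slope.am (m + 2) = ((m : ℝ) + 2) / ((m : ℝ) + 3) * Slope.am m := by
  rw [Slope.am_eq, Slope.am_eq, show m + 2 + 1 = (m + 1) + 2 by ring, Slope.J_zero_rec]
  push_cast
  ring_nf

theorem pin_am_zero : Slope.am 0 = 1 := by
  unfold Slope.am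
  simp

theorem pin_am_one : Slope.am 1 = Real.pi / 4 := by
  have h := Slope.J_wallis 1
  have e1 : Slope.J 1 0 = 1 := by
    rw [← Slope.am_eq 0, pin_am_zero]
  rw [e1] at h
  rw [Slope.am_eq 1]
  norm_num at h
  norm_num
  linarith

/-- slope bound, form `u s ≤ k x` -/
theorem IsTrans.pin_h4 (hm : 3 ≤ m) (hr : IsProf r) (h : IsTrans m r τ τ' T)
    (hx : x ∈ Ioo (0 : ℝ) 1) :
    uf τ τ' x * sq x ≤ (m : ℝ) / (2 * ((m : ℝ) + 1) * Slope.am m) * x := by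
  have hτ := h.mem x hx
  have hs := sl_sq_pos (mem_neg hx)
  have hA := Slope.am_pos m
  have hI := sl_V_pos m hr (y := 0) ⟨le_rfl, zero_lt_one⟩
  have hR : 0 < r (τ x) := hr.pos (τ x) ⟨by linarith only [hτ.1], hτ.2⟩
  have h1 := Slope.slope_two m hm (hr.conc.subset (Icc_subset_Icc (by norm_num) le_rfl)
    (convex_Icc 0 1)) (prof_anti hr) (fun t ht => prof_nn hr ht) hτ.1 hτ.2 hx.1 hx.2 (h.mass x hx)
  have h2 := h.eqn x hx
  rw [pin_am] at h2
  set k := (m : ℝ) / (2 * ((m : ℝ) + 1) * Slope.am m)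
  change x * sq x ^ m * (∫ t in (0:ℝ)..1, r t ^ m) ≤ (1 + k * x / sq x) *
    (Slope.am m * τ x * r (τ x) ^ m) at h1
  have h3 : (1 + uf τ τ' x) * (Slope.am m * τ x * r (τ x) ^ m) =
      x * sq x ^ m * (∫ t in (0:ℝ)..1, r t ^ m) := by
    rw [pin_E]
    have := hτ.1.ne'
    field_simp
    linear_combination x * h2
  rw [← h3] at h1
  have h4 := le_of_mul_le_mul_right h1 (by have := hτ.1; (clear * - hA this hR; positivity))
  have h5 : uf τ τ' x ≤ k * x / sq x := by linarith only [h4]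
  rwa [le_div_iff₀ hs] at h5

/-- slope bound, form `u s ≤ 1` -/
theorem IsTrans.pin_slope_one (hr : IsProf r) (h : IsTrans m r τ τ' T)
    (hx : x ∈ Ioo (0 : ℝ) 1) : uf τ τ' x * sq x ≤ 1 := by
  have hτ := h.mem x hx
  have hs := sl_sq_pos (mem_neg hx)
  have hA := Slope.am_pos m
  have hI := sl_V_pos m hr (y := 0) ⟨le_rfl, zero_lt_one⟩
  have hR : 0 < r (τ x) := hr.pos (τ x) ⟨by linarith [hτ.1], hτ.2⟩
  have h1 := Slope.slope_one m (hr.conc.subset (Icc_subset_Icc (by norm_num) le_rfl)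
    (convex_Icc 0 1)) (prof_anti hr) (fun t ht => prof_nn hr ht) hτ.1 hτ.2 hx.1 hx.2 (h.mass x hx)
  have h2 := h.eqn x hx
  rw [pin_am] at h2
  change x * sq x ^ m * (∫ t in (0:ℝ)..1, r t ^ m) ≤ (1 + 1 / sq x) *
    (Slope.am m * τ x * r (τ x) ^ m) at h1
  have h3 : (1 + uf τ τ' x) * (Slope.am m * τ x * r (τ x) ^ m) =
      x * sq x ^ m * (∫ t in (0:ℝ)..1, r t ^ m) := by
    rw [pin_E]
    have := hτ.1.ne'
    field_simp
    linear_combination x * h2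
  rw [← h3] at h1
  have h4 := le_of_mul_le_mul_right h1 (by have := hτ.1; (clear * - hA this hR; positivity))
  have h5 : uf τ τ' x ≤ 1 / sq x := by linarith only [h4]
  rwa [le_div_iff₀ hs] at h5

end

end Vale.Agent.P237.AllN
end

section

/-!
# P237, all dimensions: the correction term in terms of `sq`, `bg` (input (h8))
-/

set_option linter.all false

namespace Vale.Agent.P237.AllN.Corr

open PolyPos Real

/-! ## the statements in terms of `sq`, `bg` -/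

theorem Fc_bg {x l : ℝ} (hx0 : 0 < x) (hx1 : x < 1) :
    sq x * (bg (x * exp l) - bg x) + x ^ 2 * l / (1 + sq x) ^ 2 = Fc (sq x) (sq (x * exp l)) l := by
  have h0 : 0 ≤ sq x := Real.sqrt_nonneg _
  have h1 : sq x ^ 2 = 1 - x ^ 2 := Real.sq_sqrt (by nlinarith)
  have h2 : x ^ 2 * l / (1 + sq x) ^ 2 = (1 - sq x) / (1 + sq x) * l := by
    have : x ^ 2 = (1 - sq x) * (1 + sq x) := by linarith
    rw [this]
    (clear * - h0; field_simp)
  rw [h2]
  rfl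

theorem sq_facts {x l : ℝ} (hx0 : 0 < x) (hx1 : x < 1) (h : x * exp l ≤ 1) :
    0 < sq x ∧ sq x < 1 ∧ x ^ 2 = 1 - sq x ^ 2 ∧ 0 ≤ sq (x * exp l) ∧
      sq (x * exp l) ^ 2 = 1 - x ^ 2 * exp (2 * l) := by
  have h1 : sq x ^ 2 = 1 - x ^ 2 := Real.sq_sqrt (by nlinarith)
  have h2 : 0 < sq x := Real.sqrt_pos.2 (by nlinarith only [hx1, hx0])
  have h3 : 0 < x * exp l := by positivity
  refine ⟨h2, ?_, by linarith only [h1], Real.sqrt_nonneg _, ?_⟩
  · nlinarith only [h1, hx0]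
  · have e : exp (2 * l) = exp l ^ 2 := by rw [← exp_nat_mul]; norm_num
    rw [sq, Real.sq_sqrt (by nlinarith only [h, h3]), e]
    ring

/-- **(A)** `x² ≤ 3/7`, `l ≤ s² (31/50 + 7/50 x²)` (also negative `l`) -/
theorem corr_A {x l : ℝ} (hx0 : 0 < x) (hx : x ^ 2 ≤ 3 / 7) (h1 : x * exp l ≤ 1)
    (hl : l ≤ sq x ^ 2 * (31 / 50 + 7 / 50 * x ^ 2)) :
    -((2 / 5 + 13 * x ^ 2 / 20 + 22 * (x ^ 2) ^ 3 / 5) * (x ^ 2 / sq x ^ 2)) * l ^ 2 ≤
      sq x * (bg (x * exp l) - bg x) + x ^ 2 * l / (1 + sq x) ^ 2 := by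
  have hx1 : x < 1 := by nlinarith only [hx]
  obtain ⟨a1, a2, a3, a4, a5⟩ := sq_facts hx0 hx1 h1
  have h := corrA a1 a2 a3 hx a4 a5 (l := l) (by rw [show (1 : ℝ) - x ^ 2 = sq x ^ 2 by linarith only [a3]]; exact hl)
  rw [Fc_bg hx0 hx1, neg_mul]
  exact h

/-- **(B)** `3/7 ≤ x²` -/
theorem corr_B {x l : ℝ} (hx0 : 0 < x) (hx1 : x < 1) (hx : 3 / 7 ≤ x ^ 2) (h1 : x * exp l ≤ 1) :
    -(2 * (x ^ 2 / sq x ^ 2)) * l ^ 2 ≤
      sq x * (bg (x * exp l) - bg x) + x ^ 2 * l / (1 + sq x) ^ 2 := by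
  obtain ⟨a1, a2, a3, a4, a5⟩ := sq_facts hx0 hx1 h1
  have h := corrB a1 a2 a3 hx a4 a5 (l := l)
  rw [Fc_bg hx0 hx1, neg_mul]
  exact h

/-- **(C)** `3/7 ≤ x²`, `(1 + s²/(16-15 s²)) x e^l ≤ 1` -/
theorem corr_C {x l : ℝ} (hx0 : 0 < x) (hx1 : x < 1) (hx : 3 / 7 ≤ x ^ 2)
    (hτ : (1 + sq x ^ 2 / (16 - 15 * sq x ^ 2)) * (x * exp l) ≤ 1) :
    -(3 / 2 * (x ^ 2 / sq x ^ 2)) * l ^ 2 ≤
      sq x * (bg (x * exp l) - bg x) + x ^ 2 * l / (1 + sq x) ^ 2 := by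
  have hs1 : sq x ^ 2 = 1 - x ^ 2 := Real.sq_sqrt (by (clear * - hx1 hx0; nlinarith))
  have hq : 0 ≤ sq x ^ 2 / (16 - 15 * sq x ^ 2) := by
    apply div_nonneg (by positivity); nlinarith only [hs1]
  have hxl : 0 < x * exp l := by positivity
  have h1 : x * exp l ≤ 1 := by nlinarith only [hτ, hq]
  obtain ⟨a1, a2, a3, a4, a5⟩ := sq_facts hx0 hx1 h1
  have h := corrC a1 a2 a3 hx a4 a5 (l := l) (by
    have e : exp (2 * l) = exp l ^ 2 := by rw [← exp_nat_mul]; norm_num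
    rw [e]
    have h3 : 0 ≤ (1 + sq x ^ 2 / (16 - 15 * sq x ^ 2)) * (x * exp l) := by (clear * - hq hx0; positivity)
    calc (1 + sq x ^ 2 / (16 - 15 * sq x ^ 2)) ^ 2 * (x ^ 2 * exp l ^ 2) =
          ((1 + sq x ^ 2 / (16 - 15 * sq x ^ 2)) * (x * exp l)) ^ 2 := by ring
      _ ≤ 1 := by nlinarith only [hτ, h3])
  rw [Fc_bg hx0 hx1, neg_mul]
  exact h

end Vale.Agent.P237.AllN.Corr
end

section

/-!
# P237, all dimensions: a priori bound for the transport under the constraint `N ≤ N_B`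

Two single-crossing arguments. (1) Among the concave profiles with a given value at `0`, the ratio
`(∫ r^(m-1))^m / (∫ r^m)^(m-1)` is minimal for the profile which is constant and then linear down
to `0` at `1`. (2) Among the concave profiles with a given value at `0` and a given mass, the linear
one has the largest tails.
-/

open MeasureTheory Metric Set Module Filter Topology

namespace Vale.Agent.P237.AllN

/-! ### The function `W` -/

/-- auxiliary function, `m = k + 2` -/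
noncomputable def apW (k : ℕ) (r0 ρ : ℝ) : ℝ :=
  ((k : ℝ) + 2) ^ 2 * r0 * ρ ^ (k + 1) - (((k : ℝ) + 2) ^ 2 - 1) * ρ ^ (k + 2)

theorem apW_hasDerivAt (k : ℕ) (r0 ρ : ℝ) : HasDerivAt (apW k r0)
    (((k : ℝ) + 2) * ((k : ℝ) + 1) * ρ ^ k * (((k : ℝ) + 2) * r0 - ((k : ℝ) + 3) * ρ)) ρ := by
  unfold apW
  have h1 := ((hasDerivAt_pow (k + 1) ρ).const_mul (((k : ℝ) + 2) ^ 2 * r0)).sub
    ((hasDerivAt_pow (k + 2) ρ).const_mul (((k : ℝ) + 2) ^ 2 - 1))
  refine h1.congr_deriv ?_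
  have e1 : k + 1 - 1 = k := by omega
  have e2 : k + 2 - 1 = k + 1 := by omega
  rw [e1, e2]
  push_cast
  ring

theorem apW_cont (k : ℕ) (r0 : ℝ) : Continuous (apW k r0) :=
  continuous_iff_continuousAt.2 fun x => (apW_hasDerivAt k r0 x).continuousAt

theorem apW_mono {k : ℕ} {r0 a b : ℝ} (ha : 0 ≤ a) (hab : a ≤ b)
    (hb : ((k : ℝ) + 3) * b ≤ ((k : ℝ) + 2) * r0) : apW k r0 a ≤ apW k r0 b := by
  have h : MonotoneOn (apW k r0) (Icc a b) := by
    apply monotoneOn_of_deriv_nonneg (convex_Icc a b) (apW_cont k r0).continuousOn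
    · exact fun x _ => (apW_hasDerivAt k r0 x).differentiableAt.differentiableWithinAt
    · intro x hx
      rw [interior_Icc] at hx
      rw [(apW_hasDerivAt k r0 x).deriv]
      have hx0 : 0 ≤ x := ha.trans hx.1.le
      have h1 : ((k : ℝ) + 3) * x ≤ ((k : ℝ) + 3) * b :=
        mul_le_mul_of_nonneg_left hx.2.le (by (clear * -; positivity))
      exact mul_nonneg (by positivity) (by linarith)
  exact h ⟨le_rfl, hab⟩ ⟨hab, le_rfl⟩ hab

theorem apW_anti {k : ℕ} {r0 a b : ℝ} (ha0 : 0 ≤ a)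
    (ha : ((k : ℝ) + 2) * r0 ≤ ((k : ℝ) + 3) * a) (hab : a ≤ b) :
    apW k r0 b ≤ apW k r0 a := by
  have h : AntitoneOn (apW k r0) (Icc a b) := by
    apply antitoneOn_of_deriv_nonpos (convex_Icc a b) (apW_cont k r0).continuousOn
    · exact fun x _ => (apW_hasDerivAt k r0 x).differentiableAt.differentiableWithinAt
    · intro x hx
      rw [interior_Icc] at hx
      rw [(apW_hasDerivAt k r0 x).deriv]
      have hx0 : 0 ≤ x := ha0.trans hx.1.le
      have h1 : ((k : ℝ) + 3) * a ≤ ((k : ℝ) + 3) * x :=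
        mul_le_mul_of_nonneg_left hx.1.le (by positivity)
      exact mul_nonpos_of_nonneg_of_nonpos (by positivity) (by linarith only [ha, h1])
  exact h ⟨le_rfl, hab⟩ ⟨hab, le_rfl⟩ hab

theorem apW_self (k : ℕ) (r0 : ℝ) : apW k r0 r0 = r0 ^ (k + 2) := by
  unfold apW
  ring

/-! ### Concavity -/

theorem ap_ratio {r : ℝ → ℝ} (hr : IsProf r) {y z : ℝ} (h0 : 0 ≤ y) (hyz : y ≤ z) (hz : z ≤ 1) :
    r y * (1 - z) ≤ r z * (1 - y) := by
  rcases eq_or_lt_of_le (hyz.trans hz) with h | h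
  · have h1 : y = 1 := h
    have h2 : z = 1 := le_antisymm hz (h1 ▸ hyz)
    rw [h1, h2]
  · have h1 : 0 < 1 - y := by linarith only [h]
    have ha : 0 ≤ (1 - z) / (1 - y) := div_nonneg (by linarith only [hz]) h1.le
    have hb : 0 ≤ (z - y) / (1 - y) := div_nonneg (by linarith only [hyz]) h1.le
    have hab : (1 - z) / (1 - y) + (z - y) / (1 - y) = 1 := by
      field_simp
      ring
    have hc := hr.conc.2 (show y ∈ Icc (-1 : ℝ) 1 from ⟨by linarith only [h0], by linarith only [hyz, hz]⟩)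
      (show (1 : ℝ) ∈ Icc (-1 : ℝ) 1 from ⟨by norm_num, le_rfl⟩) ha hb hab
    simp only [smul_eq_mul] at hc
    have e : (1 - z) / (1 - y) * y + (z - y) / (1 - y) * 1 = z := by
      field_simp
      ring
    rw [e] at hc
    have h2 : 0 ≤ (z - y) / (1 - y) * r 1 := mul_nonneg (div_nonneg (by linarith only [hyz]) h1.le) hr.nonneg
    have h3 : (1 - z) / (1 - y) * r y ≤ r z := by linarith only [hc, h2]
    have h4 := mul_le_mul_of_nonneg_right h3 h1.le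
    have e2 : (1 - z) / (1 - y) * r y * (1 - y) = r y * (1 - z) := by
      field_simp
    rw [e2] at h4
    exact h4

/-- the comparison profile -/
noncomputable def aph (r0 c y : ℝ) : ℝ := min r0 ((1 - y) / c)

theorem aph_cont (r0 c : ℝ) : Continuous (aph r0 c) := by
  unfold aph
  (clear * -; fun_prop)

theorem aph_int {r0 c : ℝ} (hr0 : 0 < r0) (hc : 0 < c) (hcr : c * r0 ≤ 1) (j : ℕ) :
    ∫ y in (0 : ℝ)..1, aph r0 c y ^ j =
      (1 - c * r0) * r0 ^ j + c * r0 ^ (j + 1) / ((j : ℝ) + 1) := by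
  have hcont : Continuous fun y => aph r0 c y ^ j := (aph_cont r0 c).pow j
  rw [← intervalIntegral.integral_add_adjacent_intervals (b := 1 - c * r0)
    (hcont.intervalIntegrable _ _) (hcont.intervalIntegrable _ _)]
  have hcr0 : 0 < c * r0 := mul_pos hc hr0
  congr 1
  · have h1 : EqOn (fun y => aph r0 c y ^ j) (fun _ => r0 ^ j) (uIcc 0 (1 - c * r0)) := by
      intro y hy
      rw [uIcc_of_le (by linarith only [hcr])] at hy
      show aph r0 c y ^ j = r0 ^ j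
      unfold aph
      rw [min_eq_left]
      rw [le_div_iff₀ hc]
      linarith only [hy.2]
    rw [intervalIntegral.integral_congr h1, intervalIntegral.integral_const, smul_eq_mul]
    ring
  · have h1 : EqOn (fun y => aph r0 c y ^ j) (fun y => (fun x => (x / c) ^ j) (1 - y))
        (uIcc (1 - c * r0) 1) := by
      intro y hy
      rw [uIcc_of_le (by linarith only [hcr0])] at hy
      show aph r0 c y ^ j = ((1 - y) / c) ^ j
      unfold aph
      rw [min_eq_right]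
      rw [div_le_iff₀ hc]
      nlinarith only [hy.1]
    rw [intervalIntegral.integral_congr h1, intervalIntegral.integral_comp_sub_left
      (fun x => (x / c) ^ j) 1]
    have e1 : (1 : ℝ) - 1 = 0 := by ring
    have e2 : (1 : ℝ) - (1 - c * r0) = c * r0 := by ring
    rw [e1, e2]
    have e3 : (fun x : ℝ => (x / c) ^ j) = fun x => x ^ j * (c ^ j)⁻¹ := by
      funext x
      rw [div_pow, div_eq_mul_inv]
    rw [e3, intervalIntegral.integral_mul_const, integral_pow, mul_pow]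
    have hcj : c ^ j ≠ 0 := pow_ne_zero _ hc.ne'
    field_simp
    ring

theorem apW_aph_int {k : ℕ} {r0 c : ℝ} (hr0 : 0 < r0) (hc : 0 < c) (hcr : c * r0 ≤ 1) :
    ∫ y in (0 : ℝ)..1, apW k r0 (aph r0 c y) = r0 ^ (k + 2) := by
  unfold apW
  rw [intervalIntegral.integral_sub, intervalIntegral.integral_const_mul,
    intervalIntegral.integral_const_mul, aph_int hr0 hc hcr, aph_int hr0 hc hcr]
  · push_cast
    have h1 : ((k : ℝ) + 1 + 1) ≠ 0 := by positivity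
    have h2 : ((k : ℝ) + 2 + 1) ≠ 0 := by (clear * -; positivity)
    field_simp
    ring
  · exact (((aph_cont r0 c).pow (k + 1)).const_mul _).intervalIntegrable _ _
  · exact (((aph_cont r0 c).pow (k + 2)).const_mul _).intervalIntegrable _ _

/-- **First comparison.** -/
theorem apri_one (k : ℕ) {r : ℝ → ℝ} (hr : IsProf r) :
    r 0 ^ (k + 2) + (((k : ℝ) + 2) ^ 2 - 1) * (∫ y in (0 : ℝ)..1, r y ^ (k + 2)) ≤
      ((k : ℝ) + 2) ^ 2 * r 0 * ∫ y in (0 : ℝ)..1, r y ^ (k + 1) := by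
  have hr0 : 0 < r 0 := hr.pos 0 ⟨by norm_num, by norm_num⟩
  have hanti := Alm.prof_anti hr
  have hW : ∫ y in (0 : ℝ)..1, apW k (r 0) (r y) =
      ((k : ℝ) + 2) ^ 2 * r 0 * (∫ y in (0 : ℝ)..1, r y ^ (k + 1)) -
        (((k : ℝ) + 2) ^ 2 - 1) * ∫ y in (0 : ℝ)..1, r y ^ (k + 2) := by
    unfold apW
    rw [intervalIntegral.integral_sub, intervalIntegral.integral_const_mul,
      intervalIntegral.integral_const_mul]
    · exact (cn_r_ii hr (k + 1)).const_mul _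
    · exact (cn_r_ii hr (k + 2)).const_mul _
  have hWii : IntervalIntegrable (fun y => apW k (r 0) (r y)) volume 0 1 := by
    unfold apW
    exact ((cn_r_ii hr (k + 1)).const_mul _).sub ((cn_r_ii hr (k + 2)).const_mul _)
  suffices h : r 0 ^ (k + 2) ≤ ∫ y in (0 : ℝ)..1, apW k (r 0) (r y) by linarith
  set r0 := r 0 with hr0def
  set ρ : ℝ := ((k : ℝ) + 2) * r0 / ((k : ℝ) + 3) with hρ
  have hk3 : (0 : ℝ) < (k : ℝ) + 3 := by (clear * -; positivity)
  have hρ0 : 0 < ρ := by (clear * - hr0; positivity)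
  have hρe : ((k : ℝ) + 3) * ρ = ((k : ℝ) + 2) * r0 := by
    rw [hρ]
    (clear * - hr0; field_simp)
  have hρr : ρ ≤ r0 := by
    rw [hρ, div_le_iff₀ hk3]
    linarith only [hr0]
  set S : Set ℝ := {y ∈ Icc (0 : ℝ) 1 | ρ ≤ r y} with hS
  have hS0 : (0 : ℝ) ∈ S := ⟨⟨le_rfl, zero_le_one⟩, hρr⟩
  have hSb : BddAbove S := ⟨1, fun y hy => hy.1.2⟩
  set ys := sSup S with hys
  have hys0 : 0 ≤ ys := le_csSup hSb hS0
  have hys1 : ys ≤ 1 := csSup_le ⟨0, hS0⟩ fun y hy => hy.1.2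
  rcases eq_or_lt_of_le hys1 with h1 | h1
  · -- `ys = 1`
    have h2 : ∀ y ∈ Ioo (0 : ℝ) 1, ρ ≤ r y := by
      intro y hy
      have h3 : y < sSup S := by rw [← hys, h1]; exact hy.2
      obtain ⟨z, hz, hyz⟩ := exists_lt_of_lt_csSup ⟨0, hS0⟩ h3
      exact hz.2.trans (hanti ⟨hy.1.le, hy.2.le⟩ hz.1 hyz.le)
    have h4 : ∫ y in (0 : ℝ)..1, r0 ^ (k + 2) ≤ ∫ y in (0 : ℝ)..1, apW k r0 (r y) := by
      apply intervalIntegral.integral_mono_on_of_le_Ioo zero_le_one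
        (by simp) hWii
      intro y hy
      rw [← apW_self]
      exact apW_anti (hρ0.le.trans (h2 y hy)) (by nlinarith only [hρe, h2 y hy])
        (Alm.prof_le_zero hr ⟨hy.1.le, hy.2.le⟩)
    rw [intervalIntegral.integral_const, smul_eq_mul, sub_zero, one_mul] at h4
    exact h4
  · -- `ys < 1`
    have h1' : 0 < 1 - ys := by linarith only [h1]
    have hgt : ∀ y ∈ Icc (0 : ℝ) 1, ys < y → r y ≤ ρ := by
      intro y hy hyy
      by_contra hcon
      push Not at hcon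
      have : y ≤ ys := le_csSup hSb ⟨hy, hcon.le⟩
      linarith only [hyy, this]
    -- claim 1
    have c1 : ∀ y ∈ Icc (0 : ℝ) 1, y ≤ ys → r y * (1 - ys) ≤ ρ * (1 - y) := by
      intro y hy hyy
      have hry : 0 ≤ r y := Alm.prof_nn hr hy
      apply le_of_forall_pos_le_add
      intro ε hε
      set δ : ℝ := min ((1 - ys) / 2) (ε / (r0 + 1)) with hδ
      have hδ0 : 0 < δ := lt_min (by linarith only [h1]) (by (clear * - hε hr0; positivity))
      have hδ1 : δ ≤ (1 - ys) / 2 := min_le_left _ _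
      have hδ2 : δ * (r0 + 1) ≤ ε := by
        have := min_le_right ((1 - ys) / 2) (ε / (r0 + 1))
        rw [← hδ, le_div_iff₀ (by positivity)] at this
        exact this
      have h5 := ap_ratio hr hy.1 (show y ≤ ys + δ by linarith only [hyy, hδ0]) (by linarith only [hδ0, hδ1])
      have h6 := hgt (ys + δ) ⟨by linarith only [hys0, hδ0], by linarith only [hδ0, hδ1]⟩ (by linarith only [hδ0])
      have h7 : r y ≤ r0 := Alm.prof_le_zero hr hy
      have h8 : 0 ≤ 1 - y := by linarith only [hyy, hδ0, hδ1]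
      linarith [mul_nonneg (sub_nonneg.2 h6) (sub_nonneg.2 h8), mul_nonneg (le_of_lt (sub_pos.2 hδ0)) (sub_nonneg.2 h7), h5, hδ2, hδ0]
    -- claim 2
    have c2 : ∀ y ∈ Icc (0 : ℝ) 1, ys ≤ y → ρ * (1 - y) ≤ r y * (1 - ys) := by
      intro y hy hyy
      have hry : 0 ≤ r y := Alm.prof_nn hr hy
      apply le_of_forall_pos_le_add
      intro ε hε
      obtain ⟨z, hz, hzz⟩ := exists_lt_of_lt_csSup ⟨0, hS0⟩
        (show ys - ε / (r0 + 1) < sSup S by
          have : 0 < ε / (r0 + 1) := by (clear * - hε hr0; positivity)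
          rw [← hys]; linarith only [this])
      have hzy : z ≤ y := (le_csSup hSb hz).trans hyy
      have h5 := ap_ratio hr hz.1.1 hzy hy.2
      have h6 := hz.2
      have h7 : r y ≤ r0 := Alm.prof_le_zero hr hy
      have h8 : 0 ≤ 1 - y := by linarith only [hy.2]
      have h9 : ε / (r0 + 1) * (r0 + 1) = ε := by (clear * - hr0 hε; field_simp)
      have h10 : 0 < ε / (r0 + 1) := by (clear * - hε hr0; positivity)
      (by_contra nlg; linarith only [nlg, mul_nonneg (le_of_lt (sub_pos.2 hzz)) (sub_nonneg.2 hry), mul_nonneg (sub_nonneg.2 h6) (sub_nonneg.2 h8), mul_nonneg (le_of_lt (sub_pos.2 h10)) (sub_nonneg.2 h7), mul_eq_zero_of_left (sub_eq_zero.2 h9) (0 - (0 - 1 * 1)), mul_nonneg (mul_self_nonneg (1 : ℝ)) (sub_nonneg.2 h5), mul_nonneg (mul_self_nonneg (1 : ℝ)) (le_of_lt (sub_pos.2 (not_le.1 nlg))), h10])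
    have hysmem : ys ∈ Icc (0 : ℝ) 1 := ⟨hys0, hys1⟩
    have e1 : r ys ≤ ρ := by
      have := c1 ys hysmem le_rfl
      exact le_of_mul_le_mul_right this h1'
    have e2 : ρ ≤ r ys := by
      have := c2 ys hysmem le_rfl
      exact le_of_mul_le_mul_right this h1'
    set c : ℝ := (1 - ys) / ρ with hc
    have hc0 : 0 < c := div_pos h1' hρ0
    have hcr : c * r0 ≤ 1 := by
      have h5 := c1 0 ⟨le_rfl, zero_le_one⟩ hys0
      rw [hc, div_mul_eq_mul_div, div_le_one hρ0]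
      nlinarith only [h5]
    have hcρ : c * ρ = 1 - ys := by
      rw [hc]
      (clear * - hρ0 h1; field_simp)
    rw [← apW_aph_int hr0 hc0 hcr (k := k)]
    apply intervalIntegral.integral_mono_on zero_le_one
      (((apW_cont k r0).comp (aph_cont r0 c)).intervalIntegrable _ _) hWii
    intro y hy
    rcases le_total y ys with hyy | hyy
    · have h5 := c1 y hy hyy
      have h6 : ρ ≤ r y := e2.trans (hanti hy hysmem hyy)
      have h7 : r y ≤ aph r0 c y := by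
        unfold aph
        apply le_min (Alm.prof_le_zero hr hy)
        rw [le_div_iff₀ hc0]
        have : r y * (c * ρ) ≤ ρ * (1 - y) := by rw [hcρ]; exact h5
        (by_contra nlg; linarith only [nlg, mul_pos (sub_pos.2 (not_le.1 nlg)) (sub_pos.2 hρ0), this])
      exact apW_anti (hρ0.le.trans h6) (by nlinarith only [hρe, h6]) h7
    · have h5 := c2 y hy hyy
      have h6 : r y ≤ ρ := (hanti hysmem hy hyy).trans e1
      have h7 : (1 - y) / c ≤ r y := by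
        rw [div_le_iff₀ hc0]
        have : ρ * (1 - y) ≤ r y * (c * ρ) := by rw [hcρ]; exact h5
        nlinarith only [this, hρ0]
      have h8 : aph r0 c y ≤ r y := (min_le_right _ _).trans h7
      have h9 : 0 ≤ aph r0 c y := le_min hr0.le (div_nonneg (by linarith only [hy.2]) hc0.le)
      exact apW_mono h9 h8 (by nlinarith only [hρe, h6])

/-! ### The linear profile has the largest tails -/

theorem ap_lin_int {κ : ℝ} (hκ : 0 < κ) (m : ℕ) (a b r0 : ℝ) :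
    ∫ y in a..b, (r0 * (1 - κ * y)) ^ m =
      r0 ^ m * ((1 - κ * a) ^ (m + 1) - (1 - κ * b) ^ (m + 1)) / (((m : ℝ) + 1) * κ) := by
  have h : ∀ y : ℝ, HasDerivAt (fun y => -(r0 ^ m * (1 - κ * y) ^ (m + 1) / (((m : ℝ) + 1) * κ)))
      ((r0 * (1 - κ * y)) ^ m) y := by
    intro y
    have h1 : HasDerivAt (fun y : ℝ => 1 - κ * y) (-κ) y := by
      have := ((hasDerivAt_id y).const_mul κ).const_sub 1
      simpa only [id_eq, mul_one] using this
    have h2 := (((h1.pow (m + 1)).const_mul (r0 ^ m)).div_const (((m : ℝ) + 1) * κ)).neg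
    refine h2.congr_deriv ?_
    have e : m + 1 - 1 = m := by omega
    rw [e, mul_pow]
    push_cast
    have hm : ((m : ℝ) + 1) ≠ 0 := by (clear * -; positivity)
    field_simp
  rw [intervalIntegral.integral_eq_sub_of_hasDerivAt (fun y _ => h y)
    ((by fun_prop : Continuous fun y : ℝ => (r0 * (1 - κ * y)) ^ m).intervalIntegrable _ _)]
  ring

theorem apri_two (m : ℕ) {r : ℝ → ℝ} (hr : IsProf r) {κ : ℝ} (hκ : 0 < κ) (hκ1 : κ ≤ 1)
    (hI : (∫ y in (0 : ℝ)..1, r y ^ m) * (((m : ℝ) + 1) * κ) ≤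
      r 0 ^ m * (1 - (1 - κ) ^ (m + 1))) {τ : ℝ} (hτ : τ ∈ Ioo (0 : ℝ) 1) :
    (1 - (1 - κ * τ) ^ (m + 1)) * (∫ y in (0 : ℝ)..1, r y ^ m) ≤
      (1 - (1 - κ) ^ (m + 1)) * ∫ y in (0 : ℝ)..τ, r y ^ m := by
  have hr0 : 0 < r 0 := hr.pos 0 ⟨by norm_num, by norm_num⟩
  have hm0 : (0 : ℝ) < ((m : ℝ) + 1) * κ := by (clear * - hκ; positivity)
  have hmem : ∀ y ∈ Icc (0 : ℝ) 1, y ∈ Icc (-1 : ℝ) 1 := fun y hy => ⟨by linarith only [hy.1], hy.2⟩
  have h01 : (0 : ℝ) ∈ Icc (0 : ℝ) 1 := ⟨le_rfl, zero_le_one⟩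
  have h11 : (1 : ℝ) ∈ Icc (0 : ℝ) 1 := ⟨zero_le_one, le_rfl⟩
  have hτ1 : τ ∈ Icc (0 : ℝ) 1 := ⟨hτ.1.le, hτ.2.le⟩
  set I := ∫ y in (0 : ℝ)..1, r y ^ m with hIdef
  set J := ∫ y in (0 : ℝ)..τ, r y ^ m with hJdef
  have hu0 : 0 ≤ 1 - κ * τ := by nlinarith only [hκ1, hκ, hτ.2]
  have hu1 : 1 - κ * τ ≤ 1 := by nlinarith only [hκ, hτ.1]
  have hv0 : 0 ≤ 1 - κ := by linarith only [hκ1]
  have hvu : 1 - κ ≤ 1 - κ * τ := by nlinarith only [hκ, hτ.2]
  have hpu : (1 - κ * τ) ^ (m + 1) ≤ 1 := pow_le_one₀ hu0 hu1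
  have hpv : (1 - κ) ^ (m + 1) ≤ (1 - κ * τ) ^ (m + 1) := pow_le_pow_left₀ hv0 hvu _
  have hpv1 : (1 - κ) ^ (m + 1) ≤ 1 := hpv.trans hpu
  -- concavity of `r - ρ ℓ`
  have hchord : ∀ y ∈ Icc (0 : ℝ) τ, (1 - y / τ) * r 0 + y / τ * r τ ≤ r y := by
    intro y hy
    have ha : 0 ≤ 1 - y / τ := by
      rw [sub_nonneg, div_le_one hτ.1]
      exact hy.2
    have hb : 0 ≤ y / τ := div_nonneg hy.1 hτ.1.le
    have hc := hr.conc.2 (hmem 0 h01) (hmem τ hτ1) ha hb (by ring)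
    simp only [smul_eq_mul] at hc
    have e : (1 - y / τ) * 0 + y / τ * τ = y := by
      have := hτ.1.ne'
      field_simp
      ring
    rw [e] at hc
    exact hc
  have hspl : I = J + ∫ y in τ..1, r y ^ m := by
    rw [hIdef, hJdef, intervalIntegral.integral_add_adjacent_intervals
      (Alm.prof_pow_ii hr m h01 hτ1) (Alm.prof_pow_ii hr m hτ1 h11)]
  rcases le_total (r 0 * (1 - κ * τ)) (r τ) with hcase | hcase
  · -- case 1
    have h1 : ∀ y ∈ Icc (0 : ℝ) τ, r 0 * (1 - κ * y) ≤ r y := by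
      intro y hy
      have h2 := hchord y hy
      have hb : 0 ≤ y / τ := div_nonneg hy.1 hτ.1.le
      have h3 := mul_le_mul_of_nonneg_left hcase hb
      have e : y / τ * (r 0 * (1 - κ * τ)) = y / τ * r 0 - κ * y * r 0 := by
        have := hτ.1.ne'
        (clear * - this hr0; field_simp)
      linarith
    have h4 : r 0 ^ m * (1 - (1 - κ * τ) ^ (m + 1)) / (((m : ℝ) + 1) * κ) ≤ J := by
      have h5 : ∫ y in (0 : ℝ)..τ, (r 0 * (1 - κ * y)) ^ m ≤ J := by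
        apply intervalIntegral.integral_mono_on hτ.1.le
          ((by fun_prop : Continuous fun y : ℝ => (r 0 * (1 - κ * y)) ^ m).intervalIntegrable _ _)
          (Alm.prof_pow_ii hr m h01 hτ1)
        intro y hy
        apply pow_le_pow_left₀ _ (h1 y hy)
        apply mul_nonneg hr0.le
        linarith only [mul_nonneg (le_of_lt (sub_pos.2 hκ)) (sub_nonneg.2 hy.2), hu0]
      rw [ap_lin_int hκ] at h5
      simpa only [ge_iff_le, mul_zero, sub_zero, one_pow] using h5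
    rw [div_le_iff₀ hm0] at h4
    have h6 : 0 ≤ 1 - (1 - κ * τ) ^ (m + 1) := by linarith only [hpu]
    have h7 : 0 ≤ 1 - (1 - κ) ^ (m + 1) := by linarith only [hpu, hpv]
    have h8 := mul_le_mul_of_nonneg_left hI h6
    have h9 := mul_le_mul_of_nonneg_left h4 h7
    have h10 : (1 - (1 - κ * τ) ^ (m + 1)) * I * (((m : ℝ) + 1) * κ) ≤
        (1 - (1 - κ) ^ (m + 1)) * J * (((m : ℝ) + 1) * κ) := by linarith only [h9, h8]
    exact le_of_mul_le_mul_right h10 hm0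
  · -- case 2
    have hℓ : 0 < r 0 * (1 - κ * τ) := by
      apply mul_pos hr0
      nlinarith only [hκ1, hκ, hτ.2]
    set ρ : ℝ := r τ / (r 0 * (1 - κ * τ)) with hρ
    have hρ0 : 0 ≤ ρ := div_nonneg (Alm.prof_nn hr hτ1) hℓ.le
    have hρ1 : ρ ≤ 1 := (div_le_one hℓ).2 hcase
    have hρe : ρ * (r 0 * (1 - κ * τ)) = r τ := div_mul_cancel₀ _ hℓ.ne'
    have h1 : ∀ y ∈ Icc (0 : ℝ) τ, ρ * (r 0 * (1 - κ * y)) ≤ r y := by
      intro y hy
      have h2 := hchord y hy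
      have ha : 0 ≤ 1 - y / τ := by
        rw [sub_nonneg, div_le_one hτ.1]
        exact hy.2
      rw [← hρe] at h2
      have h3 : ρ * (r 0 * (1 - κ * y)) ≤
          (1 - y / τ) * r 0 + y / τ * (ρ * (r 0 * (1 - κ * τ))) := by
        have e : y / τ * (ρ * (r 0 * (1 - κ * τ))) = ρ * r 0 * (y / τ) - ρ * r 0 * κ * y := by
          have := hτ.1.ne'
          (clear * - this hr0; field_simp)
        rw [e]
        have h4 : ρ * ((1 - y / τ) * r 0) ≤ 1 * ((1 - y / τ) * r 0) :=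
          mul_le_mul_of_nonneg_right hρ1 (mul_nonneg ha hr0.le)
        linarith only [h4]
      exact h3.trans h2
    have h1' : ∀ y ∈ Icc τ 1, r y ≤ ρ * (r 0 * (1 - κ * y)) := by
      intro y hy
      have hy0 : 0 < y := hτ.1.trans_le hy.1
      have ha : 0 ≤ 1 - τ / y := by
        rw [sub_nonneg, div_le_one hy0]
        exact hy.1
      have hb : 0 < τ / y := div_pos hτ.1 hy0
      have hc := hr.conc.2 (hmem 0 h01) (hmem y ⟨hy0.le, hy.2⟩) ha hb.le (by ring)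
      simp only [smul_eq_mul] at hc
      have e : (1 - τ / y) * 0 + τ / y * y = τ := by
        field_simp
        ring
      rw [e, ← hρe] at hc
      have h4 : ρ * ((1 - τ / y) * r 0) ≤ 1 * ((1 - τ / y) * r 0) :=
        mul_le_mul_of_nonneg_right hρ1 (mul_nonneg ha hr0.le)
      have h5 : τ / y * r y ≤ τ / y * (ρ * (r 0 * (1 - κ * y))) := by
        have e2 : τ / y * (ρ * (r 0 * (1 - κ * y))) = ρ * r 0 * (τ / y) - ρ * r 0 * κ * τ := by
          (clear * - hy0 hr0; field_simp)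
        rw [e2]
        nlinarith only [hc, h4]
      exact le_of_mul_le_mul_left h5 hb
    have h4 : ρ ^ m * (r 0 ^ m * (1 - (1 - κ * τ) ^ (m + 1)) / (((m : ℝ) + 1) * κ)) ≤ J := by
      have h5 : ∫ y in (0 : ℝ)..τ, ρ ^ m * (r 0 * (1 - κ * y)) ^ m ≤ J := by
        apply intervalIntegral.integral_mono_on hτ.1.le
          ((by fun_prop : Continuous fun y : ℝ =>
            ρ ^ m * (r 0 * (1 - κ * y)) ^ m).intervalIntegrable _ _)
          (Alm.prof_pow_ii hr m h01 hτ1)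
        intro y hy
        rw [← mul_pow]
        apply pow_le_pow_left₀ _ (h1 y hy)
        apply mul_nonneg hρ0 (mul_nonneg hr0.le _)
        linarith [mul_nonneg (le_of_lt (sub_pos.2 hκ)) (sub_nonneg.2 hy.2), hu0]
      rw [intervalIntegral.integral_const_mul, ap_lin_int hκ] at h5
      simpa only [ge_iff_le, mul_zero, sub_zero, one_pow] using h5
    have h5 : ∫ y in τ..1, r y ^ m ≤
        ρ ^ m * (r 0 ^ m * ((1 - κ * τ) ^ (m + 1) - (1 - κ) ^ (m + 1)) / (((m : ℝ) + 1) * κ)) := by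
      have h6 : ∫ y in τ..1, r y ^ m ≤ ∫ y in τ..1, ρ ^ m * (r 0 * (1 - κ * y)) ^ m := by
        apply intervalIntegral.integral_mono_on hτ.2.le (Alm.prof_pow_ii hr m hτ1 h11)
          ((by fun_prop : Continuous fun y : ℝ =>
            ρ ^ m * (r 0 * (1 - κ * y)) ^ m).intervalIntegrable _ _)
        intro y hy
        rw [← mul_pow]
        exact pow_le_pow_left₀ (Alm.prof_nn hr ⟨hτ.1.le.trans hy.1, hy.2⟩) (h1' y hy) _
      rw [intervalIntegral.integral_const_mul, ap_lin_int hκ] at h6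
      simpa only [ge_iff_le, mul_one] using h6
    rw [hspl]
    have h6 : 0 ≤ 1 - (1 - κ * τ) ^ (m + 1) := by linarith only [hpu]
    have h7 : 0 ≤ (1 - κ * τ) ^ (m + 1) - (1 - κ) ^ (m + 1) := by linarith only [hpv]
    have h8 := mul_le_mul_of_nonneg_left h5 h6
    have h9 := mul_le_mul_of_nonneg_left h4 h7
    have e : (1 - (1 - κ * τ) ^ (m + 1)) * (ρ ^ m *
        (r 0 ^ m * ((1 - κ * τ) ^ (m + 1) - (1 - κ) ^ (m + 1)) / (((m : ℝ) + 1) * κ))) =
        ((1 - κ * τ) ^ (m + 1) - (1 - κ) ^ (m + 1)) *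
        (ρ ^ m * (r 0 ^ m * (1 - (1 - κ * τ) ^ (m + 1)) / (((m : ℝ) + 1) * κ))) := by ring
    rw [e] at h8
    linarith only [h9, h8]

/-- monotonicity of `(F + m² - 1)^m / F` -/
theorem ap_phi_mono {m : ℕ} {F G : ℝ} (hF : 0 < F) (hFG : F ≤ G)
    (hG : G ≤ (m : ℝ) + 1) (hm : 2 ≤ m) :
    (G + ((m : ℝ) ^ 2 - 1)) ^ m * F ≤ (F + ((m : ℝ) ^ 2 - 1)) ^ m * G := by
  have hm2 : (2 : ℝ) ≤ m := by exact_mod_cast hm
  have hG0 : 0 < G := hF.trans_le hFG
  have hGA : 0 < G + ((m : ℝ) ^ 2 - 1) := by nlinarith only [hF, hFG, hm2]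
  have hFA : 0 < F + ((m : ℝ) ^ 2 - 1) := by nlinarith only [hF, hm2]
  set x : ℝ := (F - G) / (G + ((m : ℝ) ^ 2 - 1)) with hx
  have hx1 : (-2 : ℝ) ≤ x := by
    rw [hx, le_div_iff₀ hGA]
    linarith only [hFA, hGA]
  have hb := one_add_mul_le_pow hx1 m
  have e : 1 + x = (F + ((m : ℝ) ^ 2 - 1)) / (G + ((m : ℝ) ^ 2 - 1)) := by
    rw [hx]
    field_simp
    ring
  rw [e, div_pow] at hb
  have h1 : F / G ≤ 1 + (m : ℝ) * x := by
    have h2 : (m : ℝ) * G ≤ G + ((m : ℝ) ^ 2 - 1) := by nlinarith only [hG, hm2]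
    rw [hx, div_le_iff₀ hG0]
    have e3 : (1 + (m : ℝ) * ((F - G) / (G + ((m : ℝ) ^ 2 - 1)))) * G =
        G + (m * G) / (G + ((m : ℝ) ^ 2 - 1)) * (F - G) := by
      (clear * - hGA hG0; field_simp)
    rw [e3]
    have h4 : (m * G) / (G + ((m : ℝ) ^ 2 - 1)) ≤ 1 := (div_le_one hGA).2 h2
    linarith only [mul_nonneg (sub_nonneg.2 hFG) (sub_nonneg.2 h4)]
  have h5 := h1.trans hb
  rw [div_le_div_iff₀ hG0 (pow_pos hGA m)] at h5
  linarith only [h5]

/-- **A priori bound.** -/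
theorem apri_front {m : ℕ} (hm : 2 ≤ m) {r : ℝ → ℝ} (hr : IsProf r)
    (hN : (∫ y in (-1 : ℝ)..1, r y ^ (m - 1)) ^ m * aInt m ^ (m - 1) ≤
      aInt (m - 1) ^ m * (∫ y in (-1 : ℝ)..1, r y ^ m) ^ (m - 1))
    {κ : ℝ} (hκ : 0 < κ) (hκ1 : κ ≤ 1)
    (hnum : (∫ x in (0 : ℝ)..1, sq x ^ (m - 1)) ^ m * (m : ℝ) ^ (2 * m) *
        (((m : ℝ) + 1) * κ / (1 - (1 - κ) ^ (m + 1))) <
      (((m : ℝ) + 1) * κ / (1 - (1 - κ) ^ (m + 1)) + ((m : ℝ) ^ 2 - 1)) ^ m *
        (∫ x in (0 : ℝ)..1, sq x ^ m) ^ (m - 1)) :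
    (∫ y in (0 : ℝ)..1, r y ^ m) * (((m : ℝ) + 1) * κ) ≤
      r 0 ^ m * (1 - (1 - κ) ^ (m + 1)) := by
  obtain ⟨k, rfl⟩ : ∃ k, m = k + 2 := ⟨m - 2, by omega⟩
  have hN2 := cn_half (by omega) hr hN
  have e1 : k + 2 - 1 = k + 1 := by omega
  rw [e1] at hN2 hnum
  have h1 := apri_one k hr
  have hr0 : 0 < r 0 := hr.pos 0 ⟨by norm_num, by norm_num⟩
  have hI := cn_r_pos hr (k + 2)
  have hI1 := cn_r_pos hr (k + 1)
  have hZ := cn_Z_pos (k + 2)
  have hZ1 := cn_Z_pos (k + 1)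
  set I := ∫ y in (0 : ℝ)..1, r y ^ (k + 2) with hIdef
  set I1 := ∫ y in (0 : ℝ)..1, r y ^ (k + 1) with hI1def
  set Z := ∫ x in (0 : ℝ)..1, sq x ^ (k + 2) with hZdef
  set Z1 := ∫ x in (0 : ℝ)..1, sq x ^ (k + 1) with hZ1def
  have hκ2 : 0 < 1 - (1 - κ) ^ (k + 2 + 1) := by
    have : (1 - κ) ^ (k + 2 + 1) < 1 := pow_lt_one₀ (by linarith only [hκ1]) (by linarith only [hκ]) (by omega)
    linarith only [this]
  set G : ℝ := (((k + 2 : ℕ) : ℝ) + 1) * κ / (1 - (1 - κ) ^ (k + 2 + 1)) with hG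
  have hG0 : 0 < G := by (clear * - hκ hκ2; positivity)
  have hG1 : G ≤ ((k + 2 : ℕ) : ℝ) + 1 := by
    rw [hG, div_le_iff₀ hκ2]
    have h3 : (1 - κ) ^ (k + 2 + 1) ≤ 1 - κ := by
      calc (1 - κ) ^ (k + 2 + 1) ≤ (1 - κ) ^ 1 :=
            pow_le_pow_of_le_one (by linarith only [hκ1]) (by linarith only [hκ]) (by omega)
        _ = 1 - κ := pow_one _
    have h4 : (0 : ℝ) < ((k + 2 : ℕ) : ℝ) + 1 := by (clear * -; positivity)
    nlinarith only [h3]
  by_contra hcon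
  push Not at hcon
  set F : ℝ := r 0 ^ (k + 2) / I with hF
  have hF0 : 0 < F := by (clear * - hr0 hI; positivity)
  have hFG : F ≤ G := by
    rw [hF, hG, div_le_div_iff₀ hI hκ2]
    linarith only [hcon]
  have h5 := ap_phi_mono hF0 hFG hG1 (by omega)
  have hFI : F * I = r 0 ^ (k + 2) := by
    rw [hF]
    (clear * - hI hr0; field_simp)
  -- `(F + m² - 1) I ≤ m² r0 I1`
  have h6 : (F + (((k + 2 : ℕ) : ℝ) ^ 2 - 1)) * I ≤ (((k + 2 : ℕ) : ℝ)) ^ 2 * (r 0 * I1) := by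
    rw [add_mul, hFI]
    push_cast
    linarith only [h1]
  have hk2 : (1 : ℝ) ≤ ((k + 2 : ℕ) : ℝ) ^ 2 := by
    have : (1 : ℝ) ≤ ((k + 2 : ℕ) : ℝ) := by
      exact_mod_cast (show 1 ≤ k + 2 by omega)
    nlinarith only [this]
  have hA0 : 0 ≤ F + (((k + 2 : ℕ) : ℝ) ^ 2 - 1) := by linarith only [hF0, hk2]
  have h7 := pow_le_pow_left₀ (mul_nonneg hA0 hI.le) h6 (k + 2)
  rw [mul_pow, mul_pow, mul_pow (r 0), ← hFI] at h7
  have h8 : (F + (((k + 2 : ℕ) : ℝ) ^ 2 - 1)) ^ (k + 2) * Z ^ (k + 1) ≤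
      (((k + 2 : ℕ) : ℝ) ^ 2) ^ (k + 2) * F * Z1 ^ (k + 2) := by
    have hIm : 0 < I ^ (k + 2) := pow_pos hI _
    have h9 : (F + (((k + 2 : ℕ) : ℝ) ^ 2 - 1)) ^ (k + 2) * Z ^ (k + 1) * I ^ (k + 2) ≤
        (((k + 2 : ℕ) : ℝ) ^ 2) ^ (k + 2) * F * Z1 ^ (k + 2) * I ^ (k + 2) := by
      calc (F + (((k + 2 : ℕ) : ℝ) ^ 2 - 1)) ^ (k + 2) * Z ^ (k + 1) * I ^ (k + 2)
          = (F + (((k + 2 : ℕ) : ℝ) ^ 2 - 1)) ^ (k + 2) * I ^ (k + 2) * Z ^ (k + 1) := by ring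
        _ ≤ (((k + 2 : ℕ) : ℝ) ^ 2) ^ (k + 2) * (F * I * I1 ^ (k + 2)) * Z ^ (k + 1) :=
            mul_le_mul_of_nonneg_right h7 (by (clear * - hZ; positivity))
        _ = (((k + 2 : ℕ) : ℝ) ^ 2) ^ (k + 2) * (F * I) * (I1 ^ (k + 2) * Z ^ (k + 1)) := by
            ring
        _ ≤ (((k + 2 : ℕ) : ℝ) ^ 2) ^ (k + 2) * (F * I) * (Z1 ^ (k + 2) * I ^ (k + 1)) :=
            mul_le_mul_of_nonneg_left hN2 (by (clear * - hr0 hI; positivity))
        _ = (((k + 2 : ℕ) : ℝ) ^ 2) ^ (k + 2) * F * Z1 ^ (k + 2) * I ^ (k + 2) := by ring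
    exact le_of_mul_le_mul_right h9 hIm
  have h10 : (G + (((k + 2 : ℕ) : ℝ) ^ 2 - 1)) ^ (k + 2) * F * Z ^ (k + 1) ≤
      (F + (((k + 2 : ℕ) : ℝ) ^ 2 - 1)) ^ (k + 2) * G * Z ^ (k + 1) :=
    mul_le_mul_of_nonneg_right h5 (by positivity)
  have h11 : (F + (((k + 2 : ℕ) : ℝ) ^ 2 - 1)) ^ (k + 2) * Z ^ (k + 1) * G ≤
      (((k + 2 : ℕ) : ℝ) ^ 2) ^ (k + 2) * F * Z1 ^ (k + 2) * G :=
    mul_le_mul_of_nonneg_right h8 hG0.le
  have h12 := mul_lt_mul_of_pos_right hnum hF0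
  rw [pow_mul] at h12
  linarith only [h12, h11, h10]

/-- **A priori bound for the transport**: if `N ≤ N_B` then
`(1 - (1 - κ τ(x))^(m+1)) ∫₀¹ s^m ≤ (1 - (1 - κ)^(m+1)) ∫₀ˣ s^m`. -/
theorem IsTrans.apri {m : ℕ} (hm : 2 ≤ m) {r τ τ' T : ℝ → ℝ} (hr : IsProf r)
    (h : IsTrans m r τ τ' T)
    (hN : (∫ y in (-1 : ℝ)..1, r y ^ (m - 1)) ^ m * aInt m ^ (m - 1) ≤
      aInt (m - 1) ^ m * (∫ y in (-1 : ℝ)..1, r y ^ m) ^ (m - 1))
    {κ : ℝ} (hκ : 0 < κ) (hκ1 : κ ≤ 1)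
    (hnum : (∫ x in (0 : ℝ)..1, sq x ^ (m - 1)) ^ m * (m : ℝ) ^ (2 * m) *
        (((m : ℝ) + 1) * κ / (1 - (1 - κ) ^ (m + 1))) <
      (((m : ℝ) + 1) * κ / (1 - (1 - κ) ^ (m + 1)) + ((m : ℝ) ^ 2 - 1)) ^ m *
        (∫ x in (0 : ℝ)..1, sq x ^ m) ^ (m - 1)) {x : ℝ} (hx : x ∈ Ioo (0 : ℝ) 1) :
    (1 - (1 - κ * τ x) ^ (m + 1)) * (∫ t in (0 : ℝ)..1, sq t ^ m) ≤
      (1 - (1 - κ) ^ (m + 1)) * ∫ t in (0 : ℝ)..x, sq t ^ m := by
  have hI := apri_front hm hr hN hκ hκ1 hnum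
  have h2 := apri_two m hr hκ hκ1 hI (h.mem x hx)
  have hI0 : 0 < ∫ t in (0 : ℝ)..1, r t ^ m := cn_r_pos hr m
  have hZ0 : 0 < ∫ t in (0 : ℝ)..1, sq t ^ m := cn_Z_pos m
  have h3 := h.mass x hx
  have h4 := mul_le_mul_of_nonneg_right h2 hZ0.le
  refine le_of_mul_le_mul_right ?_ hI0
  calc (1 - (1 - κ * τ x) ^ (m + 1)) * (∫ t in (0 : ℝ)..1, sq t ^ m) *
        ∫ t in (0 : ℝ)..1, r t ^ m
      = (1 - (1 - κ * τ x) ^ (m + 1)) * (∫ t in (0 : ℝ)..1, r t ^ m) *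
        ∫ t in (0 : ℝ)..1, sq t ^ m := by ring
    _ ≤ (1 - (1 - κ) ^ (m + 1)) * (∫ t in (0 : ℝ)..τ x, r t ^ m) *
        ∫ t in (0 : ℝ)..1, sq t ^ m := h4
    _ = (1 - (1 - κ) ^ (m + 1)) * ((∫ t in (0 : ℝ)..τ x, r t ^ m) *
        ∫ t in (0 : ℝ)..1, sq t ^ m) := by ring
    _ = (1 - (1 - κ) ^ (m + 1)) * (∫ t in (0 : ℝ)..x, sq t ^ m) *
        ∫ t in (0 : ℝ)..1, r t ^ m := by rw [h3]; ring

end Vale.Agent.P237.AllN
end

section

/-!
# P237, all dimensions: the plain tangent pair of the logarithmic kernel on `b ≤ 0`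

If `l ≤ (1 - x²)(31/50 + 7/50 x²)` then the line `kAc x l + kAp x l * b` is below the kernel `kA`
for `b ≤ 0`.
-/

open MeasureTheory Metric Set Module Filter Topology

namespace Vale.Agent.P237.AllN

open PolyPos

/-- bound of the exponential -/
theorem sg_exp {w : ℝ} (h0 : 0 ≤ w) (h1 : w ≤ 1) :
    Real.exp w ≤ 1 + w + w ^ 2 / 2 + 2 * w ^ 3 / 9 := by
  have h := Real.exp_bound' h0 h1 (n := 3) (by norm_num)
  simp only [Finset.sum_range_succ, Finset.range_one, Finset.sum_singleton, pow_zero, Nat.factorial, Nat.cast_one, ne_eq, one_ne_zero, not_false_eq_true, div_self, pow_one, Nat.succ_eq_add_one, zero_add, mul_one, div_one, Nat.reduceAdd, Nat.cast_ofNat, Nat.reduceMul] at h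
  linarith only [h]

/-- `38 - 7 s²` -/
def sgV : List ℤ := [38, 0, -7]

/-- `s²(38 - 7 s²)` -/
def sgW : List ℤ := [0, 0, 38, 0, -7]

/-- `1125000 (1 + w + w²/2 + 2w³/9)`, `w = W/50` -/
def sgE : List ℤ :=
  padd [1125000] (padd (psm 22500 sgW) (padd (psm 225 (ppow sgW 2)) (psm 2 (ppow sgW 3))))

/-- `50 (1 - V(1-s)(1+2s))` -/
def sgB1 : List ℤ := padd [50] (psm (-1) (pmul sgV [1, 1, -2]))

theorem ev_sgW (s : ℝ) : ev1 sgW s = s ^ 2 * (38 - 7 * s ^ 2) := by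
  simp only [ev1, sgW, Int.reduceNeg, evL, Int.cast_zero, Int.cast_ofNat, Int.cast_neg, mul_zero, add_zero, mul_neg, zero_add]; ring

theorem ev_sgE (s : ℝ) : ev1 sgE s = 1125000 * (1 + (s ^ 2 * (38 - 7 * s ^ 2) / 50) +
    (s ^ 2 * (38 - 7 * s ^ 2) / 50) ^ 2 / 2 + 2 * (s ^ 2 * (38 - 7 * s ^ 2) / 50) ^ 3 / 9) := by
  simp only [sgE, ev1_padd, ev1_psm, ev1_ppow, ev_sgW, ev1_cons, ev1_nil]
  push_cast
  ring

theorem ev_sgB1 (s : ℝ) : ev1 sgB1 s = 50 - (38 - 7 * s ^ 2) * ((1 - s) * (1 + 2 * s)) := by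
  simp only [sgB1, sgV, ev1_padd, ev1_psm, ev1_pmul, ev1_cons, ev1_nil]
  push_cast
  ring

/-- case A -/
theorem sg_A {s : ℝ} (h0 : 0 < s) (h1 : s < 1) {E : ℝ}
    (hE : E = 1 + (s ^ 2 * (38 - 7 * s ^ 2) / 50) +
    (s ^ 2 * (38 - 7 * s ^ 2) / 50) ^ 2 / 2 + 2 * (s ^ 2 * (38 - 7 * s ^ 2) / 50) ^ 3 / 9) :
    0 ≤ 1 - (38 - 7 * s ^ 2) / 50 * ((1 - s) * (1 + 2 * s)) - s * (1 + s) / 16 * E ^ 2 := by
  have h := check1_sound (A := 0) (B := 1) (D := 1) (by norm_num)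
    (p := padd (psm (1125000 ^ 2 * 8) sgB1) (psm (-25) (pmul [0, 1, 1] (ppow sgE 2))))
    (by (clear * -; decide +kernel)) (x := s) (by simpa only [Int.cast_zero, Int.cast_one, one_mul] using h0.le) (by simpa only [Int.cast_one, one_mul] using h1)
  simp only [ev1_padd, ev1_psm, ev1_pmul, ev1_ppow, ev_sgB1, ev_sgE, ← hE, ev1_cons, ev1_nil] at h
  push_cast at h
  linarith only [h]

/-- case B -/
theorem sg_B {s : ℝ} (h0 : 1 / 3 ≤ s) (h1 : s < 1) {E : ℝ}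
    (hE : E = 1 + (s ^ 2 * (38 - 7 * s ^ 2) / 50) +
    (s ^ 2 * (38 - 7 * s ^ 2) / 50) ^ 2 / 2 + 2 * (s ^ 2 * (38 - 7 * s ^ 2) / 50) ^ 3 / 9) :
    0 ≤ s * (1 + s) * (1 - (38 - 7 * s ^ 2) / 50 * ((1 - s) * (1 + 2 * s))) -
      s ^ 2 * (1 + s) ^ 2 / 16 * E ^ 2 -
      4 * E ^ 2 * ((38 - 7 * s ^ 2) / 50 * (1 + s) - 1) ^ 2 := by
  have h := check1_sound (A := 1) (B := 3) (D := 3) (by norm_num)
    (p := padd (psm (1125000 ^ 2 * 200) (pmul [0, 1, 1] sgB1))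
      (padd (psm (-625) (pmul (ppow [0, 1, 1] 2) (ppow sgE 2)))
        (psm (-16) (pmul (ppow sgE 2) (ppow (padd (pmul sgV [1, 1]) [-50]) 2)))))
    (by (clear * -; decide +kernel)) (x := s) (by push_cast; linarith only [h0]) (by push_cast; linarith only [h1])
  simp only [sgV, ev1_padd, ev1_psm, ev1_pmul, ev1_cons, ev1_nil, ev_sgB1, ev1_ppow, ev_sgE, ← hE] at h
  push_cast at h
  linarith only [h]

/-- case B with `v` and `Y` -/
theorem sg_B' {s v Y E : ℝ} (h0 : 1 / 3 ≤ s) (h1 : s < 1)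
    (hE : E = 1 + (s ^ 2 * (38 - 7 * s ^ 2) / 50) +
    (s ^ 2 * (38 - 7 * s ^ 2) / 50) ^ 2 / 2 + 2 * (s ^ 2 * (38 - 7 * s ^ 2) / 50) ^ 3 / 9)
    (hv : v ≤ (38 - 7 * s ^ 2) / 50) (hv1 : 1 < v * (1 + s)) (hY : 0 ≤ Y) (hYE : Y ≤ E ^ 2) :
    -1 + v * ((1 - s) * (1 + 2 * s)) + s * (1 + s) / 16 * Y +
      4 * (Y * (v * (1 + s) - 1) ^ 2) / (s * (1 + s)) ≤ 0 := by
  have hB := sg_B h0 h1 hE
  have hs0 : 0 < s := by linarith only [h0]
  have hss : 0 < s * (1 + s) := by positivity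
  set V := (38 - 7 * s ^ 2) / 50 with hV
  have h2 : v * ((1 - s) * (1 + 2 * s)) ≤ V * ((1 - s) * (1 + 2 * s)) :=
    mul_le_mul_of_nonneg_right hv (mul_nonneg (by linarith only [h1]) (by linarith only [hs0]))
  have h3 : s * (1 + s) / 16 * Y ≤ s * (1 + s) / 16 * E ^ 2 :=
    mul_le_mul_of_nonneg_left hYE (by (clear * - h0; positivity))
  have h4 : (v * (1 + s) - 1) ^ 2 ≤ (V * (1 + s) - 1) ^ 2 := by
    apply pow_le_pow_left₀ (by linarith only [hv1])
    have := mul_le_mul_of_nonneg_right hv (by linarith only [hs0] : 0 ≤ 1 + s)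
    linarith only [this]
  have h5 : Y * (v * (1 + s) - 1) ^ 2 ≤ E ^ 2 * (V * (1 + s) - 1) ^ 2 :=
    mul_le_mul hYE h4 (sq_nonneg _) (by (clear * -; positivity))
  have h6 : 4 * (Y * (v * (1 + s) - 1) ^ 2) / (s * (1 + s)) ≤
      1 - V * ((1 - s) * (1 + 2 * s)) - s * (1 + s) / 16 * E ^ 2 := by
    rw [div_le_iff₀ hss]
    have e : (1 - V * ((1 - s) * (1 + 2 * s)) - s * (1 + s) / 16 * E ^ 2) * (s * (1 + s)) =
        s * (1 + s) * (1 - V * ((1 - s) * (1 + 2 * s))) - s ^ 2 * (1 + s) ^ 2 / 16 * E ^ 2 := by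
      ring
    rw [e]
    linarith only [hB, h5]
  linarith only [h2, h3, h6]

/-- case `l ≤ 0` -/
theorem sg_neg {s l Y : ℝ} (hs0 : 0 < s) (hs1 : s < 1) (hl0 : l ≤ 0) (hY : Y ≤ 1) :
    -(1 + 2 * l) * (1 / s - 1) + l * (1 - s ^ 2) / s ^ 3 + (1 - s ^ 2) * Y / 16 ≤ 0 := by
  have e : -(1 + 2 * l) * (1 / s - 1) + l * (1 - s ^ 2) / s ^ 3 =
      (1 - s) / s * (-1 + l * ((1 + s - 2 * s ^ 2) / s ^ 2)) := by
    field_simp
    ring
  rw [e]
  have h3 : 0 ≤ (1 + s - 2 * s ^ 2) / s ^ 2 := div_nonneg (by nlinarith only [hs1, hs0]) (by positivity)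
  have h4 : l * ((1 + s - 2 * s ^ 2) / s ^ 2) ≤ 0 := mul_nonpos_of_nonpos_of_nonneg hl0 h3
  have h5 : 0 < (1 - s) / s := div_pos (by linarith only [hs1]) hs0
  have h6 : (1 - s) / s * (-1 + l * ((1 + s - 2 * s ^ 2) / s ^ 2)) ≤ (1 - s) / s * (-1) :=
    mul_le_mul_of_nonneg_left (by linarith only [h4]) h5.le
  have h7 : (1 - s ^ 2) * Y ≤ (1 - s ^ 2) * 1 :=
    mul_le_mul_of_nonneg_left hY (by nlinarith only [hs1, hs0])
  have h8 : (1 - s) / s * (-1) + (1 - s ^ 2) / 16 =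
      -((1 - s) * (16 - s * (1 + s)) / (16 * s)) := by
    field_simp
    ring
  have h9 : 0 ≤ (1 - s) * (16 - s * (1 + s)) / (16 * s) :=
    div_nonneg (mul_nonneg (by linarith only [hs1]) (by nlinarith only [hs0, hs1])) (by positivity)
  (clear * - h6 h7 h8 h9; linarith)

/-- The criterion of `kA_neg` for the plain tangent pair. -/
theorem kA_neg_plain {x l : ℝ} (hx : x ∈ Ioo (0 : ℝ) 1)
    (hl : l ≤ (1 - x ^ 2) * (31 / 50 + 7 / 50 * x ^ 2)) :
    kAc x l + (x * Real.exp l) ^ 2 / 16 + 4 * (min (kAp x l) 0) ^ 2 ≤ 0 := by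
  obtain ⟨hs0, hs1, hxs⟩ := sq_facts hx
  have hx0 := hx.1
  unfold kAc kAp
  rw [hxs] at hl
  rw [mul_pow, hxs]
  set s := sq x with hs
  rcases le_or_gt l 0 with hl0 | hl0
  · have hp : 0 ≤ x * Real.exp l * (1 / (s * (1 + s)) - l / s ^ 3) := by
      apply mul_nonneg (by (clear * - hx0; positivity))
      have h1 : 0 ≤ 1 / (s * (1 + s)) := by (clear * - hs0; positivity)
      have h2 : l / s ^ 3 ≤ 0 := div_nonpos_of_nonpos_of_nonneg hl0 (by positivity)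
      (clear * - h1 h2; linarith)
    rw [min_eq_right hp]
    have he : Real.exp l ≤ 1 := Real.exp_le_one_iff.2 hl0
    have he2 : Real.exp l ^ 2 ≤ 1 := pow_le_one₀ (Real.exp_pos l).le he
    have := sg_neg hs0 hs1 hl0 he2
    simpa only [neg_add_rev, one_div, ne_eq, OfNat.ofNat_ne_zero, not_false_eq_true, zero_pow, mul_zero, add_zero,     ge_iff_le] using this
  · obtain ⟨v, hv⟩ : ∃ v, l = v * s ^ 2 := ⟨l / s ^ 2, by (clear * - hs0 hl0; field_simp)⟩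
    have hV : v ≤ (38 - 7 * s ^ 2) / 50 := by
      have h1 : v * s ^ 2 ≤ (38 - 7 * s ^ 2) / 50 * s ^ 2 := by
        rw [← hv]
        refine hl.trans (le_of_eq ?_)
        ring
      exact le_of_mul_le_mul_right h1 (by positivity)
    set w : ℝ := s ^ 2 * (38 - 7 * s ^ 2) / 50 with hw
    have hlw : l ≤ w := by
      rw [hw]
      refine hl.trans (le_of_eq ?_)
      ring
    have hw0 : 0 ≤ w := hl0.le.trans hlw
    have hw1 : w ≤ 1 := by
      rw [hw]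
      have : s ^ 2 ≤ 1 := by nlinarith only [hxs]
      nlinarith only [hxs]
    set E : ℝ := 1 + w + w ^ 2 / 2 + 2 * w ^ 3 / 9 with hE
    have hlE : Real.exp l ≤ E := (Real.exp_le_exp.2 hlw).trans (sg_exp hw0 hw1)
    have hY0 : 0 ≤ Real.exp l ^ 2 := by positivity
    have hE2 : Real.exp l ^ 2 ≤ E ^ 2 := pow_le_pow_left₀ (Real.exp_pos l).le hlE 2
    have hA := sg_A hs0 hs1 (E := E) hE
    have hBB := fun h0 h1 => sg_B' (v := v) (Y := Real.exp l ^ 2) h0 hs1 hE hV h1 hY0 hE2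
    clear_value E w
    set Y := Real.exp l ^ 2 with hYd
    have e : -(1 + 2 * l) * (1 / s - 1) + l * (1 - s ^ 2) / s ^ 3 =
        (1 - s) / s * (-1 + v * ((1 - s) * (1 + 2 * s))) := by
      rw [hv]
      field_simp
      ring
    rw [e]
    have h5 : 0 < (1 - s) / s := div_pos (by linarith only [hs1]) hs0
    have h12 : (1 - s ^ 2) * Y / 16 = (1 - s) / s * (s * (1 + s) / 16 * Y) := by
      field_simp
      ring
    rw [h12]
    have ep : 1 / (s * (1 + s)) - l / s ^ 3 = (1 - v * (1 + s)) / (s * (1 + s)) := by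
      rw [hv]
      (clear * - hs0; field_simp)
    rw [ep]
    rcases le_or_gt (v * (1 + s)) 1 with hc | hc
    · have hp : 0 ≤ x * Real.exp l * ((1 - v * (1 + s)) / (s * (1 + s))) :=
        mul_nonneg (by positivity) (div_nonneg (by linarith only [hc]) (by positivity))
      rw [min_eq_right hp]
      have h10 : 0 ≤ (1 - s) * (1 + 2 * s) := mul_nonneg (by linarith only [hs1]) (by linarith only [hs0])
      have h11 := mul_le_mul_of_nonneg_right hV h10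
      have h13 : s * (1 + s) / 16 * Y ≤ s * (1 + s) / 16 * E ^ 2 :=
        mul_le_mul_of_nonneg_left hE2 (by positivity)
      have h15 : (1 - s) / s * (-1 + v * ((1 - s) * (1 + 2 * s))) +
          (1 - s) / s * (s * (1 + s) / 16 * Y) ≤ 0 := by
        rw [← mul_add]
        exact mul_nonpos_of_nonneg_of_nonpos h5.le (by linarith only [hA, h11, h13])
      linarith only [h15]
    · have hp : x * Real.exp l * ((1 - v * (1 + s)) / (s * (1 + s))) ≤ 0 :=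
        mul_nonpos_of_nonneg_of_nonpos (by positivity)
          (div_nonpos_of_nonpos_of_nonneg (by linarith only [hc]) (by positivity))
      rw [min_eq_left hp]
      have hs3 : 1 / 3 ≤ s := by
        have hVc : 1 < (38 - 7 * s ^ 2) / 50 * (1 + s) :=
          hc.trans_le (mul_le_mul_of_nonneg_right hV (by linarith only [hs0]))
        by_contra h
        push Not at h
        have k1 : 0 ≤ (1 / 3 - s) * (107 / 3 - 7 * s) := mul_nonneg (by linarith only [h]) (by linarith only [h])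
        have k2 : 0 < s ^ 3 := by positivity
        have k3 : (38 - 7 * s ^ 2) / 50 * (1 + s) =
          1 - ((1 / 3 - s) * (107 / 3 - 7 * s) + 1 / 9 + 7 * s ^ 3) / 50 := by ring
        linarith only [hVc, k1, k2]
      have h17 : 4 * (x * Real.exp l * ((1 - v * (1 + s)) / (s * (1 + s)))) ^ 2 =
          (1 - s) / s * (4 * (Y * (v * (1 + s) - 1) ^ 2) / (s * (1 + s))) := by
        have : (x * Real.exp l * ((1 - v * (1 + s)) / (s * (1 + s)))) ^ 2 =
            x ^ 2 * Y * (v * (1 + s) - 1) ^ 2 / (s * (1 + s)) ^ 2 := by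
          rw [mul_pow, mul_pow, div_pow, ← hYd]
          ring
        rw [this, hxs]
        field_simp
        ring
      rw [h17, ← mul_add, ← mul_add]
      exact mul_nonpos_of_nonneg_of_nonpos h5.le (hBB hs3 hc)

end Vale.Agent.P237.AllN
end

section

/-!
# P237, dimensions 5..8: the upper bound for `l = log (τ/x)` needed on `b ≤ 0`

For `m = 4, 5, 6, 7` and profiles with `N ≤ N_B`: `τ(x) ≤ x exp((1 - x²)(31/50 + 7/50 x²))`.
-/

open MeasureTheory Metric Set Module Filter Topology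

namespace Vale.Agent.P237.AllN

open PolyPos

/-- the polynomials -/
def slY : List ℤ := [31, 0, -24, 0, -7]

/-- `750000 x (1 + y + y²/2 + y³/6)`, `y = Y/50` -/
def slT : List ℤ :=
  pmul [0, 1] (padd [750000] (padd (psm 15000 slY) (padd (psm 150 (ppow slY 2)) (ppow slY 3))))

/-- `5000000 (1 - 3/20 T)` -/
def slB : List ℤ := padd [5000000] (psm (-1) slT)

/-- lower bound of `x exp((1-x²)(31/50+7/50x²))` -/
noncomputable def slLow (x : ℝ) : ℝ :=
  x * (1 + (1 - x ^ 2) * (31 / 50 + 7 / 50 * x ^ 2) +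
    ((1 - x ^ 2) * (31 / 50 + 7 / 50 * x ^ 2)) ^ 2 / 2 +
    ((1 - x ^ 2) * (31 / 50 + 7 / 50 * x ^ 2)) ^ 3 / 6)

theorem ev_slB (x : ℝ) : ev1 slB x = 5000000 * (1 - 3 / 20 * slLow x) := by
  simp only [slB, slT, slY, slLow, ev1_padd, ev1_psm, ev1_pmul, ev1_ppow, ev1_cons, ev1_nil]
  push_cast
  ring

theorem slLow_le {x : ℝ} (hx : x ∈ Ioo (0 : ℝ) 1) :
    slLow x ≤ x * Real.exp ((1 - x ^ 2) * (31 / 50 + 7 / 50 * x ^ 2)) := by
  unfold slLow
  apply mul_le_mul_of_nonneg_left _ hx.1.le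
  have h0 : 0 ≤ (1 - x ^ 2) * (31 / 50 + 7 / 50 * x ^ 2) :=
    mul_nonneg (by nlinarith [hx.1, hx.2]) (by positivity)
  have h := Real.sum_le_exp_of_nonneg h0 4
  simp [Finset.sum_range_succ, Nat.factorial] at h
  linarith

theorem slLow_pos {x : ℝ} (hx : x ∈ Ioo (0 : ℝ) 1) : 0 < slLow x := by
  unfold slLow
  have h0 : 0 ≤ (1 - x ^ 2) * (31 / 50 + 7 / 50 * x ^ 2) :=
    mul_nonneg (by nlinarith [hx.1, hx.2]) (by positivity)
  have hx0 := hx.1
  positivity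

theorem slLow_lt {x : ℝ} (hx : x ∈ Ioo (0 : ℝ) 1) : slLow x < 3 := by
  unfold slLow
  have hx2 : x ^ 2 ≤ 1 := by nlinarith [hx.1, hx.2]
  have h0 : 0 ≤ (1 - x ^ 2) * (31 / 50 + 7 / 50 * x ^ 2) :=
    mul_nonneg (by linarith) (by positivity)
  have h1 : (1 - x ^ 2) * (31 / 50 + 7 / 50 * x ^ 2) ≤ 1 := by nlinarith [sq_nonneg x]
  set y := (1 - x ^ 2) * (31 / 50 + 7 / 50 * x ^ 2)
  have h2 : y ^ 2 ≤ 1 := pow_le_one₀ h0 h1
  have h3 : y ^ 3 ≤ 1 := pow_le_one₀ h0 h1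
  have h4 : x * (1 + y + y ^ 2 / 2 + y ^ 3 / 6) ≤ 1 * (1 + y + y ^ 2 / 2 + y ^ 3 / 6) :=
    mul_le_mul_of_nonneg_right hx.2.le (by (clear * - hx2; positivity))
  linarith

theorem sl_close {m : ℕ} {κ τ t Z C P : ℝ} (hκ : 0 < κ) (hκτ : κ * τ ≤ 1) (hZ : 0 < Z)
    (h1 : (1 - (1 - κ * τ) ^ (m + 1)) * Z ≤ C * P) (h2 : C * P ≤ (1 - (1 - κ * t) ^ (m + 1)) * Z) :
    τ ≤ t := by
  by_contra h
  push Not at h
  have h3 : 1 - κ * τ < 1 - κ * t := by linarith only [mul_pos (sub_pos.2 hκ) (sub_pos.2 h)]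
  have h4 : (1 - κ * τ) ^ (m + 1) < (1 - κ * t) ^ (m + 1) :=
    pow_lt_pow_left₀ h3 (by linarith) (by omega)
  have h5 := h1.trans h2
  have h6 := le_of_mul_le_mul_right h5 hZ
  linarith

theorem sl_int_le {m : ℕ} {Q q : ℝ → ℝ} {x : ℝ} (hx : x ∈ Ioo (0 : ℝ) 1)
    (hQ : ∀ t, HasDerivAt Q (q t) t) (hq : Continuous q) (h0 : Q 0 = 0)
    (h : ∀ t ∈ Icc (0 : ℝ) x, sq t ^ m ≤ q t) : ∫ t in (0 : ℝ)..x, sq t ^ m ≤ Q x := by
  have h1 : ∫ t in (0 : ℝ)..x, q t = Q x - Q 0 :=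
    intervalIntegral.integral_eq_sub_of_hasDerivAt (fun t _ => hQ t) (hq.intervalIntegrable _ _)
  have h2 : ∫ t in (0 : ℝ)..x, sq t ^ m ≤ ∫ t in (0 : ℝ)..x, q t := by
    apply intervalIntegral.integral_mono_on hx.1.le _ (hq.intervalIntegrable _ _) h
    have : Continuous fun t => sq t ^ m := by unfold sq; fun_prop
    exact this.intervalIntegrable _ _
  rw [h1, h0, sub_zero] at h2
  exact h2

theorem sq_le_poly {t : ℝ} (h0 : 0 ≤ t) (h1 : t ≤ 1) :
    sq t ≤ 1 - t ^ 2 / 2 - t ^ 4 / 8 - t ^ 6 / 16 := by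
  have ht : t ^ 2 ≤ 1 := by linarith only [mul_nonneg (sub_nonneg.2 h1) (sub_nonneg.2 h1), mul_nonneg (sub_nonneg.2 h0) (sub_nonneg.2 h1)]
  have h4 : t ^ 4 ≤ 1 := pow_le_one₀ h0 h1
  have h6 : t ^ 6 ≤ 1 := pow_le_one₀ h0 h1
  unfold sq
  rw [Real.sqrt_le_left (by linarith)]
  have e : (1 - t ^ 2 / 2 - t ^ 4 / 8 - t ^ 6 / 16) ^ 2 =
    1 - t ^ 2 + (5 / 64 * t ^ 8 + t ^ 10 / 64 + t ^ 12 / 256) := by ring
  rw [e]
  have : 0 ≤ 5 / 64 * t ^ 8 + t ^ 10 / 64 + t ^ 12 / 256 := by positivity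
  linarith only [this]

theorem sq_sq {t : ℝ} (h0 : 0 ≤ t) (h1 : t ≤ 1) : sq t ^ 2 = 1 - t ^ 2 := by
  unfold sq
  exact Real.sq_sqrt (by nlinarith)

theorem sl_int4 {x : ℝ} (hx : x ∈ Ioo (0 : ℝ) 1) :
    ∫ t in (0 : ℝ)..x, sq t ^ 4 ≤ (15 * x - 10 * x ^ 3 + 3 * x ^ 5) / 15 := by
  apply sl_int_le (Q := fun x => (15 * x - 10 * x ^ 3 + 3 * x ^ 5) / 15)
    (q := fun t => (1 - t ^ 2) ^ 2) hx _ (by fun_prop) (by norm_num)
  · intro t ht
    have := sq_sq ht.1 (ht.2.trans hx.2.le)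
    calc sq t ^ 4 = (sq t ^ 2) ^ 2 := by ring
      _ ≤ (1 - t ^ 2) ^ 2 := by rw [this]
  · intro t
    have := ((((hasDerivAt_id t).const_mul 15).sub ((hasDerivAt_pow 3 t).const_mul 10)).add
      ((hasDerivAt_pow 5 t).const_mul 3)).div_const 15
    refine HasDerivAt.congr_deriv this ?_
    push_cast
    ring

theorem sl_P4 {x : ℝ} (hx : x ∈ Ioo (0 : ℝ) 1) (h34 : x < 3 / 4) :
    (1 - (1 - 3 / 20) ^ (4 + 1)) * (∫ t in (0 : ℝ)..x, sq t ^ 4) ≤
      (1 - (1 - 3 / 20 * slLow x) ^ (4 + 1)) * (∫ t in (0 : ℝ)..1, sq t ^ 4) := by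
  have hP := sl_int4 hx
  have h := check1_sound (A := 0) (B := 3) (D := 4) (by norm_num)
    (p := padd (psm 8 (padd [5000000 ^ 5] (psm (-1) (ppow slB 5))))
      (psm (-(5000000 ^ 5 - 4250000 ^ 5)) [0, 15, 0, -10, 0, 3]))
    (by decide +kernel) (x := x) (by simpa using hx.1.le) (by push_cast; linarith)
  simp only [ev1_padd, ev1_psm, ev1_ppow, ev_slB, ev1_cons, ev1_nil] at h
  rw [ap_Z4]
  push_cast at h
  have h3 : (1 - (1 - 3 / 20 : ℝ) ^ (4 + 1)) * (∫ t in (0 : ℝ)..x, sq t ^ 4) ≤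
      (1 - (1 - 3 / 20 : ℝ) ^ (4 + 1)) * ((15 * x - 10 * x ^ 3 + 3 * x ^ 5) / 15) :=
    mul_le_mul_of_nonneg_left hP (by norm_num)
  refine h3.trans ?_
  set S := (1 - 3 / 20 * slLow x) with hS
  rw [mul_pow] at h
  norm_num at h ⊢
  linarith only [h]

theorem sl_int6 {x : ℝ} (hx : x ∈ Ioo (0 : ℝ) 1) :
    ∫ t in (0 : ℝ)..x, sq t ^ 6 ≤
    (35 * x - 35 * x ^ 3 + 21 * x ^ 5 - 5 * x ^ 7) / 35 := by
  apply sl_int_le (Q := fun x => (35 * x - 35 * x ^ 3 + 21 * x ^ 5 - 5 * x ^ 7) / 35)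
    (q := fun t => (1 - t ^ 2) ^ 3) hx _ (by fun_prop) (by norm_num)
  · intro t ht
    have := sq_sq ht.1 (ht.2.trans hx.2.le)
    calc sq t ^ 6 = (sq t ^ 2) ^ 3 := by ring
      _ ≤ (1 - t ^ 2) ^ 3 := by rw [this]
  · intro t
    have := (((((hasDerivAt_id t).const_mul 35).sub ((hasDerivAt_pow 3 t).const_mul 35)).add
      ((hasDerivAt_pow 5 t).const_mul 21)).sub ((hasDerivAt_pow 7 t).const_mul 5)).div_const 35
    refine HasDerivAt.congr_deriv this ?_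
    push_cast
    ring

theorem sl_P6 {x : ℝ} (hx : x ∈ Ioo (0 : ℝ) 1) (h34 : x < 3 / 4) :
    (1 - (1 - 3 / 20) ^ (6 + 1)) * (∫ t in (0 : ℝ)..x, sq t ^ 6) ≤
      (1 - (1 - 3 / 20 * slLow x) ^ (6 + 1)) * (∫ t in (0 : ℝ)..1, sq t ^ 6) := by
  have hP := sl_int6 hx
  have h := check1_sound (A := 0) (B := 3) (D := 4) (by norm_num)
    (p := padd (psm 16 (padd [5000000 ^ 7] (psm (-1) (ppow slB 7))))
      (psm (-(5000000 ^ 7 - 4250000 ^ 7)) [0, 35, 0, -35, 0, 21, 0, -5]))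
    (by decide +kernel) (x := x) (by simpa using hx.1.le) (by push_cast; linarith)
  simp only [ev1_padd, ev1_psm, ev1_ppow, ev_slB, ev1_cons, ev1_nil] at h
  rw [ap_Z6]
  push_cast at h
  have h3 : (1 - (1 - 3 / 20 : ℝ) ^ (6 + 1)) * (∫ t in (0 : ℝ)..x, sq t ^ 6) ≤
      (1 - (1 - 3 / 20 : ℝ) ^ (6 + 1)) * ((35 * x - 35 * x ^ 3 + 21 * x ^ 5 - 5 * x ^ 7) / 35) :=
    mul_le_mul_of_nonneg_left hP (by norm_num)
  refine h3.trans ?_
  set S := (1 - 3 / 20 * slLow x) with hS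
  rw [mul_pow] at h
  norm_num at h ⊢
  linarith only [h]

theorem sl_int5 {x : ℝ} (hx : x ∈ Ioo (0 : ℝ) 1) :
    ∫ t in (0 : ℝ)..x, sq t ^ 5 ≤
    (3696 * x - 3080 * x ^ 3 + 1386 * x ^ 5 - 165 * x ^ 7 - 21 * x ^ 11) / 3696 := by
  apply sl_int_le
    (Q := fun x => (3696 * x - 3080 * x ^ 3 + 1386 * x ^ 5 - 165 * x ^ 7 - 21 * x ^ 11) / 3696)
    (q := fun t => (1 - t ^ 2 / 2 - t ^ 4 / 8 - t ^ 6 / 16) * (1 - t ^ 2) ^ 2) hx _
    (by fun_prop) (by norm_num)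
  · intro t ht
    have h2 := sq_sq ht.1 (ht.2.trans hx.2.le)
    calc sq t ^ 5 = sq t * (sq t ^ 2) ^ 2 := by ring
      _ ≤ (1 - t ^ 2 / 2 - t ^ 4 / 8 - t ^ 6 / 16) * (1 - t ^ 2) ^ 2 := by
        rw [h2]
        exact mul_le_mul_of_nonneg_right (sq_le_poly ht.1 (ht.2.trans hx.2.le)) (sq_nonneg _)
  · intro t
    have := ((((((hasDerivAt_id t).const_mul 3696).sub
      ((hasDerivAt_pow 3 t).const_mul 3080)).add ((hasDerivAt_pow 5 t).const_mul 1386)).sub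
      ((hasDerivAt_pow 7 t).const_mul 165)).sub
      ((hasDerivAt_pow 11 t).const_mul 21)).div_const 3696
    refine HasDerivAt.congr_deriv this ?_
    push_cast
    ring

theorem sl_P5 {x : ℝ} (hx : x ∈ Ioo (0 : ℝ) 1) (h34 : x < 3 / 4) :
    (1 - (1 - 3 / 20) ^ (5 + 1)) * (∫ t in (0 : ℝ)..x, sq t ^ 5) ≤
      (1 - (1 - 3 / 20 * slLow x) ^ (5 + 1)) * (157 / 320) := by
  have hP := sl_int5 hx
  have h := check1_sound (A := 0) (B := 3) (D := 4) (by norm_num)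
    (p := padd (psm (157 * 231) (padd [5000000 ^ 6] (psm (-1) (ppow slB 6))))
      (psm (-(20 * (5000000 ^ 6 - 4250000 ^ 6)))
        [0, 3696, 0, -3080, 0, 1386, 0, -165, 0, 0, 0, -21]))
    (by decide +kernel) (x := x) (by simpa using hx.1.le) (by push_cast; linarith)
  simp only [ev1_padd, ev1_psm, ev1_ppow, ev_slB, ev1_cons, ev1_nil] at h
  push_cast at h
  have h3 : (1 - (1 - 3 / 20 : ℝ) ^ (5 + 1)) * (∫ t in (0 : ℝ)..x, sq t ^ 5) ≤
      (1 - (1 - 3 / 20 : ℝ) ^ (5 + 1)) *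
        ((3696 * x - 3080 * x ^ 3 + 1386 * x ^ 5 - 165 * x ^ 7 - 21 * x ^ 11) / 3696) :=
    mul_le_mul_of_nonneg_left hP (by norm_num)
  refine h3.trans ?_
  set S := (1 - 3 / 20 * slLow x) with hS
  rw [mul_pow] at h
  norm_num at h ⊢
  linarith only [h]

theorem sl_int7 {x : ℝ} (hx : x ∈ Ioo (0 : ℝ) 1) :
    ∫ t in (0 : ℝ)..x, sq t ^ 7 ≤
    (20592 * x - 24024 * x ^ 3 + 18018 * x ^ 5 - 6435 * x ^ 7 + 715 * x ^ 9 - 117 * x ^ 11 +
      99 * x ^ 13) / 20592 := by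
  apply sl_int_le
    (Q := fun x => (20592 * x - 24024 * x ^ 3 + 18018 * x ^ 5 - 6435 * x ^ 7 + 715 * x ^ 9 -
      117 * x ^ 11 + 99 * x ^ 13) / 20592)
    (q := fun t => (1 - t ^ 2 / 2 - t ^ 4 / 8 - t ^ 6 / 16) * (1 - t ^ 2) ^ 3) hx _
    (by fun_prop) (by norm_num)
  · intro t ht
    have h2 := sq_sq ht.1 (ht.2.trans hx.2.le)
    calc sq t ^ 7 = sq t * (sq t ^ 2) ^ 3 := by ring
      _ ≤ (1 - t ^ 2 / 2 - t ^ 4 / 8 - t ^ 6 / 16) * (1 - t ^ 2) ^ 3 := by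
        rw [h2]
        refine mul_le_mul_of_nonneg_right (sq_le_poly ht.1 (ht.2.trans hx.2.le)) ?_
        rw [← h2]
        positivity
  · intro t
    have := ((((((((hasDerivAt_id t).const_mul 20592).sub
      ((hasDerivAt_pow 3 t).const_mul 24024)).add ((hasDerivAt_pow 5 t).const_mul 18018)).sub
      ((hasDerivAt_pow 7 t).const_mul 6435)).add ((hasDerivAt_pow 9 t).const_mul 715)).sub
      ((hasDerivAt_pow 11 t).const_mul 117)).add
      ((hasDerivAt_pow 13 t).const_mul 99)).div_const 20592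
    refine HasDerivAt.congr_deriv this ?_
    push_cast
    ring

/-- the polynomial for `m = 7` -/
def slP7 : List ℤ := padd (psm 1414413 (padd [5000000 ^ 8] (psm (-1) (ppow slB 8))))
      (psm (-(160 * (5000000 ^ 8 - 4250000 ^ 8)))
        [0, 20592, 0, -24024, 0, 18018, 0, -6435, 0, 715, 0, -117, 0, 99])

theorem slP7_check : check1 0 3 4 slP7 = true := by decide +kernel

theorem sl_chk7 {x : ℝ} (hx : x ∈ Ioo (0 : ℝ) 1) (h34 : x < 3 / 4) :
    0 ≤ 1414413 * (5000000 ^ 8 - ev1 slB x ^ 8) - (160 * (5000000 ^ 8 - 4250000 ^ 8)) *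
      (20592 * x - 24024 * x ^ 3 + 18018 * x ^ 5 - 6435 * x ^ 7 + 715 * x ^ 9 - 117 * x ^ 11 +
        99 * x ^ 13) := by
  have h0 : ((0 : ℤ) : ℝ) ≤ ((4 : ℤ) : ℝ) * x := by push_cast; linarith [hx.1]
  have h1 : ((4 : ℤ) : ℝ) * x < ((3 : ℤ) : ℝ) := by push_cast; linarith
  have h := check1_sound (by norm_num) slP7_check h0 h1
  simp only [slP7, ev1_padd, ev1_psm, ev1_ppow, ev1_cons, ev1_nil] at h
  refine h.trans (le_of_eq ?_)
  generalize ev1 slB x = B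
  push_cast
  ring

theorem sl_fin7 {S Q I : ℝ} (hQ : I ≤ Q / 20592)
    (h : 0 ≤ 1414413 * (5000000 ^ 8 - (5000000 * S) ^ 8) -
      (160 * (5000000 ^ 8 - 4250000 ^ 8)) * Q) :
    (1 - (1 - 3 / 20) ^ (7 + 1)) * I ≤ (1 - S ^ (7 + 1)) * (1099 / 2560) := by
  have h3 : (1 - (1 - 3 / 20 : ℝ) ^ (7 + 1)) * I ≤ (1 - (1 - 3 / 20 : ℝ) ^ (7 + 1)) * (Q / 20592) :=
    mul_le_mul_of_nonneg_left hQ (by norm_num)
  refine h3.trans ?_
  rw [mul_pow] at h
  norm_num at h ⊢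
  linarith only [h]

theorem sl_P7 {x : ℝ} (hx : x ∈ Ioo (0 : ℝ) 1) (h34 : x < 3 / 4) :
    (1 - (1 - 3 / 20) ^ (7 + 1)) * (∫ t in (0 : ℝ)..x, sq t ^ 7) ≤
      (1 - (1 - 3 / 20 * slLow x) ^ (7 + 1)) * (1099 / 2560) := by
  have h := sl_chk7 hx h34
  rw [ev_slB] at h
  exact sl_fin7 (sl_int7 hx) h

/-- the polynomial near `x = 1` -/
def slR : List ℤ :=
  padd (pmul [0, 1] (padd [93750] (padd (psm 3750 [31, -24, -7])
    (padd (psm 75 (ppow [31, -24, -7] 2)) (ppow [31, -24, -7] 3))))) [-93750]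

theorem slR_check : check1 11 20 20 slR = true := by decide +kernel

theorem sl_near {x : ℝ} (hx : x ∈ Ioo (0 : ℝ) 1) (h34 : 3 / 4 ≤ x) :
    1 ≤ x * Real.exp ((1 - x ^ 2) * (31 / 50 + 7 / 50 * x ^ 2)) := by
  have hx0 := hx.1
  have hz1 : x ^ 2 < 1 := by nlinarith [hx.2]
  have h0 : ((11 : ℤ) : ℝ) ≤ ((20 : ℤ) : ℝ) * x ^ 2 := by push_cast; nlinarith
  have h1 : ((20 : ℤ) : ℝ) * x ^ 2 < ((20 : ℤ) : ℝ) := by push_cast; linarith
  have h := check1_sound (by norm_num) slR_check h0 h1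
  simp only [slR, ev1_padd, ev1_psm, ev1_pmul, ev1_ppow, ev1_cons, ev1_nil] at h
  push_cast at h
  set z := x ^ 2 with hz
  have hY0 : 0 ≤ 2 * ((1 - z) * (31 / 50 + 7 / 50 * z)) :=
    mul_nonneg (by norm_num) (mul_nonneg (by linarith) (by positivity))
  have hexp := Real.sum_le_exp_of_nonneg hY0 4
  simp [Finset.sum_range_succ, Nat.factorial] at hexp
  set y := (1 - z) * (31 / 50 + 7 / 50 * z) with hy
  have h2 : 1 ≤ z * Real.exp (2 * y) := by
    have h3 : z * (1 + 2 * y + (2 * y) ^ 2 / 2 + (2 * y) ^ 3 / 6) ≤ z * Real.exp (2 * y) :=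
      mul_le_mul_of_nonneg_left hexp (by positivity)
    refine le_trans ?_ h3
    rw [hy]
    linarith only [h]
  have h4 : z * Real.exp (2 * y) = (x * Real.exp y) ^ 2 := by
    rw [hz, mul_pow, ← Real.exp_nat_mul]
    norm_num
  rw [h4] at h2
  have h5 : 0 ≤ x * Real.exp y := by positivity
  (by_contra nlg; linarith only [nlg, mul_nonneg (sub_nonneg.2 h2) (sub_nonneg.2 h5), mul_nonneg (le_of_lt (sub_pos.2 (not_le.1 nlg))) (sub_nonneg.2 h5), mul_nonneg (le_of_lt (sub_pos.2 (not_le.1 nlg))) (sub_nonneg.2 h2), mul_pos (sub_pos.2 (not_le.1 nlg)) (sub_pos.2 (not_le.1 nlg))])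

/-- **Upper bound for the transport** under `N ≤ N_B`, `m = 4, 5, 6, 7`. -/
theorem IsTrans.le_sgn {m : ℕ} (hm4 : 4 ≤ m) (hm7 : m ≤ 7) {r τ τ' T : ℝ → ℝ} (hr : IsProf r)
    (h : IsTrans m r τ τ' T)
    (hN : (∫ y in (-1 : ℝ)..1, r y ^ (m - 1)) ^ m * aInt m ^ (m - 1) ≤
      aInt (m - 1) ^ m * (∫ y in (-1 : ℝ)..1, r y ^ m) ^ (m - 1))
    {x : ℝ} (hx : x ∈ Ioo (0 : ℝ) 1) :
    τ x ≤ x * Real.exp ((1 - x ^ 2) * (31 / 50 + 7 / 50 * x ^ 2)) := by
  have hτ := h.mem x hx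
  rcases lt_or_ge x (3 / 4) with h34 | h34
  · refine le_trans ?_ (slLow_le hx)
    have hκ : (0 : ℝ) < 3 / 20 := by norm_num
    have hκ1 : (3 / 20 : ℝ) ≤ 1 := by norm_num
    have hκτ : (3 / 20 : ℝ) * τ x ≤ 1 := by linarith only [hτ.2]
    interval_cases m
    · have h1 := h.apri (by norm_num) hr hN hκ hκ1 ap_num4 hx
      refine sl_close hκ hκτ ?_ h1 (sl_P4 hx h34)
      rw [ap_Z4]; norm_num
    · have h1 := h.apri (by norm_num) hr hN hκ hκ1 ap_num5 hx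
      refine sl_close hκ hκτ ?_ h1 ((sl_P5 hx h34).trans ?_)
      · rw [ap_Z5]; positivity
      · rw [ap_Z5]
        apply mul_le_mul_of_nonneg_left
        · linarith only [Real.pi_gt_d2]
        · have h2 := slLow_pos hx
          have h3 := slLow_lt hx
          have h4 : (1 - 3 / 20 * slLow x) ^ (5 + 1) ≤ 1 :=
            pow_le_one₀ (by linarith only [h3]) (by linarith only [h2])
          linarith only [h4]
    · have h1 := h.apri (by norm_num) hr hN hκ hκ1 ap_num6 hx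
      refine sl_close hκ hκτ ?_ h1 (sl_P6 hx h34)
      rw [ap_Z6]; norm_num
    · have h1 := h.apri (by norm_num) hr hN hκ hκ1 ap_num7 hx
      refine sl_close hκ hκτ ?_ h1 ((sl_P7 hx h34).trans ?_)
      · rw [ap_Z7]; positivity
      · rw [ap_Z7]
        apply mul_le_mul_of_nonneg_left
        · linarith only [Real.pi_gt_d2]
        · have h2 := slLow_pos hx
          have h3 := slLow_lt hx
          have h4 : (1 - 3 / 20 * slLow x) ^ (7 + 1) ≤ 1 :=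
            pow_le_one₀ (by linarith only [h3]) (by linarith only [h2])
          linarith only [h4]
  · linarith only [sl_near hx h34, hτ.2]

/-- the same with the logarithm -/
theorem IsTrans.log_le_sgn {m : ℕ} (hm4 : 4 ≤ m) (hm7 : m ≤ 7) {r τ τ' T : ℝ → ℝ}
    (hr : IsProf r) (h : IsTrans m r τ τ' T)
    (hN : (∫ y in (-1 : ℝ)..1, r y ^ (m - 1)) ^ m * aInt m ^ (m - 1) ≤
      aInt (m - 1) ^ m * (∫ y in (-1 : ℝ)..1, r y ^ m) ^ (m - 1))
    {x : ℝ} (hx : x ∈ Ioo (0 : ℝ) 1) :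
    Real.log (τ x / x) ≤ (1 - x ^ 2) * (31 / 50 + 7 / 50 * x ^ 2) := by
  have hτ := h.mem x hx
  have h1 := h.le_sgn hm4 hm7 hr hN hx
  have hx0 := hx.1
  rw [Real.log_le_iff_le_exp (div_pos hτ.1 hx0), div_le_iff₀ hx0]
  linarith only [h1]

/-- **Admissibility of the plain tangent pair** of the kernel `kA`, `m = 4, 5, 6, 7`, for
profiles with `N ≤ N_B`. -/
theorem IsTrans.kA_plain_le {m : ℕ} (hm4 : 4 ≤ m) (hm7 : m ≤ 7) {r τ τ' T : ℝ → ℝ}
    (hr : IsProf r) (h : IsTrans m r τ τ' T)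
    (hN : (∫ y in (-1 : ℝ)..1, r y ^ (m - 1)) ^ m * aInt m ^ (m - 1) ≤
      aInt (m - 1) ^ m * (∫ y in (-1 : ℝ)..1, r y ^ m) ^ (m - 1))
    {x : ℝ} (hx : x ∈ Ioo (0 : ℝ) 1) {b : ℝ} (hb : b ∈ Icc (-1 : ℝ) 1) :
    kAc x (Real.log (τ x / x)) + kAp x (Real.log (τ x / x)) * b ≤ kA (τ x) b := by
  have hτ := h.mem x hx
  have hx0 := hx.1
  have e : x * Real.exp (Real.log (τ x / x)) = τ x := by
    rw [Real.exp_log (div_pos hτ.1 hx0)]
    field_simp
  rcases lt_or_ge 0 b with hb0 | hb0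
  · have h1 := kA_plain_pos (x := x) (l := Real.log (τ x / x)) hx (by rw [e]; exact hτ.2) hb0 hb.2
    rwa [e] at h1
  · have h1 := kA_neg_plain hx (h.log_le_sgn hm4 hm7 hr hN hx)
    rw [e] at h1
    exact kA_neg hτ.1 h1 hb0

end Vale.Agent.P237.AllN
end
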