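import Vale.Agent.P237.Bd3.B4
import Vale.Agent.P237.Bd3.B5

set_option linter.all false

section

/-!
# P237, plain certificate for `m = 4`: matrix entries with a free pole `x₀² = cx` and with
multipliers coming from a joint bound of `l` and `u`, and the reduction of the pointwise
inequality to the quadratic forms
-/

namespace Vale.Agent.P237.AllN.M4

open PolyPos

section

variable {α : Type} [Add α] [Sub α] [Mul α]

/-- entries on the left, `u ≥ 0`; variables `x`, `v = u/x`; multiplier `kap`, `l ≤ ly` -/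
def entLP (k : Fr → α) (P : Pm) (cx : Fr) (kap ly R C rb x v : α) : Ent α :=
  let one := k ⟨1, 0⟩
  let z := x * x
  let t := one - z
  let t2 := t * t
  let E := one + x * v
  let de := k cx - z
  let a0 := k P.th * k P.ch - k ⟨9, 1⟩ * k P.cg - k P.cg * C
  let S := k ⟨3, 0⟩ * k P.cg * z + k P.ci * (rb * t)
  let Qu := (one - kap) * (t * v * S)
  let Qll := E * (t * a0 + k ⟨3, 1⟩ * k P.cg * k P.c3 * z) - k P.c2 * (rb * (v * v) * t2)
  let Qlk := k P.c1 * k P.k1 * (t * E) - k P.k1 * k P.ci * (rb * (v * v) * t2)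
  let A := k P.a1 + k P.a2 * de
  { a := t2 * (k ⟨2, 0⟩ * k P.cg * R - rb - k P.eps) - kap * (t * S) * ly
    b := de * de * Qll + E * t2 * (k ⟨2, 0⟩ * k P.a1 * k cx + k ⟨2, 0⟩ * k P.a2 * (de * de)) +
      E * t * (t - k P.c1 * z) * (de * A)
    c := Qll + Qlk
    d := k ⟨1, 1⟩ * (k ⟨2, 0⟩ * x * t2 * E * A - de * Qu)
    f := k ⟨1, 1⟩ * (k P.a3 * x * t2 * E - Qu - k P.k1 * (t2 * rb * v))
    g := k ⟨1, 1⟩ * (de * (k ⟨2, 0⟩ * Qll + Qlk) +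
      de * k P.a3 * E * t * (k ⟨3, 0⟩ * t - k P.c1 * z))
    W := one
    e := k P.e0 * t2 }

/-- entries on the left, `u ≤ 0`; variables `z = x²`, `n1 = -u/z` -/
def entLM (k : Fr → α) (P : Pm) (cx : Fr) (R C rb z n1 : α) : Ent α :=
  let one := k ⟨1, 0⟩
  let t := one - z
  let t2 := t * t
  let n := z * n1
  let E := one - n
  let de := k cx - z
  let a0 := k P.th * k P.ch - k ⟨9, 1⟩ * k P.cg - k P.cg * C
  let S := k ⟨3, 0⟩ * k P.cg * z + k P.ci * (rb * t)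
  let Qu := n1 * (S * t)
  let Qll := E * (t * a0 + k ⟨3, 1⟩ * k P.cg * k P.c3 * z) - k P.c2 * (rb * (z * (n1 * n1)) * t2)
  let Qlk := k P.c1 * k P.k1 * (t * E) - k P.k1 * k P.ci * (rb * (z * (n1 * n1)) * t2)
  let A := k P.a1 + k P.a2 * de
  { a := t2 * (k ⟨2, 0⟩ * k P.cg * R - rb - k P.eps)
    b := de * de * Qll + E * t2 * (k ⟨2, 0⟩ * k P.a1 * k cx + k ⟨2, 0⟩ * k P.a2 * (de * de)) +
      E * t * (t - k P.c1 * z) * (de * A)
    c := Qll + Qlk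
    d := k ⟨1, 1⟩ * (de * Qu + k ⟨2, 0⟩ * t2 * E * A)
    f := k ⟨1, 1⟩ * (Qu + k P.k1 * (t2 * rb * n1) + k P.a3 * t2 * E)
    g := k ⟨1, 1⟩ * (de * (k ⟨2, 0⟩ * Qll + Qlk) +
      de * k P.a3 * E * t * (k ⟨3, 0⟩ * t - k P.c1 * z))
    W := z
    e := k P.e0 * t2 }

/-- entries on the right, `u ≤ 0`; variables `s`, `E = 1 + u` -/
def entRM (k : Fr → α) (P : Pm) (cx : Fr) (kap ly C rh s E : α) : Ent α :=
  let one := k ⟨1, 0⟩
  let t := s * s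
  let z := one - t
  let n := one - E
  let de := z - k cx
  let a0 := k P.th * k P.ch - k ⟨9, 1⟩ * k P.cg - k P.cg * C
  let S := k ⟨3, 0⟩ * k P.cg * z + k P.ci * (rh * t)
  let Qu := n * (one - kap * n) * S
  let Qll := E * (z * t * a0 + k ⟨3, 1⟩ * k P.cg * k P.c3 * (z * z)) -
    k P.c2 * (rh * (n * n) * (t * t))
  let Qlk := E * (k P.c1 * k P.k1) * (z * t) - k P.k1 * k P.ci * (rh * (n * n) * (t * t))
  { a := k ⟨2, 0⟩ * k P.cg * (one + s - t) - (one + s) * (rh + kap * (n * S) * ly + k P.eps)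
    b := de * de * Qll + E * (k ⟨2, 0⟩ * k P.a4 * k cx * (z * (t * t)) -
      k P.a4 * (z * de) * t * (t - k P.c1 * z))
    c := Qll + Qlk
    d := k ⟨1, 1⟩ * (de * Qu - k ⟨2, 0⟩ * k P.a4 * (z * t) * E)
    f := k ⟨1, 1⟩ * (Qu + k P.k1 * (rh * n * t))
    g := k ⟨1, 1⟩ * de * (k ⟨2, 0⟩ * Qll + Qlk)
    W := one + s
    e := k P.e0 }

/-- entries on the right, `u ≥ 0`; variables `s`, `β = 1/(1 + u)`; tail bound of `l` -/
def entRP (k : Fr → α) (P : Pm) (cx : Fr) (kap lp C rh s be : α) : Ent α :=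
  let one := k ⟨1, 0⟩
  let t := s * s
  let z := one - t
  let n := one - be
  let de := z - k cx
  let a0 := k P.th * k P.ch - k ⟨9, 1⟩ * k P.cg - k P.cg * C
  let S := k ⟨3, 0⟩ * k P.cg * z + k P.ci * (rh * t)
  let G := k P.cm + k ⟨2, 0⟩ - (k P.cm + one) * t
  let D2 := k ⟨2, 0⟩ * be * G + t
  let lt := lp * D2 - k ⟨2, 0⟩
  let Qu := (one - kap) * n * S
  let Qll := be * (z * t * a0 + k ⟨3, 1⟩ * k P.cg * k P.c3 * (z * z)) -
    k P.c2 * (rh * (n * n) * (t * t))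
  let Qlk := be * (k P.c1 * k P.k1) * (z * t) - k P.k1 * k P.ci * (rh * (n * n) * (t * t))
  { a := D2 * (k ⟨2, 0⟩ * k P.cg * (one + s - t) - (one + s) * (rh + k P.eps)) -
      (one + s) * kap * S * lt
    b := de * de * Qll + be * (k ⟨2, 0⟩ * k P.a4 * k cx * (z * (t * t)) -
      k P.a4 * (z * de) * t * (t - k P.c1 * z))
    c := Qll + Qlk
    d := k ⟨-1, 1⟩ * (de * Qu + k ⟨2, 0⟩ * k P.a4 * (z * t))
    f := k ⟨-1, 1⟩ * (Qu + k P.k1 * (rh * n * t))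
    g := k ⟨1, 1⟩ * de * (k ⟨2, 0⟩ * Qll + Qlk)
    W := D2 * (one + s)
    e := k P.e0 * D2 }

/-- entries on the right, `u ≥ 0`; variables `s`, `β = 1/(1 + u)`; joint bound
`l ≤ t (jj - kk u)` -/
def entRJ (k : Fr → α) (P : Pm) (cx : Fr) (kap jj kk C rh s be : α) : Ent α :=
  let one := k ⟨1, 0⟩
  let t := s * s
  let z := one - t
  let n := one - be
  let de := z - k cx
  let a0 := k P.th * k P.ch - k ⟨9, 1⟩ * k P.cg - k P.cg * C
  let S := k ⟨3, 0⟩ * k P.cg * z + k P.ci * (rh * t)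
  let lt := jj * be - kk * n
  let Qu := (one - kap) * n * S
  let Qll := be * (z * t * a0 + k ⟨3, 1⟩ * k P.cg * k P.c3 * (z * z)) -
    k P.c2 * (rh * (n * n) * (t * t))
  let Qlk := be * (k P.c1 * k P.k1) * (z * t) - k P.k1 * k P.ci * (rh * (n * n) * (t * t))
  { a := be * (k ⟨2, 0⟩ * k P.cg * (one + s - t) - (one + s) * (rh + k P.eps)) -
      (one + s) * kap * S * lt
    b := de * de * Qll + be * (k ⟨2, 0⟩ * k P.a4 * k cx * (z * (t * t)) -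
      k P.a4 * (z * de) * t * (t - k P.c1 * z))
    c := Qll + Qlk
    d := k ⟨-1, 1⟩ * (de * Qu + k ⟨2, 0⟩ * k P.a4 * (z * t))
    f := k ⟨-1, 1⟩ * (Qu + k P.k1 * (rh * n * t))
    g := k ⟨1, 1⟩ * de * (k ⟨2, 0⟩ * Qll + Qlk)
    W := be * (one + s)
    e := k P.e0 * be }

/-- entries on the right, `u ≥ 0`, near `x = 1`; variables `s`, `v = u s` (`q = s + v`),
`ρ` bounded by `(r0 s + v) / (s + v)` -/
def entRS (k : Fr → α) (P : Pm) (cx : Fr) (kap lp C r0 s v : α) : Ent α :=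
  let one := k ⟨1, 0⟩
  let t := s * s
  let z := one - t
  let de := z - k cx
  let q := s + v
  let rq := r0 * s + v
  let a0 := k P.th * k P.ch - k ⟨9, 1⟩ * k P.cg - k P.cg * C
  let Sq := k ⟨3, 0⟩ * k P.cg * (z * q) + k P.ci * (rq * t)
  let G := k P.cm + k ⟨2, 0⟩ - (k P.cm + one) * t
  let D2 := k ⟨2, 0⟩ * s * G + t * q
  let lt := lp * D2 - k ⟨2, 0⟩ * q
  let Qu := (one - kap) * v * Sq
  let Qll := s * (q * q) * (z * t * a0 + k ⟨3, 1⟩ * k P.cg * k P.c3 * (z * z)) -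
    k P.c2 * (rq * (v * v) * (t * t))
  let Qlk := s * (q * q) * (k P.c1 * k P.k1) * (z * t) -
    k P.k1 * k P.ci * (rq * (v * v) * (t * t))
  { a := D2 * (k ⟨2, 0⟩ * k P.cg * (one + s - t) * q - (one + s) * (rq + k P.eps * q)) -
      (one + s) * kap * Sq * lt
    b := de * de * Qll + s * (q * q) * (k ⟨2, 0⟩ * k P.a4 * k cx * (z * (t * t)) -
      k P.a4 * (z * de) * t * (t - k P.c1 * z))
    c := Qll + Qlk
    d := k ⟨-1, 1⟩ * (de * Qu + k ⟨2, 0⟩ * k P.a4 * (z * t) * (q * q))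
    f := k ⟨-1, 1⟩ * (Qu + k P.k1 * (rq * v * t))
    g := k ⟨1, 1⟩ * de * (k ⟨2, 0⟩ * Qll + Qlk)
    W := D2 * (one + s)
    e := k P.e0 * (s * s) }

end

theorem formLP {P : Pm} {cx : Fr} {kap ly R C rb : Ex} {x v : ℝ}
    (h : ∀ p ∈ psdE (entLP Ex.c P cx kap ly R C rb Ex.X Ex.Y), 0 ≤ p.R x v) (he : 0 < P.e0.R)
    (ht : 0 < 1 - x * x) :
    FormNN (entLP Fr.R P cx (kap.R x v) (ly.R x v) (R.R x v) (C.R x v) (rb.R x v) x v) := by
  refine formNN_of h ?_ ?_ ?_ ?_ ?_ ?_ ?_ ?_ ?_ ?_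
  any_goals simp only [entLP, Ex.R_add, Ex.R_sub, Ex.R_mul, Ex.R_c, Ex.R_X, Ex.R_Y]
  · rw [Fr.R1]
    positivity
  · rw [Fr.R1]
    norm_num

theorem formLM {P : Pm} {cx : Fr} {R C rb : Ex} {z n1 : ℝ}
    (h : ∀ p ∈ psdE (entLM Ex.c P cx R C rb Ex.X Ex.Y), 0 ≤ p.R z n1) (he : 0 < P.e0.R)
    (hz : 0 < z) (ht : 0 < 1 - z) :
    FormNN (entLM Fr.R P cx (R.R z n1) (C.R z n1) (rb.R z n1) z n1) := by
  refine formNN_of h ?_ ?_ ?_ ?_ ?_ ?_ ?_ ?_ ?_ ?_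
  any_goals simp only [entLM, Ex.R_add, Ex.R_sub, Ex.R_mul, Ex.R_c, Ex.R_X, Ex.R_Y]
  · rw [Fr.R1]
    positivity
  · exact hz

theorem formRM {P : Pm} {cx : Fr} {kap ly C rh : Ex} {s E : ℝ}
    (h : ∀ p ∈ psdE (entRM Ex.c P cx kap ly C rh Ex.X Ex.Y), 0 ≤ p.R s E) (he : 0 < P.e0.R)
    (hs : 0 < s) :
    FormNN (entRM Fr.R P cx (kap.R s E) (ly.R s E) (C.R s E) (rh.R s E) s E) := by
  refine formNN_of h ?_ ?_ ?_ ?_ ?_ ?_ ?_ ?_ ?_ ?_
  any_goals simp only [entRM, Ex.R_add, Ex.R_sub, Ex.R_mul, Ex.R_c, Ex.R_X, Ex.R_Y]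
  · exact he
  · rw [Fr.R1]
    (clear * - hs; positivity)

theorem formRP {P : Pm} {cx : Fr} {kap lp C rh : Ex} {s be : ℝ}
    (h : ∀ p ∈ psdE (entRP Ex.c P cx kap lp C rh Ex.X Ex.Y), 0 ≤ p.R s be) (he : 0 < P.e0.R)
    (hs : 0 < s) (hD : 0 < 2 * be * ((P.m : ℝ) + 2 - (P.m + 1) * (s * s)) + s * s) :
    FormNN (entRP Fr.R P cx (kap.R s be) (lp.R s be) (C.R s be) (rh.R s be) s be) := by
  refine formNN_of h ?_ ?_ ?_ ?_ ?_ ?_ ?_ ?_ ?_ ?_
  any_goals simp only [entRP, Ex.R_add, Ex.R_sub, Ex.R_mul, Ex.R_c, Ex.R_X, Ex.R_Y]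
  · rw [Fr.R1, Fr.R2, Pm.cm_R]
    exact mul_pos he hD
  · rw [Fr.R1, Fr.R2, Pm.cm_R]
    exact mul_pos hD (by linarith only [hs])

theorem formRJ {P : Pm} {cx : Fr} {kap jj kk C rh : Ex} {s be : ℝ}
    (h : ∀ p ∈ psdE (entRJ Ex.c P cx kap jj kk C rh Ex.X Ex.Y), 0 ≤ p.R s be) (he : 0 < P.e0.R)
    (hs : 0 < s) (hbe : 0 < be) :
    FormNN (entRJ Fr.R P cx (kap.R s be) (jj.R s be) (kk.R s be) (C.R s be) (rh.R s be)
      s be) := by
  refine formNN_of h ?_ ?_ ?_ ?_ ?_ ?_ ?_ ?_ ?_ ?_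
  any_goals simp only [entRJ, Ex.R_add, Ex.R_sub, Ex.R_mul, Ex.R_c, Ex.R_X, Ex.R_Y]
  · exact mul_pos he hbe
  · rw [Fr.R1]
    exact mul_pos hbe (by linarith)

theorem formRS {P : Pm} {cx : Fr} {kap lp C r0 : Ex} {s v : ℝ}
    (h : ∀ p ∈ psdE (entRS Ex.c P cx kap lp C r0 Ex.X Ex.Y), 0 ≤ p.R s v) (he : 0 < P.e0.R)
    (hs : 0 < s)
    (hD : 0 < 2 * s * ((P.m : ℝ) + 2 - (P.m + 1) * (s * s)) + s * s * (s + v)) :
    FormNN (entRS Fr.R P cx (kap.R s v) (lp.R s v) (C.R s v) (r0.R s v) s v) := by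
  refine formNN_of h ?_ ?_ ?_ ?_ ?_ ?_ ?_ ?_ ?_ ?_
  any_goals simp only [entRS, Ex.R_add, Ex.R_sub, Ex.R_mul, Ex.R_c, Ex.R_X, Ex.R_Y]
  · exact mul_pos he (mul_pos hs hs)
  · rw [Fr.R1, Fr.R2, Pm.cm_R]
    exact mul_pos hD (by linarith)

theorem regLP {P : Pm} {cx : Fr} (hm : 0 < P.m) {kap ly R C rb x v t l lam : ℝ}
    (htx : t = 1 - x ^ 2) (ht : 0 < t) (hm1 : 1 ≤ P.m) (hrb : 0 ≤ rb) (hkap : 0 ≤ kap)
    (hE : 0 < 1 + x * v) (hδ : cx.R - x ^ 2 ≠ 0) (hl : kap = 0 ∨ l ≤ ly)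
    (hF : FormNN (entLP Fr.R P cx kap ly R C rb x v)) :
    P.eps.R * ((x * v) ^ 2 / (1 + x * v)) ≤
      pcLow P.m P.k1.R P.th.R P.c2.R R C (rb / (1 + x * v)) (x ^ 2 / t) l (x * v) lam +
      pcNL P.m P.a1.R P.a2.R P.a3.R cx.R (x ^ 2) (x ^ 2 / t) (l - lam)
        (x * v) lam := by
  have hm' : (P.m : ℝ) ≠ 0 := by exact_mod_cast hm.ne'
  have hm2 : (1 : ℝ) ≤ P.m := by exact_mod_cast hm1
  have hm1 : (P.m : ℝ) + 1 ≠ 0 := by positivity
  set e := (l - lam) / (cx.R - x ^ 2) with hedef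
  have h := hF (x * v) (x * e) (x * lam)
  simp only [entLP, Fr.R1, Fr.R2, Fr.R3, Fr.R12, Fr.R32, Fr.R92, Pm.cg_R, Pm.c1_R,
    Pm.c3_R, Pm.ci_R P hm, Pm.ch_R P hm] at h
  have hS : 0 ≤ 3 * (((P.m : ℝ) - 1) / (P.m + 1)) * x ^ 2 + 1 / (P.m : ℝ) * (rb * t) := by
    have h1 : 0 ≤ ((P.m : ℝ) - 1) / (P.m + 1) := div_nonneg (by linarith only [hm2]) (by linarith only [])
    (clear * - hm2 hm hrb ht; positivity)
  have hη : 0 ≤ kap *
      ((3 * (((P.m : ℝ) - 1) / (P.m + 1)) * x ^ 2 + 1 / (P.m : ℝ) * (rb * t)) / t) := by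
    (clear * - hkap hm2 hm hrb ht; positivity)
  refine pc_left_ge (η := kap *
      ((3 * (((P.m : ℝ) - 1) / (P.m + 1)) * x ^ 2 + 1 / (P.m : ℝ) * (rb * t)) / t))
    (lm := ly) (e := e) hm' ht hE hδ ?_ hη ?_ ?_
  · rw [hedef, mul_comm, div_mul_cancel₀ _ hδ]
    ring
  · rcases hl with h0 | h0
    · left
      rw [h0, zero_mul]
    · exact Or.inr h0
  · refine h.trans (le_of_eq ?_)
    simp only
    have : (1 : ℝ) - x * x = t := by rw [htx]; ring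
    rw [this]
    have htne := ht.ne'
    clear_value e
    field_simp
    ring

theorem regLM {P : Pm} {cx : Fr} (hm : 0 < P.m) {R C rb x z n1 t l lam : ℝ} (hz : z = x ^ 2)
    (hx : 0 < x) (htx : t = 1 - x ^ 2) (ht : 0 < t) (hE : 0 < 1 - z * n1)
    (hδ : cx.R - x ^ 2 ≠ 0) (hm1 : 1 ≤ P.m)
    (hF : FormNN (entLM Fr.R P cx R C rb z n1)) :
    P.eps.R * ((-(z * n1)) ^ 2 / (1 + -(z * n1))) ≤
      pcLow P.m P.k1.R P.th.R P.c2.R R C (rb / (1 + -(z * n1))) (x ^ 2 / t) l (-(z * n1)) lam +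
      pcNL P.m P.a1.R P.a2.R P.a3.R cx.R (x ^ 2) (x ^ 2 / t) (l - lam)
        (-(z * n1)) lam := by
  have hm' : (P.m : ℝ) ≠ 0 := by exact_mod_cast hm.ne'
  have hm2 : (1 : ℝ) ≤ P.m := by exact_mod_cast hm1
  have hm1 : (P.m : ℝ) + 1 ≠ 0 := by positivity
  set e := (l - lam) / (cx.R - x ^ 2) with hedef
  have h := hF (-(z * n1)) e lam
  simp only [entLM, Fr.R1, Fr.R2, Fr.R3, Fr.R12, Fr.R32, Fr.R92, Pm.cg_R, Pm.c1_R,
    Pm.c3_R, Pm.ci_R P hm, Pm.ch_R P hm] at h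
  have hvz : x * (-(x * n1)) = -(z * n1) := by rw [hz]; ring
  rw [← hvz]
  refine pc_left_ge (η := 0) (lm := 0) (e := e) hm' ht (by rw [hvz]; linarith only [hE]) hδ ?_ le_rfl
    (Or.inl rfl) ?_
  · rw [hedef, mul_comm, div_mul_cancel₀ _ hδ]
    ring
  · refine h.trans (le_of_eq ?_)
    simp only
    have htne := ht.ne'
    have : (1 : ℝ) - z = t := by rw [htx, hz]
    rw [this]
    have hz2 : z = x ^ 2 := hz
    rw [hz2]
    clear_value e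
    field_simp
    ring

theorem regRM {P : Pm} {cx : Fr} (hm : 0 < P.m) {kap ly C rh s E z t l lam : ℝ}
    (hs : 0 < s) (hts : t = s * s) (hz : z = 1 - t) (hz0 : 0 ≤ z) (hE : 0 < E) (hE1 : E ≤ 1)
    (hδ : z - cx.R ≠ 0) (hrb : 0 ≤ rh) (hkap : 0 ≤ kap)
    (hm1 : 1 ≤ P.m) (hl : l ≤ t * ly)
    (hF : FormNN (entRM Fr.R P cx kap ly C rh s E)) :
    P.eps.R * ((E - 1) ^ 2 / (1 + (E - 1))) ≤
      pcLow P.m P.k1.R P.th.R P.c2.R (1 - t / (1 + s)) C (rh / (1 + (E - 1))) (z / t) l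
        (E - 1) lam +
      pcNR P.m P.a4.R cx.R z (z / t) (l - lam) (E - 1) := by
  have hm' : (P.m : ℝ) ≠ 0 := by exact_mod_cast hm.ne'
  have hm2 : (1 : ℝ) ≤ P.m := by exact_mod_cast hm1
  have hm1 : (P.m : ℝ) + 1 ≠ 0 := by positivity
  have ht : 0 < t := by rw [hts]; positivity
  have htne := ht.ne'
  have hs1 : (1 : ℝ) + s ≠ 0 := by positivity
  set e := (l - lam) / (z - cx.R) with hedef
  have h := hF (E - 1) (e / t) (lam / t)
  have h1 : 0 ≤ ((P.m : ℝ) - 1) / (P.m + 1) := div_nonneg (by linarith only [hm2]) (by linarith only [])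
  have hS : 0 ≤ 3 * (((P.m : ℝ) - 1) / (P.m + 1)) * z + 1 / (P.m : ℝ) * (rh * t) := by
    (clear * - hm2 hm hz0 hrb ht; positivity)
  have hn : 0 ≤ 1 - E := by linarith only [hE1]
  have hη : 0 ≤ kap * (1 - E) *
      ((3 * (((P.m : ℝ) - 1) / (P.m + 1)) * z + 1 / (P.m : ℝ) * (rh * t)) / t) := by
    (clear * - hkap hE1 hm2 hm hz0 hrb ht; positivity)
  refine pc_right_ge (η := kap * (1 - E) *
      ((3 * (((P.m : ℝ) - 1) / (P.m + 1)) * z + 1 / (P.m : ℝ) * (rh * t)) / t))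
    (lm := t * ly) (e := e) hm' ht (by linarith only [hE]) hδ ?_ hη (Or.inr hl) ?_
  · rw [hedef, mul_comm, div_mul_cancel₀ _ hδ]
    ring
  · refine nonneg_of_mul_nonneg_right (a := 1 + s) (h.trans (le_of_eq ?_)) (by linarith only [hs])
    simp only [entRM, Fr.R1, Fr.R2, Fr.R3, Fr.R12, Fr.R32, Fr.R92, Pm.cg_R, Pm.c1_R,
      Pm.c3_R, Pm.ci_R P hm, Pm.ch_R P hm]
    rw [← hts, ← hz]
    clear_value e
    field_simp
    ring

theorem regRP {P : Pm} {cx : Fr} (hm : 0 < P.m) {kap lp C rh s be z t u l lam : ℝ}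
    (hs : 0 < s) (hts : t = s * s) (hz : z = 1 - t) (hz0 : 0 ≤ z) (hbe : 0 < be)
    (hu : u = (1 - be) / be)
    (hδ : z - cx.R ≠ 0) (hrb : 0 ≤ rh) (hkap : 0 ≤ kap)
    (hm1 : 1 ≤ P.m) (hD : 0 < 2 * be * ((P.m : ℝ) + 2 - (P.m + 1) * t) + t)
    (hl : l ≤ t * (lp - 2 / (2 * be * ((P.m : ℝ) + 2 - (P.m + 1) * t) + t)))
    (hF : FormNN (entRP Fr.R P cx kap lp C rh s be)) :
    P.eps.R * (u ^ 2 / (1 + u)) ≤
      pcLow P.m P.k1.R P.th.R P.c2.R (1 - t / (1 + s)) C (rh / (1 + u)) (z / t) l u lam +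
      pcNR P.m P.a4.R cx.R z (z / t) (l - lam) u := by
  have hm' : (P.m : ℝ) ≠ 0 := by exact_mod_cast hm.ne'
  have hm2 : (1 : ℝ) ≤ P.m := by exact_mod_cast hm1
  have hm1 : (P.m : ℝ) + 1 ≠ 0 := by positivity
  have ht : 0 < t := by rw [hts]; positivity
  have htne := ht.ne'
  have hbne := hbe.ne'
  have hs1 : (1 : ℝ) + s ≠ 0 := by positivity
  have hE : 1 + u = 1 / be := by
    rw [hu]
    field_simp
    ring
  have hE0 : 0 < 1 + u := by rw [hE]; positivity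
  set e := (l - lam) / (z - cx.R) with hedef
  set D := 2 * be * ((P.m : ℝ) + 2 - (P.m + 1) * t) + t with hDdef
  have hDne := hD.ne'
  have h := hF u (e / (t * be)) (lam / (t * be))
  have h1 : 0 ≤ ((P.m : ℝ) - 1) / (P.m + 1) := div_nonneg (by linarith only [hm2]) (by linarith only [])
  have hη : 0 ≤ kap *
      ((3 * (((P.m : ℝ) - 1) / (P.m + 1)) * z + 1 / (P.m : ℝ) * (rh * t)) / t) := by
    (clear * - hkap hm2 hm hz0 hrb ht; positivity)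
  refine pc_right_ge (η := kap *
      ((3 * (((P.m : ℝ) - 1) / (P.m + 1)) * z + 1 / (P.m : ℝ) * (rh * t)) / t))
    (lm := t * (lp - 2 / D)) (e := e) hm' ht hE0 hδ ?_ hη (Or.inr hl) ?_
  · rw [hedef, mul_comm, div_mul_cancel₀ _ hδ]
    ring
  · refine nonneg_of_mul_nonneg_right (a := D * (1 + s)) (h.trans (le_of_eq ?_))
      (mul_pos hD (by linarith only [hs]))
    simp only [entRP, Fr.R1, Fr.R2, Fr.R3, Fr.R12, Fr.Rm12, Fr.R32, Fr.R92, Pm.cg_R,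
      Pm.c1_R, Pm.c3_R, Pm.cm_R, Pm.ci_R P hm, Pm.ch_R P hm]
    rw [← hts, ← hz, ← hDdef]
    have hu2 : (1 - be) = u * be := by
      rw [hu]
      (clear * - hbne; field_simp)
    have hE2 : (1 + u) = 1 / be := hE
    rw [hu2, hE2]
    clear_value D e
    field_simp
    ring

theorem regRJ {P : Pm} {cx : Fr} (hm : 0 < P.m) {kap jj kk C rh s be z t u l lam : ℝ}
    (hs : 0 < s) (hts : t = s * s) (hz : z = 1 - t) (hz0 : 0 ≤ z) (hbe : 0 < be)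
    (hu : u = (1 - be) / be)
    (hδ : z - cx.R ≠ 0) (hrb : 0 ≤ rh) (hkap : 0 ≤ kap)
    (hm1 : 1 ≤ P.m)
    (hl : l ≤ t * (jj - kk * u))
    (hF : FormNN (entRJ Fr.R P cx kap jj kk C rh s be)) :
    P.eps.R * (u ^ 2 / (1 + u)) ≤
      pcLow P.m P.k1.R P.th.R P.c2.R (1 - t / (1 + s)) C (rh / (1 + u)) (z / t) l u lam +
      pcNR P.m P.a4.R cx.R z (z / t) (l - lam) u := by
  have hm' : (P.m : ℝ) ≠ 0 := by exact_mod_cast hm.ne'
  have hm2 : (1 : ℝ) ≤ P.m := by exact_mod_cast hm1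
  have hm1 : (P.m : ℝ) + 1 ≠ 0 := by positivity
  have ht : 0 < t := by rw [hts]; positivity
  have htne := ht.ne'
  have hbne := hbe.ne'
  have hs1 : (1 : ℝ) + s ≠ 0 := by positivity
  have hE : 1 + u = 1 / be := by
    rw [hu]
    field_simp
    ring
  have hE0 : 0 < 1 + u := by rw [hE]; positivity
  set e := (l - lam) / (z - cx.R) with hedef
  have h := hF u (e / (t * be)) (lam / (t * be))
  have h1 : 0 ≤ ((P.m : ℝ) - 1) / (P.m + 1) := div_nonneg (by linarith only [hm2]) (by linarith only [])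
  have hη : 0 ≤ kap *
      ((3 * (((P.m : ℝ) - 1) / (P.m + 1)) * z + 1 / (P.m : ℝ) * (rh * t)) / t) := by
    (clear * - hkap hm2 hm hz0 hrb ht; positivity)
  refine pc_right_ge (η := kap *
      ((3 * (((P.m : ℝ) - 1) / (P.m + 1)) * z + 1 / (P.m : ℝ) * (rh * t)) / t))
    (lm := t * (jj - kk * u)) (e := e) hm' ht hE0 hδ ?_ hη (Or.inr hl) ?_
  · rw [hedef, mul_comm, div_mul_cancel₀ _ hδ]
    ring
  · refine nonneg_of_mul_nonneg_right (a := be * (1 + s)) (h.trans (le_of_eq ?_))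
      (mul_pos hbe (by linarith only [hs]))
    simp only [entRJ, Fr.R1, Fr.R2, Fr.R3, Fr.R12, Fr.Rm12, Fr.R32, Fr.R92, Pm.cg_R,
      Pm.c1_R, Pm.c3_R, Pm.ci_R P hm, Pm.ch_R P hm]
    rw [← hts, ← hz]
    have hu2 : (1 - be) = u * be := by
      rw [hu]
      (clear * - hbne; field_simp)
    have hE2 : (1 + u) = 1 / be := hE
    rw [hu2, hE2]
    clear_value e
    field_simp
    ring

theorem regRS {P : Pm} {cx : Fr} (hm : 0 < P.m) {kap lp C r0 s v z t u l lam : ℝ}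
    (hs : 0 < s) (hts : t = s * s) (hz : z = 1 - t) (hz0 : 0 ≤ z) (hv : 0 ≤ v)
    (hu : v = u * s)
    (hδ : z - cx.R ≠ 0) (hr0 : 0 ≤ r0) (hkap : 0 ≤ kap)
    (hm1 : 1 ≤ P.m) (hD : 0 < 2 * s * ((P.m : ℝ) + 2 - (P.m + 1) * t) + t * (s + v))
    (hl : l ≤ t * (lp - 2 * (s + v) / (2 * s * ((P.m : ℝ) + 2 - (P.m + 1) * t) + t * (s + v))))
    (hF : FormNN (entRS Fr.R P cx kap lp C r0 s v)) :
    P.eps.R * (u ^ 2 / (1 + u)) ≤
      pcLow P.m P.k1.R P.th.R P.c2.R (1 - t / (1 + s)) C ((r0 * s + v) / (s + v) / (1 + u))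
        (z / t) l u lam +
      pcNR P.m P.a4.R cx.R z (z / t) (l - lam) u := by
  have hm' : (P.m : ℝ) ≠ 0 := by exact_mod_cast hm.ne'
  have hm2 : (1 : ℝ) ≤ P.m := by exact_mod_cast hm1
  have hm1 : (P.m : ℝ) + 1 ≠ 0 := by positivity
  have ht : 0 < t := by rw [hts]; positivity
  have htne := ht.ne'
  have hsne := hs.ne'
  have hs1 : (1 : ℝ) + s ≠ 0 := by positivity
  have hq : 0 < s + v := by positivity
  obtain ⟨q, hqd⟩ : ∃ q, q = s + v := ⟨_, rfl⟩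
  rw [← hqd] at hq hD hl ⊢
  have hqne := hq.ne'
  have hE : 1 + u = q / s := by
    rw [hqd, hu]
    (clear * - hsne; field_simp)
  have hE0 : 0 < 1 + u := by rw [hE]; (clear * - hq hs; positivity)
  set e := (l - lam) / (z - cx.R) with hedef
  set D := 2 * s * ((P.m : ℝ) + 2 - (P.m + 1) * t) + t * q with hDdef
  have hDne := hD.ne'
  have h := hF (u / q) (e / (t * s * q)) (lam / (t * s * q))
  have h1 : 0 ≤ ((P.m : ℝ) - 1) / (P.m + 1) := div_nonneg (by linarith only [hm2]) (by linarith only [])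
  have hη : 0 ≤ kap *
      ((3 * (((P.m : ℝ) - 1) / (P.m + 1)) * z + 1 / (P.m : ℝ) * ((r0 * s + v) / q * t)) / t) := by
    (clear * - hkap hm2 hm hz0 hr0 hs hv hq ht; (clear * - hkap hm2 hm hz0 hr0 hs hv hq ht; positivity))
  refine pc_right_ge (η := kap *
      ((3 * (((P.m : ℝ) - 1) / (P.m + 1)) * z + 1 / (P.m : ℝ) * ((r0 * s + v) / q * t)) / t))
    (lm := t * (lp - 2 * q / D)) (e := e) hm' ht hE0 hδ ?_ hη (Or.inr hl) ?_
  · rw [hedef, mul_comm, div_mul_cancel₀ _ hδ]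
    ring
  · refine nonneg_of_mul_nonneg_right (a := D / q * (1 + s)) (h.trans (le_of_eq ?_))
      (mul_pos (div_pos hD hq) (by linarith only [hs]))
    simp only [entRS, Fr.R2, Pm.cm_R, Fr.R1, Pm.cg_R, Fr.R3, Pm.ci_R P hm, Pm.ch_R P hm, Fr.R92, Fr.R32, Pm.c3_R, Pm.c1_R, Fr.Rm12, Fr.R12]
    rw [← hts, ← hz, ← hqd, ← hDdef, hE]
    obtain ⟨w, hw⟩ : ∃ w, w = r0 * s + v := ⟨_, rfl⟩
    rw [← hw, hu]
    clear_value D e
    field_simp
    ring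

end Vale.Agent.P237.AllN.M4
end

section

/-!
# P237, plain certificate for `m = 4`: the kernel checks
-/

namespace Vale.Agent.P237.AllN.M4

open PolyPos

/-- the constants -/
def P4 : Pm where
  m := 4
  k1 := ⟨42, 24⟩
  a1 := ⟨41, 99⟩
  a2 := ⟨11, 199⟩
  a3 := ⟨31, 99⟩
  a4 := ⟨7, 24⟩
  th := ⟨3, 19⟩
  c2 := ⟨13, 249⟩
  eps := ⟨1, 999⟩
  e0 := ⟨1, 999999⟩

/-- the pole, `4/9` -/
def cx : Fr := ⟨4, 8⟩

/-- constant of the correction, as a function of `z` -/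
def qC4 (z : Ex) : Ex := Ex.c ⟨9, 19⟩ + Ex.c ⟨11, 19⟩ * z + z * z

/-- bounds of `ρ` -/
def rbA : Ex := Ex.c ⟨3, 7⟩ + Ex.c ⟨5, 31⟩ * (Ex.X * Ex.Y) -
  Ex.c ⟨1, 19⟩ * ((Ex.X * Ex.Y) * (Ex.X * Ex.Y))
def rbL : Ex := Ex.c ⟨3, 7⟩ - Ex.c ⟨5, 31⟩ * (Ex.X * Ex.Y) -
  Ex.c ⟨35, 511⟩ * ((Ex.X * Ex.Y) * (Ex.X * Ex.Y))
def rbR : Ex := Ex.c ⟨3, 7⟩ - Ex.c ⟨5, 31⟩ * (Ex.c ⟨1, 0⟩ - Ex.Y) -
  Ex.c ⟨35, 511⟩ * ((Ex.c ⟨1, 0⟩ - Ex.Y) * (Ex.c ⟨1, 0⟩ - Ex.Y))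
def rbD : Ex := Ex.c ⟨3, 0⟩ * Ex.Y
def rbE : Ex := Ex.c ⟨3, 7⟩ + Ex.c ⟨5, 31⟩ * (Ex.c ⟨1, 0⟩ - Ex.Y) +
  Ex.c ⟨4, 24⟩ * ((Ex.c ⟨1, 0⟩ - Ex.Y) * (Ex.c ⟨1, 0⟩ - Ex.Y))
def rbG : Ex := Ex.c ⟨3, 7⟩ + Ex.c ⟨5, 7⟩ * (Ex.c ⟨1, 0⟩ - Ex.Y)

/-- joint bound on the left -/
def lyJ : Ex := Ex.c ⟨18, 24⟩ - Ex.c ⟨187, 199⟩ * (Ex.X * Ex.X) -
  (Ex.c ⟨18, 4⟩ - Ex.c ⟨107, 9⟩ * (Ex.X * Ex.X) +
    Ex.c ⟨46, 4⟩ * ((Ex.X * Ex.X) * (Ex.X * Ex.X))) * (Ex.X * Ex.Y)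

/-- window bound of `l / t` -/
def lyW : Ex := Ex.c ⟨1, 1⟩ + Ex.c ⟨1, 3⟩ * (Ex.X * Ex.X) -
  Ex.c ⟨1, 9⟩ * ((Ex.X * Ex.X) * (Ex.X * Ex.X))

/-- polynomial bound of `-log x / t` -/
def lpW (c : Fr) : Ex := Ex.c ⟨1, 1⟩ + Ex.c ⟨1, 3⟩ * (Ex.X * Ex.X) +
  Ex.c ⟨1, 5⟩ * ((Ex.X * Ex.X) * (Ex.X * Ex.X)) +
  Ex.c c * ((Ex.X * Ex.X) * ((Ex.X * Ex.X) * (Ex.X * Ex.X)))

/-- joint bound on the right, `jj - kk u` -/
def jj4 : Ex := Ex.c ⟨34, 99⟩ + Ex.c ⟨31, 99⟩ * (Ex.X * Ex.X)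
def kk4 : Ex := Ex.c ⟨15, 99⟩ + Ex.c ⟨3, 1⟩ * (Ex.X * Ex.X)

/-- region expressions -/
def loLP : Ex := Ex.Y * Ex.Y * (Ex.c ⟨1, 0⟩ - Ex.X * Ex.X) - Ex.c ⟨9, 15⟩
def loRM : Ex := Ex.c ⟨15, 0⟩ * ((Ex.X * Ex.X) * (Ex.X * Ex.X)) -
  Ex.Y * (Ex.c ⟨8, 0⟩ + Ex.c ⟨4, 0⟩ * (Ex.X * Ex.X) +
    Ex.c ⟨3, 0⟩ * ((Ex.X * Ex.X) * (Ex.X * Ex.X)))
def loRP : Ex := (Ex.c ⟨1, 0⟩ - Ex.Y) * (Ex.c ⟨1, 0⟩ - Ex.Y) * (Ex.X * Ex.X) -
  Ex.Y * Ex.Y * Ex.c ⟨9, 15⟩ * (Ex.c ⟨1, 0⟩ - Ex.X * Ex.X)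

def fLP1 : List Ex :=
  psdE (entLP Ex.c P4 cx (Ex.c ⟨0, 0⟩) (Ex.c ⟨0, 0⟩) (qR (Ex.X * Ex.X)) (qC4 (Ex.X * Ex.X)) rbA
    Ex.X Ex.Y)
def fLP2 : List Ex :=
  psdE (entLP Ex.c P4 cx (Ex.c ⟨3, 9⟩) lyJ (qR (Ex.X * Ex.X)) (qC4 (Ex.X * Ex.X)) rbA Ex.X Ex.Y)
def fLM : List Ex := psdE (entLM Ex.c P4 cx (qR Ex.X) (qC4 Ex.X) rbL Ex.X Ex.Y)
def fRM (kap : Fr) (rb : Ex) : List Ex :=
  psdE (entRM Ex.c P4 cx (Ex.c kap) lyW (qC4 (Ex.c ⟨1, 0⟩ - Ex.X * Ex.X)) rb Ex.X Ex.Y)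
def fRJ (kap : Fr) (rb : Ex) : List Ex :=
  psdE (entRJ Ex.c P4 cx (Ex.c kap) jj4 kk4 (qC4 (Ex.c ⟨1, 0⟩ - Ex.X * Ex.X)) rb Ex.X Ex.Y)
def fRP (kap : Fr) (c : Fr) (rb : Ex) : List Ex :=
  psdE (entRP Ex.c P4 cx (Ex.c kap) (lpW c) (qC4 (Ex.c ⟨1, 0⟩ - Ex.X * Ex.X)) rb Ex.X Ex.Y)
def fRS (kap : Fr) (c : Fr) : List Ex :=
  psdE (entRS Ex.c P4 cx (Ex.c kap) (lpW c) (qC4 (Ex.c ⟨1, 0⟩ - Ex.X * Ex.X)) (Ex.c ⟨3, 7⟩)
    Ex.X Ex.Y)

def bs : ℕ := 2 ^ 576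

theorem kLP1 : tchkE bs 14 4000 [fLP1] loLP
    (.sx (.sy (.leaf 0) (.sx (.sy (.leaf 0) (.sx (.sy (.leaf 0) (.sx (.sy (.leaf 0) .out)
      (.leaf 0))) (.leaf 0))) (.leaf 0))) (.leaf 0)) 0 38 100 0 82 100 = true := by
  decide +kernel

theorem kLP2 : tchkE bs 14 4000 [fLP2] loLP (.leaf 0) 57 100 150 0 101 100 = true := by
  decide +kernel

theorem kLM : tchkE bs 14 4000 [fLM] (Ex.c ⟨0, 0⟩) (.leaf 0) 0 4 9 0 135 100 = true := by
  decide +kernel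

theorem kRM1 : tchkE bs 14 4000 [fRM ⟨1, 1⟩ rbR, fRM ⟨3, 3⟩ rbR, fRM ⟨1, 0⟩ rbR,
    fRM ⟨5, 3⟩ rbR, fRM ⟨3, 1⟩ rbR] loRM
    (.sx (.leaf 2) (.sy (.sx (.sy (.sx (.leaf 2) (.sy (.sx (.sy (.sx (.sy (.sx (.leaf 2) .out)
      (.leaf 2)) (.sy .out (.leaf 2))) (.leaf 2)) (.sy .out (.leaf 2))) (.leaf 2))) (.leaf 2))
      (.sy (.sx (.sy (.sx (.sy .out (.sx (.sy .out (.leaf 2)) .out)) .out) (.leaf 2))
      (.sy .out (.sx (.sy .out (.leaf 2)) (.leaf 3)))) (.leaf 1))) (.leaf 0)))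
    0 746 1000 1 20 20 = true := by
  decide +kernel

theorem kRM2 : tchkE bs 14 4000 [fRM ⟨1, 0⟩ rbD] loRM
    (.sx (.leaf 0) (.sy .out (.sx (.sy (.leaf 0) (.sx (.leaf 0) .out)) .out)))
    0 746 1000 0 1 20 = true := by
  decide +kernel

theorem kRJ : tchkE bs 14 4000 [fRJ ⟨3, 9⟩ rbE, fRJ ⟨6, 9⟩ rbE, fRJ ⟨9, 9⟩ rbE] (Ex.c ⟨0, 0⟩)
    (.sx (.sy (.leaf 2) (.sx (.leaf 1) (.sy (.sx (.leaf 1) (.leaf 1)) (.leaf 0))))
      (.sy (.leaf 2) (.leaf 1)))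
    435 746 1000 35 100 100 = true := by
  decide +kernel

theorem kRO : tchkE bs 14 4000 [] loRP .out 435 746 1000 0 35 100 = true := by
  decide +kernel

theorem kRP1 : tchkE bs 14 4000 [fRP ⟨9, 9⟩ ⟨231, 999⟩ rbE] (Ex.c ⟨0, 0⟩) (.leaf 0)
    0 436 1000 35 100 100 = true := by
  decide +kernel

theorem kRP2 : tchkE bs 14 4000 [fRP ⟨9, 9⟩ ⟨231, 999⟩ rbG, fRP ⟨11, 9⟩ ⟨231, 999⟩ rbG] loRP
    (.sx (.sy .out (.leaf 0)) (.sy .out (.leaf 1)))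
    200 436 1000 0 35 100 = true := by
  decide +kernel

theorem kRS : tchkE bs 14 4000 [fRS ⟨6, 9⟩ ⟨231, 999⟩] (Ex.c ⟨0, 0⟩) (.leaf 0)
    0 2 10 0 75 100 = true := by
  decide +kernel

end Vale.Agent.P237.AllN.M4
end

section

/-!
# P237, all dimensions: the plain certificate gives a positive value
-/

open MeasureTheory Metric Set Module Filter Topology

namespace Vale.Agent.P237.AllN

section

variable {m : ℕ} {r τ τ' T : ℝ → ℝ}

theorem lf_bdd (hm : 1 ≤ m) (hr : IsProf r) (h : IsTrans m r τ τ' T) :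
    ∃ C : ℝ, 0 ≤ C ∧ ∀ x ∈ Ioo (0 : ℝ) 1, |lf τ x| ≤ C := by
  obtain ⟨C, hC, hb⟩ := h.near_zero hm hr
  refine ⟨|Real.log C|, abs_nonneg _, fun x hx => ?_⟩
  obtain ⟨h1, h2⟩ := hb x hx
  have ht := tr_pos h hx
  have hq : 0 < τ x / x := div_pos ht hx.1
  have h3 : τ x / x ≤ C := by rw [div_le_iff₀ hx.1]; exact h2
  have h4 : C⁻¹ ≤ τ x / x := by
    rw [le_div_iff₀ hx.1, inv_mul_le_iff₀ hC]
    exact h1
  have h5 : Real.log (τ x / x) ≤ Real.log C := Real.log_le_log hq h3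
  have h6 : -Real.log C ≤ Real.log (τ x / x) := by
    rw [← Real.log_inv]
    exact Real.log_le_log (inv_pos.2 hC) h4
  unfold lf
  have h7 := le_abs_self (Real.log C)
  rw [abs_le]
  exact ⟨by linarith only [h6, h7], by linarith only [h5, h7]⟩

theorem tau_tendsto_zero (hm : 1 ≤ m) (hr : IsProf r) (h : IsTrans m r τ τ' T) :
    Tendsto τ (𝓝[>] 0) (𝓝 0) := by
  obtain ⟨C, hC, hb⟩ := h.near_zero hm hr
  have h1 : Tendsto (fun x : ℝ => C * x) (𝓝[>] 0) (𝓝 0) := by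
    have : Tendsto (fun x : ℝ => C * x) (𝓝 0) (𝓝 (C * 0)) :=
      (continuous_const.mul continuous_id).tendsto 0
    rw [mul_zero] at this
    exact this.mono_left nhdsWithin_le_nhds
  refine squeeze_zero' ?_ ?_ h1
  · filter_upwards [Ioo_mem_nhdsGT (zero_lt_one' ℝ)] with x hx
    exact (tr_pos h hx).le
  · filter_upwards [Ioo_mem_nhdsGT (zero_lt_one' ℝ)] with x hx
    exact (hb x hx).2

theorem sq_half {x : ℝ} (hx : x ∈ Ioo (0 : ℝ) (1 / 2)) : 1 / 2 ≤ sq x := by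
  unfold sq
  apply Real.le_sqrt_of_sq_le
  nlinarith [hx.1, hx.2]

theorem bc0_bdd {x l C : ℝ} (hx : x ∈ Ioo (0 : ℝ) (1 / 2)) (hl : |l| ≤ C) :
    |bc0 (sq x) l| ≤ 1 + C * 16 := by
  have hs := sq_half hx
  have hs1 := br_sq_le_one x
  have hs0 : 0 < sq x := by linarith
  have h1 : 1 / sq x ≤ 2 := by rw [div_le_iff₀ hs0]; linarith only [hs]
  have h2 : 1 ≤ 1 / sq x := by rw [le_div_iff₀ hs0]; linarith only [hs1]
  have h3 : 1 / sq x ^ 3 = (1 / sq x) ^ 3 := by rw [one_div_pow]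
  have h4 : |1 / sq x ^ 3 - 3 / sq x + 2| ≤ 16 := by
    rw [h3, show 3 / sq x = 3 * (1 / sq x) by ring, abs_le]
    set P := 1 / sq x
    constructor
    · linarith only [mul_nonneg (sub_nonneg.2 h2) (sub_nonneg.2 (mul_nonneg (by linarith : 0 ≤ P - 1) (by linarith : 0 ≤ P - 1))), mul_nonneg (sub_nonneg.2 h2) (sub_nonneg.2 h2)]
    · nlinarith only [h2, pow_le_pow_left₀ (by linarith : 0 ≤ P) h1 3]
  have h5 : |-(1 / sq x - 1)| ≤ 1 := by
    rw [abs_neg, abs_le]; constructor <;> linarith only [h1, h2]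
  unfold bc0
  refine (abs_add_le _ _).trans ?_
  rw [abs_mul]
  have h6 : |l| * |1 / sq x ^ 3 - 3 / sq x + 2| ≤ C * 16 :=
    mul_le_mul hl h4 (abs_nonneg _) ((abs_nonneg _).trans hl)
  linarith only [h5, h6]

theorem bM0_bdd {x l C : ℝ} (hx : x ∈ Ioo (0 : ℝ) (1 / 2)) (hl : |l| ≤ C) :
    |bM0 (sq x) l| ≤ 2 + C * 8 := by
  have hs := sq_half hx
  have hs0 : 0 < sq x := by linarith
  have h1 : |1 / (sq x * (1 + sq x))| ≤ 2 := by
    rw [abs_of_pos (by (clear * - hs; positivity)), div_le_iff₀ (by positivity)]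
    nlinarith only [hs]
  have h2 : |l / sq x ^ 3| ≤ C * 8 := by
    rw [abs_div, abs_of_pos (pow_pos hs0 3), div_le_iff₀ (pow_pos hs0 3)]
    have h3 : 1 ≤ 8 * sq x ^ 3 := by
      have := pow_le_pow_left₀ (by norm_num) hs 3
      norm_num at this
      linarith only [this]
    have hC : 0 ≤ C := (abs_nonneg _).trans hl
    linarith only [mul_nonneg (sub_nonneg.2 h3) (sub_nonneg.2 hC), hl]
  unfold bM0
  refine (abs_sub _ _).trans ?_
  linarith only [h1, h2]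

theorem prc_bdd (hm : 1 ≤ m) (hr : IsProf r) (h : IsTrans m r τ τ' T) :
    ∃ C : ℝ, ∀ x ∈ Ioo (0 : ℝ) (1 / 2), |prc m τ x| ≤ C := by
  obtain ⟨C, hC, hb⟩ := lf_bdd hm hr h
  refine ⟨1 + C * 16 + 1, fun x hx => ?_⟩
  have hx1 : x ∈ Ioo (0 : ℝ) 1 := ⟨hx.1, by linarith only [hx.2]⟩
  have h1 := bc0_bdd hx (hb x hx1)
  have h2 : |τ x * bk m (τ x)| ≤ 1 := by
    rw [abs_mul]
    have h3 := h.mem x hx1
    have h4 := bk_abs_le m (τ x)
    have h5 : |τ x| ≤ 1 := by rw [abs_of_pos h3.1]; exact h3.2.le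
    calc |τ x| * |bk m (τ x)| ≤ 1 * 1 := mul_le_mul h5 h4 (abs_nonneg _) zero_le_one
      _ = 1 := one_mul 1
  unfold prc
  exact (abs_sub _ _).trans (by linarith only [h1, h2])

theorem bk_tau_tendsto (hm : 1 ≤ m) (hr : IsProf r) (h : IsTrans m r τ τ' T) :
    Tendsto (fun x => bk m (τ x)) (𝓝[>] 0) (𝓝 0) := by
  have h1 := tau_tendsto_zero hm hr h
  have h2 : ContinuousAt (bk m) 0 := bk_contAt m (by constructor <;> norm_num)
  have h3 : Tendsto (bk m) (𝓝 0) (𝓝 (bk m 0)) := h2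
  rw [bk_zero] at h3
  exact h3.comp h1

theorem prp_tendsto (hm : 1 ≤ m) (hr : IsProf r) (h : IsTrans m r τ τ' T) :
    Tendsto (prp m τ) (𝓝[>] 0) (𝓝 0) := by
  obtain ⟨C, hC, hb⟩ := lf_bdd hm hr h
  have h1 : Tendsto (fun x => τ x * bM0 (sq x) (lf τ x)) (𝓝[>] 0) (𝓝 0) := by
    have h2 : Tendsto (fun x => (2 + C * 8) * τ x) (𝓝[>] 0) (𝓝 0) := by
      have := (tau_tendsto_zero hm hr h).const_mul (2 + C * 8)
      rwa [mul_zero] at this
    refine squeeze_zero_norm' ?_ h2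
    filter_upwards [Ioo_mem_nhdsGT (by norm_num : (0 : ℝ) < 1 / 2)] with x hx
    have hx1 : x ∈ Ioo (0 : ℝ) 1 := ⟨hx.1, by linarith only [hx.2]⟩
    have h3 := bM0_bdd hx (hb x hx1)
    have h4 := tr_pos h hx1
    rw [Real.norm_eq_abs, abs_mul, abs_of_pos h4, mul_comm]
    exact mul_le_mul_of_nonneg_right h3 h4.le
  have := h1.add (bk_tau_tendsto hm hr h)
  rw [add_zero] at this
  exact this

theorem sq_tendsto_one : Tendsto sq (𝓝[<] 1) (𝓝 0) := by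
  have : Tendsto sq (𝓝 1) (𝓝 (sq 1)) := br_sq_cont.continuousAt
  rw [br_sq_one] at this
  exact this.mono_left nhdsWithin_le_nhds

theorem prc_tendsto_one (hm : 2 ≤ m) (hr : IsProf r) (h : IsTrans m r τ τ' T) :
    Tendsto (fun x => sq x ^ (m + 2) * prc m τ x) (𝓝[<] 1) (𝓝 0) := by
  obtain ⟨C, hC, hb⟩ := lf_bdd (by omega) hr h
  have h2 : Tendsto (fun x => (3 + C * 6) * sq x) (𝓝[<] 1) (𝓝 0) := by
    have := sq_tendsto_one.const_mul (3 + C * 6)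
    rwa [mul_zero] at this
  refine squeeze_zero_norm' ?_ h2
  filter_upwards [Ioo_mem_nhdsLT (zero_lt_one' ℝ)] with x hx
  have hs := sqx_pos hx
  have hs1 := br_sq_le_one x
  have hl := hb x hx
  obtain ⟨n, rfl⟩ := Nat.exists_eq_add_of_le' hm
  have e : sq x ^ (n + 2 + 2) * prc (n + 2) τ x =
      sq x * (-(sq x ^ (n + 2)) + sq x ^ (n + 3)) +
      sq x * (lf τ x * (sq x ^ n - 3 * sq x ^ (n + 2) + 2 * sq x ^ (n + 3))) -
      sq x * (sq x ^ (n + 3) * (τ x * bk (n + 2) (τ x))) := by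
    unfold prc bc0
    have : sq x ^ (n + 2 + 2) = sq x ^ n * sq x ^ 4 := by ring
    rw [this]
    field_simp
    ring
  have p : ∀ k : ℕ, |sq x ^ k| ≤ 1 := fun k => by
    rw [abs_of_nonneg (pow_nonneg hs.le k)]
    exact pow_le_one₀ hs.le hs1
  have b1 : |sq x * (-(sq x ^ (n + 2)) + sq x ^ (n + 3))| ≤ sq x * 2 := by
    rw [abs_mul, abs_of_pos hs]
    apply mul_le_mul_of_nonneg_left _ hs.le
    refine (abs_add_le _ _).trans ?_
    rw [abs_neg]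
    linarith only [p (n + 2), p (n + 3)]
  have b2 : |sq x * (lf τ x * (sq x ^ n - 3 * sq x ^ (n + 2) + 2 * sq x ^ (n + 3)))| ≤
      sq x * (C * 6) := by
    rw [abs_mul, abs_of_pos hs]
    apply mul_le_mul_of_nonneg_left _ hs.le
    rw [abs_mul]
    apply mul_le_mul hl _ (abs_nonneg _) hC
    refine (abs_add_le _ _).trans ?_
    have b3 : |sq x ^ n - 3 * sq x ^ (n + 2)| ≤ 4 := by
      refine (abs_sub _ _).trans ?_
      have h3 : |(3 : ℝ)| = 3 := by norm_num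
      rw [abs_mul, h3]
      linarith only [p n, p (n + 2)]
    have b4 : |2 * sq x ^ (n + 3)| ≤ 2 := by
      have h3 : |(2 : ℝ)| = 2 := by norm_num
      rw [abs_mul, h3]
      linarith only [p (n + 3)]
    linarith only [b3, b4]
  have b5 : |sq x * (sq x ^ (n + 3) * (τ x * bk (n + 2) (τ x)))| ≤ sq x * 1 := by
    rw [abs_mul, abs_of_pos hs]
    apply mul_le_mul_of_nonneg_left _ hs.le
    rw [abs_mul, abs_mul]
    have h3 := h.mem x hx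
    have h4 := bk_abs_le (n + 2) (τ x)
    have h5 : |τ x| ≤ 1 := by rw [abs_of_pos h3.1]; exact h3.2.le
    have h6 : |τ x| * |bk (n + 2) (τ x)| ≤ 1 := by
      calc |τ x| * |bk (n + 2) (τ x)| ≤ 1 * 1 := mul_le_mul h5 h4 (abs_nonneg _) zero_le_one
        _ = 1 := one_mul 1
    calc |sq x ^ (n + 3)| * (|τ x| * |bk (n + 2) (τ x)|) ≤ 1 * 1 :=
          mul_le_mul (p _) h6 (mul_nonneg (abs_nonneg _) (abs_nonneg _)) zero_le_one
      _ = 1 := one_mul 1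
  rw [Real.norm_eq_abs, e]
  refine (abs_sub _ _).trans ?_
  have := abs_add_le (sq x * (-(sq x ^ (n + 2)) + sq x ^ (n + 3)))
    (sq x * (lf τ x * (sq x ^ n - 3 * sq x ^ (n + 2) + 2 * sq x ^ (n + 3))))
  linarith only [b1, b2, b5, this]

/-- bound of the primitive -/
theorem brΨ_bound (hm : 4 ≤ m) (hr : IsProf r) (h : IsTrans m r τ τ' T) {N : ℝ → ℝ} {μ CN : ℝ}
    (hNb : ∀ x ∈ Ioo (0 : ℝ) 1, |N x| * sq x ^ 2 ≤ CN) :
    ∃ K1 K2 : ℝ, ∀ x ∈ Ioo (0 : ℝ) 1, |brΨ m τ N μ x| ≤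
      bγ m * (|x * sq x ^ m * bg x| + |bN m x|) + K1 * (|x| * sq x ^ (m - 1)) +
        K2 * (|x| * sq x ^ (m - 3)) := by
  obtain ⟨C, hC, hb⟩ := lf_bdd (by omega) hr h
  have hγ : 0 ≤ bγ m := by
    have : (4 : ℝ) ≤ m := by exact_mod_cast hm
    unfold bγ
    exact div_nonneg (by linarith only [this]) (by linarith only [])
  refine ⟨bγ m * (2 * C) + |μ * m| * (Real.exp C + 1), bγ m * (3 / 2 * C ^ 2) + CN,
    fun x hx => ?_⟩
  have hs := sqx_pos hx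
  have hs1 := br_sq_le_one x
  have hl := hb x hx
  have hx0 := hx.1
  have hR : |1 - sq x ^ 2 / (1 + sq x)| ≤ 1 := by
    have h1 : 0 ≤ sq x ^ 2 / (1 + sq x) := by positivity
    have h2 : sq x ^ 2 / (1 + sq x) ≤ 1 := by
      rw [div_le_one (by positivity)]
      nlinarith only [hs, hs1]
    rw [abs_le]; constructor <;> linarith only [h1, h2]
  have a1 : |-2 * (1 - sq x ^ 2 / (1 + sq x)) * lf τ x| ≤ 2 * C := by
    rw [abs_mul, abs_mul]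
    have : |(-2 : ℝ)| = 2 := by norm_num
    rw [this]
    have h3 : |1 - sq x ^ 2 / (1 + sq x)| * |lf τ x| ≤ 1 * C :=
      mul_le_mul hR hl (abs_nonneg _) zero_le_one
    linarith only [h3]
  have a2 : |μ * m * (Real.exp (lf τ x / m) - 1)| ≤ |μ * m| * (Real.exp C + 1) := by
    rw [abs_mul]
    apply mul_le_mul_of_nonneg_left _ (abs_nonneg _)
    refine (abs_sub _ _).trans ?_
    rw [abs_of_pos (Real.exp_pos _), abs_one]
    have : lf τ x / m ≤ C := by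
      have h4 : (1 : ℝ) ≤ m := by exact_mod_cast (by omega : 1 ≤ m)
      rw [div_le_iff₀ (by linarith only [h4])]
      have := (le_abs_self (lf τ x)).trans hl
      linarith only [mul_nonneg (sub_nonneg.2 hC) (sub_nonneg.2 h4), this]
    linarith only [Real.exp_le_exp.2 this]
  have hl2 : lf τ x ^ 2 ≤ C ^ 2 := by
    rw [← sq_abs]
    exact pow_le_pow_left₀ (abs_nonneg _) hl 2
  have a3 : |x * sq x ^ (m - 1) * (bγ m * (3 / 2 * (x ^ 2 / sq x ^ 2) * lf τ x ^ 2) - N x)| ≤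
      (bγ m * (3 / 2 * C ^ 2) + CN) * (|x| * sq x ^ (m - 3)) := by
    have e : x * sq x ^ (m - 1) * (bγ m * (3 / 2 * (x ^ 2 / sq x ^ 2) * lf τ x ^ 2) - N x) =
        (bγ m * (3 / 2 * lf τ x ^ 2) * x ^ 2 - N x * sq x ^ 2) * (x * sq x ^ (m - 3)) := by
      obtain ⟨n, rfl⟩ := Nat.exists_eq_add_of_le' hm
      have e1 : n + 4 - 1 = n + 3 := rfl
      have e2 : n + 4 - 3 = n + 1 := rfl
      rw [e1, e2, show sq x ^ (n + 3) = sq x ^ (n + 1) * sq x ^ 2 by ring]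
      field_simp
    have hx1 : x ^ 2 ≤ 1 := pow_le_one₀ hx0.le hx.2.le
    rw [e, abs_mul, abs_mul, abs_of_pos hx0, abs_of_nonneg (pow_nonneg hs.le _)]
    apply mul_le_mul_of_nonneg_right _ (by positivity)
    refine (abs_sub _ _).trans (add_le_add ?_ ?_)
    · rw [abs_of_nonneg (by (clear * - hγ hx0; positivity))]
      have h5 : bγ m * (3 / 2 * lf τ x ^ 2) ≤ bγ m * (3 / 2 * C ^ 2) :=
        mul_le_mul_of_nonneg_left (by linarith only [hl2]) hγ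
      calc bγ m * (3 / 2 * lf τ x ^ 2) * x ^ 2 ≤ bγ m * (3 / 2 * lf τ x ^ 2) * 1 :=
            mul_le_mul_of_nonneg_left hx1 (by (clear * - hγ; positivity))
        _ ≤ _ := by linarith only [h5]
    · rw [abs_mul, abs_of_nonneg (pow_nonneg hs.le 2)]
      exact hNb x hx
  have e : brΨ m τ N μ x = (bγ m * (x * sq x ^ m * bg x + bN m x) +
      x * sq x ^ (m - 1) * (bγ m * (-2 * (1 - sq x ^ 2 / (1 + sq x)) * lf τ x) +
        μ * m * (Real.exp (lf τ x / m) - 1))) +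
      x * sq x ^ (m - 1) * (bγ m * (3 / 2 * (x ^ 2 / sq x ^ 2) * lf τ x ^ 2) - N x) := by
    unfold brΨ
    ring
  rw [e]
  refine (abs_add_le _ _).trans (add_le_add ?_ a3)
  refine (abs_add_le _ _).trans (add_le_add ?_ ?_)
  · rw [abs_mul, abs_of_nonneg hγ]
    exact mul_le_mul_of_nonneg_left (abs_add_le _ _) hγ
  · rw [abs_mul, abs_mul, abs_of_pos (pow_pos hs _), mul_comm]
    apply mul_le_mul_of_nonneg_right _ (by (clear * - hx0 hs; positivity))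
    refine (abs_add_le _ _).trans (add_le_add ?_ a2)
    rw [abs_mul, abs_of_nonneg hγ]
    exact mul_le_mul_of_nonneg_left a1 hγ

theorem brΨ_tendsto_zero (hm : 4 ≤ m) (hr : IsProf r) (h : IsTrans m r τ τ' T) {N : ℝ → ℝ}
    {μ CN : ℝ} (hNb : ∀ x ∈ Ioo (0 : ℝ) 1, |N x| * sq x ^ 2 ≤ CN) :
    Tendsto (brΨ m τ N μ) (𝓝[>] 0) (𝓝 0) := by
  obtain ⟨K1, K2, hK⟩ := brΨ_bound (μ := μ) hm hr h hNb
  have hc : Continuous fun x : ℝ => bγ m * (|x * sq x ^ m * bg x| + |bN m x|) +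
      K1 * (|x| * sq x ^ (m - 1)) + K2 * (|x| * sq x ^ (m - 3)) := by
    have h1 := br_sq_cont
    have h2 := bg_cont
    have h3 := bN_cont m
    fun_prop
  have ht : Tendsto (fun x : ℝ => bγ m * (|x * sq x ^ m * bg x| + |bN m x|) +
      K1 * (|x| * sq x ^ (m - 1)) + K2 * (|x| * sq x ^ (m - 3))) (𝓝[>] 0) (𝓝 0) := by
    have := hc.tendsto 0
    have e : bγ m * (|(0 : ℝ) * sq 0 ^ m * bg 0| + |bN m 0|) +
      K1 * (|(0 : ℝ)| * sq 0 ^ (m - 1)) + K2 * (|(0 : ℝ)| * sq 0 ^ (m - 3)) = 0 := by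
      rw [bN_zero, abs_zero]; simp only [zero_mul, abs_zero, add_zero, mul_zero]
    rw [e] at this
    exact this.mono_left nhdsWithin_le_nhds
  refine squeeze_zero_norm' ?_ ht
  filter_upwards [Ioo_mem_nhdsGT (zero_lt_one' ℝ)] with x hx
  rw [Real.norm_eq_abs]
  exact hK x hx

theorem brΨ_tendsto_one (hm : 4 ≤ m) (hr : IsProf r) (h : IsTrans m r τ τ' T) {N : ℝ → ℝ}
    {μ CN : ℝ} (hNb : ∀ x ∈ Ioo (0 : ℝ) 1, |N x| * sq x ^ 2 ≤ CN) :
    Tendsto (brΨ m τ N μ) (𝓝[<] 1) (𝓝 0) := by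
  obtain ⟨K1, K2, hK⟩ := brΨ_bound (μ := μ) hm hr h hNb
  have hc : Continuous fun x : ℝ => bγ m * (|x * sq x ^ m * bg x| + |bN m x|) +
      K1 * (|x| * sq x ^ (m - 1)) + K2 * (|x| * sq x ^ (m - 3)) := by
    have h1 := br_sq_cont
    have h2 := bg_cont
    have h3 := bN_cont m
    fun_prop
  have ht : Tendsto (fun x : ℝ => bγ m * (|x * sq x ^ m * bg x| + |bN m x|) +
      K1 * (|x| * sq x ^ (m - 1)) + K2 * (|x| * sq x ^ (m - 3))) (𝓝[<] 1) (𝓝 0) := by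
    have := hc.tendsto 1
    have e : bγ m * (|(1 : ℝ) * sq 1 ^ m * bg 1| + |bN m 1|) +
      K1 * (|(1 : ℝ)| * sq 1 ^ (m - 1)) + K2 * (|(1 : ℝ)| * sq 1 ^ (m - 3)) = 0 := by
      rw [bN_one, br_sq_one, zero_pow (by omega : m ≠ 0), zero_pow (by omega : m - 1 ≠ 0),
        zero_pow (by omega : m - 3 ≠ 0)]
      simp
    rw [e] at this
    exact this.mono_left nhdsWithin_le_nhds
  refine squeeze_zero_norm' ?_ ht
  filter_upwards [Ioo_mem_nhdsLT (zero_lt_one' ℝ)] with x hx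
  rw [Real.norm_eq_abs]
  exact hK x hx

end

end Vale.Agent.P237.AllN
end

section

/-!
# P237, all dimensions: from the pointwise inequality to a positive value, general additional pair
-/

open MeasureTheory Metric Set Module Filter Topology

namespace Vale.Agent.P237.AllN

/-- An additional pair `(cx, px)` (functions of `x`, at the point `τ x`) on top of the plain pair
`(prc, prp)`, with its primitive `Ψx` and its pointwise functional `Tx`. -/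
structure XPair (m : ℕ) (τ τ' cx px Ψx Tx : ℝ → ℝ) : Prop where
  der : ∃ cx' px' : ℝ → ℝ, (∀ x ∈ Ioo (0 : ℝ) 1, HasDerivAt cx (cx' x) x) ∧
    ContinuousOn cx' (Ioo 0 1) ∧ (∀ x ∈ Ioo (0 : ℝ) 1, HasDerivAt px (px' x) x) ∧
    ContinuousOn px' (Ioo 0 1) ∧ ∀ x ∈ Ioo (0 : ℝ) 1, ∃ d : ℝ, HasDerivAt Ψx d x ∧
      bγ m * ((((m : ℝ) + 1) * cx x + (τ x * cx' x + px' x) / τ' x) * sq x ^ m) =
        sq x ^ (m - 1) * Tx x + d
  c0 : ∃ C : ℝ, ∀ x ∈ Ioo (0 : ℝ) (1 / 2), |cx x| ≤ C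
  p0 : Tendsto px (𝓝[>] 0) (𝓝 0)
  c1 : Tendsto (fun x => sq x ^ (m + 2) * cx x) (𝓝[<] 1) (𝓝 0)
  Ψ0 : Tendsto Ψx (𝓝[>] 0) (𝓝 0)
  Ψ1 : Tendsto Ψx (𝓝[<] 1) (𝓝 0)

theorem XPair.zero (m : ℕ) (τ τ' : ℝ → ℝ) :
    XPair m τ τ' (fun _ => 0) (fun _ => 0) (fun _ => 0) (fun _ => 0) where
  der := ⟨fun _ => 0, fun _ => 0, fun x _ => hasDerivAt_const x 0, continuousOn_const,
    fun x _ => hasDerivAt_const x 0, continuousOn_const, fun x _ => ⟨0, hasDerivAt_const x 0, by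
      simp only [mul_zero, add_zero, zero_div, zero_mul]⟩⟩
  c0 := ⟨0, fun x _ => by simp⟩
  p0 := tendsto_const_nhds
  c1 := by simp only [mul_zero, tendsto_const_nhds_iff]
  Ψ0 := tendsto_const_nhds
  Ψ1 := tendsto_const_nhds

theorem XPair.add {m : ℕ} {τ τ' cx px Ψx Tx cy py Ψy Ty : ℝ → ℝ} (h : XPair m τ τ' cx px Ψx Tx)
    (g : XPair m τ τ' cy py Ψy Ty) : XPair m τ τ' (fun x => cx x + cy x) (fun x => px x + py x)
      (fun x => Ψx x + Ψy x) (fun x => Tx x + Ty x) where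
  der := by
    obtain ⟨c1, p1, a1, a2, a3, a4, a5⟩ := h.der
    obtain ⟨c2, p2, b1, b2, b3, b4, b5⟩ := g.der
    refine ⟨fun x => c1 x + c2 x, fun x => p1 x + p2 x, fun x hx => (a1 x hx).add (b1 x hx),
      a2.add b2, fun x hx => (a3 x hx).add (b3 x hx), a4.add b4, fun x hx => ?_⟩
    obtain ⟨d1, e1, f1⟩ := a5 x hx
    obtain ⟨d2, e2, f2⟩ := b5 x hx
    refine ⟨d1 + d2, e1.add e2, ?_⟩
    rw [show ((m : ℝ) + 1) * (cx x + cy x) + (τ x * (c1 x + c2 x) + (p1 x + p2 x)) / τ' x =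
      (((m : ℝ) + 1) * cx x + (τ x * c1 x + p1 x) / τ' x) +
      (((m : ℝ) + 1) * cy x + (τ x * c2 x + p2 x) / τ' x) by ring]
    linear_combination f1 + f2
  c0 := by
    obtain ⟨C, hC⟩ := h.c0
    obtain ⟨D, hD⟩ := g.c0
    exact ⟨C + D, fun x hx => (abs_add_le _ _).trans (add_le_add (hC x hx) (hD x hx))⟩
  p0 := by simpa only [add_zero] using h.p0.add g.p0
  c1 := by
    have := h.c1.add g.c1
    rw [add_zero] at this
    refine this.congr fun x => ?_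
    ring
  Ψ0 := by simpa only [add_zero] using h.Ψ0.add g.Ψ0
  Ψ1 := by simpa only [add_zero] using h.Ψ1.add g.Ψ1

theorem XPair.smul {m : ℕ} {τ τ' cx px Ψx Tx : ℝ → ℝ} (h : XPair m τ τ' cx px Ψx Tx) (k : ℝ) :
    XPair m τ τ' (fun x => k * cx x) (fun x => k * px x)
      (fun x => k * Ψx x) (fun x => k * Tx x) where
  der := by
    obtain ⟨c1, p1, a1, a2, a3, a4, a5⟩ := h.der
    refine ⟨fun x => k * c1 x, fun x => k * p1 x, fun x hx => (a1 x hx).const_mul k,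
      continuousOn_const.mul a2, fun x hx => (a3 x hx).const_mul k, continuousOn_const.mul a4,
      fun x hx => ?_⟩
    obtain ⟨d1, e1, f1⟩ := a5 x hx
    refine ⟨k * d1, e1.const_mul k, ?_⟩
    rw [show ((m : ℝ) + 1) * (k * cx x) + (τ x * (k * c1 x) + (k * p1 x)) / τ' x =
      k * (((m : ℝ) + 1) * cx x + (τ x * c1 x + p1 x) / τ' x) by ring]
    linear_combination k * f1
  c0 := by
    obtain ⟨C, hC⟩ := h.c0
    refine ⟨|k| * C, fun x hx => ?_⟩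
    rw [abs_mul]
    exact mul_le_mul_of_nonneg_left (hC x hx) (abs_nonneg _)
  p0 := by simpa only [mul_zero] using h.p0.const_mul k
  c1 := by
    have := h.c1.const_mul k
    rw [mul_zero] at this
    refine this.congr fun x => ?_
    ring
  Ψ0 := by simpa only [mul_zero] using h.Ψ0.const_mul k
  Ψ1 := by simpa only [mul_zero] using h.Ψ1.const_mul k

theorem bγ_pos {m : ℕ} (hm : 2 ≤ m) : 0 < bγ m := by
  have : (2 : ℝ) ≤ m := by exact_mod_cast hm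
  unfold bγ
  exact div_pos (by linarith only [this]) (by linarith only [])

section

variable {m : ℕ} {r τ τ' T : ℝ → ℝ}

/-- if `u ≡ 0` the profile is a half circle -/
theorem ball_of_u_zero (hm : 1 ≤ m) (hr : IsProf r) (h : IsTrans m r τ τ' T)
    (hu : ∀ x ∈ Ioo (0 : ℝ) 1, uf τ τ' x = 0) :
    ∃ k : ℝ, ∀ y ∈ Ioo (-1 : ℝ) 1, r y = k * Real.sqrt (1 - y ^ 2) := by
  -- `l` is constant
  have hc : ∀ x ∈ Ioo (0 : ℝ) 1, lf τ x = lf τ (1 / 2) := by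
    intro x hx
    refine (isOpen_Ioo.is_const_of_deriv_eq_zero isPreconnected_Ioo ?_ ?_ hx
      ⟨by norm_num, by norm_num⟩)
    · exact fun y hy => (lf_hasDerivAt h hy).differentiableAt.differentiableWithinAt
    · intro y hy
      rw [(lf_hasDerivAt h hy).deriv, hu y hy]
      simp
  set k := Real.exp (lf τ (1 / 2)) with hk
  have hk0 : 0 < k := Real.exp_pos _
  have ht : ∀ x ∈ Ioo (0 : ℝ) 1, τ x = k * x := by
    intro x hx
    have := exp_lf h hx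
    rw [hc x hx, ← hk] at this
    rw [this]
    have := hx.1.ne'
    (clear * - this; field_simp)
  have hk1 : k ≤ 1 := by
    by_contra hcon
    push Not at hcon
    have hx : 1 / k ∈ Ioo (0 : ℝ) 1 := ⟨by positivity, by rw [div_lt_one hk0]; exact hcon⟩
    have := (h.mem _ hx).2
    rw [ht _ hx] at this
    have e : k * (1 / k) = 1 := by field_simp
    linarith only [this, e]
  have hk2 : 1 ≤ k := by
    by_contra hcon
    push Not at hcon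
    have hy : (1 + k) / 2 ∈ Ioo (0 : ℝ) 1 := ⟨by positivity, by linarith only [hcon]⟩
    have h1 := h.right _ hy
    have h2 := h.Tmem _ hy
    rw [ht _ h2] at h1
    nlinarith only [hcon, h1, hk0, h2.2]
  have hk3 : k = 1 := le_antisymm hk1 hk2
  refine IsTrans.rigid hm hr h fun x hx => ?_
  rw [ht x hx, hk3, one_mul]

/-- **The bridge**: a pointwise inequality for `brT + Tx + null term` gives a positive value. -/
theorem cert_gen (hm : 4 ≤ m) {A : ℝ → ℝ → ℝ} (hA : Kern2 A) (hr : IsProf r)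
    (hT : IsTrans m r τ τ' T)
    (hN : (∫ y in (-1 : ℝ)..1, r y ^ (m - 1)) ^ m * aInt m ^ (m - 1) ≤
      aInt (m - 1) ^ m * (∫ y in (-1 : ℝ)..1, r y ^ m) ^ (m - 1))
    {cx px Ψx Tx : ℝ → ℝ} (hX : XPair m τ τ' cx px Ψx Tx)
    (hS : ∀ x ∈ Ioo (0 : ℝ) 1, ∀ b ∈ Icc (-1 : ℝ) 1, (bc0 (sq x) (lf τ x) + cx x) +
      (τ x * bM0 (sq x) (lf τ x) + px x) * b ≤ A (τ x) b)
    {μ : ℝ} (hμ : 0 ≤ μ) {x₀ CN : ℝ} {N N' : ℝ → ℝ} (hNc : ContinuousOn N (Ioo 0 1))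
    (hNd : ∀ x ∈ Ioo (0 : ℝ) 1, x ≠ x₀ → HasDerivAt N (N' x) x)
    (hNb : ∀ x ∈ Ioo (0 : ℝ) 1, |N x| * sq x ^ 2 ≤ CN) {ε : ℝ} (hε : 0 < ε)
    (hpt : ∀ x ∈ Ioo (0 : ℝ) 1, x ≠ x₀ → ε * (uf τ τ' x ^ 2 / (1 + uf τ τ' x)) ≤
      brT m τ τ' μ x + Tx x +
        (x * N' x + (1 - ((m : ℝ) - 1) * (x ^ 2 / sq x ^ 2)) * N x)) :
    (∃ k : ℝ, ∀ y ∈ Ioo (-1 : ℝ) 1, r y = k * Real.sqrt (1 - y ^ 2)) ∨
    ∃ v : ℝ, 0 < v ∧ AdmGe m (fun a b => A a b + (bφ m b - bφ m a)) r v := by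
  by_cases hu : ∀ x ∈ Ioo (0 : ℝ) 1, uf τ τ' x = 0
  · exact Or.inl (ball_of_u_zero (by omega) hr hT hu)
  right
  push Not at hu
  obtain ⟨x1, hx1, hux1⟩ := hu
  have hγ := bγ_pos (m := m) (by omega)
  obtain ⟨cx', px', a1, a2, a3, a4, a5⟩ := hX.der
  choose! Ψx' hΨx' hidx using a5
  have hm0 : (0 : ℝ) < m := by
    have : (4 : ℝ) ≤ m := by exact_mod_cast hm
    linarith only [this]
  -- the functions
  set W : ℝ → ℝ := fun x => (bγ m)⁻¹ * (sq x ^ (m - 1) * (ε * (uf τ τ' x ^ 2 / (1 + uf τ τ' x))))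
    with hWd
  have hucont := uf_cont hT
  have hWcont : ContinuousOn W (Ioo 0 1) := by
    refine continuousOn_const.mul ((br_sq_cont.continuousOn.pow _).mul (continuousOn_const.mul
      ((hucont.pow 2).div (continuousOn_const.add hucont) fun x hx => (uf_pos hT hx).ne')))
  have hΨc : ContinuousOn (brΨ m τ N μ) (Ioo 0 1) := by
    have hl := lf_cont hT
    have h1 : ContinuousOn sq (Ioo (0 : ℝ) 1) := br_sq_cont.continuousOn
    have h2 : ContinuousOn bg (Ioo (0 : ℝ) 1) := bg_cont.continuousOn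
    have h3 : ContinuousOn (bN m) (Ioo (0 : ℝ) 1) := (bN_cont m).continuousOn
    have hid : ContinuousOn (fun x : ℝ => x) (Ioo (0 : ℝ) 1) := continuousOn_id
    have h4 : ContinuousOn (fun x => sq x ^ 2 / (1 + sq x)) (Ioo (0 : ℝ) 1) :=
      (h1.pow 2).div (continuousOn_const.add h1) fun x hx => by
        have := sqx_pos hx
        exact (by linarith only [this] : (0 : ℝ) < 1 + sq x).ne'
    have h5 : ContinuousOn (fun x => x ^ 2 / sq x ^ 2) (Ioo (0 : ℝ) 1) :=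
      (hid.pow 2).div (h1.pow 2) fun x hx => sq_ne x hx 2
    have h6 : ContinuousOn (fun x => Real.exp (lf τ x / m)) (Ioo (0 : ℝ) 1) :=
      Real.continuous_exp.comp_continuousOn (hl.div_const _)
    unfold brΨ
    exact (continuousOn_const.mul (((hid.mul (h1.pow _)).mul h2).add h3)).add
      ((hid.mul (h1.pow _)).mul (((continuousOn_const.mul
        (((continuousOn_const.mul (continuousOn_const.sub h4)).mul hl).add
        ((continuousOn_const.mul h5).mul (hl.pow 2)))).add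
        (continuousOn_const.mul (h6.sub continuousOn_const))).sub hNc))
  have hΨxc : ContinuousOn Ψx (Ioo 0 1) := fun x hx => (hΨx' x hx).continuousAt.continuousWithinAt
  refine admGe_of_cert (m := m) (by omega) (c := fun x => prc m τ x + cx x)
    (c' := fun x => prc' m τ τ' x + cx' x) (p := fun x => prp m τ x + px x)
    (p' := fun x => prp' m τ τ' x + px' x) (μ := (bγ m)⁻¹ * (μ * m)) (x₀ := x₀) (W := W)
    (Ψ := fun x => (bγ m)⁻¹ * (brΨ m τ N μ x + Ψx x))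
    (Ψ' := fun x => (bγ m)⁻¹ * (brΨ' m τ τ' N N' μ x + Ψx' x))
    (Kern2.addφ hA m) hr hT hN ?_ ?_ ?_ ?_ ?_ ?_ ?_ ?_ ?_ ?_ ?_ ?_ ?_ ?_ ?_ ?_
  · exact fun x hx => (prc_der hT hx).add (a1 x hx)
  · exact (prc'_cont hT).add a2
  · exact fun x hx => (prp_der hT hx).add (a3 x hx)
  · exact (prp'_cont hT).add a4
  · intro x hx b hb
    have h1 := hS x hx b hb
    have h2 := bφ_tangent m (mem_neg (hT.mem x hx)) hb
    unfold prc prp
    linarith only [h1, h2]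
  · obtain ⟨C1, hC1⟩ := prc_bdd (by omega) hr hT
    obtain ⟨C2, hC2⟩ := hX.c0
    exact ⟨C1 + C2, fun x hx => (abs_add_le _ _).trans (add_le_add (hC1 x hx) (hC2 x hx))⟩
  · simpa using (prp_tendsto (by omega) hr hT).add hX.p0
  · have := (prc_tendsto_one (by omega) hr hT).add hX.c1
    rw [add_zero] at this
    refine this.congr fun x => ?_
    ring
  · (clear * - hγ hμ hm; positivity)
  · exact continuousOn_const.mul (hΨc.add hΨxc)
  · intro x hx hne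
    exact ((brΨ_der (by omega) hT hx (hNd x hx hne) μ).add (hΨx' x hx)).const_mul _
  · simpa only [add_zero, mul_zero] using ((brΨ_tendsto_zero (μ := μ) hm hr hT hNb).add hX.Ψ0).const_mul (bγ m)⁻¹
  · simpa only [add_zero, mul_zero] using ((brΨ_tendsto_one (μ := μ) hm hr hT hNb).add hX.Ψ1).const_mul (bγ m)⁻¹
  · intro x hx _
    have h1 := uf_pos hT hx
    have h2 := sqx_pos hx
    simp only [hWd]
    (clear * - hγ h2 hε h1; positivity)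
  · refine ⟨x1, hx1, hWcont.continuousAt (isOpen_Ioo.mem_nhds hx1), ?_⟩
    have h1 := uf_pos hT hx1
    have h2 := sqx_pos hx1
    have h3 : 0 < uf τ τ' x1 ^ 2 := by (clear * - hux1; positivity)
    simp only [hWd]
    (clear * - hγ h2 hε hux1 h1; positivity)
  · intro x hx hne
    have hid := plain_identity (by omega : 1 ≤ m) hT hx N N' μ
    have hx2 := hidx x hx
    have h1 := hpt x hx hne
    have hs := sqx_pos hx
    have hP : 0 < sq x ^ (m - 1) := pow_pos hs _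
    have h2 := mul_le_mul_of_nonneg_left h1 hP.le
    have hγ' : bγ m * (bγ m)⁻¹ = 1 := mul_inv_cancel₀ hγ.ne'
    -- multiply by `bγ m`
    have key : bγ m * (W x + (bγ m)⁻¹ * (brΨ' m τ τ' N N' μ x + Ψx' x)) ≤
        bγ m * ((((m : ℝ) + 1) * (prc m τ x + cx x) + (τ x * (prc' m τ τ' x + cx' x) +
          (prp' m τ τ' x + px' x)) / τ' x) * sq x ^ m +
        (bγ m)⁻¹ * (μ * m) * (sq x ^ (m - 1) * τ' x ^ (1 / (m : ℝ)) - sq x ^ (m - 1))) := by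
      have e1 : bγ m * (W x + (bγ m)⁻¹ * (brΨ' m τ τ' N N' μ x + Ψx' x)) =
          sq x ^ (m - 1) * (ε * (uf τ τ' x ^ 2 / (1 + uf τ τ' x))) +
            (brΨ' m τ τ' N N' μ x + Ψx' x) := by
        simp only [hWd]
        linear_combination (sq x ^ (m - 1) * (ε * (uf τ τ' x ^ 2 / (1 + uf τ τ' x))) +
            (brΨ' m τ τ' N N' μ x + Ψx' x)) * hγ'
      have e2 : bγ m * ((((m : ℝ) + 1) * (prc m τ x + cx x) + (τ x * (prc' m τ τ' x + cx' x) +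
          (prp' m τ τ' x + px' x)) / τ' x) * sq x ^ m +
          (bγ m)⁻¹ * (μ * m) * (sq x ^ (m - 1) * τ' x ^ (1 / (m : ℝ)) - sq x ^ (m - 1))) =
          (bγ m * ((((m : ℝ) + 1) * prc m τ x + (τ x * prc' m τ τ' x + prp' m τ τ' x) / τ' x)
            * sq x ^ m) + μ * m * (sq x ^ (m - 1) * τ' x ^ (1 / (m : ℝ)) - sq x ^ (m - 1))) +
          bγ m * ((((m : ℝ) + 1) * cx x + (τ x * cx' x + px' x) / τ' x) * sq x ^ m) := by
        rw [show ((m : ℝ) + 1) * (prc m τ x + cx x) + (τ x * (prc' m τ τ' x + cx' x) +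
          (prp' m τ τ' x + px' x)) / τ' x =
          (((m : ℝ) + 1) * prc m τ x + (τ x * prc' m τ τ' x + prp' m τ τ' x) / τ' x) +
          (((m : ℝ) + 1) * cx x + (τ x * cx' x + px' x) / τ' x) by ring]
        linear_combination (μ * m * (sq x ^ (m - 1) * τ' x ^ (1 / (m : ℝ)) - sq x ^ (m - 1))) * hγ'
      rw [e1, e2, hid, hx2]
      linarith only [h2]
    exact le_of_mul_le_mul_left key hγ

end

end Vale.Agent.P237.AllN
end

section

/-!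
# P237, all dimensions: certificates without gain, and the value at the ball
-/

open MeasureTheory Metric Set Module Filter Topology

namespace Vale.Agent.P237.AllN

/-- **Certificates**, version without gain. -/
theorem admGe_of_cert0 {m : ℕ} (hm : 3 ≤ m) {A : ℝ → ℝ → ℝ} (hA : Kern2 A) {r : ℝ → ℝ}
    (hr : IsProf r) {τ τ' T : ℝ → ℝ} (hT : IsTrans m r τ τ' T)
    (hN : (∫ y in (-1 : ℝ)..1, r y ^ (m - 1)) ^ m * aInt m ^ (m - 1) ≤
      aInt (m - 1) ^ m * (∫ y in (-1 : ℝ)..1, r y ^ m) ^ (m - 1))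
    {c c' p p' : ℝ → ℝ}
    (hc : ∀ x ∈ Ioo (0 : ℝ) 1, HasDerivAt c (c' x) x) (hc' : ContinuousOn c' (Ioo 0 1))
    (hp : ∀ x ∈ Ioo (0 : ℝ) 1, HasDerivAt p (p' x) x) (hp' : ContinuousOn p' (Ioo 0 1))
    (hle : ∀ x ∈ Ioo (0 : ℝ) 1, ∀ b ∈ Icc (-1 : ℝ) 1, c x + p x * b ≤ A (τ x) b)
    (hc0 : ∃ C : ℝ, ∀ x ∈ Ioo (0 : ℝ) (1/2), |c x| ≤ C)
    (hp0 : Tendsto p (𝓝[>] 0) (𝓝 0))
    (hc1 : Tendsto (fun x => sq x ^ (m + 2) * c x) (𝓝[<] 1) (𝓝 0))
    {μ : ℝ} (hμ : 0 ≤ μ) {x₀ : ℝ} {Ψ Ψ' : ℝ → ℝ}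
    (hΨ : ContinuousOn Ψ (Ioo 0 1)) (hΨd : ∀ x ∈ Ioo (0 : ℝ) 1, x ≠ x₀ → HasDerivAt Ψ (Ψ' x) x)
    (hΨ0 : Tendsto Ψ (𝓝[>] 0) (𝓝 0)) (hΨ1 : Tendsto Ψ (𝓝[<] 1) (𝓝 0))
    (hid0 : ∀ x ∈ Ioo (0 : ℝ) 1, x ≠ x₀ →
      Ψ' x ≤ (((m : ℝ) + 1) * c x + (τ x * c' x + p' x) / τ' x) * sq x ^ m +
        μ * (sq x ^ (m - 1) * τ' x ^ (1 / (m : ℝ)) - sq x ^ (m - 1))) :
    AdmGe m A r 0 := by
  have hm1 : 1 ≤ m := by omega
  intro ε hε
  set W : ℝ → ℝ := fun _ => 0 with hWdef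
  have hW : ∀ x ∈ Ioo (0 : ℝ) 1, x ≠ x₀ → 0 ≤ W x := fun _ _ _ => le_rfl
  have hid : ∀ x ∈ Ioo (0 : ℝ) 1, x ≠ x₀ →
      W x + Ψ' x ≤ (((m : ℝ) + 1) * c x + (τ x * c' x + p' x) / τ' x) * sq x ^ m +
        μ * (sq x ^ (m - 1) * τ' x ^ (1 / (m : ℝ)) - sq x ^ (m - 1)) := by
    intro x hx hne
    simpa only [hWdef, zero_add, one_div] using hid0 x hx hne
  obtain ⟨a1, b1, w1, ha1, hab1, hb1, hw1, hWw⟩ : ∃ a1 b1 w1 : ℝ, 0 < a1 ∧ a1 < b1 ∧ b1 < 1 ∧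
      w1 = 0 ∧ ∀ x ∈ Icc a1 b1, w1 ≤ W x :=
    ⟨1 / 4, 3 / 4, 0, by norm_num, by norm_num, by norm_num, rfl, fun _ _ => le_rfl⟩
  obtain ⟨M, hM⟩ := hA.bdd
  have hM0 : 0 ≤ M := (abs_nonneg _).trans (hM 0 ⟨by norm_num, by norm_num⟩ 0
    ⟨by norm_num, by norm_num⟩)
  obtain ⟨C1, hC1, hone⟩ := hT.near_one hm1 hr
  have hZr := ass_Zr_pos (m := m) hr
  have hZm := ass_Zm_pos m
  set Zr := ∫ t in (0 : ℝ)..1, r t ^ m with hZrd
  set Zm := ∫ t in (0 : ℝ)..1, sq t ^ m with hZmd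
  set q := Zr / Zm with hq
  have hq0 : 0 < q := by (clear * - hZr hZm; positivity)
  set R := r 0 ^ m with hR
  have hR0 : 0 < R := pow_pos (hr.pos 0 ⟨by norm_num, by norm_num⟩) m
  set w := ε / 8 with hwd
  have hw0 : 0 < w := by rw [hwd]; linarith only [hε]
  set κ := w / 16 with hκ
  have hκ0 : 0 < κ := by (clear * - hε; positivity)
  set η := w / (16 * R) with hη
  have hη0 : 0 < η := by (clear * - hε hR0; positivity)
  have hηR : η * R = κ := by rw [hη, hκ]; (clear * - hR0 hw0; field_simp)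
  obtain ⟨P, hP0, δ1, hδ1, hδ1', hPb⟩ := hA.end_pair hη0
  obtain ⟨δ2, hδ2, hcor⟩ := hA.corner η hη0
  have hm1' : (0 : ℝ) < (m : ℝ) + 1 := by positivity
  obtain ⟨α, hα0, hαa, A1, A2, A3, A4⟩ := ass_choose_zero hm1 hr hT hc0 hp0 hΨ0 q μ R
    (((m : ℝ) + 1) * M * R) hM0 ha1 hκ0
  obtain ⟨β, hβb, hβ1, B1, B2, B3, B4, B5, B6⟩ := ass_choose_one hm1 hr hT hc1 hΨ1 q μ C1
    (((m : ℝ) + 1) * (η + P) * R) hb1 hκ0 hδ1 hδ2
  -- facts about `α`, `β`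
  have hα01 : α ∈ Ioo (0 : ℝ) 1 := ⟨hα0, hαa.trans (hab1.trans hb1)⟩
  have hβ01 : β ∈ Ioo (0 : ℝ) 1 := ⟨(ha1.trans hab1).trans hβb, hβ1⟩
  have hαβ : α < β := hαa.trans (hab1.trans hβb)
  have hτα := hT.mem α hα01
  have hτβ := hT.mem β hβ01
  have hτlt : τ α < τ β := hT.mono hα01 hβ01 hαβ
  have hTα := hT.left α hα01
  have hTβ := hT.left β hβ01
  -- the cut
  have hTcont : ContinuousOn T (Ioo 0 1) := fun y hy =>
    (hT.Tder y hy).continuousAt.continuousWithinAt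
  have hinv : ContinuousOn (fun y => (τ' (T y))⁻¹) (Ioo 0 1) :=
    (hT.cont.comp hTcont fun y hy => hT.Tmem y hy).inv₀ fun y hy => (hT.pos _ (hT.Tmem y hy)).ne'
  have dcy : ∀ y ∈ Ioo (0 : ℝ) 1, HasDerivAt (fun y => c (T y)) (c' (T y) * (τ' (T y))⁻¹) y :=
    fun y hy => (hc _ (hT.Tmem y hy)).comp y (hT.Tder y hy)
  have dpy : ∀ y ∈ Ioo (0 : ℝ) 1, HasDerivAt (fun y => p (T y)) (p' (T y) * (τ' (T y))⁻¹) y :=
    fun y hy => (hp _ (hT.Tmem y hy)).comp y (hT.Tder y hy)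
  have ccy : ContinuousOn (fun y => c' (T y) * (τ' (T y))⁻¹) (Ioo 0 1) :=
    (hc'.comp hTcont fun y hy => hT.Tmem y hy).mul hinv
  have cpy : ContinuousOn (fun y => p' (T y) * (τ' (T y))⁻¹) (Ioo 0 1) :=
    (hp'.comp hTcont fun y hy => hT.Tmem y hy).mul hinv
  have hley : ∀ y ∈ Ioo (0 : ℝ) 1, ∀ b ∈ Icc (-1 : ℝ) 1, c (T y) + p (T y) * b ≤ A y b := by
    intro y hy b hb
    have := hle (T y) (hT.Tmem y hy) b hb
    rwa [hT.right y hy] at this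
  have hPy : ∀ y ∈ Icc (τ β) 1, ∀ b ∈ Icc (-1 : ℝ) 1, -η - P * (1 - b) ≤ A y b := by
    intro y hy b hb
    refine hPb y ⟨?_, hy.2⟩ b hb
    have := (abs_lt.1 B5).2
    linarith only [this, hy.1]
  have hcut := admGe_cut (m := m) hA hr (c := fun y => c (T y))
    (c' := fun y => c' (T y) * (τ' (T y))⁻¹) (p := fun y => p (T y))
    (p' := fun y => p' (T y) * (τ' (T y))⁻¹) hτα.1 hτlt hτβ.2 dcy ccy dpy cpy hley hM0 hM
    hη0.le hP0 hPy
  obtain ⟨d, d', e, e', h1, h2⟩ := hcut (ε / 2) (by linarith only [hε])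
  refine ⟨d, d', e, e', h1, le_trans ?_ h2⟩
  -- change of variables
  have hcov := hT.integral hm1 hr (F := fun y => ((m : ℝ) + 1) * c (T y) +
    y * (c' (T y) * (τ' (T y))⁻¹) + p' (T y) * (τ' (T y))⁻¹) (by
      refine ((continuousOn_const.mul fun y hy => ?_).add (continuousOn_id.mul ccy)).add cpy
      exact (dcy y hy).continuousAt.continuousWithinAt) hα0 hαβ.le hβ1
  have hcong : ∫ x in α..β, (((m : ℝ) + 1) * c (T (τ x)) +
      τ x * (c' (T (τ x)) * (τ' (T (τ x)))⁻¹) + p' (T (τ x)) * (τ' (T (τ x)))⁻¹) * sq x ^ m =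
      ∫ x in α..β, (((m : ℝ) + 1) * c x + (τ x * c' x + p' x) / τ' x) * sq x ^ m := by
    apply intervalIntegral.integral_congr
    intro x hx
    rw [uIcc_of_le hαβ.le] at hx
    have hx' : x ∈ Ioo (0 : ℝ) 1 := ⟨hα0.trans_le hx.1, hx.2.trans_lt hβ1⟩
    simp only [hT.left x hx']
    rw [div_eq_mul_inv]
    ring
  rw [hcong] at hcov
  have hlow := ass_lower hm hr hT hN hc hc' hp' hμ hΨ hΨd hW hid hab1 hWw hα0 hαa.le hβb.le hβ1
  set J := ∫ x in α..β, (((m : ℝ) + 1) * c x + (τ x * c' x + p' x) / τ' x) * sq x ^ m with hJ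
  set I := ∫ y in τ α..τ β, (((m : ℝ) + 1) * c (T y) + y * (c' (T y) * (τ' (T y))⁻¹) +
    p' (T y) * (τ' (T y))⁻¹) * r y ^ m with hI
  have hIJ : I = q * J := by
    rw [hq, div_mul_eq_mul_div, eq_div_iff hZm.ne', hcov]
    ring
  have hqJ : 0 + (q * Ψ β - q * Ψ α) - (q * μ * α + q * μ * (1 - β)) ≤ I := by
    rw [hIJ]
    rw [hw1, zero_mul] at hlow
    have := mul_le_mul_of_nonneg_left hlow hq0.le
    linarith only [this]
  -- boundary terms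
  have hmα : τ α ∈ Icc (0 : ℝ) 1 := ⟨hτα.1.le, hτα.2.le⟩
  have hmβ : τ β ∈ Icc (0 : ℝ) 1 := ⟨hτβ.1.le, hτβ.2.le⟩
  have rα0 : 0 ≤ r (τ α) ^ m := pow_nonneg (Alm.prof_nn hr hmα) m
  have rαR : r (τ α) ^ m ≤ R := pow_le_pow_left₀ (Alm.prof_nn hr hmα) (Alm.prof_le_zero hr hmα) m
  have rβ0 : 0 ≤ r (τ β) ^ m := pow_nonneg (Alm.prof_nn hr hmβ) m
  have rβR : r (τ β) ^ m ≤ R := pow_le_pow_left₀ (Alm.prof_nn hr hmβ) (Alm.prof_le_zero hr hmβ) m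
  have b0 : -κ ≤ (τ α * (c α + M) + p α) * r (τ α) ^ m := by
    have h1 : |(τ α * (c α + M) + p α) * r (τ α) ^ m| ≤ |(τ α * (c α + M) + p α) * R| := by
      rw [abs_mul, abs_mul, abs_of_nonneg rα0, abs_of_nonneg hR0.le]
      exact mul_le_mul_of_nonneg_left rαR (abs_nonneg _)
    linarith only [(abs_le.1 (h1.trans A3.le)).1]
  have b1' : (τ β * (c β + η + P) + p β - P) * r (τ β) ^ m ≤ 2 * κ + κ := by
    have h1 : c β + p β ≤ η := by
      have h2 := hle β hβ01 1 ⟨by norm_num, le_rfl⟩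
      have h3 := hcor (τ β) ⟨by linarith only [(abs_lt.1 B6).2], hτβ.2.le⟩ 1 ⟨by linarith only [hδ2], le_rfl⟩
      have := (abs_le.1 h3).2
      linarith only [h2, this]
    exact ass_bdry hτβ.2.le hη0.le hP0 hηR rβ0 rβR h1 hC1.le
      (pow_nonneg (ass_sq_nonneg β) (m + 2)) (hone β hβ01).1 B3
  have e0 : ((m : ℝ) + 1) * M * (∫ y in (0 : ℝ)..τ α, r y ^ m) ≤ κ := by
    have h1 := (ass_short (m := m) hr le_rfl hτα.1.le hτα.2.le).2
    rw [sub_zero] at h1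
    have h2 := mul_le_mul_of_nonneg_left h1 (by (clear * - hm hM0; positivity) : 0 ≤ ((m : ℝ) + 1) * M)
    have h3 := (abs_lt.1 A4).2
    linarith only [h2, h3]
  have e1 : ((m : ℝ) + 1) * (η + P) * (∫ y in τ β..1, r y ^ m) ≤ κ := by
    have h1 := (ass_short (m := m) hr hτβ.1.le hτβ.2.le le_rfl).2
    have h2 := mul_le_mul_of_nonneg_left h1 (by (clear * - hm hε hR0 hP0; positivity) : 0 ≤ ((m : ℝ) + 1) * (η + P))
    have h3 := (abs_lt.1 B4).2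
    linarith only [h2, h3]
  have k1 := (abs_lt.1 A1).2
  have k2 := (abs_lt.1 A2).2
  have k3 := (abs_lt.1 B1).1
  have k4 := (abs_lt.1 B2).2
  simp only [hTα, hTβ]
  have hκw : 16 * κ = w := by rw [hκ]; ring
  linarith only [k4, k3, k2, k1, e1, e0, b1', b0, hqJ, hκ0, hκ, hwd]

/-! ### the ball -/

theorem isProf_sq : IsProf sq where
  conc := by
    refine ⟨convex_Icc _ _, fun x hx y hy a b ha hb hab => ?_⟩
    simp only [smul_eq_mul]
    unfold sq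
    apply Real.le_sqrt_of_sq_le
    have hx1 : 0 ≤ 1 - x ^ 2 := by linarith only [mul_nonneg (sub_nonneg.2 hx.1) (sub_nonneg.2 hx.2)]
    have hy1 : 0 ≤ 1 - y ^ 2 := by linarith only [mul_nonneg (sub_nonneg.2 hy.1) (sub_nonneg.2 hy.2)]
    have h1 := Real.sq_sqrt hx1
    have h2 := Real.sq_sqrt hy1
    set X := Real.sqrt (1 - x ^ 2)
    set Y := Real.sqrt (1 - y ^ 2)
    have h3 : X * Y + x * y ≤ 1 := by nlinarith only [h1, h2, sq_nonneg (x - y)]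
    have h4 : b = 1 - a := by linarith only [hab]
    have h5 : 0 ≤ a * b := mul_nonneg ha hb
    have h6 := mul_le_mul_of_nonneg_left h3 h5
    have e : (a * X + b * Y) ^ 2 + (a * x + b * y) ^ 2 =
        a ^ 2 * (X ^ 2 + x ^ 2) + b ^ 2 * (Y ^ 2 + y ^ 2) + 2 * (a * b * (X * Y + x * y)) := by ring
    have e1 : X ^ 2 + x ^ 2 = 1 := by linarith only [h1]
    have e2 : Y ^ 2 + y ^ 2 = 1 := by linarith only [h2]
    rw [e1, e2] at e
    have e3 : (a + b) ^ 2 = 1 := by rw [hab]; norm_num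
    linarith
  even := fun y => by unfold sq; simp only [even_two, Even.neg_pow]
  pos := fun y hy => br_sq_pos hy
  nonneg := Real.sqrt_nonneg _

theorem isTrans_id (m : ℕ) : IsTrans m sq (fun x => x) (fun _ => 1) (fun x => x) where
  mem := fun x hx => hx
  der := fun x _ => hasDerivAt_id' x
  pos := fun _ _ => one_pos
  cont := continuousOn_const
  Tmem := fun x hx => hx
  left := fun _ _ => rfl
  right := fun _ _ => rfl
  Tder := fun y _ => by simpa using hasDerivAt_id' y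
  mass := fun x _ => rfl
  eqn := fun x _ => by ring

theorem lf_id {x : ℝ} (hx : x ∈ Ioo (0 : ℝ) 1) : lf (fun x => x) x = 0 := by
  unfold lf
  rw [div_self hx.1.ne', Real.log_one]

theorem uf_id {x : ℝ} (hx : x ∈ Ioo (0 : ℝ) 1) : uf (fun x => x) (fun _ => 1) x = 0 := by
  unfold uf
  rw [mul_one, div_self hx.1.ne', sub_self]

/-- **value at the ball** -/
theorem ball_value {m : ℕ} (hm : 4 ≤ m) {A : ℝ → ℝ → ℝ} (hA : Kern2 A)
    (hS : ∀ x ∈ Ioo (0 : ℝ) 1, ∀ b ∈ Icc (-1 : ℝ) 1,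
      bc0 (sq x) 0 + x * bM0 (sq x) 0 * b ≤ A x b) :
    AdmGe m (fun a b => A a b + (bφ m b - bφ m a)) sq 0 := by
  have hT := isTrans_id m
  have hr := isProf_sq
  have hγ := bγ_pos (m := m) (by omega)
  have hNb : ∀ x ∈ Ioo (0 : ℝ) 1, |(fun _ : ℝ => (0 : ℝ)) x| * sq x ^ 2 ≤ 0 := fun x _ => by simp
  refine admGe_of_cert0 (m := m) (by omega) (c := prc m (fun x => x))
    (c' := prc' m (fun x => x) (fun _ => 1)) (p := prp m (fun x => x))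
    (p' := prp' m (fun x => x) (fun _ => 1)) (μ := 0) (x₀ := 0)
    (Ψ := fun x => (bγ m)⁻¹ * brΨ m (fun x => x) (fun _ => 0) 0 x)
    (Ψ' := fun x => (bγ m)⁻¹ * brΨ' m (fun x => x) (fun _ => 1) (fun _ => 0) (fun _ => 0) 0 x)
    (Kern2.addφ hA m) hr hT ?_ ?_ ?_ ?_ ?_ ?_ ?_ ?_ ?_ ?_ ?_ ?_ ?_ ?_ ?_
  · unfold aInt
    rfl
  · exact fun x hx => prc_der hT hx
  · exact prc'_cont hT
  · exact fun x hx => prp_der hT hx
  · exact prp'_cont hT
  · intro x hx b hb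
    have h1 := hS x hx b hb
    have h2 := bφ_tangent m (mem_neg hx) hb
    unfold prc prp
    rw [lf_id hx]
    linarith only [h1, h2]
  · exact prc_bdd (by omega) hr hT
  · exact prp_tendsto (by omega) hr hT
  · exact prc_tendsto_one (by omega) hr hT
  · exact le_rfl
  · intro x hx
    exact ((brΨ_der (N := fun _ => 0) (N' := fun _ => 0) (by omega) hT hx
      (hasDerivAt_const x (0 : ℝ)) 0).const_mul _).continuousAt.continuousWithinAt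
  · intro x hx _
    exact (brΨ_der (N := fun _ => 0) (N' := fun _ => 0) (by omega) hT hx
      (hasDerivAt_const x (0 : ℝ)) 0).const_mul _
  · simpa only [mul_zero] using ((brΨ_tendsto_zero (μ := 0) hm hr hT hNb)).const_mul (bγ m)⁻¹
  · simpa only [mul_zero] using ((brΨ_tendsto_one (μ := 0) hm hr hT hNb)).const_mul (bγ m)⁻¹
  · intro x hx _
    have hid := plain_identity (by omega : 1 ≤ m) hT hx (fun _ => 0) (fun _ => 0) 0
    have hT0 : brT m (fun x => x) (fun _ => 1) 0 x = 0 := by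
      unfold brT TR
      rw [lf_id hx, uf_id hx]
      simp only [mul_zero, sub_zero, ne_eq, OfNat.ofNat_ne_zero, not_false_eq_true, zero_pow, add_zero, div_one, zero_div, Real.exp_zero, mul_one, one_div, Real.one_rpow, sub_self, zero_mul]
    rw [hT0] at hid
    simp only [zero_mul, mul_zero, add_zero, zero_add] at hid ⊢
    rw [← hid, ← mul_assoc, inv_mul_cancel₀ hγ.ne', one_mul]

end Vale.Agent.P237.AllN
end

section

/-!
# P237, all dimensions: a `K₁ log` line with nonnegative slope is admissible for `kA` on `b ≤ 0`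
-/

open MeasureTheory Metric Set Module Filter Topology

namespace Vale.Agent.P237.AllN

/-- intercept of the `K₁ log` line with contact `q` -/
noncomputable def kAcq (a q : ℝ) : ℝ :=
  gC (fun z => lK z - 0 * z) (fun z => lK1 z - 0) (fun t => 0 / 2 * t ^ 2) (fun t => 0 * t) a q

/-- slope of the `K₁ log` line with contact `q` -/
noncomputable def kApq (a q : ℝ) : ℝ :=
  gD (fun z => lK z - 0 * z) (fun z => lK1 z - 0) (fun t => 0 * t) a q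

theorem kAcq_eq {a q : ℝ} (hq : 0 < q) :
    kAcq a q = (lK (a * q) - a * q * lK1 (a * q)) * Real.log (q / a) - lK (a * q) := by
  unfold kAcq gC gV gD
  field_simp
  ring

theorem kApq_eq {a q : ℝ} (hq : 0 < q) :
    kApq a q * q = a * q * lK1 (a * q) * Real.log (q / a) + lK (a * q) := by
  unfold kApq gD
  field_simp
  ring

/-- every `K₁ log` line is below `kA` on `b > 0` -/
theorem kAq_pos {a q b : ℝ} (ha : 0 < a) (ha1 : a < 1) (hq : 0 < q) (hq1 : a * q < 1)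
    (hb0 : 0 < b) (hb : b ≤ 1) : kAcq a q + kApq a q * b ≤ kA a b :=
  kL_tangent_pos (k := 0) (ν := 1 / 16) le_rfl (by norm_num) ha ha1 hq hq1 hb0 hb

theorem kneg_aux1 {s : ℝ} (hs0 : 0 < s) (hs : s ≤ 1 / 2) :
    1 / 16 ≤ (1 - s) / (2 * s * (1 + s)) := by
  have h2 : s ^ 2 ≤ s / 2 := by nlinarith only [hs0, hs]
  rw [div_le_div_iff₀ (by norm_num) (by positivity)]
  linarith

theorem kAcq_le {a q : ℝ} (ha : 0 < a) (ha1 : a < 1) (hq : 0 < q) (hq1 : a * q < 1)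
    (hp : 0 ≤ kApq a q) : kAcq a q + a ^ 2 / 16 ≤ 0 := by
  have hz0 : 0 < a * q := mul_pos ha hq
  obtain ⟨s, hs0, hs1, hz⟩ := exists_s hz0 hq1
  have hp' : 0 ≤ kApq a q * q := mul_nonneg hp hq.le
  rw [kApq_eq hq] at hp'
  rw [kAcq_eq hq]
  have hdK : a * q * lK1 (a * q) = (1 - s ^ 2) / (2 * s ^ 3) := by rw [hz]; exact dlK_eq hs0
  have hK : lK (a * q) = (1 - s) / s := by rw [hz]; exact lK_eq hs0
  rw [hdK, hK] at hp' ⊢
  set lam := Real.log (q / a) with hlam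
  have h1s : 0 < 1 - s := by linarith only [hs1]
  rcases le_or_gt 0 lam with hl | hl
  · -- `q ≥ a`
    have hqa : a ≤ q := by
      by_contra hc
      push Not at hc
      have : Real.log (q / a) < 0 := Real.log_neg (by (clear * - hq ha; positivity)) (by rw [div_lt_one ha]; exact hc)
      linarith only [hl, this]
    have h2 : a ^ 2 ≤ 1 - s ^ 2 := by rw [← hz]; nlinarith only [ha, hqa]
    have h3 : (1 - s) / s - (1 - s ^ 2) / (2 * s ^ 3) ≤ 0 := by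
      have e : (1 - s) / s - (1 - s ^ 2) / (2 * s ^ 3) =
          -((1 - s) ^ 2 * (1 + 2 * s) / (2 * s ^ 3)) := by
        field_simp
        ring
      rw [e]
      have : 0 ≤ (1 - s) ^ 2 * (1 + 2 * s) / (2 * s ^ 3) := by positivity
      linarith only [this]
    have h4 : ((1 - s) / s - (1 - s ^ 2) / (2 * s ^ 3)) * lam ≤ 0 :=
      mul_nonpos_of_nonpos_of_nonneg h3 hl
    have h5 : (1 - s ^ 2) / 16 ≤ (1 - s) / s := by
      rw [div_le_div_iff₀ (by norm_num) hs0]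
      nlinarith only [hz, hs1, hz0, hs0]
    linarith only [h2, h4, h5]
  · set Λ := -lam with hΛ
    have hΛ0 : 0 < Λ := by rw [hΛ]; linarith only [hl]
    have hlΛ : lam = -Λ := by rw [hΛ]; ring
    have haq : a / q = Real.exp Λ := by
      rw [hΛ, hlam, ← Real.log_inv, inv_div, Real.exp_log (by positivity)]
    have ha2 : a ^ 2 = (1 - s ^ 2) * Real.exp Λ := by
      rw [← hz, ← haq]
      field_simp
    -- `Λ ≤ 2 s²/(1+s)`
    have hP1 : Λ ≤ 2 * s ^ 2 / (1 + s) := by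
      rw [hlΛ] at hp'
      have e : (1 - s ^ 2) / (2 * s ^ 3) * -Λ + (1 - s) / s =
          (1 - s) * (1 + s) / (2 * s ^ 3) * (2 * s ^ 2 / (1 + s) - Λ) := by
        field_simp
        ring
      rw [e] at hp'
      have h6 : 0 < (1 - s) * (1 + s) / (2 * s ^ 3) := by positivity
      have := nonneg_of_mul_nonneg_right hp' h6
      linarith only [this]
    have hX : (1 - s) / s - (1 - s ^ 2) / (2 * s ^ 3) = -((1 - s) ^ 2 * (1 + 2 * s) / (2 * s ^ 3)) := by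
      field_simp
      ring
    rw [hX, hlΛ]
    have hX0 : 0 ≤ (1 - s) ^ 2 * (1 + 2 * s) / (2 * s ^ 3) := by (clear * - hs1 hs0; positivity)
    rcases le_total (1 / 2) s with hs | hs
    · -- use `hP1`
      have h7 : Λ ≤ 1 := by
        refine hP1.trans ?_
        rw [div_le_one (by positivity)]
        nlinarith only [hz0, hz, hs0]
      have h8 : Real.exp Λ ≤ 3 := by
        have := Real.exp_le_exp.2 h7
        have h9 := Real.exp_one_lt_d9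
        linarith only [this, h9]
      have h10 := mul_le_mul_of_nonneg_left hP1 hX0
      have e : (1 - s) ^ 2 * (1 + 2 * s) / (2 * s ^ 3) * (2 * s ^ 2 / (1 + s)) - (1 - s) / s =
          -(2 * s * (1 - s) / (1 + s)) := by
        field_simp
        ring
      have h11 : (1 - s ^ 2) * Real.exp Λ / 16 ≤ 2 * s * (1 - s) / (1 + s) := by
        rw [div_le_div_iff₀ (by norm_num) (by positivity)]
        have h12 : (1 - s ^ 2) * Real.exp Λ ≤ (1 - s ^ 2) * 3 := by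
          apply mul_le_mul_of_nonneg_left h8
          nlinarith only [hz0, hz]
        have h13 : (1 - s ^ 2) * Real.exp Λ * (1 + s) ≤ (1 - s ^ 2) * 3 * (1 + s) :=
          mul_le_mul_of_nonneg_right h12 (by positivity)
        have h14 : (1 - s ^ 2) * 3 * (1 + s) ≤ 2 * s * (1 - s) * 16 := by
          have : 0 ≤ (1 - s) * (32 * s - 3 * (1 + s) ^ 2) := by
            apply mul_nonneg h1s.le
            linarith only [hs, hz, hz0]
          nlinarith only [this]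
        linarith only [h13, h14]
      rw [ha2]
      have e2 : -((1 - s) ^ 2 * (1 + 2 * s) / (2 * s ^ 3)) * -Λ =
        (1 - s) ^ 2 * (1 + 2 * s) / (2 * s ^ 3) * Λ := by ring
      rw [e2]
      linarith only [h11, e, h10]
    · -- use `Λ ≤ s²/(1-s²)`
      have hs2 : 0 < 1 - s ^ 2 := by nlinarith only [hz0, hz]
      have h7 : Λ ≤ s ^ 2 / (1 - s ^ 2) := by
        have h8 : Real.log (1 - s ^ 2) + Λ ≤ 0 := by
          have : (1 - s ^ 2) * Real.exp Λ < 1 := by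
            rw [← ha2]; exact pow_lt_one₀ ha.le ha1 two_ne_zero
          have h9 : Real.log ((1 - s ^ 2) * Real.exp Λ) ≤ 0 :=
            Real.log_nonpos (by (clear * - hs2; positivity)) this.le
          rwa [Real.log_mul hs2.ne' (Real.exp_pos _).ne', Real.log_exp] at h9
        have h9 := Real.log_le_sub_one_of_pos (x := (1 - s ^ 2)⁻¹) (by (clear * - hs2; positivity))
        rw [Real.log_inv] at h9
        have e : (1 - s ^ 2)⁻¹ - 1 = s ^ 2 / (1 - s ^ 2) := by field_simp; ring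
        linarith only [h8, h9, e]
      have h10 := mul_le_mul_of_nonneg_left h7 hX0
      have e : (1 - s) ^ 2 * (1 + 2 * s) / (2 * s ^ 3) * (s ^ 2 / (1 - s ^ 2)) - (1 - s) / s =
          -((1 - s) / (2 * s * (1 + s))) := by
        have : (1 - s ^ 2) = (1 - s) * (1 + s) := by ring
        rw [this]
        field_simp
        ring
      have h11 := kneg_aux1 hs0 hs
      have h12 : a ^ 2 ≤ 1 := pow_le_one₀ ha.le ha1.le
      have e2 : -((1 - s) ^ 2 * (1 + 2 * s) / (2 * s ^ 3)) * -Λ =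
        (1 - s) ^ 2 * (1 + 2 * s) / (2 * s ^ 3) * Λ := by ring
      rw [e2]
      linarith only [h10, e, h11, h12]

/-- **A `K₁ log` line with nonnegative slope is admissible for `kA`.** -/
theorem kAq_le {a q b : ℝ} (ha : 0 < a) (ha1 : a < 1) (hq : 0 < q) (hq1 : a * q < 1)
    (hp : 0 ≤ kApq a q) (hb : b ∈ Icc (-1 : ℝ) 1) : kAcq a q + kApq a q * b ≤ kA a b := by
  rcases lt_or_ge 0 b with h | h
  · exact kAq_pos ha ha1 hq hq1 h hb.2
  · apply kA_neg ha _ h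
    rw [min_eq_right hp]
    have := kAcq_le ha ha1 hq hq1 hp
    simpa only [ne_eq, OfNat.ofNat_ne_zero, not_false_eq_true, zero_pow, mul_zero, add_zero, ge_iff_le] using this

/-- a sufficient condition for nonnegative slope: `-log (q/a) ≤ 2 s²/(1+s)`, `s = √(1-aq)` -/
theorem kApq_nonneg {a q : ℝ} (ha : 0 < a) (hq : 0 < q) (hq1 : a * q < 1)
    (h : -Real.log (q / a) ≤ 2 * Real.sqrt (1 - a * q) ^ 2 / (1 + Real.sqrt (1 - a * q))) :
    0 ≤ kApq a q := by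
  have hz0 : 0 < a * q := mul_pos ha hq
  obtain ⟨s, hs0, hs1, hz⟩ := exists_s hz0 hq1
  have hss : Real.sqrt (1 - a * q) = s := by rw [hz, sub_sub_cancel, Real.sqrt_sq hs0.le]
  rw [hss] at h
  have h1s : 0 < 1 - s := by linarith only [hs1]
  have hdK : a * q * lK1 (a * q) = (1 - s ^ 2) / (2 * s ^ 3) := by rw [hz]; exact dlK_eq hs0
  have hK : lK (a * q) = (1 - s) / s := by rw [hz]; exact lK_eq hs0
  have hp : 0 ≤ q * kApq a q := by
    rw [mul_comm, kApq_eq hq, hdK, hK]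
    have e : (1 - s ^ 2) / (2 * s ^ 3) * Real.log (q / a) + (1 - s) / s =
        (1 - s) * (1 + s) / (2 * s ^ 3) * (2 * s ^ 2 / (1 + s) - -Real.log (q / a)) := by
      field_simp
      ring
    rw [e]
    apply mul_nonneg (by (clear * - hs1 hs0; positivity))
    linarith only [h]
  exact nonneg_of_mul_nonneg_right hp hq

/-- standard test point `q = x²/τ`: slope nonnegative iff `l ≤ s²/(1+s)` -/
theorem kA_std_le {x l b : ℝ} (hx : x ∈ Ioo (0 : ℝ) 1) (hτ : x * Real.exp l < 1)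
    (hl : l ≤ sq x ^ 2 / (1 + sq x)) (hb : b ∈ Icc (-1 : ℝ) 1) :
    kAc x l + kAp x l * b ≤ kA (x * Real.exp l) b := by
  have hx0 := hx.1
  have hτ0 : 0 < x * Real.exp l := by positivity
  have hz : x * Real.exp l * (x ^ 2 / (x * Real.exp l)) = x ^ 2 := by field_simp
  have hp : 0 ≤ kApq (x * Real.exp l) (x ^ 2 / (x * Real.exp l)) := by
    apply kApq_nonneg hτ0 (by positivity) (by rw [hz]; nlinarith only [hx0, hx.2])
    rw [hz, std_log hx0 rfl]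
    unfold sq at hl
    have e : 2 * Real.sqrt (1 - x ^ 2) ^ 2 / (1 + Real.sqrt (1 - x ^ 2)) =
      2 * (Real.sqrt (1 - x ^ 2) ^ 2 / (1 + Real.sqrt (1 - x ^ 2))) := by ring
    rw [e]
    linarith only [hl]
  have h := kAq_le hτ0 hτ (by positivity) (by rw [hz]; nlinarith only [hx0, hx.2]) hp hb
  have e1 : kAcq (x * Real.exp l) (x ^ 2 / (x * Real.exp l)) = kAc x l := kAc_eq hx
  have e2 : kApq (x * Real.exp l) (x ^ 2 / (x * Real.exp l)) = kAp x l := kAp_eq hx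
  rwa [e1, e2] at h

end Vale.Agent.P237.AllN
end

section

/-!
# P237, all dimensions: from certificates to `OneD m`; the null term with the pole
-/

open MeasureTheory Metric Set Module Filter Topology

namespace Vale.Agent.P237.AllN

theorem admGe_pos_pair {m : ℕ} {A : ℝ → ℝ → ℝ} {r : ℝ → ℝ} {v : ℝ} (hv : 0 < v)
    (h : AdmGe m A r v) : ∃ c c' p p' : ℝ → ℝ, Adm A c c' p p' ∧
      0 < ∫ y in (-1 : ℝ)..1, (((m : ℝ) + 1) * c y + y * c' y + p' y) * r y ^ m := by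
  obtain ⟨c, c', p, p', h1, h2⟩ := h (v / 2) (by linarith)
  exact ⟨c, c', p, p', h1, by linarith⟩

/-- **`OneD m` from certificates** for the kernel `A + φ_c`. -/
theorem oneD_of_cert {m : ℕ} (hm : 4 ≤ m) {A : ℝ → ℝ → ℝ} (hA : Kern2 A)
    (hS : ∀ x ∈ Ioo (0 : ℝ) 1, ∀ b ∈ Icc (-1 : ℝ) 1,
      bc0 (sq x) 0 + x * bM0 (sq x) 0 * b ≤ A x b)
    (hcert : ∀ r τ τ' T : ℝ → ℝ, IsProf r → IsTrans m r τ τ' T →
      (∫ y in (-1 : ℝ)..1, r y ^ (m - 1)) ^ m * aInt m ^ (m - 1) ≤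
        aInt (m - 1) ^ m * (∫ y in (-1 : ℝ)..1, r y ^ m) ^ (m - 1) →
      (∃ k : ℝ, ∀ y ∈ Ioo (-1 : ℝ) 1, r y = k * Real.sqrt (1 - y ^ 2)) ∨
      ∃ v : ℝ, 0 < v ∧ AdmGe m (fun a b => A a b + (bφ m b - bφ m a)) r v) : OneD m := by
  refine ⟨fun a b => A a b + (bφ m b - bφ m a), (Kern2.addφ hA m).toKern, ?_, ?_⟩
  · intro ε hε
    obtain ⟨c, c', p, p', h1, h2⟩ := ball_value hm hA hS ε hε
    exact ⟨c, c', p, p', h1, by rw [zero_sub] at h2; exact h2⟩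
  · intro r hr hN
    obtain ⟨τ, τ', T, hT⟩ := exists_trans (m := m) (by omega) hr
    rcases hcert r τ τ' T hr hT hN with h | ⟨v, hv, h⟩
    · exact Or.inl h
    · exact Or.inr (admGe_pos_pair hv h)

theorem kAc_bc0 {x : ℝ} (hx : x ∈ Ioo (0 : ℝ) 1) (l : ℝ) : kAc x l = bc0 (sq x) l := by
  have hs := sqx_pos hx
  unfold kAc bc0
  rw [sqx_sq hx]
  field_simp
  ring

theorem kAp_bM0 (x l : ℝ) : kAp x l = x * Real.exp l * bM0 (sq x) l := rfl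

section

variable {m : ℕ} {r τ τ' T : ℝ → ℝ}

theorem tau_eq_exp (h : IsTrans m r τ τ' T) {x : ℝ} (hx : x ∈ Ioo (0 : ℝ) 1) :
    τ x = x * Real.exp (lf τ x) := by
  rw [exp_lf h hx]
  have := hx.1.ne'
  field_simp

/-- the plain line for `kA` is admissible where `l ≤ s²/(1+s)` -/
theorem kA_line (h : IsTrans m r τ τ' T) {x : ℝ} (hx : x ∈ Ioo (0 : ℝ) 1)
    (hl : lf τ x ≤ sq x ^ 2 / (1 + sq x)) {b : ℝ} (hb : b ∈ Icc (-1 : ℝ) 1) :
    bc0 (sq x) (lf τ x) + τ x * bM0 (sq x) (lf τ x) * b ≤ kA (τ x) b := by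
  have e := tau_eq_exp h hx
  have h1 := kA_std_le (l := lf τ x) hx (by rw [← e]; exact (h.mem x hx).2) hl hb
  rw [kAc_bc0 hx, kAp_bM0, ← e] at h1
  exact h1

theorem kA_line_ball {x : ℝ} (hx : x ∈ Ioo (0 : ℝ) 1) {b : ℝ} (hb : b ∈ Icc (-1 : ℝ) 1) :
    bc0 (sq x) 0 + x * bM0 (sq x) 0 * b ≤ kA x b := by
  have hs := sqx_pos hx
  have h1 := kA_std_le (l := 0) hx (by rw [Real.exp_zero, mul_one]; exact hx.2)
    (by positivity) hb
  rw [kAc_bc0 hx, kAp_bM0, Real.exp_zero, mul_one] at h1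
  exact h1

/-! ### the null term with the pole at `x₀` -/

/-- `H(x, l(x))` -/
noncomputable def nH (τ h e f : ℝ → ℝ) (x₀ : ℝ) (x : ℝ) : ℝ :=
  h x * (lf τ x - lf τ x₀) ^ 2 + e x * lf τ x₀ * (lf τ x - lf τ x₀) + f x * lf τ x₀ ^ 2

/-- its derivative -/
noncomputable def nH' (τ τ' h h' e e' f' : ℝ → ℝ) (x₀ : ℝ) (x : ℝ) : ℝ :=
  h' x * (lf τ x - lf τ x₀) ^ 2 + 2 * h x * (lf τ x - lf τ x₀) * (uf τ τ' x / x) +
    e' x * lf τ x₀ * (lf τ x - lf τ x₀) + e x * lf τ x₀ * (uf τ τ' x / x) + f' x * lf τ x₀ ^ 2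

theorem nH_der (hT : IsTrans m r τ τ' T) {h h' e e' f f' : ℝ → ℝ} {x₀ : ℝ} {x : ℝ}
    (hx : x ∈ Ioo (0 : ℝ) 1) (hh : HasDerivAt h (h' x) x) (he : HasDerivAt e (e' x) x)
    (hf : HasDerivAt f (f' x) x) :
    HasDerivAt (nH τ h e f x₀) (nH' τ τ' h h' e e' f' x₀ x) x := by
  have hl := (lf_hasDerivAt hT hx).sub_const (lf τ x₀)
  have e1 := ((hh.mul (hl.pow 2)).add ((he.mul_const (lf τ x₀)).mul hl)).add
    (hf.mul_const (lf τ x₀ ^ 2))
  refine e1.congr_deriv ?_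
  unfold nH'
  simp only [Pi.pow_apply]
  push_cast
  ring

/-- continuity and boundedness -/
theorem nH_cont (hm : 1 ≤ m) (hr : IsProf r) (hT : IsTrans m r τ τ' T) {h h' e e' f : ℝ → ℝ}
    {x₀ Ch Ce Cf : ℝ} (hx₀ : x₀ ∈ Ioo (0 : ℝ) 1)
    (hh : ∀ x ∈ Ioo (0 : ℝ) 1, x ≠ x₀ → HasDerivAt h (h' x) x)
    (he : ∀ x ∈ Ioo (0 : ℝ) 1, x ≠ x₀ → HasDerivAt e (e' x) x)
    (hhb : ∀ x ∈ Ioo (0 : ℝ) 1, |h x| * |x - x₀| ≤ Ch) (heb : ∀ x ∈ Ioo (0 : ℝ) 1, |e x| ≤ Ce)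
    (hfc : ContinuousOn f (Ioo 0 1)) (hfb : ∀ x ∈ Ioo (0 : ℝ) 1, |f x| ≤ Cf) :
    ContinuousOn (nH τ h e f x₀) (Ioo 0 1) ∧
    ∃ C : ℝ, ∀ x ∈ Ioo (0 : ℝ) 1, |nH τ h e f x₀ x| * sq x ^ 2 ≤ C := by
  -- difference quotient of `l` at `x₀`
  obtain ⟨Cl, hCl, hlb⟩ := lf_bdd hm hr hT
  have hCh : 0 ≤ Ch := (by positivity : 0 ≤ |h x₀| * |x₀ - x₀|).trans (hhb x₀ hx₀)
  have hCe : 0 ≤ Ce := (abs_nonneg _).trans (heb x₀ hx₀)
  set lam := lf τ x₀ with hlam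
  have hnear : ∃ δ > (0 : ℝ), ∃ D : ℝ, 0 ≤ D ∧ ∀ x ∈ Ioo (0 : ℝ) 1, |x - x₀| < δ →
      |lf τ x - lam| ≤ D * |x - x₀| := by
    have hd := lf_hasDerivAt hT hx₀
    have h1 := hd.isBigO_sub
    obtain ⟨D, hD⟩ := h1.bound
    obtain ⟨δ, hδ, hball⟩ := Metric.eventually_nhds_iff.1 hD
    refine ⟨δ, hδ, |D|, abs_nonneg _, fun x _ hx => ?_⟩
    have := hball (by rw [Real.dist_eq]; exact hx)
    simp only [Real.norm_eq_abs] at this
    exact this.trans (mul_le_mul_of_nonneg_right (le_abs_self D) (abs_nonneg _))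
  obtain ⟨δ, hδ, D, hD0, hD⟩ := hnear
  -- bound of the first term: `|h L²| ≤ Ch D |L|` near `x₀`
  have hLb : ∀ x ∈ Ioo (0 : ℝ) 1, |lf τ x - lam| ≤ 2 * Cl := fun x hx =>
    (abs_sub _ _).trans (by linarith [hlb x hx, hlb x₀ hx₀])
  have hnearb : ∀ x ∈ Ioo (0 : ℝ) 1, |x - x₀| < δ →
      |h x * (lf τ x - lam) ^ 2| ≤ Ch * D * |lf τ x - lam| := by
    intro x hx hxδ
    rw [abs_mul, abs_pow, pow_two]
    have h1 := hD x hx hxδ
    calc |h x| * (|lf τ x - lam| * |lf τ x - lam|) ≤ |h x| * ((D * |x - x₀|) * |lf τ x - lam|) := by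
          apply mul_le_mul_of_nonneg_left _ (abs_nonneg _)
          exact mul_le_mul_of_nonneg_right h1 (abs_nonneg _)
      _ = (|h x| * |x - x₀|) * (D * |lf τ x - lam|) := by ring
      _ ≤ Ch * (D * |lf τ x - lam|) :=
          mul_le_mul_of_nonneg_right (hhb x hx) (by positivity)
      _ = _ := by ring
  refine ⟨?_, ?_⟩
  · have hG : ContinuousOn (fun x => h x * (lf τ x - lam) ^ 2 + e x * lam * (lf τ x - lam))
        (Ioo 0 1) := by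
      intro x hx
      by_cases hne : x = x₀
      · subst hne
        have hL0 : Tendsto (fun y => |lf τ y - lam|) (𝓝[Ioo 0 1] x) (𝓝 0) := by
          have h1 : Tendsto (fun y => lf τ y - lam) (𝓝[Ioo 0 1] x) (𝓝 (lf τ x - lam)) :=
            ((lf_cont hT x hx).sub continuousWithinAt_const).tendsto
          rw [← hlam, sub_self] at h1
          simpa using h1.abs
        have h2 : Tendsto (fun y => Ch * D * |lf τ y - lam| + Ce * |lam| * |lf τ y - lam|)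
            (𝓝[Ioo 0 1] x) (𝓝 0) := by
          have := (hL0.const_mul (Ch * D)).add (hL0.const_mul (Ce * |lam|))
          simpa using this
        have h3 : Tendsto (fun y => h y * (lf τ y - lam) ^ 2 + e y * lam * (lf τ y - lam))
            (𝓝[Ioo 0 1] x) (𝓝 0) := by
          refine squeeze_zero_norm' ?_ h2
          have h4 : ∀ᶠ y in 𝓝[Ioo 0 1] x, |y - x| < δ := by
            have : ∀ᶠ y in 𝓝 x, |y - x| < δ := by
              filter_upwards [Metric.ball_mem_nhds x hδ] with y hy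
              rwa [Metric.mem_ball, Real.dist_eq] at hy
            exact this.filter_mono nhdsWithin_le_nhds
          filter_upwards [h4, self_mem_nhdsWithin] with y hy hy1
          rw [Real.norm_eq_abs]
          refine (abs_add_le _ _).trans (add_le_add (hnearb y hy1 hy) ?_)
          rw [abs_mul, abs_mul]
          exact mul_le_mul_of_nonneg_right (mul_le_mul_of_nonneg_right (heb y hy1) (abs_nonneg _))
            (abs_nonneg _)
        unfold ContinuousWithinAt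
        have hval : h x * (lf τ x - lam) ^ 2 + e x * lam * (lf τ x - lam) = 0 := by
          rw [← hlam, sub_self]
          ring
        beta_reduce
        rw [hval]
        exact h3
      · have hl := (lf_hasDerivAt hT hx).sub_const lam
        exact (((hh x hx hne).mul (hl.pow 2)).add
          (((he x hx hne).mul_const lam).mul hl)).continuousAt.continuousWithinAt
    unfold nH
    rw [← hlam]
    exact hG.add (hfc.mul continuousOn_const)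
  · refine ⟨Ch * D * (2 * Cl) + Ch / δ * (2 * Cl) ^ 2 + Ce * |lam| * (2 * Cl) + Cf * lam ^ 2,
      fun x hx => ?_⟩
    have hs1 := br_sq_le_one x
    have hs0 := sqx_pos hx
    have hs2 : sq x ^ 2 ≤ 1 := pow_le_one₀ hs0.le hs1
    have b1 : |h x * (lf τ x - lam) ^ 2| ≤ Ch * D * (2 * Cl) + Ch / δ * (2 * Cl) ^ 2 := by
      have p1 : 0 ≤ Ch * D * (2 * Cl) := by positivity
      have p2 : 0 ≤ Ch / δ * (2 * Cl) ^ 2 := by positivity
      rcases lt_or_ge |x - x₀| δ with h1 | h1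
      · have := hnearb x hx h1
        have h2 : Ch * D * |lf τ x - lam| ≤ Ch * D * (2 * Cl) :=
          mul_le_mul_of_nonneg_left (hLb x hx) (by positivity)
        linarith
      · have h2 : |h x| ≤ Ch / δ := by
          rw [le_div_iff₀ hδ]
          exact (mul_le_mul_of_nonneg_left h1 (abs_nonneg _)).trans (hhb x hx)
        have h3 : |h x * (lf τ x - lam) ^ 2| ≤ Ch / δ * (2 * Cl) ^ 2 := by
          rw [abs_mul, abs_pow]
          exact mul_le_mul h2 (pow_le_pow_left₀ (abs_nonneg _) (hLb x hx) 2) (by positivity)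
            (by positivity)
        linarith
    have b2 : |e x * lam * (lf τ x - lam)| ≤ Ce * |lam| * (2 * Cl) := by
      rw [abs_mul, abs_mul]
      exact mul_le_mul (mul_le_mul_of_nonneg_right (heb x hx) (abs_nonneg _)) (hLb x hx)
        (abs_nonneg _) (by positivity)
    have b3 : |nH τ h e f x₀ x| ≤
        Ch * D * (2 * Cl) + Ch / δ * (2 * Cl) ^ 2 + Ce * |lam| * (2 * Cl) + Cf * lam ^ 2 := by
      unfold nH
      rw [← hlam]
      refine (abs_add_le _ _).trans (add_le_add ((abs_add_le _ _).trans (add_le_add b1 b2)) ?_)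
      rw [abs_mul, abs_of_nonneg (sq_nonneg lam)]
      exact mul_le_mul_of_nonneg_right (hfb x hx) (sq_nonneg lam)
    calc |nH τ h e f x₀ x| * sq x ^ 2 ≤ |nH τ h e f x₀ x| * 1 :=
          mul_le_mul_of_nonneg_left hs2 (abs_nonneg _)
      _ ≤ _ := by rw [mul_one]; exact b3

end

end Vale.Agent.P237.AllN
end

section

/-!
# P237, all dimensions: the certificate with a pole potential at `x₀`
-/

open MeasureTheory Metric Set Module Filter Topology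

namespace Vale.Agent.P237.AllN

/-- the pointwise functional `T` without null term, explicit form:
`bγ m = (m-1)/(m+1)`, `bg t = √(1-t²)/(1+√(1-t²))` -/
theorem brT_eq (m : ℕ) (τ τ' : ℝ → ℝ) (μ x : ℝ) : brT m τ τ' μ x =
    bγ m * (2 * (1 - sq x ^ 2 / (1 + sq x)) - 3 * (x ^ 2 / sq x ^ 2) * lf τ x) *
      (uf τ τ' x ^ 2 / (1 + uf τ τ' x)) -
    μ * Real.exp (lf τ x / m) *
      (uf τ τ' x - m * ((1 + uf τ τ' x) ^ (1 / (m : ℝ)) - 1)) +
    ((m : ℝ) - 1) * (x ^ 2 / sq x ^ 2) * (μ * m * (Real.exp (lf τ x / m) - 1) - lf τ x) -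
    3 / 2 * bγ m * (x ^ 2 / sq x ^ 2) * (3 - ((m : ℝ) - 3) * (x ^ 2 / sq x ^ 2)) * lf τ x ^ 2 +
    bγ m * (sq x * (bg (τ x) - bg x) + x ^ 2 * lf τ x / (1 + sq x) ^ 2) := by
  unfold brT TR bγ
  ring

section

variable {m : ℕ} {r τ τ' T : ℝ → ℝ}

/-- `cert_gen` with the null term `h(x) L² + e(x) lam L + f(x) lam²`, `lam = l(x₀)`,
`L = l - lam`. -/
theorem cert_H (hm : 4 ≤ m) {A : ℝ → ℝ → ℝ} (hA : Kern2 A) (hr : IsProf r)
    (hT : IsTrans m r τ τ' T)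
    (hN : (∫ y in (-1 : ℝ)..1, r y ^ (m - 1)) ^ m * aInt m ^ (m - 1) ≤
      aInt (m - 1) ^ m * (∫ y in (-1 : ℝ)..1, r y ^ m) ^ (m - 1))
    {cx px Ψx Tx : ℝ → ℝ} (hX : XPair m τ τ' cx px Ψx Tx)
    (hS : ∀ x ∈ Ioo (0 : ℝ) 1, ∀ b ∈ Icc (-1 : ℝ) 1, (bc0 (sq x) (lf τ x) + cx x) +
      (τ x * bM0 (sq x) (lf τ x) + px x) * b ≤ A (τ x) b)
    {μ : ℝ} (hμ : 0 ≤ μ) {x₀ : ℝ} (hx₀ : x₀ ∈ Ioo (0 : ℝ) 1) {h h' e e' f f' : ℝ → ℝ}
    {Ch Ce Cf : ℝ}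
    (hh : ∀ x ∈ Ioo (0 : ℝ) 1, x ≠ x₀ → HasDerivAt h (h' x) x)
    (he : ∀ x ∈ Ioo (0 : ℝ) 1, x ≠ x₀ → HasDerivAt e (e' x) x)
    (hf : ∀ x ∈ Ioo (0 : ℝ) 1, x ≠ x₀ → HasDerivAt f (f' x) x)
    (hhb : ∀ x ∈ Ioo (0 : ℝ) 1, |h x| * |x - x₀| ≤ Ch) (heb : ∀ x ∈ Ioo (0 : ℝ) 1, |e x| ≤ Ce)
    (hfc : ContinuousOn f (Ioo 0 1)) (hfb : ∀ x ∈ Ioo (0 : ℝ) 1, |f x| ≤ Cf)
    {ε : ℝ} (hε : 0 < ε)
    (hpt : ∀ x ∈ Ioo (0 : ℝ) 1, x ≠ x₀ → ε * (uf τ τ' x ^ 2 / (1 + uf τ τ' x)) ≤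
      brT m τ τ' μ x + Tx x + (x * h' x * (lf τ x - lf τ x₀) ^ 2 +
        2 * h x * (lf τ x - lf τ x₀) * uf τ τ' x + x * e' x * lf τ x₀ * (lf τ x - lf τ x₀) +
        e x * lf τ x₀ * uf τ τ' x + x * f' x * lf τ x₀ ^ 2 +
        (1 - ((m : ℝ) - 1) * (x ^ 2 / sq x ^ 2)) *
          (h x * (lf τ x - lf τ x₀) ^ 2 + e x * lf τ x₀ * (lf τ x - lf τ x₀) +
            f x * lf τ x₀ ^ 2))) :
    (∃ k : ℝ, ∀ y ∈ Ioo (-1 : ℝ) 1, r y = k * Real.sqrt (1 - y ^ 2)) ∨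
    ∃ v : ℝ, 0 < v ∧ AdmGe m (fun a b => A a b + (bφ m b - bφ m a)) r v := by
  obtain ⟨hc, C, hC⟩ := nH_cont (by omega) hr hT hx₀ hh he hhb heb hfc hfb
  refine cert_gen hm hA hr hT hN hX hS hμ (x₀ := x₀) (N := nH τ h e f x₀)
    (N' := nH' τ τ' h h' e e' f' x₀) hc
    (fun x hx hne => nH_der hT hx (hh x hx hne) (he x hx hne) (hf x hx hne)) hC hε ?_
  intro x hx hne
  refine (hpt x hx hne).trans (le_of_eq ?_)
  have hx0 := hx.1.ne'
  unfold nH nH'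
  field_simp

/-! ### pole potential: `a1 x²/(x₀²-x²) + gL` on the left, `-a4 x²/(x²-x₀²) + gR` on the right -/

/-- two-sided function -/
noncomputable def glue (x₀ : ℝ) (f g : ℝ → ℝ) (x : ℝ) : ℝ := if x < x₀ then f x else g x

theorem glue_left {x₀ x : ℝ} {f g : ℝ → ℝ} (h : x < x₀) : glue x₀ f g x = f x := if_pos h

theorem glue_right {x₀ x : ℝ} {f g : ℝ → ℝ} (h : x₀ < x) : glue x₀ f g x = g x :=
  if_neg (not_lt.2 h.le)

theorem glue_der {x₀ x : ℝ} {f f' g g' : ℝ → ℝ} (hne : x ≠ x₀)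
    (hf : x < x₀ → HasDerivAt f (f' x) x) (hg : x₀ < x → HasDerivAt g (g' x) x) :
    HasDerivAt (glue x₀ f g) (glue x₀ f' g' x) x := by
  rcases lt_or_gt_of_ne hne with h | h
  · rw [glue_left h]
    refine (hf h).congr_of_eventuallyEq ?_
    filter_upwards [Iio_mem_nhds h] with y hy
    exact glue_left (mem_Iio.1 hy)
  · rw [glue_right h]
    refine (hg h).congr_of_eventuallyEq ?_
    filter_upwards [Ioi_mem_nhds h] with y hy
    exact glue_right (mem_Ioi.1 hy)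

theorem bdd_of_cont {f : ℝ → ℝ} (hf : ContinuousOn f (Icc 0 1)) :
    ∃ C : ℝ, 0 ≤ C ∧ ∀ x ∈ Icc (0 : ℝ) 1, |f x| ≤ C := by
  obtain ⟨C, hC⟩ := isCompact_Icc.exists_bound_of_continuousOn hf
  exact ⟨|C|, abs_nonneg _, fun x hx => (hC x hx).trans (le_abs_self C)⟩

theorem pole_left_der {a1 x₀ x g' : ℝ} {g : ℝ → ℝ} (hx : 0 < x) (h : x < x₀)
    (hg : HasDerivAt g g' x) : HasDerivAt (fun x : ℝ => a1 * (x ^ 2 / (x₀ ^ 2 - x ^ 2)) + g x)
      (a1 * (2 * x * x₀ ^ 2 / (x₀ ^ 2 - x ^ 2) ^ 2) + g') x := by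
  have d2 : HasDerivAt (fun x : ℝ => x ^ 2) (2 * x) x := by simpa only [Nat.cast_ofNat, Nat.add_one_sub_one, pow_one] using hasDerivAt_pow 2 x
  have hp : x₀ ^ 2 - x ^ 2 ≠ 0 := by
    have : x ^ 2 < x₀ ^ 2 := pow_lt_pow_left₀ h hx.le two_ne_zero
    linarith
  refine (((d2.div (d2.const_sub (x₀ ^ 2)) hp).const_mul a1).add hg).congr_deriv ?_
  congr 2
  field_simp
  ring

theorem pole_right_der {a4 x₀ x g' : ℝ} {g : ℝ → ℝ} (hx₀ : 0 < x₀) (h : x₀ < x)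
    (hg : HasDerivAt g g' x) : HasDerivAt (fun x : ℝ => -(a4 * (x ^ 2 / (x ^ 2 - x₀ ^ 2))) + g x)
      (a4 * (2 * x * x₀ ^ 2 / (x ^ 2 - x₀ ^ 2) ^ 2) + g') x := by
  have d2 : HasDerivAt (fun x : ℝ => x ^ 2) (2 * x) x := by simpa only [Nat.cast_ofNat, Nat.add_one_sub_one, pow_one] using hasDerivAt_pow 2 x
  have hp : x ^ 2 - x₀ ^ 2 ≠ 0 := by
    have : x₀ ^ 2 < x ^ 2 := pow_lt_pow_left₀ h hx₀.le two_ne_zero
    linarith only [this]
  refine ((((d2.div (d2.sub_const (x₀ ^ 2)) hp).const_mul a4).neg).add hg).congr_deriv ?_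
  field_simp
  ring

theorem pole_left_bdd {a1 x₀ x : ℝ} (hx : 0 < x) (hx1 : x ≤ 1) (h : x < x₀) :
    |a1 * (x ^ 2 / (x₀ ^ 2 - x ^ 2))| * |x - x₀| ≤ |a1| / x₀ := by
  have h1 : x ^ 2 ≤ 1 := pow_le_one₀ hx.le hx1
  have hx0 : 0 < x₀ := hx.trans h
  have hp : 0 < x₀ ^ 2 - x ^ 2 := by nlinarith
  have hd : |x - x₀| = x₀ - x := by rw [abs_sub_comm, abs_of_pos (by linarith only [h])]
  have hpos : 0 < x ^ 2 / (x₀ ^ 2 - x ^ 2) := by positivity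
  rw [abs_mul, mul_assoc, abs_of_pos hpos, hd,
    show x₀ ^ 2 - x ^ 2 = (x₀ - x) * (x₀ + x) by ring]
  have hxx0 : 0 < x₀ - x := by linarith only [h]
  rw [show x ^ 2 / ((x₀ - x) * (x₀ + x)) * (x₀ - x) = x ^ 2 / (x₀ + x) by (clear * - hxx0 hx0 hx; field_simp)]
  have h5 : x ^ 2 / (x₀ + x) ≤ 1 / x₀ := div_le_div₀ zero_le_one h1 hx0 (by linarith only [hx])
  calc |a1| * (x ^ 2 / (x₀ + x)) ≤ |a1| * (1 / x₀) := mul_le_mul_of_nonneg_left h5 (abs_nonneg _)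
    _ = |a1| / x₀ := mul_one_div _ _

theorem pole_right_bdd {a4 x₀ x : ℝ} (hx1 : x ≤ 1) (h : x₀ < x) (hx₀ : 0 < x₀) :
    |-(a4 * (x ^ 2 / (x ^ 2 - x₀ ^ 2)))| * |x - x₀| ≤ |a4| / x₀ := by
  have hx : 0 < x := hx₀.trans h
  have h1 : x ^ 2 ≤ 1 := pow_le_one₀ hx.le hx1
  have hp : 0 < x ^ 2 - x₀ ^ 2 := by linarith only [mul_pos (sub_pos.2 h) (sub_pos.2 hx₀), mul_pos (sub_pos.2 h) (sub_pos.2 h)]
  have hd : |x - x₀| = x - x₀ := abs_of_pos (by linarith only [h])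
  have hpos : 0 < x ^ 2 / (x ^ 2 - x₀ ^ 2) := by positivity
  rw [abs_neg, abs_mul, mul_assoc, abs_of_pos hpos, hd,
    show x ^ 2 - x₀ ^ 2 = (x - x₀) * (x + x₀) by ring]
  have hxx0 : 0 < x - x₀ := by linarith only [h]
  rw [show x ^ 2 / ((x - x₀) * (x + x₀)) * (x - x₀) = x ^ 2 / (x + x₀) by field_simp]
  have h5 : x ^ 2 / (x + x₀) ≤ 1 / x₀ := div_le_div₀ zero_le_one h1 hx₀ (by linarith only [h, hx₀])
  calc |a4| * (x ^ 2 / (x + x₀)) ≤ |a4| * (1 / x₀) := mul_le_mul_of_nonneg_left h5 (abs_nonneg _)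
    _ = |a4| / x₀ := mul_one_div _ _

/-- **Certificate with a pole potential.**  With `lam = l(x₀)`, `L = l - lam`, the null term is
`(a1 x²/(x₀²-x²) + gL) L² + eL lam L + f lam²` for `x < x₀` and
`(-a4 x²/(x²-x₀²) + gR) L² + eR lam L + f lam²` for `x > x₀`. -/
theorem cert_pole (hm : 4 ≤ m) {A : ℝ → ℝ → ℝ} (hA : Kern2 A) (hr : IsProf r)
    (hT : IsTrans m r τ τ' T)
    (hN : (∫ y in (-1 : ℝ)..1, r y ^ (m - 1)) ^ m * aInt m ^ (m - 1) ≤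
      aInt (m - 1) ^ m * (∫ y in (-1 : ℝ)..1, r y ^ m) ^ (m - 1))
    {cx px Ψx Tx : ℝ → ℝ} (hX : XPair m τ τ' cx px Ψx Tx)
    (hS : ∀ x ∈ Ioo (0 : ℝ) 1, ∀ b ∈ Icc (-1 : ℝ) 1, (bc0 (sq x) (lf τ x) + cx x) +
      (τ x * bM0 (sq x) (lf τ x) + px x) * b ≤ A (τ x) b)
    {μ : ℝ} (hμ : 0 ≤ μ) {x₀ : ℝ} (hx₀ : x₀ ∈ Ioo (0 : ℝ) 1) (a1 a4 : ℝ)
    {gL gL' gR gR' eL eL' eR eR' f f' : ℝ → ℝ}
    (hgL : ∀ x ∈ Ioo (0 : ℝ) 1, HasDerivAt gL (gL' x) x) (hgLc : ContinuousOn gL (Icc 0 1))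
    (hgR : ∀ x ∈ Ioo (0 : ℝ) 1, HasDerivAt gR (gR' x) x) (hgRc : ContinuousOn gR (Icc 0 1))
    (heL : ∀ x ∈ Ioo (0 : ℝ) 1, HasDerivAt eL (eL' x) x) (heLc : ContinuousOn eL (Icc 0 1))
    (heR : ∀ x ∈ Ioo (0 : ℝ) 1, HasDerivAt eR (eR' x) x) (heRc : ContinuousOn eR (Icc 0 1))
    (hf : ∀ x ∈ Ioo (0 : ℝ) 1, HasDerivAt f (f' x) x) (hfc : ContinuousOn f (Icc 0 1))
    {ε : ℝ} (hε : 0 < ε)
    (hL : ∀ x ∈ Ioo (0 : ℝ) 1, x < x₀ → ε * (uf τ τ' x ^ 2 / (1 + uf τ τ' x)) ≤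
      brT m τ τ' μ x + Tx x +
        ((2 * a1 * (x ^ 2 * x₀ ^ 2 / (x₀ ^ 2 - x ^ 2) ^ 2) + x * gL' x) *
          (lf τ x - lf τ x₀) ^ 2 +
        2 * (a1 * (x ^ 2 / (x₀ ^ 2 - x ^ 2)) + gL x) * (lf τ x - lf τ x₀) * uf τ τ' x +
        x * eL' x * lf τ x₀ * (lf τ x - lf τ x₀) + eL x * lf τ x₀ * uf τ τ' x +
        x * f' x * lf τ x₀ ^ 2 + (1 - ((m : ℝ) - 1) * (x ^ 2 / sq x ^ 2)) *
          ((a1 * (x ^ 2 / (x₀ ^ 2 - x ^ 2)) + gL x) * (lf τ x - lf τ x₀) ^ 2 +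
            eL x * lf τ x₀ * (lf τ x - lf τ x₀) + f x * lf τ x₀ ^ 2)))
    (hR : ∀ x ∈ Ioo (0 : ℝ) 1, x₀ < x → ε * (uf τ τ' x ^ 2 / (1 + uf τ τ' x)) ≤
      brT m τ τ' μ x + Tx x +
        ((2 * a4 * (x ^ 2 * x₀ ^ 2 / (x ^ 2 - x₀ ^ 2) ^ 2) + x * gR' x) *
          (lf τ x - lf τ x₀) ^ 2 +
        2 * (-(a4 * (x ^ 2 / (x ^ 2 - x₀ ^ 2))) + gR x) * (lf τ x - lf τ x₀) * uf τ τ' x +
        x * eR' x * lf τ x₀ * (lf τ x - lf τ x₀) + eR x * lf τ x₀ * uf τ τ' x +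
        x * f' x * lf τ x₀ ^ 2 + (1 - ((m : ℝ) - 1) * (x ^ 2 / sq x ^ 2)) *
          ((-(a4 * (x ^ 2 / (x ^ 2 - x₀ ^ 2))) + gR x) * (lf τ x - lf τ x₀) ^ 2 +
            eR x * lf τ x₀ * (lf τ x - lf τ x₀) + f x * lf τ x₀ ^ 2))) :
    (∃ k : ℝ, ∀ y ∈ Ioo (-1 : ℝ) 1, r y = k * Real.sqrt (1 - y ^ 2)) ∨
    ∃ v : ℝ, 0 < v ∧ AdmGe m (fun a b => A a b + (bφ m b - bφ m a)) r v := by
  obtain ⟨C1, hC1, bL⟩ := bdd_of_cont hgLc
  obtain ⟨C2, hC2, bR⟩ := bdd_of_cont hgRc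
  obtain ⟨C3, hC3, dL⟩ := bdd_of_cont heLc
  obtain ⟨C4, hC4, dR⟩ := bdd_of_cont heRc
  obtain ⟨C5, hC5, bf⟩ := bdd_of_cont hfc
  have hsub : Ioo (0 : ℝ) 1 ⊆ Icc 0 1 := Ioo_subset_Icc_self
  have hxx : ∀ x ∈ Ioo (0 : ℝ) 1, |x - x₀| ≤ 1 := fun x hx => by
    rw [abs_le]; constructor <;> linarith only [hx.1, hx₀.2, hx.2, hx₀.1]
  refine cert_H hm hA hr hT hN hX hS hμ hx₀
    (h := glue x₀ (fun x => a1 * (x ^ 2 / (x₀ ^ 2 - x ^ 2)) + gL x)
      (fun x => -(a4 * (x ^ 2 / (x ^ 2 - x₀ ^ 2))) + gR x))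
    (h' := glue x₀ (fun x => a1 * (2 * x * x₀ ^ 2 / (x₀ ^ 2 - x ^ 2) ^ 2) + gL' x)
      (fun x => a4 * (2 * x * x₀ ^ 2 / (x ^ 2 - x₀ ^ 2) ^ 2) + gR' x))
    (e := glue x₀ eL eR) (e' := glue x₀ eL' eR') (f := f) (f' := f')
    (Ch := (|a1| / x₀ + C1) + (|a4| / x₀ + C2)) (Ce := C3 + C4) (Cf := C5)
    ?_ ?_ (fun x hx _ => hf x hx) ?_ ?_ (hfc.mono hsub) (fun x hx => bf x (hsub hx)) hε ?_
  · intro x hx hne
    exact glue_der hne (fun h => pole_left_der hx.1 h (hgL x hx))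
      (fun h => pole_right_der hx₀.1 h (hgR x hx))
  · intro x hx hne
    exact glue_der hne (fun h => heL x hx) (fun h => heR x hx)
  · intro x hx
    have q1 : 0 ≤ |a1| / x₀ := div_nonneg (abs_nonneg _) hx₀.1.le
    have q2 : 0 ≤ |a4| / x₀ := div_nonneg (abs_nonneg _) hx₀.1.le
    have key : ∀ P g C Q : ℝ, |P| * |x - x₀| ≤ Q → |g| ≤ C → 0 ≤ C →
        |P + g| * |x - x₀| ≤ Q + C := by
      intro P g C Q hP hg hC
      calc |P + g| * |x - x₀| ≤ (|P| + |g|) * |x - x₀| :=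
            mul_le_mul_of_nonneg_right (abs_add_le _ _) (abs_nonneg _)
        _ = |P| * |x - x₀| + |g| * |x - x₀| := by ring
        _ ≤ Q + C := by
            apply add_le_add hP
            calc |g| * |x - x₀| ≤ C * 1 := mul_le_mul hg (hxx x hx) (abs_nonneg _) hC
              _ = C := mul_one C
    rcases lt_trichotomy x x₀ with h | h | h
    · rw [glue_left h]
      have := key _ _ _ _ (pole_left_bdd (a1 := a1) hx.1 hx.2.le h) (bL x (hsub hx)) hC1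
      linarith only [hC2, q2, this]
    · rw [h, sub_self, abs_zero, mul_zero]
      linarith only [hC1, hC2, q1, q2]
    · rw [glue_right h]
      have := key _ _ _ _ (pole_right_bdd (a4 := a4) hx.2.le h hx₀.1) (bR x (hsub hx)) hC2
      linarith only [hC1, q1, this]
  · intro x hx
    unfold glue
    split_ifs
    · linarith only [hC4, dL x (hsub hx)]
    · linarith only [hC3, dR x (hsub hx)]
  · intro x hx hne
    rcases lt_or_gt_of_ne hne with h | h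
    · refine (hL x hx h).trans (le_of_eq ?_)
      simp only [glue_left h]
      ring
    · refine (hR x hx h).trans (le_of_eq ?_)
      simp only [glue_right h]
      ring

end

end Vale.Agent.P237.AllN
end
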