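import Mathlib
import Vale.Agent.P237.Bd3.B1
import Vale.Agent.P237.Bd3.B8
import Vale.Agent.P237.Bd3.B4
import Vale.Agent.P237.Bd3.B2
import Vale.Agent.P237.Bd3.B9

set_option linter.all false

section

/-!
# P237: second moments of slices in all dimensions
-/

open MeasureTheory Metric Set Module
open scoped Pointwise

namespace Vale.Agent.P237.J4

open AllN

section Ball

variable {W : Type*} [NormedAddCommGroup W] [InnerProductSpace ℝ W] [FiniteDimensional ℝ W]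
  [MeasurableSpace W] [BorelSpace W]

/-- Integral of `min (‖z‖² - r², 0)`. -/
theorem integral_min_gen {m : ℕ} (hm : 1 ≤ m) (hd : finrank ℝ W = m) {r : ℝ} (hr : 0 ≤ r) :
    ∫ z : W, min (‖z‖ ^ 2 - r ^ 2) 0 =
      - (Statement.kappa m * (2 / ((m : ℝ) + 2)) * r ^ (m + 2)) := by
  have : Nontrivial W := Module.nontrivial_of_finrank_pos (R := ℝ) (by omega)
  have h := integral_fun_norm_addHaar (volume : Measure W) (fun s : ℝ => min (s ^ 2 - r ^ 2) 0)
  have h4 : (volume : Measure W).real (ball 0 1) = Statement.kappa m := by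
    rw [← vol_unitBall hd]
    unfold vol
    rw [Measure.addHaar_closedBall_eq_addHaar_ball]
    rfl
  rw [h, hd, h4]
  have hm0 : (m : ℝ) ≠ 0 := by positivity
  have h3 : ∫ y in Ioi (0:ℝ), y ^ (m - 1) • min (y ^ 2 - r ^ 2) 0 =
      - ((2 / ((m : ℝ) + 2)) * r ^ (m + 2) / m) := by
    have e1 : ∫ y in Ioi (0:ℝ), y ^ (m - 1) • min (y ^ 2 - r ^ 2) 0 =
        ∫ y in Ioc (0:ℝ) r, y ^ (m - 1) * (y ^ 2 - r ^ 2) := by
      rw [← integral_indicator measurableSet_Ioi, ← integral_indicator measurableSet_Ioc]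
      congr 1
      funext y
      by_cases hy : 0 < y
      · rw [indicator_of_mem (show y ∈ Ioi (0:ℝ) from hy)]
        by_cases hy2 : y ≤ r
        · rw [indicator_of_mem (show y ∈ Ioc (0:ℝ) r from ⟨hy, hy2⟩), min_eq_left]
          · simp
          · linarith only [mul_nonneg (sub_nonneg.2 hy2) (sub_nonneg.2 hy2), mul_nonneg (le_of_lt (sub_pos.2 hy)) (sub_nonneg.2 hy2)]
        · rw [indicator_of_notMem (show y ∉ Ioc (0:ℝ) r from fun h => hy2 h.2), min_eq_right]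
          · simp
          · push Not at hy2
            linarith only [mul_pos (sub_pos.2 hy) (sub_pos.2 hy2), mul_nonneg (sub_nonneg.2 hr) (le_of_lt (sub_pos.2 hy2))]
      · rw [indicator_of_notMem (show y ∉ Ioi (0:ℝ) from hy),
          indicator_of_notMem (show y ∉ Ioc (0:ℝ) r from fun h => hy h.1)]
    rw [e1, ← intervalIntegral.integral_of_le hr]
    obtain ⟨k, rfl⟩ : ∃ k, m = k + 1 := ⟨m - 1, by omega⟩
    have hder : ∀ y ∈ uIcc 0 r, HasDerivAt (fun y : ℝ => y ^ (k + 3) / ((k : ℝ) + 3) -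
        r ^ 2 * y ^ (k + 1) / ((k : ℝ) + 1)) (y ^ k * (y ^ 2 - r ^ 2)) y := by
      intro y _
      have := ((hasDerivAt_pow (k + 3) y).div_const ((k : ℝ) + 3)).sub
        (((hasDerivAt_pow (k + 1) y).const_mul (r ^ 2)).div_const ((k : ℝ) + 1))
      refine this.congr_deriv ?_
      have a1 : (k : ℝ) + 3 ≠ 0 := by positivity
      have a2 : (k : ℝ) + 1 ≠ 0 := by positivity
      simp only [show k + 3 - 1 = k + 2 by omega, show k + 1 - 1 = k by omega]
      push_cast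
      field_simp
      ring
    simp only [show k + 1 - 1 = k by omega]
    rw [intervalIntegral.integral_eq_sub_of_hasDerivAt hder (by
      have : Continuous (fun y : ℝ => y ^ k * (y ^ 2 - r ^ 2)) := by fun_prop
      exact this.intervalIntegrable _ _)]
    have a1 : (k : ℝ) + 3 ≠ 0 := by positivity
    have a2 : (k : ℝ) + 1 ≠ 0 := by positivity
    have a3 : ((k + 1 : ℕ) : ℝ) + 2 = (k : ℝ) + 3 := by push_cast; ring
    have a4 : ((k + 1 : ℕ) : ℝ) = (k : ℝ) + 1 := by push_cast; ring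
    rw [a3, a4]
    simp only [zero_pow (show k + 3 ≠ 0 by omega), zero_pow (show k + 1 ≠ 0 by omega)]
    field_simp
    ring
  rw [h3]
  simp only [nsmul_eq_mul, smul_eq_mul]
  field_simp

/-- Among sets of given volume the ball has the least second moment. -/
theorem moment_gen {m : ℕ} (hm : 1 ≤ m) (hd : finrank ℝ W = m) {S : Set W} (hS : IsCompact S)
    {r : ℝ} (hr : 0 ≤ r) (hv : Statement.kappa m * r ^ m = vol S) :
    (m : ℝ) / (m + 2) * (Statement.kappa m * r ^ (m + 2)) ≤ ∫ z in S, ‖z‖ ^ 2 := by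
  have hI := integral_min_gen (W := W) hm hd hr
  have hr2 : 0 ≤ r ^ 2 := sq_nonneg r
  have hcont : Continuous (fun z : W => min (‖z‖ ^ 2 - r ^ 2) 0) := by fun_prop
  have hint : Integrable (fun z : W => min (‖z‖ ^ 2 - r ^ 2) 0) := by
    refine hcont.integrable_of_hasCompactSupport ?_
    refine HasCompactSupport.intro (isCompact_closedBall (0 : W) r) ?_
    intro z hz
    rw [mem_closedBall_zero_iff, not_le] at hz
    apply min_eq_right
    linarith only [mul_pos (sub_pos.2 hz) (sub_pos.2 hz), mul_nonneg (sub_nonneg.2 hr) (le_of_lt (sub_pos.2 hz))]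
  have h1 : ∫ z : W, min (‖z‖ ^ 2 - r ^ 2) 0 ≤ ∫ z in S, min (‖z‖ ^ 2 - r ^ 2) 0 := by
    rw [← integral_indicator hS.measurableSet]
    refine integral_mono hint (hint.indicator hS.measurableSet) ?_
    intro z
    by_cases hz : z ∈ S
    · simp only [indicator_of_mem hz]; exact le_rfl
    · simp only [indicator_of_notMem hz]; exact min_le_right _ _
  have hc1 : IntegrableOn (fun z : W => ‖z‖ ^ 2) S :=
    (by fun_prop : Continuous (fun z : W => ‖z‖ ^ 2)).continuousOn.integrableOn_compact hS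
  have hc2 : IntegrableOn (fun _ : W => r ^ 2) S :=
    continuousOn_const.integrableOn_compact hS
  have h2 : ∫ z in S, min (‖z‖ ^ 2 - r ^ 2) 0 ≤ ∫ z in S, (‖z‖ ^ 2 - r ^ 2) :=
    integral_mono hint.integrableOn (hc1.sub hc2) fun z => min_le_left _ _
  rw [integral_sub hc1 hc2, setIntegral_const, smul_eq_mul] at h2
  have h3 : (volume : Measure W).real S = vol S := rfl
  rw [h3, ← hv] at h2
  rw [hI] at h1
  have hmm : (m : ℝ) + 2 ≠ 0 := by positivity
  have e1 : (m : ℝ) / (m + 2) * (Statement.kappa m * r ^ (m + 2)) =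
      - (Statement.kappa m * (2 / ((m : ℝ) + 2)) * r ^ (m + 2)) +
        Statement.kappa m * r ^ m * r ^ 2 := by
    field_simp
    ring
  rw [e1]
  linarith only [h2, h1]

end Ball

section Space

variable {V : Type*} [NormedAddCommGroup V] [InnerProductSpace ℝ V] [FiniteDimensional ℝ V]
  [MeasurableSpace V] [BorelSpace V]

/-- the `m`-th root of the volume of the unit ball -/
noncomputable def kroot (m : ℕ) : ℝ := Statement.kappa m ^ (1 / (m : ℝ))

theorem kroot_pos (m : ℕ) : 0 < kroot m := Real.rpow_pos_of_pos (kappa_pos m) _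

theorem kroot_pow {m : ℕ} (hm : 1 ≤ m) : kroot m ^ m = Statement.kappa m := by
  unfold kroot
  rw [← Real.rpow_natCast, ← Real.rpow_mul (kappa_pos m).le]
  have hm' : (m : ℝ) ≠ 0 := by positivity
  rw [one_div, inv_mul_cancel₀ hm', Real.rpow_one]

/-- The profile normalized by the unit ball. -/
noncomputable def jprof (K : Set V) (u : V) (m : ℕ) (y : ℝ) : ℝ := prof K u m y / kroot m

theorem jprof_nonneg (K : Set V) (u : V) (m : ℕ) (y : ℝ) : 0 ≤ jprof K u m y :=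
  div_nonneg (prof_nonneg _ _ _ _) (kroot_pos m).le

theorem jprof_pow {m : ℕ} (hm : 1 ≤ m) (K : Set V) (u : V) (y : ℝ) :
    Statement.kappa m * jprof K u m y ^ m = vol (slice K u y) := by
  unfold jprof
  have := (kroot_pos m).ne'
  rw [div_pow, prof_pow hm, kroot_pow hm]
  have := (kappa_pos m).ne'
  field_simp

theorem slice_moment_gen {m : ℕ} (hm : 1 ≤ m) (hd : finrank ℝ V = m + 1) {K : Set V}
    (hK : IsSymBody K) {u : V} (hu : ‖u‖ = 1) :
    (∫ x in K, (inner ℝ x u) ^ 2) +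
      (m : ℝ) / (m + 2) * (Statement.kappa m * ∫ y : ℝ, jprof K u m y ^ (m + 2)) ≤
      ∫ x in K, ‖x‖ ^ 2 := by
  have h2 := finrank_perp_gen hd hu
  obtain ⟨i1, e1⟩ := slice_fubini hK.compact hu (fun x => ‖x‖ ^ 2) (by fun_prop)
  obtain ⟨i2, e2⟩ := slice_fubini hK.compact hu (fun x => (inner ℝ x u) ^ 2)
    ((continuous_id.inner continuous_const).pow 2)
  have i3 : Integrable (fun y : ℝ => (m : ℝ) / (m + 2) *
      (Statement.kappa m * jprof K u m y ^ (m + 2))) := by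
    have h := prof_pow_integrable hm hd hK hu (k := m + 2) (by omega)
    have h' := ((h.div_const (kroot m ^ (m + 2))).const_mul (Statement.kappa m)).const_mul
      ((m : ℝ) / (m + 2))
    refine h'.congr (Filter.Eventually.of_forall fun y => ?_)
    simp only [jprof, div_pow]
  rw [e1, e2, ← integral_const_mul, ← integral_const_mul, ← integral_add i2 i3]
  refine integral_mono (i2.add i3) i1 ?_
  intro y
  have hS := slice_isCompact hK.compact u y
  have h3 := moment_gen hm h2 hS (jprof_nonneg K u m y) (jprof_pow hm K u y)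
  simp only [inner_prod_point hu, norm_sq_prod_point hu]
  have hc1 : IntegrableOn (fun z : ((ℝ ∙ u)ᗮ : Submodule ℝ V) => ‖z‖ ^ 2) (slice K u y) :=
    (by fun_prop : Continuous (fun z : ((ℝ ∙ u)ᗮ : Submodule ℝ V) =>
      ‖z‖ ^ 2)).continuousOn.integrableOn_compact hS
  have hc2 : IntegrableOn (fun _ : ((ℝ ∙ u)ᗮ : Submodule ℝ V) => y ^ 2) (slice K u y) :=
    continuousOn_const.integrableOn_compact hS
  rw [integral_add hc1 hc2]
  linarith only [h3]

end Space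

end Vale.Agent.P237.J4
end

section

/-!
# P237, almost Petty: passage to the limit
-/

open MeasureTheory Metric Set Module Filter Real
open scoped Topology

namespace Vale.Agent.P237.Alm

open AllN

theorem rpow_alg {m : ℕ} (hm : 1 ≤ m) {X Z lam a : ℝ} (hX : 0 < X) (hZ : 0 < Z) (hl : 0 < lam)
    (ha : 0 ≤ a) : (X / (lam ^ m * Z)) ^ (-(1 / (m : ℝ))) * (a * Z) ^ (1 - 1 / (m : ℝ)) =
      lam * Z * (X ^ (-(1 / (m : ℝ))) * a ^ (1 - 1 / (m : ℝ))) := by
  have hm0 : m ≠ 0 := by omega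
  have e1 : (lam ^ m) ^ (1 / (m : ℝ)) = lam := by
    rw [one_div]
    exact Real.pow_rpow_inv_natCast hl.le hm0
  have e2 : Z ^ (1 / (m : ℝ)) * Z ^ (1 - 1 / (m : ℝ)) = Z := by
    rw [← Real.rpow_add hZ, add_sub_cancel, Real.rpow_one]
  rw [Real.div_rpow hX.le (by positivity), Real.mul_rpow ha hZ.le,
    Real.rpow_neg (by positivity : 0 ≤ lam ^ m * Z), div_inv_eq_mul,
    Real.mul_rpow (by positivity) hZ.le, e1]
  calc X ^ (-(1 / (m : ℝ))) * (lam * Z ^ (1 / (m : ℝ))) *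
        (a ^ (1 - 1 / (m : ℝ)) * Z ^ (1 - 1 / (m : ℝ)))
      = lam * (Z ^ (1 / (m : ℝ)) * Z ^ (1 - 1 / (m : ℝ))) *
        (X ^ (-(1 / (m : ℝ))) * a ^ (1 - 1 / (m : ℝ))) := by ring
    _ = _ := by rw [e2]

theorem rpow_end {m : ℕ} (hm : 2 ≤ m) {X x : ℝ} (hX : 0 < X) (hx : 0 ≤ x) :
    X ^ (-(1 / (m : ℝ))) * (x ^ m / X) ^ (1 - 1 / (m : ℝ)) = x ^ (m - 1) / X := by
  have hm0 : (m : ℝ) ≠ 0 := by positivity
  have e1 : (x ^ m) ^ (1 - 1 / (m : ℝ)) = x ^ (m - 1) := by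
    rw [← Real.rpow_natCast x m, ← Real.rpow_mul hx, ← Real.rpow_natCast x (m - 1)]
    congr 1
    rw [Nat.cast_sub (by omega)]
    field_simp
    simp
  rw [Real.div_rpow (by (clear * - hx; positivity)) hX.le, e1, Real.rpow_sub hX, Real.rpow_one,
    Real.rpow_neg hX.le]
  have : 0 < X ^ (1 / (m : ℝ)) := Real.rpow_pos_of_pos hX _
  field_simp

variable {m : ℕ} {r : ℝ → ℝ} (hr : IsProf r) {al : ℝ → ℝ} (ha : IsAngle m al)

include hr ha

/-- The inequality before the limit. -/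
theorem pre_limit (hm : 3 ≤ m) (hF : Fish (m + 1) (fun y => r y ^ m)) {lam : ℝ} (hl : 0 < lam)
    {y1 : ℝ} (h0 : 0 < y1) (h1 : y1 < 1) {r1 : ℝ} (hr1 : 0 ≤ r1)
    (hle : ∀ y ∈ Ico (0 : ℝ) 1, r1 ≤ r y) :
    (1 + 1 / (m : ℝ)) / lam * (1 / cZ m * ∫ β in (0 : ℝ)..(π / 2), cos β ^ (m - 2)) -
      1 / (m : ℝ) / lam ^ (m + 1) / cZ m * (hI m r * √(((m : ℝ) + 1) / ((m : ℝ) - 2) *
        ((1 + ((m : ℝ) + 1) * (1 - y1)) / y1)) +
        √((((m : ℝ) + 1) * hI m r * (1 - vv m r y1) - r1 ^ m) * (((m : ℝ) + 1) * hI m r) /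
          ((m : ℝ) - 2))) ≤
      (m : ℝ) / (((m : ℝ) + 1) * hI m r) * ((m : ℝ) / ((m : ℝ) - 1) *
        (∫ y in (0 : ℝ)..y1, r y ^ (m - 1)) - y1 * r y1 ^ (m - 1) / ((m : ℝ) - 1)) +
      (m : ℝ) / ((m : ℝ) - 1) * ((((m : ℝ) + 1) * hI m r) ^ (-(1 / (m : ℝ))) *
        (1 - vv m r y1) ^ (1 - 1 / (m : ℝ))) := by
  have hm1 : 1 ≤ m := by omega
  have hm3 : (3 : ℝ) ≤ m := by exact_mod_cast hm
  have hIp := hI_pos (m := m) hr
  have hZ := cZ_pos m
  have hap := one_sub_pos (m := m) hr hm1 h0.le h1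
  have hal := aa_mem hr ha hm1 (y := y1) ⟨h0.le, h1⟩
  have hP := tan_le_PP hr ha hm h0.le h1
  have ht0 : 0 ≤ tan (al (vv m r y1)) := tan_nonneg_of_nonneg_of_le_pi_div_two hal.1 hal.2.le
  have hcut := cut_bound hr ha hm hF h0 h1 hr1 hle
  have hy := int_young hr ha hm h0.le h1 hl
  rw [int_inv hr (by omega) h0.le h1] at hy
  set X : ℝ := ((m : ℝ) + 1) * hI m r with hX
  have hXp : 0 < X := by (clear * - hm hIp; positivity)
  have hνp : 0 < X / (lam ^ m * cZ m) := by positivity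
  have hty := tail_young hm hνp hal.1 hal.2
  rw [tail_cos hr ha hm1 h0.le h1, rpow_alg hm1 hXp hZ hl hap.le] at hty
  set A := ∫ y in (0 : ℝ)..y1, (cZ m / cos (al (vv m r y)) ^ (m + 1) * vd m r y) * r y ^ m
    with hA
  have hPdef : PP m r al y1 = (cos (al (vv m r y1)) ^ (m - 1) / ((m : ℝ) - 1)) /
    ((1 - vv m r y1) * cZ m) := rfl
  have hTP : cos (al (vv m r y1)) ^ (m - 1) / ((m : ℝ) - 1) =
      PP m r al y1 * ((1 - vv m r y1) * cZ m) := by
    rw [hPdef]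
    (clear * - hap hZ; field_simp)
  rw [hTP] at hty
  have hPS : PP m r al y1 ^ 2 * ((1 - vv m r y1) * cZ m) ≤ _ := PP_sq_le hr ha hm h0.le h1
  have hS12 := S_add hm (al (vv m r y1))
  have hS1n := S_nn hr ha hm h0.le h1
  set P := PP m r al y1 with hPP
  set t1 := tan (al (vv m r y1)) with ht1
  set a := 1 - vv m r y1 with hadef
  set C1 := ∫ β in (0 : ℝ)..(al (vv m r y1)), cos β ^ (m - 2) with hC1
  set C2 := ∫ β in (al (vv m r y1))..(π / 2), cos β ^ (m - 2) with hC2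
  have hC : (∫ β in (0 : ℝ)..(π / 2), cos β ^ (m - 2)) = C1 + C2 :=
    (intervalIntegral.integral_add_adjacent_intervals
      (Continuous.intervalIntegrable (by fun_prop) _ _)
      (Continuous.intervalIntegrable (by fun_prop) _ _)).symm
  rw [hC]
  -- the quantity `w`
  set w := X * a - r1 ^ m with hw
  have hone := one_sub_vv (m := m) hr (y := y1) ⟨h0.le, h1.le⟩
  rw [← hX, ← hadef] at hone
  have hr1m : 0 ≤ r1 ^ m := pow_nonneg hr1 m
  have hw0 : 0 ≤ w := by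
    have hge : (1 - y1) * r1 ^ m ≤ ∫ y in y1..1, r y ^ m := by
      have h2 : ∫ _ in y1..1, r1 ^ m = (1 - y1) * r1 ^ m := by simp
      rw [← h2]
      refine intervalIntegral.integral_mono_on_of_le_Ioo h1.le (by simp)
        (prof_pow_ii hr m ⟨h0.le, h1.le⟩ ⟨zero_le_one, le_rfl⟩) fun s hs => ?_
      exact pow_le_pow_left₀ hr1 (hle s ⟨h0.le.trans hs.1.le, hs.2⟩) m
    have hge2 : y1 * r1 ^ m ≤ y1 * r y1 ^ m :=
      mul_le_mul_of_nonneg_left (pow_le_pow_left₀ hr1 (hle y1 ⟨h0.le, h1⟩) m) h0.le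
    have hge3 : ((m : ℝ) + 1) * ((1 - y1) * r1 ^ m) ≤ ((m : ℝ) + 1) * ∫ y in y1..1, r y ^ m :=
      mul_le_mul_of_nonneg_left hge (by positivity)
    have hge4 : 0 ≤ (1 - y1) * r1 ^ m := mul_nonneg (by linarith only [h1]) hr1m
    rw [hw, hone]
    nlinarith only [hge2, hge3, hge4]
  have hwle : w ≤ X * a := by rw [hw]; linarith only [hr1m]
  have hP0 : 0 ≤ P := ht0.trans hP
  have hP2 : P ^ 2 * a ≤ 1 / ((m : ℝ) - 2) := by
    have h2 : P ^ 2 * (a * cZ m) ≤ 1 / ((m : ℝ) - 2) * cZ m := by linarith only [hS12, hS1n, hPS]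
    have h3 : P ^ 2 * a * cZ m ≤ 1 / ((m : ℝ) - 2) * cZ m := by linarith only [hS12, hS1n, hPS]
    exact le_of_mul_le_mul_right h3 hZ
  have hwP : w * P ≤ √(w * X / ((m : ℝ) - 2)) := by
    apply Real.le_sqrt_of_sq_le
    have h2 : (w * P) ^ 2 = w * (w * P ^ 2) := by ring
    have h3 : w * P ^ 2 ≤ X * a * P ^ 2 := mul_le_mul_of_nonneg_right hwle (sq_nonneg P)
    have h4 : X * a * P ^ 2 ≤ X * (1 / ((m : ℝ) - 2)) := by
      have := mul_le_mul_of_nonneg_left hP2 hXp.le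
      linarith only [this]
    have h5 := mul_le_mul_of_nonneg_left (h3.trans h4) hw0
    rw [h2]
    refine h5.trans (le_of_eq ?_)
    ring
  have hkey : A + X * a * (P - t1) ≤ hI m r * √(((m : ℝ) + 1) / ((m : ℝ) - 2) *
        ((1 + ((m : ℝ) + 1) * (1 - y1)) / y1)) + √(w * X / ((m : ℝ) - 2)) := by
    have h2 : A + X * a * (P - t1) = A + (P - t1) * r1 ^ m + w * (P - t1) := by
      rw [hw]
      ring
    have h3 : w * (P - t1) ≤ w * P := mul_le_mul_of_nonneg_left (by linarith only [ht0]) hw0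
    linarith only [hcut, hwP, h3]
  have hcoef : 0 ≤ 1 / (m : ℝ) / lam ^ (m + 1) / cZ m := by positivity
  have hk2 := mul_le_mul_of_nonneg_left hkey hcoef
  have hty2 := mul_le_mul_of_nonneg_left hty (by positivity : 0 ≤ 1 / (lam * cZ m))
  have f1 : 1 / (lam * cZ m) * ((1 + 1 / (m : ℝ)) * C2 -
      X / (lam ^ m * cZ m) / m * (P * (a * cZ m) - a * cZ m * t1)) =
      (1 + 1 / (m : ℝ)) / lam * (1 / cZ m * C2) -
        1 / (m : ℝ) / lam ^ (m + 1) / cZ m * (X * a * (P - t1)) := by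
    rw [pow_succ]
    (clear * - hm hl hZ; field_simp)
  have f2 : 1 / (lam * cZ m) * ((m : ℝ) / ((m : ℝ) - 1) *
      (lam * cZ m * (X ^ (-(1 / (m : ℝ))) * a ^ (1 - 1 / (m : ℝ))))) =
      (m : ℝ) / ((m : ℝ) - 1) * (X ^ (-(1 / (m : ℝ))) * a ^ (1 - 1 / (m : ℝ))) := by
    (clear * - hm hl hZ hap hXp; field_simp)
  rw [f1, f2] at hty2
  have f3 : (1 + 1 / (m : ℝ)) / lam * (1 / cZ m * (C1 + C2)) =
    (1 + 1 / (m : ℝ)) / lam * (1 / cZ m * C1) + (1 + 1 / (m : ℝ)) / lam * (1 / cZ m * C2) := by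
    ring
  rw [f3]
  linarith only [hy, hk2, hty2]

/-- The inequality after the limit. -/
theorem limit_ineq (hm : 3 ≤ m) (hF : Fish (m + 1) (fun y => r y ^ m)) {lam : ℝ} (hl : 0 < lam) :
    (1 + 1 / (m : ℝ)) / lam * (1 / cZ m * ∫ β in (0 : ℝ)..(π / 2), cos β ^ (m - 2)) -
      1 / (m : ℝ) / lam ^ (m + 1) / cZ m * (hI m r * √(((m : ℝ) + 1) / ((m : ℝ) - 2))) ≤
      (m : ℝ) ^ 2 / (((m : ℝ) - 1) * (((m : ℝ) + 1) * hI m r)) *
        ∫ y in (0 : ℝ)..1, r y ^ (m - 1) := by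
  obtain ⟨r1, hr1, hle, htr⟩ := exists_limit hr
  have hm3 : (3 : ℝ) ≤ m := by exact_mod_cast hm
  have hIp := hI_pos (m := m) hr
  have hZ := cZ_pos m
  have hle2 : 𝓝[<] (1 : ℝ) ≤ 𝓝[Icc 0 1] 1 := by
    rw [← nhdsWithin_Ioo_eq_nhdsLT (zero_lt_one (α := ℝ))]
    exact nhdsWithin_mono _ Ioo_subset_Icc_self
  have ty : Tendsto (fun y : ℝ => y) (𝓝[<] 1) (𝓝 1) := tendsto_id.mono_left nhdsWithin_le_nhds
  have tI : ∀ k : ℕ, Tendsto (fun y => ∫ s in (0 : ℝ)..y, r s ^ k) (𝓝[<] 1)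
      (𝓝 (∫ s in (0 : ℝ)..1, r s ^ k)) := fun k =>
    (RR_cont (m := k) hr 1 ⟨zero_le_one, le_rfl⟩).mono_left hle2
  set X : ℝ := ((m : ℝ) + 1) * hI m r with hX
  have hXp : 0 < X := by positivity
  have ta : Tendsto (fun y => 1 - vv m r y) (𝓝[<] 1) (𝓝 (r1 ^ m / X)) := by
    have h1 : Tendsto (vv m r) (𝓝[<] 1) (𝓝 ((((m : ℝ) + 1) * (∫ s in (0 : ℝ)..1, r s ^ m) -
        1 * r1 ^ m) / (((m : ℝ) + 1) * hI m r))) :=
      ((((tI m).const_mul ((m : ℝ) + 1)).sub (ty.mul (htr.pow m))).div_const _)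
    have h2 := h1.const_sub 1
    have e : 1 - (((m : ℝ) + 1) * (∫ s in (0 : ℝ)..1, r s ^ m) - 1 * r1 ^ m) /
        (((m : ℝ) + 1) * hI m r) = r1 ^ m / X := by
      have e2 : (∫ s in (0 : ℝ)..1, r s ^ m) = hI m r := rfl
      rw [e2, ← hX]
      field_simp
      ring
    rwa [e] at h2
  have tw : Tendsto (fun y => (X * (1 - vv m r y) - r1 ^ m) * X / ((m : ℝ) - 2)) (𝓝[<] 1)
      (𝓝 0) := by
    have h1 := (((ta.const_mul X).sub_const (r1 ^ m)).mul_const X).div_const ((m : ℝ) - 2)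
    have e : (X * (r1 ^ m / X) - r1 ^ m) * X / ((m : ℝ) - 2) = 0 := by
      rw [mul_div_cancel₀ _ hXp.ne', sub_self, zero_mul, zero_div]
    rwa [e] at h1
  have tκ : Tendsto (fun y : ℝ => ((m : ℝ) + 1) / ((m : ℝ) - 2) *
        ((1 + ((m : ℝ) + 1) * (1 - y)) / y)) (𝓝[<] 1) (𝓝 (((m : ℝ) + 1) / ((m : ℝ) - 2))) := by
    have h1 := ((((ty.const_sub 1).const_mul ((m : ℝ) + 1)).const_add 1).div ty
      one_ne_zero).const_mul (((m : ℝ) + 1) / ((m : ℝ) - 2))
    have e : ((m : ℝ) + 1) / ((m : ℝ) - 2) * ((1 + ((m : ℝ) + 1) * (1 - 1)) / 1) =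
        ((m : ℝ) + 1) / ((m : ℝ) - 2) := by simp
    rwa [e] at h1
  have tL := (((tκ.sqrt).const_mul (hI m r)).add tw.sqrt).const_mul
    (1 / (m : ℝ) / lam ^ (m + 1) / cZ m)
  rw [Real.sqrt_zero, add_zero] at tL
  have tL2 := tL.const_sub ((1 + 1 / (m : ℝ)) / lam * (1 / cZ m *
    ∫ β in (0 : ℝ)..(π / 2), cos β ^ (m - 2)))
  have hexp : 0 ≤ 1 - 1 / (m : ℝ) := by
    have : 1 / (m : ℝ) ≤ 1 := by rw [div_le_one (by positivity)]; linarith only [hm3]
    linarith only [this]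
  have tR1 := ((((tI (m - 1)).const_mul ((m : ℝ) / ((m : ℝ) - 1))).sub
    ((ty.mul (htr.pow (m - 1))).div_const ((m : ℝ) - 1)))).const_mul ((m : ℝ) / X)
  have tR2 := ((ta.rpow_const (p := 1 - 1 / (m : ℝ)) (Or.inr hexp)).const_mul
    (X ^ (-(1 / (m : ℝ))))).const_mul ((m : ℝ) / ((m : ℝ) - 1))
  rw [rpow_end (by omega) hXp hr1] at tR2
  have tR := tR1.add tR2
  have hfin := le_of_tendsto_of_tendsto tL2 tR ?_
  · refine hfin.trans (le_of_eq ?_)
    have : (m : ℝ) - 1 ≠ 0 := by linarith only [hm3]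
    field_simp
    ring
  · filter_upwards [Ioo_mem_nhdsLT (zero_lt_one (α := ℝ))] with y hy
    exact pre_limit hr ha hm hF hl hy.1 hy.2 hr1 hle

end Vale.Agent.P237.Alm
end

section

/-!
# P237, almost Petty: the one dimensional inequality
-/

open MeasureTheory Metric Set Module Filter Real
open scoped Topology

namespace Vale.Agent.P237.Alm

open AllN

theorem aInt_rc (k : ℕ) : aInt (k + 2) = ((k : ℝ) + 2) / ((k : ℝ) + 3) * aInt k := by
  rw [aInt_eq, aInt_eq, integral_cos_pow (n := k + 1)]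
  simp only [cos_pi_div_two, sin_zero, mul_zero, sub_zero]
  rw [zero_pow (by omega)]
  push_cast
  have : (k : ℝ) + 3 ≠ 0 := by positivity
  have h2 : (k : ℝ) + 1 + 2 ≠ 0 := by positivity
  field_simp
  ring

theorem one_d_alm {m : ℕ} (hm : 3 ≤ m) {r : ℝ → ℝ} (hr : IsProf r)
    (hF : Fish (m + 1) (fun y => r y ^ m)) :
    del m * (aInt (m - 1) ^ m / aInt m ^ (m - 1)) * (∫ y in (-1 : ℝ)..1, r y ^ m) ^ (m - 1) ≤
      (∫ y in (-1 : ℝ)..1, r y ^ (m - 1)) ^ m := by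
  have hm3 : (3 : ℝ) ≤ m := by exact_mod_cast hm
  obtain ⟨al, hal1, hal2, hal3, hal4, hal5, hal6⟩ := exists_angle hm
  have ha : IsAngle m al := ⟨hal1, hal2, hal3, hal4, hal5, hal6⟩
  have hlim := fun {lam : ℝ} (hl : 0 < lam) => limit_ineq hr ha hm hF hl
  have hIp := hI_pos (m := m) hr
  have hZ := cZ_pos m
  have e1 : (∫ y in (-1 : ℝ)..1, r y ^ m) = 2 * hI m r :=
    integral_even_eq (fun y => by simp only [hr.even])
      (prof_pow_ii hr m ⟨le_rfl, zero_le_one⟩ ⟨zero_le_one, le_rfl⟩)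
  have e2 : (∫ y in (-1 : ℝ)..1, r y ^ (m - 1)) = 2 * ∫ y in (0 : ℝ)..1, r y ^ (m - 1) :=
    integral_even_eq (fun y => by simp only [hr.even])
      (prof_pow_ii hr (m - 1) ⟨le_rfl, zero_le_one⟩ ⟨zero_le_one, le_rfl⟩)
  rw [e1, e2]
  have A3p := aInt_pos (m - 3)
  have A2p := aInt_pos (m - 2)
  have c1 : (∫ β in (0 : ℝ)..(π / 2), cos β ^ (m - 2)) = aInt (m - 3) / 2 := by
    rw [aInt_eq, show m - 3 + 1 = m - 2 by omega]
    ring
  have c2 : cZ m = aInt (m - 2) / 2 := by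
    rw [aInt_eq, show m - 2 + 1 = m - 1 by omega]
    unfold cZ
    ring
  have c3 : aInt (m - 1) = ((m : ℝ) - 1) / m * aInt (m - 3) := by
    have := aInt_rc (m - 3)
    rw [show m - 3 + 2 = m - 1 by omega, Nat.cast_sub hm] at this
    rw [this]
    congr 1
    push_cast
    ring
  have c4 : aInt m = (m : ℝ) / ((m : ℝ) + 1) * aInt (m - 2) := by
    have := aInt_rc (m - 2)
    rw [show m - 2 + 2 = m by omega, Nat.cast_sub (by omega)] at this
    rw [this]
    congr 1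
    push_cast
    ring
  set I := hI m r with hIdef
  set J := ∫ y in (0 : ℝ)..1, r y ^ (m - 1) with hJ
  set A3 := aInt (m - 3) with hA3
  set A2 := aInt (m - 2) with hA2
  set q := √(((m : ℝ) + 1) / ((m : ℝ) - 2)) with hq
  have hm2 : 0 < (m : ℝ) - 2 := by linarith only [hm3]
  have hm1 : 0 < (m : ℝ) - 1 := by linarith
  have hqp : 0 < q := Real.sqrt_pos.2 (by positivity)
  -- the choice of `lam`
  set L : ℝ := I * q / (A3 / 2) with hL
  have hLp : 0 < L := by (clear * - hIp hm hm2 A3p; positivity)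
  set lam : ℝ := L ^ (1 / (m : ℝ)) with hlam
  have hlp : 0 < lam := Real.rpow_pos_of_pos hLp _
  have hlm : lam ^ m = L := by
    rw [hlam, one_div, Real.rpow_inv_natCast_pow hLp.le (by omega)]
  have h1 := hlim hlp
  rw [c1, c2] at h1
  have h2 : (1 + 1 / (m : ℝ)) / lam * (1 / (A2 / 2) * (A3 / 2)) -
      1 / (m : ℝ) / lam ^ (m + 1) / (A2 / 2) * (I * q) = A3 / A2 / lam := by
    rw [pow_succ, hlm, hL]
    field_simp
    ring
  rw [h2] at h1
  -- lower bound for `J`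
  set U : ℝ := ((m : ℝ) - 1) * ((m : ℝ) + 1) / (m : ℝ) ^ 2 * (A3 / A2) with hU
  have hUp : 0 < U := by (clear * - hm1 hm A3p A2p; positivity)
  have h3 : U * I / lam ≤ J := by
    have h4 := mul_le_mul_of_nonneg_left h1
      (by positivity : 0 ≤ ((m : ℝ) - 1) * (((m : ℝ) + 1) * I) / (m : ℝ) ^ 2)
    have e3 : ((m : ℝ) - 1) * (((m : ℝ) + 1) * I) / (m : ℝ) ^ 2 * (A3 / A2 / lam) =
        U * I / lam := by
      rw [hU]
      field_simp
    have e4 : ((m : ℝ) - 1) * (((m : ℝ) + 1) * I) / (m : ℝ) ^ 2 *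
        ((m : ℝ) ^ 2 / (((m : ℝ) - 1) * (((m : ℝ) + 1) * I)) * J) = J := by
      field_simp
    rwa [e3, e4] at h4
  have h5 : (2 * (U * I / lam)) ^ m ≤ (2 * J) ^ m :=
    pow_le_pow_left₀ (by (clear * - hm1 hm A3p A2p hIp hm2; positivity)) (by linarith only [h3]) m
  refine le_trans (le_of_eq ?_) h5
  have h6 : (2 * (U * I / lam)) ^ m = U ^ m * (2 * I) ^ m / L := by
    rw [← hlm, show 2 * (U * I / lam) = U * (2 * I) / lam by ring, div_pow, mul_pow]
  rw [h6, hL, c3, c4]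
  have hs : √(((m : ℝ) + 1) * ((m : ℝ) - 2)) * q = (m : ℝ) + 1 := by
    rw [hq, ← Real.sqrt_mul (by (clear * - hm hm2; positivity))]
    have : ((m : ℝ) + 1) * ((m : ℝ) - 2) * (((m : ℝ) + 1) / ((m : ℝ) - 2)) =
        ((m : ℝ) + 1) ^ 2 := by field_simp
    rw [this, Real.sqrt_sq (by positivity)]
  have hdel : del m = ((m : ℝ) + 1) / q / m * (A3 / A2) := by
    unfold del
    rw [← hA3, ← hA2]
    congr 2
    rw [eq_div_iff hqp.ne', hs]
  rw [hdel, hU]
  obtain ⟨k, hk⟩ : ∃ k, m = k + 1 := ⟨m - 1, by omega⟩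
  have hk1 : m - 1 = k := by omega
  rw [hk1]
  have hpm : ∀ x : ℝ, x ^ m = x ^ k * x := fun x => by rw [hk, pow_succ]
  simp only [hpm]
  have hmne : (m : ℝ) ≠ 0 := by positivity
  generalize (m : ℝ) = M at *
  have hM1 : M - 1 ≠ 0 := hm1.ne'
  have hM2 : M + 1 ≠ 0 := by linarith only [hm2]
  have hA2' : A2 ≠ 0 := A2p.ne'
  have hA3' : A3 ≠ 0 := A3p.ne'
  have hq' : q ≠ 0 := hqp.ne'
  have hI' : I ≠ 0 := hIp.ne'
  simp only [mul_pow, div_pow]
  field_simp
  rw [← pow_mul, ← pow_mul, mul_comm 2 k]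

end Vale.Agent.P237.Alm
end

section

/-!
# P237, almost Petty in all dimensions: the result
-/

open MeasureTheory Metric Set Module

namespace Vale.Agent.P237.Alm

open AllN

theorem oneAlm {m : ℕ} (hm : 3 ≤ m) : OneAlm m := fun _ hr hF => one_d_alm hm hr hF

theorem step {m : ℕ} (hm : 3 ≤ m) {c : ℝ} (hc : 0 ≤ c) (h : PettyC m c) :
    PettyC (m + 1) (del m * c) :=
  step_of hm (oneAlm hm) hc h

/-- **Petty's inequality with the sharper dimension dependent constant** -/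
theorem pettyC_cst {n : ℕ} (hn : 3 ≤ n) : PettyC n (cst n) :=
  pettyC_cst_of (fun _ hm => oneAlm hm) hn

/-- **Petty's inequality up to the factor `2/√(3π)` in every dimension.** -/
theorem pettyC_all {n : ℕ} (hn : 3 ≤ n) : PettyC n (2 / Real.sqrt (3 * Real.pi)) :=
  pettyC_all_of (fun _ hm => oneAlm hm) hn

end Vale.Agent.P237.Alm
end

section

/-!
# Kernel-checked positivity of bivariate integer polynomials on rectangles

A bivariate polynomial with integer coefficients is a list of rows (`List (List ℤ)`, the `j`-th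
row is the coefficient of `y^j`, itself a list of coefficients in `x`).  On a half-open rectangle
`h0 ≤ hd x < h1`, `k0 ≤ kd y < k1` positivity is certified by the (scaled) Bernstein coefficients:
the polynomial is homogenised, the substitution `x = (h0 + h1 S)/(hd (1+S))`,
`y = (k0 + k1 T)/(kd (1 + T))` is made, and the resulting polynomial in `S, T` is evaluated at the
single integer point `S = 2^w`, `T = 2^(w (d1+1))` (Kronecker substitution); nonnegativity of all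
its coefficients is one bitwise `and`.
-/

open Polynomial

namespace P100
namespace BoxPos

/-! ## generic homogenised Horner evaluation -/

/-- `∑ g_i K^i W^(k-i)` -/
def homG {R : Type*} [CommSemiring R] (K W : R) : ℕ → List R → R
  | _, [] => 0
  | 0, g :: _ => g
  | k + 1, g :: gs => g * W ^ (k + 1) + K * homG K W k gs

/-- plain Horner evaluation -/
def evG {R : Type*} [CommSemiring R] (x : R) : List R → R
  | [] => 0
  | g :: gs => g + x * evG x gs

theorem map_homG {R S : Type*} [CommSemiring R] [CommSemiring S] (f : R →+* S) (K W : R) :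
    ∀ (k : ℕ) (gs : List R), f (homG K W k gs) = homG (f K) (f W) k (gs.map f)
  | _, [] => by simp only [homG, map_zero, List.map_nil]
  | 0, g :: _ => by simp [homG]
  | k + 1, g :: gs => by
    simp only [homG, map_add, map_mul, map_pow, map_homG f K W k gs, List.map_cons]

theorem homG_eq {K W : ℝ} (hW : W ≠ 0) :
    ∀ (k : ℕ) (gs : List ℝ), gs.length ≤ k + 1 → homG K W k gs = W ^ k * evG (K / W) gs
  | _, [], _ => by simp only [homG, evG, mul_zero]
  | 0, g :: gs, h => by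
    have : gs = [] := by
      cases gs with
      | nil => rfl
      | cons a b => simp only [List.length_cons, zero_add, add_le_iff_nonpos_left, nonpos_iff_eq_zero, Nat.add_eq_zero_iff, List.length_eq_zero_iff, one_ne_zero, and_false] at h
    subst this
    simp [homG, evG]
  | k + 1, g :: gs, h => by
    have h' : gs.length ≤ k + 1 := by simpa only [List.length_cons, add_le_add_iff_right] using h
    simp only [homG, evG, homG_eq hW k gs h']
    field_simp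
    ring

/-! ## coefficient positivity from one packed value -/

/-- inner degree bound -/
def DegS (d : ℕ) (G : ℕ[X][X]) : Prop := ∀ j, (G.coeff j).natDegree ≤ d

theorem DegS.add {d : ℕ} {F G : ℕ[X][X]} (hF : DegS d F) (hG : DegS d G) : DegS d (F + G) :=
  fun j => by
    rw [coeff_add]
    exact (natDegree_add_le _ _).trans (max_le (hF j) (hG j))

theorem DegS.mul {a b : ℕ} {F G : ℕ[X][X]} (hF : DegS a F) (hG : DegS b G) :
    DegS (a + b) (F * G) := fun j => by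
  rw [coeff_mul]
  refine natDegree_sum_le_of_forall_le _ _ fun x _ => ?_
  exact natDegree_mul_le.trans (add_le_add (hF _) (hG _))

theorem DegS.pow {G : ℕ[X][X]} (hG : DegS 0 G) : ∀ k, DegS 0 (G ^ k)
  | 0 => fun j => by
    rw [pow_zero, coeff_one]
    split <;> simp
  | k + 1 => by
    rw [pow_succ]
    exact (DegS.pow hG k).mul hG

theorem DegS.mono {a b : ℕ} (h : a ≤ b) {G : ℕ[X][X]} (hG : DegS a G) : DegS b G :=
  fun j => (hG j).trans h

theorem DegS.C {d : ℕ} {g : ℕ[X]} (hg : g.natDegree ≤ d) : DegS d (C g) := fun j => by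
  rw [coeff_C]
  split
  · exact hg
  · simp only [natDegree_zero, zero_le]

/-- packing homomorphism `S ↦ B`, `T ↦ Q` -/
noncomputable def pk (B Q : ℕ) : ℕ[X][X] →+* ℕ := eval₂RingHom (evalRingHom B) Q

/-- real evaluation -/
noncomputable def evr (s t : ℝ) : ℕ[X][X] →+* ℝ :=
  eval₂RingHom (eval₂RingHom (Nat.castRingHom ℝ) s) t

theorem coeff_le_eval_one (p : ℕ[X]) (i : ℕ) : p.coeff i ≤ p.eval 1 := by
  rw [eval_eq_sum_range]
  by_cases h : i ≤ p.natDegree
  · calc p.coeff i = p.coeff i * 1 ^ i := by simp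
      _ ≤ _ := Finset.single_le_sum (f := fun i => p.coeff i * 1 ^ i)
        (fun _ _ => Nat.zero_le _) (Finset.mem_range.mpr (Nat.lt_succ_of_le h))
  · rw [coeff_eq_zero_of_natDegree_lt (not_le.mp h)]
    exact Nat.zero_le _

theorem coeff_le_pk_one (G : ℕ[X][X]) (i j : ℕ) : (G.coeff j).coeff i ≤ pk 1 1 G := by
  refine (coeff_le_eval_one _ i).trans ?_
  have : pk 1 1 G = ∑ k ∈ Finset.range (G.natDegree + 1), (G.coeff k).eval 1 * 1 ^ k := by
    simp only [pk, coe_eval₂RingHom, eval₂_eq_sum_range, coe_evalRingHom]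
  rw [this]
  by_cases h : j ≤ G.natDegree
  · calc (G.coeff j).eval 1 = (G.coeff j).eval 1 * 1 ^ j := by simp
      _ ≤ _ := Finset.single_le_sum (f := fun k => (G.coeff k).eval 1 * 1 ^ k)
        (fun _ _ => Nat.zero_le _) (Finset.mem_range.mpr (Nat.lt_succ_of_le h))
  · rw [coeff_eq_zero_of_natDegree_lt (not_le.mp h)]
    simp only [eval_zero, one_pow, mul_one, zero_le]

/-- flattening of a double sum -/
theorem sum_flat (D : ℕ) (f : ℕ → ℕ) : ∀ J : ℕ,
    ∑ k ∈ Finset.range (D * J), f k = ∑ j ∈ Finset.range J, ∑ i ∈ Finset.range D, f (D * j + i)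
  | 0 => by simp
  | J + 1 => by
    rw [Nat.mul_succ, Finset.sum_range_add, sum_flat D f J, Finset.sum_range_succ]

/-- flattened coefficient function -/
noncomputable def fl (D : ℕ) (G : ℕ[X][X]) (k : ℕ) : ℕ := (G.coeff (k / D)).coeff (k % D)

theorem pk_eq_flat {D B d J : ℕ} (hD : d < D) {G : ℕ[X][X]} (hG : DegS d G)
    (hJ : G.natDegree < J) :
    pk B (B ^ D) G = ∑ k ∈ Finset.range (D * J), fl D G k * B ^ k := by
  have hDpos : 0 < D := lt_of_le_of_lt (Nat.zero_le _) hD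
  rw [sum_flat]
  have h1 : pk B (B ^ D) G = ∑ j ∈ Finset.range J, (G.coeff j).eval B * (B ^ D) ^ j := by
    simp only [pk, coe_eval₂RingHom]
    rw [eval₂_eq_sum_range' (evalRingHom B) hJ]
    simp only [coe_evalRingHom]
  rw [h1]
  refine Finset.sum_congr rfl fun j _ => ?_
  rw [eval_eq_sum_range' (lt_of_le_of_lt (hG j) hD), Finset.sum_mul]
  refine Finset.sum_congr rfl fun i hi => ?_
  have hi' := Finset.mem_range.mp hi
  have e1 : (D * j + i) / D = j := by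
    rw [Nat.mul_add_div hDpos, Nat.div_eq_of_lt hi', add_zero]
  have e2 : (D * j + i) % D = i := by
    rw [Nat.mul_add_mod, Nat.mod_eq_of_lt hi']
  simp only [fl, e1, e2]
  rw [mul_assoc, ← pow_mul, ← pow_add, add_comm i]

theorem uniq (B : ℕ) : ∀ (n : ℕ) (a b : ℕ → ℕ), (∀ k < n, a k < B) → (∀ k < n, b k < B) →
    ∑ k ∈ Finset.range n, a k * B ^ k = ∑ k ∈ Finset.range n, b k * B ^ k →
    ∀ k < n, a k = b k
  | 0, _, _, _, _, _ => fun k hk => absurd hk (Nat.not_lt_zero k)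
  | n + 1, a, b, ha, hb, h => by
    have e : ∀ c : ℕ → ℕ, ∑ k ∈ Finset.range (n + 1), c k * B ^ k
        = c 0 + B * ∑ k ∈ Finset.range n, c (k + 1) * B ^ k := fun c => by
      rw [Finset.sum_range_succ', Finset.mul_sum, pow_zero, mul_one, add_comm]
      congr 1
      refine Finset.sum_congr rfl fun k _ => ?_
      ring
    rw [e, e] at h
    have hB : 0 < B := lt_of_le_of_lt (Nat.zero_le _) (ha 0 n.succ_pos)
    have h0 : a 0 = b 0 := by
      have := congrArg (· % B) h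
      simpa only [Nat.add_mul_mod_self_left, Nat.mod_eq_of_lt (ha 0 n.succ_pos),     Nat.mod_eq_of_lt (hb 0 n.succ_pos)] using this
    have h1 : ∑ k ∈ Finset.range n, a (k + 1) * B ^ k
        = ∑ k ∈ Finset.range n, b (k + 1) * B ^ k := by
      rw [h0] at h
      exact Nat.eq_of_mul_eq_mul_left hB (Nat.add_left_cancel h)
    have ih := uniq B n (fun k => a (k + 1)) (fun k => b (k + 1))
      (fun k hk => ha _ (Nat.succ_lt_succ hk)) (fun k hk => hb _ (Nat.succ_lt_succ hk)) h1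
    intro k hk
    cases k with
    | zero => exact h0
    | succ k => exact ih k (Nat.lt_of_succ_lt_succ hk)

theorem sum_lt (B : ℕ) (hB : 0 < B) (a : ℕ → ℕ) : ∀ n : ℕ, (∀ k < n, a k < B) →
    ∑ k ∈ Finset.range n, a k * B ^ k < B ^ n
  | 0, _ => by simp only [Finset.range_zero, Finset.sum_empty, pow_zero, Order.lt_one_iff]
  | n + 1, h => by
    rw [Finset.sum_range_succ]
    have h1 := sum_lt B hB a n fun k hk => h k (Nat.lt_succ_of_lt hk)
    have h2 : a n + 1 ≤ B := h n n.lt_succ_self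
    calc _ < B ^ n + a n * B ^ n := by omega
      _ = (a n + 1) * B ^ n := by ring
      _ ≤ B * B ^ n := Nat.mul_le_mul_right _ h2
      _ = B ^ (n + 1) := by ring

theorem digits_sum (B : ℕ) (v : ℕ) : ∀ n : ℕ,
    ∑ k ∈ Finset.range n, (v / B ^ k % B) * B ^ k = v % B ^ n
  | 0 => by simp only [Finset.range_zero, Finset.sum_empty, pow_zero, Nat.mod_one]
  | n + 1 => by
    rw [Finset.sum_range_succ, digits_sum B v n, Nat.mod_pow_succ, mul_comm (B ^ n)]

/-- the mask with bits `w k + (w - 1)`, `k < n` -/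
def mask (w : ℕ) : ℕ → ℕ
  | 0 => 0
  | n + 1 => 2 ^ (w - 1) + 2 ^ w * mask w n

theorem testBit_mask (w : ℕ) (hw : 0 < w) : ∀ n k, k < n → (mask w n).testBit (w * k + (w - 1)) = true
  | 0, k, h => absurd h (Nat.not_lt_zero k)
  | n + 1, 0, _ => by
    simp only [mask, mul_zero, zero_add]
    rw [add_comm, Nat.testBit_two_pow_mul_add _ (Nat.pow_lt_pow_right (by norm_num) (by omega))]
    rw [if_pos (by omega)]
    exact Nat.testBit_two_pow_self
  | n + 1, k + 1, h => by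
    simp only [mask]
    rw [add_comm, Nat.testBit_two_pow_mul_add _ (Nat.pow_lt_pow_right (by norm_num) (by omega))]
    rw [if_neg (by rw [Nat.mul_succ]; omega)]
    have := testBit_mask w hw n k (Nat.lt_of_succ_lt_succ h)
    rw [← this]
    congr 1
    rw [Nat.mul_succ]
    (clear * - hw; omega)

theorem digit_lt {w : ℕ} (hw : 0 < w) {v n : ℕ} (h : Nat.land v (mask w n) = 0) {k : ℕ}
    (hk : k < n) : v / (2 ^ w) ^ k % 2 ^ w < 2 ^ (w - 1) := by
  refine Nat.lt_pow_two_of_testBit _ fun i hi => ?_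
  rw [Nat.testBit_mod_two_pow, ← pow_mul, Nat.testBit_div_two_pow]
  by_cases hiw : i < w
  · have : i = w - 1 := by omega
    subst this
    have h1 : (Nat.land v (mask w n)).testBit (w * k + (w - 1)) = false := by
      rw [h]; exact Nat.zero_testBit _
    have h2 : (Nat.land v (mask w n)).testBit (w * k + (w - 1))
        = (v.testBit (w * k + (w - 1)) && (mask w n).testBit (w * k + (w - 1))) :=
      Nat.testBit_and _ _ _
    rw [h2, testBit_mask w hw n k hk, Bool.and_true] at h1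
    rw [add_comm (w - 1)]
    simp only [tsub_lt_self_iff, Order.lt_one_iff, and_true, h1, Bool.and_false]
  · simp [hiw]

/-- **Main uniqueness lemma.** -/
theorem coeff_le_of_mask {w D d J v : ℕ} (hw : 0 < w) (hD : d < D) {F G : ℕ[X][X]}
    (hF : DegS d F) (hG : DegS d G) (hFJ : F.natDegree < J) (hGJ : G.natDegree < J)
    (hF1 : pk 1 1 F < 2 ^ (w - 1)) (hG1 : pk 1 1 G < 2 ^ (w - 1))
    (hv : v + pk (2 ^ w) ((2 ^ w) ^ D) F = pk (2 ^ w) ((2 ^ w) ^ D) G)
    (hm : Nat.land v (mask w (D * J)) = 0) (i j : ℕ) :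
    (F.coeff j).coeff i ≤ (G.coeff j).coeff i := by
  set B := 2 ^ w with hB
  have hBpos : 0 < B := by positivity
  have hB2 : 2 ^ (w - 1) + 2 ^ (w - 1) = B := by
    rw [hB, ← two_mul, ← pow_succ']
    congr 1
    omega
  rw [pk_eq_flat hD hF hFJ, pk_eq_flat hD hG hGJ] at hv
  have hGlt : ∀ k < D * J, fl D G k < B := fun k _ => by
    have := coeff_le_pk_one G (k % D) (k / D)
    unfold fl
    (clear * - hG1 hB2 this; omega)
  have hvlt : v < B ^ (D * J) := by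
    have := sum_lt B hBpos (fl D G) (D * J) hGlt
    omega
  have hvs := digits_sum B v (D * J)
  rw [Nat.mod_eq_of_lt hvlt] at hvs
  have hdig : ∀ k < D * J, v / B ^ k % B < 2 ^ (w - 1) := fun k hk => digit_lt hw hm hk
  have key := uniq B (D * J) (fun k => v / B ^ k % B + fl D F k) (fl D G)
    (fun k hk => by
      have h1 := hdig k hk
      have h2 := coeff_le_pk_one F (k % D) (k / D)
      have h3 : fl D F k ≤ pk 1 1 F := h2
      show v / B ^ k % B + fl D F k < B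
      omega) hGlt
    (by
      simp only [add_mul, Finset.sum_add_distrib]
      rw [hvs]
      exact hv)
  by_cases hj : j < J
  · by_cases hi : i < D
    · have hk : D * j + i < D * J := by
        calc D * j + i < D * j + D := by (clear * - hi; omega)
          _ = D * (j + 1) := by ring
          _ ≤ D * J := Nat.mul_le_mul_left _ hj
      have := key (D * j + i) hk
      have hDpos : 0 < D := lt_of_le_of_lt (Nat.zero_le _) hD
      have e1 : (D * j + i) / D = j := by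
        rw [Nat.mul_add_div hDpos, Nat.div_eq_of_lt hi, add_zero]
      have e2 : (D * j + i) % D = i := by
        rw [Nat.mul_add_mod, Nat.mod_eq_of_lt hi]
      simp only [fl, e1, e2] at this
      omega
    · rw [coeff_eq_zero_of_natDegree_lt (lt_of_le_of_lt (hF j) (by omega))]
      exact Nat.zero_le _
  · rw [coeff_eq_zero_of_natDegree_lt (by omega : F.natDegree < j)]
    simp

theorem evr_le {F G : ℕ[X][X]} (h : ∀ i j, (F.coeff j).coeff i ≤ (G.coeff j).coeff i)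
    {s t : ℝ} (hs : 0 ≤ s) (ht : 0 ≤ t) : evr s t F ≤ evr s t G := by
  set J := max F.natDegree G.natDegree + 1 with hJ
  have e : ∀ H : ℕ[X][X], H.natDegree < J → evr s t H
      = ∑ j ∈ Finset.range J, (eval₂ (Nat.castRingHom ℝ) s (H.coeff j)) * t ^ j := fun H hH => by
    simp only [evr, coe_eval₂RingHom]
    rw [eval₂_eq_sum_range' _ hH]
    simp only [coe_eval₂RingHom]
  rw [e F (by (clear * -; omega)), e G (by omega)]
  refine Finset.sum_le_sum fun j _ => mul_le_mul_of_nonneg_right ?_ (pow_nonneg ht j)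
  set n := max (F.coeff j).natDegree (G.coeff j).natDegree + 1 with hn
  rw [eval₂_eq_sum_range' (Nat.castRingHom ℝ) (by omega : (F.coeff j).natDegree < n),
    eval₂_eq_sum_range' (Nat.castRingHom ℝ) (by omega : (G.coeff j).natDegree < n)]
  refine Finset.sum_le_sum fun i _ => mul_le_mul_of_nonneg_right ?_ (pow_nonneg hs i)
  simpa only [eq_natCast, Nat.cast_le] using (Nat.cast_le (α := ℝ)).mpr (h i j)


/-! ## the box check -/

/-- positive parts -/
def posL (p : List ℤ) : List ℕ := p.map Int.toNat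
/-- negative parts -/
def negL (p : List ℤ) : List ℕ := p.map fun c => (-c).toNat

/-- inner kernel evaluation (integer coefficients, natural number `Z`) -/
def hZ (H : ℤ) (Z : ℕ) : ℕ → List ℤ → ℤ
  | _, [] => 0
  | 0, c :: _ => c
  | k + 1, c :: cs => c * ((Z ^ (k + 1) : ℕ) : ℤ) + H * hZ H Z k cs

/-- outer kernel evaluation -/
def hO (K : ℤ) (W : ℕ) (H : ℤ) (Z : ℕ) (d1 : ℕ) : ℕ → List (List ℤ) → ℤ
  | _, [] => 0
  | 0, p :: _ => hZ H Z d1 p
  | k + 1, p :: ps => hZ H Z d1 p * ((W ^ (k + 1) : ℕ) : ℤ) + K * hO K W H Z d1 k ps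

/-- the same with absolute values, natural numbers -/
def hZa (H Z : ℕ) : ℕ → List ℤ → ℕ
  | _, [] => 0
  | 0, c :: _ => c.natAbs
  | k + 1, c :: cs => c.natAbs * Z ^ (k + 1) + H * hZa H Z k cs

def hOa (K W H Z : ℕ) (d1 : ℕ) : ℕ → List (List ℤ) → ℕ
  | _, [] => 0
  | 0, p :: _ => hZa H Z d1 p
  | k + 1, p :: ps => hZa H Z d1 p * W ^ (k + 1) + K * hOa K W H Z d1 k ps

theorem hZ_eq (H Z : ℕ) : ∀ (k : ℕ) (p : List ℤ),
    hZ H Z k p = ((homG H Z k ((posL p).map (Nat.cast : ℕ → ℕ)) : ℕ) : ℤ)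
      - ((homG H Z k ((negL p).map (Nat.cast : ℕ → ℕ)) : ℕ) : ℤ)
  | _, [] => by simp only [hZ, posL, List.map_nil, homG, CharP.cast_eq_zero, negL, sub_self]
  | 0, c :: _ => by
    simp only [hZ, homG, posL, negL, List.map_cons, Nat.cast_id]
    omega
  | k + 1, c :: cs => by
    have ih := hZ_eq H Z k cs
    simp only [posL, negL] at ih
    simp only [hZ, homG, posL, negL, List.map_cons, Nat.cast_id, Nat.cast_add, Nat.cast_mul,
      Nat.cast_pow] at ih ⊢
    rw [ih]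
    have hc : (c : ℤ) = (c.toNat : ℤ) - ((-c).toNat : ℤ) := by omega
    conv_lhs => rw [hc]
    ring

theorem hZa_eq (H Z : ℕ) : ∀ (k : ℕ) (p : List ℤ),
    hZa H Z k p = homG H Z k ((posL p).map (Nat.cast : ℕ → ℕ))
      + homG H Z k ((negL p).map (Nat.cast : ℕ → ℕ))
  | _, [] => by simp [hZa, homG, posL, negL]
  | 0, c :: _ => by
    simp only [hZa, homG, posL, negL, List.map_cons, Nat.cast_id]
    omega
  | k + 1, c :: cs => by
    have ih := hZa_eq H Z k cs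
    simp only [posL, negL] at ih
    simp only [hZa, homG, posL, negL, List.map_cons, Nat.cast_id] at ih ⊢
    rw [ih]
    have hc : c.natAbs = c.toNat + (-c).toNat := by (clear * -; omega)
    rw [hc]
    ring

/-- the two polynomials (positive and negative part) of a box -/
noncomputable def boxP (h0 h1 hd k0 k1 kd d1 d2 : ℕ) (L : List (List ℕ)) : ℕ[X][X] :=
  homG (C (C (k0 : ℕ)) + C (C (k1 : ℕ)) * X) (C (C (kd : ℕ)) * (1 + X)) d2
    (L.map fun p => C (homG (C (h0 : ℕ) + C (h1 : ℕ) * X) (C (hd : ℕ) * (1 + X)) d1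
      (p.map fun c => C c)))

theorem pk_boxP (B Q h0 h1 hd k0 k1 kd d1 d2 : ℕ) (L : List (List ℕ)) :
    pk B Q (boxP h0 h1 hd k0 k1 kd d1 d2 L)
      = homG (k0 + k1 * Q) (kd * (1 + Q)) d2
          (L.map fun p => homG (h0 + h1 * B) (hd * (1 + B)) d1 (p.map (Nat.cast : ℕ → ℕ))) := by
  unfold boxP
  rw [map_homG (R := ℕ[X][X]) (S := ℕ) (pk B Q), List.map_map]
  congr 1
  · simp only [pk, eq_natCast, map_natCast, coe_eval₂RingHom, eval₂_add, eval₂_natCast, Nat.cast_id, eval₂_mul, eval₂_X, Nat.add_left_cancel_iff]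
  · simp only [pk, eq_natCast, map_natCast, coe_eval₂RingHom, eval₂_mul, eval₂_natCast, Nat.cast_id, eval₂_add, eval₂_one, eval₂_X]
  · refine List.map_congr_left fun p _ => ?_
    simp only [Function.comp, pk, coe_eval₂RingHom, eval₂_C]
    rw [map_homG, List.map_map]
    congr 1
    · simp only [eq_natCast, coe_evalRingHom, eval_add, eval_natCast, Nat.cast_id, eval_mul, eval_X, Nat.add_left_cancel_iff]
    · simp only [eq_natCast, coe_evalRingHom, eval_mul, eval_natCast, Nat.cast_id, eval_add, eval_one, eval_X]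
    · refine List.map_congr_left fun c _ => ?_
      simp only [coe_evalRingHom, eq_natCast, Function.comp_apply, eval_natCast, Nat.cast_id]

theorem evr_boxP (s t : ℝ) (h0 h1 hd k0 k1 kd d1 d2 : ℕ) (L : List (List ℕ)) :
    evr s t (boxP h0 h1 hd k0 k1 kd d1 d2 L)
      = homG (k0 + k1 * t : ℝ) (kd * (1 + t)) d2
          (L.map fun p => homG (h0 + h1 * s : ℝ) (hd * (1 + s)) d1
            (p.map (Nat.cast : ℕ → ℝ))) := by
  unfold boxP
  rw [map_homG (R := ℕ[X][X]) (S := ℝ) (evr s t), List.map_map]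
  congr 1
  · simp only [evr, eq_natCast, map_natCast, coe_eval₂RingHom, eval₂_add, eval₂_natCast, eval₂_mul, eval₂_X]
  · simp only [evr, eq_natCast, map_natCast, coe_eval₂RingHom, eval₂_mul, eval₂_natCast, eval₂_add, eval₂_one, eval₂_X]
  · refine List.map_congr_left fun p _ => ?_
    simp only [Function.comp, evr, coe_eval₂RingHom, eval₂_C]
    rw [← coe_eval₂RingHom, map_homG, List.map_map]
    congr 1
    · simp only [eq_natCast, coe_eval₂RingHom, eval₂_add, eval₂_natCast, eval₂_mul, eval₂_X]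
    · simp only [eq_natCast, coe_eval₂RingHom, eval₂_mul, eval₂_natCast, eval₂_add, eval₂_one, eval₂_X]
    · refine List.map_congr_left fun c _ => ?_
      simp only [coe_eval₂RingHom, eq_natCast, Function.comp_apply, eval₂_natCast]

theorem natDegree_homG {H Z : ℕ[X]} (hH : H.natDegree ≤ 1) (hZ' : Z.natDegree ≤ 1) :
    ∀ (k : ℕ) (gs : List ℕ[X]), (∀ g ∈ gs, g.natDegree ≤ 0) → (homG H Z k gs).natDegree ≤ k
  | _, [], _ => by simp [homG]
  | 0, g :: _, h => by simpa only [homG, nonpos_iff_eq_zero] using h g (by simp)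
  | k + 1, g :: gs, h => by
    simp only [homG]
    refine (natDegree_add_le _ _).trans (max_le ?_ ?_)
    · refine natDegree_mul_le.trans ?_
      have h1 := h g (by simp)
      have h2 : (Z ^ (k + 1)).natDegree ≤ (k + 1) * 1 :=
        natDegree_pow_le.trans (Nat.mul_le_mul_left _ hZ')
      omega
    · refine natDegree_mul_le.trans ?_
      have := natDegree_homG hH hZ' k gs fun g hg => h g (by simp [hg])
      omega

theorem natDegree_homG2 {H Z : ℕ[X][X]} (hH : H.natDegree ≤ 1) (hZ' : Z.natDegree ≤ 1) :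
    ∀ (k : ℕ) (gs : List ℕ[X][X]), (∀ g ∈ gs, g.natDegree ≤ 0) → (homG H Z k gs).natDegree ≤ k
  | _, [], _ => by simp only [homG, natDegree_zero, zero_le]
  | 0, g :: _, h => by simpa only [homG, nonpos_iff_eq_zero] using h g (by simp)
  | k + 1, g :: gs, h => by
    simp only [homG]
    refine (natDegree_add_le _ _).trans (max_le ?_ ?_)
    · refine natDegree_mul_le.trans ?_
      have h1 := h g (by simp)
      have h2 : (Z ^ (k + 1)).natDegree ≤ (k + 1) * 1 :=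
        natDegree_pow_le.trans (Nat.mul_le_mul_left _ hZ')
      omega
    · refine natDegree_mul_le.trans ?_
      have := natDegree_homG2 hH hZ' k gs fun g hg => h g (by simp [hg])
      omega

theorem DegS_homG {d : ℕ} {K W : ℕ[X][X]} (hK : DegS 0 K) (hW : DegS 0 W) :
    ∀ (k : ℕ) (gs : List ℕ[X][X]), (∀ g ∈ gs, DegS d g) → DegS d (homG K W k gs)
  | _, [], _ => fun j => by simp only [homG, coeff_zero, natDegree_zero, zero_le]
  | 0, g :: _, h => by simpa [homG] using h g (by simp)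
  | k + 1, g :: gs, h => by
    simp only [homG]
    refine DegS.add ?_ ?_
    · exact (h g (by simp)).mul (hW.pow (k + 1))
    · have := hK.mul (DegS_homG hK hW k gs fun g hg => h g (by simp [hg]))
      rwa [zero_add] at this

theorem natDegree_lin (a b : ℕ) : (C a + C b * X : ℕ[X]).natDegree ≤ 1 := by
  rw [add_comm]
  exact natDegree_linear_le

theorem natDegree_lin2 (a b : ℕ) : (C (C a) + C (C b) * X : ℕ[X][X]).natDegree ≤ 1 := by
  rw [add_comm]
  exact natDegree_linear_le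

theorem natDegree_one_add (a : ℕ) : (C a * (1 + X) : ℕ[X]).natDegree ≤ 1 := by
  have : (C a * (1 + X) : ℕ[X]) = C a * X + C a := by ring
  rw [this]
  exact natDegree_linear_le

theorem natDegree_one_add2 (a : ℕ) : (C (C a) * (1 + X) : ℕ[X][X]).natDegree ≤ 1 := by
  have : (C (C a) * (1 + X) : ℕ[X][X]) = C (C a) * X + C (C a) := by ring
  rw [this]
  exact natDegree_linear_le

theorem DegS_X : DegS 0 (X : ℕ[X][X]) := fun j => by
  rw [coeff_X]
  split <;> simp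

theorem DegS_one : DegS 0 (1 : ℕ[X][X]) := fun j => by
  rw [coeff_one]
  split <;> simp

theorem DegS_CC (a : ℕ) : DegS 0 (C (C a) : ℕ[X][X]) := DegS.C (by simp only [eq_natCast, natDegree_natCast, Std.le_refl])

theorem DegS_boxP (h0 h1 hd k0 k1 kd d1 d2 : ℕ) (L : List (List ℕ)) :
    DegS d1 (boxP h0 h1 hd k0 k1 kd d1 d2 L) := by
  unfold boxP
  refine DegS_homG ?_ ?_ _ _ ?_
  · have := (DegS_CC k1).mul DegS_X
    exact (DegS_CC k0).add this
  · exact (DegS_CC kd).mul (DegS_one.add DegS_X)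
  · intro g hg
    obtain ⟨p, _, rfl⟩ := List.mem_map.mp hg
    refine DegS.C (natDegree_homG (natDegree_lin _ _) (natDegree_one_add _) _ _ ?_)
    intro g hg
    obtain ⟨c, _, rfl⟩ := List.mem_map.mp hg
    simp only [eq_natCast, natDegree_natCast, Std.le_refl]

theorem natDegree_boxP (h0 h1 hd k0 k1 kd d1 d2 : ℕ) (L : List (List ℕ)) :
    (boxP h0 h1 hd k0 k1 kd d1 d2 L).natDegree ≤ d2 := by
  unfold boxP
  refine natDegree_homG2 (natDegree_lin2 _ _) (natDegree_one_add2 _) _ _ ?_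
  intro g hg
  obtain ⟨p, _, rfl⟩ := List.mem_map.mp hg
  simp only [eq_natCast, natDegree_C, Std.le_refl]

theorem homG_map_sub (K W : ℤ) : ∀ (k : ℕ) (as bs : List ℤ), as.length = bs.length →
    homG K W k as - homG K W k bs = homG K W k (List.zipWith (· - ·) as bs)
  | _, [], [], _ => by simp [homG]
  | _, [], _ :: _, h => by simp at h
  | _, _ :: _, [], h => by simp at h
  | 0, a :: as, b :: bs, _ => by simp [homG]
  | k + 1, a :: as, b :: bs, h => by
    have ih := homG_map_sub K W k as bs (by simpa using h)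
    simp only [homG, List.zipWith_cons_cons]
    rw [← ih]
    ring

theorem hO_eq (K W H Z d1 : ℕ) : ∀ (k : ℕ) (L : List (List ℤ)),
    hO K W H Z d1 k L
      = ((homG K W k (L.map fun p => homG H Z d1 ((posL p).map (Nat.cast : ℕ → ℕ))) : ℕ) : ℤ)
      - ((homG K W k (L.map fun p => homG H Z d1 ((negL p).map (Nat.cast : ℕ → ℕ))) : ℕ) : ℤ)
  | _, [] => by simp only [hO, List.map_nil, homG, CharP.cast_eq_zero, sub_self]
  | 0, c :: _ => by
    simp only [hO, homG, List.map_cons]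
    exact hZ_eq H Z d1 c
  | k + 1, c :: cs => by
    have ih := hO_eq K W H Z d1 k cs
    simp only [hO, homG, List.map_cons]
    rw [ih, hZ_eq]
    push_cast
    ring

theorem hOa_eq (K W H Z d1 : ℕ) : ∀ (k : ℕ) (L : List (List ℤ)),
    hOa K W H Z d1 k L
      = homG K W k (L.map fun p => homG H Z d1 ((posL p).map (Nat.cast : ℕ → ℕ)))
      + homG K W k (L.map fun p => homG H Z d1 ((negL p).map (Nat.cast : ℕ → ℕ)))
  | _, [] => by simp only [hOa, List.map_nil, homG, add_zero]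
  | 0, c :: _ => by
    simp only [hOa, homG, List.map_cons]
    exact hZa_eq H Z d1 c
  | k + 1, c :: cs => by
    have ih := hOa_eq K W H Z d1 k cs
    simp only [hOa, homG, List.map_cons]
    rw [ih, hZa_eq]
    ring

/-- the kernel check of a box -/
def boxCheck (w d1 d2 : ℕ) (L : List (List ℤ)) (h0 h1 hd k0 k1 kd : ℕ) : Bool :=
  decide (0 < w) && decide (0 < hd) && decide (0 < kd) && decide (L.length ≤ d2 + 1) &&
  L.all (fun p => decide (p.length ≤ d1 + 1)) &&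
  decide (hOa (k0 + k1) (2 * kd) (h0 + h1) (2 * hd) d1 d2 L + 1 < 2 ^ (w - 1)) &&
  (match hO ((k0 + k1 * 2 ^ (w * (d1 + 1)) : ℕ) : ℤ) (kd * (1 + 2 ^ (w * (d1 + 1))))
      ((h0 + h1 * 2 ^ w : ℕ) : ℤ) (hd * (1 + 2 ^ w)) d1 d2 L with
    | Int.ofNat (m + 1) => Nat.beq (Nat.land m (mask w ((d1 + 1) * (d2 + 1)))) 0
    | _ => false)

/-- real evaluation of a coefficient list -/
def ev1 (x : ℝ) : List ℤ → ℝ
  | [] => 0
  | c :: cs => (c : ℝ) + x * ev1 x cs

/-- real evaluation of a bivariate coefficient list -/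
def ev2 (x y : ℝ) : List (List ℤ) → ℝ
  | [] => 0
  | p :: ps => ev1 x p + y * ev2 x y ps

theorem ev1_eq (x : ℝ) : ∀ p : List ℤ,
    ev1 x p = evG x ((posL p).map (Nat.cast : ℕ → ℝ)) - evG x ((negL p).map (Nat.cast : ℕ → ℝ))
  | [] => by simp only [ev1, posL, List.map_nil, evG, negL, sub_self]
  | c :: cs => by
    have ih := ev1_eq x cs
    simp only [posL, negL] at ih
    simp only [ev1, evG, posL, negL, List.map_cons]
    rw [ih]
    have hc : (c : ℝ) = ((c.toNat : ℕ) : ℝ) - (((-c).toNat : ℕ) : ℝ) := by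
      have h : (c : ℤ) = (c.toNat : ℤ) - ((-c).toNat : ℤ) := by omega
      have := congrArg (Int.cast : ℤ → ℝ) h
      push_cast at this
      exact_mod_cast this
    rw [hc]
    ring

theorem ev2_eq (x y : ℝ) : ∀ L : List (List ℤ),
    ev2 x y L = evG y (L.map fun p => evG x ((posL p).map (Nat.cast : ℕ → ℝ)))
      - evG y (L.map fun p => evG x ((negL p).map (Nat.cast : ℕ → ℝ)))
  | [] => by simp only [ev2, List.map_nil, evG, sub_self]
  | p :: ps => by
    have ih := ev2_eq x y ps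
    simp only [ev2, evG, List.map_cons]
    rw [ih, ev1_eq]
    ring

theorem evr_boxP_eq {h0 h1 hd k0 k1 kd d1 d2 : ℕ} {L : List (List ℤ)} (f : ℤ → ℕ)
    (hL : L.length ≤ d2 + 1) (hp : ∀ p ∈ L, p.length ≤ d1 + 1) {s t x y Z W : ℝ}
    (hZ0 : (hd : ℝ) * (1 + s) ≠ 0) (hW0 : (kd : ℝ) * (1 + t) ≠ 0)
    (hx : (h0 + h1 * s) / (hd * (1 + s)) = x) (hy : (k0 + k1 * t) / (kd * (1 + t)) = y)
    (hZ : Z = hd * (1 + s)) (hW : W = kd * (1 + t)) :
    evr s t (boxP h0 h1 hd k0 k1 kd d1 d2 (L.map fun p => p.map f))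
      = W ^ d2 * Z ^ d1 * evG y (L.map fun p => evG x ((p.map f).map (Nat.cast : ℕ → ℝ))) := by
  subst hZ hW hx hy
  rw [evr_boxP, homG_eq hW0 _ _ (by simpa only [List.map_map, List.length_map] using hL), mul_assoc]
  congr 1
  have e : ∀ (L : List (List ℤ)), (∀ p ∈ L, p.length ≤ d1 + 1) → ∀ y : ℝ,
      evG y ((L.map fun p => p.map f).map fun p => homG (h0 + h1 * s : ℝ) (hd * (1 + s)) d1
        (p.map (Nat.cast : ℕ → ℝ)))
      = (hd * (1 + s) : ℝ) ^ d1 * evG y (L.map fun p =>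
          evG ((h0 + h1 * s) / (hd * (1 + s))) ((p.map f).map (Nat.cast : ℕ → ℝ))) := by
    intro L
    induction L with
    | nil => intro _ y; simp only [List.map_nil, evG, List.map_map, mul_zero]
    | cons p ps ih =>
      intro hp y
      simp only [List.map_cons, evG]
      rw [ih (fun q hq => hp q (by simp [hq])) y,
        homG_eq hZ0 _ _ (by simpa only [List.map_map, List.length_map] using hp p (by simp))]
      ring
  exact e L hp _

/-- **Soundness of the box check.** -/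
theorem boxCheck_sound {w d1 d2 : ℕ} {L : List (List ℤ)} {h0 h1 hd k0 k1 kd : ℕ}
    (hc : boxCheck w d1 d2 L h0 h1 hd k0 k1 kd = true) {x y : ℝ}
    (hx0 : (h0 : ℝ) ≤ hd * x) (hx1 : hd * x < h1) (hy0 : (k0 : ℝ) ≤ kd * y)
    (hy1 : kd * y < k1) : 0 < ev2 x y L := by
  simp only [boxCheck, Bool.and_eq_true, decide_eq_true_eq, List.all_eq_true] at hc
  obtain ⟨⟨⟨⟨⟨⟨hw, hhd⟩, hkd⟩, hlen⟩, hrow⟩, hbd⟩, hm⟩ := hc
  set P := boxP h0 h1 hd k0 k1 kd d1 d2 (L.map posL) with hP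
  set N := boxP h0 h1 hd k0 k1 kd d1 d2 (L.map negL) with hN
  have hB : 2 ^ (w * (d1 + 1)) = (2 ^ w) ^ (d1 + 1) := pow_mul _ _ _
  -- packed values
  have hval : hO ((k0 + k1 * 2 ^ (w * (d1 + 1)) : ℕ) : ℤ) (kd * (1 + 2 ^ (w * (d1 + 1))))
      ((h0 + h1 * 2 ^ w : ℕ) : ℤ) (hd * (1 + 2 ^ w)) d1 d2 L
      = (pk (2 ^ w) ((2 ^ w) ^ (d1 + 1)) P : ℤ) - (pk (2 ^ w) ((2 ^ w) ^ (d1 + 1)) N : ℤ) := by
    rw [hO_eq, hP, hN, pk_boxP, pk_boxP, hB, List.map_map, List.map_map]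
    rfl
  have hone : hOa (k0 + k1) (2 * kd) (h0 + h1) (2 * hd) d1 d2 L = pk 1 1 P + pk 1 1 N := by
    rw [hOa_eq, hP, hN, pk_boxP, pk_boxP, List.map_map, List.map_map]
    have e1 : k0 + k1 * 1 = k0 + k1 := by ring
    have e2 : kd * (1 + 1) = 2 * kd := by ring
    have e3 : h0 + h1 * 1 = h0 + h1 := by ring
    have e4 : hd * (1 + 1) = 2 * hd := by ring
    rw [e1, e2, e3, e4]
    rfl
  rw [hone] at hbd
  rw [hval] at hm
  generalize hv : (pk (2 ^ w) ((2 ^ w) ^ (d1 + 1)) P : ℤ)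
    - (pk (2 ^ w) ((2 ^ w) ^ (d1 + 1)) N : ℤ) = v at hm
  match v, hm, hv with
  | Int.ofNat (m + 1), hm, hv =>
    have hm0 : Nat.land m (mask w ((d1 + 1) * (d2 + 1))) = 0 := Nat.eq_of_beq_eq_true hm
    have hv' : m + pk (2 ^ w) ((2 ^ w) ^ (d1 + 1)) (N + 1) = pk (2 ^ w) ((2 ^ w) ^ (d1 + 1)) P := by
      rw [map_add, map_one]
      have : (Int.ofNat (m + 1) : ℤ) = (m : ℤ) + 1 := by
        simp
      rw [this] at hv
      (clear x y hx0 hx1 hy0 hy1 hrow hlen hkd hw hhd hP hbd hN hB hval hone hm hm0 this; omega)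
    have hN1 : pk 1 1 (N + 1) = pk 1 1 N + 1 := by rw [map_add, map_one]
    have hle := coeff_le_of_mask (F := N + 1) (G := P) (J := d2 + 1) hw (Nat.lt_succ_self d1)
      ((DegS_boxP _ _ _ _ _ _ _ _ _).add (DegS_one.mono (Nat.zero_le _)))
      (DegS_boxP _ _ _ _ _ _ _ _ _)
      (Nat.lt_succ_of_le ((natDegree_add_le _ _).trans
        (max_le (natDegree_boxP _ _ _ _ _ _ _ _ _) (by simp only [natDegree_one, zero_le]))))
      (Nat.lt_succ_of_le (natDegree_boxP _ _ _ _ _ _ _ _ _))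
      (by (clear * - hbd hone hN1; omega)) (by omega) hv' hm0
    have hxh : 0 < (h1 : ℝ) - hd * x := by linarith only [hx1]
    have hyk : 0 < (k1 : ℝ) - kd * y := by linarith only [hy1]
    set s : ℝ := (hd * x - h0) / (h1 - hd * x) with hs
    set t : ℝ := (kd * y - k0) / (k1 - kd * y) with ht
    have hs0 : 0 ≤ s := div_nonneg (by linarith only [hx0]) hxh.le
    have ht0 : 0 ≤ t := div_nonneg (by linarith only [hy0]) hyk.le
    have hkey := evr_le hle hs0 ht0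
    rw [map_add, map_one] at hkey
    have hhd' : (0 : ℝ) < hd := by exact_mod_cast hhd
    have hkd' : (0 : ℝ) < kd := by exact_mod_cast hkd
    have hZ0 : 0 < (hd : ℝ) * (1 + s) := by (clear * - hhd hx0 hx1; positivity)
    have hW0 : 0 < (kd : ℝ) * (1 + t) := by (clear * - hkd hy0 hy1; positivity)
    have hh01 : 0 < (h1 : ℝ) - h0 := by linarith only [hx0, hx1]
    have hk01 : 0 < (k1 : ℝ) - k0 := by linarith only [hy0, hy1]
    have hxe : ((h0 : ℝ) + h1 * s) / (hd * (1 + s)) = x := by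
      have h1s : 1 + s = (h1 - h0) / (h1 - hd * x) := by
        rw [hs]; field_simp; ring
      rw [h1s, hs]
      field_simp
      ring
    have hye : ((k0 : ℝ) + k1 * t) / (kd * (1 + t)) = y := by
      have h1s : 1 + t = (k1 - k0) / (k1 - kd * y) := by
        rw [ht]; field_simp; ring
      rw [h1s, ht]
      field_simp
      ring
    have eP := evr_boxP_eq (L := L) Int.toNat hlen hrow hZ0.ne' hW0.ne' hxe hye rfl rfl
    have eN := evr_boxP_eq (L := L) (fun c => (-c).toNat) hlen hrow hZ0.ne' hW0.ne' hxe hye rfl rfl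
    have eP' : evr s t P = _ := eP
    have eN' : evr s t N = _ := eN
    rw [eP', eN'] at hkey
    rw [ev2_eq]
    have hpos : 0 < ((kd : ℝ) * (1 + t)) ^ d2 * ((hd : ℝ) * (1 + s)) ^ d1 := by (clear * - hkd hy0 hy1 hhd hx0 hx1; positivity)
    have h2 : 0 < ((kd : ℝ) * (1 + t)) ^ d2 * ((hd : ℝ) * (1 + s)) ^ d1 *
        (evG y (L.map fun p => evG x ((posL p).map (Nat.cast : ℕ → ℝ)))
        - evG y (L.map fun p => evG x ((negL p).map (Nat.cast : ℕ → ℝ)))) := by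
      have : ∀ a b c : ℝ, a * b + 1 ≤ a * c → 0 < a * (c - b) := fun a b c h => by
        rw [mul_sub]; linarith only [h]
      exact this _ _ _ hkey
    exact (mul_pos_iff_of_pos_left hpos).mp h2

end BoxPos
end P100
end

section

/-!
# P237, all dimensions: joint bound for the transport and its slope

Concavity of `r` on both sides of `τ x` at once: for every number `κ` one of two bounds holds.
-/

open MeasureTheory Metric Set Module Filter Topology

namespace Vale.Agent.P237.AllN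

open Alm

/-- tangent line alternative, two-sided -/
theorem jt_alt (m : ℕ) {r : ℝ → ℝ} (hr : IsProf r) {y : ℝ} (hy : y ∈ Ioo (0 : ℝ) 1) (κ : ℝ) :
    (∫ t in (0 : ℝ)..y, r t ^ m) ≤ r y ^ m * (∫ t in (0 : ℝ)..y, (1 + κ * (y - t)) ^ m) ∨
    (∫ t in y..1, r t ^ m) ≤ r y ^ m * (∫ t in y..1, (1 - κ * (t - y)) ^ m) := by
  have h01 : (1 : ℝ) ∈ Icc (0 : ℝ) 1 := ⟨zero_le_one, le_rfl⟩
  have h00 : (0 : ℝ) ∈ Icc (0 : ℝ) 1 := ⟨le_rfl, zero_le_one⟩
  have hyI : y ∈ Icc (0 : ℝ) 1 := ⟨hy.1.le, hy.2.le⟩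
  have hR : 0 < r y := hr.pos y ⟨by linarith [hy.1], hy.2⟩
  have hsup : ∀ t ∈ Icc (0 : ℝ) 1, r t ≤ r y + rd r y * (t - y) := fun t ht => sl_super hr hy ht
  rcases le_total (-rd r y) (κ * r y) with h | h
  · left
    rw [← intervalIntegral.integral_const_mul]
    apply intervalIntegral.integral_mono_on hy.1.le (prof_pow_ii hr m h00 hyI)
      ((by fun_prop : Continuous fun t => r y ^ m * (1 + κ * (y - t)) ^ m).intervalIntegrable _ _)
    intro t ht
    have m2 : t ∈ Icc (0 : ℝ) 1 := ⟨ht.1, ht.2.trans hy.2.le⟩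
    rw [← mul_pow]
    refine pow_le_pow_left₀ (prof_nn hr m2) ((hsup t m2).trans ?_) m
    have := mul_le_mul_of_nonneg_right h (by linarith [ht.2] : 0 ≤ y - t)
    linarith
  · right
    rw [← intervalIntegral.integral_const_mul]
    apply intervalIntegral.integral_mono_on hy.2.le (prof_pow_ii hr m hyI h01)
      ((by fun_prop : Continuous fun t => r y ^ m * (1 - κ * (t - y)) ^ m).intervalIntegrable _ _)
    intro t ht
    have m2 : t ∈ Icc (0 : ℝ) 1 := ⟨hy.1.le.trans ht.1, ht.2⟩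
    rw [← mul_pow]
    refine pow_le_pow_left₀ (prof_nn hr m2) ((hsup t m2).trans ?_) m
    have := mul_le_mul_of_nonneg_right h (by linarith [ht.1] : 0 ≤ t - y)
    linarith

/-- **Joint bound.** -/
theorem IsTrans.joint {m : ℕ} {r τ τ' T : ℝ → ℝ} (hr : IsProf r) (h : IsTrans m r τ τ' T)
    {x : ℝ} (hx : x ∈ Ioo (0 : ℝ) 1) (κ : ℝ) :
    τ' x * (∫ t in (0 : ℝ)..x, sq t ^ m) ≤
      sq x ^ m * (∫ t in (0 : ℝ)..(τ x), (1 + κ * (τ x - t)) ^ m) ∨
    τ' x * (∫ t in x..1, sq t ^ m) ≤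
      sq x ^ m * (∫ t in (τ x)..1, (1 - κ * (t - τ x)) ^ m) := by
  have hτ := h.mem x hx
  have hZ := sl_V_pos m hr (y := 0) ⟨le_rfl, zero_lt_one⟩
  have hG := sl_q_pos m (x := 0) ⟨le_rfl, zero_lt_one⟩
  have h0 := h.mass x hx
  have h1 := h.sl_mass hr hx
  have h2 := h.eqn x hx
  have hp := h.pos x hx
  have hc : 0 ≤ τ' x * ∫ t in (0 : ℝ)..1, sq t ^ m := (mul_pos hp hG).le
  rcases jt_alt m hr hτ κ with h3 | h3
  · left
    have h4 := mul_le_mul_of_nonneg_left h3 hc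
    apply le_of_mul_le_mul_right _ hZ
    calc τ' x * (∫ t in (0 : ℝ)..x, sq t ^ m) * (∫ t in (0 : ℝ)..1, r t ^ m)
        = (τ' x * ∫ t in (0 : ℝ)..1, sq t ^ m) * ∫ t in (0 : ℝ)..(τ x), r t ^ m := by
          linear_combination (-(τ' x)) * h0
      _ ≤ _ := h4
      _ = _ := by linear_combination (∫ t in (0 : ℝ)..(τ x), (1 + κ * (τ x - t)) ^ m) * h2
  · right
    have h4 := mul_le_mul_of_nonneg_left h3 hc
    apply le_of_mul_le_mul_right _ hZ
    calc τ' x * (∫ t in x..1, sq t ^ m) * (∫ t in (0 : ℝ)..1, r t ^ m)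
        = (τ' x * ∫ t in (0 : ℝ)..1, sq t ^ m) * ∫ t in (τ x)..1, r t ^ m := by
          linear_combination (-(τ' x)) * h1
      _ ≤ _ := h4
      _ = _ := by linear_combination (∫ t in (τ x)..1, (1 - κ * (t - τ x)) ^ m) * h2

/-- `∫_0^x (1-t²)²` -/
theorem jt_int0 {x : ℝ} (hx : x ∈ Ioo (0 : ℝ) 1) :
    ∫ t in (0 : ℝ)..x, sq t ^ 4 = x * (15 - 10 * x ^ 2 + 3 * x ^ 4) / 15 := by
  have h1 : ∫ t in (0 : ℝ)..x, sq t ^ 4 = ∫ t in (0 : ℝ)..x, (1 - t ^ 2) ^ 2 := by
    apply intervalIntegral.integral_congr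
    intro t ht
    rw [uIcc_of_le hx.1.le] at ht
    simp only
    unfold sq
    have : 0 ≤ 1 - t ^ 2 := by nlinarith [ht.1, ht.2, hx.2]
    rw [show (4 : ℕ) = 2 * 2 by norm_num, pow_mul, Real.sq_sqrt this]
  have h2 : ∫ t in (0 : ℝ)..x, (1 - t ^ 2) ^ 2 =
      x * (15 - 10 * x ^ 2 + 3 * x ^ 4) / 15 - 0 * (15 - 10 * 0 ^ 2 + 3 * 0 ^ 4) / 15 := by
    apply intervalIntegral.integral_eq_sub_of_hasDerivAt
      (f := fun t : ℝ => t * (15 - 10 * t ^ 2 + 3 * t ^ 4) / 15)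
    · intro t _
      have h3 : HasDerivAt (fun t : ℝ => t * (15 - 10 * t ^ 2 + 3 * t ^ 4) / 15)
          ((1 * (15 - 10 * t ^ 2 + 3 * t ^ 4) + t * (-(10 * (2 * t)) + 3 * (4 * t ^ 3))) / 15) t := by
        have a1 : HasDerivAt (fun t : ℝ => t ^ 2) (2 * t) t := by simpa using hasDerivAt_pow 2 t
        have a2 : HasDerivAt (fun t : ℝ => t ^ 4) (4 * t ^ 3) t := by simpa using hasDerivAt_pow 4 t
        have a3 := ((a1.const_mul 10).const_sub 15).add (a2.const_mul 3)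
        exact ((hasDerivAt_id t).mul a3).div_const 15
      refine h3.congr_deriv ?_
      ring
    · exact (by fun_prop : Continuous fun t : ℝ => (1 - t ^ 2) ^ 2).intervalIntegrable _ _
  rw [h1, h2]
  ring

/-- `∫_x^1 (1-t²)²` -/
theorem jt_int1 {x : ℝ} (hx : x ∈ Ioo (0 : ℝ) 1) :
    ∫ t in x..1, sq t ^ 4 = (1 - x) ^ 3 * (8 + 9 * x + 3 * x ^ 2) / 15 := by
  have h1 : ∫ t in x..1, sq t ^ 4 = ∫ t in x..1, (1 - t ^ 2) ^ 2 := by
    apply intervalIntegral.integral_congr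
    intro t ht
    rw [uIcc_of_le hx.2.le] at ht
    simp only
    unfold sq
    have : 0 ≤ 1 - t ^ 2 := by nlinarith [ht.1, ht.2, hx.1]
    rw [show (4 : ℕ) = 2 * 2 by norm_num, pow_mul, Real.sq_sqrt this]
  have h2 : ∫ t in x..1, (1 - t ^ 2) ^ 2 =
      1 * (15 - 10 * 1 ^ 2 + 3 * 1 ^ 4) / 15 - x * (15 - 10 * x ^ 2 + 3 * x ^ 4) / 15 := by
    apply intervalIntegral.integral_eq_sub_of_hasDerivAt
      (f := fun t : ℝ => t * (15 - 10 * t ^ 2 + 3 * t ^ 4) / 15)
    · intro t _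
      have h3 : HasDerivAt (fun t : ℝ => t * (15 - 10 * t ^ 2 + 3 * t ^ 4) / 15)
          ((1 * (15 - 10 * t ^ 2 + 3 * t ^ 4) + t * (-(10 * (2 * t)) + 3 * (4 * t ^ 3))) / 15) t := by
        have a1 : HasDerivAt (fun t : ℝ => t ^ 2) (2 * t) t := by simpa using hasDerivAt_pow 2 t
        have a2 : HasDerivAt (fun t : ℝ => t ^ 4) (4 * t ^ 3) t := by simpa using hasDerivAt_pow 4 t
        have a3 := ((a1.const_mul 10).const_sub 15).add (a2.const_mul 3)
        exact ((hasDerivAt_id t).mul a3).div_const 15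
      refine h3.congr_deriv ?_
      ring
    · exact (by fun_prop : Continuous fun t : ℝ => (1 - t ^ 2) ^ 2).intervalIntegrable _ _
  rw [h1, h2]
  ring

theorem jt_lin0 (κ y : ℝ) : ∫ t in (0 : ℝ)..y, (1 + κ * (y - t)) ^ 4 =
    y * (5 + 10 * (κ * y) + 10 * (κ * y) ^ 2 + 5 * (κ * y) ^ 3 + (κ * y) ^ 4) / 5 := by
  have h2 : ∫ t in (0 : ℝ)..y, (1 + κ * (y - t)) ^ 4 =
      (-((y - y) * (5 + 10 * (κ * (y - y)) + 10 * (κ * (y - y)) ^ 2 + 5 * (κ * (y - y)) ^ 3 +
        (κ * (y - y)) ^ 4) / 5)) -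
      (-((y - 0) * (5 + 10 * (κ * (y - 0)) + 10 * (κ * (y - 0)) ^ 2 + 5 * (κ * (y - 0)) ^ 3 +
        (κ * (y - 0)) ^ 4) / 5)) := by
    apply intervalIntegral.integral_eq_sub_of_hasDerivAt
      (f := fun t : ℝ => -((y - t) * (5 + 10 * (κ * (y - t)) + 10 * (κ * (y - t)) ^ 2 +
        5 * (κ * (y - t)) ^ 3 + (κ * (y - t)) ^ 4) / 5))
    · intro t _
      have b0 : HasDerivAt (fun t : ℝ => y - t) (-1) t := by
        simpa using (hasDerivAt_id t).const_sub y
      have b1 : HasDerivAt (fun t : ℝ => κ * (y - t)) (κ * -1) t := b0.const_mul κ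
      have b2 := b1.pow 2
      have b3 := b1.pow 3
      have b4 := b1.pow 4
      have b5 := ((((b1.const_mul 10).const_add 5).add (b2.const_mul 10)).add (b3.const_mul 5)).add b4
      have b6 := ((b0.mul b5).div_const 5).neg
      refine HasDerivAt.congr_deriv b6 ?_
      push_cast
      simp only [Pi.add_apply, Pi.pow_apply]
      ring
    · exact (by fun_prop : Continuous fun t : ℝ => (1 + κ * (y - t)) ^ 4).intervalIntegrable _ _
  rw [h2]
  ring

theorem jt_lin1 (κ y : ℝ) : ∫ t in y..1, (1 - κ * (t - y)) ^ 4 =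
    (1 - y) * (5 - 10 * (κ * (1 - y)) + 10 * (κ * (1 - y)) ^ 2 - 5 * (κ * (1 - y)) ^ 3 +
      (κ * (1 - y)) ^ 4) / 5 := by
  have h2 : ∫ t in y..1, (1 - κ * (t - y)) ^ 4 =
      ((1 - y) * (5 + 10 * (-κ * (1 - y)) + 10 * (-κ * (1 - y)) ^ 2 + 5 * (-κ * (1 - y)) ^ 3 +
        (-κ * (1 - y)) ^ 4) / 5) -
      ((y - y) * (5 + 10 * (-κ * (y - y)) + 10 * (-κ * (y - y)) ^ 2 + 5 * (-κ * (y - y)) ^ 3 +
        (-κ * (y - y)) ^ 4) / 5) := by
    apply intervalIntegral.integral_eq_sub_of_hasDerivAt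
      (f := fun t : ℝ => ((t - y) * (5 + 10 * (-κ * (t - y)) + 10 * (-κ * (t - y)) ^ 2 +
        5 * (-κ * (t - y)) ^ 3 + (-κ * (t - y)) ^ 4) / 5))
    · intro t _
      have b0 : HasDerivAt (fun t : ℝ => t - y) 1 t := by
        simpa using (hasDerivAt_id t).sub_const y
      have b1 : HasDerivAt (fun t : ℝ => -κ * (t - y)) (-κ * 1) t := b0.const_mul (-κ)
      have b2 := b1.pow 2
      have b3 := b1.pow 3
      have b4 := b1.pow 4
      have b5 := ((((b1.const_mul 10).const_add 5).add (b2.const_mul 10)).add (b3.const_mul 5)).add b4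
      have b6 := ((b0.mul b5).div_const 5)
      refine HasDerivAt.congr_deriv b6 ?_
      push_cast
      simp only [Pi.add_apply, Pi.pow_apply]
      ring
    · exact (by fun_prop : Continuous fun t : ℝ => (1 - κ * (t - y)) ^ 4).intervalIntegrable _ _
  rw [h2]
  ring

/-- **Joint bound for `m = 4`**, `E = 1 + u = x τ'/τ`; `v = κ τ`, `w = κ (1-τ)`. -/
theorem IsTrans.joint4 {r τ τ' T : ℝ → ℝ} (hr : IsProf r) (h : IsTrans 4 r τ τ' T)
    {x : ℝ} (hx : x ∈ Ioo (0 : ℝ) 1) (κ : ℝ) {E : ℝ} (hE : E * τ x = x * τ' x) :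
    E * (15 - 10 * x ^ 2 + 3 * x ^ 4) ≤ 3 * (1 - x ^ 2) ^ 2 *
      (5 + 10 * (κ * τ x) + 10 * (κ * τ x) ^ 2 + 5 * (κ * τ x) ^ 3 + (κ * τ x) ^ 4) ∨
    E * τ x * ((1 - x) * (8 + 9 * x + 3 * x ^ 2)) ≤ 3 * x * (1 + x) ^ 2 * ((1 - τ x) *
      (5 - 10 * (κ * (1 - τ x)) + 10 * (κ * (1 - τ x)) ^ 2 - 5 * (κ * (1 - τ x)) ^ 3 +
        (κ * (1 - τ x)) ^ 4)) := by
  have hτ := h.mem x hx
  have hx0 := hx.1
  have hx1 : 0 < 1 - x := by linarith [hx.2]
  have hs : sq x ^ 4 = (1 - x ^ 2) ^ 2 := by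
    unfold sq
    have : 0 ≤ 1 - x ^ 2 := by (by_contra nlg; linarith only [nlg, mul_pos (sub_pos.2 hx.2) (sub_pos.2 hx.2), mul_pos (sub_pos.2 hx.1) (sub_pos.2 hx.2), mul_pos (sub_pos.2 (not_le.1 nlg)) (sub_pos.2 hx.2), mul_pos (sub_pos.2 (not_le.1 nlg)) (sub_pos.2 hx.1)])
    rw [show (4 : ℕ) = 2 * 2 by norm_num, pow_mul, Real.sq_sqrt this]
  rcases h.joint hr hx κ with h1 | h1
  · left
    rw [jt_int0 hx, jt_lin0, hs] at h1
    have h2 : τ x * (E * (15 - 10 * x ^ 2 + 3 * x ^ 4)) ≤ τ x * (3 * (1 - x ^ 2) ^ 2 *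
      (5 + 10 * (κ * τ x) + 10 * (κ * τ x) ^ 2 + 5 * (κ * τ x) ^ 3 + (κ * τ x) ^ 4)) := by
      calc τ x * (E * (15 - 10 * x ^ 2 + 3 * x ^ 4))
          = 15 * (τ' x * (x * (15 - 10 * x ^ 2 + 3 * x ^ 4) / 15)) := by
            linear_combination (15 - 10 * x ^ 2 + 3 * x ^ 4) * hE
        _ ≤ _ := mul_le_mul_of_nonneg_left h1 (by norm_num)
        _ = _ := by ring
    exact le_of_mul_le_mul_left h2 hτ.1
  · right
    rw [jt_int1 hx, jt_lin1, hs] at h1
    have hc : 0 < (1 - x) ^ 2 := by positivity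
    have h2 : (1 - x) ^ 2 * (E * τ x * ((1 - x) * (8 + 9 * x + 3 * x ^ 2))) ≤
        (1 - x) ^ 2 * (3 * x * (1 + x) ^ 2 * ((1 - τ x) *
      (5 - 10 * (κ * (1 - τ x)) + 10 * (κ * (1 - τ x)) ^ 2 - 5 * (κ * (1 - τ x)) ^ 3 +
        (κ * (1 - τ x)) ^ 4))) := by
      calc (1 - x) ^ 2 * (E * τ x * ((1 - x) * (8 + 9 * x + 3 * x ^ 2)))
          = (15 * x) * (τ' x * ((1 - x) ^ 3 * (8 + 9 * x + 3 * x ^ 2) / 15)) := by
            linear_combination (1 - x) ^ 3 * (8 + 9 * x + 3 * x ^ 2) * hE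
        _ ≤ _ := mul_le_mul_of_nonneg_left h1 (by positivity)
        _ = _ := by ring
    exact le_of_mul_le_mul_left h2 hc

end Vale.Agent.P237.AllN
end

section

/-!
# P237, `m = 4`: joint line, kernel-checked
-/

open MeasureTheory Metric Set Module Filter Topology

namespace Vale.Agent.P237.AllN.M4

open PolyPos

/-- core of the joint line -/
theorem jl_core {r τ τ' T : ℝ → ℝ} (hr : IsProf r) (h : IsTrans 4 r τ τ' T)
    {x : ℝ} (hx : x ∈ Ioo (0 : ℝ) 1) {E ρ w k El om : ℝ} (hE : E * τ x = x * τ' x)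
    (hρ : τ x = x * ρ) (hom : om = 1 - τ x) (hk : 0 < k)
    (hA : 3 * k * (1 - x ^ 2) ^ 2 * (5 * om ^ 4 + 10 * (w * τ x) * om ^ 3 +
      10 * (w * τ x) ^ 2 * om ^ 2 + 5 * (w * τ x) ^ 3 * om + (w * τ x) ^ 4) ≤
      (15 - 10 * x ^ 2 + 3 * x ^ 4) * El * om ^ 4)
    (hB : 3 * k * (1 + x) ^ 2 * (om * (5 - 10 * w + 10 * w ^ 2 - 5 * w ^ 3 + w ^ 4)) ≤
      El * ρ * ((1 - x) * (8 + 9 * x + 3 * x ^ 2))) : k * E ≤ El := by
  have hτ := h.mem x hx
  have hx0 := hx.1
  have hx1 : 0 < 1 - x := by linarith [hx.2]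
  have hom0 : 0 < om := by rw [hom]; linarith only [hτ.2]
  have hρ0 : 0 < ρ := by
    have : 0 < x * ρ := by rw [← hρ]; exact hτ.1
    exact (mul_pos_iff_of_pos_left hx0).1 this
  rcases h.joint4 hr hx (w / om) hE with h1 | h1
  · have e1 : w / om * τ x = (w * τ x) / om := by ring
    rw [e1] at h1
    have h2 := mul_le_mul_of_nonneg_left h1 (by positivity : 0 ≤ k * om ^ 4)
    have e2 : k * om ^ 4 * (3 * (1 - x ^ 2) ^ 2 * (5 + 10 * (w * τ x / om) +
        10 * (w * τ x / om) ^ 2 + 5 * (w * τ x / om) ^ 3 + (w * τ x / om) ^ 4)) =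
        3 * k * (1 - x ^ 2) ^ 2 * (5 * om ^ 4 + 10 * (w * τ x) * om ^ 3 +
      10 * (w * τ x) ^ 2 * om ^ 2 + 5 * (w * τ x) ^ 3 * om + (w * τ x) ^ 4) := by
      (clear * - hom0 hk; field_simp)
    rw [e2] at h2
    have h3 := h2.trans hA
    have h4 : 0 < (15 - 10 * x ^ 2 + 3 * x ^ 4) * om ^ 4 := by
      have : 0 < 15 - 10 * x ^ 2 + 3 * x ^ 4 := by nlinarith only [hx0, hx1]
      (clear * - this hom0; positivity)
    have h5 : (15 - 10 * x ^ 2 + 3 * x ^ 4) * om ^ 4 * (k * E) ≤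
        (15 - 10 * x ^ 2 + 3 * x ^ 4) * om ^ 4 * El := by linarith only [hA, h2]
    exact le_of_mul_le_mul_left h5 h4
  · have e1 : w / om * (1 - τ x) = w := by rw [← hom]; (clear * - hom0; field_simp)
    rw [e1, ← hom, hρ] at h1
    have h2 : x * (E * ρ * ((1 - x) * (8 + 9 * x + 3 * x ^ 2))) ≤
        x * (3 * (1 + x) ^ 2 * (om * (5 - 10 * w + 10 * w ^ 2 - 5 * w ^ 3 + w ^ 4))) := by
      linarith only [h1]
    have h3 := le_of_mul_le_mul_left h2 hx0
    have h4 := mul_le_mul_of_nonneg_left h3 hk.le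
    have h5 : 0 < ρ * ((1 - x) * (8 + 9 * x + 3 * x ^ 2)) := by (clear * - hρ0 hx1 hx0; positivity)
    have h6 : ρ * ((1 - x) * (8 + 9 * x + 3 * x ^ 2)) * (k * E) ≤
        ρ * ((1 - x) * (8 + 9 * x + 3 * x ^ 2)) * El := by linarith only [hB, h4]
    exact le_of_mul_le_mul_left h6 h5

/-! ### the polynomials -/

/-- integer constants -/
def en (n : ℤ) : Ex := Ex.c ⟨n, 0⟩

def jz : Ex := Ex.X * Ex.X
def jt : Ex := en 1 - jz
def jρ : Ex := en 1 + jt * Ex.Y
def jτ : Ex := Ex.X * jρ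
def jom : Ex := en 1 - jτ
def jsq (a : Ex) : Ex := a * a
/-- `15 - 10 x² + 3 x⁴` -/
def jP : Ex := en 15 - en 10 * jz + en 3 * (jz * jz)
/-- `(1-x)(8+9x+3x²)` -/
def jQ : Ex := (en 1 - Ex.X) * (en 8 + en 9 * Ex.X + en 3 * jz)

/-- inequality (A) -/
def jA (El k W : Ex) : Ex :=
  jP * (El * jsq (jsq jom)) -
    en 3 * (k * ((jt * jt) * (en 5 * jsq (jsq jom) + en 10 * ((W * jτ) * (jom * jsq jom)) +
      en 10 * (jsq (W * jτ) * jsq jom) + en 5 * ((W * jτ) * jsq (W * jτ) * jom) +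
      jsq (jsq (W * jτ)))))

/-- inequality (B) -/
def jB (El k W : Ex) : Ex :=
  El * (jρ * jQ) - en 3 * (k * (jsq (en 1 + Ex.X) * (jom *
    (en 5 - en 10 * W + en 10 * jsq W - en 5 * (W * jsq W) + jsq (jsq W)))))

/-- inequality (A) for `w = 0`, without the factor `(1-τ)⁴` -/
def jA0 (El k : Ex) : Ex := jP * El - en 15 * (k * (jt * jt))

theorem en_R (n : ℤ) (x y : ℝ) : (en n).R x y = n := by
  simp only [en, Ex.R, Fr.R, CharP.cast_eq_zero, zero_add, div_one]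

section
variable (x y : ℝ)

theorem ev_jz : jz.R x y = x ^ 2 := by rw [jz, Ex.R_mul, Ex.R_X]; ring
theorem ev_jt : jt.R x y = 1 - x ^ 2 := by rw [jt, Ex.R_sub, en_R, ev_jz]; push_cast; ring
theorem ev_jρ : jρ.R x y = 1 + (1 - x ^ 2) * y := by
  rw [jρ, Ex.R_add, en_R, Ex.R_mul, ev_jt, Ex.R_Y]; push_cast; ring
theorem ev_jτ : jτ.R x y = x * (1 + (1 - x ^ 2) * y) := by rw [jτ, Ex.R_mul, Ex.R_X, ev_jρ]
theorem ev_jom : jom.R x y = 1 - x * (1 + (1 - x ^ 2) * y) := by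
  rw [jom, Ex.R_sub, en_R, ev_jτ]; push_cast; ring
theorem ev_jsq (a : Ex) : (jsq a).R x y = a.R x y ^ 2 := by rw [jsq, Ex.R_mul]; ring
theorem ev_jP : jP.R x y = 15 - 10 * x ^ 2 + 3 * x ^ 4 := by
  simp only [jP, Ex.R_add, Ex.R_sub, Ex.R_mul, en_R, ev_jz]; push_cast; ring
theorem ev_jQ : jQ.R x y = (1 - x) * (8 + 9 * x + 3 * x ^ 2) := by
  simp only [jQ, Ex.R_add, Ex.R_sub, Ex.R_mul, en_R, ev_jz, Ex.R_X]; push_cast; ring

end

/-- conclusion from the polynomials -/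
theorem jl_poly {r τ τ' T : ℝ → ℝ} (hr : IsProf r) (h : IsTrans 4 r τ τ' T)
    {x : ℝ} (hx : x ∈ Ioo (0 : ℝ) 1) {E y : ℝ} (hE : E * τ x = x * τ' x)
    (hρ : τ x = x * (1 + (1 - x ^ 2) * y)) {El k W : Ex} (hk : 0 < k.R x y)
    (hA : 0 ≤ (jA El k W).R x y) (hB : 0 ≤ (jB El k W).R x y) :
    k.R x y * E ≤ El.R x y := by
  simp only [jA, Ex.R_sub, Ex.R_add, Ex.R_mul, ev_jsq, ev_jτ, ev_jom, ev_jt, ev_jP, en_R,
    ← hρ] at hA
  simp only [jB, Ex.R_sub, Ex.R_add, Ex.R_mul, ev_jsq, ev_jom, ev_jρ, ev_jQ, en_R,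
    Ex.R_X, ← hρ] at hB
  push_cast at hA hB
  refine jl_core hr h hx hE hρ rfl hk (w := W.R x y) ?_ ?_
  · refine sub_nonneg.1 (hA.trans (le_of_eq ?_))
    ring
  · refine sub_nonneg.1 (hB.trans (le_of_eq ?_))
    ring

/-- conclusion from the polynomials, `w = 0` -/
theorem jl_poly0 {r τ τ' T : ℝ → ℝ} (hr : IsProf r) (h : IsTrans 4 r τ τ' T)
    {x : ℝ} (hx : x ∈ Ioo (0 : ℝ) 1) {E y : ℝ} (hE : E * τ x = x * τ' x)
    (hρ : τ x = x * (1 + (1 - x ^ 2) * y)) {El k : Ex} (hk : 0 < k.R x y)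
    (hA : 0 ≤ (jA0 El k).R x y) (hB : 0 ≤ (jB El k (en 0)).R x y) :
    k.R x y * E ≤ El.R x y := by
  simp only [jA0, Ex.R_sub, Ex.R_mul, ev_jt, ev_jP, en_R] at hA
  simp only [jB, Ex.R_sub, Ex.R_add, Ex.R_mul, ev_jsq, ev_jom, ev_jρ, ev_jQ, en_R,
    Ex.R_X, ← hρ] at hB
  push_cast at hA hB
  refine jl_core hr h hx hE hρ rfl hk (w := 0) ?_ ?_
  · have := mul_nonneg hA (by (clear * -; positivity) : 0 ≤ (1 - τ x) ^ 4)
    refine sub_nonneg.1 (this.trans (le_of_eq ?_))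
    ring
  · refine sub_nonneg.1 (hB.trans (le_of_eq ?_))
    ring

/-! ### left -/

/-- `k` -/
def jkL : Ex := Ex.c ⟨18, 4⟩ - Ex.c ⟨107, 9⟩ * jz + Ex.c ⟨46, 4⟩ * (jz * jz)
/-- `k + j - t y` -/
def jEL : Ex := jkL + (Ex.c ⟨18, 24⟩ - Ex.c ⟨187, 199⟩ * jz) - jt * Ex.Y
/-- `w` -/
def jWL : Ex := Ex.c ⟨1, 499⟩ * (en 191 - en 319 * Ex.Y + en 175 * (Ex.Y * Ex.Y) -
  en 40 * Ex.X - en 40 * (Ex.X * Ex.Y))

/-! ### right -/

/-- `k` -/
def jkR : Ex := jt * (Ex.c ⟨15, 99⟩ + Ex.c ⟨3, 1⟩ * jt)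
/-- `k + j - t y` -/
def jER : Ex := jkR + jt * (Ex.c ⟨34, 99⟩ + Ex.c ⟨31, 99⟩ * jt) - jt * Ex.Y
/-- `w` -/
def jWR : Ex := Ex.c ⟨1, 99⟩ * (en 17 + en 62 * Ex.X - en 60 * jz -
  (en 40 + en 50 * Ex.X - en 40 * jz) * Ex.Y)

def jbs : ℕ := 2 ^ 512

theorem jL_low : tchkE jbs 14 4000 [[jA jEL jkL jWL, jB jEL jkL jWL]] (en 0) (.leaf 0)
    57 100 150 (-26) 0 100 = true := by (clear * -; decide +kernel)

theorem jL_high : tchkE jbs 14 4000 [[jA jEL jkL jWL, jB jEL jkL jWL]] (en 0)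
    (.sx (.sy (.leaf 0) (.leaf 0)) (.sy (.leaf 0) (.leaf 0)))
    57 100 150 0 83 100 = true := by (clear * -; decide +kernel)

theorem jR_low : tchkE jbs 14 4000 [[jA jER jkR jWR, jB jER jkR jWR],
    [jA0 jER jkR, jB jER jkR (en 0)]] (en 0)
    (.leaf 0) 20 27 30 (-29) 0 100 = true := by (clear * -; decide +kernel)

theorem jR_high : tchkE jbs 14 4000 [[jA jER jkR jWR, jB jER jkR jWR],
    [jA0 jER jkR, jB jER jkR (en 0)]] (en 0)
    (.sx (.sy (.leaf 0) (.sx (.leaf 0) (.sy (.leaf 0) (.leaf 1)))) (.sy (.leaf 0) (.sx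
      (.sy (.leaf 0) (.leaf 1)) (.sy (.sx (.leaf 0) (.sy (.leaf 0) (.leaf 1))) (.leaf 1)))))
    20 27 30 0 71 100 = true := by (clear * -; decide +kernel)

end Vale.Agent.P237.AllN.M4
end

section

/-!
# P237: the numerical inputs (h4), (h7) of the pointwise inequality, `m = 5, ..., 14`
-/

open MeasureTheory Set Finset

namespace Vale.Agent.P237.AllN

open Alm

theorem pin_am_two : Slope.am 2 = 2 / 3 := by
  have h := pin_am_rec 0
  rw [pin_am_zero] at h
  norm_num at h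
  rw [h]

theorem pin_am_three : Slope.am 3 = 3 / 16 * Real.pi := by
  have h := pin_am_rec 1
  rw [pin_am_one] at h
  norm_num at h
  rw [h]
  ring

theorem pin_am_four : Slope.am 4 = 8 / 15 := by
  have h := pin_am_rec 2
  rw [pin_am_two] at h
  norm_num at h
  rw [h]

theorem pin_am_five : Slope.am 5 = 5 / 32 * Real.pi := by
  have h := pin_am_rec 3
  rw [pin_am_three] at h
  norm_num at h
  rw [h]
  ring

theorem pin_am_six : Slope.am 6 = 16 / 35 := by
  have h := pin_am_rec 4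
  rw [pin_am_four] at h
  norm_num at h
  rw [h]

theorem pin_am_seven : Slope.am 7 = 35 / 256 * Real.pi := by
  have h := pin_am_rec 5
  rw [pin_am_five] at h
  norm_num at h
  rw [h]
  ring

theorem pin_am_eight : Slope.am 8 = 128 / 315 := by
  have h := pin_am_rec 6
  rw [pin_am_six] at h
  norm_num at h
  rw [h]

theorem pin_am_nine : Slope.am 9 = 63 / 512 * Real.pi := by
  have h := pin_am_rec 7
  rw [pin_am_seven] at h
  norm_num at h
  rw [h]
  ring

theorem pin_am_ten : Slope.am 10 = 256 / 693 := by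
  have h := pin_am_rec 8
  rw [pin_am_eight] at h
  norm_num at h
  rw [h]

theorem pin_am_eleven : Slope.am 11 = 231 / 2048 * Real.pi := by
  have h := pin_am_rec 9
  rw [pin_am_nine] at h
  norm_num at h
  rw [h]
  ring

theorem pin_am_twelve : Slope.am 12 = 1024 / 3003 := by
  have h := pin_am_rec 10
  rw [pin_am_ten] at h
  norm_num at h
  rw [h]

theorem pin_am_thirteen : Slope.am 13 = 429 / 4096 * Real.pi := by
  have h := pin_am_rec 11
  rw [pin_am_eleven] at h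
  norm_num at h
  rw [h]
  ring

theorem pin_am_fourteen : Slope.am 14 = 2048 / 6435 := by
  have h := pin_am_rec 12
  rw [pin_am_twelve] at h
  norm_num at h
  rw [h]

theorem pin_div_pi {a b : ℝ} (hb : 0 < b) (h : a / 3.141592 ≤ b) : a / Real.pi ≤ b := by
  have h1 := Real.pi_gt_d6
  rw [div_le_iff₀ (by norm_num)] at h
  rw [div_le_iff₀ (by linarith only [h1])]
  linarith only [mul_pos (sub_pos.2 hb) (sub_pos.2 h1), h]

section

variable {r τ τ' T : ℝ → ℝ} {x : ℝ}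

theorem IsTrans.pin_h4_of {m : ℕ} (hm : 3 ≤ m) (hr : IsProf r) (h : IsTrans m r τ τ' T)
    (hx : x ∈ Ioo (0 : ℝ) 1) {k : ℝ} (hk : (m : ℝ) ≤ k * (2 * ((m : ℝ) + 1) * Slope.am m)) :
    uf τ τ' x * sq x ≤ k * x := by
  have h1 := h.pin_h4 hm hr hx
  have hA := Slope.am_pos m
  have h2 : (m : ℝ) / (2 * ((m : ℝ) + 1) * Slope.am m) ≤ k := by
    rw [div_le_iff₀ (by positivity)]
    exact hk
  exact h1.trans (mul_le_mul_of_nonneg_right h2 hx.1.le)

/-- **(h4)** for `m = 5` -/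
theorem IsTrans.pin_h4_five (hr : IsProf r) (h : IsTrans 5 r τ τ' T)
    (hx : x ∈ Ioo (0 : ℝ) 1) : uf τ τ' x * sq x ≤ 8489 / 10000 * x := by
  refine h.pin_h4_of (by norm_num) hr hx ?_
  rw [pin_am_five]
  have h1 := Real.pi_gt_d6
  push_cast
  linarith only [h1]

/-- **(h4)** for `m = 6` -/
theorem IsTrans.pin_h4_six (hr : IsProf r) (h : IsTrans 6 r τ τ' T)
    (hx : x ∈ Ioo (0 : ℝ) 1) : uf τ τ' x * sq x ≤ 15 / 16 * x := by
  refine h.pin_h4_of (by norm_num) hr hx ?_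
  rw [pin_am_six]
  norm_num

/-- **(h4)** for `m = 7` -/
theorem IsTrans.pin_h4_seven (hr : IsProf r) (h : IsTrans 7 r τ τ' T)
    (hx : x ∈ Ioo (0 : ℝ) 1) : uf τ τ' x * sq x ≤ 5093 / 5000 * x := by
  refine h.pin_h4_of (by norm_num) hr hx ?_
  rw [pin_am_seven]
  have h1 := Real.pi_gt_d6
  push_cast
  linarith

/-- **(h4)** for `m = 8` -/
theorem IsTrans.pin_h4_eight (hr : IsProf r) (h : IsTrans 8 r τ τ' T)
    (hx : x ∈ Ioo (0 : ℝ) 1) : uf τ τ' x * sq x ≤ 35 / 32 * x := by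
  refine h.pin_h4_of (by norm_num) hr hx ?_
  rw [pin_am_eight]
  norm_num

/-- **(h4)** for `m = 9` -/
theorem IsTrans.pin_h4_nine (hr : IsProf r) (h : IsTrans 9 r τ τ' T)
    (hx : x ∈ Ioo (0 : ℝ) 1) : uf τ τ' x * sq x ≤ 5821 / 5000 * x := by
  refine h.pin_h4_of (by norm_num) hr hx ?_
  rw [pin_am_nine]
  have h1 := Real.pi_gt_d6
  push_cast
  linarith

/-- **(h4)** for `m = 10` -/
theorem IsTrans.pin_h4_ten (hr : IsProf r) (h : IsTrans 10 r τ τ' T)
    (hx : x ∈ Ioo (0 : ℝ) 1) : uf τ τ' x * sq x ≤ 315 / 256 * x := by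
  refine h.pin_h4_of (by norm_num) hr hx ?_
  rw [pin_am_ten]
  norm_num

/-- **(h4)** for `m = 11` -/
theorem IsTrans.pin_h4_eleven (hr : IsProf r) (h : IsTrans 11 r τ τ' T)
    (hx : x ∈ Ioo (0 : ℝ) 1) : uf τ τ' x * sq x ≤ 2587 / 2000 * x := by
  refine h.pin_h4_of (by norm_num) hr hx ?_
  rw [pin_am_eleven]
  have h1 := Real.pi_gt_d6
  push_cast
  linarith only [h1]

/-- **(h4)** for `m = 12` -/
theorem IsTrans.pin_h4_twelve (hr : IsProf r) (h : IsTrans 12 r τ τ' T)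
    (hx : x ∈ Ioo (0 : ℝ) 1) : uf τ τ' x * sq x ≤ 693 / 512 * x := by
  refine h.pin_h4_of (by norm_num) hr hx ?_
  rw [pin_am_twelve]
  norm_num

/-- **(h4)** for `m = 13` -/
theorem IsTrans.pin_h4_thirteen (hr : IsProf r) (h : IsTrans 13 r τ τ' T)
    (hx : x ∈ Ioo (0 : ℝ) 1) : uf τ τ' x * sq x ≤ 14111 / 10000 * x := by
  refine h.pin_h4_of (by norm_num) hr hx ?_
  rw [pin_am_thirteen]
  have h1 := Real.pi_gt_d6
  push_cast
  linarith

/-- **(h4)** for `m = 14` -/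
theorem IsTrans.pin_h4_fourteen (hr : IsProf r) (h : IsTrans 14 r τ τ' T)
    (hx : x ∈ Ioo (0 : ℝ) 1) : uf τ τ' x * sq x ≤ 3003 / 2048 * x := by
  refine h.pin_h4_of (by norm_num) hr hx ?_
  rw [pin_am_fourteen]
  norm_num

theorem pin_sq_ge_poly {t : ℝ} (ht : t ∈ Icc (0 : ℝ) 1) :
    (1 - t ^ 2) * (1 + t ^ 2 / 2 + 3 * (t ^ 2) ^ 2 / 8 + 5 * (t ^ 2) ^ 3 / 16) ≤ sq t := by
  have e1 := pin_sq_sq ht
  have hs := sl_sq_nonneg t
  have hz : t ^ 2 ≤ 1 := by nlinarith only [e1]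
  have hz0 : 0 ≤ t ^ 2 := sq_nonneg t
  rw [← e1]
  set z := t ^ 2 with hzd
  set g := 1 + z / 2 + 3 * z ^ 2 / 8 + 5 * z ^ 3 / 16 with hg
  have hg0 : 0 ≤ g := by (clear * -; positivity)
  have h1 : (sq t * g) ^ 2 ≤ 1 := by
    rw [mul_pow, e1, hg]
    linarith only [mul_nonneg (sub_nonneg.2 hz0) (sub_nonneg.2 (pow_nonneg hz0 5)), mul_nonneg (sq_nonneg (1 * z : ℝ)) (sub_nonneg.2 (pow_nonneg hz0 5)), mul_nonneg (sq_nonneg (1 * z : ℝ)) (sq_nonneg (1 * z : ℝ)), mul_nonneg (mul_self_nonneg (1 : ℝ)) (sub_nonneg.2 (pow_nonneg hz0 5))]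
  have h2 : sq t * g ≤ 1 := by
    rw [← one_pow 2] at h1
    exact le_of_sq_le_sq h1 zero_le_one
  linarith only [mul_nonneg (sub_nonneg.2 hs) (sub_nonneg.2 h2)]

/-- **(h7)** for `m = 5` -/
theorem IsTrans.pin_h7_five (hr : IsProf r) (h : IsTrans 5 r τ τ' T)
    (hx : x ∈ Ioo (0 : ℝ) 1) (hz : x ^ 2 = 3 / 7) : -(2843 / 5000) ≤ lf τ x := by
  have h1 := pin_P_ge (m := 5) (x := x) 7 (fun i => ([1, -5 / 2, 15 / 8, -5 / 16, -5 / 16, 9 / 16, -5 / 16] : List ℝ).getD i 0)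
    hx.1.le (by
      intro t ht
      have ht' : t ∈ Icc (0 : ℝ) 1 := ⟨ht.1, ht.2.trans hx.2.le⟩
      have e1 := pin_sq_sq ht'
      have e2 := pin_sq_ge_poly ht'
      have e3 : sq t ^ 5 = (1 - t ^ 2) ^ 2 * sq t := by rw [← e1]; ring
      rw [e3]
      have e5 : 0 ≤ 1 - t ^ 2 := by rw [← e1]; (clear * -; positivity)
      refine le_trans (le_of_eq ?_) (mul_le_mul_of_nonneg_left e2 (pow_nonneg e5 2))
      simp only [Finset.sum_range_succ, Finset.sum_range_zero, List.getD_cons_zero,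
        List.getD_cons_succ]
      ring)
  rw [hz] at h1
  simp only [Finset.sum_range_succ, Finset.sum_range_zero, List.getD_cons_zero,
    List.getD_cons_succ] at h1
  norm_num at h1
  have h2 : 3273 / 5000 ≤ x := by nlinarith only [hz, hx.1]
  have h3 : x ≤ 6547 / 10000 := by nlinarith only [hz]
  refine h.pin_ge_of hr hx (ρ := 31 / 50) (Q := 141 / 2500) (by norm_num) (by norm_num) ?_ ?_
  · rw [pin_am, pin_am_five]
    have h4 := Real.pi_lt_d6
    linarith only [h1, h2, h4]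
  · have h5 := pin_exp_ge (2843 / 5000) (by norm_num)
    norm_num at h5 ⊢
    linarith only [h3, h5]

/-- **(h7)** for `m = 6` -/
theorem IsTrans.pin_h7_six (hr : IsProf r) (h : IsTrans 6 r τ τ' T)
    (hx : x ∈ Ioo (0 : ℝ) 1) (hz : x ^ 2 = 3 / 8) : -(161 / 250) ≤ lf τ x := by
  have h1 := pin_P_ge (m := 6) (x := x) 4 (fun i => ([1, -3, 3, -1] : List ℝ).getD i 0)
    hx.1.le (by
      intro t ht
      have ht' : t ∈ Icc (0 : ℝ) 1 := ⟨ht.1, ht.2.trans hx.2.le⟩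
      have e1 := pin_sq_sq ht'
      have e3 : sq t ^ 6 = (1 - t ^ 2) ^ 3 := by rw [← e1]; ring
      rw [e3]
      apply le_of_eq
      simp only [Finset.sum_range_succ, Finset.sum_range_zero, List.getD_cons_zero,
        List.getD_cons_succ]
      ring)
  rw [hz] at h1
  simp only [Finset.sum_range_succ, Finset.sum_range_zero, List.getD_cons_zero,
    List.getD_cons_succ] at h1
  norm_num at h1
  have h2 : 6123 / 10000 ≤ x := by nlinarith only [hz, hx.1]
  have h3 : x ≤ 1531 / 2500 := by nlinarith only [hz]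
  refine h.pin_ge_of hr hx (ρ := 67 / 100) (Q := 3 / 50) (by norm_num) (by norm_num) ?_ ?_
  · rw [pin_am, pin_am_six]
    linarith only [h1, h2]
  · have h5 := pin_exp_ge (161 / 250) (by norm_num)
    norm_num at h5 ⊢
    linarith only [h5, h3]

/-- **(h7)** for `m = 7` -/
theorem IsTrans.pin_h7_seven (hr : IsProf r) (h : IsTrans 7 r τ τ' T)
    (hx : x ∈ Ioo (0 : ℝ) 1) (hz : x ^ 2 = 1 / 3) : -(71 / 100) ≤ lf τ x := by
  have h1 := pin_P_ge (m := 7) (x := x) 8 (fun i => ([1, -7 / 2, 35 / 8, -35 / 16, 0, 7 / 8, -7 / 8, 5 / 16] : List ℝ).getD i 0)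
    hx.1.le (by
      intro t ht
      have ht' : t ∈ Icc (0 : ℝ) 1 := ⟨ht.1, ht.2.trans hx.2.le⟩
      have e1 := pin_sq_sq ht'
      have e2 := pin_sq_ge_poly ht'
      have e3 : sq t ^ 7 = (1 - t ^ 2) ^ 3 * sq t := by rw [← e1]; ring
      rw [e3]
      have e5 : 0 ≤ 1 - t ^ 2 := by rw [← e1]; (clear * -; positivity)
      refine le_trans (le_of_eq ?_) (mul_le_mul_of_nonneg_left e2 (pow_nonneg e5 3))
      simp only [Finset.sum_range_succ, Finset.sum_range_zero, List.getD_cons_zero,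
        List.getD_cons_succ]
      ring)
  rw [hz] at h1
  simp only [Finset.sum_range_succ, Finset.sum_range_zero, List.getD_cons_zero,
    List.getD_cons_succ] at h1
  norm_num at h1
  have h2 : 5773 / 10000 ≤ x := by nlinarith only [hz, hx.1]
  have h3 : x ≤ 2887 / 5000 := by nlinarith only [hz]
  refine h.pin_ge_of hr hx (ρ := 709 / 1000) (Q := 79 / 1250) (by norm_num) (by norm_num) ?_ ?_
  · rw [pin_am, pin_am_seven]
    have h4 := Real.pi_lt_d6
    linarith only [h1, h2, h4]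
  · have h5 := pin_exp_ge (71 / 100) (by norm_num)
    norm_num at h5 ⊢
    linarith only [h5, h3]

/-- **(h7)** for `m = 8` -/
theorem IsTrans.pin_h7_eight (hr : IsProf r) (h : IsTrans 8 r τ τ' T)
    (hx : x ∈ Ioo (0 : ℝ) 1) (hz : x ^ 2 = 3 / 10) : -(769 / 1000) ≤ lf τ x := by
  have h1 := pin_P_ge (m := 8) (x := x) 5 (fun i => ([1, -4, 6, -4, 1] : List ℝ).getD i 0)
    hx.1.le (by
      intro t ht
      have ht' : t ∈ Icc (0 : ℝ) 1 := ⟨ht.1, ht.2.trans hx.2.le⟩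
      have e1 := pin_sq_sq ht'
      have e3 : sq t ^ 8 = (1 - t ^ 2) ^ 4 := by rw [← e1]; ring
      rw [e3]
      apply le_of_eq
      simp only [Finset.sum_range_succ, Finset.sum_range_zero, List.getD_cons_zero,
        List.getD_cons_succ]
      ring)
  rw [hz] at h1
  simp only [Finset.sum_range_succ, Finset.sum_range_zero, List.getD_cons_zero,
    List.getD_cons_succ] at h1
  norm_num at h1
  have h2 : 5477 / 10000 ≤ x := by nlinarith only [hz, hx.1]
  have h3 : x ≤ 2739 / 5000 := by nlinarith only [hz]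
  refine h.pin_ge_of hr hx (ρ := 739 / 1000) (Q := 327 / 5000) (by norm_num) (by norm_num) ?_ ?_
  · rw [pin_am, pin_am_eight]
    linarith only [h1, h2]
  · have h5 := pin_exp_ge (769 / 1000) (by norm_num)
    norm_num at h5 ⊢
    linarith only [h5, h3]

/-- **(h7)** for `m = 9` -/
theorem IsTrans.pin_h7_nine (hr : IsProf r) (h : IsTrans 9 r τ τ' T)
    (hx : x ∈ Ioo (0 : ℝ) 1) (hz : x ^ 2 = 3 / 11) : -(821 / 1000) ≤ lf τ x := by
  have h1 := pin_P_ge (m := 9) (x := x) 9 (fun i => ([1, -9 / 2, 63 / 8, -105 / 16, 35 / 16, 7 / 8, -7 / 4, 19 / 16, -5 / 16] : List ℝ).getD i 0)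
    hx.1.le (by
      intro t ht
      have ht' : t ∈ Icc (0 : ℝ) 1 := ⟨ht.1, ht.2.trans hx.2.le⟩
      have e1 := pin_sq_sq ht'
      have e2 := pin_sq_ge_poly ht'
      have e3 : sq t ^ 9 = (1 - t ^ 2) ^ 4 * sq t := by rw [← e1]; ring
      rw [e3]
      have e5 : 0 ≤ 1 - t ^ 2 := by rw [← e1]; (clear * -; positivity)
      refine le_trans (le_of_eq ?_) (mul_le_mul_of_nonneg_left e2 (pow_nonneg e5 4))
      simp only [Finset.sum_range_succ, Finset.sum_range_zero, List.getD_cons_zero,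
        List.getD_cons_succ]
      ring)
  rw [hz] at h1
  simp only [Finset.sum_range_succ, Finset.sum_range_zero, List.getD_cons_zero,
    List.getD_cons_succ] at h1
  norm_num at h1
  have h2 : 2611 / 5000 ≤ x := by nlinarith only [hz, hx.1]
  have h3 : x ≤ 5223 / 10000 := by nlinarith only [hz]
  refine h.pin_ge_of hr hx (ρ := 191 / 250) (Q := 673 / 10000) (by norm_num) (by norm_num) ?_ ?_
  · rw [pin_am, pin_am_nine]
    have h4 := Real.pi_lt_d6
    linarith only [h1, h2, h4]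
  · have h5 := pin_exp_ge (821 / 1000) (by norm_num)
    norm_num at h5 ⊢
    linarith only [h3, h5]

/-- **(h7)** for `m = 10` -/
theorem IsTrans.pin_h7_ten (hr : IsProf r) (h : IsTrans 10 r τ τ' T)
    (hx : x ∈ Ioo (0 : ℝ) 1) (hz : x ^ 2 = 1 / 4) : -(217 / 250) ≤ lf τ x := by
  have h1 := pin_P_ge (m := 10) (x := x) 6 (fun i => ([1, -5, 10, -10, 5, -1] : List ℝ).getD i 0)
    hx.1.le (by
      intro t ht
      have ht' : t ∈ Icc (0 : ℝ) 1 := ⟨ht.1, ht.2.trans hx.2.le⟩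
      have e1 := pin_sq_sq ht'
      have e3 : sq t ^ 10 = (1 - t ^ 2) ^ 5 := by rw [← e1]; ring
      rw [e3]
      apply le_of_eq
      simp only [Finset.sum_range_succ, Finset.sum_range_zero, List.getD_cons_zero,
        List.getD_cons_succ]
      ring)
  rw [hz] at h1
  simp only [Finset.sum_range_succ, Finset.sum_range_zero, List.getD_cons_zero,
    List.getD_cons_succ] at h1
  norm_num at h1
  have h2 : 1 / 2 ≤ x := by nlinarith only [hz, hx.1]
  have h3 : x ≤ 1 / 2 := by nlinarith only [hz]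
  refine h.pin_ge_of hr hx (ρ := 98 / 125) (Q := 687 / 10000) (by norm_num) (by norm_num) ?_ ?_
  · rw [pin_am, pin_am_ten]
    linarith only [h1, h2]
  · have h5 := pin_exp_ge (217 / 250) (by norm_num)
    norm_num at h5 ⊢
    linarith only [h3, h5]

/-- **(h7)** for `m = 11` -/
theorem IsTrans.pin_h7_eleven (hr : IsProf r) (h : IsTrans 11 r τ τ' T)
    (hx : x ∈ Ioo (0 : ℝ) 1) (hz : x ^ 2 = 3 / 13) : -(114 / 125) ≤ lf τ x := by
  have h1 := pin_P_ge (m := 11) (x := x) 10 (fun i => ([1, -11 / 2, 99 / 8, -231 / 16, 35 / 4, -21 / 16, -21 / 8, 47 / 16, -3 / 2, 5 / 16] : List ℝ).getD i 0)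
    hx.1.le (by
      intro t ht
      have ht' : t ∈ Icc (0 : ℝ) 1 := ⟨ht.1, ht.2.trans hx.2.le⟩
      have e1 := pin_sq_sq ht'
      have e2 := pin_sq_ge_poly ht'
      have e3 : sq t ^ 11 = (1 - t ^ 2) ^ 5 * sq t := by rw [← e1]; ring
      rw [e3]
      have e5 : 0 ≤ 1 - t ^ 2 := by rw [← e1]; (clear * -; positivity)
      refine le_trans (le_of_eq ?_) (mul_le_mul_of_nonneg_left e2 (pow_nonneg e5 5))
      simp only [Finset.sum_range_succ, Finset.sum_range_zero, List.getD_cons_zero,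
        List.getD_cons_succ]
      ring)
  rw [hz] at h1
  simp only [Finset.sum_range_succ, Finset.sum_range_zero, List.getD_cons_zero,
    List.getD_cons_succ] at h1
  norm_num at h1
  have h2 : 4803 / 10000 ≤ x := by nlinarith only [hz, hx.1]
  have h3 : x ≤ 1201 / 2500 := by nlinarith only [hz]
  refine h.pin_ge_of hr hx (ρ := 401 / 500) (Q := 351 / 5000) (by norm_num) (by norm_num) ?_ ?_
  · rw [pin_am, pin_am_eleven]
    have h4 := Real.pi_lt_d6
    linarith only [h1, h2, h4]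
  · have h5 := pin_exp_ge (114 / 125) (by norm_num)
    norm_num at h5 ⊢
    linarith only [h3, h5]

/-- **(h7)** for `m = 12` -/
theorem IsTrans.pin_h7_twelve (hr : IsProf r) (h : IsTrans 12 r τ τ' T)
    (hx : x ∈ Ioo (0 : ℝ) 1) (hz : x ^ 2 = 3 / 14) : -(19 / 20) ≤ lf τ x := by
  have h1 := pin_P_ge (m := 12) (x := x) 7 (fun i => ([1, -6, 15, -20, 15, -6, 1] : List ℝ).getD i 0)
    hx.1.le (by
      intro t ht
      have ht' : t ∈ Icc (0 : ℝ) 1 := ⟨ht.1, ht.2.trans hx.2.le⟩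
      have e1 := pin_sq_sq ht'
      have e3 : sq t ^ 12 = (1 - t ^ 2) ^ 6 := by rw [← e1]; ring
      rw [e3]
      apply le_of_eq
      simp only [Finset.sum_range_succ, Finset.sum_range_zero, List.getD_cons_zero,
        List.getD_cons_succ]
      ring)
  rw [hz] at h1
  simp only [Finset.sum_range_succ, Finset.sum_range_zero, List.getD_cons_zero,
    List.getD_cons_succ] at h1
  norm_num at h1
  have h2 : 4629 / 10000 ≤ x := by nlinarith only [hz, hx.1]
  have h3 : x ≤ 463 / 1000 := by nlinarith only [hz]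
  refine h.pin_ge_of hr hx (ρ := 102 / 125) (Q := 711 / 10000) (by norm_num) (by norm_num) ?_ ?_
  · rw [pin_am, pin_am_twelve]
    linarith only [h1, h2]
  · have h5 := pin_exp_ge (19 / 20) (by norm_num)
    norm_num at h5 ⊢
    linarith only [h5, h3]

/-- **(h7)** for `m = 13` -/
theorem IsTrans.pin_h7_thirteen (hr : IsProf r) (h : IsTrans 13 r τ τ' T)
    (hx : x ∈ Ioo (0 : ℝ) 1) (hz : x ^ 2 = 1 / 5) : -(989 / 1000) ≤ lf τ x := by
  have h1 := pin_P_ge (m := 13) (x := x) 11 (fun i => ([1, -13 / 2, 143 / 8, -429 / 16, 371 / 16, -161 / 16, -21 / 16, 89 / 16, -71 / 16, 29 / 16, -5 / 16] : List ℝ).getD i 0)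
    hx.1.le (by
      intro t ht
      have ht' : t ∈ Icc (0 : ℝ) 1 := ⟨ht.1, ht.2.trans hx.2.le⟩
      have e1 := pin_sq_sq ht'
      have e2 := pin_sq_ge_poly ht'
      have e3 : sq t ^ 13 = (1 - t ^ 2) ^ 6 * sq t := by rw [← e1]; ring
      rw [e3]
      have e5 : 0 ≤ 1 - t ^ 2 := by rw [← e1]; (clear * -; positivity)
      refine le_trans (le_of_eq ?_) (mul_le_mul_of_nonneg_left e2 (pow_nonneg e5 6))
      simp only [Finset.sum_range_succ, Finset.sum_range_zero, List.getD_cons_zero,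
        List.getD_cons_succ]
      ring)
  rw [hz] at h1
  simp only [Finset.sum_range_succ, Finset.sum_range_zero, List.getD_cons_zero,
    List.getD_cons_succ] at h1
  norm_num at h1
  have h2 : 559 / 1250 ≤ x := by nlinarith only [hz, hx.1]
  have h3 : x ≤ 4473 / 10000 := by nlinarith only [hz]
  refine h.pin_ge_of hr hx (ρ := 829 / 1000) (Q := 9 / 125) (by norm_num) (by norm_num) ?_ ?_
  · rw [pin_am, pin_am_thirteen]
    have h4 := Real.pi_lt_d6
    linarith only [h1, h2, h4]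
  · have h5 := pin_exp_ge (989 / 1000) (by norm_num)
    norm_num at h5 ⊢
    linarith only [h3, h5]

/-- **(h7)** for `m = 14` -/
theorem IsTrans.pin_h7_fourteen (hr : IsProf r) (h : IsTrans 14 r τ τ' T)
    (hx : x ∈ Ioo (0 : ℝ) 1) (hz : x ^ 2 = 3 / 16) : -(1023 / 1000) ≤ lf τ x := by
  have h1 := pin_P_ge (m := 14) (x := x) 8 (fun i => ([1, -7, 21, -35, 35, -21, 7, -1] : List ℝ).getD i 0)
    hx.1.le (by
      intro t ht
      have ht' : t ∈ Icc (0 : ℝ) 1 := ⟨ht.1, ht.2.trans hx.2.le⟩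
      have e1 := pin_sq_sq ht'
      have e3 : sq t ^ 14 = (1 - t ^ 2) ^ 7 := by rw [← e1]; ring
      rw [e3]
      apply le_of_eq
      simp only [Finset.sum_range_succ, Finset.sum_range_zero, List.getD_cons_zero,
        List.getD_cons_succ]
      ring)
  rw [hz] at h1
  simp only [Finset.sum_range_succ, Finset.sum_range_zero, List.getD_cons_zero,
    List.getD_cons_succ] at h1
  norm_num at h1
  have h2 : 433 / 1000 ≤ x := by nlinarith only [hz, hx.1]
  have h3 : x ≤ 4331 / 10000 := by nlinarith only [hz]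
  refine h.pin_ge_of hr hx (ρ := 21 / 25) (Q := 727 / 10000) (by norm_num) (by norm_num) ?_ ?_
  · rw [pin_am, pin_am_fourteen]
    linarith only [h1, h2]
  · have h5 := pin_exp_ge (1023 / 1000) (by norm_num)
    norm_num at h5 ⊢
    linarith only [h3, h5]

end

end Vale.Agent.P237.AllN
end

section

/-!
# P237, `m = 4`: the inputs of the pointwise inequality
-/

open MeasureTheory Metric Set Module Filter Topology

namespace Vale.Agent.P237.AllN.M4

open PolyPos Alm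

variable {r τ τ' T : ℝ → ℝ} {x : ℝ}

/-- cylinder -/
theorem in_cyl (hr : IsProf r) (h : IsTrans 4 r τ τ' T) (hx : x ∈ Ioo (0 : ℝ) 1) :
    Real.exp (lf τ x) ≤ (15 - 10 * x ^ 2 + 3 * x ^ 4) / 8 := by
  have h1 := h.le_cyl (by norm_num) hr x hx
  rw [jt_int0 hx, pin_am, pin_am_four, ← pin_exp h hx] at h1
  have h2 : x * Real.exp (lf τ x) ≤ x * ((15 - 10 * x ^ 2 + 3 * x ^ 4) / 8) := by linarith
  exact le_of_mul_le_mul_left h2 hx.1

/-- lower bound of the slope -/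
theorem in_low (hr : IsProf r) (h : IsTrans 4 r τ τ' T) (hx : x ∈ Ioo (0 : ℝ) 1) :
    15 * (1 - x ^ 2) ^ 2 ≤ (1 + uf τ τ' x) * (15 - 10 * x ^ 2 + 3 * x ^ 4) := by
  have h1 := h.pin_cyl hr hx
  rw [jt_int0 hx] at h1
  have hs : sq x ^ 4 = (1 - x ^ 2) ^ 2 := by
    rw [show (4 : ℕ) = 2 * 2 by norm_num, pow_mul, pin_sq_sq (Ioo_subset_Icc_self hx)]
  rw [hs] at h1
  have h2 : x * (15 * (1 - x ^ 2) ^ 2) ≤
      x * ((1 + uf τ τ' x) * (15 - 10 * x ^ 2 + 3 * x ^ 4)) := by linarith only [h1]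
  exact le_of_mul_le_mul_left h2 hx.1

/-- window -/
theorem in_win (hr : IsProf r) (h : IsTrans 4 r τ τ' T) (hx : x ∈ Ioo (0 : ℝ) 1) :
    uf τ τ' x * sq x ≤ 3 / 4 * x := by
  have h1 := h.pin_h4 (by norm_num) hr hx
  rw [pin_am_four] at h1
  norm_num at h1
  linarith only [h1]

/-- window, squared -/
theorem in_win2 (hr : IsProf r) (h : IsTrans 4 r τ τ' T) (hx : x ∈ Ioo (0 : ℝ) 1)
    (hu : 0 ≤ uf τ τ' x) : uf τ τ' x ^ 2 * (1 - x ^ 2) ≤ 9 / 16 * x ^ 2 := by
  have h1 := in_win hr h hx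
  have h2 := mul_nonneg hu (sl_sq_nonneg x)
  have h3 := pow_le_pow_left₀ h2 h1 2
  rw [mul_pow, pin_sq_sq (Ioo_subset_Icc_self hx)] at h3
  linarith only [h3]

/-- tail -/
theorem in_tail (hr : IsProf r) (h : IsTrans 4 r τ τ' T) (hx : x ∈ Ioo (0 : ℝ) 1) :
    (1 + (1 + uf τ τ' x) * sq x ^ 2 / (6 - 5 * sq x ^ 2)) * (x * Real.exp (lf τ x)) ≤ 1 := by
  have h1 := h.pin_h5 (by norm_num) hr hx
  norm_num at h1
  exact h1

/-- lower bound of `l` -/
theorem in_llo (hr : IsProf r) (h : IsTrans 4 r τ τ' T) (hx : x ∈ Ioo (0 : ℝ) 1) :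
    -(161 / 100) ≤ lf τ x := by
  have h1 := h.pin_tau_ge hr hx
  rw [← pin_exp h hx] at h1
  norm_num at h1
  have h2 : 1 ≤ 5 * Real.exp (lf τ x) := by
    have : x * 1 ≤ x * (5 * Real.exp (lf τ x)) := by linarith
    exact le_of_mul_le_mul_left this hx.1
  by_contra hc
  push Not at hc
  have h3 := Real.exp_lt_exp.2 hc
  have h4 : Real.exp (-(161 / 100)) * Real.exp (161 / 100) = 1 := by
    rw [← Real.exp_add]; simp
  have h5 := pin_exp_ge (161 / 100) (by norm_num)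
  norm_num at h5
  have h6 : (5 : ℝ) < Real.exp (161 / 100) := by linarith only [h5]
  have h7 : 0 < Real.exp (-(161 / 100)) := Real.exp_pos _
  nlinarith only [h2, h3, h4, h5]

theorem x0_mem : (2 / 3 : ℝ) ∈ Ioo (0 : ℝ) 1 := by constructor <;> norm_num

/-- lower bound of `λ` -/
theorem in_lamlo (hr : IsProf r) (h : IsTrans 4 r τ τ' T) : -(49 / 100) ≤ lf τ (2 / 3) := by
  refine h.pin_ge_of hr x0_mem (ρ := 5895 / 10000) (Q := 71 / 1000) (by norm_num) (by norm_num) ?_ ?_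
  · rw [jt_int0 x0_mem, pin_am, pin_am_four]
    norm_num
  · have h5 := pin_exp_ge (49 / 100) (by norm_num)
    norm_num at h5 ⊢
    linarith

/-- upper bound of `λ` -/
theorem in_lamhi (hr : IsProf r) (h : IsTrans 4 r τ τ' T) : lf τ (2 / 3) ≤ 1 / 3 := by
  have h1 := in_cyl hr h x0_mem
  by_contra hc
  push Not at hc
  have h3 := Real.exp_lt_exp.2 hc
  have h5 := pin_exp_ge (1 / 3) (by norm_num)
  norm_num at h1 h5
  linarith only [h3, h1, h5]

/-- joint line, general form -/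
theorem jline_gen (hr : IsProf r) (h : IsTrans 4 r τ τ' T) (hx : x ∈ Ioo (0 : ℝ) 1)
    {j k y0 y1 : ℝ} (hk : 0 < k) (hj : 0 ≤ j + y0 * (1 - x ^ 2)) (hy0 : 0 ≤ y0)
    (hlow : 9 / 16 * x ^ 2 * k ^ 2 < (j + y0 * (1 - x ^ 2)) ^ 2 * (1 - x ^ 2))
    (hy1 : 1 / 2 + 3 / 8 * (1 - x ^ 2) < y1)
    (hc : ∀ y, -y0 ≤ y → y < y1 → τ x = x * (1 + (1 - x ^ 2) * y) →
      k * (1 + uf τ τ' x) ≤ k + j - (1 - x ^ 2) * y) :
    lf τ x ≤ j - k * uf τ τ' x := by
  by_contra hcon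
  push Not at hcon
  have ht : 0 < 1 - x ^ 2 := by (by_contra nlg; linarith only [nlg, mul_nonneg (sq_nonneg (1 * j + 1 * y0 * (1 * 1 - 1 * (1 * x) ^ 2) : ℝ)) (sub_nonneg.2 (not_lt.1 nlg)), mul_nonneg (sq_nonneg (1 * x : ℝ)) (sq_nonneg (1 * k : ℝ)), hlow])
  set t := 1 - x ^ 2 with htd
  set l := lf τ x with hl
  set u := uf τ τ' x with hu
  obtain ⟨y, hy⟩ : ∃ y, Real.exp l = 1 + t * y := ⟨(Real.exp l - 1) / t, by field_simp; ring⟩
  have hτ : τ x = x * (1 + t * y) := by rw [← hy, hl, pin_exp h hx]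
  have h1 := Real.add_one_le_exp l
  have h2 : k + j - t * y < k * (1 + u) := by linarith only [hcon, hy, h1]
  have hyu : y < y1 := by
    have h3 := in_cyl hr h hx
    rw [← hl, hy] at h3
    have e : (15 - 10 * x ^ 2 + 3 * x ^ 4) / 8 = 1 + t * (1 / 2 + 3 / 8 * t) := by rw [htd]; ring
    rw [e] at h3
    have h4 : t * y ≤ t * (1 / 2 + 3 / 8 * t) := by linarith only [h3]
    exact (le_of_mul_le_mul_left h4 ht).trans_lt hy1
  rcases le_or_gt (-y0) y with h5 | h5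
  · have := hc y h5 hyu hτ
    linarith only [hcon, hy, h1, this]
  · have h6 : j + y0 * t < k * u := by (by_contra nlg; linarith only [nlg, mul_pos (sub_pos.2 h5) (sub_pos.2 hlow), mul_nonneg (sq_nonneg (1 * j + 1 * y0 * (1 * 1 - 1 * x ^ 2) : ℝ)) (sub_nonneg.2 h1), mul_eq_zero_of_left (sub_eq_zero.2 hy) (0 - (0 - (1 * j + 1 * y0 * (1 * 1 - 1 * x ^ 2)) ^ 2)), mul_nonneg (sq_nonneg (1 * j + 1 * y0 * (1 * 1 - 1 * x ^ 2) : ℝ)) (le_of_lt (sub_pos.2 hcon)), mul_nonneg (sq_nonneg (1 * j + 1 * y0 * (1 * 1 - 1 * x ^ 2) : ℝ)) (sub_nonneg.2 (not_lt.1 nlg)), mul_nonneg (sq_nonneg (1 * k : ℝ)) (le_of_lt (sub_pos.2 h5)), mul_nonneg (sq_nonneg (1 * k : ℝ)) (sub_nonneg.2 h1), mul_eq_zero_of_left (sub_eq_zero.2 hy) (0 - (0 - (1 * k) ^ 2)), mul_nonneg (sq_nonneg (1 * k : ℝ)) (le_of_lt (sub_pos.2 hcon)), mul_nonneg (sq_nonneg (1 * k : ℝ)) (sub_nonneg.2 (not_lt.1 nlg))])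
    have h7 : 0 < k * u := by linarith only [hj, h6]
    have hu0 : 0 ≤ u := ((mul_pos_iff_of_pos_left hk).1 h7).le
    have h8 := in_win2 hr h hx hu0
    have h9 : (j + y0 * t) ^ 2 ≤ (k * u) ^ 2 := pow_le_pow_left₀ hj h6.le 2
    have h10 := mul_le_mul_of_nonneg_right h9 ht.le
    have h11 := mul_le_mul_of_nonneg_left h8 (sq_nonneg k)
    rw [← htd, ← hu] at h11
    linarith

end Vale.Agent.P237.AllN.M4
end

section

/-!
# P237, `m = 4`: the joint lines
-/

open MeasureTheory Metric Set Module Filter Topology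

namespace Vale.Agent.P237.AllN.M4

open PolyPos Alm

theorem fam_casesE {F : List (List Ex)} {x y : ℝ}
    (h : ∃ i, ∀ p ∈ F.getD i [Ex.c ⟨-1, 0⟩], 0 ≤ p.R x y) : ∃ L ∈ F, ∀ p ∈ L, 0 ≤ p.R x y := by
  obtain ⟨i, hi⟩ := h
  by_cases hl : i < F.length
  · refine ⟨F[i], List.getElem_mem hl, fun p hp => hi p ?_⟩
    rw [List.getD_eq_getElem _ _ hl]
    exact hp
  · exfalso
    have := hi (Ex.c ⟨-1, 0⟩) (by rw [List.getD_eq_default _ _ (by omega)]; simp)
    simp only [Ex.R, Fr.R, Int.reduceNeg, Int.cast_neg, Int.cast_one, CharP.cast_eq_zero, zero_add, div_one, Left.nonneg_neg_iff] at this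
    linarith only [this]

theorem jloL {z : ℝ} (h0 : 361 / 2500 ≤ z) (h1 : z ≤ 4 / 9) :
    9 / 16 * z * (18 / 5 - 107 / 10 * z + 46 / 5 * z ^ 2) ^ 2 <
      (18 / 25 - 187 / 200 * z + 26 / 100 * (1 - z)) ^ 2 * (1 - z) := by
  have h := auto1_sound (n := 4) (A := 14440) (B := 44446) (D := 100000) (by norm_num)
    (p := [4800000 , -52963000, 235526125, -515443250, 553725000, -238050000])
    (by (clear * -; decide +kernel)) (x := z) (by push_cast; linarith only [h0]) (by push_cast; linarith only [h1])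
  simp only [ev1, evL] at h
  norm_num at h
  (clear * - h; linarith only [h])

theorem jloR {t : ℝ} (h0 : 19 / 100 ≤ t) (h1 : t ≤ 5 / 9) :
    9 / 16 * (1 - t) * (15 / 100 + 3 / 2 * t) ^ 2 <
      (34 / 100 + 31 / 100 * t + 29 / 100) ^ 2 * t := by
  nlinarith [mul_nonneg (sub_nonneg.2 h0) (sub_nonneg.2 h1),
    mul_nonneg (mul_nonneg (sub_nonneg.2 h0) (sub_nonneg.2 h1)) (sub_nonneg.2 h0)]

variable {r τ τ' T : ℝ → ℝ} {x : ℝ}

theorem uf_E (h : IsTrans 4 r τ τ' T) (hx : x ∈ Ioo (0 : ℝ) 1) :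
    (1 + uf τ τ' x) * τ x = x * τ' x := by
  have := (h.mem x hx).1
  rw [pin_E]
  (clear * - this; field_simp)

theorem ev_jkL (x y : ℝ) : jkL.R x y = 18 / 5 - 107 / 10 * x ^ 2 + 46 / 5 * (x ^ 2) ^ 2 := by
  simp only [jkL, Ex.R_add, Ex.R_sub, Ex.R_mul, Ex.R_c, Fr.R, ev_jz]; push_cast; ring

theorem ev_jEL (x y : ℝ) : jEL.R x y =
    18 / 5 - 107 / 10 * x ^ 2 + 46 / 5 * (x ^ 2) ^ 2 + (18 / 25 - 187 / 200 * x ^ 2) -
      (1 - x ^ 2) * y := by
  simp only [jEL, Ex.R_add, Ex.R_sub, Ex.R_mul, Ex.R_c, Fr.R, Ex.R_Y, ev_jz, ev_jt, ev_jkL]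
  push_cast
  ring

theorem ev_jkR (x y : ℝ) : jkR.R x y = (1 - x ^ 2) * (15 / 100 + 3 / 2 * (1 - x ^ 2)) := by
  simp only [jkR, Ex.R_add, Ex.R_mul, Ex.R_c, Fr.R, ev_jt]; push_cast; ring

theorem ev_jER (x y : ℝ) : jER.R x y =
    (1 - x ^ 2) * (15 / 100 + 3 / 2 * (1 - x ^ 2)) +
      (1 - x ^ 2) * (34 / 100 + 31 / 100 * (1 - x ^ 2)) - (1 - x ^ 2) * y := by
  simp only [jER, Ex.R_add, Ex.R_sub, Ex.R_mul, Ex.R_c, Fr.R, Ex.R_Y, ev_jt, ev_jkR]
  push_cast
  ring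

theorem ev_zero (x y : ℝ) : (en 0).R x y ≤ 0 := by rw [en_R]; simp

/-- left joint line -/
theorem jlineL (hr : IsProf r) (h : IsTrans 4 r τ τ' T) (hx : x ∈ Ioo (0 : ℝ) 1)
    (h0 : 19 / 50 ≤ x) (h1 : x < 2 / 3) :
    lf τ x ≤ 18 / 25 - 187 / 200 * x ^ 2 -
      (18 / 5 - 107 / 10 * x ^ 2 + 46 / 5 * (x ^ 2) ^ 2) * uf τ τ' x := by
  have hz0 : 361 / 2500 ≤ x ^ 2 := by (clear * - h0; nlinarith)
  have hz1 : x ^ 2 < 4 / 9 := by nlinarith only [h1, h0]
  have hk : 0 < 18 / 5 - 107 / 10 * x ^ 2 + 46 / 5 * (x ^ 2) ^ 2 := by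
    nlinarith only [h0, h1]
  refine jline_gen hr h hx (y0 := 26 / 100) (y1 := 83 / 100) hk (by linarith only [hz1]) (by norm_num)
    (jloL hz0 hz1.le) (by linarith only [hz0]) ?_
  intro y hy0 hy1 hτ
  have key : jkL.R x y * (1 + uf τ τ' x) ≤ jEL.R x y := by
    have hlit : 0 ≤ (jA jEL jkL jWL).R x y ∧ 0 ≤ (jB jEL jkL jWL).R x y := by
      rcases lt_or_ge y 0 with hy | hy
      · obtain ⟨L, hL, hp⟩ := fam_casesE (tchkE_sound (ev_zero x y) _ _ _ _ _ _ _ (by norm_num)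
          (by norm_num) (by norm_num) (by norm_num) jL_low (by push_cast; linarith only [h0])
          (by push_cast; linarith only [h1]) (by push_cast; linarith only [hy0]) (by push_cast; linarith only [hy]))
        simp only [List.mem_cons, List.not_mem_nil, or_false] at hL
        subst hL
        exact ⟨hp _ (by simp), hp _ (by simp)⟩
      · obtain ⟨L, hL, hp⟩ := fam_casesE (tchkE_sound (ev_zero x y) _ _ _ _ _ _ _ (by norm_num)
          (by norm_num) (by norm_num) (by norm_num) jL_high (by push_cast; linarith only [h0])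
          (by push_cast; linarith only [h1]) (by push_cast; linarith only [hy]) (by push_cast; linarith only [hy1]))
        simp only [List.mem_cons, List.not_mem_nil, or_false] at hL
        subst hL
        exact ⟨hp _ (by simp), hp _ (by simp)⟩
    refine jl_poly hr h hx (uf_E h hx) hτ (W := jWL) ?_ hlit.1 hlit.2
    rw [ev_jkL]
    exact hk
  rw [ev_jkL, ev_jEL] at key
  linarith only [key]

/-- right joint line -/
theorem jlineR (hr : IsProf r) (h : IsTrans 4 r τ τ' T) (hx : x ∈ Ioo (0 : ℝ) 1)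
    (h0 : 2 / 3 ≤ x) (h1 : x < 9 / 10) :
    lf τ x ≤ (1 - x ^ 2) * (34 / 100 + 31 / 100 * (1 - x ^ 2)) -
      (1 - x ^ 2) * (15 / 100 + 3 / 2 * (1 - x ^ 2)) * uf τ τ' x := by
  have hz0 : 19 / 100 < 1 - x ^ 2 := by nlinarith
  have hz1 : 1 - x ^ 2 ≤ 5 / 9 := by nlinarith only [h0]
  have hk : 0 < (1 - x ^ 2) * (15 / 100 + 3 / 2 * (1 - x ^ 2)) := by
    have : 0 < 1 - x ^ 2 := by linarith only [hz0]
    (clear * - hz0; positivity)
  have ht : 0 < 1 - x ^ 2 := by linarith only [hz0]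
  refine jline_gen hr h hx (y0 := 29 / 100) (y1 := 71 / 100) hk (by positivity) (by norm_num)
    ?_ (by linarith only [hz1]) ?_
  · have h2 := jloR hz0.le hz1
    have h3 := mul_lt_mul_of_pos_left h2 (pow_pos ht 2)
    have e : (1 : ℝ) - (1 - x ^ 2) = x ^ 2 := by ring
    rw [e] at h3
    linarith only [h3]
  intro y hy0 hy1 hτ
  have key : jkR.R x y * (1 + uf τ τ' x) ≤ jER.R x y := by
    have hlit : (0 ≤ (jA jER jkR jWR).R x y ∧ 0 ≤ (jB jER jkR jWR).R x y) ∨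
        (0 ≤ (jA0 jER jkR).R x y ∧ 0 ≤ (jB jER jkR (en 0)).R x y) := by
      rcases lt_or_ge y 0 with hy | hy
      · obtain ⟨L, hL, hp⟩ := fam_casesE (tchkE_sound (ev_zero x y) _ _ _ _ _ _ _ (by norm_num)
          (by norm_num) (by norm_num) (by norm_num) jR_low (by push_cast; linarith only [h0])
          (by push_cast; linarith only [h1]) (by push_cast; linarith only [hy0]) (by push_cast; linarith only [hy]))
        simp only [List.mem_cons, List.not_mem_nil, or_false] at hL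
        rcases hL with hL | hL
        · subst hL
          exact Or.inl ⟨hp _ (by simp), hp _ (by simp)⟩
        · subst hL
          exact Or.inr ⟨hp _ (by simp), hp _ (by simp)⟩
      · obtain ⟨L, hL, hp⟩ := fam_casesE (tchkE_sound (ev_zero x y) _ _ _ _ _ _ _ (by norm_num)
          (by norm_num) (by norm_num) (by norm_num) jR_high (by push_cast; linarith only [h0])
          (by push_cast; linarith only [h1]) (by push_cast; linarith only [hy]) (by push_cast; linarith only [hy1]))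
        simp only [List.mem_cons, List.not_mem_nil, or_false] at hL
        rcases hL with hL | hL
        · subst hL
          exact Or.inl ⟨hp _ (by simp), hp _ (by simp)⟩
        · subst hL
          exact Or.inr ⟨hp _ (by simp), hp _ (by simp)⟩
    rcases hlit with hlit | hlit
    · refine jl_poly hr h hx (uf_E h hx) hτ (W := jWR) ?_ hlit.1 hlit.2
      rw [ev_jkR]
      exact hk
    · refine jl_poly0 hr h hx (uf_E h hx) hτ ?_ hlit.1 hlit.2
      rw [ev_jkR]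
      exact hk
  rw [ev_jkR, ev_jER] at key
  linarith only [key]

end Vale.Agent.P237.AllN.M4
end

section

/-!
# P237, `m = 4`: bounds of `u - 4 ((1+u)^{1/4} - 1)`
-/

namespace Vale.Agent.P237.AllN.M4

open PolyPos

/-- `(V+1)² (V²+1)²` -/
def rhD : List ℤ := pmul (ppow [1, 1] 2) (ppow [1, 0, 1] 2)

/-- `V² + 2V + 3` -/
def rhN : List ℤ := [3, 2, 1]

/-- `V⁴ - 1` -/
def rhu : List ℤ := [-1, 0, 0, 0, 1]

/-- `V⁴` -/
def rh4 : List ℤ := [0, 0, 0, 0, 1]

def rhb : List ℤ := padd (pmul (padd [192] (padd (psm 80 rhu) (psm (-35) (ppow rhu 2)))) rhD)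
  (psm (-512) (pmul rh4 rhN))

def rha : List ℤ := padd (pmul (padd [60] (padd (psm 25 rhu) (psm (-8) (ppow rhu 2)))) rhD)
  (psm (-160) (pmul rh4 rhN))

def rhe : List ℤ := padd (pmul (padd (psm 300 (ppow rh4 2)) (padd (psm 125 (pmul rhu rh4))
  (psm 128 (ppow rhu 2)))) rhD) (psm (-800) (pmul (ppow rh4 3) rhN))

def rhg : List ℤ := padd (pmul (padd (psm 3 rh4) (psm 5 rhu)) rhD)
  (psm (-8) (pmul (ppow rh4 2) rhN))

set_option maxRecDepth 100000 in
theorem rhb_nonneg {V : ℝ} (h0 : 0 ≤ V) (h1 : V < 1) : 0 ≤ ev1 rhb V :=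
  auto1_sound (n := 4) (A := 0) (B := 1) (D := 1) (by norm_num) (by decide +kernel)
    (by push_cast; linarith only [h0]) (by push_cast; linarith)

set_option maxRecDepth 100000 in
theorem rha_nonneg {V : ℝ} (h0 : 1 ≤ V) (h1 : V < 1139 / 1000) : 0 ≤ ev1 rha V :=
  auto1_sound (n := 4) (A := 1000) (B := 1139) (D := 1000) (by norm_num) (by (clear * -; decide +kernel))
    (by push_cast; linarith only [h0]) (by push_cast; linarith)

set_option maxRecDepth 100000 in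
theorem rhe_nonneg {V : ℝ} (h0 : 1 ≤ V) (h1 : V < 1301 / 1000) : 0 ≤ ev1 rhe V :=
  auto1_sound (n := 4) (A := 1000) (B := 1301) (D := 1000) (by norm_num) (by (clear * -; decide +kernel))
    (by push_cast; linarith only [h0]) (by push_cast; linarith)

variable {V u : ℝ}

theorem rh_pm (hV : V ^ 4 = 1 + u) : u - 4 * (V - 1) = (V - 1) ^ 2 * (V ^ 2 + 2 * V + 3) := by
  linear_combination -hV

theorem rh_u (hV : V ^ 4 = 1 + u) : u = (V - 1) * ((V + 1) * (V ^ 2 + 1)) := by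
  linear_combination -hV

theorem rho0 (hV0 : 0 < V) (hV : V ^ 4 = 1 + u) : 0 ≤ u - 4 * (V - 1) := by
  rw [rh_pm hV]; positivity

/-- general reduction -/
theorem rh_red {ρ : ℝ} (hV : V ^ 4 = 1 + u)
    (h : V ^ 4 * (V ^ 2 + 2 * V + 3) ≤ ρ * ((V + 1) ^ 2 * (V ^ 2 + 1) ^ 2)) :
    (u - 4 * (V - 1)) * (1 + u) ≤ ρ * u ^ 2 := by
  have h1 := mul_le_mul_of_nonneg_left h (sq_nonneg (V - 1))
  have h2 : (u - 4 * (V - 1)) * (1 + u) = (V - 1) ^ 2 * (V ^ 4 * (V ^ 2 + 2 * V + 3)) := by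
    rw [rh_pm hV, ← hV]; ring
  have h3 : ρ * u ^ 2 = (V - 1) ^ 2 * (ρ * ((V + 1) ^ 2 * (V ^ 2 + 1) ^ 2)) := by
    rw [rh_u hV]; ring
  rw [h2, h3]
  exact h1

theorem ev_rhD (V : ℝ) : ev1 rhD V = (V + 1) ^ 2 * (V ^ 2 + 1) ^ 2 := by
  simp only [rhD, ev1_pmul, ev1_ppow, ev1_cons, ev1_nil]; push_cast; ring

theorem ev_rhN (V : ℝ) : ev1 rhN V = V ^ 2 + 2 * V + 3 := by
  simp only [rhN, ev1_cons, ev1_nil]; push_cast; ring

theorem ev_rh4 (V : ℝ) : ev1 rh4 V = V ^ 4 := by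
  simp only [rh4, ev1_cons, ev1_nil]; push_cast; ring

theorem ev_rhu (hV : V ^ 4 = 1 + u) : ev1 rhu V = u := by
  simp only [rhu, ev1_cons, ev1_nil]; push_cast; linear_combination hV

/-- (b) `u ≤ 0` -/
theorem rho_b (hV0 : 0 < V) (hV : V ^ 4 = 1 + u) (hu : u ≤ 0) :
    (u - 4 * (V - 1)) * (1 + u) ≤ (3 / 8 + 5 / 32 * u - 35 / 512 * u ^ 2) * u ^ 2 := by
  rcases eq_or_lt_of_le hu with h0 | h0
  · have : V = 1 := by
      rw [h0, add_zero] at hV
      exact (pow_eq_one_iff_of_nonneg hV0.le (by norm_num)).1 hV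
    rw [this, h0]; norm_num
  · have hV1 : V < 1 := by
      by_contra h
      push Not at h
      have := one_le_pow₀ h (n := 4)
      linarith
    apply rh_red hV
    have h := rhb_nonneg hV0.le hV1
    simp only [rhb, ev1_padd, ev1_psm, ev1_pmul, ev1_ppow, ev_rhD, ev_rhN, ev_rh4, ev_rhu hV,
      ev1_cons, ev1_nil] at h
    push_cast at h
    linarith

/-- (a) `0 ≤ u ≤ 17/25` -/
theorem rho_a (hV0 : 0 < V) (hV : V ^ 4 = 1 + u) (hu : 0 ≤ u) (hu1 : u ≤ 17 / 25) :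
    (u - 4 * (V - 1)) * (1 + u) ≤ (3 / 8 + 5 / 32 * u - 1 / 20 * u ^ 2) * u ^ 2 := by
  have hV1 : 1 ≤ V := by
    by_contra h
    push Not at h
    have := pow_lt_one₀ hV0.le h (n := 4) (by norm_num)
    linarith only [hV, hu, this]
  have hV2 : V < 1139 / 1000 := by
    by_contra h
    push Not at h
    have := pow_le_pow_left₀ (by norm_num) h 4
    norm_num at this
    linarith only [hV, hu1, this]
  apply rh_red hV
  have h := rha_nonneg hV1 hV2
  simp only [rha, ev1_padd, ev1_psm, ev1_pmul, ev1_ppow, ev_rhD, ev_rhN, ev_rh4, ev_rhu hV,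
    ev1_cons, ev1_nil] at h
  push_cast at h
  linarith only [h]

/-- (e) `n = u/(1+u) ≤ 13/20` -/
theorem rho_e (hV0 : 0 < V) (hV : V ^ 4 = 1 + u) (hu : 0 ≤ u) {β : ℝ} (hβ : β * (1 + u) = 1)
    (hβ1 : 7 / 20 ≤ β) :
    (u - 4 * (V - 1)) * (1 + u) ≤
      (3 / 8 + 5 / 32 * (1 - β) + 4 / 25 * (1 - β) ^ 2) * u ^ 2 := by
  have hV1 : 1 ≤ V := by
    by_contra h
    push Not at h
    have := pow_lt_one₀ hV0.le h (n := 4) (by norm_num)
    linarith only [hV, hu, this]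
  have hV2 : V < 1301 / 1000 := by
    by_contra h
    push Not at h
    have h1 := pow_le_pow_left₀ (by norm_num) h 4
    norm_num at h1
    rw [hV] at h1
    have : 1 < β * (1 + u) := by nlinarith only [hβ1, h1]
    linarith only [hβ, this]
  apply rh_red hV
  have h := rhe_nonneg hV1 hV2
  simp only [rhe, ev1_padd, ev1_psm, ev1_pmul, ev1_ppow, ev_rhD, ev_rhN, ev_rh4, ev_rhu hV,
    ev1_cons, ev1_nil] at h
  push_cast at h
  rw [← hV] at hβ
  have hβu : β * u = 1 - β := by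
    have : β * (1 + u) = 1 := by rw [← hV]; exact hβ
    linarith only [this]
  have hb0 : 0 < β := by linarith only [hβ1]
  have e : 0 ≤ β ^ 2 * ((((300 : ℝ) * (V ^ 4) ^ 2 + (125 * (u * V ^ 4) + 128 * u ^ 2)) *
      ((V + 1) ^ 2 * (V ^ 2 + 1) ^ 2) + -800 * ((V ^ 4) ^ 3 * (V ^ 2 + 2 * V + 3)))) := by
    apply mul_nonneg (by positivity)
    linarith only [h]
  have e2 : β ^ 2 * ((((300 : ℝ) * (V ^ 4) ^ 2 + (125 * (u * V ^ 4) + 128 * u ^ 2)) *
      ((V + 1) ^ 2 * (V ^ 2 + 1) ^ 2) + -800 * ((V ^ 4) ^ 3 * (V ^ 2 + 2 * V + 3)))) =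
      (300 * (β * V ^ 4) ^ 2 + 125 * (β * u) * (β * V ^ 4) + 128 * (β * u) ^ 2) *
      ((V + 1) ^ 2 * (V ^ 2 + 1) ^ 2) - 800 * ((β * V ^ 4) ^ 2 * (V ^ 4 * (V ^ 2 + 2 * V + 3))) := by
    ring
  rw [e2, hβ, hβu] at e
  linarith only [e]

/-- (g) `u ≥ 0` -/
theorem rho_g (hV0 : 0 < V) (hV : V ^ 4 = 1 + u) (hu : 0 ≤ u) {β : ℝ} (hβ : β * (1 + u) = 1) :
    (u - 4 * (V - 1)) * (1 + u) ≤ (3 / 8 + 5 / 8 * (1 - β)) * u ^ 2 := by
  have hV1 : 1 ≤ V := by
    by_contra h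
    push Not at h
    have := pow_lt_one₀ hV0.le h (n := 4) (by norm_num)
    linarith only [hV, hu, this]
  apply rh_red hV
  obtain ⟨w, hw⟩ : ∃ w, V = 1 + w := ⟨V - 1, by ring⟩
  have hw0 : 0 ≤ w := by linarith
  rw [← hV] at hβ
  have hβu : β * u = 1 - β := by
    have : β * (1 + u) = 1 := by rw [← hV]; exact hβ
    linarith
  have hb0 : 0 < β := by
    by_contra h
    push Not at h
    have : β * V ^ 4 ≤ 0 := mul_nonpos_of_nonpos_of_nonneg h (by positivity)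
    linarith
  have h1 : 0 ≤ (3 * V ^ 4 + 5 * u) * ((V + 1) ^ 2 * (V ^ 2 + 1) ^ 2) -
      8 * ((V ^ 4) ^ 2 * (V ^ 2 + 2 * V + 3)) := by
    have e : (3 * V ^ 4 + 5 * u) * ((V + 1) ^ 2 * (V ^ 2 + 1) ^ 2) -
      8 * ((V ^ 4) ^ 2 * (V ^ 2 + 2 * V + 3)) = 8 * (30 * w + 225 / 2 * w ^ 2 + 189 * w ^ 3 +
        357 / 2 * w ^ 4 + 99 * w ^ 5 + 243 / 8 * w ^ 6 + 4 * w ^ 7) := by
      have hu' : u = V ^ 4 - 1 := by linarith
      rw [hu', hw]
      ring
    rw [e]
    (clear * - hw0; positivity)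
  have h2 := mul_nonneg hb0.le h1
  have e2 : β * ((3 * V ^ 4 + 5 * u) * ((V + 1) ^ 2 * (V ^ 2 + 1) ^ 2) -
      8 * ((V ^ 4) ^ 2 * (V ^ 2 + 2 * V + 3))) = (3 * (β * V ^ 4) + 5 * (β * u)) *
      ((V + 1) ^ 2 * (V ^ 2 + 1) ^ 2) - 8 * ((β * V ^ 4) * (V ^ 4 * (V ^ 2 + 2 * V + 3))) := by
    ring
  rw [e2, hβ, hβu] at h2
  linarith

/-- (d) `u ≤ 0` -/
theorem rho_d (hV0 : 0 < V) (hV : V ^ 4 = 1 + u) :
    (u - 4 * (V - 1)) * (1 + u) ≤ (3 * (1 + u)) * u ^ 2 := by
  apply rh_red hV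
  rw [← hV]
  have h1 : V ^ 2 + 2 * V + 3 ≤ 3 * ((V + 1) ^ 2 * (V ^ 2 + 1) ^ 2) := by
    have : 0 ≤ V ^ 2 * (V + 1) ^ 2 * (V ^ 2 + 2) := by positivity
    nlinarith
  have h2 := mul_le_mul_of_nonneg_left h1 (by positivity : 0 ≤ V ^ 4)
  linarith

end Vale.Agent.P237.AllN.M4
end

section

/-!
# P237, `m = 4`: the correction term below the cylinder
-/

set_option linter.all false

namespace Vale.Agent.P237.AllN.Corr

open PolyPos Real

/-- `4 + 3 s²` -/
def m4p : List ℤ := [4, 0, 3]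

/-- `16 + s² (4 + 3 s²)` -/
def m4G : List ℤ := [16, 0, 4, 0, 3]

/-- `100 (1 + s² q)`, `q = (79 + 14 s²)/100` -/
def m4a : List ℤ := [100, 0, 79, 0, 14]

/-- `100 (1 + s³ q)` -/
def m4b : List ℤ := [100, 0, 0, 79, 0, 14]

/-- `s²` -/
def m4t : List ℤ := [0, 0, 1]

/-- `20 C` -/
def m4C : List ℤ := padd [9] (padd (psm 11 cz) (psm 20 (ppow cz 2)))

def m4P : List ℤ := padd (psm (8 * 4096) (pmul (pmul m4C (ppow [1, 1] 2)) (pmul (ppow m4a 2) m4b)))
  (padd (psm (-20) (pmul (ppow m4G 4) (pmul cz (pmul [10000] (padd m4b [0, 200])))))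
    (psm (-20 * 64) (pmul (pmul m4t (padd m4G [16])) (pmul m4G (pmul (ppow m4a 2) m4b)))))

set_option maxRecDepth 100000 in
theorem m4P_nonneg {s : ℝ} (h0 : 0 ≤ s) (h1 : s < 1) : 0 ≤ ev1 m4P s :=
  auto1_sound (n := 4) (A := 0) (B := 1) (D := 1) (by norm_num) (by (clear * -; decide +kernel))
    (by push_cast; linarith) (by push_cast; linarith)

theorem m4_main {s t z p G q : ℝ} (hs0 : 0 < s) (hs1 : s < 1) (ht : t = s ^ 2)
    (hz : z = 1 - s ^ 2) (hp : p = 4 + 3 * t) (hG : G = 16 + t * p)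
    (hq : q = (79 + 14 * t) / 100) :
    64 * t * (16 + G) * G * ((1 + t * q) ^ 2 * (1 + s ^ 3 * q)) +
      G ^ 4 * z * (1 + 2 * s + s ^ 3 * q) ≤
    8 * (9 / 20 + 11 / 20 * z + z ^ 2) * (1 + s) ^ 2 * 4096 *
      ((1 + t * q) ^ 2 * (1 + s ^ 3 * q)) := by
  have h := m4P_nonneg hs0.le hs1
  have e : ev1 m4P s = 20000000 * (8 * (9 / 20 + 11 / 20 * z + z ^ 2) * (1 + s) ^ 2 * 4096 *
      ((1 + t * q) ^ 2 * (1 + s ^ 3 * q)) - (64 * t * (16 + G) * G *
      ((1 + t * q) ^ 2 * (1 + s ^ 3 * q)) + G ^ 4 * z * (1 + 2 * s + s ^ 3 * q))) := by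
    have e1 : ev1 m4G s = G := by
      simp only [m4G, ev1_cons, ev1_nil, hG, hp, ht]; push_cast; ring
    have e2 : ev1 m4a s = 100 * (1 + t * q) := by
      simp only [m4a, ev1_cons, ev1_nil, hq, ht]; push_cast; ring
    have e3 : ev1 m4b s = 100 * (1 + s ^ 3 * q) := by
      simp only [m4b, ev1_cons, ev1_nil, hq, ht]; push_cast; ring
    have e4 : ev1 cz s = z := by rw [ev_cz, hz]
    have e5 : ev1 m4C s = 20 * (9 / 20 + 11 / 20 * z + z ^ 2) := by
      simp only [m4C, ev1_padd, ev1_psm, ev1_ppow, ev1_cons, ev1_nil, e4]; push_cast; ring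
    have e6 : ev1 m4t s = t := by
      simp only [m4t, ev1_cons, ev1_nil, ht]; push_cast; ring
    simp only [m4P, ev1_padd, ev1_psm, ev1_ppow, ev1_pmul, ev1_cons, ev1_nil, e1, e2, e3, e4, e5,
      e6]
    push_cast
    ring
  rw [e] at h
  linarith only [h]

/-- the correction term below the cylinder, `m = 4` -/
theorem corrM4 {s sig l z : ℝ} (hs0 : 0 < s) (hs1 : s < 1) (hz : z = 1 - s ^ 2)
    (hsig : 0 ≤ sig) (he : sig ^ 2 = 1 - z * exp (2 * l))
    (hl : exp l ≤ (15 - 10 * z + 3 * z ^ 2) / 8) :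
    -((9 / 20 + 11 / 20 * z + z ^ 2) * (z / s ^ 2) * l ^ 2) ≤ Fc s sig l := by
  have hz0 : 0 < z := by rw [hz]; nlinarith only [hs1, hs0]
  rcases le_or_gt l 0 with h | h
  · refine neg_case hs0 hz hz0.le hsig he h ?_
    have h1 : 0 ≤ z ^ 2 * (1 + s) ^ 2 := by positivity
    have h2 : 0 ≤ z * (1 + s) ^ 2 := by positivity
    nlinarith only [h2, hz]
  · set t : ℝ := s ^ 2 with ht
    have ht0 : 0 < t := by positivity
    have ht1 : t < 1 := by linarith only [hz0, hz]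
    set p : ℝ := 4 + 3 * t with hp
    set G : ℝ := 16 + t * p with hG
    set q : ℝ := (79 + 14 * t) / 100 with hq
    have hp0 : 0 < p := by positivity
    have hG0 : 0 < G := by positivity
    have hq0 : 0 < q := by positivity
    set R : ℝ := 1 + t * p / 8 with hR
    have hR0 : 0 < R := by positivity
    have hRl : exp l ≤ R := by
      refine hl.trans (le_of_eq ?_)
      rw [hR, hp, show z = 1 - t from hz]
      ring
    set a : ℝ := log R with ha
    have hea : exp a = R := exp_log hR0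
    have hea2 : exp (2 * a) = R ^ 2 := by
      rw [show 2 * a = a + a by ring, exp_add, hea]; ring
    have hla : l ≤ a := by
      rw [← hea] at hRl
      exact exp_le_exp.1 hRl
    have ha0 : 0 < a := h.trans_le hla
    have hσ : (s ^ 3 * q) ^ 2 ≤ 1 - z * R ^ 2 := by
      have e1 : 1 - z * R ^ 2 - (s ^ 3 * q) ^ 2 = t ^ 3 * ((40 + 15 * t + 9 * t ^ 2) / 64 - q ^ 2) := by
        rw [hR, hp, show z = 1 - t from hz, hq, ht]
        ring
      have e2 : 0 ≤ (40 + 15 * t + 9 * t ^ 2) / 64 - q ^ 2 := by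
        rw [hq]
        nlinarith only []
      have e3 : 0 ≤ t ^ 3 * ((40 + 15 * t + 9 * t ^ 2) / 64 - q ^ 2) := by (clear * - hs0 e2; positivity)
      linarith only [e1, e3]
    refine gen hs0 hz hz0.le (by positivity) hsig he h hla hea2.le hσ ?_
    set w : ℝ := t * p / G with hw
    have hw0 : 0 < w := by positivity
    have hw1 : w < 1 := by
      rw [hw, div_lt_one hG0, hG]
      linarith only []
    have haw : 2 * w ≤ a := by
      have h1 := half_log_ge hw0.le hw1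
      have h2 : (1 + w) / (1 - w) = R := by
        have h3 : 1 + w = (16 + 2 * (t * p)) / G := by rw [hw, hG]; field_simp; ring
        have h4 : 1 - w = 16 / G := by rw [hw, hG]; field_simp; ring
        rw [h3, h4, hR]
        field_simp
        ring
      rw [h2] at h1
      have : 0 ≤ w ^ 3 / 3 + w ^ 5 / 5 := by positivity
      rw [ha]; linarith only [h1, this]
    have hmain := m4_main hs0 hs1 ht hz hp hG hq
    have hd1 : 0 < (1 + t * q) ^ 2 * (1 + s ^ 3 * q) := by positivity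
    have key : (R ^ 2 - 1) ^ 2 * z * (1 + 2 * s + s ^ 3 * q) /
        ((s ^ 3 * q + s) ^ 2 * (1 + s ^ 3 * q)) + (R ^ 2 - 1 - 2 * (2 * w)) ≤
        2 * (9 / 20 + 11 / 20 * z + z ^ 2) * (1 + s) ^ 2 * (2 * w) ^ 2 / s ^ 2 := by
      have hRt : R = (G - 8) / 8 := by rw [hR, hG]; ring
      have e0 : R ^ 2 - 1 = t * p * G / 64 := by rw [hR, hG]; ring
      have e1 : (R ^ 2 - 1) ^ 2 * z * (1 + 2 * s + s ^ 3 * q) /
        ((s ^ 3 * q + s) ^ 2 * (1 + s ^ 3 * q)) = t * p ^ 2 / G ^ 2 *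
          (G ^ 4 * z * (1 + 2 * s + s ^ 3 * q) / (4096 * ((1 + t * q) ^ 2 * (1 + s ^ 3 * q)))) := by
        rw [e0, show s ^ 3 * q + s = s * (1 + t * q) by rw [ht]; ring, mul_pow]
        rw [show (s ^ 2 : ℝ) = t from ht.symm]
        field_simp
        ring
      have e2 : R ^ 2 - 1 - 2 * (2 * w) = t * p ^ 2 / G ^ 2 *
          (64 * t * (16 + G) * G / 4096) := by
        rw [e0, hw]
        have : G = 16 + t * p := hG
        field_simp
        rw [this]
        ring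
      have e3 : 2 * (9 / 20 + 11 / 20 * z + z ^ 2) * (1 + s) ^ 2 * (2 * w) ^ 2 / s ^ 2 =
          t * p ^ 2 / G ^ 2 * (8 * (9 / 20 + 11 / 20 * z + z ^ 2) * (1 + s) ^ 2) := by
        rw [hw, show (s ^ 2 : ℝ) = t from ht.symm]
        field_simp
        ring
      rw [e1, e2, e3, ← mul_add]
      apply mul_le_mul_of_nonneg_left _ (by positivity)
      rw [div_add_div _ _ (by positivity) (by norm_num), div_le_iff₀ (by positivity)]
      linear_combination 4096 * hmain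
    have h6 : (2 * w) ^ 2 ≤ a ^ 2 := pow_le_pow_left₀ (by positivity) haw 2
    have h7 : 2 * (9 / 20 + 11 / 20 * z + z ^ 2) * (1 + s) ^ 2 * (2 * w) ^ 2 / s ^ 2 ≤
        2 * (9 / 20 + 11 / 20 * z + z ^ 2) * (1 + s) ^ 2 * a ^ 2 / s ^ 2 := by
      apply div_le_div_of_nonneg_right _ (by positivity)
      exact mul_le_mul_of_nonneg_left h6 (by positivity)
    linarith only [haw, key, h7]

/-- the correction term below the cylinder, `m = 4` -/
theorem corr_M4 {x l : ℝ} (hx0 : 0 < x) (hx1 : x < 1)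
    (hl : exp l ≤ (15 - 10 * x ^ 2 + 3 * x ^ 4) / 8) :
    -((9 / 20 + 11 / 20 * x ^ 2 + (x ^ 2) ^ 2) * (x ^ 2 / sq x ^ 2)) * l ^ 2 ≤
      sq x * (bg (x * exp l) - bg x) + x ^ 2 * l / (1 + sq x) ^ 2 := by
  have h1 : x * exp l ≤ 1 := by
    have h2 : x * exp l ≤ x * ((15 - 10 * x ^ 2 + 3 * x ^ 4) / 8) :=
      mul_le_mul_of_nonneg_left hl hx0.le
    have h3 : 0 ≤ (1 - x) ^ 3 * (8 + 9 * x + 3 * x ^ 2) := by
      have : 0 < 1 - x := by linarith only [hx1]
      positivity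
    linarith
  obtain ⟨a1, a2, a3, a4, a5⟩ := sq_facts hx0 hx1 h1
  have h := corrM4 a1 a2 a3 a4 a5 (l := l) (by
    rw [show (x ^ 2) ^ 2 = x ^ 4 by ring]; exact hl)
  rw [Fc_bg hx0 hx1, neg_mul]
  exact h

end Vale.Agent.P237.AllN.Corr
end

section

/-!
# P237: the elementary inputs for `m = 4`
-/

open MeasureTheory Set Finset

namespace Vale.Agent.P237.AllN

open Alm

section

variable {r τ τ' T : ℝ → ℝ} {x : ℝ}

theorem pin_P_four (hx : x ∈ Ioo (0 : ℝ) 1) :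
    (∫ t in (0 : ℝ)..x, sq t ^ 4) = x - 2 / 3 * x ^ 3 + x ^ 5 / 5 := by
  have h1 : (∫ t in (0 : ℝ)..x, sq t ^ 4) =
      ∫ t in (0 : ℝ)..x, ∑ i ∈ range 3, (fun i => ([1, -2, 1] : List ℝ).getD i 0) i * (t ^ 2) ^ i := by
    apply intervalIntegral.integral_congr
    intro t ht
    rw [Set.uIcc_of_le hx.1.le] at ht
    have ht' : t ∈ Icc (0 : ℝ) 1 := ⟨ht.1, ht.2.trans hx.2.le⟩
    have e1 := pin_sq_sq ht'
    have e3 : sq t ^ 4 = (1 - t ^ 2) ^ 2 := by rw [← e1]; ring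
    simp only [e3, Finset.sum_range_succ, Finset.sum_range_zero, List.getD_cons_zero,
      List.getD_cons_succ]
    ring
  rw [h1, pin_int_poly]
  simp only [Finset.sum_range_succ, Finset.sum_range_zero, List.getD_cons_zero,
    List.getD_cons_succ]
  push_cast
  ring

/-- comparison with the cone, `m = 4` -/
theorem IsTrans.pin_cone_four (hr : IsProf r) (h : IsTrans 4 r τ τ' T)
    (hx : x ∈ Ioo (0 : ℝ) 1) :
    (1 - τ x) ^ 5 * 8 ≤ (1 - x) ^ 3 * (8 + 9 * x + 3 * x ^ 2) := by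
  have h1 := h.pin_cone hr hx
  have h2 := pin_split 4 x
  rw [pin_P_four hx, pin_am, pin_am_four] at h2
  rw [pin_am, pin_am_four] at h1
  have h3 : (∫ t in x..1, sq t ^ 4) = 8 / 15 - (x - 2 / 3 * x ^ 3 + x ^ 5 / 5) := by linarith only [h2]
  rw [h3] at h1
  have e1 : (1 - x) ^ 3 * (8 + 9 * x + 3 * x ^ 2) =
      15 * (8 / 15 - (x - 2 / 3 * x ^ 3 + x ^ 5 / 5)) := by ring
  rw [e1]
  norm_num at h1 ⊢
  linarith only [h1]

theorem pin_exp_one_ge : (2718 / 1000 : ℝ) ≤ Real.exp 1 := by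
  have := Real.exp_one_gt_d9
  linarith only [this]

/-- **(h6)** for `m = 4` -/
theorem IsTrans.pin_h6_four (hr : IsProf r) (h : IsTrans 4 r τ τ' T)
    (hx : x ∈ Ioo (0 : ℝ) 1) : -1 ≤ lf τ x := by
  by_contra hcon
  push Not at hcon
  have hτ := h.mem x hx
  have h1 := h.pin_cone_four hr hx
  have hx0 := hx.1
  have hx1 := hx.2
  have h3 : τ x ≤ 368 / 1000 * x := by
    rw [← pin_exp h hx]
    have h4 : Real.exp (lf τ x) < Real.exp (-1) := Real.exp_lt_exp.2 hcon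
    have h5 : Real.exp (-1) ≤ 368 / 1000 := by
      rw [Real.exp_neg]
      have := pin_exp_one_ge
      calc (Real.exp 1)⁻¹ ≤ (2718 / 1000 : ℝ)⁻¹ := inv_anti₀ (by norm_num) this
        _ ≤ 368 / 1000 := by norm_num
    nlinarith only [hx0, h4, h5]
  have h4 : (1 - 368 / 1000 * x) ^ 5 ≤ (1 - τ x) ^ 5 :=
    pow_le_pow_left₀ (by linarith only [hx1]) (by linarith) _
  have h5 : (1 - x) ^ 3 * (8 + 9 * x + 3 * x ^ 2) < (1 - 368 / 1000 * x) ^ 5 * 8 := by
    have h6 : 0 < x * (0.28 + 10.8 * x - 14 * x ^ 2 + 0.7 * x ^ 3 + 2.9 * x ^ 4) := by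
      apply mul_pos hx0
      nlinarith only [hx1, pow_pos hx0 4, mul_pos (pow_pos hx0 3) (sub_pos.2 hx1)]
    nlinarith only [h6, pow_pos hx0 5]
  linarith only [h5, h4, h1]

/-- **(h7)** for `m = 4` -/
theorem IsTrans.pin_h7_four (hr : IsProf r) (h : IsTrans 4 r τ τ' T) :
    -(97 / 200) ≤ lf τ (2 / 3) := by
  have hx : (2 / 3 : ℝ) ∈ Ioo (0 : ℝ) 1 := by constructor <;> norm_num
  refine h.pin_ge_of hr hx (ρ := 1473 / 2500) (Q := 71 / 1000) (by norm_num) (by norm_num) ?_ ?_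
  · rw [pin_P_four hx, pin_am, pin_am_four]
    (clear * -; norm_num)
  · have h5 := pin_exp_ge (97 / 200) (by norm_num)
    norm_num at h5 ⊢
    linarith

/-- **(h4)** for `m = 4` -/
theorem IsTrans.pin_h4_four (hr : IsProf r) (h : IsTrans 4 r τ τ' T)
    (hx : x ∈ Ioo (0 : ℝ) 1) : uf τ τ' x * sq x ≤ 3 / 4 * x := by
  refine h.pin_h4_of (by norm_num) hr hx ?_
  rw [pin_am_four]
  norm_num

end

end Vale.Agent.P237.AllN
end

section

/-!
# P237, `m = 4`: the pointwise inequality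
-/

open MeasureTheory Metric Set Module Filter Topology

namespace Vale.Agent.P237.AllN.M4

open PolyPos Alm

/-! ### elementary bounds -/

theorem exp_bd {v : ℝ} (h : |v| ≤ 1) : |Real.exp v - (1 + v + v ^ 2 / 2 + v ^ 3 / 6)| ≤
    5 / 96 * v ^ 4 := by
  have h1 := Real.exp_bound h (n := 4) (by norm_num)
  have e : ∑ m ∈ Finset.range 4, v ^ m / (m.factorial : ℝ) = 1 + v + v ^ 2 / 2 + v ^ 3 / 6 := by
    simp only [Finset.sum_range_succ, Finset.range_one, Finset.sum_singleton, pow_zero, Nat.factorial, Nat.cast_one, ne_eq, one_ne_zero, not_false_eq_true, div_self, pow_one, Nat.succ_eq_add_one, zero_add, mul_one, div_one, Nat.reduceAdd, Nat.cast_ofNat, Nat.reduceMul]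
  rw [e] at h1
  have e2 : |v| ^ 4 = v ^ 4 := by
    rw [show (4 : ℕ) = 2 * 2 by norm_num, pow_mul, sq_abs, pow_mul]
  rw [e2] at h1
  refine h1.trans (le_of_eq ?_)
  norm_num [Nat.factorial]
  ring

variable {r τ τ' T : ℝ → ℝ} {x : ℝ}

theorem in_lhi (hr : IsProf r) (h : IsTrans 4 r τ τ' T) (hx : x ∈ Ioo (0 : ℝ) 1) :
    lf τ x ≤ 63 / 100 := by
  have h1 := in_cyl hr h hx
  by_contra hc
  push Not at hc
  have h3 := Real.exp_lt_exp.2 hc
  have h5 := pin_exp_ge (63 / 100) (by norm_num)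
  norm_num at h5
  have h6 : x ^ 4 ≤ x ^ 2 := by
    have := mul_le_mul_of_nonneg_left (show x ^ 2 ≤ 1 by nlinarith only [hx.1, hx.2]) (sq_nonneg x)
    linarith only [this]
  nlinarith only [h1, h3, h5, h6]

/-- window bound -/
theorem in_ly (hr : IsProf r) (h : IsTrans 4 r τ τ' T) (hx : x ∈ Ioo (0 : ℝ) 1)
    (hx0 : 2 / 3 ≤ x) :
    lf τ x ≤ (1 - x ^ 2) * (1 / 2 + 1 / 4 * (1 - x ^ 2) - 1 / 10 * (1 - x ^ 2) ^ 2) := by
  have h1 := in_cyl hr h hx
  have hx2 : x ^ 2 < 1 := by nlinarith only [hx0, hx.2]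
  have hx3 : 4 / 9 ≤ x ^ 2 := by nlinarith only [hx0]
  obtain ⟨t, ht⟩ : ∃ t, t = 1 - x ^ 2 := ⟨_, rfl⟩
  rw [← ht]
  have e : (15 - 10 * x ^ 2 + 3 * x ^ 4) / 8 = 1 + t / 2 + 3 / 8 * t ^ 2 := by rw [ht]; ring
  rw [e] at h1
  have ht0 : 0 < t := by linarith only [hx2, ht]
  have ht1 : t ≤ 5 / 9 := by linarith only [hx3, ht]
  have hw : 0 ≤ t * (1 / 2 + 1 / 4 * t - 1 / 10 * t ^ 2) := by
    have : 0 ≤ 1 / 2 + 1 / 4 * t - 1 / 10 * t ^ 2 := by nlinarith only [hx2, ht]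
    (clear * - ht0 this; positivity)
  have h2 := Real.quadratic_le_exp_of_nonneg hw
  have h3 : 1 + t / 2 + 3 / 8 * t ^ 2 ≤ 1 + t * (1 / 2 + 1 / 4 * t - 1 / 10 * t ^ 2) +
      (t * (1 / 2 + 1 / 4 * t - 1 / 10 * t ^ 2)) ^ 2 / 2 := by
    have e3 : 1 + t * (1 / 2 + 1 / 4 * t - 1 / 10 * t ^ 2) +
      (t * (1 / 2 + 1 / 4 * t - 1 / 10 * t ^ 2)) ^ 2 / 2 - (1 + t / 2 + 3 / 8 * t ^ 2) =
      t ^ 3 * (1 / 40 - 3 / 160 * t - 1 / 40 * t ^ 2 + 1 / 200 * t ^ 3) := by ring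
    have h4 : 0 ≤ 1 / 40 - 3 / 160 * t - 1 / 40 * t ^ 2 + 1 / 200 * t ^ 3 := by
      have : 0 ≤ t ^ 3 := by positivity
      nlinarith only [hx3, ht, this]
    have h5 := mul_nonneg (pow_nonneg ht0.le 3) h4
    linarith only [h5]
  exact Real.exp_le_exp.1 (h1.trans (h3.trans h2))

/-- tail bound -/
theorem in_lt (hr : IsProf r) (h : IsTrans 4 r τ τ' T) (hx : x ∈ Ioo (0 : ℝ) 1)
    (hx0 : 9 / 10 ≤ x) {t be : ℝ} (ht : t = 1 - x ^ 2) (hbe : 0 < be)
    (hu : be * (1 + uf τ τ' x) = 1) :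
    lf τ x ≤ t * (1 / 2 + 1 / 4 * t + 1 / 6 * t ^ 2 + 231 / 1000 * t ^ 3 -
      2 / (2 * be * (6 - 5 * t) + t)) := by
  have h1 := in_tail hr h hx
  have hx1 := hx.1
  have hx2 : x ^ 2 < 1 := by nlinarith only [hx0, hx.2]
  have ht0 : 0 < t := by linarith only [ht, hx2]
  have ht1 : t ≤ 19 / 100 := by nlinarith only [hx0, ht]
  have hsq : sq x ^ 2 = t := by rw [pin_sq_sq (Ioo_subset_Icc_self hx), ht]
  rw [hsq] at h1
  have hG : 0 < 6 - 5 * t := by linarith only [ht1]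
  obtain ⟨w, hw⟩ : ∃ w, w = t / (be * (6 - 5 * t)) := ⟨_, rfl⟩
  have hw0 : 0 < w := by rw [hw]; (clear * - ht0 hbe hG; positivity)
  have hE : 1 + uf τ τ' x = 1 / be := by
    rw [eq_div_iff hbe.ne']; linarith only [hu]
  have e1 : (1 + uf τ τ' x) * t / (6 - 5 * t) = w := by
    rw [hE, hw]
    (clear * - ht0 hbe; field_simp)
  rw [e1] at h1
  have h2 := Real.le_log_one_add_of_nonneg hw0.le
  -- log
  have h3 : Real.log (1 + w) + (Real.log x + lf τ x) ≤ 0 := by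
    have h4 := Real.log_nonpos (by (clear * - hw0 hx0; positivity)) h1
    rw [Real.log_mul (by positivity) (by positivity), Real.log_mul (by positivity) (by positivity),
      Real.log_exp] at h4
    exact h4
  have e2 : 2 * w / (w + 2) = t * (2 / (2 * be * (6 - 5 * t) + t)) := by
    rw [hw]
    obtain ⟨G, hGd⟩ : ∃ G, G = 6 - 5 * t := ⟨_, rfl⟩
    rw [← hGd] at hG ⊢
    have hb : be * G ≠ 0 := by (clear * - hbe hG; positivity)
    have h4 : t / (be * G) + 2 = (2 * be * G + t) / (be * G) := by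
      field_simp
      ring
    rw [h4]
    have h5 : 2 * be * G + t ≠ 0 := by positivity
    (clear * - hbe hG h5 ht0; field_simp)
  rw [e2] at h2
  have h5 : -Real.log x ≤ t * (1 / 2 + 1 / 4 * t + 1 / 6 * t ^ 2 + 231 / 1000 * t ^ 3) := by
    have h6 := Real.abs_log_sub_add_sum_range_le (x := t) (by rw [abs_of_pos ht0]; linarith only [ht1]) 5
    have e3 : Real.log (1 - t) = 2 * Real.log x := by
      rw [ht, show (1 : ℝ) - (1 - x ^ 2) = x ^ 2 by ring, Real.log_pow]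
      norm_num
    rw [e3, abs_of_pos ht0] at h6
    have h7 := (abs_le.1 h6).1
    simp only [Finset.sum_range_succ, Finset.sum_range_zero] at h7
    norm_num at h7
    have h8 : t ^ 6 / (1 - t) ≤ t ^ 4 * (45 / 1000) := by
      rw [div_le_iff₀ (by linarith only [ht1])]
      have h9 : t ^ 2 ≤ 45 / 1000 * (1 - t) := by nlinarith only [ht1, hsq]
      have h10 := mul_le_mul_of_nonneg_left h9 (pow_nonneg ht0.le 4)
      linarith only [h10]
    have h11 : t ^ 5 ≤ 19 / 100 * t ^ 4 := by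
      have := mul_le_mul_of_nonneg_left ht1 (pow_nonneg ht0.le 4)
      nlinarith only [this]
    have h12 : 0 ≤ t ^ 4 := by positivity
    linarith only [mul_nonneg (sq_nonneg (1 * t : ℝ)) (sq_nonneg (1 * t : ℝ)), mul_nonneg (mul_self_nonneg (1 : ℝ)) (sub_nonneg.2 h11), mul_nonneg (mul_self_nonneg (1 : ℝ)) (sub_nonneg.2 h8), mul_nonneg (mul_self_nonneg (1 : ℝ)) (sub_nonneg.2 h7)]
  have : lf τ x ≤ -Real.log x - Real.log (1 + w) := by linarith only [h3]
  refine this.trans ?_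
  linarith only [h2, h5]

/-- the lower bound of `T` -/
theorem low4 (hr : IsProf r) (h : IsTrans 4 r τ τ' T) (hx : x ∈ Ioo (0 : ℝ) 1) {R rb : ℝ}
    (hR : R ≤ 1 - sq x ^ 2 / (1 + sq x))
    (hrb : ∀ V : ℝ, 0 < V → V ^ 4 = 1 + uf τ τ' x →
      (uf τ τ' x - 4 * (V - 1)) * (1 + uf τ τ' x) ≤ rb * uf τ τ' x ^ 2) :
    pcLow ((4 : ℕ) : ℝ) (42 / 25) (3 / 20) (13 / 250) R (9 / 20 + 11 / 20 * x ^ 2 + (x ^ 2) ^ 2)
      (rb / (1 + uf τ τ' x)) (x ^ 2 / sq x ^ 2) (lf τ x) (uf τ τ' x) (lf τ (2 / 3)) ≤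
      brT 4 τ τ' (1 + 42 / 25 * lf τ (2 / 3)) x := by
  have hu := uf_pos h hx
  have hs := sqx_pos hx
  have hlo := h.pin_h6_four hr hx
  have hhi := in_lhi hr h hx
  have hl1 := in_lamlo hr h
  have hl2 := in_lamhi hr h
  set l := lf τ x with hl
  set u := uf τ τ' x with hu'
  set lam := lf τ (2 / 3) with hlam
  obtain ⟨v, hv⟩ : ∃ v, v = l / 4 := ⟨_, rfl⟩
  have hv1 : -(1 / 4) ≤ v := by rw [hv]; linarith only [hlo]
  have hv2 : v ≤ 63 / 400 := by rw [hv]; linarith only [hhi]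
  have hE := exp_bd (v := v) (by rw [abs_le]; constructor <;> linarith only [hhi, hv, hlo])
  have hE1 := (abs_le.1 hE).1
  have hE2 := (abs_le.1 hE).2
  have hV0 : 0 < (1 + u) ^ (1 / ((4 : ℕ) : ℝ)) := Real.rpow_pos_of_pos hu _
  have hV4 : ((1 + u) ^ (1 / ((4 : ℕ) : ℝ))) ^ 4 = 1 + u := by
    rw [← Real.rpow_natCast, ← Real.rpow_mul hu.le]
    norm_num
  have hmu : 0 < 1 + 42 / 25 * lam := by linarith only [hl1]
  have hvl : Real.exp (l / ((4 : ℕ) : ℝ)) = Real.exp v := by rw [hv]; norm_num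
  have hv4 : l = 4 * v := by rw [hv]; ring
  have hvv : 0 ≤ v ^ 2 := sq_nonneg v
  unfold brT
  rw [← hl, ← hu']
  refine pc_lower (m := ((4 : ℕ) : ℝ)) (by norm_num) hs hu hR ?_ ?_ ?_ ?_ ?_ ?_
  · have h1 := Corr.corr_M4 hx.1 hx.2 (in_cyl hr h hx)
    rw [pin_exp h hx] at h1
    exact h1
  · have := rho0 hV0 hV4
    norm_num at this ⊢
    exact this
  · have h1 := hrb _ hV0 hV4
    rw [div_mul_eq_mul_div, le_div_iff₀ hu]
    norm_num at h1 ⊢
    linarith only [h1]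
  · have := Real.exp_pos (l / ((4 : ℕ) : ℝ))
    (clear * - hmu; positivity)
  · rw [hvl, hv4]
    have h1 : Real.exp v - 1 - v ≤ 1 / 2 * v ^ 2 + v ^ 3 / 6 + 5 / 96 * v ^ 4 := by (clear * - hE2; linarith only [hE2])
    have h2 : 1 / 2 * v ^ 2 + v ^ 3 / 6 + 5 / 96 * v ^ 4 ≤ 416 / 780 * v ^ 2 := by
      have e : 416 / 780 * v ^ 2 - (1 / 2 * v ^ 2 + v ^ 3 / 6 + 5 / 96 * v ^ 4) =
        v ^ 2 * (416 / 780 - 1 / 2 - v / 6 - 5 / 96 * v ^ 2) := by ring
      have : 0 ≤ 416 / 780 - 1 / 2 - v / 6 - 5 / 96 * v ^ 2 := by nlinarith only [hhi, hv, hlo]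
      have := mul_nonneg hvv this
      linarith only [this]
    have h3 : (1 + 42 / 25 * lam) * (Real.exp v - 1 - v) ≤
        (1 + 42 / 25 * lam) * (416 / 780 * v ^ 2) :=
      mul_le_mul_of_nonneg_left (h1.trans h2) hmu.le
    have h4 : (1 + 42 / 25 * lam) * (416 / 780 * v ^ 2) ≤ 39 / 25 * (416 / 780 * v ^ 2) :=
      mul_le_mul_of_nonneg_right (by linarith only [hl2]) (by (clear * -; positivity))
    norm_num
    linarith only [h4, h3]
  · rw [hvl, hv4]
    have h1 : 1 / 2 * v ^ 2 + v ^ 3 / 6 - 5 / 96 * v ^ 4 ≤ Real.exp v - 1 - v := by linarith only [hE1]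
    have h2 : 45 / 100 * v ^ 2 ≤ 1 / 2 * v ^ 2 + v ^ 3 / 6 - 5 / 96 * v ^ 4 := by
      have e : 1 / 2 * v ^ 2 + v ^ 3 / 6 - 5 / 96 * v ^ 4 - 45 / 100 * v ^ 2 =
        v ^ 2 * (5 / 100 + v / 6 - 5 / 96 * v ^ 2) := by ring
      have : 0 ≤ 5 / 100 + v / 6 - 5 / 96 * v ^ 2 := by nlinarith only [hlo, hv, hhi]
      have := mul_nonneg hvv this
      linarith only [this]
    have h3 : (1 + 42 / 25 * lam) * (45 / 100 * v ^ 2) ≤
        (1 + 42 / 25 * lam) * (Real.exp v - 1 - v) :=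
      mul_le_mul_of_nonneg_left (h2.trans h1) hmu.le
    have h4 : 1768 / 10000 * (45 / 100 * v ^ 2) ≤ (1 + 42 / 25 * lam) * (45 / 100 * v ^ 2) :=
      mul_le_mul_of_nonneg_right (by linarith only [hl1]) (by (clear * -; positivity))
    norm_num
    nlinarith only [h3, h4]

end Vale.Agent.P237.AllN.M4
end

section

/-!
# P237, `m = 4`: the pointwise inequality left and right of the pole
-/

open MeasureTheory Metric Set Module Filter Topology

namespace Vale.Agent.P237.AllN.M4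

open PolyPos Alm

theorem frR (n : ℤ) (d : ℕ) : Fr.R ⟨n, d⟩ = n / ((d : ℝ) + 1) := rfl

theorem R_k1 : P4.k1.R = 42 / 25 := by simp only [P4, frR]; norm_num
theorem R_a1 : P4.a1.R = 41 / 100 := by simp only [P4, frR]; norm_num
theorem R_a2 : P4.a2.R = 11 / 200 := by simp only [P4, frR]; norm_num
theorem R_a3 : P4.a3.R = 31 / 100 := by simp only [P4, frR]; norm_num
theorem R_a4 : P4.a4.R = 7 / 25 := by simp only [P4, frR]; norm_num
theorem R_th : P4.th.R = 3 / 20 := by simp only [P4, frR]; norm_num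
theorem R_c2 : P4.c2.R = 13 / 250 := by simp only [P4, frR]; norm_num
theorem R_eps : P4.eps.R = 1 / 1000 := by simp only [P4, frR]; norm_num
theorem R_e0 : 0 < P4.e0.R := by simp only [P4, frR]; norm_num
theorem R_cx : cx.R = 4 / 9 := by simp only [cx, frR]; norm_num
theorem m4 : P4.m = 4 := rfl

theorem qR_R (z : Ex) (x y : ℝ) : (qR z).R x y =
    1 / 2 + 3 / 8 * z.R x y + 1 / 16 * z.R x y ^ 2 := by
  simp only [qR, Ex.R_add, Ex.R_mul, Ex.R_c, frR]; norm_num; ring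

theorem qC4_R (z : Ex) (x y : ℝ) : (qC4 z).R x y =
    9 / 20 + 11 / 20 * z.R x y + z.R x y ^ 2 := by
  simp only [qC4, Ex.R_add, Ex.R_mul, Ex.R_c, frR]; norm_num; ring

theorem rbA_R (x y : ℝ) : rbA.R x y = 3 / 8 + 5 / 32 * (x * y) - 1 / 20 * (x * y) ^ 2 := by
  simp only [rbA, Ex.R_add, Ex.R_sub, Ex.R_mul, Ex.R_c, Ex.R_X, Ex.R_Y, frR]; norm_num; ring

theorem rbL_R (x y : ℝ) : rbL.R x y = 3 / 8 - 5 / 32 * (x * y) - 35 / 512 * (x * y) ^ 2 := by
  simp only [rbL, Ex.R_add, Ex.R_sub, Ex.R_mul, Ex.R_c, Ex.R_X, Ex.R_Y, frR]; norm_num; ring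

theorem rbR_R (x y : ℝ) : rbR.R x y = 3 / 8 - 5 / 32 * (1 - y) - 35 / 512 * (1 - y) ^ 2 := by
  simp only [rbR, Ex.R_add, Ex.R_sub, Ex.R_mul, Ex.R_c, Ex.R_X, Ex.R_Y, frR]; norm_num; ring

theorem rbD_R (x y : ℝ) : rbD.R x y = 3 * y := by
  simp only [rbD, Ex.R_add, Ex.R_sub, Ex.R_mul, Ex.R_c, Ex.R_X, Ex.R_Y, frR]; norm_num

theorem rbE_R (x y : ℝ) : rbE.R x y = 3 / 8 + 5 / 32 * (1 - y) + 4 / 25 * (1 - y) ^ 2 := by
  simp only [rbE, Ex.R_add, Ex.R_sub, Ex.R_mul, Ex.R_c, Ex.R_X, Ex.R_Y, frR]; norm_num; ring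

theorem rbG_R (x y : ℝ) : rbG.R x y = 3 / 8 + 5 / 8 * (1 - y) := by
  simp only [rbG, Ex.R_add, Ex.R_sub, Ex.R_mul, Ex.R_c, Ex.R_X, Ex.R_Y, frR]; norm_num

theorem lyJ_R (x y : ℝ) : lyJ.R x y = 18 / 25 - 187 / 200 * x ^ 2 -
    (18 / 5 - 107 / 10 * x ^ 2 + 46 / 5 * (x ^ 2) ^ 2) * (x * y) := by
  simp only [lyJ, Ex.R_add, Ex.R_sub, Ex.R_mul, Ex.R_c, Ex.R_X, Ex.R_Y, frR]; norm_num; ring

theorem lyW_R (x y : ℝ) : lyW.R x y = 1 / 2 + 1 / 4 * (x * x) - 1 / 10 * (x * x) ^ 2 := by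
  simp only [lyW, Ex.R_add, Ex.R_sub, Ex.R_mul, Ex.R_c, Ex.R_X, frR]; norm_num; ring

theorem lpW_R (x y : ℝ) : (lpW ⟨231, 999⟩).R x y =
    1 / 2 + 1 / 4 * (x * x) + 1 / 6 * (x * x) ^ 2 + 231 / 1000 * (x * x) ^ 3 := by
  simp only [lpW, Ex.R_add, Ex.R_mul, Ex.R_c, Ex.R_X, frR]; norm_num; ring

theorem jj4_R (x y : ℝ) : jj4.R x y = 34 / 100 + 31 / 100 * (x * x) := by
  simp only [jj4, Ex.R_add, Ex.R_mul, Ex.R_c, Ex.R_X, frR]; norm_num

theorem kk4_R (x y : ℝ) : kk4.R x y = 15 / 100 + 3 / 2 * (x * x) := by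
  simp only [kk4, Ex.R_add, Ex.R_mul, Ex.R_c, Ex.R_X, frR]; norm_num

theorem loLP_R (x y : ℝ) : loLP.R x y = y ^ 2 * (1 - x ^ 2) - 9 / 16 := by
  simp only [loLP, Ex.R_sub, Ex.R_mul, Ex.R_c, Ex.R_X, Ex.R_Y, frR]; norm_num; ring

theorem loRM_R (x y : ℝ) : loRM.R x y =
    15 * (x * x) ^ 2 - y * (8 + 4 * (x * x) + 3 * (x * x) ^ 2) := by
  simp only [loRM, Ex.R_add, Ex.R_sub, Ex.R_mul, Ex.R_c, Ex.R_X, Ex.R_Y, frR]; norm_num; ring

theorem loRP_R (x y : ℝ) : loRP.R x y =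
    (1 - y) ^ 2 * (x * x) - 9 / 16 * y ^ 2 * (1 - x * x) := by
  simp only [loRP, Ex.R_sub, Ex.R_mul, Ex.R_c, Ex.R_X, Ex.R_Y, frR]; norm_num; ring

theorem zero_R (x y : ℝ) : (Ex.c ⟨0, 0⟩).R x y ≤ 0 := by
  simp only [Ex.R_c, frR]; norm_num

theorem qR_le {s : ℝ} (hs0 : 0 < s) (hs1 : s ≤ 1) {z : ℝ} (hz : z = 1 - s ^ 2) :
    1 / 2 + 3 / 8 * z + 1 / 16 * z ^ 2 ≤ 1 - s ^ 2 / (1 + s) := by
  rw [← sub_nonneg]
  have e : 1 - s ^ 2 / (1 + s) - (1 / 2 + 3 / 8 * z + 1 / 16 * z ^ 2) =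
      (1 - s) ^ 3 * (1 + 4 * s + s ^ 2) / (16 * (1 + s)) := by
    rw [hz]
    field_simp
    ring
  rw [e]
  have : 0 ≤ 1 - s := by linarith only [hs1]
  positivity

theorem v_le {v z c z1 : ℝ} (hc : 0 ≤ c) (hz : z ≤ z1) (hz1 : z1 ≤ 1)
    (h : v ^ 2 * (1 - z) ≤ 9 / 16) (h1 : 9 / 16 < c ^ 2 * (1 - z1)) : v ≤ c := by
  by_contra hcon
  push Not at hcon
  have h2 : c ^ 2 < v ^ 2 := pow_lt_pow_left₀ hcon hc (by norm_num)
  have h3 : c ^ 2 * (1 - z1) ≤ v ^ 2 * (1 - z1) :=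
    mul_le_mul_of_nonneg_right h2.le (by linarith only [hz1])
  have h4 : v ^ 2 * (1 - z1) ≤ v ^ 2 * (1 - z) :=
    mul_le_mul_of_nonneg_left (by linarith only [hz]) (sq_nonneg v)
  linarith only [h, h1, h3, h4]

variable {r τ τ' T : ℝ → ℝ} {x : ℝ}

/-- **left of the pole** -/
theorem ptL (hr : IsProf r) (h : IsTrans 4 r τ τ' T) (hx : x ∈ Ioo (0 : ℝ) 1)
    (hx0 : x < 2 / 3) :
    1 / 1000 * (uf τ τ' x ^ 2 / (1 + uf τ τ' x)) ≤
      brT 4 τ τ' (1 + 42 / 25 * lf τ (2 / 3)) x +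
      pcNL ((4 : ℕ) : ℝ) (41 / 100) (11 / 200) (31 / 100) (4 / 9) (x ^ 2) (x ^ 2 / sq x ^ 2)
        (lf τ x - lf τ (2 / 3)) (uf τ τ' x) (lf τ (2 / 3)) := by
  have hu := uf_pos h hx
  have hs := sqx_pos hx
  have hs1 : sq x ≤ 1 := pin_sq_le_one x
  have hsq : sq x ^ 2 = 1 - x ^ 2 := pin_sq_sq (Ioo_subset_Icc_self hx)
  have hx1 := hx.1
  have hz0 : 0 < x ^ 2 := pow_pos hx1 2
  have hz1 : x ^ 2 < 4 / 9 := by nlinarith only [hx0, hx1]
  have ht : 0 < 1 - x ^ 2 := by linarith only [hz1]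
  have hR := qR_le hs hs1 (z := x ^ 2) (by rw [hsq]; ring)
  have hδ : cx.R - x ^ 2 ≠ 0 := by rw [R_cx]; linarith only [hz1]
  rcases le_or_gt 0 (uf τ τ' x) with hu0 | hu0
  · obtain ⟨v, hv⟩ : ∃ v, uf τ τ' x = x * v := ⟨uf τ τ' x / x, by (clear * - hx1; field_simp)⟩
    have hv0 : 0 ≤ v := by
      by_contra hc
      push Not at hc
      have := mul_neg_of_pos_of_neg hx1 hc
      linarith only [hu0, hv, this]
    have hwin := in_win2 hr h hx hu0
    rw [hv] at hwin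
    have hv2 : v ^ 2 * (1 - x ^ 2) ≤ 9 / 16 := by
      have : x ^ 2 * (v ^ 2 * (1 - x ^ 2)) ≤ x ^ 2 * (9 / 16) := by linarith only [hwin]
      exact le_of_mul_le_mul_left this hz0
    have hu1 : uf τ τ' x ≤ 17 / 25 := by
      rw [hv]
      by_contra hc
      push Not at hc
      have h1 : (17 / 25) ^ 2 < (x * v) ^ 2 := pow_lt_pow_left₀ hc (by norm_num) (by norm_num)
      have h2 : (x * v) ^ 2 * (5 / 9) ≤ (x * v) ^ 2 * (1 - x ^ 2) :=
        mul_le_mul_of_nonneg_left (by linarith only [hz1]) (sq_nonneg _)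
      nlinarith only [hwin, h1, h2]
    have hlow := low4 hr h hx hR (rb := 3 / 8 + 5 / 32 * uf τ τ' x - 1 / 20 * uf τ τ' x ^ 2)
      (fun V hV0 hV => rho_a hV0 hV hu0 hu1)
    have hrb : 0 ≤ 3 / 8 + 5 / 32 * (x * v) - 1 / 20 * (x * v) ^ 2 := by
      rw [hv] at hu0 hu1
      nlinarith only [hz1, hu0, hv2]
    rcases lt_or_ge x (38 / 100) with hx2 | hx2
    · obtain ⟨L, hL, hp⟩ := fam_casesE (tchkE_sound (x := x) (y := v) (by rw [loLP_R]; linarith only [hv2])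
        _ _ _ _ _ _ _ (by norm_num) (by norm_num) (by norm_num) (by norm_num) kLP1
        (by push_cast; linarith only [hx1]) (by push_cast; linarith only [hx2]) (by push_cast; linarith only [hv0])
        (by
          have := v_le (c := 82 / 100) (z1 := 1444 / 10000) (by norm_num)
            (show x ^ 2 ≤ 1444 / 10000 by nlinarith only [hx2, hx1]) (by norm_num) hv2 (by norm_num)
          push_cast; linarith only [this]))
      simp only [List.mem_cons, List.not_mem_nil, or_false] at hL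
      subst hL
      have hF := formLP hp R_e0 (by linarith only [hz1])
      simp only [qR_R, qC4_R, rbA_R, Ex.R_mul, Ex.R_X] at hF
      have key := regLP (P := P4) (cx := cx) (by rw [m4]; norm_num) (l := lf τ x)
        (lam := lf τ (2 / 3)) (t := 1 - x ^ 2) rfl ht (by rw [m4]; norm_num) hrb
        (by simp only [Ex.R_c, frR]; norm_num) (by rw [← hv]; exact hu) hδ
        (Or.inl (by simp only [Ex.R_c, frR]; norm_num)) hF
      rw [R_k1, R_a1, R_a2, R_a3, R_th, R_c2, R_eps, R_cx, m4, ← hv, ← hsq, ← pow_two] at key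
      linarith only [hlow, key]
    · obtain ⟨L, hL, hp⟩ := fam_casesE (tchkE_sound (x := x) (y := v) (by rw [loLP_R]; linarith only [hv2])
        _ _ _ _ _ _ _ (by norm_num) (by norm_num) (by norm_num) (by norm_num) kLP2
        (by push_cast; linarith only [hx2]) (by push_cast; linarith only [hx0]) (by push_cast; linarith only [hv0])
        (by
          have := v_le (c := 101 / 100) (z1 := 4 / 9) (by norm_num)
            hz1.le (by norm_num) hv2 (by norm_num)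
          push_cast; linarith only [this]))
      simp only [List.mem_cons, List.not_mem_nil, or_false] at hL
      subst hL
      have hF := formLP hp R_e0 (by linarith only [hz1])
      simp only [qR_R, qC4_R, rbA_R, lyJ_R, Ex.R_mul, Ex.R_X] at hF
      have hJ := jlineL hr h hx (by linarith only [hx2]) hx0
      rw [hv] at hJ
      have key := regLP (P := P4) (cx := cx) (by rw [m4]; norm_num) (l := lf τ x)
        (lam := lf τ (2 / 3)) (t := 1 - x ^ 2) rfl ht (by rw [m4]; norm_num) hrb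
        (by simp only [Ex.R_c, frR]; norm_num) (by rw [← hv]; exact hu) hδ
        (Or.inr hJ) hF
      rw [R_k1, R_a1, R_a2, R_a3, R_th, R_c2, R_eps, R_cx, m4, ← hv, ← hsq, ← pow_two] at key
      linarith only [key, hlow]
  · obtain ⟨n, hn⟩ : ∃ n, uf τ τ' x = -(x ^ 2 * n) := ⟨-uf τ τ' x / x ^ 2, by (clear * - hx1; field_simp)⟩
    have hn0 : 0 ≤ n := by
      by_contra hc
      push Not at hc
      have := mul_neg_of_pos_of_neg hz0 hc
      linarith only [hu0, hn, this]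
    have hlo := in_low hr h hx
    rw [hn] at hlo
    have hn1 : n * (15 - 10 * x ^ 2 + 3 * x ^ 4) ≤ 20 - 12 * x ^ 2 := by
      have : x ^ 2 * (n * (15 - 10 * x ^ 2 + 3 * x ^ 4)) ≤ x ^ 2 * (20 - 12 * x ^ 2) := by
        nlinarith only [hlo]
      exact le_of_mul_le_mul_left this hz0
    have hn2 : n ≤ 135 / 100 := by
      by_contra hc
      push Not at hc
      have h1 : 0 < 15 - 10 * x ^ 2 + 3 * x ^ 4 := by nlinarith only [hz1]
      have h2 := mul_lt_mul_of_pos_right hc h1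
      nlinarith only [hn1, h2, sq_nonneg (x ^ 2 - 18 / 100)]
    have hlow := low4 hr h hx hR (rb := 3 / 8 + 5 / 32 * uf τ τ' x - 35 / 512 * uf τ τ' x ^ 2)
      (fun V hV0 hV => rho_b hV0 hV hu0.le)
    obtain ⟨L, hL, hp⟩ := fam_casesE (tchkE_sound (x := x ^ 2) (y := n) (zero_R _ _)
        _ _ _ _ _ _ _ (by norm_num) (by norm_num) (by norm_num) (by norm_num) kLM
        (by push_cast; linarith only [hz0]) (by push_cast; linarith only [hz1]) (by push_cast; linarith only [hn0])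
        (by push_cast; linarith only [hn2]))
    simp only [List.mem_cons, List.not_mem_nil, or_false] at hL
    subst hL
    have hF := formLM hp R_e0 hz0 ht
    simp only [qR_R, qC4_R, rbL_R, Ex.R_X] at hF
    have key := regLM (P := P4) (cx := cx) (by rw [m4]; norm_num) (l := lf τ x) (x := x)
      (lam := lf τ (2 / 3)) (t := 1 - x ^ 2) rfl hx1 rfl ht (by linarith only [hu, hn]) hδ
      (by rw [m4]; norm_num) hF
    rw [R_k1, R_a1, R_a2, R_a3, R_th, R_c2, R_eps, R_cx, m4, ← hn, ← hsq] at key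
    have e : 3 / 8 - 5 / 32 * (x ^ 2 * n) - 35 / 512 * (x ^ 2 * n) ^ 2 =
        3 / 8 + 5 / 32 * uf τ τ' x - 35 / 512 * uf τ τ' x ^ 2 := by rw [hn]; ring
    rw [e] at key
    linarith only [hlow, key]

end Vale.Agent.P237.AllN.M4
end

section

/-!
# P237, `m = 4`: the pointwise inequality right of the pole, the pieces
-/

open MeasureTheory Metric Set Module Filter Topology

namespace Vale.Agent.P237.AllN.M4

open PolyPos Alm

variable {r τ τ' T : ℝ → ℝ} {x : ℝ}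

theorem hm0 : 0 < P4.m := by rw [m4]; norm_num
theorem hm1 : 1 ≤ P4.m := by rw [m4]; norm_num
theorem eR1 (a b : ℝ) : (Ex.c ⟨1, 0⟩ - Ex.X * Ex.X).R a b = 1 - a * a := by
  simp only [Ex.R_sub, Ex.R_mul, Ex.R_c, Ex.R_X, frR]
  norm_num
theorem eG (t : ℝ) : ((P4.m : ℕ) : ℝ) + 2 - ((P4.m : ℝ) + 1) * t = 6 - 5 * t := by
  rw [m4]; norm_num

/-- region `u ≤ 0`, from the matrix check -/
theorem rRM {s E z l lam rb : ℝ} {kap : Fr} {rbe : Ex} (hs : 0 < s) (hz : z = 1 - s * s)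
    (hz1 : 4 / 9 < z) (hE0 : 0 < E) (hE1 : E ≤ 1) (hrb : rbe.R s E = rb) (hrb0 : 0 ≤ rb)
    (hkap : 0 ≤ kap.R)
    (hl : l ≤ s * s * (1 / 2 + 1 / 4 * (s * s) - 1 / 10 * (s * s) ^ 2))
    (hp : ∀ p ∈ fRM kap rbe, 0 ≤ p.R s E) :
    1 / 1000 * ((E - 1) ^ 2 / (1 + (E - 1))) ≤
      pcLow ((4 : ℕ) : ℝ) (42 / 25) (3 / 20) (13 / 250) (1 - s * s / (1 + s))
        (9 / 20 + 11 / 20 * z + z ^ 2) (rb / (1 + (E - 1))) (z / (s * s)) l (E - 1) lam +
      pcNR ((4 : ℕ) : ℝ) (7 / 25) (4 / 9) z (z / (s * s)) (l - lam) (E - 1) := by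
  have hF := formRM (P := P4) (cx := cx) (kap := Ex.c kap) (ly := lyW)
    (C := qC4 (Ex.c ⟨1, 0⟩ - Ex.X * Ex.X)) (rh := rbe) hp R_e0 hs
  rw [qC4_R, lyW_R, eR1, hrb] at hF
  have key := regRM (P := P4) (cx := cx) hm0 (l := l) (s := s)
    (lam := lam) (t := s * s) (z := z) hs rfl hz (by linarith only [hz1]) hE0 hE1
    (by rw [R_cx]; linarith only [hz1]) hrb0 hkap hm1 hl hF
  rw [R_k1, R_a4, R_th, R_c2, R_eps, R_cx, m4, ← hz] at key
  exact key

/-- region `u ≥ 0`, joint line, from the matrix check -/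
theorem rRJ {s be u z l lam rb : ℝ} {kap : Fr} {rbe : Ex} (hs : 0 < s) (hz : z = 1 - s * s)
    (hz1 : 4 / 9 < z) (hbe : 0 < be) (hu : u = (1 - be) / be) (hrb : rbe.R s be = rb)
    (hrb0 : 0 ≤ rb) (hkap : 0 ≤ kap.R)
    (hl : l ≤ s * s * (34 / 100 + 31 / 100 * (s * s) - (15 / 100 + 3 / 2 * (s * s)) * u))
    (hp : ∀ p ∈ fRJ kap rbe, 0 ≤ p.R s be) :
    1 / 1000 * (u ^ 2 / (1 + u)) ≤
      pcLow ((4 : ℕ) : ℝ) (42 / 25) (3 / 20) (13 / 250) (1 - s * s / (1 + s))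
        (9 / 20 + 11 / 20 * z + z ^ 2) (rb / (1 + u)) (z / (s * s)) l u lam +
      pcNR ((4 : ℕ) : ℝ) (7 / 25) (4 / 9) z (z / (s * s)) (l - lam) u := by
  have hF := formRJ (P := P4) (cx := cx) (kap := Ex.c kap) (jj := jj4) (kk := kk4)
    (C := qC4 (Ex.c ⟨1, 0⟩ - Ex.X * Ex.X)) (rh := rbe) hp R_e0 hs hbe
  rw [qC4_R, jj4_R, kk4_R, eR1, hrb] at hF
  have key := regRJ (P := P4) (cx := cx) hm0 (l := l) (s := s)
    (lam := lam) (t := s * s) (z := z) hs rfl hz (by linarith only [hz1]) hbe hu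
    (by rw [R_cx]; linarith only [hz1]) hrb0 hkap hm1 hl hF
  rw [R_k1, R_a4, R_th, R_c2, R_eps, R_cx, m4, ← hz] at key
  exact key

/-- region `u ≥ 0`, tail bound, from the matrix check -/
theorem rRP {s be u z l lam rb : ℝ} {kap : Fr} {rbe : Ex} (hs : 0 < s) (hz : z = 1 - s * s)
    (hz1 : 4 / 9 < z) (hbe : 0 < be) (hu : u = (1 - be) / be) (hrb : rbe.R s be = rb)
    (hrb0 : 0 ≤ rb) (hkap : 0 ≤ kap.R)
    (hl : l ≤ s * s * (1 / 2 + 1 / 4 * (s * s) + 1 / 6 * (s * s) ^ 2 + 231 / 1000 * (s * s) ^ 3 -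
      2 / (2 * be * (6 - 5 * (s * s)) + s * s)))
    (hp : ∀ p ∈ fRP kap ⟨231, 999⟩ rbe, 0 ≤ p.R s be) :
    1 / 1000 * (u ^ 2 / (1 + u)) ≤
      pcLow ((4 : ℕ) : ℝ) (42 / 25) (3 / 20) (13 / 250) (1 - s * s / (1 + s))
        (9 / 20 + 11 / 20 * z + z ^ 2) (rb / (1 + u)) (z / (s * s)) l u lam +
      pcNR ((4 : ℕ) : ℝ) (7 / 25) (4 / 9) z (z / (s * s)) (l - lam) u := by
  have hDD : 0 < 2 * be * (6 - 5 * (s * s)) + s * s := by
    have : 0 < 6 - 5 * (s * s) := by linarith only [hz, hz1]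
    positivity
  have hF := formRP (P := P4) (cx := cx) (kap := Ex.c kap) (lp := lpW ⟨231, 999⟩)
    (C := qC4 (Ex.c ⟨1, 0⟩ - Ex.X * Ex.X)) (rh := rbe) hp R_e0 hs (by rw [eG]; exact hDD)
  rw [qC4_R, lpW_R, eR1, hrb] at hF
  have key := regRP (P := P4) (cx := cx) hm0 (l := l) (s := s)
    (lam := lam) (t := s * s) (z := z) hs rfl hz (by linarith only [hz1]) hbe hu
    (by rw [R_cx]; linarith only [hz1]) hrb0 hkap hm1 (by rw [eG]; exact hDD) (by rw [eG]; exact hl) hF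
  rw [R_k1, R_a4, R_th, R_c2, R_eps, R_cx, m4, ← hz] at key
  exact key

/-- region `u ≥ 0` near `x = 1`, from the matrix check -/
theorem rRS {s v u z l lam : ℝ} {kap : Fr} (hs : 0 < s) (hz : z = 1 - s * s)
    (hz1 : 4 / 9 < z) (hv0 : 0 ≤ v) (hv : v = u * s) (hkap : 0 ≤ kap.R)
    (hl : l ≤ s * s * (1 / 2 + 1 / 4 * (s * s) + 1 / 6 * (s * s) ^ 2 + 231 / 1000 * (s * s) ^ 3 -
      2 * (s + v) / (2 * s * (6 - 5 * (s * s)) + s * s * (s + v))))
    (hp : ∀ p ∈ fRS kap ⟨231, 999⟩, 0 ≤ p.R s v) :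
    1 / 1000 * (u ^ 2 / (1 + u)) ≤
      pcLow ((4 : ℕ) : ℝ) (42 / 25) (3 / 20) (13 / 250) (1 - s * s / (1 + s))
        (9 / 20 + 11 / 20 * z + z ^ 2) ((3 / 8 * s + v) / (s + v) / (1 + u)) (z / (s * s)) l u lam +
      pcNR ((4 : ℕ) : ℝ) (7 / 25) (4 / 9) z (z / (s * s)) (l - lam) u := by
  have hDD : 0 < 2 * s * (6 - 5 * (s * s)) + s * s * (s + v) := by
    have : 0 < 6 - 5 * (s * s) := by linarith only [hz, hz1]
    positivity
  have hF := formRS (P := P4) (cx := cx) (kap := Ex.c kap) (lp := lpW ⟨231, 999⟩)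
    (C := qC4 (Ex.c ⟨1, 0⟩ - Ex.X * Ex.X)) (r0 := Ex.c ⟨3, 7⟩) hp R_e0 hs
    (by rw [eG]; exact hDD)
  have e38 : (Ex.c ⟨3, 7⟩).R s v = 3 / 8 := by simp only [Ex.R_c, frR]; norm_num
  rw [qC4_R, lpW_R, eR1, e38] at hF
  have key := regRS (P := P4) (cx := cx) hm0 (l := l) (s := s) (v := v)
    (lam := lam) (t := s * s) (z := z) hs rfl hz (by linarith only [hz1]) hv0 hv
    (by rw [R_cx]; linarith only [hz1]) (by norm_num) hkap hm1 (by rw [eG]; exact hDD)
    (by rw [eG]; exact hl) hF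
  rw [R_k1, R_a4, R_th, R_c2, R_eps, R_cx, m4, ← hz] at key
  exact key

end Vale.Agent.P237.AllN.M4
end

section

/-!
# P237, `m = 4`: the pointwise inequality right of the pole
-/

open MeasureTheory Metric Set Module Filter Topology

namespace Vale.Agent.P237.AllN.M4

open PolyPos Alm

variable {r τ τ' T : ℝ → ℝ} {x : ℝ}

/-- the claim -/
def Cl (τ τ' : ℝ → ℝ) (x : ℝ) : Prop :=
  1 / 1000 * (uf τ τ' x ^ 2 / (1 + uf τ τ' x)) ≤
      brT 4 τ τ' (1 + 42 / 25 * lf τ (2 / 3)) x +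
      pcNR ((4 : ℕ) : ℝ) (7 / 25) (4 / 9) (x ^ 2) (x ^ 2 / sq x ^ 2)
        (lf τ x - lf τ (2 / 3)) (uf τ τ' x)

/-- the low bound in terms of `s` -/
theorem lowR (hr : IsProf r) (h : IsTrans 4 r τ τ' T) (hx : x ∈ Ioo (0 : ℝ) 1) {rb : ℝ}
    (hrb : ∀ V : ℝ, 0 < V → V ^ 4 = 1 + uf τ τ' x →
      (uf τ τ' x - 4 * (V - 1)) * (1 + uf τ τ' x) ≤ rb * uf τ τ' x ^ 2)
    (key : 1 / 1000 * (uf τ τ' x ^ 2 / (1 + uf τ τ' x)) ≤
      pcLow ((4 : ℕ) : ℝ) (42 / 25) (3 / 20) (13 / 250) (1 - sq x * sq x / (1 + sq x))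
        (9 / 20 + 11 / 20 * x ^ 2 + (x ^ 2) ^ 2) (rb / (1 + uf τ τ' x)) (x ^ 2 / (sq x * sq x))
        (lf τ x) (uf τ τ' x) (lf τ (2 / 3)) +
      pcNR ((4 : ℕ) : ℝ) (7 / 25) (4 / 9) (x ^ 2) (x ^ 2 / (sq x * sq x))
        (lf τ x - lf τ (2 / 3)) (uf τ τ' x)) : Cl τ τ' x := by
  have hlow := low4 hr h hx (R := 1 - sq x * sq x / (1 + sq x)) (by rw [pow_two]) hrb
  have e : sq x * sq x = sq x ^ 2 := (pow_two _).symm
  unfold Cl
  rw [e] at key hlow
  (clear * - key hlow; linarith only [hlow, key])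

theorem sx_facts (hx : x ∈ Ioo (0 : ℝ) 1) (hx0 : 2 / 3 < x) : 0 < sq x ∧ x ^ 2 = 1 - sq x * sq x ∧
    4 / 9 < x ^ 2 ∧ sq x < 746 / 1000 := by
  have hs := sqx_pos hx
  have hsq : sq x ^ 2 = 1 - x ^ 2 := pin_sq_sq (Ioo_subset_Icc_self hx)
  refine ⟨hs, by linarith only [hsq], by nlinarith only [hx0], ?_⟩
  by_contra hc
  push Not at hc
  nlinarith only [hx0, hsq, hc]

theorem ptRM (hr : IsProf r) (h : IsTrans 4 r τ τ' T) (hx : x ∈ Ioo (0 : ℝ) 1)
    (hx0 : 2 / 3 < x) (hu0 : uf τ τ' x ≤ 0) : Cl τ τ' x := by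
  obtain ⟨hs, hz, hz1, hs2⟩ := sx_facts hx hx0
  have hu := uf_pos h hx
  obtain ⟨E, hE⟩ : ∃ E, E = 1 + uf τ τ' x := ⟨_, rfl⟩
  have hE0 : 0 < E := by rw [hE]; exact hu
  have hE1 : E ≤ 1 := by rw [hE]; linarith only [hu0]
  have huE : uf τ τ' x = E - 1 := by rw [hE]; ring
  have hlo := in_low hr h hx
  have hLo : loRM.R (sq x) E ≤ 0 := by
    rw [loRM_R]
    rw [← hE, show x ^ 4 = (x ^ 2) ^ 2 by ring, hz] at hlo
    linarith only [hlo]
  have hly := in_ly hr h hx hx0.le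
  have hss : 1 - x ^ 2 = sq x * sq x := by linarith only [hz]
  rw [hss] at hly
  rcases le_or_gt (1 / 20) E with hE2 | hE2
  · obtain ⟨L, hL, hp⟩ := fam_casesE (tchkE_sound (x := sq x) (y := E) hLo
      _ _ _ _ _ _ _ (by norm_num) (by norm_num) (by norm_num) (by norm_num) kRM1
      (by push_cast; linarith only [hs]) (by push_cast; linarith only [hs2]) (by push_cast; linarith only [hE2])
      (by push_cast; linarith only [hu0, hE]))
    have main : ∀ kap : Fr, 0 ≤ kap.R → (∀ p ∈ fRM kap rbR, 0 ≤ p.R (sq x) E) →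
        Cl τ τ' x := by
      intro kap hkap hp
      refine lowR hr h hx (rb := 3 / 8 + 5 / 32 * uf τ τ' x - 35 / 512 * uf τ τ' x ^ 2)
        (fun V hV0 hV => rho_b hV0 hV hu0) ?_
      have := rRM (lam := lf τ (2 / 3)) hs hz hz1 hE0 hE1
        (rb := 3 / 8 + 5 / 32 * uf τ τ' x - 35 / 512 * uf τ τ' x ^ 2)
        (by rw [rbR_R, huE]; ring) (by nlinarith only [hu, hu0]) hkap hly hp
      rw [← huE] at this
      exact this
    simp only [List.mem_cons, List.not_mem_nil, or_false] at hL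
    rcases hL with rfl | rfl | rfl | rfl | rfl
    · exact main _ (by simp only [frR]; norm_num) hp
    · exact main _ (by simp only [frR]; norm_num) hp
    · exact main _ (by simp only [frR]; norm_num) hp
    · exact main _ (by simp only [frR]; norm_num) hp
    · exact main _ (by simp only [frR]; norm_num) hp
  · obtain ⟨L, hL, hp⟩ := fam_casesE (tchkE_sound (x := sq x) (y := E) hLo
      _ _ _ _ _ _ _ (by norm_num) (by norm_num) (by norm_num) (by norm_num) kRM2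
      (by push_cast; linarith only [hs]) (by push_cast; linarith only [hs2]) (by push_cast; linarith only [hu, hE])
      (by push_cast; linarith only [hE2]))
    simp only [List.mem_cons, List.not_mem_nil, or_false] at hL
    subst hL
    refine lowR hr h hx (rb := 3 * (1 + uf τ τ' x)) (fun V hV0 hV => rho_d hV0 hV) ?_
    have := rRM (lam := lf τ (2 / 3)) hs hz hz1 hE0 hE1
      (rb := 3 * (1 + uf τ τ' x)) (by rw [rbD_R, hE]) (by linarith only [hu])
      (by simp only [frR]; norm_num) hly hp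
    rw [← huE] at this
    exact this

theorem ptRP (hr : IsProf r) (h : IsTrans 4 r τ τ' T) (hx : x ∈ Ioo (0 : ℝ) 1)
    (hx0 : 2 / 3 < x) (hu0 : 0 < uf τ τ' x) : Cl τ τ' x := by
  obtain ⟨hs, hz, hz1, hs2⟩ := sx_facts hx hx0
  have hu := uf_pos h hx
  obtain ⟨be, hbe⟩ : ∃ be, be = 1 / (1 + uf τ τ' x) := ⟨_, rfl⟩
  have hbe0 : 0 < be := by rw [hbe]; positivity
  have hbeu : be * (1 + uf τ τ' x) = 1 := by rw [hbe]; (clear * - hu0; field_simp)
  have hbe1 : be ≤ 1 := by nlinarith only [hbeu, hu0]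
  have hub2 : be * uf τ τ' x = 1 - be := by linarith only [hbeu]
  have hub : uf τ τ' x = (1 - be) / be := by
    rw [eq_div_iff hbe0.ne']
    linarith only [hbeu]
  have hwin := in_win2 hr h hx hu0.le
  have hss : 1 - x ^ 2 = sq x * sq x := by linarith only [hz]
  have hLo : loRP.R (sq x) be ≤ 0 := by
    rw [loRP_R, ← hub2, ← hz, ← hss]
    have := mul_le_mul_of_nonneg_left hwin (sq_nonneg be)
    linarith only [this]
  rcases lt_or_ge x (9 / 10) with hx3 | hx3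
  · have hs3 : 435 / 1000 ≤ sq x := by
      by_contra hc
      push Not at hc
      nlinarith only [hz, hx3, hc, hx0, hs]
    rcases le_or_gt (7 / 20) be with hb | hb
    · obtain ⟨L, hL, hp⟩ := fam_casesE (tchkE_sound (x := sq x) (y := be) (zero_R _ _)
        _ _ _ _ _ _ _ (by norm_num) (by norm_num) (by norm_num) (by norm_num) kRJ
        (by push_cast; linarith only [hs3]) (by push_cast; linarith only [hs2]) (by push_cast; linarith only [hb])
        (by push_cast; linarith only [hbe1]))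
      have hJ := jlineR hr h hx hx0.le hx3
      rw [hss] at hJ
      have hJ' : lf τ x ≤ sq x * sq x * (34 / 100 + 31 / 100 * (sq x * sq x) -
          (15 / 100 + 3 / 2 * (sq x * sq x)) * uf τ τ' x) := by linarith only [hJ]
      have main : ∀ kap : Fr, 0 ≤ kap.R → (∀ p ∈ fRJ kap rbE, 0 ≤ p.R (sq x) be) →
          Cl τ τ' x := by
        intro kap hkap hp
        exact lowR hr h hx (rb := 3 / 8 + 5 / 32 * (1 - be) + 4 / 25 * (1 - be) ^ 2)
          (fun V hV0 hV => rho_e hV0 hV hu0.le hbeu hb)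
          (rRJ (lam := lf τ (2 / 3)) hs hz hz1 hbe0 hub (rbE_R _ _) (by nlinarith only []) hkap hJ' hp)
      simp only [List.mem_cons, List.not_mem_nil, or_false] at hL
      rcases hL with rfl | rfl | rfl
      · exact main _ (by simp only [frR]; norm_num) hp
      · exact main _ (by simp only [frR]; norm_num) hp
      · exact main _ (by simp only [frR]; norm_num) hp
    · exfalso
      obtain ⟨L, hL, hp⟩ := fam_casesE (tchkE_sound (x := sq x) (y := be) hLo
        _ _ _ _ _ _ _ (by norm_num) (by norm_num) (by norm_num) (by norm_num) kRO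
        (by push_cast; linarith only [hs3]) (by push_cast; linarith only [hs2]) (by push_cast; linarith only [hbe0])
        (by push_cast; linarith only [hb]))
      simp at hL
  · have hs3 : sq x ≤ 436 / 1000 := by
      by_contra hc
      push Not at hc
      nlinarith only [hz, hx3, hc]
    have hlt := in_lt hr h hx hx3 (t := sq x * sq x) hss.symm hbe0 hbeu
    rcases le_or_gt (1 / 5) (sq x) with hs4 | hs4
    · rcases le_or_gt (7 / 20) be with hb | hb
      · obtain ⟨L, hL, hp⟩ := fam_casesE (tchkE_sound (x := sq x) (y := be) (zero_R _ _)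
          _ _ _ _ _ _ _ (by norm_num) (by norm_num) (by norm_num) (by norm_num) kRP1
          (by push_cast; linarith only [hs]) (by push_cast; linarith only [hs3]) (by push_cast; linarith only [hb])
          (by push_cast; linarith only [hbe1]))
        simp only [List.mem_cons, List.not_mem_nil, or_false] at hL
        subst hL
        exact lowR hr h hx (rb := 3 / 8 + 5 / 32 * (1 - be) + 4 / 25 * (1 - be) ^ 2)
          (fun V hV0 hV => rho_e hV0 hV hu0.le hbeu hb)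
          (rRP (lam := lf τ (2 / 3)) hs hz hz1 hbe0 hub (rbE_R _ _) (by nlinarith only [])
            (by simp only [frR]; norm_num) hlt hp)
      · obtain ⟨L, hL, hp⟩ := fam_casesE (tchkE_sound (x := sq x) (y := be) hLo
          _ _ _ _ _ _ _ (by norm_num) (by norm_num) (by norm_num) (by norm_num) kRP2
          (by push_cast; linarith only [hs4]) (by push_cast; linarith only [hs3]) (by push_cast; linarith only [hbe0])
          (by push_cast; linarith only [hb]))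
        have main : ∀ kap : Fr, 0 ≤ kap.R → (∀ p ∈ fRP kap ⟨231, 999⟩ rbG, 0 ≤ p.R (sq x) be) →
            Cl τ τ' x := by
          intro kap hkap hp
          exact lowR hr h hx (rb := 3 / 8 + 5 / 8 * (1 - be))
            (fun V hV0 hV => rho_g hV0 hV hu0.le hbeu)
            (rRP (lam := lf τ (2 / 3)) hs hz hz1 hbe0 hub (rbG_R _ _) (by nlinarith only [hb])
              hkap hlt hp)
        simp only [List.mem_cons, List.not_mem_nil, or_false] at hL
        rcases hL with rfl | rfl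
        · exact main _ (by simp only [frR]; norm_num) hp
        · exact main _ (by simp only [frR]; norm_num) hp
    · obtain ⟨v, hv⟩ : ∃ v, v = uf τ τ' x * sq x := ⟨_, rfl⟩
      have hv0 : 0 ≤ v := by rw [hv]; positivity
      have hv1 : v ≤ 3 / 4 := by
        have := in_win hr h hx
        rw [← hv] at this
        linarith only [this, hx.2]
      obtain ⟨L, hL, hp⟩ := fam_casesE (tchkE_sound (x := sq x) (y := v) (zero_R _ _)
          _ _ _ _ _ _ _ (by norm_num) (by norm_num) (by norm_num) (by norm_num) kRS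
          (by push_cast; linarith only [hs]) (by push_cast; linarith only [hs4]) (by push_cast; linarith only [hv0])
          (by push_cast; linarith only [hv1]))
      simp only [List.mem_cons, List.not_mem_nil, or_false] at hL
      subst hL
      have hss1 : 0 < 6 - 5 * (sq x * sq x) := by linarith only [hz, hz1]
      have hq : 0 < sq x + v := by linarith only [hs, hv0]
      have hDS : 0 < 2 * sq x * (6 - 5 * (sq x * sq x)) + sq x * sq x * (sq x + v) := by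
        (clear * - hs hss1 hv0; positivity)
      have hDD : 0 < 2 * be * (6 - 5 * (sq x * sq x)) + sq x * sq x := by
        (clear * - hbe0 hss1 hs; positivity)
      have hbe2 : be = sq x / (sq x + v) := by
        rw [hbe, hv]
        field_simp
      have eB : 2 / (2 * be * (6 - 5 * (sq x * sq x)) + sq x * sq x) =
          2 * (sq x + v) / (2 * sq x * (6 - 5 * (sq x * sq x)) + sq x * sq x * (sq x + v)) := by
        rw [div_eq_div_iff hDD.ne' hDS.ne', hbe2]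
        (clear * - hs hv0; field_simp)
      rw [eB] at hlt
      have e : (3 / 8 * sq x + v) / (sq x + v) = 3 / 8 + 5 / 8 * (1 - be) := by
        rw [hbe2]
        field_simp
        ring
      refine lowR hr h hx (rb := 3 / 8 + 5 / 8 * (1 - be))
        (fun V hV0 hV => rho_g hV0 hV hu0.le hbeu) ?_
      rw [← e]
      exact rRS (lam := lf τ (2 / 3)) hs hz hz1 hv0 hv
        (by simp only [frR]; norm_num) hlt hp

/-- **right of the pole** -/
theorem ptR (hr : IsProf r) (h : IsTrans 4 r τ τ' T) (hx : x ∈ Ioo (0 : ℝ) 1)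
    (hx0 : 2 / 3 < x) : Cl τ τ' x := by
  rcases le_or_gt (uf τ τ' x) 0 with hu0 | hu0
  · exact ptRM hr h hx hx0 hu0
  · exact ptRP hr h hx hx0 hu0

end Vale.Agent.P237.AllN.M4
end
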