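import Vale.Agent.P237.Bd3.B4
import Vale.Agent.P237.Bd3.B13
import Vale.Agent.P237.Bd3.B9

set_option linter.all false

section

/-!
# P237, plain certificate: kernel checks for `m = 8`
-/

namespace Vale.Agent.P237.AllN

open PolyPos

/-- data of the certificate, `m = 8` -/
def D8 : Dat := ⟨⟨8, ⟨18, 24⟩, ⟨17, 49⟩, ⟨29, 49⟩, ⟨91, 99⟩, ⟨14, 124⟩, ⟨39, 99⟩, ⟨111, 9999⟩, ⟨1, 999⟩, ⟨1, 999⟩⟩,
  ⟨547, 499⟩, ⟨273, 4999⟩, ⟨103, 999⟩, ⟨279, 249⟩, ⟨103, 199⟩, ⟨151, 499⟩, ⟨57, 1249⟩, ⟨1133, 1249⟩, 4, 548, 1308, 837, 1094, 2 ^ 1024, 40⟩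

theorem chk8_LP :
    D8.kLP (.leaf 0) = true := by
  decide +kernel

theorem chk8_LM :
    D8.kLM (.sx (.leaf 0) (.sy (.leaf 0) (.sx (.leaf 0) (.sy (.leaf 0) .out)))) = true := by
  decide +kernel

theorem chk8_RMT0 :
    D8.kRM D8.rbT 8 0 837 250 1000 (.leaf 0) = true := by
  decide +kernel

theorem chk8_RMt0 :
    D8.kRM D8.rbG 8 0 837 6 250 (.sx (.leaf 0) (.leaf 0)) = true := by
  decide +kernel

theorem chk8_RMc0 :
    D8.kRM D8.rbC 8 0 837 0 6 (.sx (.leaf 0) (.leaf 0)) = true := by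
  decide +kernel

theorem chk8_RP1 :
    D8.kRP1 (.sx (.leaf 0) (.sy (.sx (.leaf 1) (.sy (.sx (.leaf 1) .out) (.leaf 0))) (.leaf
    0))) = true := by
  decide +kernel

theorem chk8_RP2 :
    D8.kRP2 (.sx (.sy (.sx (.sy .out (.leaf 0)) .out) (.leaf 0)) .out) = true := by
  decide +kernel

theorem chk8_RS :
    D8.kRS (.leaf 1) = true := by
  decide +kernel

end Vale.Agent.P237.AllN
end

section

/-!
# P237, all dimensions: values of the functionals in the transport chart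
-/

open MeasureTheory Metric Set Module Filter Topology

namespace Vale.Agent.P237.AllN

theorem AdmGe.of_forall_lt {m : ℕ} {A : ℝ → ℝ → ℝ} {r : ℝ → ℝ} {w : ℝ}
    (h : ∀ κ > (0 : ℝ), AdmGe m A r (w - κ)) : AdmGe m A r w := by
  intro ε hε
  obtain ⟨c, c', p, p', h1, h2⟩ := h (ε / 2) (by positivity) (ε / 2) (by positivity)
  exact ⟨c, c', p, p', h1, by linarith only [h2]⟩

theorem fis_prim_zero {G : ℝ → ℝ} (hG : IntervalIntegrable G volume 0 1) :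
    Tendsto (fun x => ∫ t in (0 : ℝ)..x, G t) (𝓝[>] 0) (𝓝 0) := by
  have h := intervalIntegral.continuousOn_primitive_interval' hG (a := 0) left_mem_uIcc
  rw [uIcc_of_le zero_le_one] at h
  have h1 : Tendsto (fun x => ∫ t in (0 : ℝ)..x, G t) (𝓝[Icc 0 1] 0)
      (𝓝 (∫ t in (0 : ℝ)..0, G t)) := h 0 ⟨le_rfl, zero_le_one⟩
  rw [intervalIntegral.integral_same] at h1
  refine h1.mono_left ?_
  rw [nhdsWithin_le_iff]
  filter_upwards [Ioo_mem_nhdsGT (zero_lt_one' ℝ)] with x hx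
  exact ⟨hx.1.le, hx.2.le⟩

theorem fis_prim_one {G : ℝ → ℝ} (hG : IntervalIntegrable G volume 0 1) :
    Tendsto (fun x => ∫ t in x..(1 : ℝ), G t) (𝓝[<] 1) (𝓝 0) := by
  have h := intervalIntegral.continuousOn_primitive_interval' hG (a := 1) right_mem_uIcc
  rw [uIcc_of_le zero_le_one] at h
  have h0 : Tendsto (fun x => ∫ t in (1 : ℝ)..x, G t) (𝓝[Icc 0 1] 1)
      (𝓝 (∫ t in (1 : ℝ)..1, G t)) := h 1 ⟨zero_le_one, le_rfl⟩
  have h1 := h0.neg
  rw [intervalIntegral.integral_same, neg_zero] at h1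
  have h2 : Tendsto (fun x => -∫ t in (1 : ℝ)..x, G t) (𝓝[<] 1) (𝓝 0) := by
    refine h1.mono_left ?_
    rw [nhdsWithin_le_iff]
    filter_upwards [Ioo_mem_nhdsLT (zero_lt_one' ℝ)] with x hx
    exact ⟨hx.1.le, hx.2.le⟩
  refine h2.congr fun x => ?_
  rw [intervalIntegral.integral_symm, neg_neg]

section

variable {m : ℕ} {r τ τ' T : ℝ → ℝ}

theorem fis_T_cont (hT : IsTrans m r τ τ' T) : ContinuousOn T (Ioo 0 1) := fun y hy =>
  (hT.Tder y hy).continuousAt.continuousWithinAt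

theorem fis_inv_cont (hT : IsTrans m r τ τ' T) :
    ContinuousOn (fun y => (τ' (T y))⁻¹) (Ioo 0 1) :=
  (hT.cont.comp (fis_T_cont hT) fun y hy => hT.Tmem y hy).inv₀
    fun y hy => (hT.pos _ (hT.Tmem y hy)).ne'

/-- **Value of an admissible pair in the transport chart.** -/
theorem admGe_integral (hm1 : 1 ≤ m) {A : ℝ → ℝ → ℝ} (hA : Kern2 A)
    (hr : IsProf r) (hT : IsTrans m r τ τ' T)
    {c c' p p' : ℝ → ℝ}
    (hc : ∀ x ∈ Ioo (0 : ℝ) 1, HasDerivAt c (c' x) x) (hc' : ContinuousOn c' (Ioo 0 1))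
    (hp : ∀ x ∈ Ioo (0 : ℝ) 1, HasDerivAt p (p' x) x) (hp' : ContinuousOn p' (Ioo 0 1))
    (hle : ∀ x ∈ Ioo (0 : ℝ) 1, ∀ b ∈ Icc (-1 : ℝ) 1, c x + p x * b ≤ A (τ x) b)
    (hc0 : ∃ C : ℝ, ∀ x ∈ Ioo (0 : ℝ) (1/2), |c x| ≤ C)
    (hp0 : Tendsto p (𝓝[>] 0) (𝓝 0))
    (hc1 : Tendsto (fun x => sq x ^ (m + 2) * c x) (𝓝[<] 1) (𝓝 0))
    (hI : IntervalIntegrable (fun x => (((m : ℝ) + 1) * c x + (τ x * c' x + p' x) / τ' x) *
      sq x ^ m) volume 0 1) :
    AdmGe m A r (2 * ((∫ t in (0 : ℝ)..1, r t ^ m) / (∫ t in (0 : ℝ)..1, sq t ^ m)) *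
      ∫ x in (0 : ℝ)..1, (((m : ℝ) + 1) * c x + (τ x * c' x + p' x) / τ' x) * sq x ^ m) := by
  refine AdmGe.of_forall_lt fun κ' hκ' => ?_
  obtain ⟨κ, hκ⟩ : ∃ κ : ℝ, κ = κ' / 24 := ⟨_, rfl⟩
  have hκ0 : 0 < κ := by rw [hκ]; positivity
  obtain ⟨M, hM⟩ := hA.bdd
  have hM0 : 0 ≤ M := (abs_nonneg _).trans (hM 0 ⟨by norm_num, by norm_num⟩ 0
    ⟨by norm_num, by norm_num⟩)
  obtain ⟨C1, hC1, hone⟩ := hT.near_one hm1 hr
  have hZr := ass_Zr_pos (m := m) hr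
  have hZm := ass_Zm_pos m
  set Zr := ∫ t in (0 : ℝ)..1, r t ^ m with hZrd
  set Zm := ∫ t in (0 : ℝ)..1, sq t ^ m with hZmd
  set q := Zr / Zm with hq
  have hq0 : 0 < q := by (clear * - hZr hZm; positivity)
  set R := r 0 ^ m with hR
  have hR0 : 0 < R := pow_pos (hr.pos 0 ⟨by norm_num, by norm_num⟩) m
  set η := κ / R with hη
  have hη0 : 0 < η := by (clear * - hκ0 hR0; positivity)
  have hηR : η * R = κ := by rw [hη]; field_simp
  obtain ⟨P, hP0, δ1, hδ1, hδ1', hPb⟩ := hA.end_pair hη0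
  obtain ⟨δ2, hδ2, hcor⟩ := hA.corner η hη0
  set G : ℝ → ℝ := fun x => (((m : ℝ) + 1) * c x + (τ x * c' x + p' x) / τ' x) * sq x ^ m with hG
  obtain ⟨α, hα0, hαa, A1, A2, A3, A4⟩ := ass_choose_zero hm1 hr hT hc0 hp0
    (fis_prim_zero hI) q 0 R (((m : ℝ) + 1) * M * R) hM0 (a1 := 1 / 2) (by norm_num) hκ0
  obtain ⟨β, hβb, hβ1, B1, B2, B3, B4, B5, B6⟩ := ass_choose_one hm1 hr hT hc1
    (fis_prim_one hI) q 0 C1 (((m : ℝ) + 1) * (η + P) * R) (b1 := 1 / 2) (by norm_num)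
    hκ0 hδ1 hδ2
  have hα01 : α ∈ Ioo (0 : ℝ) 1 := ⟨hα0, by linarith only [hβ1, hβb, hαa]⟩
  have hβ01 : β ∈ Ioo (0 : ℝ) 1 := ⟨by linarith only [hβ1, hβb], hβ1⟩
  have hαβ : α < β := by linarith only [hβb, hαa]
  have hτα := hT.mem α hα01
  have hτβ := hT.mem β hβ01
  have hτlt : τ α < τ β := hT.mono hα01 hβ01 hαβ
  have hTα := hT.left α hα01
  have hTβ := hT.left β hβ01
  have hTcont := fis_T_cont hT
  have hinv := fis_inv_cont hT
  have dcy : ∀ y ∈ Ioo (0 : ℝ) 1, HasDerivAt (fun y => c (T y)) (c' (T y) * (τ' (T y))⁻¹) y :=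
    fun y hy => (hc _ (hT.Tmem y hy)).comp y (hT.Tder y hy)
  have dpy : ∀ y ∈ Ioo (0 : ℝ) 1, HasDerivAt (fun y => p (T y)) (p' (T y) * (τ' (T y))⁻¹) y :=
    fun y hy => (hp _ (hT.Tmem y hy)).comp y (hT.Tder y hy)
  have ccy : ContinuousOn (fun y => c' (T y) * (τ' (T y))⁻¹) (Ioo 0 1) :=
    (hc'.comp hTcont fun y hy => hT.Tmem y hy).mul hinv
  have cpy : ContinuousOn (fun y => p' (T y) * (τ' (T y))⁻¹) (Ioo 0 1) :=
    (hp'.comp hTcont fun y hy => hT.Tmem y hy).mul hinv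
  have hley : ∀ y ∈ Ioo (0 : ℝ) 1, ∀ b ∈ Icc (-1 : ℝ) 1, c (T y) + p (T y) * b ≤ A y b := by
    intro y hy b hb
    have := hle (T y) (hT.Tmem y hy) b hb
    rwa [hT.right y hy] at this
  have hPy : ∀ y ∈ Icc (τ β) 1, ∀ b ∈ Icc (-1 : ℝ) 1, -η - P * (1 - b) ≤ A y b := by
    intro y hy b hb
    refine hPb y ⟨?_, hy.2⟩ b hb
    have := (abs_lt.1 B5).2
    linarith only [hy.1, this]
  have hcut := admGe_cut (m := m) hA hr (c := fun y => c (T y))
    (c' := fun y => c' (T y) * (τ' (T y))⁻¹) (p := fun y => p (T y))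
    (p' := fun y => p' (T y) * (τ' (T y))⁻¹) hτα.1 hτlt hτβ.2 dcy ccy dpy cpy hley hM0 hM
    hη0.le hP0 hPy
  refine AdmGe.le hcut ?_
  have hcov := hT.integral hm1 hr (F := fun y => ((m : ℝ) + 1) * c (T y) +
    y * (c' (T y) * (τ' (T y))⁻¹) + p' (T y) * (τ' (T y))⁻¹) (by
      refine ((continuousOn_const.mul fun y hy => ?_).add (continuousOn_id.mul ccy)).add cpy
      exact (dcy y hy).continuousAt.continuousWithinAt) hα0 hαβ.le hβ1
  have hcong : ∫ x in α..β, (((m : ℝ) + 1) * c (T (τ x)) +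
      τ x * (c' (T (τ x)) * (τ' (T (τ x)))⁻¹) + p' (T (τ x)) * (τ' (T (τ x)))⁻¹) * sq x ^ m =
      ∫ x in α..β, G x := by
    apply intervalIntegral.integral_congr
    intro x hx
    rw [uIcc_of_le hαβ.le] at hx
    have hx' : x ∈ Ioo (0 : ℝ) 1 := ⟨hα0.trans_le hx.1, hx.2.trans_lt hβ1⟩
    simp only [hG, hT.left x hx']
    rw [div_eq_mul_inv]
    ring
  rw [hcong] at hcov
  have i0α : IntervalIntegrable G volume 0 α := hI.mono_set (by
    rw [uIcc_of_le hα0.le, uIcc_of_le zero_le_one]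
    exact Icc_subset_Icc le_rfl hα01.2.le)
  have iαβ : IntervalIntegrable G volume α β := hI.mono_set (by
    rw [uIcc_of_le hαβ.le, uIcc_of_le zero_le_one]
    exact Icc_subset_Icc hα0.le hβ1.le)
  have iβ1 : IntervalIntegrable G volume β 1 := hI.mono_set (by
    rw [uIcc_of_le hβ1.le, uIcc_of_le zero_le_one]
    exact Icc_subset_Icc hβ01.1.le le_rfl)
  have hsplit : ∫ x in (0 : ℝ)..1, G x = (∫ x in (0 : ℝ)..α, G x) + (∫ x in α..β, G x) +
      ∫ x in β..1, G x := by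
    rw [intervalIntegral.integral_add_adjacent_intervals i0α iαβ,
      intervalIntegral.integral_add_adjacent_intervals (i0α.trans iαβ) iβ1]
  set J := ∫ x in α..β, G x with hJ
  set I := ∫ y in τ α..τ β, (((m : ℝ) + 1) * c (T y) + y * (c' (T y) * (τ' (T y))⁻¹) +
    p' (T y) * (τ' (T y))⁻¹) * r y ^ m with hI'
  have hIJ : I = q * J := by
    rw [hq, div_mul_eq_mul_div, eq_div_iff hZm.ne', hcov]
    ring
  have hmα : τ α ∈ Icc (0 : ℝ) 1 := ⟨hτα.1.le, hτα.2.le⟩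
  have hmβ : τ β ∈ Icc (0 : ℝ) 1 := ⟨hτβ.1.le, hτβ.2.le⟩
  have rα0 : 0 ≤ r (τ α) ^ m := pow_nonneg (Alm.prof_nn hr hmα) m
  have rαR : r (τ α) ^ m ≤ R := pow_le_pow_left₀ (Alm.prof_nn hr hmα) (Alm.prof_le_zero hr hmα) m
  have rβ0 : 0 ≤ r (τ β) ^ m := pow_nonneg (Alm.prof_nn hr hmβ) m
  have rβR : r (τ β) ^ m ≤ R := pow_le_pow_left₀ (Alm.prof_nn hr hmβ) (Alm.prof_le_zero hr hmβ) m
  have b0 : -κ ≤ (τ α * (c α + M) + p α) * r (τ α) ^ m := by
    have h1 : |(τ α * (c α + M) + p α) * r (τ α) ^ m| ≤ |(τ α * (c α + M) + p α) * R| := by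
      rw [abs_mul, abs_mul, abs_of_nonneg rα0, abs_of_nonneg hR0.le]
      exact mul_le_mul_of_nonneg_left rαR (abs_nonneg _)
    linarith only [(abs_le.1 (h1.trans A3.le)).1]
  have b1' : (τ β * (c β + η + P) + p β - P) * r (τ β) ^ m ≤ 2 * κ + κ := by
    have h1 : c β + p β ≤ η := by
      have h2 := hle β hβ01 1 ⟨by norm_num, le_rfl⟩
      have h3 := hcor (τ β) ⟨by linarith only [(abs_lt.1 B6).2], hτβ.2.le⟩ 1 ⟨by linarith only [hδ2], le_rfl⟩
      have := (abs_le.1 h3).2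
      linarith only [this, h2]
    exact ass_bdry hτβ.2.le hη0.le hP0 hηR rβ0 rβR h1 hC1.le
      (pow_nonneg (ass_sq_nonneg β) (m + 2)) (hone β hβ01).1 B3
  have e0 : ((m : ℝ) + 1) * M * (∫ y in (0 : ℝ)..τ α, r y ^ m) ≤ κ := by
    have h1 := (ass_short (m := m) hr le_rfl hτα.1.le hτα.2.le).2
    rw [sub_zero] at h1
    have h2 := mul_le_mul_of_nonneg_left h1 (by (clear * - hm1 hM0; positivity) : 0 ≤ ((m : ℝ) + 1) * M)
    have h3 := (abs_lt.1 A4).2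
    linarith only [h3, h2]
  have e1 : ((m : ℝ) + 1) * (η + P) * (∫ y in τ β..1, r y ^ m) ≤ κ := by
    have h1 := (ass_short (m := m) hr hτβ.1.le hτβ.2.le le_rfl).2
    have h2 := mul_le_mul_of_nonneg_left h1 (by (clear * - hm1 hκ0 hR0 hP0; positivity) : 0 ≤ ((m : ℝ) + 1) * (η + P))
    have h3 := (abs_lt.1 B4).2
    linarith only [h3, h2]
  have k1 := (abs_lt.1 A1).2
  have k3 := (abs_lt.1 B1).2
  simp only [hTα, hTβ]
  have hκw : κ' = 24 * κ := by rw [hκ]; ring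
  rw [hsplit, hκw]
  have e5 : q * (∫ t in (0 : ℝ)..α, G t) + q * J + q * (∫ t in β..1, G t) =
    q * ((∫ x in (0 : ℝ)..α, G x) + J + ∫ x in β..1, G x) := by ring
  have e6 : 2 * q * ((∫ x in (0 : ℝ)..α, G x) + J + ∫ x in β..1, G x) =
    2 * (q * ((∫ x in (0 : ℝ)..α, G x) + J + ∫ x in β..1, G x)) := by ring
  rw [e6, ← e5]
  linarith only [k3, k1, e1, e0, b1', b0, hIJ, hκ0]

/-- **Value of the Fisher type functional in the transport chart.** -/
theorem fisGe_integral (hm1 : 1 ≤ m) (hr : IsProf r) (hT : IsTrans m r τ τ' T)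
    {q q' : ℝ → ℝ}
    (hq : ∀ x ∈ Ioo (0 : ℝ) 1, HasDerivAt q (q' x) x) (hq' : ContinuousOn q' (Ioo 0 1))
    (hq0 : Tendsto q (𝓝[>] 0) (𝓝 0)) (hq1 : ∃ C : ℝ, ∀ x ∈ Ioo (1/2 : ℝ) 1, |q x| ≤ C)
    (hI : IntervalIntegrable (fun x => (-((m : ℝ) + 1) * q x ^ 2 +
      2 * (q' x / τ' x) * (1 - τ x * q x)) * sq x ^ m) volume 0 1) :
    FisGe m r (2 * ((∫ t in (0 : ℝ)..1, r t ^ m) / (∫ t in (0 : ℝ)..1, sq t ^ m)) *
      ∫ x in (0 : ℝ)..1, (-((m : ℝ) + 1) * q x ^ 2 +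
      2 * (q' x / τ' x) * (1 - τ x * q x)) * sq x ^ m) := by
  refine FisGe.of_forall_lt fun κ' hκ' => ?_
  obtain ⟨κ, hκ⟩ : ∃ κ : ℝ, κ = κ' / 24 := ⟨_, rfl⟩
  have hκ0 : 0 < κ := by rw [hκ]; positivity
  obtain ⟨C, hC⟩ := hq1
  have hZr := ass_Zr_pos (m := m) hr
  have hZm := ass_Zm_pos m
  set Zr := ∫ t in (0 : ℝ)..1, r t ^ m with hZrd
  set Zm := ∫ t in (0 : ℝ)..1, sq t ^ m with hZmd
  set k := Zr / Zm with hk
  have hk0 : 0 < k := by positivity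
  set R := r 0 ^ m with hR
  have hR0 : 0 < R := pow_pos (hr.pos 0 ⟨by norm_num, by norm_num⟩) m
  set G : ℝ → ℝ := fun x => (-((m : ℝ) + 1) * q x ^ 2 +
      2 * (q' x / τ' x) * (1 - τ x * q x)) * sq x ^ m with hG
  have t1 : Tendsto (fun x => k * ∫ t in (0 : ℝ)..x, G t) (𝓝[>] 0) (𝓝 0) := by
    have := (fis_prim_zero hI).const_mul k
    rwa [mul_zero] at this
  have hτ0 := ass_tau_zero hm1 hr hT
  have t2 : Tendsto (fun x => (2 * q x - τ x * q x ^ 2) * R) (𝓝[>] 0) (𝓝 0) := by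
    have := ((hq0.const_mul 2).sub (hτ0.mul (hq0.pow 2))).mul_const R
    simpa using this
  have s1 : Tendsto (fun x => k * ∫ t in x..(1 : ℝ), G t) (𝓝[<] 1) (𝓝 0) := by
    have := (fis_prim_one hI).const_mul k
    rwa [mul_zero] at this
  have hτ1 := ass_tau_one hm1 hr hT
  have s2 : Tendsto (fun x => ((m : ℝ) + 1) * C ^ 2 * R * (1 - τ x)) (𝓝[<] 1) (𝓝 0) := by
    have := hτ1.const_mul (((m : ℝ) + 1) * C ^ 2 * R)
    rwa [mul_zero] at this
  have hI0 : ∀ᶠ x in 𝓝[>] (0 : ℝ), x ∈ Ioo (0 : ℝ) (1 / 2) := Ioo_mem_nhdsGT (by norm_num)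
  have hI1 : ∀ᶠ x in 𝓝[<] (1 : ℝ), x ∈ Ioo (1 / 2 : ℝ) 1 := Ioo_mem_nhdsLT (by norm_num)
  obtain ⟨α, hα, A1, A2⟩ := (hI0.and ((ass_small t1 hκ0).and (ass_small t2 hκ0))).exists
  obtain ⟨β, hβ, B1, B2⟩ := (hI1.and ((ass_small s1 hκ0).and (ass_small s2 hκ0))).exists
  have hα01 : α ∈ Ioo (0 : ℝ) 1 := ⟨hα.1, by linarith only [hα.2]⟩
  have hβ01 : β ∈ Ioo (0 : ℝ) 1 := ⟨by linarith only [hβ.1], hβ.2⟩
  have hαβ : α < β := by linarith only [hβ.1, hα.2]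
  have hτα := hT.mem α hα01
  have hτβ := hT.mem β hβ01
  have hτlt : τ α < τ β := hT.mono hα01 hβ01 hαβ
  have hTα := hT.left α hα01
  have hTβ := hT.left β hβ01
  have hTcont := fis_T_cont hT
  have hinv := fis_inv_cont hT
  have dqy : ∀ y ∈ Ioo (0 : ℝ) 1, HasDerivAt (fun y => q (T y)) (q' (T y) * (τ' (T y))⁻¹) y :=
    fun y hy => (hq _ (hT.Tmem y hy)).comp y (hT.Tder y hy)
  have cqy : ContinuousOn (fun y => q' (T y) * (τ' (T y))⁻¹) (Ioo 0 1) :=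
    (hq'.comp hTcont fun y hy => hT.Tmem y hy).mul hinv
  have hcut := fisGe_cut (m := m) hr (q := fun y => q (T y))
    (q' := fun y => q' (T y) * (τ' (T y))⁻¹) hτα.1 hτlt hτβ.2 dqy cqy
  refine FisGe.mono hcut ?_
  have qc : ContinuousOn (fun y => q (T y)) (Ioo 0 1) := fun y hy =>
    (dqy y hy).continuousAt.continuousWithinAt
  have hcov := hT.integral hm1 hr (F := fun y => -((m : ℝ) + 1) * q (T y) ^ 2 +
    2 * (q' (T y) * (τ' (T y))⁻¹) * (1 - y * q (T y))) (by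
      refine (continuousOn_const.mul (qc.pow 2)).add ((continuousOn_const.mul cqy).mul
        (continuousOn_const.sub (continuousOn_id.mul qc)))) hα01.1 hαβ.le hβ01.2
  have hcong : ∫ x in α..β, (-((m : ℝ) + 1) * q (T (τ x)) ^ 2 +
    2 * (q' (T (τ x)) * (τ' (T (τ x)))⁻¹) * (1 - τ x * q (T (τ x)))) * sq x ^ m =
      ∫ x in α..β, G x := by
    apply intervalIntegral.integral_congr
    intro x hx
    rw [uIcc_of_le hαβ.le] at hx
    have hx' : x ∈ Ioo (0 : ℝ) 1 := ⟨hα01.1.trans_le hx.1, hx.2.trans_lt hβ01.2⟩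
    simp only [hG, hT.left x hx']
    rw [div_eq_mul_inv]
  rw [hcong] at hcov
  have i0α : IntervalIntegrable G volume 0 α := hI.mono_set (by
    rw [uIcc_of_le hα01.1.le, uIcc_of_le zero_le_one]
    exact Icc_subset_Icc le_rfl hα01.2.le)
  have iαβ : IntervalIntegrable G volume α β := hI.mono_set (by
    rw [uIcc_of_le hαβ.le, uIcc_of_le zero_le_one]
    exact Icc_subset_Icc hα01.1.le hβ01.2.le)
  have iβ1 : IntervalIntegrable G volume β 1 := hI.mono_set (by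
    rw [uIcc_of_le hβ01.2.le, uIcc_of_le zero_le_one]
    exact Icc_subset_Icc hβ01.1.le le_rfl)
  have hsplit : ∫ x in (0 : ℝ)..1, G x = (∫ x in (0 : ℝ)..α, G x) + (∫ x in α..β, G x) +
      ∫ x in β..1, G x := by
    rw [intervalIntegral.integral_add_adjacent_intervals i0α iαβ,
      intervalIntegral.integral_add_adjacent_intervals (i0α.trans iαβ) iβ1]
  set J := ∫ x in α..β, G x with hJ
  set I := ∫ y in τ α..τ β, (-((m : ℝ) + 1) * q (T y) ^ 2 +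
    2 * (q' (T y) * (τ' (T y))⁻¹) * (1 - y * q (T y))) * r y ^ m with hI'
  have hIJ : I = k * J := by
    rw [hk, div_mul_eq_mul_div, eq_div_iff hZm.ne', hcov]
    ring
  have hmα : τ α ∈ Icc (0 : ℝ) 1 := ⟨hτα.1.le, hτα.2.le⟩
  have hmβ : τ β ∈ Icc (0 : ℝ) 1 := ⟨hτβ.1.le, hτβ.2.le⟩
  have rα0 : 0 ≤ r (τ α) ^ m := pow_nonneg (Alm.prof_nn hr hmα) m
  have rαR : r (τ α) ^ m ≤ R := pow_le_pow_left₀ (Alm.prof_nn hr hmα) (Alm.prof_le_zero hr hmα) m
  have b0 : -κ ≤ (2 * q α - τ α * q α ^ 2) * r (τ α) ^ m := by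
    have h1 : |(2 * q α - τ α * q α ^ 2) * r (τ α) ^ m| ≤ |(2 * q α - τ α * q α ^ 2) * R| := by
      rw [abs_mul, abs_mul, abs_of_nonneg rα0, abs_of_nonneg hR0.le]
      exact mul_le_mul_of_nonneg_left rαR (abs_nonneg _)
    linarith only [(abs_le.1 (h1.trans A2.le)).1]
  have e1 : ((m : ℝ) + 1) * q β ^ 2 * (∫ y in τ β..1, r y ^ m) ≤ κ := by
    have h1 := ass_short (m := m) hr hτβ.1.le hτβ.2.le le_rfl
    have h2 : q β ^ 2 ≤ C ^ 2 := by
      rw [← sq_abs (q β)]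
      exact pow_le_pow_left₀ (abs_nonneg _) (hC β hβ) 2
    have h3 : ((m : ℝ) + 1) * q β ^ 2 * (∫ y in τ β..1, r y ^ m) ≤
        ((m : ℝ) + 1) * C ^ 2 * ((1 - τ β) * R) := by
      refine mul_le_mul (mul_le_mul_of_nonneg_left h2 (by positivity)) h1.2 h1.1 (by (clear * - hm1; positivity))
    have h4 := (abs_lt.1 B2).2
    linarith only [h4, h3]
  have k1 := (abs_lt.1 A1).2
  have k3 := (abs_lt.1 B1).2
  simp only [hTα, hTβ]
  have hκw : κ' = 24 * κ := by rw [hκ]; ring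
  rw [hsplit, hκw]
  have e5 : k * (∫ t in (0 : ℝ)..α, G t) + k * J + k * (∫ t in β..1, G t) =
    k * ((∫ x in (0 : ℝ)..α, G x) + J + ∫ x in β..1, G x) := by ring
  have e6 : 2 * k * ((∫ x in (0 : ℝ)..α, G x) + J + ∫ x in β..1, G x) =
    2 * (k * ((∫ x in (0 : ℝ)..α, G x) + J + ∫ x in β..1, G x)) := by ring
  rw [e6, ← e5]
  linarith only [k3, k1, e1, b0, hIJ, hκ0]

end

end Vale.Agent.P237.AllN
end

section

/-!
# P237, all dimensions: certificates with the Fisher type functional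
-/

open MeasureTheory Metric Set Module Filter Topology

namespace Vale.Agent.P237.AllN

/-- The one-dimensional statement from values of the two functionals. -/
theorem oneDF_of_values {m : ℕ} {θ : ℝ} (hθ : 0 ≤ θ) {A : ℝ → ℝ → ℝ} (hA : Kern2 A)
    (hb : AdmGe m A sq 0)
    (h : ∀ r : ℝ → ℝ, IsProf r →
      (∫ y in (-1 : ℝ)..1, r y ^ (m - 1)) ^ m * aInt m ^ (m - 1) ≤
        aInt (m - 1) ^ m * (∫ y in (-1 : ℝ)..1, r y ^ m) ^ (m - 1) →
      (∃ k : ℝ, ∀ y ∈ Ioo (-1 : ℝ) 1, r y = k * Real.sqrt (1 - y ^ 2)) ∨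
      ∃ v w : ℝ, AdmGe m A r v ∧ FisGe m r w ∧ 0 < w ∧
        θ * ((∫ y in (-1 : ℝ)..1, r y ^ m) / w - 1) * (∫ y in (-1 : ℝ)..1, r y ^ m) < v) :
    OneDF m θ := by
  refine ⟨hθ, A, hA.toKern, fun ε hε => ?_, fun r hr hN => ?_⟩
  · obtain ⟨c, c', p, p', h1, h2⟩ := hb ε hε
    refine ⟨c, c', p, p', h1, ?_⟩
    rw [zero_sub] at h2
    exact h2
  · rcases h r hr hN with h1 | ⟨v, w, hv, hw, hw0, hlt⟩
    · exact Or.inl h1
    · refine Or.inr fun Q hQ0 hQ => ?_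
      have h2 := hQ.mul_le hQ0 hw
      have hI0 : 0 ≤ ∫ y in (-1 : ℝ)..1, r y ^ m := (mul_nonneg hQ0 hw0.le).trans h2
      have h3 : Q ≤ (∫ y in (-1 : ℝ)..1, r y ^ m) / w := by
        rw [le_div_iff₀ hw0]
        exact h2
      have h4 : θ * (Q - 1) * (∫ y in (-1 : ℝ)..1, r y ^ m) ≤
          θ * ((∫ y in (-1 : ℝ)..1, r y ^ m) / w - 1) * (∫ y in (-1 : ℝ)..1, r y ^ m) :=
        mul_le_mul_of_nonneg_right (mul_le_mul_of_nonneg_left (by linarith only [h3]) hθ) hI0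
      obtain ⟨c, c', p, p', k1, k2⟩ := hv ((v - θ * ((∫ y in (-1 : ℝ)..1, r y ^ m) / w - 1) *
        (∫ y in (-1 : ℝ)..1, r y ^ m)) / 2) (by linarith only [hlt])
      exact ⟨c, c', p, p', k1, by linarith only [k2, h4, hlt]⟩

/-- Positivity of an integral over `(0,1)` from a pointwise inequality with a primitive. -/
theorem fis_int_pos {F W Ψ Ψ' : ℝ → ℝ} {x₀ : ℝ} (hF : ContinuousOn F (Ioo 0 1))
    (hFi : IntervalIntegrable F volume 0 1) (hΨ : ContinuousOn Ψ (Ioo 0 1))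
    (hΨd : ∀ x ∈ Ioo (0 : ℝ) 1, x ≠ x₀ → HasDerivAt Ψ (Ψ' x) x)
    (hΨ0 : Tendsto Ψ (𝓝[>] 0) (𝓝 0)) (hΨ1 : Tendsto Ψ (𝓝[<] 1) (𝓝 0))
    (hW : ∀ x ∈ Ioo (0 : ℝ) 1, x ≠ x₀ → 0 ≤ W x)
    (hW1 : ∃ x ∈ Ioo (0 : ℝ) 1, ContinuousAt W x ∧ 0 < W x)
    (hid : ∀ x ∈ Ioo (0 : ℝ) 1, x ≠ x₀ → W x + Ψ' x ≤ F x) :
    0 < ∫ x in (0 : ℝ)..1, F x := by
  obtain ⟨a, b, w, ha, hab, hb, hw, hWw⟩ := ass_gain hW1
  have hw0 : 0 < w * (b - a) := mul_pos hw (by linarith)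
  obtain ⟨κ, hκ⟩ : ∃ κ : ℝ, κ = w * (b - a) / 8 := ⟨_, rfl⟩
  have hκ0 : 0 < κ := by rw [hκ]; (clear * - hw hab; positivity)
  have hI0 : ∀ᶠ x in 𝓝[>] (0 : ℝ), x ∈ Ioo (0 : ℝ) a := Ioo_mem_nhdsGT ha
  have hI1 : ∀ᶠ x in 𝓝[<] (1 : ℝ), x ∈ Ioo b 1 := Ioo_mem_nhdsLT hb
  obtain ⟨α, hα, A1, A2⟩ := (hI0.and ((ass_small hΨ0 hκ0).and
    (ass_small (fis_prim_zero hFi) hκ0))).exists
  obtain ⟨β, hβ, B1, B2⟩ := (hI1.and ((ass_small hΨ1 hκ0).and
    (ass_small (fis_prim_one hFi) hκ0))).exists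
  have hsub : ∀ {u v : ℝ}, α ≤ u → v ≤ β → Icc u v ⊆ Ioo (0 : ℝ) 1 := fun hu hv x hx =>
    ⟨hα.1.trans_le (hu.trans hx.1), (hx.2.trans hv).trans_lt hβ.2⟩
  have hsubi : ∀ {u v : ℝ}, 0 ≤ u → u ≤ v → v ≤ 1 → IntervalIntegrable F volume u v := by
    intro u v hu huv hv
    refine hFi.mono_set ?_
    rw [uIcc_of_le huv, uIcc_of_le zero_le_one]
    exact Icc_subset_Icc hu hv
  have piece : ∀ {u v q : ℝ}, α ≤ u → u ≤ v → v ≤ β →
      (∀ x ∈ Ioo u v, x ≠ x₀ → q ≤ W x) → q * (v - u) + (Ψ v - Ψ u) ≤ ∫ x in u..v, F x := by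
    intro u v q hu huv hv hq
    refine ass_int_ge (x₀ := x₀) (Ψ' := Ψ') huv (hF.mono (hsub hu hv)) (hΨ.mono (hsub hu hv)) ?_ ?_
    · intro x hx hx0
      exact hΨd x (hsub hu hv ⟨hx.1.le, hx.2.le⟩) hx0
    · intro x hx hx0
      have h2 := hid x (hsub hu hv ⟨hx.1.le, hx.2.le⟩) hx0
      have h3 := hq x hx hx0
      linarith only [h3, h2]
  have hαa := hα.2.le
  have hbβ := hβ.1.le
  have p1 := piece (q := 0) le_rfl hαa (hab.le.trans hbβ)
    (fun x hx hx0 => hW x (hsub le_rfl (hab.le.trans hbβ) ⟨hx.1.le, hx.2.le⟩) hx0)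
  have p2 := piece (q := w) hαa hab.le hbβ (fun x hx _ => hWw x ⟨hx.1.le, hx.2.le⟩)
  have p3 := piece (q := 0) (hαa.trans hab.le) hbβ le_rfl
    (fun x hx hx0 => hW x (hsub (hαa.trans hab.le) le_rfl ⟨hx.1.le, hx.2.le⟩) hx0)
  have hadd : ∫ x in (0 : ℝ)..1, F x = (∫ x in (0 : ℝ)..α, F x) + (∫ x in α..a, F x) +
      (∫ x in a..b, F x) + (∫ x in b..β, F x) + ∫ x in β..1, F x := by
    rw [intervalIntegral.integral_add_adjacent_intervals (hsubi le_rfl hα.1.le (by linarith only [hαa, hb, hab]))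
      (hsubi hα.1.le hαa (by linarith)),
      intervalIntegral.integral_add_adjacent_intervals (hsubi le_rfl ha.le (by linarith only [hb, hab]))
      (hsubi ha.le hab.le hb.le),
      intervalIntegral.integral_add_adjacent_intervals (hsubi le_rfl (by linarith) hb.le)
      (hsubi (by linarith only [hab, ha]) hbβ hβ.2.le),
      intervalIntegral.integral_add_adjacent_intervals (hsubi le_rfl (by linarith only [hbβ, hab, ha]) hβ.2.le)
      (hsubi (by linarith only [hbβ, hab, ha]) hβ.2.le le_rfl)]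
  have q1 := (abs_lt.1 A1).2
  have q2 := (abs_lt.1 A2).1
  have q3 := (abs_lt.1 B1).1
  have q4 := (abs_lt.1 B2).1
  rw [hadd]
  have hκw : w * (b - a) = 8 * κ := by rw [hκ]; ring
  linarith only [hκw, q4, q3, q2, q1, p3, p2, p1, hκ0]

theorem fis_quad {x a A b : ℝ} (hA : 0 < A) (hb : 0 ≤ b) (h : b + a ^ 2 / A < x) :
    0 < A + b ∧ (a + b) ^ 2 / (A + b) < x := by
  have hAb : 0 < A + b := by linarith
  refine ⟨hAb, lt_of_le_of_lt ?_ h⟩
  rw [div_le_iff₀ hAb]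
  have e : (b + a ^ 2 / A) * (A + b) - (a + b) ^ 2 = b * (A - a) ^ 2 / A := by
    field_simp
    ring
  have : 0 ≤ b * (A - a) ^ 2 / A := by positivity
  linarith only [this, e]

theorem fis_tangent {W e d t : ℝ} (hd : 0 < d) (h : e ^ 2 ≤ W * d) :
    0 ≤ W - 2 * t * e + t ^ 2 * d := by
  have h1 : 0 ≤ (W - 2 * t * e + t ^ 2 * d) * d := by
    linarith only [sq_nonneg (e - t * d), h]
  exact nonneg_of_mul_nonneg_left h1 hd

theorem fis_tangent_lt {W e d t : ℝ} (hd : 0 < d) (h : e ^ 2 < W * d) :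
    0 < W - 2 * t * e + t ^ 2 * d := by
  have h1 : 0 < (W - 2 * t * e + t ^ 2 * d) * d := by
    linarith only [sq_nonneg (e - t * d), h]
  exact (mul_pos_iff_of_pos_right hd).1 h1

/-- **Certificates with the Fisher type functional of weight one.** Here
`N x = s^(m-1) (τ'^(1/m) - 1)`. -/
theorem values_of_cert {m : ℕ} (hm : 3 ≤ m) {A : ℝ → ℝ → ℝ} (hA : Kern2 A) {r : ℝ → ℝ}
    (hr : IsProf r) {τ τ' T : ℝ → ℝ} (hT : IsTrans m r τ τ' T)
    (hN : (∫ y in (-1 : ℝ)..1, r y ^ (m - 1)) ^ m * aInt m ^ (m - 1) ≤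
      aInt (m - 1) ^ m * (∫ y in (-1 : ℝ)..1, r y ^ m) ^ (m - 1))
    {c c' p p' q q' : ℝ → ℝ}
    (hc : ∀ x ∈ Ioo (0 : ℝ) 1, HasDerivAt c (c' x) x) (hc' : ContinuousOn c' (Ioo 0 1))
    (hp : ∀ x ∈ Ioo (0 : ℝ) 1, HasDerivAt p (p' x) x) (hp' : ContinuousOn p' (Ioo 0 1))
    (hle : ∀ x ∈ Ioo (0 : ℝ) 1, ∀ b ∈ Icc (-1 : ℝ) 1, c x + p x * b ≤ A (τ x) b)
    (hc0 : ∃ C : ℝ, ∀ x ∈ Ioo (0 : ℝ) (1/2), |c x| ≤ C)
    (hp0 : Tendsto p (𝓝[>] 0) (𝓝 0))
    (hc1 : Tendsto (fun x => sq x ^ (m + 2) * c x) (𝓝[<] 1) (𝓝 0))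
    (hq : ∀ x ∈ Ioo (0 : ℝ) 1, HasDerivAt q (q' x) x) (hq' : ContinuousOn q' (Ioo 0 1))
    (hq0 : Tendsto q (𝓝[>] 0) (𝓝 0)) (hq1 : ∃ C : ℝ, ∀ x ∈ Ioo (1/2 : ℝ) 1, |q x| ≤ C)
    {k j : ℝ → ℝ}
    (hk : ∀ x ∈ Ioo (0 : ℝ) 1, k x = ((m : ℝ) + 1) * c x + (τ x * c' x + p' x) / τ' x)
    (hj : ∀ x ∈ Ioo (0 : ℝ) 1, j x = -((m : ℝ) + 1) * q x ^ 2 +
      2 * (q' x / τ' x) * (1 - τ x * q x))
    (hIk : IntervalIntegrable (fun x => k x * sq x ^ m) volume 0 1)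
    (hIj : IntervalIntegrable (fun x => j x * sq x ^ m) volume 0 1)
    {μ μ₁ : ℝ} (hμ₁ : 0 ≤ μ₁) (hμ : μ₁ ≤ μ) {x₀ : ℝ} {W e ρ Ψ Ψ' Ψ₁ Ψ₁' : ℝ → ℝ}
    (hρ : ContinuousOn ρ (Ioo 0 1)) (hρi : IntervalIntegrable ρ volume 0 1)
    (hρ1 : ∫ x in (0 : ℝ)..1, ρ x = ∫ x in (0 : ℝ)..1, sq x ^ m)
    (hΨ : ContinuousOn Ψ (Ioo 0 1)) (hΨd : ∀ x ∈ Ioo (0 : ℝ) 1, x ≠ x₀ → HasDerivAt Ψ (Ψ' x) x)
    (hΨ0 : Tendsto Ψ (𝓝[>] 0) (𝓝 0)) (hΨ1 : Tendsto Ψ (𝓝[<] 1) (𝓝 0))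
    (gΨ : ContinuousOn Ψ₁ (Ioo 0 1))
    (gΨd : ∀ x ∈ Ioo (0 : ℝ) 1, x ≠ x₀ → HasDerivAt Ψ₁ (Ψ₁' x) x)
    (gΨ0 : Tendsto Ψ₁ (𝓝[>] 0) (𝓝 0)) (gΨ1 : Tendsto Ψ₁ (𝓝[<] 1) (𝓝 0))
    (hpos : ∀ x ∈ Ioo (0 : ℝ) 1, 0 < ρ x + e x)
    (hW : ∀ x ∈ Ioo (0 : ℝ) 1, x ≠ x₀ → e x ^ 2 ≤ W x * (ρ x + e x))
    (hW1 : ∃ x ∈ Ioo (0 : ℝ) 1, ContinuousAt W x ∧ ContinuousAt e x ∧
      e x ^ 2 < W x * (ρ x + e x))
    (hid : ∀ x ∈ Ioo (0 : ℝ) 1, x ≠ x₀ →
      W x + Ψ' x ≤ (k x + j x - 1) * sq x ^ m +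
        μ * (sq x ^ (m - 1) * τ' x ^ (1 / (m : ℝ)) - sq x ^ (m - 1)))
    (hid1 : ∀ x ∈ Ioo (0 : ℝ) 1, x ≠ x₀ →
      e x + Ψ₁' x = (j x - 1) * sq x ^ m +
        μ₁ * (sq x ^ (m - 1) * τ' x ^ (1 / (m : ℝ)) - sq x ^ (m - 1))) :
    ∃ v w : ℝ, AdmGe m A r v ∧ FisGe m r w ∧ 0 < w ∧
      (1 : ℝ) * ((∫ y in (-1 : ℝ)..1, r y ^ m) / w - 1) * (∫ y in (-1 : ℝ)..1, r y ^ m) < v := by
  have hm1 : 1 ≤ m := by omega
  have hZr := ass_Zr_pos (m := m) hr
  have hZm := ass_Zm_pos m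
  obtain ⟨hcon, hcle⟩ := hT.constraint (by omega) hr hN
  have hSi : IntervalIntegrable (fun x => sq x ^ (m - 1)) volume 0 1 :=
    (ass_sq_cont.pow (m - 1)).intervalIntegrable 0 1
  have hsmi : IntervalIntegrable (fun x => sq x ^ m) volume 0 1 :=
    (ass_sq_cont.pow m).intervalIntegrable 0 1
  -- the two values
  have hIk' : IntervalIntegrable (fun x => (((m : ℝ) + 1) * c x + (τ x * c' x + p' x) / τ' x) *
      sq x ^ m) volume 0 1 := by
    rw [intervalIntegrable_iff_integrableOn_Ioo_of_le zero_le_one] at hIk ⊢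
    refine hIk.congr_fun (fun x hx => ?_) measurableSet_Ioo
    simp only
    rw [hk x hx]
  have hIj' : IntervalIntegrable (fun x => (-((m : ℝ) + 1) * q x ^ 2 +
      2 * (q' x / τ' x) * (1 - τ x * q x)) * sq x ^ m) volume 0 1 := by
    rw [intervalIntegrable_iff_integrableOn_Ioo_of_le zero_le_one] at hIj ⊢
    refine hIj.congr_fun (fun x hx => ?_) measurableSet_Ioo
    simp only
    rw [hj x hx]
  have hv := admGe_integral hm1 hA hr hT hc hc' hp hp' hle hc0 hp0 hc1 hIk'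
  have hw := fisGe_integral hm1 hr hT hq hq' hq0 hq1 hIj'
  have ek : ∫ x in (0 : ℝ)..1, (((m : ℝ) + 1) * c x + (τ x * c' x + p' x) / τ' x) * sq x ^ m =
      ∫ x in (0 : ℝ)..1, k x * sq x ^ m := by
    rw [intervalIntegral.integral_of_le zero_le_one, intervalIntegral.integral_of_le zero_le_one,
      integral_Ioc_eq_integral_Ioo, integral_Ioc_eq_integral_Ioo]
    refine setIntegral_congr_fun measurableSet_Ioo fun x hx => ?_
    rw [hk x hx]
  have ej : ∫ x in (0 : ℝ)..1, (-((m : ℝ) + 1) * q x ^ 2 +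
      2 * (q' x / τ' x) * (1 - τ x * q x)) * sq x ^ m = ∫ x in (0 : ℝ)..1, j x * sq x ^ m := by
    rw [intervalIntegral.integral_of_le zero_le_one, intervalIntegral.integral_of_le zero_le_one,
      integral_Ioc_eq_integral_Ioo, integral_Ioc_eq_integral_Ioo]
    refine setIntegral_congr_fun measurableSet_Ioo fun x hx => ?_
    rw [hj x hx]
  rw [ek] at hv
  rw [ej] at hw
  set Nf : ℝ → ℝ := fun x => sq x ^ (m - 1) * τ' x ^ (1 / (m : ℝ)) - sq x ^ (m - 1) with hNf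
  have hNi : IntervalIntegrable Nf volume 0 1 := hcon.sub hSi
  have hN0 : ∫ x in (0 : ℝ)..1, Nf x ≤ 0 := by
    rw [hNf, intervalIntegral.integral_sub hcon hSi]
    linarith only [hcle]
  set Kh := ∫ x in (0 : ℝ)..1, k x * sq x ^ m with hKh
  set Jh := ∫ x in (0 : ℝ)..1, j x * sq x ^ m with hJh
  set Nh := ∫ x in (0 : ℝ)..1, Nf x with hNh
  set Zm := ∫ x in (0 : ℝ)..1, sq x ^ m with hZmd
  -- continuity
  have hkc : ContinuousOn k (Ioo 0 1) :=
    (ass_E_cont hT hc hc' hp').congr fun x hx => hk x hx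
  have hτc : ContinuousOn τ (Ioo 0 1) := fun x hx => (hT.der x hx).continuousAt.continuousWithinAt
  have hqc : ContinuousOn q (Ioo 0 1) := fun x hx => (hq x hx).continuousAt.continuousWithinAt
  have hjc : ContinuousOn j (Ioo 0 1) := by
    refine ContinuousOn.congr ?_ fun x hx => hj x hx
    exact (continuousOn_const.mul (hqc.pow 2)).add ((continuousOn_const.mul
      (hq'.div hT.cont fun x hx => (hT.pos x hx).ne')).mul (continuousOn_const.sub (hτc.mul hqc)))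
  have hNc : ContinuousOn Nf (Ioo 0 1) := ass_K_cont hT
  have hsc : ContinuousOn (fun x => sq x ^ m) (Ioo (0 : ℝ) 1) := (ass_sq_cont.pow m).continuousOn
  -- the family of inequalities
  have key : ∀ t : ℝ, 0 < (Kh + Jh - Zm + μ * Nh) - (2 * t - t ^ 2) * (Jh - Zm + μ₁ * Nh) +
      t ^ 2 * Zm := by
    intro t
    have h1 := fis_int_pos (F := fun x => (k x * sq x ^ m + j x * sq x ^ m - sq x ^ m + μ * Nf x) -
        (2 * t - t ^ 2) * (j x * sq x ^ m - sq x ^ m + μ₁ * Nf x) + t ^ 2 * ρ x)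
      (W := fun x => W x - 2 * t * e x + t ^ 2 * (ρ x + e x))
      (Ψ := fun x => Ψ x - (2 * t - t ^ 2) * Ψ₁ x) (Ψ' := fun x => Ψ' x - (2 * t - t ^ 2) * Ψ₁' x)
      (x₀ := x₀)
      (((((hkc.mul hsc).add (hjc.mul hsc)).sub hsc).add (continuousOn_const.mul hNc)).sub
        (continuousOn_const.mul (((hjc.mul hsc).sub hsc).add (continuousOn_const.mul hNc))) |>.add
        (continuousOn_const.mul hρ))
      (((((hIk.add hIj).sub hsmi).add (hNi.const_mul μ)).sub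
        (((hIj.sub hsmi).add (hNi.const_mul μ₁)).const_mul (2 * t - t ^ 2))).add
        (hρi.const_mul (t ^ 2)))
      (hΨ.sub (continuousOn_const.mul gΨ))
      (fun x hx hx0 => (hΨd x hx hx0).sub ((gΨd x hx hx0).const_mul _))
      (by simpa using hΨ0.sub (gΨ0.const_mul (2 * t - t ^ 2)))
      (by simpa using hΨ1.sub (gΨ1.const_mul (2 * t - t ^ 2)))
      (fun x hx hx0 => fis_tangent (hpos x hx) (hW x hx hx0))
      (by
        obtain ⟨x, hx, hWc, hec, hlt⟩ := hW1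
        have hρx : ContinuousAt ρ x := hρ.continuousAt (isOpen_Ioo.mem_nhds hx)
        exact ⟨x, hx, (hWc.sub (hec.const_mul _)).add ((hρx.add hec).const_mul _),
          fis_tangent_lt (hpos x hx) hlt⟩)
      (fun x hx hx0 => by
        have h2 := hid x hx hx0
        have h3 := hid1 x hx hx0
        have h4 : (j x - 1) * sq x ^ m + μ₁ * Nf x - (e x + Ψ₁' x) = 0 := by
          rw [h3]
          ring
        have h5 : (k x * sq x ^ m + j x * sq x ^ m - sq x ^ m + μ * Nf x) -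
            (2 * t - t ^ 2) * (j x * sq x ^ m - sq x ^ m + μ₁ * Nf x) + t ^ 2 * ρ x -
            (W x - 2 * t * e x + t ^ 2 * (ρ x + e x) + (Ψ' x - (2 * t - t ^ 2) * Ψ₁' x)) =
            ((k x + j x - 1) * sq x ^ m + μ * Nf x - (W x + Ψ' x)) -
            (2 * t - t ^ 2) * ((j x - 1) * sq x ^ m + μ₁ * Nf x - (e x + Ψ₁' x)) := by ring
        rw [h4, mul_zero, sub_zero] at h5
        have h6 : W x + Ψ' x ≤ (k x + j x - 1) * sq x ^ m + μ * Nf x := h2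
        linarith only [h6, h5])
    have hIe : ∫ x in (0 : ℝ)..1, ((k x * sq x ^ m + j x * sq x ^ m - sq x ^ m + μ * Nf x) -
        (2 * t - t ^ 2) * (j x * sq x ^ m - sq x ^ m + μ₁ * Nf x) + t ^ 2 * ρ x) =
        (Kh + Jh - Zm + μ * Nh) - (2 * t - t ^ 2) * (Jh - Zm + μ₁ * Nh) + t ^ 2 * Zm := by
      rw [intervalIntegral.integral_add ((((hIk.add hIj).sub hsmi).add (hNi.const_mul μ)).sub
          (((hIj.sub hsmi).add (hNi.const_mul μ₁)).const_mul (2 * t - t ^ 2)))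
          (hρi.const_mul (t ^ 2)),
        intervalIntegral.integral_sub (((hIk.add hIj).sub hsmi).add (hNi.const_mul μ))
          (((hIj.sub hsmi).add (hNi.const_mul μ₁)).const_mul (2 * t - t ^ 2)),
        intervalIntegral.integral_const_mul, intervalIntegral.integral_const_mul,
        intervalIntegral.integral_add ((hIk.add hIj).sub hsmi) (hNi.const_mul μ),
        intervalIntegral.integral_add (hIj.sub hsmi) (hNi.const_mul μ₁),
        intervalIntegral.integral_sub (hIk.add hIj) hsmi,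
        intervalIntegral.integral_sub hIj hsmi,
        intervalIntegral.integral_add hIk hIj, intervalIntegral.integral_const_mul,
        intervalIntegral.integral_const_mul, hρ1]
    rw [hIe] at h1
    exact h1
  -- positivity of the denominator
  have hA0 : 0 < Jh + μ₁ * Nh := by
    have h1 := fis_int_pos (F := fun x => (j x * sq x ^ m - sq x ^ m + μ₁ * Nf x) + ρ x)
      (W := fun x => ρ x + e x) (Ψ := Ψ₁) (Ψ' := Ψ₁') (x₀ := x₀)
      ((((hjc.mul hsc).sub hsc).add (continuousOn_const.mul hNc)).add hρ)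
      (((hIj.sub hsmi).add (hNi.const_mul μ₁)).add hρi) gΨ gΨd gΨ0 gΨ1
      (fun x hx _ => (hpos x hx).le)
      (by
        obtain ⟨x, hx, hWc, hec, hlt⟩ := hW1
        have hρx : ContinuousAt ρ x := hρ.continuousAt (isOpen_Ioo.mem_nhds hx)
        exact ⟨x, hx, hρx.add hec, hpos x hx⟩)
      (fun x hx hx0 => by
        have h3 := hid1 x hx hx0
        have h4 : (j x - 1) * sq x ^ m + μ₁ * Nf x = e x + Ψ₁' x := h3.symm
        linarith only [h4])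
    have hIe : ∫ x in (0 : ℝ)..1, ((j x * sq x ^ m - sq x ^ m + μ₁ * Nf x) + ρ x) =
        (Jh - Zm + μ₁ * Nh) + Zm := by
      rw [intervalIntegral.integral_add ((hIj.sub hsmi).add (hNi.const_mul μ₁)) hρi,
        intervalIntegral.integral_add (hIj.sub hsmi) (hNi.const_mul μ₁),
        intervalIntegral.integral_sub hIj hsmi, intervalIntegral.integral_const_mul, hρ1]
    rw [hIe] at h1
    linarith only [h1]
  have hk1 := key ((Jh - Zm + μ₁ * Nh) / (Jh + μ₁ * Nh))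
  have hkk : (2 * ((Jh - Zm + μ₁ * Nh) / (Jh + μ₁ * Nh)) -
      ((Jh - Zm + μ₁ * Nh) / (Jh + μ₁ * Nh)) ^ 2) * (Jh - Zm + μ₁ * Nh) -
      ((Jh - Zm + μ₁ * Nh) / (Jh + μ₁ * Nh)) ^ 2 * Zm =
      (Jh - Zm + μ₁ * Nh) ^ 2 / (Jh + μ₁ * Nh) := by
    field_simp
    ring
  obtain ⟨hJ0, hq2⟩ := fis_quad (x := Kh + Jh - Zm) (a := Jh - Zm + μ₁ * Nh)
    (A := Jh + μ₁ * Nh) (b := -(μ₁ * Nh)) hA0 (by linarith only [mul_nonneg (sub_nonneg.2 hμ₁) (sub_nonneg.2 hN0)]) (by linarith only [mul_nonneg (sub_nonneg.2 hμ) (sub_nonneg.2 hN0), hkk, hk1])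
  have e1 : Jh + μ₁ * Nh + -(μ₁ * Nh) = Jh := by ring
  have e2 : Jh - Zm + μ₁ * Nh + -(μ₁ * Nh) = Jh - Zm := by ring
  rw [e1] at hJ0 hq2
  rw [e2] at hq2
  set Zr := ∫ t in (0 : ℝ)..1, r t ^ m with hZrd
  have hI2 : ∫ y in (-1 : ℝ)..1, r y ^ m = 2 * Zr := by
    rw [hZrd]
    exact integral_even_eq (fun y => by simp only [hr.even])
      (Alm.prof_pow_ii hr m ⟨le_rfl, zero_le_one⟩ ⟨zero_le_one, le_rfl⟩)
  refine ⟨_, _, hv, hw, by (clear * - hZr hZm hJ0; positivity), ?_⟩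
  rw [hI2]
  have e3 : 2 * Zr / (2 * (Zr / Zm) * Jh) = Zm / Jh := by field_simp
  rw [e3]
  have e4 : 2 * (Zr / Zm) * Kh - 1 * (Zm / Jh - 1) * (2 * Zr) =
      2 * (Zr / Zm) * ((Kh + Jh - Zm) - (Jh - Zm) ^ 2 / Jh) := by
    field_simp
    ring
  have h5 : 0 < 2 * (Zr / Zm) * ((Kh + Jh - Zm) - (Jh - Zm) ^ 2 / Jh) := by
    have : 0 < (Kh + Jh - Zm) - (Jh - Zm) ^ 2 / Jh := by linarith only [hq2]
    (clear * - hZr hZm hq2; positivity)
  linarith only [h5, e4]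

end Vale.Agent.P237.AllN
end

section

/-!
# P237, all dimensions: the Fisher type functional with the test `x²/τ`
-/

open MeasureTheory Metric Set Module Filter Topology

namespace Vale.Agent.P237.AllN

/-- test function `x²/τ` -/
noncomputable def jq (τ : ℝ → ℝ) (x : ℝ) : ℝ := x ^ 2 / τ x

/-- its derivative -/
noncomputable def jq' (τ τ' : ℝ → ℝ) (x : ℝ) : ℝ := 2 * x / τ x - x ^ 2 * τ' x / τ x ^ 2

/-- integrand of the Fisher type functional -/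
noncomputable def jF (m : ℕ) (τ τ' : ℝ → ℝ) (x : ℝ) : ℝ :=
  -((m : ℝ) + 1) * jq τ x ^ 2 + 2 * (jq' τ τ' x / τ' x) * (1 - τ x * jq τ x)

section

variable {m : ℕ} {r τ τ' T : ℝ → ℝ} {x : ℝ}

theorem jq_der (h : IsTrans m r τ τ' T) (hx : x ∈ Ioo (0 : ℝ) 1) :
    HasDerivAt (jq τ) (jq' τ τ' x) x := by
  have h1 := tr_pos h hx
  have e0 : HasDerivAt (fun x : ℝ => x ^ 2) (2 * x) x := by simpa using hasDerivAt_pow 2 x
  refine (e0.div (h.der x hx) h1.ne').congr_deriv ?_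
  unfold jq'
  field_simp

theorem jq_eq (h : IsTrans m r τ τ' T) (hx : x ∈ Ioo (0 : ℝ) 1) :
    jq τ x = x * Real.exp (-lf τ x) := by
  unfold jq
  rw [Real.exp_neg, exp_lf h hx]
  have h1 := (tr_pos h hx).ne'
  have h2 := hx.1.ne'
  field_simp

theorem jq_cont (h : IsTrans m r τ τ' T) : ContinuousOn (jq τ) (Ioo 0 1) :=
  fun _ hx => (jq_der h hx).continuousAt.continuousWithinAt

theorem jq'_cont (h : IsTrans m r τ τ' T) : ContinuousOn (jq' τ τ') (Ioo 0 1) := by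
  have h1 := tau_cont h
  have h2 := h.cont
  have hid : ContinuousOn (fun x : ℝ => x) (Ioo (0 : ℝ) 1) := continuousOn_id
  unfold jq'
  exact ((continuousOn_const.mul hid).div h1 fun x hx => (tr_pos h hx).ne').sub
    (((hid.pow 2).mul h2).div (h1.pow 2) fun x hx => (pow_pos (tr_pos h hx) 2).ne')

theorem jq_le (hm : 1 ≤ m) (hr : IsProf r) (h : IsTrans m r τ τ' T) :
    ∃ C : ℝ, 0 ≤ C ∧ ∀ x ∈ Ioo (0 : ℝ) 1, |jq τ x| ≤ C * x := by
  obtain ⟨C, hC, hb⟩ := lf_bdd hm hr h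
  refine ⟨Real.exp C, (Real.exp_pos _).le, fun x hx => ?_⟩
  rw [jq_eq h hx, abs_mul, abs_of_pos hx.1, abs_of_pos (Real.exp_pos _), mul_comm]
  apply mul_le_mul_of_nonneg_right _ hx.1.le
  apply Real.exp_le_exp.2
  have := (abs_le.1 (hb x hx)).1
  linarith

theorem jq_tendsto_zero (hm : 1 ≤ m) (hr : IsProf r) (h : IsTrans m r τ τ' T) :
    Tendsto (jq τ) (𝓝[>] 0) (𝓝 0) := by
  obtain ⟨C, hC, hb⟩ := jq_le hm hr h
  have h1 : Tendsto (fun x : ℝ => C * x) (𝓝[>] 0) (𝓝 0) := by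
    have : Tendsto (fun x : ℝ => C * x) (𝓝 0) (𝓝 (C * 0)) :=
      (continuous_const.mul continuous_id).tendsto 0
    rw [mul_zero] at this
    exact this.mono_left nhdsWithin_le_nhds
  refine squeeze_zero_norm' ?_ h1
  filter_upwards [Ioo_mem_nhdsGT (zero_lt_one' ℝ)] with x hx
  exact hb x hx

theorem jq_bdd (hm : 1 ≤ m) (hr : IsProf r) (h : IsTrans m r τ τ' T) :
    ∃ C : ℝ, ∀ x ∈ Ioo (1 / 2 : ℝ) 1, |jq τ x| ≤ C := by
  obtain ⟨C, hC, hb⟩ := jq_le hm hr h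
  refine ⟨C, fun x hx => (hb x ⟨by linarith only [hx.1], hx.2⟩).trans ?_⟩
  linarith only [mul_nonneg (sub_nonneg.2 hC) (le_of_lt (sub_pos.2 hx.2))]

/-- closed form of the integrand -/
theorem jF_eq (h : IsTrans m r τ τ' T) (hx : x ∈ Ioo (0 : ℝ) 1) :
    jF m τ τ' x = Real.exp (-(2 * lf τ x)) * (-((m : ℝ) + 1) * x ^ 2 +
      2 * sq x ^ 2 * (2 / (1 + uf τ τ' x) - 1)) := by
  have h1 := (tr_pos h hx).ne'
  have h2 := hx.1.ne'
  have h3 := (uf_pos h hx).ne'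
  have h4 := (h.pos x hx).ne'
  have e1 : Real.exp (-(2 * lf τ x)) = x ^ 2 / τ x ^ 2 := by
    rw [show -(2 * lf τ x) = -lf τ x + -lf τ x by ring, Real.exp_add, Real.exp_neg, exp_lf h hx]
    field_simp
  have e2 : 1 + uf τ τ' x = x * τ' x / τ x := by unfold uf; ring
  have hs := sqx_sq hx
  rw [e1, e2]
  unfold jF jq' jq
  have e3 : 1 - τ x * (x ^ 2 / τ x) = sq x ^ 2 := by
    rw [mul_div_cancel₀ _ h1, hs]
    ring
  rw [e3]
  field_simp

theorem jF_cont (h : IsTrans m r τ τ' T) : ContinuousOn (jF m τ τ') (Ioo 0 1) := by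
  unfold jF
  exact (continuousOn_const.mul ((jq_cont h).pow 2)).add ((continuousOn_const.mul
    ((jq'_cont h).div h.cont fun x hx => (h.pos x hx).ne')).mul
      (continuousOn_const.sub ((tau_cont h).mul (jq_cont h))))

/-- `s^m/(1+u)` is bounded -/
theorem pow_div_bdd (hm : 1 ≤ m) (hr : IsProf r) (h : IsTrans m r τ τ' T) :
    ∃ C : ℝ, 0 ≤ C ∧ ∀ x ∈ Ioo (0 : ℝ) 1, |sq x ^ m / (1 + uf τ τ' x)| ≤ C := by
  obtain ⟨C, hC, hb⟩ := lf_bdd hm hr h
  have hZr := ass_Zr_pos (m := m) hr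
  have hZm := ass_Zm_pos m
  have hr0 : 0 ≤ r 0 := Alm.prof_nn hr ⟨le_rfl, zero_le_one⟩
  refine ⟨Real.exp C * (r 0 ^ m * (∫ t in (0 : ℝ)..1, sq t ^ m) / ∫ t in (0 : ℝ)..1, r t ^ m),
    by (clear * - hr0 hZm hZr; positivity), fun x hx => ?_⟩
  have h1 := tr_pos h hx
  have h4 := h.pos x hx
  have hs := sqx_pos hx
  have e2 : 1 + uf τ τ' x = x * τ' x / τ x := by unfold uf; ring
  have he := h.eqn x hx
  have e : sq x ^ m / (1 + uf τ τ' x) = (τ x / x) * (r (τ x) ^ m *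
      (∫ t in (0 : ℝ)..1, sq t ^ m) / ∫ t in (0 : ℝ)..1, r t ^ m) := by
    rw [e2]
    have h2 := hx.1.ne'
    rw [div_div_eq_mul_div, mul_div_assoc', div_eq_div_iff (by positivity) hZr.ne']
    field_simp
    linear_combination (-(1:ℝ)) * he
  have hrt : 0 ≤ r (τ x) := Alm.prof_nn hr ⟨(h.mem x hx).1.le, (h.mem x hx).2.le⟩
  have hle : r (τ x) ≤ r 0 := Alm.prof_le_zero hr ⟨(h.mem x hx).1.le, (h.mem x hx).2.le⟩
  rw [e, abs_mul, abs_of_pos (div_pos h1 hx.1), abs_of_nonneg (by (clear * - hrt hZm hZr; positivity))]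
  refine mul_le_mul ?_ ?_ (by (clear * - hrt hZm hZr; positivity)) (Real.exp_pos _).le
  · rw [← exp_lf h hx]
    exact Real.exp_le_exp.2 (abs_le.1 (hb x hx)).2
  · apply div_le_div_of_nonneg_right _ hZr.le
    apply mul_le_mul_of_nonneg_right _ hZm.le
    exact pow_le_pow_left₀ hrt hle m

theorem jF_ii (hm : 1 ≤ m) (hr : IsProf r) (h : IsTrans m r τ τ' T) :
    IntervalIntegrable (fun x => jF m τ τ' x * sq x ^ m) volume 0 1 := by
  obtain ⟨C, hC, hb⟩ := lf_bdd hm hr h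
  obtain ⟨D, hD, hd⟩ := pow_div_bdd hm hr h
  have hs1 := br_sq_le_one
  rw [intervalIntegrable_iff_integrableOn_Ioo_of_le zero_le_one]
  have hc : ContinuousOn (fun x => jF m τ τ' x * sq x ^ m) (Ioo 0 1) :=
    (jF_cont h).mul (br_sq_cont.pow m).continuousOn
  refine Integrable.of_bound (hc.aestronglyMeasurable measurableSet_Ioo)
    (Real.exp (2 * C) * (((m : ℝ) + 1) + 2 * (2 * D + 1))) ?_
  · refine (ae_restrict_mem measurableSet_Ioo).mono fun x hx => ?_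
    have hs := sqx_pos hx
    have hsp : 0 ≤ sq x ^ m := pow_nonneg hs.le m
    have hsp1 : sq x ^ m ≤ 1 := pow_le_one₀ hs.le (hs1 x)
    have hs2 : sq x ^ 2 ≤ 1 := pow_le_one₀ hs.le (hs1 x)
    have hx2 : x ^ 2 ≤ 1 := pow_le_one₀ hx.1.le hx.2.le
    rw [jF_eq h hx, Real.norm_eq_abs]
    have e : Real.exp (-(2 * lf τ x)) * (-((m : ℝ) + 1) * x ^ 2 +
        2 * sq x ^ 2 * (2 / (1 + uf τ τ' x) - 1)) * sq x ^ m =
        Real.exp (-(2 * lf τ x)) * (-(((m : ℝ) + 1) * (x ^ 2 * sq x ^ m)) +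
        2 * (sq x ^ 2 * (2 * (sq x ^ m / (1 + uf τ τ' x)) - sq x ^ m))) := by
      have h3 := (uf_pos h hx).ne'
      field_simp
    rw [e, abs_mul, abs_of_pos (Real.exp_pos _)]
    have h1 : Real.exp (-(2 * lf τ x)) ≤ Real.exp (2 * C) := by
      apply Real.exp_le_exp.2
      have := (abs_le.1 (hb x hx)).1
      linarith only [this]
    refine mul_le_mul h1 ?_ (abs_nonneg _) (Real.exp_pos _).le
    refine (abs_add_le _ _).trans (add_le_add ?_ ?_)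
    · rw [abs_neg, abs_of_nonneg (by (clear * - hm hs; positivity))]
      have : x ^ 2 * sq x ^ m ≤ 1 := by linarith only [mul_nonneg (sub_nonneg.2 hx2) (sq_nonneg x), mul_nonneg (sub_nonneg.2 hx2) (sub_nonneg.2 hx2), mul_nonneg (sub_nonneg.2 hsp1) (sq_nonneg x)]
      nlinarith
    · rw [abs_mul, abs_two, abs_mul, abs_of_nonneg (sq_nonneg (sq x))]
      have h5 : |2 * (sq x ^ m / (1 + uf τ τ' x)) - sq x ^ m| ≤ 2 * D + 1 := by
        refine (abs_sub _ _).trans ?_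
        rw [abs_mul, abs_two, abs_of_nonneg hsp]
        linarith only [hd x hx, hsp1]
      have h6 : sq x ^ 2 * |2 * (sq x ^ m / (1 + uf τ τ' x)) - sq x ^ m| ≤ 1 * (2 * D + 1) :=
        mul_le_mul hs2 h5 (abs_nonneg _) zero_le_one
      linarith only [h6]

/-! ### the potential -/

/-- derivative of `x s^m` -/
theorem xs_der (m : ℕ) (hx : x ∈ Ioo (0 : ℝ) 1) :
    HasDerivAt (fun x => x * sq x ^ m) (sq x ^ m * (1 - (m : ℝ) * (x ^ 2 / sq x ^ 2))) x := by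
  have hs := sqx_pos hx
  have hd := sqx_der hx
  rcases Nat.eq_zero_or_pos m with rfl | hm
  · simpa using hasDerivAt_id' x
  · obtain ⟨n, rfl⟩ := Nat.exists_eq_add_of_le' hm
    refine ((hasDerivAt_id x).mul (hd.pow (n + 1))).congr_deriv ?_
    simp only [Pi.pow_apply, id, Nat.add_sub_cancel]
    push_cast
    rw [pow_succ]
    field_simp
    ring

/-- derivative of a null primitive `x s^m H` -/
theorem null_der (m : ℕ) (hx : x ∈ Ioo (0 : ℝ) 1) {H : ℝ → ℝ} {H' : ℝ} (hH : HasDerivAt H H' x) :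
    HasDerivAt (fun x => x * sq x ^ m * H x)
      (sq x ^ m * ((1 - (m : ℝ) * (x ^ 2 / sq x ^ 2)) * H x + x * H')) x := by
  refine ((xs_der m hx).mul hH).congr_deriv ?_
  ring

/-- potential of the Fisher part: `x s^m (2 s² e^(-2l) - s²)` -/
noncomputable def jΨ (m : ℕ) (τ : ℝ → ℝ) (x : ℝ) : ℝ :=
  x * sq x ^ m * (2 * sq x ^ 2 * Real.exp (-(2 * lf τ x)) - sq x ^ 2)

/-- its derivative -/
noncomputable def jΨ' (m : ℕ) (τ τ' : ℝ → ℝ) (x : ℝ) : ℝ :=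
  sq x ^ m * ((1 - (m : ℝ) * (x ^ 2 / sq x ^ 2)) *
    (2 * sq x ^ 2 * Real.exp (-(2 * lf τ x)) - sq x ^ 2) +
    (-(4 * x ^ 2 * Real.exp (-(2 * lf τ x))) - 4 * sq x ^ 2 * Real.exp (-(2 * lf τ x)) * uf τ τ' x +
      2 * x ^ 2))

theorem sq2_der (hx : x ∈ Ioo (0 : ℝ) 1) : HasDerivAt (fun x => sq x ^ 2) (-(2 * x)) x := by
  refine ((sqx_der hx).pow 2).congr_deriv ?_
  have := (sqx_pos hx).ne'
  simp only [Nat.add_one_sub_one, pow_one]
  push_cast
  field_simp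

theorem jΨ_der (h : IsTrans m r τ τ' T) (hx : x ∈ Ioo (0 : ℝ) 1) :
    HasDerivAt (jΨ m τ) (jΨ' m τ τ' x) x := by
  have hl := lf_hasDerivAt h hx
  have h2 := sq2_der hx
  have he : HasDerivAt (fun x => Real.exp (-(2 * lf τ x)))
      (Real.exp (-(2 * lf τ x)) * (-(2 * (uf τ τ' x / x)))) x := ((hl.const_mul 2).fun_neg).exp
  have e0 : HasDerivAt (fun x => 2 * sq x ^ 2 * Real.exp (-(2 * lf τ x)) - sq x ^ 2)
      (2 * (-(2 * x)) * Real.exp (-(2 * lf τ x)) + 2 * sq x ^ 2 *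
        (Real.exp (-(2 * lf τ x)) * (-(2 * (uf τ τ' x / x)))) - -(2 * x)) x :=
    ((h2.const_mul 2).mul he).sub h2
  refine (null_der m hx e0).congr_deriv ?_
  unfold jΨ'
  have hx0 := hx.1.ne'
  have e1 : x * (2 * (-(2 * x)) * Real.exp (-(2 * lf τ x)) + 2 * sq x ^ 2 *
        (Real.exp (-(2 * lf τ x)) * (-(2 * (uf τ τ' x / x)))) - -(2 * x)) =
      -(4 * x ^ 2 * Real.exp (-(2 * lf τ x))) -
        4 * sq x ^ 2 * Real.exp (-(2 * lf τ x)) * uf τ τ' x + 2 * x ^ 2 := by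
    field_simp
    ring
  rw [e1]

/-- **identity of the Fisher part** -/
theorem jF_identity (h : IsTrans m r τ τ' T) (hx : x ∈ Ioo (0 : ℝ) 1) :
    (jF m τ τ' x - 1) * sq x ^ m = sq x ^ m * (((m : ℝ) + 3) * x ^ 2 *
      (Real.exp (-(2 * lf τ x)) - 1) + 4 * sq x ^ 2 * Real.exp (-(2 * lf τ x)) *
      (uf τ τ' x ^ 2 / (1 + uf τ τ' x))) + jΨ' m τ τ' x := by
  rw [jF_eq h hx]
  have hs := (sqx_pos hx).ne'
  have hu := (uf_pos h hx).ne'
  have hxs := sqx_sq hx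
  unfold jΨ'
  rw [hxs]
  field_simp
  ring

/-- limits of a null primitive -/
theorem null_tendsto_zero {H : ℝ → ℝ} {C : ℝ} (m : ℕ)
    (hH : ∀ x ∈ Ioo (0 : ℝ) (1 / 2), |H x| ≤ C) :
    Tendsto (fun x => x * sq x ^ m * H x) (𝓝[>] 0) (𝓝 0) := by
  have h1 : Tendsto (fun x : ℝ => x * C) (𝓝[>] 0) (𝓝 0) := by
    have : Tendsto (fun x : ℝ => x * C) (𝓝 0) (𝓝 (0 * C)) :=
      (continuous_id.mul continuous_const).tendsto 0
    rw [zero_mul] at this
    exact this.mono_left nhdsWithin_le_nhds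
  refine squeeze_zero_norm' ?_ h1
  filter_upwards [Ioo_mem_nhdsGT (by norm_num : (0 : ℝ) < 1 / 2)] with x hx
  have hs := br_sq_nonneg x
  have hp : sq x ^ m ≤ 1 := pow_le_one₀ hs (br_sq_le_one x)
  rw [Real.norm_eq_abs, abs_mul, abs_mul, abs_of_pos hx.1, abs_of_nonneg (pow_nonneg hs m)]
  have h2 := hH x hx
  have h3 : sq x ^ m * |H x| ≤ 1 * C := mul_le_mul hp h2 (abs_nonneg _) zero_le_one
  rw [mul_assoc]
  exact mul_le_mul_of_nonneg_left (by linarith) hx.1.le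

theorem null_tendsto_one {H : ℝ → ℝ} {C : ℝ} {m k : ℕ} (hk : k < m)
    (hH : ∀ x ∈ Ioo (0 : ℝ) 1, |H x| * sq x ^ k ≤ C) :
    Tendsto (fun x => x * sq x ^ m * H x) (𝓝[<] 1) (𝓝 0) := by
  have h1 : Tendsto (fun x => sq x * C) (𝓝[<] 1) (𝓝 0) := by
    have := sq_tendsto_one.mul_const C
    rwa [zero_mul] at this
  refine squeeze_zero_norm' ?_ h1
  filter_upwards [Ioo_mem_nhdsLT (zero_lt_one' ℝ)] with x hx
  have hs := sqx_pos hx
  have hs1 := br_sq_le_one x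
  obtain ⟨n, rfl⟩ := Nat.exists_eq_add_of_lt hk
  rw [Real.norm_eq_abs, abs_mul, abs_mul, abs_of_pos hx.1, abs_of_nonneg (pow_nonneg hs.le _)]
  have h2 := hH x hx
  have hC : 0 ≤ C := le_trans (by positivity) h2
  have e : x * sq x ^ (k + n + 1) * |H x| = (x * sq x ^ n) * (sq x * (|H x| * sq x ^ k)) := by ring
  rw [e]
  have h3 : x * sq x ^ n ≤ 1 := by
    have := pow_le_one₀ (n := n) hs.le hs1
    (by_contra nlg; linarith only [nlg, mul_pos (sub_pos.2 hx.2) (sub_pos.2 hx.2), mul_pos (sub_pos.2 hx.1) (sub_pos.2 hx.2), mul_nonneg (sub_nonneg.2 this) (le_of_lt (sub_pos.2 hx.1)), mul_pos (sub_pos.2 (not_le.1 nlg)) (sub_pos.2 hx.2), mul_pos (sub_pos.2 (not_le.1 nlg)) (sub_pos.2 hx.1)])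
  have h4 : sq x * (|H x| * sq x ^ k) ≤ sq x * C := mul_le_mul_of_nonneg_left h2 hs.le
  calc (x * sq x ^ n) * (sq x * (|H x| * sq x ^ k)) ≤ 1 * (sq x * (|H x| * sq x ^ k)) :=
        mul_le_mul_of_nonneg_right h3 (by (clear * - hs; positivity))
    _ ≤ sq x * C := by rw [one_mul]; exact h4

end

end Vale.Agent.P237.AllN
end

section

/-!
# P237, all dimensions: convex hybrid lines for `kF`

`S(a,b) = φ(b) - φ(a) + H(ab) log(b/a)`, `φ(t) = Σ_{k=2..6} κ_k t^(2k)/(2k)`,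
`H(z) = K(z) - Σ_{k=2..6} κ_k z^k`, `κ = 3/4, 5/8, 35/64, 63/128, 231/512`.
For every contact `q ≤ a < 1` the tangent line of `S(a,·)` at `q` is below `kF a ·` on `[-1,1]`.
-/

open MeasureTheory Metric Set Module Filter Topology

namespace Vale.Agent.P237.AllN

open PolyPos

noncomputable def hφ (t : ℝ) : ℝ :=
  3 / 16 * t ^ 4 + 5 / 48 * t ^ 6 + 35 / 512 * t ^ 8 + 63 / 1280 * t ^ 10 + 77 / 2048 * t ^ 12

noncomputable def hφ1 (t : ℝ) : ℝ :=
  3 / 4 * t ^ 3 + 5 / 8 * t ^ 5 + 35 / 64 * t ^ 7 + 63 / 128 * t ^ 9 + 231 / 512 * t ^ 11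

noncomputable def hφ2 (t : ℝ) : ℝ :=
  9 / 4 * t ^ 2 + 25 / 8 * t ^ 4 + 245 / 64 * t ^ 6 + 567 / 128 * t ^ 8 + 2541 / 512 * t ^ 10

noncomputable def hK (z : ℝ) : ℝ :=
  fK z - (3 / 4 * z ^ 2 + 5 / 8 * z ^ 3 + 35 / 64 * z ^ 4 + 63 / 128 * z ^ 5 + 231 / 512 * z ^ 6)

noncomputable def hK1 (z : ℝ) : ℝ :=
  fK1 z - (3 / 2 * z + 15 / 8 * z ^ 2 + 35 / 16 * z ^ 3 + 315 / 128 * z ^ 4 + 693 / 256 * z ^ 5)

noncomputable def hK2 (z : ℝ) : ℝ :=
  fK2 z - (3 / 2 + 15 / 4 * z + 105 / 16 * z ^ 2 + 315 / 32 * z ^ 3 + 3465 / 256 * z ^ 4)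

theorem hφ_hasDerivAt (t : ℝ) : HasDerivAt hφ (hφ1 t) t := by
  have h := (((((hasDerivAt_pow 4 t).const_mul (3 / 16)).add
    ((hasDerivAt_pow 6 t).const_mul (5 / 48))).add
    ((hasDerivAt_pow 8 t).const_mul (35 / 512))).add
    ((hasDerivAt_pow 10 t).const_mul (63 / 1280))).add
    ((hasDerivAt_pow 12 t).const_mul (77 / 2048))
  refine h.congr_deriv ?_
  unfold hφ1
  norm_num
  ring

theorem hφ1_hasDerivAt (t : ℝ) : HasDerivAt hφ1 (hφ2 t) t := by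
  have h := (((((hasDerivAt_pow 3 t).const_mul (3 / 4)).add
    ((hasDerivAt_pow 5 t).const_mul (5 / 8))).add
    ((hasDerivAt_pow 7 t).const_mul (35 / 64))).add
    ((hasDerivAt_pow 9 t).const_mul (63 / 128))).add
    ((hasDerivAt_pow 11 t).const_mul (231 / 512))
  refine h.congr_deriv ?_
  unfold hφ2
  norm_num
  ring

theorem hK_hasDerivAt {z : ℝ} (hz : z < 1) : HasDerivAt hK (hK1 z) z := by
  have h := (fK_hasDerivAt hz).sub ((((((hasDerivAt_pow 2 z).const_mul (3 / 4)).add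
    ((hasDerivAt_pow 3 z).const_mul (5 / 8))).add
    ((hasDerivAt_pow 4 z).const_mul (35 / 64))).add
    ((hasDerivAt_pow 5 z).const_mul (63 / 128))).add
    ((hasDerivAt_pow 6 z).const_mul (231 / 512)))
  refine h.congr_deriv ?_
  unfold hK1
  norm_num
  ring

theorem hK1_hasDerivAt {z : ℝ} (hz : z < 1) : HasDerivAt hK1 (hK2 z) z := by
  have h := (fK1_hasDerivAt hz).sub ((((((hasDerivAt_id z).const_mul (3 / 2)).add
    ((hasDerivAt_pow 2 z).const_mul (15 / 8))).add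
    ((hasDerivAt_pow 3 z).const_mul (35 / 16))).add
    ((hasDerivAt_pow 4 z).const_mul (315 / 128))).add
    ((hasDerivAt_pow 5 z).const_mul (693 / 256)))
  refine h.congr_deriv ?_
  unfold hK2
  norm_num
  ring

theorem kH_data : KData hK hK1 hK2 hφ hφ1 hφ2 where
  hK := fun _ h => hK_hasDerivAt h
  hK1 := fun _ h => hK1_hasDerivAt h
  hφ := hφ_hasDerivAt
  hφ1 := hφ1_hasDerivAt

/-! ## evaluation of the polynomials -/

theorem ev_fz (s : ℝ) : ev1 fz s = 1 - s ^ 2 := by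
  simp only [fz, ev1_cons, ev1_nil]; push_cast; ring

theorem ev_fs (s : ℝ) : ev1 fs s = s := by
  simp only [fs, ev1_cons, ev1_nil]; push_cast; ring

theorem ev_fN (s : ℝ) : ev1 fN s = 30 - 39 * s ^ 2 + 10 * s ^ 4 := by
  simp only [fN, ev1_cons, ev1_nil]; push_cast; ring

theorem ev_fD (s : ℝ) : ev1 fD s = 10 - 8 * s ^ 2 + s ^ 4 := by
  simp only [fD, ev1_cons, ev1_nil]; push_cast; ring

section
variable {s : ℝ}

theorem ev_fH0 (h0 : 0 < s) : ev1 fH0 s = 512 * s ^ 3 * hK (1 - s ^ 2) := by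
  unfold hK
  rw [fK_eq h0]
  simp only [fH0, fA0, ev1_padd, ev1_psm, ev1_pmul, ev1_ppow, ev_fz, ev_fs, ev1_cons, ev1_nil]
  push_cast
  field_simp
  ring

theorem ev_fH1 (h0 : 0 < s) : ev1 fH1 s = 512 * s ^ 3 * hK1 (1 - s ^ 2) := by
  unfold hK1
  rw [fK1_eq h0]
  simp only [fH1, fA1, ev1_padd, ev1_psm, ev1_pmul, ev1_ppow, ev_fz, ev_fs, ev1_cons, ev1_nil]
  push_cast
  field_simp
  ring

theorem ev_fH2 (h0 : 0 < s) : ev1 fH2 s = 512 * s ^ 5 * hK2 (1 - s ^ 2) := by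
  unfold hK2
  rw [fK2_eq h0]
  simp only [fH2, fA2, ev1_padd, ev1_psm, ev1_pmul, ev1_ppow, ev_fz, ev_fs, ev1_cons, ev1_nil]
  push_cast
  field_simp
  ring

theorem hK1_nonneg (h0 : 0 < s) (h1 : s < 1) : 0 ≤ hK1 (1 - s ^ 2) := by
  have h := fH1_nonneg h0.le h1
  rw [ev_fH1 h0] at h
  exact nonneg_of_mul_nonneg_right h (by positivity)

theorem hK2_nonneg (h0 : 0 < s) (h1 : s < 1) : 0 ≤ hK2 (1 - s ^ 2) := by
  have h := fH2_nonneg h0.le h1
  rw [ev_fH2 h0] at h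
  exact nonneg_of_mul_nonneg_right h (by positivity)

end

/-- (C1) -/
theorem kH_C1 {z : ℝ} (h0 : 0 < z) (h1 : z < 1) :
    z ^ 2 * hK2 z * -Real.log z ≤
      9 / 4 * z ^ 4 + 25 / 8 * z ^ 6 + 245 / 64 * z ^ 8 + 567 / 128 * z ^ 10 +
      2 * (z * hK1 z) - hK z := by
  obtain ⟨s, hs0, hs1, rfl⟩ := exists_s h0 h1
  have hX := hK2_nonneg hs0 hs1
  have hX' : 0 ≤ (1 - s ^ 2) ^ 2 * hK2 (1 - s ^ 2) := by positivity
  have hL := mul_le_mul_of_nonneg_left (neg_log_le hs0 hs1) hX'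
  refine hL.trans ?_
  have hp := fP1_nonneg hs0.le hs1
  simp only [fP1, fB1, ev1_padd, ev1_psm, ev1_pmul, ev1_ppow, ev_fz, ev_fs, ev_fN, ev_fD,
    ev_fH0 hs0, ev_fH1 hs0, ev_fH2 hs0] at hp
  push_cast at hp
  have hD : (0 : ℝ) < 10 - 8 * s ^ 2 + s ^ 4 := by nlinarith only [h0]
  obtain ⟨D, hDe⟩ : ∃ D, D = 10 - 8 * s ^ 2 + s ^ 4 := ⟨_, rfl⟩
  obtain ⟨N, hNe⟩ : ∃ N, N = 30 - 39 * s ^ 2 + 10 * s ^ 4 := ⟨_, rfl⟩
  obtain ⟨H0, hH0⟩ : ∃ H, H = hK (1 - s ^ 2) := ⟨_, rfl⟩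
  obtain ⟨H1, hH1⟩ : ∃ H, H = hK1 (1 - s ^ 2) := ⟨_, rfl⟩
  obtain ⟨H2, hH2⟩ : ∃ H, H = hK2 (1 - s ^ 2) := ⟨_, rfl⟩
  obtain ⟨z, hz⟩ : ∃ z, z = 1 - s ^ 2 := ⟨_, rfl⟩
  rw [← hDe, ← hNe, ← hH0, ← hH1, ← hH2, ← hz] at hp
  rw [← hDe] at hD
  rw [← hDe, ← hNe, ← hH0, ← hH1, ← hH2, ← hz]
  rw [← hz] at h0
  rw [← sub_nonneg]
  have e : 9 / 4 * z ^ 4 + 25 / 8 * z ^ 6 + 245 / 64 * z ^ 8 + 567 / 128 * z ^ 10 +
      2 * (z * H1) - H0 - z ^ 2 * H2 * (s ^ 2 * N / (3 * z * D)) =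
      (3 * (D * (s ^ 3 * (1152 * z ^ 4 + (1600 * z ^ 6 + (1960 * z ^ 8 + 2268 * z ^ 10))) +
        (2 * (z * (512 * s ^ 3 * H1)) + -1 * (512 * s ^ 3 * H0)))) +
        -1 * (N * (z * (512 * s ^ 5 * H2)))) / (3 * 512 * s ^ 3 * D) := by
    field_simp
    ring
  rw [e]
  (clear * - hp hs0 hD; positivity)

/-- (C2) -/
theorem kH_C2 {z : ℝ} (h0 : 0 < z) (h1 : z < 1) :
    z * hK1 z * -Real.log z - hK z ≤
      3 / 4 * z ^ 4 + 5 / 8 * z ^ 6 + 35 / 64 * z ^ 8 + 63 / 128 * z ^ 10 := by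
  obtain ⟨s, hs0, hs1, rfl⟩ := exists_s h0 h1
  have hX := hK1_nonneg hs0 hs1
  have hX' : 0 ≤ (1 - s ^ 2) * hK1 (1 - s ^ 2) := by positivity
  have hL := mul_le_mul_of_nonneg_left (neg_log_le hs0 hs1) hX'
  refine (sub_le_sub_right hL _).trans ?_
  have hp := fP2_nonneg hs0.le hs1
  simp only [fP2, fB2, ev1_padd, ev1_psm, ev1_pmul, ev1_ppow, ev_fz, ev_fs, ev_fN, ev_fD,
    ev_fH0 hs0, ev_fH1 hs0] at hp
  push_cast at hp
  have hD : (0 : ℝ) < 10 - 8 * s ^ 2 + s ^ 4 := by (clear * - hs0 hs1 h0; linarith only [sq_nonneg (s ^ 2), h0, hs1, hs0])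
  obtain ⟨D, hDe⟩ : ∃ D, D = 10 - 8 * s ^ 2 + s ^ 4 := ⟨_, rfl⟩
  obtain ⟨N, hNe⟩ : ∃ N, N = 30 - 39 * s ^ 2 + 10 * s ^ 4 := ⟨_, rfl⟩
  obtain ⟨H0, hH0⟩ : ∃ H, H = hK (1 - s ^ 2) := ⟨_, rfl⟩
  obtain ⟨H1, hH1⟩ : ∃ H, H = hK1 (1 - s ^ 2) := ⟨_, rfl⟩
  obtain ⟨z, hz⟩ : ∃ z, z = 1 - s ^ 2 := ⟨_, rfl⟩
  rw [← hDe, ← hNe, ← hH0, ← hH1, ← hz] at hp
  rw [← hDe] at hD
  rw [← hDe, ← hNe, ← hH0, ← hH1, ← hz]
  rw [← hz] at h0
  rw [← sub_nonneg]
  have e : 3 / 4 * z ^ 4 + 5 / 8 * z ^ 6 + 35 / 64 * z ^ 8 + 63 / 128 * z ^ 10 -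
      (z * H1 * (s ^ 2 * N / (3 * z * D)) - H0) =
      (3 * (D * (s ^ 3 * (384 * z ^ 4 + (320 * z ^ 6 + (280 * z ^ 8 + 252 * z ^ 10))) +
        512 * s ^ 3 * H0)) +
        -1 * (N * (s ^ 2 * (512 * s ^ 3 * H1)))) / (3 * 512 * s ^ 3 * D) := by
    field_simp
    ring
  rw [e]
  (clear * - hp hs0 hD; positivity)

/-! ## the hybrid lines -/

/-- intercept of the hybrid line with contact `q` -/
noncomputable def kHc (a q : ℝ) : ℝ := gC hK hK1 hφ hφ1 a q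

/-- slope of the hybrid line with contact `q` -/
noncomputable def kHp (a q : ℝ) : ℝ := gD hK hK1 hφ1 a q

theorem kH_gV_deriv {a b : ℝ} (ha : 0 < a) (hb : 0 < b) (hab : a * b < 1) :
    HasDerivAt (gV hK hφ a) (kHp a b) b := by
  have h := gV_has kH_data (hasDerivAt_const b a) (hasDerivAt_id b) ha hb hab
  refine h.congr_deriv ?_
  simp [kHp]

theorem kHp_deriv {a b : ℝ} (ha : 0 < a) (hb : 0 < b) (hab : a * b < 1) :
    HasDerivAt (kHp a) (gDD hK hK1 hK2 hφ2 a b) b := by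
  have h := gD_has kH_data (hasDerivAt_const b a) (hasDerivAt_id b) ha hb hab
  refine h.congr_deriv ?_
  simp

theorem kH_gDD_nonneg {a b : ℝ} (ha : 0 < a) (ha1 : a ≤ 1) (hb : 0 < b) (hab : a * b < 1) :
    0 ≤ gDD hK hK1 hK2 hφ2 a b := by
  have hz0 : 0 < a * b := mul_pos ha hb
  have hC1 := kH_C1 hz0 hab
  obtain ⟨s, hs0, hs1, hs⟩ := exists_s hz0 hab
  have hK2' : 0 ≤ hK2 (a * b) := by rw [hs]; exact hK2_nonneg hs0 hs1
  have hl := mul_le_mul_of_nonneg_left (neg_log_div_le ha ha1 hb)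
    (by positivity : 0 ≤ (a * b) ^ 2 * hK2 (a * b))
  have hzb : a * b ≤ b := by (clear * - ha1 hb; linarith only [mul_nonneg (sub_nonneg.2 ha1) (le_of_lt (sub_pos.2 hb))])
  have p4 : (a * b) ^ 4 ≤ b ^ 4 := pow_le_pow_left₀ hz0.le hzb 4
  have p6 : (a * b) ^ 6 ≤ b ^ 6 := pow_le_pow_left₀ hz0.le hzb 6
  have p8 : (a * b) ^ 8 ≤ b ^ 8 := pow_le_pow_left₀ hz0.le hzb 8
  have p10 : (a * b) ^ 10 ≤ b ^ 10 := pow_le_pow_left₀ hz0.le hzb 10
  have p12 : 0 ≤ b ^ 12 := by positivity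
  have key : 0 ≤ b ^ 2 * gDD hK hK1 hK2 hφ2 a b := by
    have e : b ^ 2 * gDD hK hK1 hK2 hφ2 a b =
        9 / 4 * b ^ 4 + 25 / 8 * b ^ 6 + 245 / 64 * b ^ 8 + 567 / 128 * b ^ 10 +
        2541 / 512 * b ^ 12 - (a * b) ^ 2 * hK2 (a * b) * -Real.log (b / a) +
        2 * (a * b * hK1 (a * b)) - hK (a * b) := by
      unfold gDD hφ2
      field_simp
      ring
    rw [e]
    (clear * - hC1 hl p4 p6 p8 p10 p12; linarith)
  exact nonneg_of_mul_nonneg_right key (by positivity)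

theorem kH_tangent {a q b : ℝ} (ha : 0 < a) (ha1 : a ≤ 1) (hq : 0 < q) (hq1 : a * q < 1)
    (hb0 : 0 < b) (hb : a * b < 1) :
    gV hK hφ a q + kHp a q * (b - q) ≤ gV hK hφ a b := by
  have hlt : ∀ y ∈ Ioo 0 (1 / a), a * y < 1 := fun y hy => by
    have := hy.2; rw [lt_div_iff₀ ha] at this; linarith only [this]
  exact tangent_le_of_deriv2 (c := 1 / a)
    (fun y hy => kH_gV_deriv ha hy.1 (hlt y hy)) (fun y hy => kHp_deriv ha hy.1 (hlt y hy))
    (fun y hy => kH_gDD_nonneg ha ha1 hy.1 (hlt y hy)) ⟨hq, by rw [lt_div_iff₀ ha]; linarith⟩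
    ⟨hb0, by rw [lt_div_iff₀ ha]; linarith⟩

/-- the slope is nonnegative for contact `q ≤ a` -/
theorem kHp_nonneg {a q : ℝ} (ha : 0 < a) (ha1 : a < 1) (hq : 0 < q) (hqa : q ≤ a) :
    0 ≤ kHp a q := by
  have hq1 : a * q < 1 := by nlinarith
  have hz0 : 0 < a * q := mul_pos ha hq
  have hC2 := kH_C2 hz0 hq1
  obtain ⟨s, hs0, hs1, hs⟩ := exists_s hz0 hq1
  have hK1' : 0 ≤ hK1 (a * q) := by rw [hs]; exact hK1_nonneg hs0 hs1
  have hl := mul_le_mul_of_nonneg_left (neg_log_div_le ha ha1.le hq)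
    (by (clear * - ha hq hK1'; positivity) : 0 ≤ a * q * hK1 (a * q))
  have hzb : a * q ≤ q := by nlinarith only [ha1, hq]
  have p4 : (a * q) ^ 4 ≤ q ^ 4 := pow_le_pow_left₀ hz0.le hzb 4
  have p6 : (a * q) ^ 6 ≤ q ^ 6 := pow_le_pow_left₀ hz0.le hzb 6
  have p8 : (a * q) ^ 8 ≤ q ^ 8 := pow_le_pow_left₀ hz0.le hzb 8
  have p10 : (a * q) ^ 10 ≤ q ^ 10 := pow_le_pow_left₀ hz0.le hzb 10
  have p12 : 0 ≤ q ^ 12 := by positivity
  have key : 0 ≤ q * kHp a q := by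
    have e : q * kHp a q = 3 / 4 * q ^ 4 + 5 / 8 * q ^ 6 + 35 / 64 * q ^ 8 + 63 / 128 * q ^ 10 +
        231 / 512 * q ^ 12 - (a * q * hK1 (a * q) * -Real.log (q / a) - hK (a * q)) := by
      unfold kHp gD hφ1
      field_simp
      ring
    rw [e]
    linarith only [hC2, hl, p4, p6, p8, p10, p12]
  exact nonneg_of_mul_nonneg_right key hq

theorem pow_two_log_le {a b : ℝ} (hb : 0 < b) (hba : b ≤ a) (k : ℕ) :
    2 * (k : ℝ) * ((a * b) ^ k * Real.log (a / b)) ≤ a ^ (2 * k) - b ^ (2 * k) := by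
  have ha : 0 < a := hb.trans_le hba
  have hl := two_log_le (x := (a / b) ^ k) (by
    apply one_le_pow₀; rw [le_div_iff₀ hb]; linarith)
  rw [Real.log_pow] at hl
  have h1 : 0 ≤ (a * b) ^ k := by positivity
  have h2 := mul_le_mul_of_nonneg_left hl h1
  have e : (a * b) ^ k * ((a / b) ^ k - 1 / (a / b) ^ k) = a ^ (2 * k) - b ^ (2 * k) := by
    rw [div_pow, mul_pow]
    have hak : a ^ k ≠ 0 := by positivity
    have hbk : b ^ k ≠ 0 := by positivity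
    field_simp
    ring
  rw [e] at h2
  linarith only [h2]

/-- the hybrid kernel is below `kF` for `b ≤ a` -/
theorem kH_le_kF_of_le {a b : ℝ} (hb : 0 < b) (hba : b ≤ a) : gV hK hφ a b ≤ kF a b := by
  have ha : 0 < a := hb.trans_le hba
  rw [kF_pos ha hb]
  have hlog : Real.log (b / a) = -Real.log (a / b) := by rw [← Real.log_inv, inv_div]
  have h2 := pow_two_log_le hb hba 2
  have h3 := pow_two_log_le hb hba 3
  have h4 := pow_two_log_le hb hba 4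
  have h5 := pow_two_log_le hb hba 5
  have h6 := pow_two_log_le hb hba 6
  unfold gV hK hφ
  rw [hlog]
  push_cast at h2 h3 h4 h5 h6
  linarith

theorem kHp_diag {a : ℝ} (ha : 0 < a) : kHp a a = kFp a a := by
  unfold kHp kFp gD
  rw [div_self ha.ne', Real.log_one]
  unfold hφ1 hK
  field_simp
  ring

/-- **the hybrid lines with contact `q ≤ a` are admissible for `kF`** -/
theorem kH_le {a q b : ℝ} (ha : 0 < a) (ha1 : a < 1) (hq : 0 < q) (hqa : q ≤ a)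
    (hb : b ∈ Icc (-1 : ℝ) 1) : kHc a q + kHp a q * b ≤ kF a b := by
  have hq1 : a * q < 1 := by nlinarith
  have hp := kHp_nonneg ha ha1 hq hqa
  have ecp : ∀ b, kHc a q + kHp a q * b = gV hK hφ a q + kHp a q * (b - q) := by
    intro b
    unfold kHc kHp gC
    ring
  have haa : a * a < 1 := by nlinarith only [ha1, ha]
  have hdiag : gV hK hφ a a = 0 := by
    unfold gV
    rw [div_self ha.ne', Real.log_one]
    ring
  -- value at `a`
  have hva := kH_tangent ha ha1.le hq hq1 ha haa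
  rw [hdiag] at hva
  rcases le_or_gt b 0 with hb0 | hb0
  · rw [kF_nonpos ha hb0, ecp]
    have : kHp a q * (b - q) ≤ kHp a q * (a - q) := mul_le_mul_of_nonneg_left (by linarith) hp
    linarith
  · rcases le_total b a with hba | hba
    · rw [ecp]
      exact (kH_tangent ha ha1.le hq hq1 hb0 (by nlinarith only [ha1, ha, hba])).trans (kH_le_kF_of_le hb0 hba)
    · -- `b ≥ a`
      have hT := kFq_le ha ha1 ha haa (kFp_nonneg_of_le ha le_rfl haa) hb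
      rw [kFcp] at hT
      have hva0 : gV fK (fun _ => 0) a a = 0 := by
        unfold gV
        rw [div_self ha.ne', Real.log_one]
        ring
      rw [hva0] at hT
      -- slopes
      have hc := kH_tangent ha ha1.le ha haa hq hq1
      rw [hdiag, kHp_diag ha] at hc
      have hmono : kHp a q * (a - q) ≤ kFp a a * (a - q) := by linarith
      have hsl : kHp a q * (b - a) ≤ kFp a a * (b - a) := by
        rcases hqa.eq_or_lt with he | he
        · rw [he, kHp_diag ha]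
        · have h3 : kHp a q ≤ kFp a a := by
            by_contra hcon
            push Not at hcon
            linarith only [mul_pos (sub_pos.2 he) (sub_pos.2 hcon), hc, hva]
          exact mul_le_mul_of_nonneg_right h3 (by linarith only [hba])
      rw [ecp]
      have e1 : kHp a q * (b - q) = kHp a q * (b - a) + kHp a q * (a - q) := by ring
      linarith only [hva, hT, hsl]

/-! ## the standard test point `q = x²/τ`, `τ = x e^l` -/

/-- hybrid line, `l ≥ 0` -/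
theorem kH_std_le {x l b : ℝ} (hx : x ∈ Ioo (0 : ℝ) 1) (hl : 0 ≤ l)
    (hτ : x * Real.exp l < 1) (hb : b ∈ Icc (-1 : ℝ) 1) :
    kHc (x * Real.exp l) (x ^ 2 / (x * Real.exp l)) +
      kHp (x * Real.exp l) (x ^ 2 / (x * Real.exp l)) * b ≤ kF (x * Real.exp l) b := by
  have hx0 := hx.1
  have h1 : 1 ≤ Real.exp l := Real.one_le_exp hl
  apply kH_le (by positivity) hτ (by positivity) _ hb
  rw [div_le_iff₀ (by positivity)]
  have : x ≤ x * Real.exp l := by linarith only [mul_nonneg (le_of_lt (sub_pos.2 hx0)) (sub_nonneg.2 h1)]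
  (by_contra nlg; linarith only [nlg, mul_nonneg (sub_nonneg.2 this) (sub_nonneg.2 this), mul_nonneg (le_of_lt (sub_pos.2 (not_le.1 nlg))) (sub_nonneg.2 h1), mul_nonneg (mul_self_nonneg (x * Real.exp l : ℝ)) (sub_nonneg.2 h1)])

/-- log line, `l ≤ 0` -/
theorem kF_std_le {x l b : ℝ} (hx : x ∈ Ioo (0 : ℝ) 1) (hl : l ≤ 0)
    (hb : b ∈ Icc (-1 : ℝ) 1) :
    kFc (x * Real.exp l) (x ^ 2 / (x * Real.exp l)) +
      kFp (x * Real.exp l) (x ^ 2 / (x * Real.exp l)) * b ≤ kF (x * Real.exp l) b := by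
  have hx0 := hx.1
  have h1 : Real.exp l ≤ 1 := Real.exp_le_one_iff.2 hl
  have hτ0 : 0 < x * Real.exp l := by positivity
  have hτx : x * Real.exp l ≤ x := by linarith only [mul_nonneg (le_of_lt (sub_pos.2 hx0)) (sub_nonneg.2 h1)]
  have hz : x * Real.exp l * (x ^ 2 / (x * Real.exp l)) = x ^ 2 := by (clear * - hx0; field_simp)
  have hz1 : x * Real.exp l * (x ^ 2 / (x * Real.exp l)) < 1 := by rw [hz]; (by_contra nlg; linarith only [nlg, mul_pos (sub_pos.2 hx.2) (sub_pos.2 hx.2), mul_pos (sub_pos.2 hx0) (sub_pos.2 hx.2), mul_nonneg (sub_nonneg.2 (not_lt.1 nlg)) (le_of_lt (sub_pos.2 hx.2)), mul_nonneg (sub_nonneg.2 (not_lt.1 nlg)) (le_of_lt (sub_pos.2 hx0))])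
  refine kFq_le hτ0 (by linarith only [hx.2, hτx]) (by positivity) hz1 ?_ hb
  apply kFp_nonneg_of_le hτ0 _ hz1
  rw [le_div_iff₀ hτ0]
  nlinarith only [hτ0, hτx]

end Vale.Agent.P237.AllN
end

section

/-!
# P237, all dimensions: bridge for the Fisher route, part 1: pairs with primitives
-/

open MeasureTheory Metric Set Module Filter Topology

namespace Vale.Agent.P237.AllN

/-- A pair `(c,p)` of functions of `x` along a transport, with primitive `Ψ` and pointwise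
functional `T`. -/
structure FPair (m : ℕ) (τ τ' c c' p p' Ψ Ψ' T : ℝ → ℝ) : Prop where
  dc : ∀ x ∈ Ioo (0 : ℝ) 1, HasDerivAt c (c' x) x
  cc : ContinuousOn c' (Ioo 0 1)
  dp : ∀ x ∈ Ioo (0 : ℝ) 1, HasDerivAt p (p' x) x
  cp : ContinuousOn p' (Ioo 0 1)
  dΨ : ∀ x ∈ Ioo (0 : ℝ) 1, HasDerivAt Ψ (Ψ' x) x
  id : ∀ x ∈ Ioo (0 : ℝ) 1, (((m : ℝ) + 1) * c x + (τ x * c' x + p' x) / τ' x) * sq x ^ m =
    sq x ^ m * T x + Ψ' x
  c0 : ∃ C : ℝ, ∀ x ∈ Ioo (0 : ℝ) (1 / 2), |c x| ≤ C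
  p0 : Tendsto p (𝓝[>] 0) (𝓝 0)
  c1 : Tendsto (fun x => sq x ^ (m + 2) * c x) (𝓝[<] 1) (𝓝 0)
  Ψ0 : Tendsto Ψ (𝓝[>] 0) (𝓝 0)
  Ψ1 : Tendsto Ψ (𝓝[<] 1) (𝓝 0)
  int : ∃ C : ℝ, ∀ x ∈ Ioo (0 : ℝ) 1,
    |((m : ℝ) + 1) * c x + (τ x * c' x + p' x) / τ' x| * sq x ^ (m + 1) ≤ C

theorem FPair.add {m : ℕ} {τ τ' c c' p p' Ψ Ψ' T d d' q q' Φ Φ' S : ℝ → ℝ}
    (h : FPair m τ τ' c c' p p' Ψ Ψ' T) (g : FPair m τ τ' d d' q q' Φ Φ' S) :
    FPair m τ τ' (fun x => c x + d x) (fun x => c' x + d' x) (fun x => p x + q x)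
      (fun x => p' x + q' x) (fun x => Ψ x + Φ x) (fun x => Ψ' x + Φ' x) (fun x => T x + S x) where
  dc := fun x hx => (h.dc x hx).add (g.dc x hx)
  cc := h.cc.add g.cc
  dp := fun x hx => (h.dp x hx).add (g.dp x hx)
  cp := h.cp.add g.cp
  dΨ := fun x hx => (h.dΨ x hx).add (g.dΨ x hx)
  id := fun x hx => by
    have e1 := h.id x hx
    have e2 := g.id x hx
    rw [show ((m : ℝ) + 1) * (c x + d x) + (τ x * (c' x + d' x) + (p' x + q' x)) / τ' x =
      (((m : ℝ) + 1) * c x + (τ x * c' x + p' x) / τ' x) +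
      (((m : ℝ) + 1) * d x + (τ x * d' x + q' x) / τ' x) by ring]
    linear_combination e1 + e2
  c0 := by
    obtain ⟨C, hC⟩ := h.c0
    obtain ⟨D, hD⟩ := g.c0
    exact ⟨C + D, fun x hx => (abs_add_le _ _).trans (add_le_add (hC x hx) (hD x hx))⟩
  p0 := by simpa using h.p0.add g.p0
  c1 := by
    have := h.c1.add g.c1
    rw [add_zero] at this
    refine this.congr fun x => ?_
    ring
  Ψ0 := by simpa using h.Ψ0.add g.Ψ0
  Ψ1 := by simpa using h.Ψ1.add g.Ψ1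
  int := by
    obtain ⟨C, hC⟩ := h.int
    obtain ⟨D, hD⟩ := g.int
    refine ⟨C + D, fun x hx => ?_⟩
    rw [show ((m : ℝ) + 1) * (c x + d x) + (τ x * (c' x + d' x) + (p' x + q' x)) / τ' x =
      (((m : ℝ) + 1) * c x + (τ x * c' x + p' x) / τ' x) +
      (((m : ℝ) + 1) * d x + (τ x * d' x + q' x) / τ' x) by ring]
    refine (mul_le_mul_of_nonneg_right (abs_add_le _ _) (pow_nonneg (Real.sqrt_nonneg _) _)).trans ?_
    rw [add_mul]
    exact add_le_add (hC x hx) (hD x hx)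

theorem FPair.smul {m : ℕ} {τ τ' c c' p p' Ψ Ψ' T : ℝ → ℝ}
    (h : FPair m τ τ' c c' p p' Ψ Ψ' T) (k : ℝ) :
    FPair m τ τ' (fun x => k * c x) (fun x => k * c' x) (fun x => k * p x)
      (fun x => k * p' x) (fun x => k * Ψ x) (fun x => k * Ψ' x) (fun x => k * T x) where
  dc := fun x hx => (h.dc x hx).const_mul k
  cc := continuousOn_const.mul h.cc
  dp := fun x hx => (h.dp x hx).const_mul k
  cp := continuousOn_const.mul h.cp
  dΨ := fun x hx => (h.dΨ x hx).const_mul k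
  id := fun x hx => by
    have e1 := h.id x hx
    rw [show ((m : ℝ) + 1) * (k * c x) + (τ x * (k * c' x) + (k * p' x)) / τ' x =
      k * (((m : ℝ) + 1) * c x + (τ x * c' x + p' x) / τ' x) by ring]
    linear_combination k * e1
  c0 := by
    obtain ⟨C, hC⟩ := h.c0
    refine ⟨|k| * C, fun x hx => ?_⟩
    rw [abs_mul]
    exact mul_le_mul_of_nonneg_left (hC x hx) (abs_nonneg _)
  p0 := by simpa using h.p0.const_mul k
  c1 := by
    have := h.c1.const_mul k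
    rw [mul_zero] at this
    refine this.congr fun x => ?_
    ring
  Ψ0 := by simpa using h.Ψ0.const_mul k
  Ψ1 := by simpa using h.Ψ1.const_mul k
  int := by
    obtain ⟨C, hC⟩ := h.int
    refine ⟨|k| * C, fun x hx => ?_⟩
    rw [show ((m : ℝ) + 1) * (k * c x) + (τ x * (k * c' x) + (k * p' x)) / τ' x =
      k * (((m : ℝ) + 1) * c x + (τ x * c' x + p' x) / τ' x) by ring, abs_mul, mul_assoc]
    exact mul_le_mul_of_nonneg_left (hC x hx) (abs_nonneg _)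

section

variable {m : ℕ} {r τ τ' T : ℝ → ℝ}

/-! ### lower bound for `1 + u` -/

theorem log_abs_le {q : ℝ} (hq : 0 < q) : |Real.log q| ≤ |q - 1| * (1 + 1 / q) := by
  have h1 := Real.log_le_sub_one_of_pos hq
  have h2 := Real.log_le_sub_one_of_pos (inv_pos.2 hq)
  rw [Real.log_inv] at h2
  have hi : 0 < 1 / q := by positivity
  have e : q⁻¹ - 1 = (1 - q) * (1 / q) := by field_simp
  rw [e] at h2
  rw [abs_le]
  constructor
  · have h3 : (1 - q) * (1 / q) ≤ |q - 1| * (1 / q) := by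
      apply mul_le_mul_of_nonneg_right _ hi.le
      rw [abs_sub_comm]
      exact le_abs_self _
    linarith only [abs_nonneg (q - 1), h3, h2]
  · linarith only [mul_nonneg (abs_nonneg (q - 1)) hi.le, le_abs_self (q - 1), h1]

/-- crude bounds for `w = u/(1+u)`: `s^m |w| ≤ C` and `s^m |l| |w| ≤ C s²` -/
theorem uw_bdd (hm : 2 ≤ m) (hr : IsProf r) (h : IsTrans m r τ τ' T) :
    ∃ C : ℝ, 0 ≤ C ∧ ∀ x ∈ Ioo (0 : ℝ) 1,
      sq x ^ m * |uf τ τ' x / (1 + uf τ τ' x)| ≤ C ∧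
      sq x ^ m * (|lf τ x| * |uf τ τ' x / (1 + uf τ τ' x)|) ≤ C * sq x ^ 2 := by
  obtain ⟨C0, hC0, hz⟩ := h.near_zero (by omega) hr
  obtain ⟨C1, hC1, ho⟩ := h.near_one (by omega) hr
  obtain ⟨Cl, hCl, hlb⟩ := lf_bdd (by omega) hr h
  have hZr := ass_Zr_pos (m := m) hr
  have hZm := ass_Zm_pos m
  set Zr := ∫ t in (0 : ℝ)..1, r t ^ m with hZrd
  set Zm := ∫ t in (0 : ℝ)..1, sq t ^ m with hZmd
  set R := r 0 ^ m with hR
  have hR0 : 0 < R := pow_pos (hr.pos 0 ⟨by norm_num, by norm_num⟩) m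
  set K := C0 * (Zm / Zr) with hK
  have hK0 : 0 < K := by positivity
  -- `s^m/(1+u) = (τ/x) r(τ)^m Zm/Zr`
  have key : ∀ x ∈ Ioo (0 : ℝ) 1, sq x ^ m * (1 / (1 + uf τ τ' x)) ≤ K * r (τ x) ^ m ∧
      0 ≤ r (τ x) ^ m ∧ r (τ x) ^ m ≤ R := by
    intro x hx
    have hu := uf_pos h hx
    have ht := h.mem x hx
    have hx0 := hx.1
    have hp := h.pos x hx
    have hmem : τ x ∈ Icc (0 : ℝ) 1 := ⟨ht.1.le, ht.2.le⟩
    have r0 : 0 ≤ r (τ x) ^ m := pow_nonneg (Alm.prof_nn hr hmem) m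
    have rR : r (τ x) ^ m ≤ R := pow_le_pow_left₀ (Alm.prof_nn hr hmem) (Alm.prof_le_zero hr hmem) m
    refine ⟨?_, r0, rR⟩
    have e1 : 1 / (1 + uf τ τ' x) = τ x / x / τ' x := by
      unfold uf
      have := ht.1.ne'
      field_simp
      ring
    have e2 := h.eqn x hx
    rw [← hZrd, ← hZmd] at e2
    have e3 : sq x ^ m = τ' x * r (τ x) ^ m * Zm / Zr := by
      rw [e2]; (clear * - hZr; field_simp)
    rw [e1, e3, hK]
    have e4 : τ' x * r (τ x) ^ m * Zm / Zr * (τ x / x / τ' x) =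
        (τ x / x) * (Zm / Zr * r (τ x) ^ m) := by
      (clear * - hp hx0 hZr hZm; field_simp)
    rw [e4, mul_assoc]
    apply mul_le_mul_of_nonneg_right _ (by (clear * - hZm hZr r0; positivity))
    rw [div_le_iff₀ hx0]
    exact (hz x hx).2
  have hw : ∀ x ∈ Ioo (0 : ℝ) 1, |uf τ τ' x / (1 + uf τ τ' x)| ≤ 1 + 1 / (1 + uf τ τ' x) := by
    intro x hx
    have hu := uf_pos h hx
    have e : uf τ τ' x / (1 + uf τ τ' x) = 1 - 1 / (1 + uf τ τ' x) := by field_simp; ring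
    rw [e]
    refine (abs_sub _ _).trans ?_
    rw [abs_one, abs_of_pos (by (clear * - hu; positivity))]
  set D := 2 * (1 + C0) * (C1 + R) with hD
  have hD0 : 0 ≤ D := by (clear * - hC0 hC1 hR0; positivity)
  -- `|l| r(τ)^m ≤ D s² + ...`
  have hl2 : ∀ x ∈ Ioo (0 : ℝ) 1, |lf τ x| * r (τ x) ^ m ≤ (D + 4 * (Cl * R)) * sq x ^ 2 := by
    intro x hx
    obtain ⟨_, r0, rR⟩ := key x hx
    have hs := sqx_pos hx
    have hs1 := br_sq_le_one x
    have hss := sqx_sq hx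
    have hx0 := hx.1
    have ht := h.mem x hx
    rcases le_total x (1 / 2) with h2 | h2
    · have h3 : 1 / 4 ≤ sq x ^ 2 := by nlinarith only [hss, h2, hx0]
      have h4 : |lf τ x| * r (τ x) ^ m ≤ Cl * R :=
        mul_le_mul (hlb x hx) rR r0 hCl
      have h5 : 0 ≤ Cl * R := by (clear * - hCl hR0; positivity)
      linarith only [mul_nonneg (sub_nonneg.2 h3) (sub_nonneg.2 h5), mul_nonneg (sq_nonneg (1 * sq x : ℝ)) (sub_nonneg.2 hD0), mul_nonneg (mul_self_nonneg (1 : ℝ)) (sub_nonneg.2 h4)]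
    · have hq : 0 < τ x / x := div_pos ht.1 hx0
      have h3 := log_abs_le hq
      have h4 : 1 / (τ x / x) ≤ C0 := by
        rw [one_div_div, div_le_iff₀ ht.1]
        exact (hz x hx).1
      have h5 : |τ x / x - 1| ≤ 2 * ((1 - τ x) + (1 - x)) := by
        have e : τ x / x - 1 = (τ x - x) / x := by (clear * - hx0; field_simp)
        rw [e, abs_div, abs_of_pos hx0, div_le_iff₀ hx0]
        have h6 : |τ x - x| ≤ (1 - τ x) + (1 - x) := by
          rw [abs_le]; constructor <;> linarith only [ht.2, hx.2]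
        nlinarith only [h6, h2, ht.2, hx.2]
      have h6 : |lf τ x| ≤ 2 * ((1 - τ x) + (1 - x)) * (1 + C0) := by
        unfold lf
        refine h3.trans ?_
        apply mul_le_mul h5 (by linarith only [h4]) (by (clear * - hq; positivity))
        linarith only [ht.2, hx.2]
      have h7 : (1 - τ x) * r (τ x) ^ m ≤ C1 * sq x ^ 2 := by
        refine (ho x hx).1.trans ?_
        apply mul_le_mul_of_nonneg_left _ hC1.le
        exact pow_le_pow_of_le_one hs.le hs1 (by omega)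
      have h8 : (1 - x) * r (τ x) ^ m ≤ R * sq x ^ 2 := by
        have h9 : 1 - x ≤ sq x ^ 2 := by nlinarith only [hss, hx0]
        calc (1 - x) * r (τ x) ^ m ≤ sq x ^ 2 * R :=
              mul_le_mul h9 rR r0 (pow_nonneg hs.le 2)
          _ = R * sq x ^ 2 := mul_comm _ _
      calc |lf τ x| * r (τ x) ^ m ≤ 2 * ((1 - τ x) + (1 - x)) * (1 + C0) * r (τ x) ^ m :=
            mul_le_mul_of_nonneg_right h6 r0
        _ = 2 * (1 + C0) * ((1 - τ x) * r (τ x) ^ m + (1 - x) * r (τ x) ^ m) := by ring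
        _ ≤ 2 * (1 + C0) * (C1 * sq x ^ 2 + R * sq x ^ 2) := by
            apply mul_le_mul_of_nonneg_left (add_le_add h7 h8) (by positivity)
        _ = D * sq x ^ 2 := by rw [hD]; ring
        _ ≤ _ := by
            have : 0 ≤ 4 * (Cl * R) * sq x ^ 2 := by (clear * - hCl hR0 hs; positivity)
            linarith only [this]
  refine ⟨(1 + K * R) + (Cl + K * (D + 4 * (Cl * R))), by (clear * - hC0 hZm hZr hR0 hCl hC1; positivity), fun x hx => ⟨?_, ?_⟩⟩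
  · obtain ⟨h1, r0, rR⟩ := key x hx
    have hs := sqx_pos hx
    have hs1 := br_sq_le_one x
    have hp : sq x ^ m ≤ 1 := pow_le_one₀ hs.le hs1
    have h2 : 0 ≤ Cl + K * (D + 4 * (Cl * R)) := by (clear * - hCl hC0 hZm hZr hC1 hR0; positivity)
    calc sq x ^ m * |uf τ τ' x / (1 + uf τ τ' x)| ≤ sq x ^ m * (1 + 1 / (1 + uf τ τ' x)) :=
          mul_le_mul_of_nonneg_left (hw x hx) (pow_nonneg hs.le m)
      _ = sq x ^ m + sq x ^ m * (1 / (1 + uf τ τ' x)) := by ring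
      _ ≤ 1 + K * R := add_le_add hp (h1.trans (mul_le_mul_of_nonneg_left rR hK0.le))
      _ ≤ _ := by linarith only [h2]
  · obtain ⟨h1, r0, rR⟩ := key x hx
    have hs := sqx_pos hx
    have hs1 := br_sq_le_one x
    have hp : sq x ^ m ≤ sq x ^ 2 := pow_le_pow_of_le_one hs.le hs1 hm
    have hs2 : 0 ≤ sq x ^ 2 := pow_nonneg hs.le 2
    have h2 : 0 ≤ 1 + K * R := by (clear * - hC0 hZm hZr hR0; positivity)
    calc sq x ^ m * (|lf τ x| * |uf τ τ' x / (1 + uf τ τ' x)|) ≤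
          sq x ^ m * (|lf τ x| * (1 + 1 / (1 + uf τ τ' x))) :=
          mul_le_mul_of_nonneg_left (mul_le_mul_of_nonneg_left (hw x hx) (abs_nonneg _))
            (pow_nonneg hs.le m)
      _ = sq x ^ m * |lf τ x| + |lf τ x| * (sq x ^ m * (1 / (1 + uf τ τ' x))) := by ring
      _ ≤ sq x ^ 2 * Cl + |lf τ x| * (K * r (τ x) ^ m) :=
          add_le_add (mul_le_mul hp (hlb x hx) (abs_nonneg _) hs2)
            (mul_le_mul_of_nonneg_left h1 (abs_nonneg _))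
      _ = sq x ^ 2 * Cl + K * (|lf τ x| * r (τ x) ^ m) := by ring
      _ ≤ sq x ^ 2 * Cl + K * ((D + 4 * (Cl * R)) * sq x ^ 2) :=
          add_le_add le_rfl (mul_le_mul_of_nonneg_left (hl2 x hx) hK0.le)
      _ ≤ _ := by linarith only [mul_nonneg (sq_nonneg (sq x : ℝ)) (sub_nonneg.2 h2)]

end

end Vale.Agent.P237.AllN
end

section

/-!
# P237, all dimensions: bridge for the Fisher route, part 2: the log line of `kF` with correction
-/

open MeasureTheory Metric Set Module Filter Topology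

namespace Vale.Agent.P237.AllN

/-- potential of the log line -/
noncomputable def flG (x s l : ℝ) : ℝ :=
  -(4 / s - 4 * (s / (1 + s)) - 2 * s ^ 2) * l + 3 * (x ^ 2 / s ^ 3) * l ^ 2

/-- functional of the log line of `K = 2/s - 2 - z` with correction `2 g₀` -/
noncomputable def flT (m x s l u gτ gx : ℝ) : ℝ :=
  (4 / s - 4 * (s / (1 + s)) - 6 * (x ^ 2 / s ^ 3) * l - 2 * s ^ 2) * (u ^ 2 / (1 + u)) +
    2 * (gτ - gx) +
    (2 * (m + 3) * x ^ 2 + 2 * (x ^ 2 / (s * (1 + s) ^ 2)) - 2 * (m + 1) * (x ^ 2 / s ^ 3)) * l +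
    (3 * (m - 3) * (x ^ 4 / s ^ 5) - 9 * (x ^ 2 / s ^ 3)) * l ^ 2

noncomputable def flc (m : ℕ) (τ : ℝ → ℝ) (x : ℝ) : ℝ := 2 * prc m τ x + x ^ 2

noncomputable def flp (m : ℕ) (τ : ℝ → ℝ) (x : ℝ) : ℝ := 2 * prp m τ x - τ x * (1 - 2 * lf τ x)

noncomputable def flc' (m : ℕ) (τ τ' : ℝ → ℝ) (x : ℝ) : ℝ := 2 * prc' m τ τ' x + 2 * x

noncomputable def flp' (m : ℕ) (τ τ' : ℝ → ℝ) (x : ℝ) : ℝ :=
  2 * prp' m τ τ' x - (τ' x * (1 - 2 * lf τ x) - τ x * (2 * (uf τ τ' x / x)))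

noncomputable def flΨ (m : ℕ) (τ : ℝ → ℝ) (x : ℝ) : ℝ :=
  2 * (x * sq x ^ m * bg x + bN m x) - x * sq x ^ (m + 2) + x * sq x ^ m * flG x (sq x) (lf τ x)

noncomputable def flΨ' (m : ℕ) (τ τ' : ℝ → ℝ) (x : ℝ) : ℝ :=
  2 * (sq x ^ (m - 1) * (-((m : ℝ) + 1) + ((m : ℝ) + 2 - bgm m) * sq x)) -
    sq x ^ m * (1 - ((m : ℝ) + 3) * x ^ 2) +
    sq x ^ m * ((1 - (m : ℝ) * (x ^ 2 / sq x ^ 2)) * flG x (sq x) (lf τ x) +
      (-(4 * (x ^ 2 / sq x ^ 3) + 4 * (x ^ 2 / (sq x * (1 + sq x) ^ 2)) + 4 * x ^ 2) * lf τ x +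
        3 * (2 * (x ^ 2 / sq x ^ 3) + 3 * (x ^ 4 / sq x ^ 5)) * lf τ x ^ 2) +
      (-(4 / sq x - 4 * (sq x / (1 + sq x)) - 2 * sq x ^ 2) + 6 * (x ^ 2 / sq x ^ 3) * lf τ x) *
        uf τ τ' x)

section

variable {m : ℕ} {r τ τ' T : ℝ → ℝ} {x : ℝ}

theorem flG_der (h : IsTrans m r τ τ' T) (hx : x ∈ Ioo (0 : ℝ) 1) :
    HasDerivAt (fun x => flG x (sq x) (lf τ x))
      (((-(4 * (x ^ 2 / sq x ^ 3) + 4 * (x ^ 2 / (sq x * (1 + sq x) ^ 2)) + 4 * x ^ 2) * lf τ x +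
        3 * (2 * (x ^ 2 / sq x ^ 3) + 3 * (x ^ 4 / sq x ^ 5)) * lf τ x ^ 2) +
      (-(4 / sq x - 4 * (sq x / (1 + sq x)) - 2 * sq x ^ 2) + 6 * (x ^ 2 / sq x ^ 3) * lf τ x) *
        uf τ τ' x) / x) x := by
  have hs := sqx_pos hx
  have hd := sqx_der hx
  have hl := lf_hasDerivAt h hx
  have hx0 := hx.1
  have h1s : (1 + sq x) ≠ 0 := by positivity
  have d2 : HasDerivAt (fun x : ℝ => x ^ 2) (2 * x) x := by simpa only [Nat.cast_ofNat, Nat.add_one_sub_one, pow_one] using hasDerivAt_pow 2 x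
  have e1 := ((hasDerivAt_const x (4 : ℝ)).div hd hs.ne')
  have e2 := ((hd.div (hd.const_add 1) h1s).const_mul 4)
  have e3 := (hd.pow 2).const_mul 2
  have e4 := (d2.div (hd.pow 3) (pow_pos hs 3).ne').const_mul 3
  have e := (((e1.sub e2).sub e3).neg.mul hl).add (e4.mul (hl.pow 2))
  refine e.congr_deriv ?_
  simp only [Pi.sub_apply, Pi.pow_apply, Pi.div_apply, Pi.neg_apply]
  push_cast
  field_simp
  ring

theorem flΨ_der (hm : 1 ≤ m) (h : IsTrans m r τ τ' T) (hx : x ∈ Ioo (0 : ℝ) 1) :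
    HasDerivAt (flΨ m τ) (flΨ' m τ τ' x) x := by
  have hs := sqx_pos hx
  have hx0 := hx.1
  have hb := ball_prim_der hm hx
  have h1 := xs_der (m + 2) hx
  have h2 := xs_der m hx
  have h3 := flG_der h hx
  have e := ((hb.const_mul 2).sub h1).add (h2.mul h3)
  refine e.congr_deriv ?_
  unfold flΨ'
  have hxs := sqx_sq hx
  rw [pow_add (sq x) m 2]
  push_cast
  have e5 : sq x ^ m * sq x ^ 2 * (1 - ((m : ℝ) + 2) * (x ^ 2 / sq x ^ 2)) =
      sq x ^ m * (1 - ((m : ℝ) + 3) * x ^ 2) := by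
    field_simp
    rw [hxs]
    ring
  rw [e5]
  field_simp
  ring

theorem flc_der (h : IsTrans m r τ τ' T) (hx : x ∈ Ioo (0 : ℝ) 1) :
    HasDerivAt (flc m τ) (flc' m τ τ' x) x := by
  have d2 : HasDerivAt (fun x : ℝ => x ^ 2) (2 * x) x := by simpa only [Nat.cast_ofNat, Nat.add_one_sub_one, pow_one] using hasDerivAt_pow 2 x
  exact ((prc_der h hx).const_mul 2).add d2

theorem flp_der (h : IsTrans m r τ τ' T) (hx : x ∈ Ioo (0 : ℝ) 1) :
    HasDerivAt (flp m τ) (flp' m τ τ' x) x := by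
  have hl := lf_hasDerivAt h hx
  refine (((prp_der h hx).const_mul 2).sub ((h.der x hx).mul ((hl.const_mul 2).const_sub 1))).congr_deriv ?_
  unfold flp'
  ring

theorem flc'_cont (h : IsTrans m r τ τ' T) : ContinuousOn (flc' m τ τ') (Ioo 0 1) :=
  (continuousOn_const.mul (prc'_cont h)).add (continuousOn_const.mul continuousOn_id)

theorem flp'_cont (h : IsTrans m r τ τ' T) : ContinuousOn (flp' m τ τ') (Ioo 0 1) := by
  have h1 := tau_cont h
  have h2 := h.cont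
  have h3 := lf_cont h
  have h4 := uf_cont h
  exact (continuousOn_const.mul (prp'_cont h)).sub ((h2.mul (continuousOn_const.sub
    (continuousOn_const.mul h3))).sub (h1.mul (continuousOn_const.mul
      (h4.div continuousOn_id fun x hx => hx.1.ne'))))

/-- value of the log line, before the potentials -/
theorem fl_value (h : IsTrans m r τ τ' T) (hx : x ∈ Ioo (0 : ℝ) 1) :
    ((m : ℝ) + 1) * flc m τ x + (τ x * flc' m τ τ' x + flp' m τ τ' x) / τ' x =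
    2 / sq x * (((-((m : ℝ) + 1) + ((m : ℝ) + 2) * sq x - sq x ^ 2 / (1 + sq x)) +
      lf τ x * (((m : ℝ) - 3) * (x ^ 2 / sq x ^ 2) - (2 * (m : ℝ) + 3) + 2 * ((m : ℝ) + 1) * sq x) -
      (2 * (1 - sq x ^ 2 / (1 + sq x)) - 3 * (x ^ 2 / sq x ^ 2) * lf τ x) *
        (uf τ τ' x / (1 + uf τ τ' x))) + sq x * (bg (τ x) - bgm m)) +
    (((m : ℝ) + 3) * x ^ 2 - 1 + 2 * lf τ x +
      2 * sq x ^ 2 * (uf τ τ' x / (1 + uf τ τ' x))) := by
  have hs := sqx_pos hx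
  have hu := uf_pos h hx
  have hx0 := hx.1
  have ht := tr_pos h hx
  have hxs := sqx_sq hx
  have h1 : ((m : ℝ) + 1) * flc m τ x + (τ x * flc' m τ τ' x + flp' m τ τ' x) / τ' x =
      2 * (((m : ℝ) + 1) * prc m τ x + (τ x * prc' m τ τ' x + prp' m τ τ' x) / τ' x) +
      (((m : ℝ) + 1) * x ^ 2 + (τ x * (2 * x) - (τ' x * (1 - 2 * lf τ x) -
        τ x * (2 * (uf τ τ' x / x)))) / τ' x) := by
    unfold flc flc' flp'
    ring
  have h2 : ((m : ℝ) + 1) * x ^ 2 + (τ x * (2 * x) - (τ' x * (1 - 2 * lf τ x) -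
        τ x * (2 * (uf τ τ' x / x)))) / τ' x = ((m : ℝ) + 3) * x ^ 2 - 1 + 2 * lf τ x +
      2 * sq x ^ 2 * (uf τ τ' x / (1 + uf τ τ' x)) := by
    rw [tau'_eq h hx, show sq x ^ 2 = 1 - x ^ 2 by rw [hxs]; ring]
    field_simp
    ring
  rw [h1, h2, ← plain_value h hx]
  (clear * - hu hs; field_simp)

theorem fl_id (hm : 1 ≤ m) (h : IsTrans m r τ τ' T) (hx : x ∈ Ioo (0 : ℝ) 1) :
    (((m : ℝ) + 1) * flc m τ x + (τ x * flc' m τ τ' x + flp' m τ τ' x) / τ' x) * sq x ^ m =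
    sq x ^ m * flT m x (sq x) (lf τ x) (uf τ τ' x) (bg (τ x)) (bg x) + flΨ' m τ τ' x := by
  rw [fl_value h hx]
  have hs := sqx_pos hx
  have hu := uf_pos h hx
  have hxs := sqx_sq hx
  have e0 : bg x = sq x / (1 + sq x) := rfl
  have hpow : sq x ^ m = sq x ^ (m - 1) * sq x := by
    obtain ⟨n, rfl⟩ := Nat.exists_eq_add_of_le' hm
    rw [Nat.add_sub_cancel, pow_succ]
  unfold flΨ' flT flG
  rw [hpow, e0, show x ^ 4 = (x ^ 2) ^ 2 by ring, hxs]
  set s := sq x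
  set l := lf τ x
  set u := uf τ τ' x
  have h1s : (1 + s) ≠ 0 := by positivity
  field_simp
  ring

end

end Vale.Agent.P237.AllN
end

section

/-!
# P237, all dimensions: bridge for the Fisher route, part 3: limits and integrability, log line
-/

open MeasureTheory Metric Set Module Filter Topology

namespace Vale.Agent.P237.AllN

section

variable {m : ℕ} {r τ τ' T : ℝ → ℝ}

theorem pow_s_le {x : ℝ} (hx : x ∈ Ioo (0 : ℝ) 1) (k : ℕ) : |sq x ^ k| ≤ 1 := by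
  have hs := sqx_pos hx
  rw [abs_of_nonneg (pow_nonneg hs.le k)]
  exact pow_le_one₀ hs.le (br_sq_le_one x)

theorem flG_bdd {x l C : ℝ} (hx : x ∈ Ioo (0 : ℝ) 1) (hl : |l| ≤ C) {m : ℕ} (hm : 4 ≤ m) :
    |x * sq x ^ m * flG x (sq x) l| ≤ (10 * C + 3 * C ^ 2) * (|x| * sq x ^ (m - 3)) := by
  obtain ⟨n, rfl⟩ := Nat.exists_eq_add_of_le' hm
  have hs := sqx_pos hx
  have hs1 := br_sq_le_one x
  have hx0 := hx.1
  have hC : 0 ≤ C := (abs_nonneg _).trans hl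
  have e1 : n + 4 - 3 = n + 1 := rfl
  have e : x * sq x ^ (n + 4) * flG x (sq x) l =
      (-(4 * sq x ^ 2 - 4 * sq x ^ 4 / (1 + sq x) - 2 * sq x ^ 5) * l + 3 * x ^ 2 * l ^ 2) *
        (x * sq x ^ (n + 1)) := by
    unfold flG
    rw [show sq x ^ (n + 4) = sq x ^ (n + 1) * sq x ^ 3 by ring]
    (clear * - hs hx0; field_simp)
  rw [e1, e, abs_mul, abs_mul x, abs_of_nonneg (pow_nonneg hs.le (n + 1))]
  apply mul_le_mul_of_nonneg_right _ (by positivity)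
  have h2 := pow_s_le hx 2
  have h5 := pow_s_le hx 5
  have h4 : |sq x ^ 4 / (1 + sq x)| ≤ 1 := by
    rw [abs_of_nonneg (by positivity), div_le_one (by positivity)]
    have := pow_s_le hx 4
    rw [abs_of_nonneg (by positivity)] at this
    linarith only [hs, this]
  rw [abs_of_nonneg (pow_nonneg hs.le 2)] at h2
  rw [abs_of_nonneg (pow_nonneg hs.le 5)] at h5
  rw [abs_of_nonneg (by positivity)] at h4
  have h3 : |-(4 * sq x ^ 2 - 4 * sq x ^ 4 / (1 + sq x) - 2 * sq x ^ 5)| ≤ 10 := by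
    have g1 : 0 ≤ sq x ^ 2 := by positivity
    have g2 : 0 ≤ sq x ^ 4 / (1 + sq x) := by positivity
    have g3 : 0 ≤ sq x ^ 5 := by positivity
    rw [show 4 * sq x ^ 4 / (1 + sq x) = 4 * (sq x ^ 4 / (1 + sq x)) by ring, abs_le]
    constructor <;> linarith only [h2, g2, g3, h5, h4, g1]
  have hx2 : x ^ 2 ≤ 1 := pow_le_one₀ hx0.le hx.2.le
  have hl2 : l ^ 2 ≤ C ^ 2 := by
    rw [← sq_abs]
    exact pow_le_pow_left₀ (abs_nonneg _) hl 2
  refine (abs_add_le _ _).trans (add_le_add ?_ ?_)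
  · rw [abs_mul]
    exact mul_le_mul h3 hl (abs_nonneg _) (by norm_num)
  · rw [abs_of_nonneg (by positivity)]
    have : x ^ 2 * l ^ 2 ≤ 1 * C ^ 2 := mul_le_mul hx2 hl2 (by positivity) zero_le_one
    linarith only [this]

theorem flΨ_bound (hm : 4 ≤ m) (hr : IsProf r) (h : IsTrans m r τ τ' T) :
    ∃ K : ℝ, ∀ x ∈ Ioo (0 : ℝ) 1, |flΨ m τ x| ≤
      2 * (|x * sq x ^ m * bg x| + |bN m x|) + |x| * sq x ^ (m + 2) +
        K * (|x| * sq x ^ (m - 3)) := by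
  obtain ⟨C, hC, hb⟩ := lf_bdd (by omega) hr h
  refine ⟨10 * C + 3 * C ^ 2, fun x hx => ?_⟩
  have hs := sqx_pos hx
  unfold flΨ
  refine (abs_add_le _ _).trans (add_le_add ((abs_sub _ _).trans (add_le_add ?_ ?_))
    (flG_bdd hx (hb x hx) hm))
  · rw [abs_mul, abs_two]
    exact mul_le_mul_of_nonneg_left (abs_add_le _ _) (by norm_num)
  · rw [abs_mul, abs_of_nonneg (pow_nonneg hs.le (m + 2))]

theorem flΨ_zero (hm : 4 ≤ m) (hr : IsProf r) (h : IsTrans m r τ τ' T) :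
    Tendsto (flΨ m τ) (𝓝[>] 0) (𝓝 0) := by
  obtain ⟨K, hK⟩ := flΨ_bound hm hr h
  have hc : Continuous fun x : ℝ => 2 * (|x * sq x ^ m * bg x| + |bN m x|) +
      |x| * sq x ^ (m + 2) + K * (|x| * sq x ^ (m - 3)) := by
    have h1 := br_sq_cont
    have h2 := bg_cont
    have h3 := bN_cont m
    (clear * - h1 h2 h3; fun_prop)
  have ht := hc.tendsto 0
  have e : 2 * (|(0 : ℝ) * sq 0 ^ m * bg 0| + |bN m 0|) +
      |(0 : ℝ)| * sq 0 ^ (m + 2) + K * (|(0 : ℝ)| * sq 0 ^ (m - 3)) = 0 := by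
    rw [bN_zero, abs_zero]; simp only [zero_mul, abs_zero, add_zero, mul_zero]
  rw [e] at ht
  refine squeeze_zero_norm' ?_ (ht.mono_left nhdsWithin_le_nhds)
  filter_upwards [Ioo_mem_nhdsGT (zero_lt_one' ℝ)] with x hx
  rw [Real.norm_eq_abs]
  exact hK x hx

theorem flΨ_one (hm : 4 ≤ m) (hr : IsProf r) (h : IsTrans m r τ τ' T) :
    Tendsto (flΨ m τ) (𝓝[<] 1) (𝓝 0) := by
  obtain ⟨K, hK⟩ := flΨ_bound hm hr h
  have hc : Continuous fun x : ℝ => 2 * (|x * sq x ^ m * bg x| + |bN m x|) +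
      |x| * sq x ^ (m + 2) + K * (|x| * sq x ^ (m - 3)) := by
    have h1 := br_sq_cont
    have h2 := bg_cont
    have h3 := bN_cont m
    fun_prop
  have ht := hc.tendsto 1
  have e : 2 * (|(1 : ℝ) * sq 1 ^ m * bg 1| + |bN m 1|) +
      |(1 : ℝ)| * sq 1 ^ (m + 2) + K * (|(1 : ℝ)| * sq 1 ^ (m - 3)) = 0 := by
    rw [bN_one, br_sq_one, zero_pow (by omega : m ≠ 0), zero_pow (by omega : m + 2 ≠ 0),
      zero_pow (by omega : m - 3 ≠ 0)]
    simp
  rw [e] at ht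
  refine squeeze_zero_norm' ?_ (ht.mono_left nhdsWithin_le_nhds)
  filter_upwards [Ioo_mem_nhdsLT (zero_lt_one' ℝ)] with x hx
  rw [Real.norm_eq_abs]
  exact hK x hx

theorem tau_lf_zero (hm : 1 ≤ m) (hr : IsProf r) (h : IsTrans m r τ τ' T) :
    Tendsto (fun x => τ x * (1 - 2 * lf τ x)) (𝓝[>] 0) (𝓝 0) := by
  obtain ⟨C, hC, hb⟩ := lf_bdd hm hr h
  have h2 : Tendsto (fun x => (1 + 2 * C) * τ x) (𝓝[>] 0) (𝓝 0) := by
    have := (tau_tendsto_zero hm hr h).const_mul (1 + 2 * C)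
    rwa [mul_zero] at this
  refine squeeze_zero_norm' ?_ h2
  filter_upwards [Ioo_mem_nhdsGT (zero_lt_one' ℝ)] with x hx
  have h4 := tr_pos h hx
  have h5 : |1 - 2 * lf τ x| ≤ 1 + 2 * C := by
    refine (abs_sub _ _).trans ?_
    rw [abs_one, abs_mul, abs_two]
    linarith only [hb x hx]
  rw [Real.norm_eq_abs, abs_mul, abs_of_pos h4, mul_comm]
  exact mul_le_mul_of_nonneg_right h5 h4.le

theorem fl_int (hm : 4 ≤ m) (hr : IsProf r) (h : IsTrans m r τ τ' T) :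
    ∃ C : ℝ, ∀ x ∈ Ioo (0 : ℝ) 1,
      |((m : ℝ) + 1) * flc m τ x + (τ x * flc' m τ τ' x + flp' m τ τ' x) / τ' x| *
        sq x ^ (m + 1) ≤ C := by
  obtain ⟨Cl, hCl, hlb⟩ := lf_bdd (by omega) hr h
  obtain ⟨Cw, hCw, hwb⟩ := uw_bdd (by omega) hr h
  have hm4 : (4 : ℝ) ≤ m := by exact_mod_cast hm
  refine ⟨2 * ((2 * m + 4) + Cl * (5 * m + 8) + 5 * Cw) + 2 * (1 + |bgm m|) +
    ((m + 4 + 2 * Cl) + 2 * Cw), fun x hx => ?_⟩
  rw [fl_value h hx]
  obtain ⟨hw1, hw2⟩ := hwb x hx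
  have hl := hlb x hx
  have hs := sqx_pos hx
  have hs1 := br_sq_le_one x
  have hx0 := hx.1
  have hx2 : x ^ 2 ≤ 1 := pow_le_one₀ hx0.le hx.2.le
  set s := sq x with hsd
  set l := lf τ x with hld
  set w := uf τ τ' x / (1 + uf τ τ' x) with hwd
  have hpm : s ^ m ≤ 1 := pow_le_one₀ hs.le hs1
  have hpm0 : 0 ≤ s ^ m := pow_nonneg hs.le m
  have hpm1 : s ^ (m + 1) ≤ 1 := pow_le_one₀ hs.le hs1
  have hpm10 : 0 ≤ s ^ (m + 1) := pow_nonneg hs.le _
  have q1 : 0 ≤ s ^ 2 / (1 + s) := by (clear * - hs; positivity)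
  have q2 : s ^ 2 / (1 + s) ≤ 1 := by rw [div_le_one (by positivity)]; nlinarith only [hs, hs1]
  -- decomposition
  have e : ∀ P Q R B Z : ℝ, (2 / s * ((P + l * Q - R * w) + s * B) + Z) * s ^ (m + 1) =
      2 * (s ^ m * P + s ^ m * (l * Q) - s ^ m * (R * w)) + 2 * (s ^ (m + 1) * B) +
        s ^ (m + 1) * Z := by
    intro P Q R B Z
    rw [pow_succ]
    (clear * - hs; field_simp)
  rw [← abs_of_nonneg hpm10, ← abs_mul, e]
  have hP : |s ^ m * (-((m : ℝ) + 1) + ((m : ℝ) + 2) * s - s ^ 2 / (1 + s))| ≤ 2 * (m : ℝ) + 4 := by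
    rw [abs_mul, abs_of_nonneg hpm0]
    have : |-((m : ℝ) + 1) + ((m : ℝ) + 2) * s - s ^ 2 / (1 + s)| ≤ 2 * (m : ℝ) + 4 := by
      rw [abs_le]; constructor <;> nlinarith only [hs, q2, hs1, q1]
    calc _ ≤ 1 * (2 * (m : ℝ) + 4) := mul_le_mul hpm this (abs_nonneg _) zero_le_one
      _ = _ := one_mul _
  have hQ : |s ^ m * (l * (((m : ℝ) - 3) * (x ^ 2 / s ^ 2) - (2 * (m : ℝ) + 3) +
      2 * ((m : ℝ) + 1) * s))| ≤ Cl * (5 * m + 8) := by
    obtain ⟨n, rfl⟩ := Nat.exists_eq_add_of_le' (show 2 ≤ m by omega)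
    have e1 : s ^ (n + 2) * (l * ((((n + 2 : ℕ) : ℝ) - 3) * (x ^ 2 / s ^ 2) -
        (2 * ((n + 2 : ℕ) : ℝ) + 3) + 2 * (((n + 2 : ℕ) : ℝ) + 1) * s)) =
        l * ((((n + 2 : ℕ) : ℝ) - 3) * x ^ 2 * s ^ n - (2 * ((n + 2 : ℕ) : ℝ) + 3) * s ^ (n + 2) +
          2 * (((n + 2 : ℕ) : ℝ) + 1) * s ^ (n + 3)) := by
      rw [show s ^ (n + 2) = s ^ n * s ^ 2 by ring, show s ^ (n + 3) = s ^ n * s ^ 3 by ring]
      (clear * - hs; field_simp)
    rw [e1, abs_mul]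
    apply mul_le_mul hl _ (abs_nonneg _) hCl
    have p1 : s ^ n ≤ 1 := pow_le_one₀ hs.le hs1
    have p2 : s ^ (n + 2) ≤ 1 := pow_le_one₀ hs.le hs1
    have p3 : s ^ (n + 3) ≤ 1 := pow_le_one₀ hs.le hs1
    have p10 : 0 ≤ s ^ n := pow_nonneg hs.le _
    have p20 : 0 ≤ s ^ (n + 2) := pow_nonneg hs.le _
    have p30 : 0 ≤ s ^ (n + 3) := pow_nonneg hs.le _
    set M := ((n + 2 : ℕ) : ℝ) with hM
    have g1 : 0 ≤ (M - 3) * x ^ 2 * s ^ n := by
      have : 0 ≤ M - 3 := by linarith only [hm4]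
      (clear * - this hx0 hs; positivity)
    have g2 : (M - 3) * x ^ 2 * s ^ n ≤ M - 3 := by
      have h3 : 0 ≤ M - 3 := by linarith only [hm4]
      calc (M - 3) * x ^ 2 * s ^ n ≤ (M - 3) * 1 * 1 := by
            apply mul_le_mul _ p1 p10 (by linarith only [hm4])
            exact mul_le_mul_of_nonneg_left hx2 h3
        _ = M - 3 := by ring
    rw [abs_le]
    constructor <;> nlinarith only [hpm, hpm10, hm4, g1, hpm0, hpm1, g2]
  have hR : |s ^ m * ((2 * (1 - s ^ 2 / (1 + s)) - 3 * (x ^ 2 / s ^ 2) * l) * w)| ≤ 5 * Cw := by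
    have e1 : s ^ m * ((2 * (1 - s ^ 2 / (1 + s)) - 3 * (x ^ 2 / s ^ 2) * l) * w) =
        2 * (1 - s ^ 2 / (1 + s)) * (s ^ m * w) - 3 * (x ^ 2 / s ^ 2) * (s ^ m * (l * w)) := by ring
    rw [e1]
    have b1 : |2 * (1 - s ^ 2 / (1 + s)) * (s ^ m * w)| ≤ 2 * Cw := by
      rw [abs_mul, abs_mul (s ^ m), abs_of_nonneg hpm0]
      apply mul_le_mul _ hw1 (by (clear * - hs; positivity)) (by norm_num)
      rw [abs_le]; constructor <;> linarith only [q1, q2]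
    have b2 : |3 * (x ^ 2 / s ^ 2) * (s ^ m * (l * w))| ≤ 3 * Cw := by
      rw [abs_mul, abs_of_nonneg (by positivity : 0 ≤ 3 * (x ^ 2 / s ^ 2)), abs_mul (s ^ m),
        abs_of_nonneg hpm0, abs_mul l]
      calc 3 * (x ^ 2 / s ^ 2) * (s ^ m * (|l| * |w|)) ≤ 3 * (x ^ 2 / s ^ 2) * (Cw * s ^ 2) :=
            mul_le_mul_of_nonneg_left hw2 (by positivity)
        _ = 3 * Cw * x ^ 2 := by (clear * - hs hx0; field_simp)
        _ ≤ 3 * Cw * 1 := mul_le_mul_of_nonneg_left hx2 (by positivity)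
        _ = 3 * Cw := mul_one _
    calc _ ≤ _ := abs_sub _ _
      _ ≤ 5 * Cw := by linarith only [b1, b2]
  have hB : |s ^ (m + 1) * (bg (τ x) - bgm m)| ≤ 1 + |bgm m| := by
    rw [abs_mul, abs_of_nonneg hpm10]
    have h1 : |bg (τ x) - bgm m| ≤ 1 + |bgm m| := by
      refine (abs_sub _ _).trans ?_
      have : |bg (τ x)| ≤ 1 := by
        have h2 := sqx_pos (h.mem x hx)
        unfold bg
        rw [abs_of_nonneg (by (clear * - h2; positivity)), div_le_one (by positivity)]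
        linarith only []
      linarith only [this]
    calc _ ≤ 1 * (1 + |bgm m|) := mul_le_mul hpm1 h1 (abs_nonneg _) zero_le_one
      _ = _ := one_mul _
  have hZ : |s ^ (m + 1) * (((m : ℝ) + 3) * x ^ 2 - 1 + 2 * l + 2 * s ^ 2 * w)| ≤
      (m + 4 + 2 * Cl) + 2 * Cw := by
    have e1 : s ^ (m + 1) * (((m : ℝ) + 3) * x ^ 2 - 1 + 2 * l + 2 * s ^ 2 * w) =
      s ^ (m + 1) * (((m : ℝ) + 3) * x ^ 2 - 1 + 2 * l) + 2 * s ^ 3 * (s ^ m * w) := by ring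
    rw [e1]
    refine (abs_add_le _ _).trans (add_le_add ?_ ?_)
    · rw [abs_mul, abs_of_nonneg hpm10]
      have : |((m : ℝ) + 3) * x ^ 2 - 1 + 2 * l| ≤ m + 4 + 2 * Cl := by
        obtain ⟨l1, l2⟩ := abs_le.1 hl
        have : ((m : ℝ) + 3) * x ^ 2 ≤ m + 3 := by nlinarith only [hx2]
        have : 0 ≤ ((m : ℝ) + 3) * x ^ 2 := by positivity
        rw [abs_le]; constructor <;> linarith
      calc _ ≤ 1 * ((m : ℝ) + 4 + 2 * Cl) := mul_le_mul hpm1 this (abs_nonneg _) zero_le_one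
        _ = _ := one_mul _
    · rw [abs_mul, abs_mul (s ^ m), abs_of_nonneg hpm0, abs_of_nonneg (by positivity)]
      have : 2 * s ^ 3 ≤ 2 := by
        have := pow_le_one₀ hs.le hs1 (n := 3)
        linarith only [this]
      exact mul_le_mul this hw1 (by (clear * - hs; positivity)) (by norm_num)
  refine (abs_add_le _ _).trans (add_le_add ((abs_add_le _ _).trans (add_le_add ?_ ?_)) ?_)
  · rw [abs_mul, abs_two]
    apply mul_le_mul_of_nonneg_left _ (by norm_num)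
    exact (abs_sub _ _).trans (add_le_add ((abs_add_le _ _).trans (add_le_add hP hQ)) hR)
  · rw [abs_mul, abs_two]
    exact mul_le_mul_of_nonneg_left hB (by norm_num)
  · exact hZ

/-- **the log line of `kF` with correction as a pair with primitive** -/
theorem fl_pair (hm : 4 ≤ m) (hr : IsProf r) (h : IsTrans m r τ τ' T) :
    FPair m τ τ' (flc m τ) (flc' m τ τ') (flp m τ) (flp' m τ τ') (flΨ m τ) (flΨ' m τ τ')
      (fun x => flT m x (sq x) (lf τ x) (uf τ τ' x) (bg (τ x)) (bg x)) where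
  dc := fun x hx => flc_der h hx
  cc := flc'_cont h
  dp := fun x hx => flp_der h hx
  cp := flp'_cont h
  dΨ := fun x hx => flΨ_der (by omega) h hx
  id := fun x hx => fl_id (by omega) h hx
  c0 := by
    obtain ⟨C, hC⟩ := prc_bdd (by omega) hr h
    refine ⟨2 * C + 1, fun x hx => ?_⟩
    unfold flc
    refine (abs_add_le _ _).trans (add_le_add ?_ ?_)
    · rw [abs_mul, abs_two]
      exact mul_le_mul_of_nonneg_left (hC x hx) (by norm_num)
    · rw [abs_of_nonneg (sq_nonneg x)]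
      nlinarith only [hx.1, hx.2]
  p0 := by
    have := ((prp_tendsto (by omega) hr h).const_mul 2).sub (tau_lf_zero (by omega) hr h)
    rw [mul_zero, sub_zero] at this
    exact this
  c1 := by
    have h1 := (prc_tendsto_one (by omega) hr h).const_mul 2
    rw [mul_zero] at h1
    have h2 : Tendsto (fun x : ℝ => sq x ^ (m + 2) * x ^ 2) (𝓝[<] 1) (𝓝 0) := by
      have hc : Continuous fun x : ℝ => sq x ^ (m + 2) * x ^ 2 :=
        (br_sq_cont.pow _).mul (continuous_pow 2)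
      have := hc.tendsto 1
      rw [br_sq_one, zero_pow (by omega), zero_mul] at this
      exact this.mono_left nhdsWithin_le_nhds
    have := h1.add h2
    rw [add_zero] at this
    refine this.congr fun x => ?_
    unfold flc
    ring
  Ψ0 := flΨ_zero hm hr h
  Ψ1 := flΨ_one hm hr h
  int := fl_int hm hr h

end

end Vale.Agent.P237.AllN
end

section

/-!
# P237, all dimensions: bridge for the Fisher route, part 4: power pairs
-/

open MeasureTheory Metric Set Module Filter Topology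

namespace Vale.Agent.P237.AllN

/-! ### functions cut off at zero -/

/-- `F` on `(0,∞)`, zero on `(-∞,0]` -/
noncomputable def cut0 (F : ℝ → ℝ) (l : ℝ) : ℝ := if 0 < l then F l else 0

theorem cut0_eq {F : ℝ → ℝ} (h0 : F 0 = 0) : cut0 F = fun l => F (max l 0) := by
  funext l
  unfold cut0
  split_ifs with h
  · rw [max_eq_left h.le]
  · rw [max_eq_right (not_lt.1 h), h0]

theorem cut0_pos {F : ℝ → ℝ} {l : ℝ} (h : 0 < l) : cut0 F l = F l := if_pos h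

theorem cut0_nonpos {F : ℝ → ℝ} {l : ℝ} (h : l ≤ 0) : cut0 F l = 0 := if_neg (not_lt.2 h)

theorem cut0_nonneg {F : ℝ → ℝ} {l : ℝ} (h0 : F 0 = 0) (h : 0 ≤ l) : cut0 F l = F l := by
  rw [cut0_eq h0]
  simp only [max_eq_left h]

theorem cut0_continuous {F : ℝ → ℝ} (hF : Continuous F) (h0 : F 0 = 0) : Continuous (cut0 F) := by
  rw [cut0_eq h0]
  fun_prop

theorem cut0_hasDerivAt {F F' : ℝ → ℝ} (hF : ∀ l, HasDerivAt F (F' l) l) (h0 : F 0 = 0)
    (h1 : F' 0 = 0) (l : ℝ) : HasDerivAt (cut0 F) (cut0 F' l) l := by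
  rcases lt_trichotomy l 0 with h | h | h
  · rw [cut0_nonpos h.le]
    refine (hasDerivAt_const l (0 : ℝ)).congr_of_eventuallyEq ?_
    filter_upwards [Iio_mem_nhds h] with y hy
    exact cut0_nonpos (le_of_lt hy)
  · subst h
    rw [cut0_nonpos le_rfl]
    have h2 := hF 0
    rw [h1, hasDerivAt_iff_isLittleO_nhds_zero] at h2
    rw [hasDerivAt_iff_isLittleO_nhds_zero]
    refine Asymptotics.IsBigO.trans_isLittleO ?_ h2
    refine Asymptotics.IsBigO.of_bound 1 (Eventually.of_forall fun y => ?_)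
    simp only [zero_add, smul_zero, sub_zero, h0, cut0_nonpos (le_refl (0 : ℝ)), one_mul]
    unfold cut0
    split_ifs
    · exact le_refl _
    · rw [norm_zero]
      exact norm_nonneg (F y)
  · rw [cut0_pos h]
    refine (hF l).congr_of_eventuallyEq ?_
    filter_upwards [Ioi_mem_nhds h] with y hy
    exact cut0_pos hy

section

variable {m : ℕ} {r τ τ' T : ℝ → ℝ}

/-- a continuous function of `l` is bounded along the transport -/
theorem comp_lf_bdd (hm : 1 ≤ m) (hr : IsProf r) (h : IsTrans m r τ τ' T) {F : ℝ → ℝ}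
    (hF : Continuous F) : ∃ C : ℝ, 0 ≤ C ∧ ∀ x ∈ Ioo (0 : ℝ) 1, |F (lf τ x)| ≤ C := by
  obtain ⟨Cl, hCl, hb⟩ := lf_bdd hm hr h
  obtain ⟨C, hC⟩ := (isCompact_Icc (a := -Cl) (b := Cl)).exists_bound_of_continuousOn hF.continuousOn
  refine ⟨|C|, abs_nonneg C, fun x hx => ?_⟩
  have h1 := hC (lf τ x) (by
    have := abs_le.1 (hb x hx)
    exact ⟨this.1, this.2⟩)
  rw [Real.norm_eq_abs] at h1
  exact h1.trans (le_abs_self C)

/-- **pairs of power type** -/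
theorem fpow_pair (n : ℕ) (hm : 4 ≤ m) (hr : IsProf r) (h : IsTrans m r τ τ' T)
    {C P G G' : ℝ → ℝ} (hC : ∀ l, HasDerivAt C ((2 * (n : ℝ) + 2) * C l - G' l) l)
    (hP : ∀ l, HasDerivAt P ((2 * (n : ℝ) + 1) * P l + Real.exp l * G' l) l)
    (hG : ∀ l, HasDerivAt G (G' l) l) (hGc : Continuous G') :
    FPair m τ τ' (fun x => x ^ (2 * n + 2) * C (lf τ x))
      (fun x => x ^ (2 * n + 1) * ((2 * (n : ℝ) + 2) * C (lf τ x) +
        uf τ τ' x * ((2 * (n : ℝ) + 2) * C (lf τ x) - G' (lf τ x))))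
      (fun x => x ^ (2 * n + 1) * P (lf τ x))
      (fun x => x ^ (2 * n) * ((2 * (n : ℝ) + 1) * P (lf τ x) +
        uf τ τ' x * ((2 * (n : ℝ) + 1) * P (lf τ x) + Real.exp (lf τ x) * G' (lf τ x))))
      (fun x => x ^ (2 * n + 1) * sq x ^ (m + 2) * G (lf τ x))
      (fun x => sq x ^ m * (x ^ (2 * n) * ((2 * (n : ℝ) + 1) * sq x ^ 2 - ((m : ℝ) + 2) * x ^ 2) *
        G (lf τ x) + x ^ (2 * n) * sq x ^ 2 * uf τ τ' x * G' (lf τ x)))
      (fun x => ((m : ℝ) + 1 + 2 * ((n : ℝ) + 1)) * x ^ (2 * n + 2) * C (lf τ x) +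
        (2 * (n : ℝ) + 1) * x ^ (2 * n) * Real.exp (-lf τ x) * P (lf τ x) -
        x ^ (2 * n) * ((2 * (n : ℝ) + 1) * sq x ^ 2 - ((m : ℝ) + 2) * x ^ 2) * G (lf τ x) -
        sq x ^ 2 * x ^ (2 * n) * G' (lf τ x) * (uf τ τ' x ^ 2 / (1 + uf τ τ' x))) := by
  have hCc : Continuous C := continuous_iff_continuousAt.2 fun l => (hC l).continuousAt
  have hPc : Continuous P := continuous_iff_continuousAt.2 fun l => (hP l).continuousAt
  have hGc0 : Continuous G := continuous_iff_continuousAt.2 fun l => (hG l).continuousAt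
  have hl := lf_cont h
  have hu := uf_cont h
  obtain ⟨BC, hBC, bC⟩ := comp_lf_bdd (by omega) hr h hCc
  obtain ⟨BP, hBP, bP⟩ := comp_lf_bdd (by omega) hr h hPc
  obtain ⟨BG, hBG, bG⟩ := comp_lf_bdd (by omega) hr h hGc0
  obtain ⟨BH, hBH, bH⟩ := comp_lf_bdd (by omega) hr h hGc
  obtain ⟨BE, hBE, bE⟩ := comp_lf_bdd (by omega) hr h
    (F := fun l => Real.exp (-l) * P l) (by fun_prop)
  obtain ⟨Cw, hCw, hwb⟩ := uw_bdd (by omega) hr h
  have hCl : ContinuousOn (fun x => C (lf τ x)) (Ioo 0 1) := hCc.comp_continuousOn hl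
  have hPl : ContinuousOn (fun x => P (lf τ x)) (Ioo 0 1) := hPc.comp_continuousOn hl
  have hGl : ContinuousOn (fun x => G' (lf τ x)) (Ioo 0 1) := hGc.comp_continuousOn hl
  have hEl : ContinuousOn (fun x => Real.exp (lf τ x)) (Ioo 0 1) :=
    Real.continuous_exp.comp_continuousOn hl
  -- the value
  have hval : ∀ x ∈ Ioo (0 : ℝ) 1, ((m : ℝ) + 1) * (x ^ (2 * n + 2) * C (lf τ x)) +
      (τ x * (x ^ (2 * n + 1) * ((2 * (n : ℝ) + 2) * C (lf τ x) +
        uf τ τ' x * ((2 * (n : ℝ) + 2) * C (lf τ x) - G' (lf τ x)))) +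
      x ^ (2 * n) * ((2 * (n : ℝ) + 1) * P (lf τ x) +
        uf τ τ' x * ((2 * (n : ℝ) + 1) * P (lf τ x) + Real.exp (lf τ x) * G' (lf τ x)))) / τ' x =
      ((m : ℝ) + 1 + 2 * ((n : ℝ) + 1)) * x ^ (2 * n + 2) * C (lf τ x) +
        (2 * (n : ℝ) + 1) * x ^ (2 * n) * (Real.exp (-lf τ x) * P (lf τ x)) +
        x ^ (2 * n) * sq x ^ 2 * (uf τ τ' x / (1 + uf τ τ' x)) * G' (lf τ x) := by
    intro x hx
    have hx0 := hx.1
    have hup := uf_pos h hx
    have ht := tr_pos h hx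
    have he : Real.exp (-lf τ x) = x / τ x := by
      rw [Real.exp_neg, exp_lf h hx, inv_div]
    have hxs := sqx_sq hx
    rw [tau'_eq h hx, exp_lf h hx, he]
    have e1 : sq x ^ 2 = 1 - x ^ 2 := by linarith only [hxs]
    rw [e1]
    have p1 : x ^ (2 * n + 2) = x ^ (2 * n) * x ^ 2 := by ring
    have p2 : x ^ (2 * n + 1) = x ^ (2 * n) * x := by ring
    rw [p1, p2]
    field_simp
    ring
  refine ⟨?_, ?_, ?_, ?_, ?_, ?_, ?_, ?_, ?_, ?_, ?_, ?_⟩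
  · intro x hx
    have hx0 := hx.1
    have e1 := (hasDerivAt_pow (2 * n + 2) x).mul ((hC (lf τ x)).comp x (lf_hasDerivAt h hx))
    refine e1.congr_deriv ?_
    simp only [Function.comp_apply]
    push_cast
    rw [show x ^ (2 * n + 2) = x ^ (2 * n + 1) * x by ring]
    (clear * - hx0; field_simp)
  · exact (continuousOn_pow _).mul ((continuousOn_const.mul hCl).add
      (hu.mul ((continuousOn_const.mul hCl).sub hGl)))
  · intro x hx
    have hx0 := hx.1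
    have e1 := (hasDerivAt_pow (2 * n + 1) x).mul ((hP (lf τ x)).comp x (lf_hasDerivAt h hx))
    refine e1.congr_deriv ?_
    simp only [Function.comp_apply]
    push_cast
    rw [show x ^ (2 * n + 1) = x ^ (2 * n) * x by ring]
    (clear * - hx0; field_simp)
  · exact (continuousOn_pow _).mul ((continuousOn_const.mul hPl).add
      (hu.mul ((continuousOn_const.mul hPl).add (hEl.mul hGl))))
  · intro x hx
    have hx0 := hx.1
    have hs := sqx_pos hx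
    have e1 := ((hasDerivAt_pow (2 * n + 1) x).mul ((sqx_der hx).pow (m + 2))).mul
      ((hG (lf τ x)).comp x (lf_hasDerivAt h hx))
    refine e1.congr_deriv ?_
    simp only [Function.comp_apply, Pi.mul_apply, Pi.pow_apply]
    push_cast
    rw [show x ^ (2 * n + 1) = x ^ (2 * n) * x by ring,
      show sq x ^ (m + 2) = sq x ^ m * sq x ^ 2 by ring,
      show sq x ^ (m + 1) = sq x ^ m * sq x by ring]
    field_simp
    ring
  · intro x hx
    have hup := uf_pos h hx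
    rw [hval x hx]
    have e2 : uf τ τ' x ^ 2 / (1 + uf τ τ' x) = uf τ τ' x - uf τ τ' x / (1 + uf τ τ' x) := by
      field_simp
      ring
    rw [e2]
    ring
  · refine ⟨BC, fun x hx => ?_⟩
    have hx' : x ∈ Ioo (0 : ℝ) 1 := ⟨hx.1, by linarith only [hx.2]⟩
    rw [abs_mul, abs_of_nonneg (pow_nonneg hx.1.le _)]
    have h1 : x ^ (2 * n + 2) ≤ 1 := pow_le_one₀ hx.1.le hx'.2.le
    calc x ^ (2 * n + 2) * |C (lf τ x)| ≤ 1 * BC :=
          mul_le_mul h1 (bC x hx') (abs_nonneg _) zero_le_one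
      _ = BC := one_mul _
  · have hc : Continuous fun x : ℝ => BP * x ^ (2 * n + 1) := by fun_prop
    have ht := hc.tendsto 0
    rw [zero_pow (by (clear * -; omega)), mul_zero] at ht
    refine squeeze_zero_norm' ?_ (ht.mono_left nhdsWithin_le_nhds)
    filter_upwards [Ioo_mem_nhdsGT (zero_lt_one' ℝ)] with x hx
    rw [Real.norm_eq_abs, abs_mul, abs_of_nonneg (pow_nonneg hx.1.le _), mul_comm]
    exact mul_le_mul_of_nonneg_right (bP x hx) (pow_nonneg hx.1.le _)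
  · have hc : Continuous fun x : ℝ => BC * sq x ^ (m + 2) := by
      have h1 := br_sq_cont
      fun_prop
    have ht := hc.tendsto 1
    rw [br_sq_one, zero_pow (by omega), mul_zero] at ht
    refine squeeze_zero_norm' ?_ (ht.mono_left nhdsWithin_le_nhds)
    filter_upwards [Ioo_mem_nhdsLT (zero_lt_one' ℝ)] with x hx
    have hs := sqx_pos hx
    rw [Real.norm_eq_abs, abs_mul, abs_of_nonneg (pow_nonneg hs.le _), abs_mul,
      abs_of_nonneg (pow_nonneg hx.1.le _), mul_comm BC]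
    refine mul_le_mul_of_nonneg_left ?_ (pow_nonneg hs.le _)
    have h1 : x ^ (2 * n + 2) ≤ 1 := pow_le_one₀ hx.1.le hx.2.le
    calc x ^ (2 * n + 2) * |C (lf τ x)| ≤ 1 * BC :=
          mul_le_mul h1 (bC x hx) (abs_nonneg _) zero_le_one
      _ = BC := one_mul _
  · have hc : Continuous fun x : ℝ => BG * x ^ (2 * n + 1) := by fun_prop
    have ht := hc.tendsto 0
    rw [zero_pow (by omega), mul_zero] at ht
    refine squeeze_zero_norm' ?_ (ht.mono_left nhdsWithin_le_nhds)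
    filter_upwards [Ioo_mem_nhdsGT (zero_lt_one' ℝ)] with x hx
    have hs := sqx_pos hx
    have h1 : sq x ^ (m + 2) ≤ 1 := pow_le_one₀ hs.le (br_sq_le_one x)
    rw [Real.norm_eq_abs, abs_mul, abs_mul, abs_of_nonneg (pow_nonneg hx.1.le _),
      abs_of_nonneg (pow_nonneg hs.le _)]
    have h2 : x ^ (2 * n + 1) * sq x ^ (m + 2) ≤ x ^ (2 * n + 1) :=
      mul_le_of_le_one_right (pow_nonneg hx.1.le _) h1
    calc x ^ (2 * n + 1) * sq x ^ (m + 2) * |G (lf τ x)| ≤ x ^ (2 * n + 1) * BG :=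
          mul_le_mul h2 (bG x hx) (abs_nonneg _) (pow_nonneg hx.1.le _)
      _ = _ := mul_comm _ _
  · have hc : Continuous fun x : ℝ => BG * sq x ^ (m + 2) := by
      have h1 := br_sq_cont
      fun_prop
    have ht := hc.tendsto 1
    rw [br_sq_one, zero_pow (by omega), mul_zero] at ht
    refine squeeze_zero_norm' ?_ (ht.mono_left nhdsWithin_le_nhds)
    filter_upwards [Ioo_mem_nhdsLT (zero_lt_one' ℝ)] with x hx
    have hs := sqx_pos hx
    have h1 : x ^ (2 * n + 1) ≤ 1 := pow_le_one₀ hx.1.le hx.2.le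
    rw [Real.norm_eq_abs, abs_mul, abs_mul, abs_of_nonneg (pow_nonneg hx.1.le _),
      abs_of_nonneg (pow_nonneg hs.le _)]
    have h2 : x ^ (2 * n + 1) * sq x ^ (m + 2) ≤ sq x ^ (m + 2) :=
      mul_le_of_le_one_left (pow_nonneg hs.le _) h1
    calc x ^ (2 * n + 1) * sq x ^ (m + 2) * |G (lf τ x)| ≤ sq x ^ (m + 2) * BG :=
          mul_le_mul h2 (bG x hx) (abs_nonneg _) (pow_nonneg hs.le _)
      _ = _ := mul_comm _ _
  · refine ⟨((m : ℝ) + 1 + 2 * ((n : ℝ) + 1)) * BC + (2 * (n : ℝ) + 1) * BE + Cw * BH,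
      fun x hx => ?_⟩
    rw [hval x hx]
    obtain ⟨hw1, _⟩ := hwb x hx
    have hs := sqx_pos hx
    have hs1 := br_sq_le_one x
    have hpm : sq x ^ (m + 1) ≤ 1 := pow_le_one₀ hs.le hs1
    have hpm0 : 0 ≤ sq x ^ (m + 1) := pow_nonneg hs.le _
    have hx2 : x ^ (2 * n + 2) ≤ 1 := pow_le_one₀ hx.1.le hx.2.le
    have hx20 : 0 ≤ x ^ (2 * n + 2) := pow_nonneg hx.1.le _
    have hx1 : x ^ (2 * n) ≤ 1 := pow_le_one₀ hx.1.le hx.2.le
    have hx10 : 0 ≤ x ^ (2 * n) := pow_nonneg hx.1.le _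
    have hn0 : (0 : ℝ) ≤ n := Nat.cast_nonneg n
    have hm0 : (0 : ℝ) ≤ m := Nat.cast_nonneg m
    rw [← abs_of_nonneg hpm0, ← abs_mul, add_mul, add_mul]
    refine (abs_add_le _ _).trans (add_le_add ((abs_add_le _ _).trans (add_le_add ?_ ?_)) ?_)
    · rw [abs_mul, abs_mul, abs_mul, abs_of_nonneg hpm0, abs_of_nonneg hx20,
        abs_of_nonneg (by (clear * - hm; positivity) : (0 : ℝ) ≤ (m : ℝ) + 1 + 2 * ((n : ℝ) + 1))]
      have h1 : x ^ (2 * n + 2) * |C (lf τ x)| * sq x ^ (m + 1) ≤ BC := by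
        calc x ^ (2 * n + 2) * |C (lf τ x)| * sq x ^ (m + 1) ≤ 1 * BC * 1 := by
              apply mul_le_mul (mul_le_mul hx2 (bC x hx) (abs_nonneg _) zero_le_one) hpm hpm0
                (by (clear * - hBC; positivity))
          _ = BC := by ring
      calc _ = ((m : ℝ) + 1 + 2 * ((n : ℝ) + 1)) *
            (x ^ (2 * n + 2) * |C (lf τ x)| * sq x ^ (m + 1)) := by ring
        _ ≤ _ := mul_le_mul_of_nonneg_left h1 (by (clear * - hm; positivity))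
    · rw [abs_mul, abs_mul, abs_mul, abs_of_nonneg hpm0, abs_of_nonneg hx10,
        abs_of_nonneg (by (clear * -; positivity) : (0 : ℝ) ≤ 2 * (n : ℝ) + 1)]
      have h1 : x ^ (2 * n) * |Real.exp (-lf τ x) * P (lf τ x)| * sq x ^ (m + 1) ≤ BE := by
        calc x ^ (2 * n) * |Real.exp (-lf τ x) * P (lf τ x)| * sq x ^ (m + 1) ≤ 1 * BE * 1 := by
              apply mul_le_mul (mul_le_mul hx1 (bE x hx) (abs_nonneg _) zero_le_one) hpm hpm0
                (by (clear * - hBE; positivity))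
          _ = BE := by ring
      calc _ = (2 * (n : ℝ) + 1) *
            (x ^ (2 * n) * |Real.exp (-lf τ x) * P (lf τ x)| * sq x ^ (m + 1)) := by ring
        _ ≤ _ := mul_le_mul_of_nonneg_left h1 (by (clear * -; positivity))
    · have e3 : x ^ (2 * n) * sq x ^ 2 * (uf τ τ' x / (1 + uf τ τ' x)) * G' (lf τ x) *
          sq x ^ (m + 1) = (x ^ (2 * n) * sq x ^ 3) *
          ((sq x ^ m * (uf τ τ' x / (1 + uf τ τ' x))) * G' (lf τ x)) := by ring
      rw [e3, abs_mul, abs_mul (sq x ^ m * _), abs_mul (sq x ^ m),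
        abs_of_nonneg (pow_nonneg hs.le m), abs_of_nonneg (by (clear * - hx10 hs; positivity))]
      have h3 : x ^ (2 * n) * sq x ^ 3 ≤ 1 := by
        calc x ^ (2 * n) * sq x ^ 3 ≤ 1 * 1 :=
              mul_le_mul hx1 (pow_le_one₀ hs.le hs1) (pow_nonneg hs.le _) zero_le_one
          _ = 1 := one_mul _
      calc _ ≤ 1 * (Cw * BH) := by
            apply mul_le_mul h3 _ (by (clear * - hs; positivity)) zero_le_one
            exact mul_le_mul hw1 (bH x hx) (abs_nonneg _) hCw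
        _ = Cw * BH := one_mul _

end

/-! ### the functions of `l` for the power `k` -/

/-- intercept function -/
noncomputable def hkC (k l : ℝ) : ℝ :=
  -(1 - 1 / (2 * k)) * Real.exp (-(2 * k * l)) - Real.exp (2 * k * l) / (2 * k) + 1 -
    2 * (k - 1) * l

/-- slope function -/
noncomputable def hkP (k l : ℝ) : ℝ := Real.exp l * (Real.exp (-(2 * k * l)) - 1 + 2 * k * l)

/-- potential -/
noncomputable def hkG (k l : ℝ) : ℝ :=
  (2 * k - 1) / k * (Real.exp (-(2 * k * l)) - 1 + 2 * k * l) - 2 * k * (k - 1) * l ^ 2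

noncomputable def hkG' (k l : ℝ) : ℝ :=
  -(2 * ((2 * k - 1) * (Real.exp (-(2 * k * l)) - 1) + 2 * k * (k - 1) * l))

theorem expk_der (k l : ℝ) :
    HasDerivAt (fun l => Real.exp (-(2 * k * l))) (-(2 * k) * Real.exp (-(2 * k * l))) l := by
  have h := (((hasDerivAt_id l).const_mul (2 * k)).neg).exp
  refine h.congr_deriv ?_
  simp only [_root_.id, Pi.neg_apply]
  ring

theorem expk_der' (k l : ℝ) :
    HasDerivAt (fun l => Real.exp (2 * k * l)) (2 * k * Real.exp (2 * k * l)) l := by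
  have h := ((hasDerivAt_id l).const_mul (2 * k)).exp
  refine h.congr_deriv ?_
  simp only [_root_.id]
  ring

theorem hkG_der {k : ℝ} (hk : 0 < k) (l : ℝ) : HasDerivAt (hkG k) (hkG' k l) l := by
  have h := ((((expk_der k l).sub_const 1).add ((hasDerivAt_id l).const_mul (2 * k))).const_mul
    ((2 * k - 1) / k)).sub ((hasDerivAt_pow 2 l).const_mul (2 * k * (k - 1)))
  refine h.congr_deriv ?_
  unfold hkG'
  simp only [Nat.cast_ofNat, Nat.add_one_sub_one, pow_one]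
  field_simp
  ring

theorem hkC_der {k : ℝ} (hk : 0 < k) (l : ℝ) :
    HasDerivAt (hkC k) (2 * k * hkC k l - hkG' k l) l := by
  have h := ((((expk_der k l).const_mul (-(1 - 1 / (2 * k)))).sub
    ((expk_der' k l).div_const (2 * k))).add_const 1).sub
    ((hasDerivAt_id l).const_mul (2 * (k - 1)))
  refine h.congr_deriv ?_
  unfold hkG' hkC
  field_simp
  ring

theorem hkP_der (k l : ℝ) :
    HasDerivAt (hkP k) ((2 * k - 1) * hkP k l + Real.exp l * hkG' k l) l := by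
  have h := (Real.hasDerivAt_exp l).mul
    (((expk_der k l).sub_const 1).add ((hasDerivAt_id l).const_mul (2 * k)))
  refine h.congr_deriv ?_
  unfold hkG' hkP
  simp only [Pi.add_apply, _root_.id]
  ring

theorem hkC_zero {k : ℝ} (hk : 0 < k) : hkC k 0 = 0 := by
  unfold hkC
  simp only [mul_zero, neg_zero, Real.exp_zero]
  field_simp
  ring

theorem hkP_zero (k : ℝ) : hkP k 0 = 0 := by
  unfold hkP
  simp

theorem hkG_zero (k : ℝ) : hkG k 0 = 0 := by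
  unfold hkG
  simp

theorem hkG'_zero (k : ℝ) : hkG' k 0 = 0 := by
  unfold hkG'
  simp

theorem hkG'_cont (k : ℝ) : Continuous (hkG' k) := by
  unfold hkG'
  fun_prop

/-- cut intercept function -/
theorem cutC_der {k : ℝ} (hk : 0 < k) (l : ℝ) :
    HasDerivAt (cut0 (hkC k)) (2 * k * cut0 (hkC k) l - cut0 (hkG' k) l) l := by
  have h := cut0_hasDerivAt (F := hkC k) (F' := fun l => 2 * k * hkC k l - hkG' k l)
    (hkC_der hk) (hkC_zero hk) (by simp only [hkC_zero hk, hkG'_zero]; ring) l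
  refine h.congr_deriv ?_
  unfold cut0
  split_ifs <;> ring

theorem cutP_der {k : ℝ} (l : ℝ) :
    HasDerivAt (cut0 (hkP k)) ((2 * k - 1) * cut0 (hkP k) l + Real.exp l * cut0 (hkG' k) l) l := by
  have h := cut0_hasDerivAt (F := hkP k) (F' := fun l => (2 * k - 1) * hkP k l +
    Real.exp l * hkG' k l) (hkP_der k) (hkP_zero k)
    (by simp only [hkP_zero, hkG'_zero]; ring) l
  refine h.congr_deriv ?_
  unfold cut0
  split_ifs <;> ring

theorem cutG_der {k : ℝ} (hk : 0 < k) (l : ℝ) :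
    HasDerivAt (cut0 (hkG k)) (cut0 (hkG' k) l) l :=
  cut0_hasDerivAt (hkG_der hk) (hkG_zero k) (hkG'_zero k) l

/-- pointwise functional of the power `k = n + 1`, divided by `x^(2n)` -/
noncomputable def hkT (k m x s l w : ℝ) : ℝ :=
  x ^ 2 * ((2 * k - 1) * (m + 3) / (2 * k) * Real.exp (-(2 * k * l)) -
    (m + 1 + 2 * k) / (2 * k) * Real.exp (2 * k * l) - (m + 2) * (k - 1) / k -
    2 * l * (1 - k * (m + 4))) -
    (2 * k - 1) * (k - 1) / k * s ^ 2 * (Real.exp (-(2 * k * l)) - 1 + 2 * k * l) +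
    2 * k * (k - 1) * l ^ 2 * ((2 * k - 1) * s ^ 2 - (m + 2) * x ^ 2) +
    s ^ 2 * w * (2 * (2 * k - 1) * (Real.exp (-(2 * k * l)) - 1) + 4 * k * (k - 1) * l)

theorem hkT_eq {k m x s l w : ℝ} (hk : 0 < k) (hxs : x ^ 2 = 1 - s ^ 2) :
    (m + 1 + 2 * k) * x ^ 2 * hkC k l + (2 * k - 1) * Real.exp (-l) * hkP k l -
      ((2 * k - 1) * s ^ 2 - (m + 2) * x ^ 2) * hkG k l - s ^ 2 * hkG' k l * w =
    hkT k m x s l w := by
  have he : Real.exp (-l) * hkP k l = Real.exp (-(2 * k * l)) - 1 + 2 * k * l := by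
    unfold hkP
    rw [← mul_assoc, ← Real.exp_add, neg_add_cancel, Real.exp_zero, one_mul]
  rw [mul_assoc (2 * k - 1), he]
  unfold hkC hkG hkG' hkT
  rw [hxs]
  field_simp
  ring

section

variable {m : ℕ} {r τ τ' T : ℝ → ℝ}

/-- **power pair cut at `l = 0`** -/
theorem fcut_pair (n : ℕ) (hm : 4 ≤ m) (hr : IsProf r) (h : IsTrans m r τ τ' T) :
    ∃ c' p' Ψ Ψ' : ℝ → ℝ,
      FPair m τ τ' (fun x => x ^ (2 * n + 2) * cut0 (hkC ((n : ℝ) + 1)) (lf τ x)) c'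
        (fun x => x ^ (2 * n + 1) * cut0 (hkP ((n : ℝ) + 1)) (lf τ x)) p' Ψ Ψ'
        (fun x => x ^ (2 * n) * cut0 (fun l => hkT ((n : ℝ) + 1) m x (sq x) l
          (uf τ τ' x ^ 2 / (1 + uf τ τ' x))) (lf τ x)) := by
  have hk : (0 : ℝ) < (n : ℝ) + 1 := by (clear * -; positivity)
  have h1 := fpow_pair n hm hr h (C := cut0 (hkC ((n : ℝ) + 1))) (P := cut0 (hkP ((n : ℝ) + 1)))
    (G := cut0 (hkG ((n : ℝ) + 1))) (G' := cut0 (hkG' ((n : ℝ) + 1)))
    (fun l => (cutC_der hk l).congr_deriv (by ring))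
    (fun l => (cutP_der l).congr_deriv (by ring)) (cutG_der hk)
    (cut0_continuous (hkG'_cont _) (hkG'_zero _))
  refine ⟨_, _, _, _, ⟨h1.dc, h1.cc, h1.dp, h1.cp, h1.dΨ, fun x hx => ?_, h1.c0, h1.p0, h1.c1,
    h1.Ψ0, h1.Ψ1, h1.int⟩⟩
  refine (h1.id x hx).trans ?_
  congr 2
  rcases le_or_gt (lf τ x) 0 with hl | hl
  · simp only [cut0_nonpos hl, mul_zero, zero_mul, add_zero, sub_zero]
  · simp only [cut0_pos hl]
    rw [← hkT_eq hk (sqx_sq hx)]
    ring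

end

end Vale.Agent.P237.AllN
end

section

/-!
# P237, all dimensions: bridge for the Fisher route, part 4b: the hybrid pair
-/

open MeasureTheory Metric Set Module Filter Topology

namespace Vale.Agent.P237.AllN

/-- intercept of the hybrid correction -/
noncomputable def hybC (x l : ℝ) : ℝ :=
  3 / 4 * (x ^ 4 * cut0 (hkC 2) l) + 5 / 8 * (x ^ 6 * cut0 (hkC 3) l) +
    35 / 64 * (x ^ 8 * cut0 (hkC 4) l) + 63 / 128 * (x ^ 10 * cut0 (hkC 5) l) +
    231 / 512 * (x ^ 12 * cut0 (hkC 6) l)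

/-- slope of the hybrid correction -/
noncomputable def hybP (x l : ℝ) : ℝ :=
  3 / 4 * (x ^ 3 * cut0 (hkP 2) l) + 5 / 8 * (x ^ 5 * cut0 (hkP 3) l) +
    35 / 64 * (x ^ 7 * cut0 (hkP 4) l) + 63 / 128 * (x ^ 9 * cut0 (hkP 5) l) +
    231 / 512 * (x ^ 11 * cut0 (hkP 6) l)

/-- pointwise functional of the hybrid correction, `w = u²/(1+u)` -/
noncomputable def hybT (m x s l w : ℝ) : ℝ :=
  3 / 4 * (x ^ 2 * cut0 (fun l => hkT 2 m x s l w) l) +
    5 / 8 * (x ^ 4 * cut0 (fun l => hkT 3 m x s l w) l) +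
    35 / 64 * (x ^ 6 * cut0 (fun l => hkT 4 m x s l w) l) +
    63 / 128 * (x ^ 8 * cut0 (fun l => hkT 5 m x s l w) l) +
    231 / 512 * (x ^ 10 * cut0 (fun l => hkT 6 m x s l w) l)

theorem hybT_nonpos {m x s l w : ℝ} (hl : l ≤ 0) : hybT m x s l w = 0 := by
  unfold hybT
  simp only [cut0_nonpos hl, mul_zero, add_zero]

theorem hybT_pos {m x s l w : ℝ} (hl : 0 < l) : hybT m x s l w =
    3 / 4 * (x ^ 2 * hkT 2 m x s l w) + 5 / 8 * (x ^ 4 * hkT 3 m x s l w) +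
    35 / 64 * (x ^ 6 * hkT 4 m x s l w) + 63 / 128 * (x ^ 8 * hkT 5 m x s l w) +
    231 / 512 * (x ^ 10 * hkT 6 m x s l w) := by
  unfold hybT
  simp only [cut0_pos hl]

section

variable {m : ℕ} {r τ τ' T : ℝ → ℝ}

theorem fcut_pair' {n a b c : ℕ} {k : ℝ} (hk : k = (n : ℝ) + 1) (ha : a = 2 * n + 2)
    (hb : b = 2 * n + 1) (hc : c = 2 * n) (hm : 4 ≤ m) (hr : IsProf r)
    (h : IsTrans m r τ τ' T) :
    ∃ c' p' Ψ Ψ' : ℝ → ℝ,
      FPair m τ τ' (fun x => x ^ a * cut0 (hkC k) (lf τ x)) c'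
        (fun x => x ^ b * cut0 (hkP k) (lf τ x)) p' Ψ Ψ'
        (fun x => x ^ c * cut0 (fun l => hkT k m x (sq x) l
          (uf τ τ' x ^ 2 / (1 + uf τ τ' x))) (lf τ x)) := by
  subst hk ha hb hc
  exact fcut_pair n hm hr h

/-- **the hybrid pair** (`k = 2, ..., 6`) on top of the log line -/
theorem hyb_pair (hm : 4 ≤ m) (hr : IsProf r) (h : IsTrans m r τ τ' T) :
    ∃ c' p' Ψ Ψ' : ℝ → ℝ,
      FPair m τ τ' (fun x => flc m τ x + hybC x (lf τ x)) c'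
        (fun x => flp m τ x + hybP x (lf τ x)) p' Ψ Ψ'
        (fun x => flT m x (sq x) (lf τ x) (uf τ τ' x) (bg (τ x)) (bg x) +
          hybT m x (sq x) (lf τ x) (uf τ τ' x ^ 2 / (1 + uf τ τ' x))) := by
  obtain ⟨c2, p2, Ψ2, Ψ2', h2⟩ := fcut_pair' (n := 1) (a := 4) (b := 3) (c := 2) (k := 2)
    (by norm_num) rfl rfl rfl hm hr h
  obtain ⟨c3, p3, Ψ3, Ψ3', h3⟩ := fcut_pair' (n := 2) (a := 6) (b := 5) (c := 4) (k := 3)
    (by norm_num) rfl rfl rfl hm hr h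
  obtain ⟨c4, p4, Ψ4, Ψ4', h4⟩ := fcut_pair' (n := 3) (a := 8) (b := 7) (c := 6) (k := 4)
    (by norm_num) rfl rfl rfl hm hr h
  obtain ⟨c5, p5, Ψ5, Ψ5', h5⟩ := fcut_pair' (n := 4) (a := 10) (b := 9) (c := 8) (k := 5)
    (by norm_num) rfl rfl rfl hm hr h
  obtain ⟨c6, p6, Ψ6, Ψ6', h6⟩ := fcut_pair' (n := 5) (a := 12) (b := 11) (c := 10) (k := 6)
    (by norm_num) rfl rfl rfl hm hr h
  exact ⟨_, _, _, _, (fl_pair hm hr h).add (((((h2.smul (3 / 4)).add (h3.smul (5 / 8))).add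
    (h4.smul (35 / 64))).add (h5.smul (63 / 128))).add (h6.smul (231 / 512)))⟩

/-! ### validity -/

theorem kFc_std {x τ l : ℝ} (hx : x ∈ Ioo (0 : ℝ) 1) (hτ : 0 < τ) (hl : τ = x * Real.exp l) :
    kFc τ (x ^ 2 / τ) = 2 * bc0 (sq x) l + x ^ 2 := by
  have hs := sqx_pos hx
  have hxs := sqx_sq hx
  unfold kFc
  rw [gC_std _ _ _ _ hx.1 hτ hl]
  rw [hxs, fK_eq hs, fK1_eq hs]
  unfold bc0
  field_simp
  ring

theorem kFp_std {x τ l : ℝ} (hx : x ∈ Ioo (0 : ℝ) 1) (hτ : 0 < τ) (hl : τ = x * Real.exp l) :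
    kFp τ (x ^ 2 / τ) = τ * (2 * bM0 (sq x) l - (1 - 2 * l)) := by
  have hs := sqx_pos hx
  have hxs := sqx_sq hx
  have hs1 : 0 < 1 - sq x ^ 2 := by
    rw [← hxs]
    exact pow_pos hx.1 2
  have h1 : sq x < 1 := by (by_contra nlg; linarith only [nlg, mul_pos (sub_pos.2 hs) (sub_pos.2 hs1), mul_nonneg (sub_nonneg.2 (not_lt.1 nlg)) (le_of_lt (sub_pos.2 hs)), mul_nonneg (sq_nonneg (sq x : ℝ)) (sub_nonneg.2 (not_lt.1 nlg))])
  unfold kFp
  rw [gD_std _ _ _ hx.1 hτ hl]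
  rw [hxs, fK_eq hs, fK1_eq hs]
  unfold bM0
  have e : (1 - sq x ^ 2) = (1 - sq x) * (1 + sq x) := by ring
  have h2 : (1 - sq x) ≠ 0 := by linarith
  have h3 : (1 + sq x) ≠ 0 := by positivity
  rw [e]
  field_simp
  ring

theorem exp_pow_two_mul {l : ℝ} (k : ℕ) : Real.exp (2 * (k : ℝ) * l) = Real.exp l ^ (2 * k) := by
  rw [← Real.exp_nat_mul]
  push_cast
  rfl

theorem exp_pow_two_mul_neg {l : ℝ} (k : ℕ) :
    Real.exp (-(2 * (k : ℝ) * l)) = Real.exp (-l) ^ (2 * k) := by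
  rw [← Real.exp_nat_mul]
  congr 1
  push_cast
  ring

theorem kHc_std {x τ l : ℝ} (hx : x ∈ Ioo (0 : ℝ) 1) (hτ : 0 < τ) (hl : τ = x * Real.exp l)
    (hl0 : 0 < l) : kHc τ (x ^ 2 / τ) = 2 * bc0 (sq x) l + x ^ 2 + hybC x l := by
  have h0 := kFc_std hx hτ hl
  unfold kFc at h0
  rw [gC_std _ _ _ _ hx.1 hτ hl] at h0
  unfold kHc
  rw [gC_std _ _ _ _ hx.1 hτ hl]
  have hx0 := hx.1
  have hq : x ^ 2 / τ = x * Real.exp (-l) := by
    rw [hl, Real.exp_neg]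
    field_simp
  have e2 := exp_pow_two_mul (l := l) 2
  have e3 := exp_pow_two_mul (l := l) 3
  have e4 := exp_pow_two_mul (l := l) 4
  have e5 := exp_pow_two_mul (l := l) 5
  have e6 := exp_pow_two_mul (l := l) 6
  have g2 := exp_pow_two_mul_neg (l := l) 2
  have g3 := exp_pow_two_mul_neg (l := l) 3
  have g4 := exp_pow_two_mul_neg (l := l) 4
  have g5 := exp_pow_two_mul_neg (l := l) 5
  have g6 := exp_pow_two_mul_neg (l := l) 6
  push_cast at e2 e3 e4 e5 e6 g2 g3 g4 g5 g6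
  unfold hybC
  simp only [cut0_pos hl0]
  unfold hkC
  rw [e2, e3, e4, e5, e6, g2, g3, g4, g5, g6, ← h0, hq, hl]
  unfold hφ hφ1 hK hK1
  ring

theorem kHp_std {x τ l : ℝ} (hx : x ∈ Ioo (0 : ℝ) 1) (hτ : 0 < τ) (hl : τ = x * Real.exp l)
    (hl0 : 0 < l) :
    kHp τ (x ^ 2 / τ) = τ * (2 * bM0 (sq x) l - (1 - 2 * l)) + hybP x l := by
  have h0 := kFp_std hx hτ hl
  unfold kFp at h0
  rw [gD_std _ _ _ hx.1 hτ hl] at h0
  unfold kHp
  rw [gD_std _ _ _ hx.1 hτ hl]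
  have hx0 := hx.1
  have hq : x ^ 2 / τ = x * Real.exp (-l) := by
    rw [hl, Real.exp_neg]
    field_simp
  have hq2 : τ / x ^ 2 = Real.exp l / x := by
    rw [hl]
    field_simp
  have g2 := exp_pow_two_mul_neg (l := l) 2
  have g3 := exp_pow_two_mul_neg (l := l) 3
  have g4 := exp_pow_two_mul_neg (l := l) 4
  have g5 := exp_pow_two_mul_neg (l := l) 5
  have g6 := exp_pow_two_mul_neg (l := l) 6
  push_cast at g2 g3 g4 g5 g6
  unfold hybP
  simp only [cut0_pos hl0]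
  unfold hkP
  rw [g2, g3, g4, g5, g6, ← h0, hq, hq2]
  have hEF : Real.exp l * Real.exp (-l) = 1 := by
    rw [← Real.exp_add, add_neg_cancel, Real.exp_zero]
  have p : ∀ j : ℕ, Real.exp l * Real.exp (-l) ^ (j + 1) = Real.exp (-l) ^ j := by
    intro j
    rw [pow_succ, mul_comm (Real.exp (-l) ^ j), ← mul_assoc, hEF, one_mul]
  have p4 := p 3
  have p6 := p 5
  have p8 := p 7
  have p10 := p 9
  have p12 := p 11
  norm_num at p4 p6 p8 p10 p12
  unfold hφ1 hK hK1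
  set E := Real.exp (-l)
  set F := Real.exp l
  have e : ∀ κ : ℝ, ∀ j : ℕ, F / x * (κ * (x ^ 2) ^ (j + 1)) = κ * (F * x ^ (2 * j + 1)) := by
    intro κ j
    have : (x ^ 2) ^ (j + 1) = x ^ (2 * j + 1) * x := by ring
    rw [this]
    field_simp
  have hx1 : F / x * x = F := by field_simp
  linear_combination (-(3 / 4) * x ^ 3) * p4 + (-(5 / 8) * x ^ 5) * p6 +
    (-(35 / 64) * x ^ 7) * p8 + (-(63 / 128) * x ^ 9) * p10 + (-(231 / 512) * x ^ 11) * p12 +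
    ((-(3 / 4) * x ^ 3 - 5 / 8 * x ^ 5 - 35 / 64 * x ^ 7 - 63 / 128 * x ^ 9 -
      231 / 512 * x ^ 11) + 2 * l * (3 / 4 * 2 * x ^ 3 + 5 / 8 * 3 * x ^ 5 + 35 / 64 * 4 * x ^ 7 +
      63 / 128 * 5 * x ^ 9 + 231 / 512 * 6 * x ^ 11)) * hx1

/-- **validity of the hybrid line with correction** -/
theorem hyb_line_le (h : IsTrans m r τ τ' T) {x : ℝ} (hx : x ∈ Ioo (0 : ℝ) 1) {b : ℝ}
    (hb : b ∈ Icc (-1 : ℝ) 1) :
    (flc m τ x + hybC x (lf τ x)) + (flp m τ x + hybP x (lf τ x)) * b ≤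
      (kF (τ x) b + (bφ m b - bφ m (τ x))) + (bφ m b - bφ m (τ x)) := by
  have ht := tr_pos h hx
  have he := tau_eq_exp h hx
  have h2 := bφ_tangent m (mem_neg (h.mem x hx)) hb
  rcases le_or_gt (lf τ x) 0 with hl | hl
  · have h1 := kF_std_le (l := lf τ x) hx hl hb
    rw [← he, kFc_std hx ht he, kFp_std hx ht he] at h1
    unfold hybC hybP flc flp prc prp
    simp only [cut0_nonpos hl, mul_zero, add_zero]
    linarith
  · have h1 := kH_std_le (l := lf τ x) hx hl.le (by rw [← he]; exact (h.mem x hx).2) hb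
    rw [← he, kHc_std hx ht he hl, kHp_std hx ht he hl] at h1
    unfold flc flp prc prp
    linarith only [h1, h2]

end

end Vale.Agent.P237.AllN
end

section

/-!
# P237, all dimensions: the comparison density `ρ`
-/

open MeasureTheory Metric Set Module Filter Topology

namespace Vale.Agent.P237.AllN

/-- `ρ s^m`, `ρ = (2 + 5 m y + m (m-2) y²)/10`, `y = x²/s²` -/
noncomputable def rhoF (m : ℕ) (x : ℝ) : ℝ :=
  (2 * sq x ^ m + 5 * m * (x ^ 2 * sq x ^ (m - 2)) +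
    m * ((m : ℝ) - 2) * (x ^ 4 * sq x ^ (m - 4))) / 10

theorem rhoF_cont (m : ℕ) : Continuous (rhoF m) := by
  have := br_sq_cont
  unfold rhoF
  fun_prop

theorem rhoF_eq {m : ℕ} (hm : 4 ≤ m) {x : ℝ} (hx : x ∈ Ioo (0 : ℝ) 1) :
    rhoF m x = sq x ^ m * ((2 + 5 * m * (x ^ 2 / sq x ^ 2) +
      m * ((m : ℝ) - 2) * (x ^ 2 / sq x ^ 2) ^ 2) / 10) := by
  have hs := (sqx_pos hx).ne'
  obtain ⟨n, rfl⟩ := Nat.exists_eq_add_of_le' hm
  unfold rhoF
  have e1 : n + 4 - 2 = n + 2 := rfl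
  have e2 : n + 4 - 4 = n := rfl
  rw [e1, e2]
  field_simp
  ring

theorem rhoF_int {m : ℕ} (hm : 4 ≤ m) :
    ∫ x in (0 : ℝ)..1, rhoF m x = ∫ x in (0 : ℝ)..1, sq x ^ m := by
  have hm0 : m ≠ 0 := by omega
  have hc := br_sq_cont
  have h1 : ∫ x in (0 : ℝ)..1, (rhoF m x - sq x ^ m) =
      (-(8 / 10) * (1 * sq 1 ^ m) - m / 10 * (1 ^ 3 * sq 1 ^ (m - 2))) -
      (-(8 / 10) * (0 * sq 0 ^ m) - m / 10 * (0 ^ 3 * sq 0 ^ (m - 2))) := by
    refine intervalIntegral.integral_eq_sub_of_hasDerivAt_of_le zero_le_one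
      (f := fun x => -(8 / 10) * (x * sq x ^ m) - m / 10 * (x ^ 3 * sq x ^ (m - 2)))
      (by fun_prop) (fun x hx => ?_) (((rhoF_cont m).sub (hc.pow m)).intervalIntegrable _ _)
    have hs := sqx_pos hx
    have d1 := xs_der m hx
    have d2 : HasDerivAt (fun x => x ^ 3 * sq x ^ (m - 2))
        (sq x ^ m * (3 * (x ^ 2 / sq x ^ 2) - ((m : ℝ) - 2) * (x ^ 2 / sq x ^ 2) ^ 2)) x := by
      have e := (hasDerivAt_pow 2 x).mul (xs_der (m - 2) hx)
      have e' := e.congr_of_eventuallyEq (f₁ := fun x => x ^ 3 * sq x ^ (m - 2))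
        (Filter.Eventually.of_forall fun t => by
          simp only [Pi.mul_apply]
          ring)
      refine e'.congr_deriv ?_
      obtain ⟨n, rfl⟩ := Nat.exists_eq_add_of_le' hm
      have e1 : n + 4 - 2 = n + 2 := rfl
      rw [e1]
      push_cast
      field_simp
      ring
    refine ((d1.const_mul (-(8 / 10))).sub (d2.const_mul ((m : ℝ) / 10))).congr_deriv ?_
    rw [rhoF_eq hm hx]
    ring
  rw [br_sq_one, zero_pow hm0, zero_pow (by omega : m - 2 ≠ 0)] at h1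
  have hi : IntervalIntegrable (fun x => sq x ^ m) volume 0 1 := (hc.pow m).intervalIntegrable _ _
  rw [intervalIntegral.integral_sub ((rhoF_cont m).intervalIntegrable _ _) hi] at h1
  norm_num at h1
  linarith

end Vale.Agent.P237.AllN
end

section

/-!
# P237, all dimensions: value at the ball of the kernel of the Fisher route
-/

open MeasureTheory Metric Set Module Filter Topology

namespace Vale.Agent.P237.AllN

/-- the correction of the Fisher route keeps the properties of a kernel -/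
theorem Kern2.addφ2 {A : ℝ → ℝ → ℝ} (hA : Kern2 A) (m : ℕ) :
    Kern2 (fun a b => A a b + 2 * (bφ m b - bφ m a)) := by
  have h := Kern2.addφ (Kern2.addφ hA m) m
  have e : (fun a b => A a b + (bφ m b - bφ m a) + (bφ m b - bφ m a)) =
      fun a b => A a b + 2 * (bφ m b - bφ m a) := by
    funext a b
    ring
  rw [e] at h
  exact h

theorem fK_sq {x : ℝ} (hx : x ∈ Ioo (0 : ℝ) 1) :
    fK (x ^ 2) = (1 - sq x) ^ 2 * (2 + sq x) / sq x := by
  rw [sqx_sq hx]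
  exact fK_eq (sqx_pos hx)

theorem fK1_sq {x : ℝ} (hx : x ∈ Ioo (0 : ℝ) 1) :
    fK1 (x ^ 2) = (1 - sq x ^ 3) / sq x ^ 3 := by
  rw [sqx_sq hx]
  exact fK1_eq (sqx_pos hx)

theorem x2_lt_one {x : ℝ} (hx : x ∈ Ioo (0 : ℝ) 1) : x ^ 2 < 1 := by
  nlinarith [hx.1, hx.2]

theorem fK_comp_der {x : ℝ} (hx : x ∈ Ioo (0 : ℝ) 1) :
    HasDerivAt (fun x => fK (x ^ 2)) (fK1 (x ^ 2) * (2 * x)) x := by
  have e0 : HasDerivAt (fun x : ℝ => x ^ 2) (2 * x) x := by simpa using hasDerivAt_pow 2 x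
  exact HasDerivAt.comp_of_eq x (fK_hasDerivAt (x2_lt_one hx)) e0 rfl

theorem bkx_der (m : ℕ) {x : ℝ} (hx : x ∈ Ioo (0 : ℝ) 1) : HasDerivAt (bk m) (bkd m x) x :=
  bk_hasDerivAt m (mem_neg hx)

/-- constant part of the ball pair -/
noncomputable def fbc (m : ℕ) (x : ℝ) : ℝ := -fK (x ^ 2) - 2 * (x * bk m x)

noncomputable def fbc' (m : ℕ) (x : ℝ) : ℝ :=
  -(fK1 (x ^ 2) * (2 * x)) - 2 * (bk m x + x * bkd m x)

/-- slope of the ball pair -/
noncomputable def fbp (m : ℕ) (x : ℝ) : ℝ := fK (x ^ 2) / x + 2 * bk m x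

noncomputable def fbp' (m : ℕ) (x : ℝ) : ℝ :=
  (fK1 (x ^ 2) * (2 * x) * x - fK (x ^ 2)) / x ^ 2 + 2 * bkd m x

/-- primitive -/
noncomputable def fbΨ (m : ℕ) (x : ℝ) : ℝ :=
  2 * (x * sq x ^ m * bg x + bN m x) - x * sq x ^ (m + 2)

noncomputable def fbΨ' (m : ℕ) (x : ℝ) : ℝ :=
  2 * (sq x ^ (m - 1) * (-((m : ℝ) + 1) + ((m : ℝ) + 2 - bgm m) * sq x)) -
    sq x ^ m * (1 - ((m : ℝ) + 3) * x ^ 2)

theorem fbΨ_der {m : ℕ} (hm : 1 ≤ m) {x : ℝ} (hx : x ∈ Ioo (0 : ℝ) 1) :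
    HasDerivAt (fbΨ m) (fbΨ' m x) x := by
  refine (((ball_prim_der hm hx).const_mul 2).sub (xs_der (m + 2) hx)).congr_deriv ?_
  unfold fbΨ'
  have hs := (sqx_pos hx).ne'
  have hxs := sqx_sq hx
  have e : sq x ^ (m + 2) * (1 - ((m + 2 : ℕ) : ℝ) * (x ^ 2 / sq x ^ 2)) =
      sq x ^ m * (1 - ((m : ℝ) + 3) * x ^ 2) := by
    push_cast
    rw [pow_add]
    field_simp
    rw [hxs]
    ring
  rw [e]

theorem fb_identity {m : ℕ} (hm : 1 ≤ m) {x : ℝ} (hx : x ∈ Ioo (0 : ℝ) 1) :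
    fbΨ' m x = (((m : ℝ) + 1) * fbc m x + (x * fbc' m x + fbp' m x) / 1) * sq x ^ m := by
  have hphi := phi_value (m := m) (isTrans_id m) hx
  simp only [mul_one, div_one, one_mul] at hphi
  have hs := (sqx_pos hx).ne'
  have hs0 := sqx_pos hx
  have hxs := sqx_sq hx
  have hx0 := hx.1.ne'
  have e0 : bg x = sq x / (1 + sq x) := rfl
  have hpow : sq x ^ m = sq x ^ (m - 1) * sq x := by
    obtain ⟨n, rfl⟩ := Nat.exists_eq_add_of_le' hm
    rw [Nat.add_sub_cancel, pow_succ]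
  have e1 : ((m : ℝ) + 1) * fbc m x + (x * fbc' m x + fbp' m x) / 1 =
      (-((m : ℝ) + 1) * fK (x ^ 2) + 2 * sq x ^ 2 * fK1 (x ^ 2) - fK (x ^ 2) / x ^ 2) +
      2 * (((m : ℝ) + 1) * (-(x * bk m x)) + (x * (-(bk m x + x * bkd m x)) + bkd m x)) := by
    unfold fbc fbc' fbp'
    field_simp
    rw [show sq x ^ 2 = 1 - x ^ 2 by rw [hxs]; ring]
    ring
  rw [e1, hphi, e0, fK_sq hx, fK1_sq hx]
  have hx2 : x ^ 2 ≠ 0 := pow_ne_zero 2 hx0
  have e2 : (1 - sq x) ^ 2 * (2 + sq x) / sq x / x ^ 2 =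
      (1 - sq x) * (2 + sq x) / (sq x * (1 + sq x)) := by
    rw [div_div, div_eq_div_iff (by positivity) (by positivity), hxs]
    ring
  rw [e2]
  unfold fbΨ'
  rw [hpow, hxs]
  field_simp
  ring

/-- **value at the ball**, Fisher route -/
theorem ball_valueF {m : ℕ} (hm : 4 ≤ m) {A : ℝ → ℝ → ℝ} (hA : Kern2 A)
    (hS : ∀ x ∈ Ioo (0 : ℝ) 1, ∀ b ∈ Icc (-1 : ℝ) 1, -fK (x ^ 2) + fK (x ^ 2) / x * b ≤ A x b) :
    AdmGe m (fun a b => A a b + 2 * (bφ m b - bφ m a)) sq 0 := by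
  have hT := isTrans_id m
  have hr := isProf_sq
  have hK1c : ContinuousOn (fun x : ℝ => fK1 (x ^ 2)) (Ioo 0 1) := fun x hx => by
    have e0 : HasDerivAt (fun x : ℝ => x ^ 2) (2 * x) x := by simpa using hasDerivAt_pow 2 x
    exact (HasDerivAt.comp_of_eq x (fK1_hasDerivAt (x2_lt_one hx)) e0
      rfl).continuousAt.continuousWithinAt
  have hKc : ContinuousOn (fun x : ℝ => fK (x ^ 2)) (Ioo 0 1) := fun x hx =>
    (fK_comp_der hx).continuousAt.continuousWithinAt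
  have hbk : ContinuousOn (bk m) (Ioo 0 1) := fun x hx =>
    (bkx_der m hx).continuousAt.continuousWithinAt
  have hbkd : ContinuousOn (bkd m) (Ioo 0 1) := bkd_tau_cont hT
  have hid : ContinuousOn (fun x : ℝ => x) (Ioo (0 : ℝ) 1) := continuousOn_id
  have hKnn : ∀ x ∈ Ioo (0 : ℝ) 1, 0 ≤ fK (x ^ 2) := fun x hx =>
    (fK_pos (by have := hx.1; positivity) (x2_lt_one hx)).le
  have hKle : ∀ x ∈ Ioo (0 : ℝ) (1 / 2), fK (x ^ 2) ≤ 4 * x ^ 2 := fun x hx => by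
    have hx1 : x ∈ Ioo (0 : ℝ) 1 := ⟨hx.1, by linarith [hx.2]⟩
    have h1 := fK_le (z := x ^ 2) (by have := hx.1; positivity) (x2_lt_one hx1)
    have h2 := sq_half hx
    have h3 : x ^ 2 / Real.sqrt (1 - x ^ 2) ≤ 2 * x ^ 2 := by
      have h4 : Real.sqrt (1 - x ^ 2) = sq x := rfl
      rw [h4, div_le_iff₀ (by linarith)]
      linarith only [mul_nonneg (sub_nonneg.2 h2) (sq_nonneg x)]
    linarith only [h3, h1]
  refine admGe_of_cert0 (m := m) (by omega) (c := fbc m) (c' := fbc' m) (p := fbp m)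
    (p' := fbp' m) (μ := 0) (x₀ := 0) (Ψ := fbΨ m) (Ψ' := fbΨ' m)
    (Kern2.addφ2 hA m) hr hT ?_ ?_ ?_ ?_ ?_ ?_ ?_ ?_ ?_ ?_ ?_ ?_ ?_ ?_ ?_
  · unfold aInt
    rfl
  · intro x hx
    exact ((fK_comp_der hx).neg).sub (((hasDerivAt_id' x).mul (bkx_der m hx)).const_mul 2)
      |>.congr_deriv (by unfold fbc'; ring)
  · unfold fbc'
    exact ((hK1c.mul (continuousOn_const.mul hid)).neg).sub
      (continuousOn_const.mul (hbk.add (hid.mul hbkd)))
  · intro x hx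
    exact ((fK_comp_der hx).div (hasDerivAt_id' x) hx.1.ne').add ((bkx_der m hx).const_mul 2)
      |>.congr_deriv (by unfold fbp'; ring)
  · unfold fbp'
    exact ((((hK1c.mul (continuousOn_const.mul hid)).mul hid).sub hKc).div (hid.pow 2)
      fun x hx => pow_ne_zero 2 hx.1.ne').add (continuousOn_const.mul hbkd)
  · intro x hx b hb
    have h1 := hS x hx b hb
    have h2 := bφ_tangent m (mem_neg hx) hb
    unfold fbc fbp
    linarith only [h2, h1]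
  · refine ⟨3, fun x hx => ?_⟩
    have hx1 : x ∈ Ioo (0 : ℝ) 1 := ⟨hx.1, by linarith [hx.2]⟩
    have h1 := hKle x hx
    have h2 := hKnn x hx1
    have h3 : |x * bk m x| ≤ 1 := by
      rw [abs_mul, abs_of_pos hx.1]
      have := bk_abs_le m x
      nlinarith [hx.1, hx.2, abs_nonneg (bk m x)]
    have h4 := abs_le.1 h3
    have h5 : x ^ 2 ≤ 1 / 4 := by (by_contra nlg; linarith [mul_pos (sub_pos.2 hx.2) (sub_pos.2 hx.2), mul_pos (sub_pos.2 hx.1) (sub_pos.2 hx.2), mul_pos (sub_pos.2 (not_le.1 nlg)) (sub_pos.2 hx.2), mul_pos (sub_pos.2 (not_le.1 nlg)) (sub_pos.2 hx.1)])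
    unfold fbc
    rw [abs_le]
    constructor <;> linarith [h4.1, h4.2]
  · have h1 : Tendsto (fun x : ℝ => 4 * x) (𝓝[>] 0) (𝓝 0) := by
      have : Tendsto (fun x : ℝ => 4 * x) (𝓝 0) (𝓝 (4 * 0)) :=
        (continuous_const.mul continuous_id).tendsto 0
      rw [mul_zero] at this
      exact this.mono_left nhdsWithin_le_nhds
    have h2 : Tendsto (fun x => fK (x ^ 2) / x) (𝓝[>] 0) (𝓝 0) := by
      refine squeeze_zero' ?_ ?_ h1
      · filter_upwards [Ioo_mem_nhdsGT (zero_lt_one' ℝ)] with x hx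
        exact div_nonneg (hKnn x hx) hx.1.le
      · filter_upwards [Ioo_mem_nhdsGT (by norm_num : (0 : ℝ) < 1 / 2)] with x hx
        rw [div_le_iff₀ hx.1]
        have := hKle x hx
        linarith
    have h3 := (bk_tau_tendsto (m := m) (by omega) hr hT).const_mul 2
    rw [mul_zero] at h3
    have := h2.add h3
    rw [add_zero] at this
    exact this
  · have h2 : Tendsto (fun x => 5 * sq x) (𝓝[<] 1) (𝓝 0) := by
      have := sq_tendsto_one.const_mul 5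
      rwa [mul_zero] at this
    refine squeeze_zero_norm' ?_ h2
    filter_upwards [Ioo_mem_nhdsLT (zero_lt_one' ℝ)] with x hx
    have hs := sqx_pos hx
    have hs1 := br_sq_le_one x
    have e : sq x ^ (m + 2) * fbc m x = -(sq x * (sq x ^ m * ((1 - sq x) ^ 2 * (2 + sq x)))) -
        2 * (sq x * (sq x ^ (m + 1) * (x * bk m x))) := by
      unfold fbc
      rw [fK_sq hx, pow_add, pow_succ]
      field_simp
      ring
    have p : ∀ k : ℕ, |sq x ^ k| ≤ 1 := fun k => by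
      rw [abs_of_nonneg (pow_nonneg hs.le k)]
      exact pow_le_one₀ hs.le hs1
    have b1 : |sq x ^ m * ((1 - sq x) ^ 2 * (2 + sq x))| ≤ 3 := by
      rw [abs_mul]
      have h5 : |(1 - sq x) ^ 2 * (2 + sq x)| ≤ 3 := by
        rw [abs_of_nonneg (by positivity)]
        have h6 : (1 - sq x) ^ 2 ≤ 1 := by (by_contra nlg; linarith [mul_nonneg (le_of_lt (sub_pos.2 hs)) (sub_nonneg.2 hs1), mul_pos (sub_pos.2 hs) (sub_pos.2 hs), mul_nonneg (le_of_lt (sub_pos.2 (not_le.1 nlg))) (sub_nonneg.2 hs1), mul_pos (sub_pos.2 (not_le.1 nlg)) (sub_pos.2 hs)])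
        (by_contra nlg; linarith [mul_nonneg (sub_nonneg.2 h6) (sq_nonneg (1 - sq x)), mul_nonneg (sub_nonneg.2 h6) (sub_nonneg.2 h6), mul_nonneg (le_of_lt (sub_pos.2 hs)) (sub_nonneg.2 h6), mul_nonneg (le_of_lt (sub_pos.2 hs)) (sub_nonneg.2 hs1), mul_nonneg (le_of_lt (sub_pos.2 (not_le.1 nlg))) (sq_nonneg (1 - sq x)), mul_nonneg (le_of_lt (sub_pos.2 (not_le.1 nlg))) (sub_nonneg.2 h6)])
      calc |sq x ^ m| * |(1 - sq x) ^ 2 * (2 + sq x)| ≤ 1 * 3 :=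
            mul_le_mul (p m) h5 (abs_nonneg _) zero_le_one
        _ = 3 := one_mul 3
    have b2 : |sq x ^ (m + 1) * (x * bk m x)| ≤ 1 := by
      rw [abs_mul, abs_mul, abs_of_pos hx.1]
      have h4 := bk_abs_le m x
      have h6 : x * |bk m x| ≤ 1 := by (by_contra nlg; linarith only [nlg, mul_pos (sub_pos.2 hx.2) (sub_pos.2 hx.2), mul_pos (sub_pos.2 hx.1) (sub_pos.2 hx.2), mul_nonneg (sub_nonneg.2 h4) (le_of_lt (sub_pos.2 hx.1)), mul_pos (sub_pos.2 (not_le.1 nlg)) (sub_pos.2 hx.2), mul_pos (sub_pos.2 (not_le.1 nlg)) (sub_pos.2 hx.1)])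
      calc |sq x ^ (m + 1)| * (x * |bk m x|) ≤ 1 * 1 :=
            mul_le_mul (p _) h6 (mul_nonneg hx.1.le (abs_nonneg _)) zero_le_one
        _ = 1 := one_mul 1
    rw [Real.norm_eq_abs, e]
    refine (abs_sub _ _).trans ?_
    have c1 : |-(sq x * (sq x ^ m * ((1 - sq x) ^ 2 * (2 + sq x))))| ≤ sq x * 3 := by
      rw [abs_neg, abs_mul, abs_of_pos hs]
      exact mul_le_mul_of_nonneg_left b1 hs.le
    have c2 : |2 * (sq x * (sq x ^ (m + 1) * (x * bk m x)))| ≤ 2 * (sq x * 1) := by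
      rw [abs_mul, abs_two, abs_mul, abs_of_pos hs]
      exact mul_le_mul_of_nonneg_left (mul_le_mul_of_nonneg_left b2 hs.le) two_pos.le
    linarith only [c2, c1]
  · exact le_rfl
  · exact fun x hx => (fbΨ_der (by omega) hx).continuousAt.continuousWithinAt
  · exact fun x hx _ => fbΨ_der (by omega) hx
  · have hc : Continuous (fbΨ m) := by
      have h1 := br_sq_cont
      have h2 := bg_cont
      have h3 := bN_cont m
      unfold fbΨ
      fun_prop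
    have := hc.tendsto 0
    have e : fbΨ m 0 = 0 := by unfold fbΨ; rw [bN_zero]; simp
    rw [e] at this
    exact this.mono_left nhdsWithin_le_nhds
  · have hc : Continuous (fbΨ m) := by
      have h1 := br_sq_cont
      have h2 := bg_cont
      have h3 := bN_cont m
      unfold fbΨ
      fun_prop
    have := hc.tendsto 1
    have e : fbΨ m 1 = 0 := by
      unfold fbΨ
      rw [bN_one, br_sq_one, zero_pow (by omega : m ≠ 0), zero_pow (by omega : m + 2 ≠ 0)]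
      simp
    rw [e] at this
    exact this.mono_left nhdsWithin_le_nhds
  · intro x hx _
    rw [zero_mul, add_zero, fb_identity (by omega) hx]

/-- the kernel of the Fisher route -/
theorem ball_value_kF {m : ℕ} (hm : 4 ≤ m) :
    AdmGe m (fun a b => (kF a b + (bφ m b - bφ m a)) + (bφ m b - bφ m a)) sq 0 := by
  have e : (fun a b => (kF a b + (bφ m b - bφ m a)) + (bφ m b - bφ m a)) =
      fun a b => kF a b + 2 * (bφ m b - bφ m a) := by
    funext a b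
    ring
  rw [e]
  refine ball_valueF hm kF_kern2 fun x hx b hb => ?_
  have hx0 := hx.1
  have h1 := kFq_le (a := x) (q := x) hx.1 hx.2 hx.1 (by (by_contra nlg; linarith only [nlg, mul_pos (sub_pos.2 hx.2) (sub_pos.2 hx.2), mul_pos (sub_pos.2 hx0) (sub_pos.2 hx.2), mul_nonneg (sub_nonneg.2 (not_lt.1 nlg)) (le_of_lt (sub_pos.2 hx.2)), mul_nonneg (sub_nonneg.2 (not_lt.1 nlg)) (le_of_lt (sub_pos.2 hx0))]))
    (kFp_nonneg_of_le hx.1 le_rfl (by nlinarith [hx.2])) hb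
  have e1 : kFc x x = -fK (x ^ 2) := by
    unfold kFc gC gV gD
    rw [div_self hx0.ne', Real.log_one, show x * x = x ^ 2 by ring]
    field_simp
    ring
  have e2 : kFp x x = fK (x ^ 2) / x := by
    unfold kFp gD
    rw [div_self hx0.ne', Real.log_one, show x * x = x ^ 2 by ring]
    ring
  rw [e1, e2] at h1
  exact h1

end Vale.Agent.P237.AllN
end
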