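import Vale.Agent.P237.Bd3.B10
import Vale.Agent.P237.Bd3.B13
import Vale.Agent.P237.Bd3.B12
import Vale.Agent.P237.Bd3.B3

set_option linter.all false

section

/-!
# P237, block D, `l > 0`: lower bounds of the kernel part of `T`
-/

open Finset

namespace Vale.Agent.P237.AllN

open PolyPos

/-! ## range `l ≤ 19 / 40` -/

theorem ks_h_two_e {l : ℝ} (h0 : 0 ≤ l) (h1 : l ≤ 19 / 40) :
    3 * kpt (4 * l) + kct (4 * l) ≤ l ^ 3 * (128 / 3 - 210091 / 10000 * l + 30773 / 1000 * l ^ 2) := by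
  have h := ks_polyL (A := 19) (D := 40) (q := padd (psm (1260 ^ 2) [-60000, 480000, -480000, 1280000, -630273, 923190])
    (padd (psm 90000 (ppow kAL 2)) (psm (-30000) (ppow kBH 2)))) (by norm_num) (by norm_num)
    h0 (by push_cast; linarith) (by (clear * -; decide +kernel))
  have hE := ks_E_ge' 2 h0 (by linarith only [h1])
  have hB := ks_B_le' 2 h0 (by linarith)
  rw [ev1_padd, ev1_padd, ev1_psm, ev1_psm, ev1_psm, ev1_ppow, ev1_ppow] at h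
  simp only [ev1_cons, ev1_nil] at h
  rw [show -(2 * ((2 : ℕ) : ℝ) * l) = -(4 * l) by push_cast; ring] at hE
  rw [show 2 * ((2 : ℕ) : ℝ) * l = 4 * l by push_cast; ring] at hB
  generalize ev1 kAL l ^ 2 = A at *
  generalize ev1 kBH l ^ 2 = B at *
  push_cast at h
  simp only [kpt, kct]
  linarith only [h, hB, hE]

theorem ks_p_two_e {l : ℝ} (h0 : 0 ≤ l) (h1 : l ≤ 19 / 40) :
    l ^ 3 * (32 / 3 - 1067 / 100 * l + 6427 / 1000 * l ^ 2) ≤ kpt (4 * l) := by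
  have h := ks_polyL (A := 19) (D := 40) (q := padd (psm (1260 ^ 2) [3000, -12000, 24000, -32000, 32010, -19281])
    (psm (-3000) (ppow kAH 2))) (by norm_num) (by norm_num)
    h0 (by push_cast; linarith) (by (clear * -; decide +kernel))
  have hE := ks_E_le' 2 h0 (by linarith only [h1])
  rw [ev1_padd, ev1_psm, ev1_psm, ev1_ppow] at h
  simp only [ev1_cons, ev1_nil] at h
  rw [show -(2 * ((2 : ℕ) : ℝ) * l) = -(4 * l) by push_cast; ring] at hE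
  generalize ev1 kAH l ^ 2 = A at *
  push_cast at h
  simp only [kpt]
  linarith only [h, hE]

theorem ks_e_two_e {l : ℝ} (h0 : 0 ≤ l) (h1 : l ≤ 19 / 40) :
    l * (-16 + 40763 / 1000 * l - 27059 / 1000 * l ^ 2) ≤ 6 * (Real.exp (-(4 * l)) - 1) + 8 * l := by
  have h := ks_polyL (A := 19) (D := 40) (q := padd (psm (1260 ^ 2) [-6000, 24000, -40763, 27059])
    (psm 6000 (ppow kAL 2))) (by norm_num) (by norm_num)
    h0 (by push_cast; linarith only [h1]) (by (clear * -; decide +kernel))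
  have hE := ks_E_ge' 2 h0 (by linarith only [h1])
  rw [ev1_padd, ev1_psm, ev1_psm, ev1_ppow] at h
  simp only [ev1_cons, ev1_nil] at h
  rw [show -(2 * ((2 : ℕ) : ℝ) * l) = -(4 * l) by push_cast; ring] at hE
  generalize ev1 kAL l ^ 2 = A at *
  push_cast at h
  linarith only [h, hE]

theorem ks_h_three_e {l : ℝ} (h0 : 0 ≤ l) (h1 : l ≤ 19 / 40) :
    5 * kpt (6 * l) + kct (6 * l) ≤ l ^ 3 * (216 - 104699 / 500 * l + 7914 / 25 * l ^ 2) := by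
  have h := ks_polyL (A := 19) (D := 40) (q := padd (psm (1260 ^ 3) [-2000, 18000, -36000, 108000, -104699, 158280])
    (padd (psm 2500 (ppow kAL 3)) (psm (-500) (ppow kBH 3)))) (by norm_num) (by norm_num)
    h0 (by push_cast; linarith) (by (clear * -; decide +kernel))
  have hE := ks_E_ge' 3 h0 (by linarith only [h1])
  have hB := ks_B_le' 3 h0 (by linarith)
  rw [ev1_padd, ev1_padd, ev1_psm, ev1_psm, ev1_psm, ev1_ppow, ev1_ppow] at h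
  simp only [ev1_cons, ev1_nil] at h
  rw [show -(2 * ((3 : ℕ) : ℝ) * l) = -(6 * l) by push_cast; ring] at hE
  rw [show 2 * ((3 : ℕ) : ℝ) * l = 6 * l by push_cast; ring] at hB
  generalize ev1 kAL l ^ 3 = A at *
  generalize ev1 kBH l ^ 3 = B at *
  push_cast at h
  simp only [kpt, kct]
  linarith only [h, hB, hE]

theorem ks_p_three_e {l : ℝ} (h0 : 0 ≤ l) (h1 : l ≤ 19 / 40) :
    l ^ 3 * (36 - 5401 / 100 * l + 21601 / 500 * l ^ 2) ≤ kpt (6 * l) := by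
  have h := ks_polyL (A := 19) (D := 40) (q := padd (psm (1260 ^ 3) [500, -3000, 9000, -18000, 27005, -21601])
    (psm (-500) (ppow kAH 3))) (by norm_num) (by norm_num)
    h0 (by push_cast; linarith) (by (clear * -; decide +kernel))
  have hE := ks_E_le' 3 h0 (by linarith only [h1])
  rw [ev1_padd, ev1_psm, ev1_psm, ev1_ppow] at h
  simp only [ev1_cons, ev1_nil] at h
  rw [show -(2 * ((3 : ℕ) : ℝ) * l) = -(6 * l) by push_cast; ring] at hE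
  generalize ev1 kAH l ^ 3 = A at *
  push_cast at h
  simp only [kpt]
  linarith

theorem ks_e_three_e {l : ℝ} (h0 : 0 ≤ l) (h1 : l ≤ 19 / 40) :
    l * (-36 + 16833 / 125 * l - 13186 / 125 * l ^ 2) ≤ 10 * (Real.exp (-(6 * l)) - 1) + 24 * l := by
  have h := ks_polyL (A := 19) (D := 40) (q := padd (psm (1260 ^ 3) [-1250, 7500, -16833, 13186])
    (psm 1250 (ppow kAL 3))) (by norm_num) (by norm_num)
    h0 (by push_cast; linarith) (by (clear * -; decide +kernel))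
  have hE := ks_E_ge' 3 h0 (by linarith only [h1])
  rw [ev1_padd, ev1_psm, ev1_psm, ev1_ppow] at h
  simp only [ev1_cons, ev1_nil] at h
  rw [show -(2 * ((3 : ℕ) : ℝ) * l) = -(6 * l) by push_cast; ring] at hE
  generalize ev1 kAL l ^ 3 = A at *
  push_cast at h
  linarith

theorem ks_h_four_e {l : ℝ} (h0 : 0 ≤ l) (h1 : l ≤ 19 / 40) :
    7 * kpt (8 * l) + kct (8 * l) ≤ l ^ 3 * (2048 / 3 - 985499 / 1000 * l + 41843 / 25 * l ^ 2) := by
  have h := ks_polyL (A := 19) (D := 40) (q := padd (psm (1260 ^ 4) [-18000, 192000, -576000, 2048000, -2956497, 5021160])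
    (padd (psm 21000 (ppow kAL 4)) (psm (-3000) (ppow kBH 4)))) (by norm_num) (by norm_num)
    h0 (by push_cast; (clear * - h1; linarith)) (by (clear * -; decide +kernel))
  have hE := ks_E_ge' 4 h0 (by linarith only [h1])
  have hB := ks_B_le' 4 h0 (by linarith)
  rw [ev1_padd, ev1_padd, ev1_psm, ev1_psm, ev1_psm, ev1_ppow, ev1_ppow] at h
  simp only [ev1_cons, ev1_nil] at h
  rw [show -(2 * ((4 : ℕ) : ℝ) * l) = -(8 * l) by push_cast; ring] at hE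
  rw [show 2 * ((4 : ℕ) : ℝ) * l = 8 * l by push_cast; ring] at hB
  generalize ev1 kAL l ^ 4 = A at *
  generalize ev1 kBH l ^ 4 = B at *
  push_cast at h
  simp only [kpt, kct]
  linarith only [h, hB, hE]

theorem ks_p_four_e {l : ℝ} (h0 : 0 ≤ l) (h1 : l ≤ 19 / 40) :
    l ^ 3 * (256 / 3 - 17067 / 100 * l + 4074 / 25 * l ^ 2) ≤ kpt (8 * l) := by
  have h := ks_polyL (A := 19) (D := 40) (q := padd (psm (1260 ^ 4) [300, -2400, 9600, -25600, 51201, -48888])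
    (psm (-300) (ppow kAH 4))) (by norm_num) (by norm_num)
    h0 (by push_cast; (clear * - h1; linarith)) (by (clear * -; decide +kernel))
  have hE := ks_E_le' 4 h0 (by linarith only [h1])
  rw [ev1_padd, ev1_psm, ev1_psm, ev1_ppow] at h
  simp only [ev1_cons, ev1_nil] at h
  rw [show -(2 * ((4 : ℕ) : ℝ) * l) = -(8 * l) by push_cast; ring] at hE
  generalize ev1 kAH l ^ 4 = A at *
  push_cast at h
  simp only [kpt]
  linarith only [h, hE]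

theorem ks_e_four_e {l : ℝ} (h0 : 0 ≤ l) (h1 : l ≤ 19 / 40) :
    l * (-64 + 14743 / 50 * l - 25209 / 100 * l ^ 2) ≤ 14 * (Real.exp (-(8 * l)) - 1) + 48 * l := by
  have h := ks_polyL (A := 19) (D := 40) (q := padd (psm (1260 ^ 4) [-1400, 11200, -29486, 25209])
    (psm 1400 (ppow kAL 4))) (by norm_num) (by norm_num)
    h0 (by push_cast; linarith) (by (clear * -; decide +kernel))
  have hE := ks_E_ge' 4 h0 (by linarith only [h1])
  rw [ev1_padd, ev1_psm, ev1_psm, ev1_ppow] at h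
  simp only [ev1_cons, ev1_nil] at h
  rw [show -(2 * ((4 : ℕ) : ℝ) * l) = -(8 * l) by push_cast; ring] at hE
  generalize ev1 kAL l ^ 4 = A at *
  push_cast at h
  linarith

theorem ks_h_five_e {l : ℝ} (h0 : 0 ≤ l) (h1 : l ≤ 19 / 40) :
    9 * kpt (10 * l) + kct (10 * l) ≤ l ^ 3 * (5000 / 3 - 321097 / 100 * l + 31244 / 5 * l ^ 2) := by
  have h := ks_polyL (A := 19) (D := 40) (q := padd (psm (1260 ^ 5) [-2400, 30000, -120000, 500000, -963291, 1874640])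
    (padd (psm 2700 (ppow kAL 5)) (psm (-300) (ppow kBH 5)))) (by norm_num) (by norm_num)
    h0 (by push_cast; linarith only [h1]) (by (clear * -; decide +kernel))
  have hE := ks_E_ge' 5 h0 (by linarith only [h1])
  have hB := ks_B_le' 5 h0 (by linarith)
  rw [ev1_padd, ev1_padd, ev1_psm, ev1_psm, ev1_psm, ev1_ppow, ev1_ppow] at h
  simp only [ev1_cons, ev1_nil] at h
  rw [show -(2 * ((5 : ℕ) : ℝ) * l) = -(10 * l) by push_cast; ring] at hE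
  rw [show 2 * ((5 : ℕ) : ℝ) * l = 10 * l by push_cast; ring] at hB
  generalize ev1 kAL l ^ 5 = A at *
  generalize ev1 kBH l ^ 5 = B at *
  push_cast at h
  simp only [kpt, kct]
  linarith

theorem ks_p_five_e {l : ℝ} (h0 : 0 ≤ l) (h1 : l ≤ 19 / 40) :
    l ^ 3 * (500 / 3 - 41667 / 100 * l + 449607 / 1000 * l ^ 2) ≤ kpt (10 * l) := by
  have h := ks_polyL (A := 19) (D := 40) (q := padd (psm (1260 ^ 5) [3000, -30000, 150000, -500000, 1250010, -1348821])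
    (psm (-3000) (ppow kAH 5))) (by norm_num) (by norm_num)
    h0 (by push_cast; linarith only [h1]) (by (clear * -; decide +kernel))
  have hE := ks_E_le' 5 h0 (by linarith only [h1])
  rw [ev1_padd, ev1_psm, ev1_psm, ev1_ppow] at h
  simp only [ev1_cons, ev1_nil] at h
  rw [show -(2 * ((5 : ℕ) : ℝ) * l) = -(10 * l) by push_cast; ring] at hE
  generalize ev1 kAH l ^ 5 = A at *
  push_cast at h
  simp only [kpt]
  linarith

theorem ks_e_five_e {l : ℝ} (h0 : 0 ≤ l) (h1 : l ≤ 19 / 40) :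
    l * (-100 + 52391 / 100 * l - 47169 / 100 * l ^ 2) ≤ 18 * (Real.exp (-(10 * l)) - 1) + 80 * l := by
  have h := ks_polyL (A := 19) (D := 40) (q := padd (psm (1260 ^ 5) [-1800, 18000, -52391, 47169])
    (psm 1800 (ppow kAL 5))) (by norm_num) (by norm_num)
    h0 (by push_cast; linarith only [h1]) (by (clear * -; decide +kernel))
  have hE := ks_E_ge' 5 h0 (by linarith only [h1])
  rw [ev1_padd, ev1_psm, ev1_psm, ev1_ppow] at h
  simp only [ev1_cons, ev1_nil] at h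
  rw [show -(2 * ((5 : ℕ) : ℝ) * l) = -(10 * l) by push_cast; ring] at hE
  generalize ev1 kAL l ^ 5 = A at *
  push_cast at h
  linarith

theorem ks_h_six_e {l : ℝ} (h0 : 0 ≤ l) (h1 : l ≤ 19 / 40) :
    11 * kpt (12 * l) + kct (12 * l) ≤ l ^ 3 * (3456 - 839027 / 100 * l + 190079 / 10 * l ^ 2) := by
  have h := ks_polyL (A := 19) (D := 40) (q := padd (psm (1260 ^ 6) [-1000, 14400, -72000, 345600, -839027, 1900790])
    (padd (psm 1100 (ppow kAL 6)) (psm (-100) (ppow kBH 6)))) (by norm_num) (by norm_num)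
    h0 (by push_cast; (clear * - h1; linarith)) (by (clear * -; decide +kernel))
  have hE := ks_E_ge' 6 h0 (by linarith only [h1])
  have hB := ks_B_le' 6 h0 (by linarith)
  rw [ev1_padd, ev1_padd, ev1_psm, ev1_psm, ev1_psm, ev1_ppow, ev1_ppow] at h
  simp only [ev1_cons, ev1_nil] at h
  rw [show -(2 * ((6 : ℕ) : ℝ) * l) = -(12 * l) by push_cast; ring] at hE
  rw [show 2 * ((6 : ℕ) : ℝ) * l = 12 * l by push_cast; ring] at hB
  generalize ev1 kAL l ^ 6 = A at *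
  generalize ev1 kBH l ^ 6 = B at *
  push_cast at h
  simp only [kpt, kct]
  linarith

theorem ks_p_six_e {l : ℝ} (h0 : 0 ≤ l) (h1 : l ≤ 19 / 40) :
    l ^ 3 * (288 - 86401 / 100 * l + 509909 / 500 * l ^ 2) ≤ kpt (12 * l) := by
  have h := ks_polyL (A := 19) (D := 40) (q := padd (psm (1260 ^ 6) [500, -6000, 36000, -144000, 432005, -509909])
    (psm (-500) (ppow kAH 6))) (by norm_num) (by norm_num)
    h0 (by push_cast; linarith) (by (clear * -; decide +kernel))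
  have hE := ks_E_le' 6 h0 (by linarith only [h1])
  rw [ev1_padd, ev1_psm, ev1_psm, ev1_ppow] at h
  simp only [ev1_cons, ev1_nil] at h
  rw [show -(2 * ((6 : ℕ) : ℝ) * l) = -(12 * l) by push_cast; ring] at hE
  generalize ev1 kAH l ^ 6 = A at *
  push_cast at h
  simp only [kpt]
  linarith

theorem ks_e_six_e {l : ℝ} (h0 : 0 ≤ l) (h1 : l ≤ 19 / 40) :
    l * (-144 + 82189 / 100 * l - 38241 / 50 * l ^ 2) ≤ 22 * (Real.exp (-(12 * l)) - 1) + 120 * l := by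
  have h := ks_polyL (A := 19) (D := 40) (q := padd (psm (1260 ^ 6) [-2200, 26400, -82189, 76482])
    (psm 2200 (ppow kAL 6))) (by norm_num) (by norm_num)
    h0 (by push_cast; linarith) (by (clear * -; decide +kernel))
  have hE := ks_E_ge' 6 h0 (by linarith only [h1])
  rw [ev1_padd, ev1_psm, ev1_psm, ev1_ppow] at h
  simp only [ev1_cons, ev1_nil] at h
  rw [show -(2 * ((6 : ℕ) : ℝ) * l) = -(12 * l) by push_cast; ring] at hE
  generalize ev1 kAL l ^ 6 = A at *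
  push_cast at h
  linarith

/-- cubic remainder, `w = m z` -/
noncomputable def kD_e (w z l : ℝ) : ℝ :=
  3 / 16 * ((w + 5 * z) * (128 / 3 - 210091 / 10000 * l + 30773 / 1000 * l ^ 2) - 6 * (32 / 3 - 1067 / 100 * l + 6427 / 1000 * l ^ 2)) +
  5 / 48 * z * ((w + 7 * z) * (216 - 104699 / 500 * l + 7914 / 25 * l ^ 2) - 20 * (36 - 5401 / 100 * l + 21601 / 500 * l ^ 2)) +
  35 / 512 * z ^ 2 * ((w + 9 * z) * (2048 / 3 - 985499 / 1000 * l + 41843 / 25 * l ^ 2) - 42 * (256 / 3 - 17067 / 100 * l + 4074 / 25 * l ^ 2)) +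
  63 / 1280 * z ^ 3 * ((w + 11 * z) * (5000 / 3 - 321097 / 100 * l + 31244 / 5 * l ^ 2) - 72 * (500 / 3 - 41667 / 100 * l + 449607 / 1000 * l ^ 2)) +
  77 / 2048 * z ^ 4 * ((w + 13 * z) * (3456 - 839027 / 100 * l + 190079 / 10 * l ^ 2) - 110 * (288 - 86401 / 100 * l + 509909 / 500 * l ^ 2))

theorem dpS0_ge_e {m z l : ℝ} (hm : 0 ≤ m) (hz : 0 ≤ z) (h0 : 0 ≤ l) (h1 : l ≤ 19 / 40) :
    -(l ^ 3 * z * kD_e (m * z) z l) ≤ dpS0 m z l := by
  have a2 := ks_h_two_e h0 h1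
  have b2 := ks_p_two_e h0 h1
  have a3 := ks_h_three_e h0 h1
  have b3 := ks_p_three_e h0 h1
  have a4 := ks_h_four_e h0 h1
  have b4 := ks_p_four_e h0 h1
  have a5 := ks_h_five_e h0 h1
  have b5 := ks_p_five_e h0 h1
  have a6 := ks_h_six_e h0 h1
  have b6 := ks_p_six_e h0 h1
  have c2 : 3 / 16 * z * (6 * (l ^ 3 * (32 / 3 - 1067 / 100 * l + 6427 / 1000 * l ^ 2)) - (m + 5) * z * (l ^ 3 * (128 / 3 - 210091 / 10000 * l + 30773 / 1000 * l ^ 2))) ≤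
      3 / 16 * z * (3 * (2 - (m + 5) * z) * kpt (4 * l) - (m + 5) * z * kct (4 * l)) := by
    apply mul_le_mul_of_nonneg_left _ (by (clear * - hz; positivity))
    have d1 := mul_le_mul_of_nonneg_left a2 (by positivity : 0 ≤ (m + 5) * z)
    linarith only [b2, d1]
  have c3 : 5 / 48 * z ^ 2 * (20 * (l ^ 3 * (36 - 5401 / 100 * l + 21601 / 500 * l ^ 2)) - (m + 7) * z * (l ^ 3 * (216 - 104699 / 500 * l + 7914 / 25 * l ^ 2))) ≤
      5 / 48 * z ^ 2 * (5 * (4 - (m + 7) * z) * kpt (6 * l) - (m + 7) * z * kct (6 * l)) := by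
    apply mul_le_mul_of_nonneg_left _ (by (clear * -; positivity))
    have d1 := mul_le_mul_of_nonneg_left a3 (by positivity : 0 ≤ (m + 7) * z)
    (clear * - b3 d1; linarith)
  have c4 : 35 / 512 * z ^ 3 * (42 * (l ^ 3 * (256 / 3 - 17067 / 100 * l + 4074 / 25 * l ^ 2)) - (m + 9) * z * (l ^ 3 * (2048 / 3 - 985499 / 1000 * l + 41843 / 25 * l ^ 2))) ≤
      35 / 512 * z ^ 3 * (7 * (6 - (m + 9) * z) * kpt (8 * l) - (m + 9) * z * kct (8 * l)) := by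
    apply mul_le_mul_of_nonneg_left _ (by (clear * - hz; positivity))
    have d1 := mul_le_mul_of_nonneg_left a4 (by (clear * - hm hz; positivity) : 0 ≤ (m + 9) * z)
    linarith only [b4, d1]
  have c5 : 63 / 1280 * z ^ 4 * (72 * (l ^ 3 * (500 / 3 - 41667 / 100 * l + 449607 / 1000 * l ^ 2)) - (m + 11) * z * (l ^ 3 * (5000 / 3 - 321097 / 100 * l + 31244 / 5 * l ^ 2))) ≤
      63 / 1280 * z ^ 4 * (9 * (8 - (m + 11) * z) * kpt (10 * l) - (m + 11) * z * kct (10 * l)) := by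
    apply mul_le_mul_of_nonneg_left _ (by (clear * -; positivity))
    have d1 := mul_le_mul_of_nonneg_left a5 (by positivity : 0 ≤ (m + 11) * z)
    linarith only [b5, d1]
  have c6 : 77 / 2048 * z ^ 5 * (110 * (l ^ 3 * (288 - 86401 / 100 * l + 509909 / 500 * l ^ 2)) - (m + 13) * z * (l ^ 3 * (3456 - 839027 / 100 * l + 190079 / 10 * l ^ 2))) ≤
      77 / 2048 * z ^ 5 * (11 * (10 - (m + 13) * z) * kpt (12 * l) - (m + 13) * z * kct (12 * l)) := by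
    apply mul_le_mul_of_nonneg_left _ (by (clear * - hz; positivity))
    have d1 := mul_le_mul_of_nonneg_left a6 (by positivity : 0 ≤ (m + 13) * z)
    linarith only [b6, d1]
  simp only [kD_e, dpS0]
  linarith only [c2, c3, c4, c5, c6]

def exK1_e (W : Ex) : Ex :=
  Ex.X * (Ex.c ⟨1007, 99⟩ + Ex.c ⟨141, 9⟩ * exZ + Ex.c ⟨733, 9⟩ * (exZ * exZ)) + Ex.c ⟨3, 0⟩ * (W - Ex.c ⟨3, 0⟩ * exZ) -
  Ex.c ⟨9, 0⟩ * (Ex.X * Ex.X) - Ex.X * Ex.X * Ex.X * Ex.X * Ex.X * Ex.Y * (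
    Ex.c ⟨3, 15⟩ * ((W + Ex.c ⟨5, 0⟩ * exZ) * (Ex.c ⟨128, 2⟩ + Ex.c ⟨-210091, 9999⟩ * Ex.Y + Ex.c ⟨30773, 999⟩ * (Ex.Y * Ex.Y)) - Ex.c ⟨6, 0⟩ * (Ex.c ⟨32, 2⟩ + Ex.c ⟨-1067, 99⟩ * Ex.Y + Ex.c ⟨6427, 999⟩ * (Ex.Y * Ex.Y))) +
    Ex.c ⟨5, 47⟩ * exZ * ((W + Ex.c ⟨7, 0⟩ * exZ) * (Ex.c ⟨216, 0⟩ + Ex.c ⟨-104699, 499⟩ * Ex.Y + Ex.c ⟨7914, 24⟩ * (Ex.Y * Ex.Y)) - Ex.c ⟨20, 0⟩ * (Ex.c ⟨36, 0⟩ + Ex.c ⟨-5401, 99⟩ * Ex.Y + Ex.c ⟨21601, 499⟩ * (Ex.Y * Ex.Y))) +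
    Ex.c ⟨35, 511⟩ * exZ * exZ * ((W + Ex.c ⟨9, 0⟩ * exZ) * (Ex.c ⟨2048, 2⟩ + Ex.c ⟨-985499, 999⟩ * Ex.Y + Ex.c ⟨41843, 24⟩ * (Ex.Y * Ex.Y)) - Ex.c ⟨42, 0⟩ * (Ex.c ⟨256, 2⟩ + Ex.c ⟨-17067, 99⟩ * Ex.Y + Ex.c ⟨4074, 24⟩ * (Ex.Y * Ex.Y))) +
    Ex.c ⟨63, 1279⟩ * exZ * exZ * exZ * ((W + Ex.c ⟨11, 0⟩ * exZ) * (Ex.c ⟨5000, 2⟩ + Ex.c ⟨-321097, 99⟩ * Ex.Y + Ex.c ⟨31244, 4⟩ * (Ex.Y * Ex.Y)) - Ex.c ⟨72, 0⟩ * (Ex.c ⟨500, 2⟩ + Ex.c ⟨-41667, 99⟩ * Ex.Y + Ex.c ⟨449607, 999⟩ * (Ex.Y * Ex.Y))) +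
    Ex.c ⟨77, 2047⟩ * exZ * exZ * exZ * exZ * ((W + Ex.c ⟨13, 0⟩ * exZ) * (Ex.c ⟨3456, 0⟩ + Ex.c ⟨-839027, 99⟩ * Ex.Y + Ex.c ⟨190079, 9⟩ * (Ex.Y * Ex.Y)) - Ex.c ⟨110, 0⟩ * (Ex.c ⟨288, 0⟩ + Ex.c ⟨-86401, 99⟩ * Ex.Y + Ex.c ⟨509909, 499⟩ * (Ex.Y * Ex.Y))))

theorem exK1_e_R (W : Ex) (s l : ℝ) : (exK1_e W).R s l =
    s * (1007 / 100 + 141 / 10 * (1 - s ^ 2) + 733 / 10 * (1 - s ^ 2) ^ 2) +
      3 * (W.R s l - 3 * (1 - s ^ 2)) - 9 * s ^ 2 - s ^ 5 * l * kD_e (W.R s l) (1 - s ^ 2) l := by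
  simp only [exK1_e, exZ, Ex.R_add, Ex.R_sub, Ex.R_mul, Ex.R_c, Ex.R_X, Ex.R_Y, Fr.R, kD_e]
  push_cast
  ring

theorem exK1_e_0 : tchkE (2 ^ 1024) 40 4000 [[exK1_e (Ex.c ⟨25, 3⟩)]] (Ex.c ⟨0, 0⟩)
    (.leaf 0) 9 10 10 0 19 40 = true := by
  (clear * -; decide +kernel)

theorem exK1_e_1 : tchkE (2 ^ 1024) 40 4000 [[exK1_e (Ex.c ⟨9, 0⟩)]] (Ex.c ⟨0, 0⟩)
    (.leaf 0) 9 10 10 0 19 40 = true := by
  (clear * -; decide +kernel)

theorem kK1_e {m z s l : ℝ} (hm : 0 ≤ m) (hz0 : 0 ≤ z)  (hz : z ≤ 3 / 16) (hs : 0 < s)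
    (hsz : s ^ 2 = 1 - z) (h0 : 0 ≤ l) (h1 : l ≤ 19 / 40) (hw0 : 25 / 4 ≤ m * z) (hw1 : m * z ≤ 9) :
    -(z * (1007 / 100 + 141 / 10 * z + 733 / 10 * z ^ 2) / (1 - z) ^ 2 * l ^ 2) ≤
      dpS0 m z l + (3 * (m - 3) * (z ^ 2 / s ^ 5) - 9 * (z / s ^ 3)) * l ^ 2 := by
  have hs1 : s ≤ 1 := by nlinarith only [hz0, hsz]
  have hs0 : 9 / 10 ≤ s := by nlinarith only [hz, hs, hsz]
  have hs1' : s ≤ 1 := by linarith only [hs1]
  have e0 : 0 ≤ (exK1_e (Ex.c ⟨25, 3⟩)).R s l := by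
    obtain ⟨i, hi⟩ := tchkE_sound (x := s) (y := l) (by simp [Ex.R_c, Fr.R]) _ _ _ _ _ _ _ (by norm_num) (by norm_num)
      (by norm_num) (by norm_num) exK1_e_0 (by push_cast; linarith only [hs0]) (by push_cast; linarith only [hs1])
      (by push_cast; linarith only [h0]) (by push_cast; linarith only [h1])
    rcases i with _ | i
    · exact hi _ (by simp)
    · exfalso
      have := hi (Ex.c ⟨-1, 0⟩) (by simp)
      simp only [Int.reduceNeg, Ex.R_c, Fr.R, Int.cast_neg, Int.cast_one, CharP.cast_eq_zero, zero_add, div_one, Left.nonneg_neg_iff] at this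
      linarith only [this]
  have e1 : 0 ≤ (exK1_e (Ex.c ⟨9, 0⟩)).R s l := by
    obtain ⟨i, hi⟩ := tchkE_sound (x := s) (y := l) (by simp [Ex.R_c, Fr.R]) _ _ _ _ _ _ _ (by norm_num) (by norm_num)
      (by norm_num) (by norm_num) exK1_e_1 (by push_cast; linarith only [hs0]) (by push_cast; linarith only [hs1])
      (by push_cast; linarith only [h0]) (by push_cast; linarith only [h1])
    rcases i with _ | i
    · exact hi _ (by simp only [Int.reduceNeg, List.getD_eq_getElem?_getD, List.length_cons, List.length_nil, zero_add, Order.lt_one_iff, getElem?_pos, List.getElem_cons_zero, Option.getD_some, List.mem_cons, List.not_mem_nil, or_false])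
    · exfalso
      have := hi (Ex.c ⟨-1, 0⟩) (by simp)
      simp only [Int.reduceNeg, Ex.R_c, Fr.R, Int.cast_neg, Int.cast_one, CharP.cast_eq_zero, zero_add, div_one, Left.nonneg_neg_iff] at this
      linarith only [this]
  rw [exK1_e_R] at e0 e1
  simp only [Ex.R_c, Fr.R] at e0 e1
  rw [hsz] at e0 e1
  rw [show (1 : ℝ) - (1 - z) = z by ring] at e0 e1
  have hD := dpS0_ge_e hm hz0 h0 h1
  set w := m * z with hw
  have aff : 0 ≤ s * (1007 / 100 + 141 / 10 * z + 733 / 10 * z ^ 2) + 3 * (w - 3 * z) - 9 * s ^ 2 -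
      s ^ 5 * l * kD_e w z l := by
    have i1 := mul_nonneg (sub_nonneg.2 hw1) e0
    have i2 := mul_nonneg (sub_nonneg.2 hw0) e1
    push_cast at i1 i2
    have i3 : (9 - 25 / 4) * (s * (1007 / 100 + 141 / 10 * z + 733 / 10 * z ^ 2) + 3 * (w - 3 * z) -
        9 * s ^ 2 - s ^ 5 * l * kD_e w z l) =
        (9 - w) * (s * (1007 / 100 + 141 / 10 * z + 733 / 10 * z ^ 2) + 3 * (25 / 4 - 3 * z) -
        9 * s ^ 2 - s ^ 5 * l * kD_e (25 / 4) z l) +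
        (w - 25 / 4) * (s * (1007 / 100 + 141 / 10 * z + 733 / 10 * z ^ 2) + 3 * (9 - 3 * z) -
        9 * s ^ 2 - s ^ 5 * l * kD_e (9) z l) := by
      simp only [kD_e]
      ring
    norm_num at i1 i2 i3 ⊢
    linarith only [hsz, i1, i2, i3]
  have h2 := mul_nonneg (div_nonneg (mul_nonneg hz0 (sq_nonneg l)) (pow_pos hs 5).le) aff
  have h3 : z * l ^ 2 / s ^ 5 * (s * (1007 / 100 + 141 / 10 * z + 733 / 10 * z ^ 2) + 3 * (w - 3 * z) - 9 * s ^ 2 -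
      s ^ 5 * l * kD_e w z l) = z * (1007 / 100 + 141 / 10 * z + 733 / 10 * z ^ 2) / (1 - z) ^ 2 * l ^ 2 +
      (3 * (m - 3) * (z ^ 2 / s ^ 5) - 9 * (z / s ^ 3)) * l ^ 2 - l ^ 3 * z * kD_e w z l := by
    rw [← hsz, hw]
    generalize kD_e (m * z) z l = K
    field_simp
    ring
  rw [h3] at h2
  linarith only [h2, hD]

/-- lower bound of `ksC / (s² z l)` -/
noncomputable def kQ_e (z l : ℝ) : ℝ :=
  3 / 4 * (-16 + 40763 / 1000 * l - 27059 / 1000 * l ^ 2) + 5 / 8 * z * (-36 + 16833 / 125 * l - 13186 / 125 * l ^ 2) + 35 / 64 * z ^ 2 * (-64 + 14743 / 50 * l - 25209 / 100 * l ^ 2) + 63 / 128 * z ^ 3 * (-100 + 52391 / 100 * l - 47169 / 100 * l ^ 2) + 231 / 512 * z ^ 4 * (-144 + 82189 / 100 * l - 38241 / 50 * l ^ 2)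

theorem ksC_ge_e {z s l : ℝ} (hz : 0 ≤ z) (h0 : 0 ≤ l) (h1 : l ≤ 19 / 40) :
    s ^ 2 * z * l * kQ_e z l ≤ ksC z s l := by
  have c2 := mul_le_mul_of_nonneg_left (ks_e_two_e h0 h1) (by positivity : 0 ≤ s ^ 2 * (3 / 4 * z))
  have c3 := mul_le_mul_of_nonneg_left (ks_e_three_e h0 h1) (by (clear * -; positivity) : 0 ≤ s ^ 2 * (5 / 8 * z ^ 2))
  have c4 := mul_le_mul_of_nonneg_left (ks_e_four_e h0 h1) (by positivity : 0 ≤ s ^ 2 * (35 / 64 * z ^ 3))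
  have c5 := mul_le_mul_of_nonneg_left (ks_e_five_e h0 h1) (by positivity : 0 ≤ s ^ 2 * (63 / 128 * z ^ 4))
  have c6 := mul_le_mul_of_nonneg_left (ks_e_six_e h0 h1) (by positivity : 0 ≤ s ^ 2 * (231 / 512 * z ^ 5))
  simp only [ksC, kQ_e]
  linarith

def exK2_e : Ex :=
  Ex.c ⟨2, 0⟩ * (Ex.X * Ex.X) * (Ex.c ⟨2, 0⟩ + Ex.c ⟨4, 0⟩ * Ex.X + Ex.c ⟨2, 0⟩ * (Ex.X * Ex.X) +
    Ex.X * Ex.X * Ex.X) - Ex.c ⟨6, 0⟩ * Ex.Y * ((Ex.c ⟨1, 0⟩ + Ex.X) * (Ex.c ⟨1, 0⟩ + Ex.X)) +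
  Ex.X * Ex.X * Ex.X * Ex.X * Ex.X * ((Ex.c ⟨1, 0⟩ + Ex.X) * (Ex.c ⟨1, 0⟩ + Ex.X)) *
    (Ex.Y * (Ex.c ⟨3, 3⟩ * (Ex.c ⟨-16, 0⟩ + Ex.c ⟨40763, 999⟩ * Ex.Y + Ex.c ⟨-27059, 999⟩ * (Ex.Y * Ex.Y)) + Ex.c ⟨5, 7⟩ * exZ * (Ex.c ⟨-36, 0⟩ + Ex.c ⟨16833, 124⟩ * Ex.Y + Ex.c ⟨-13186, 124⟩ * (Ex.Y * Ex.Y)) + Ex.c ⟨35, 63⟩ * exZ * exZ * (Ex.c ⟨-64, 0⟩ + Ex.c ⟨14743, 49⟩ * Ex.Y + Ex.c ⟨-25209, 99⟩ * (Ex.Y * Ex.Y)) + Ex.c ⟨63, 127⟩ * exZ * exZ * exZ * (Ex.c ⟨-100, 0⟩ + Ex.c ⟨52391, 99⟩ * Ex.Y + Ex.c ⟨-47169, 99⟩ * (Ex.Y * Ex.Y)) + Ex.c ⟨231, 511⟩ * exZ * exZ * exZ * exZ * (Ex.c ⟨-144, 0⟩ + Ex.c ⟨82189, 99⟩ * Ex.Y + Ex.c ⟨-38241, 49⟩ * (Ex.Y * Ex.Y))) -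
      Ex.c ⟨9, 1⟩ * (Ex.c ⟨1, 0⟩ - Ex.c ⟨4, 0⟩ * Ex.Y + Ex.c ⟨93, 19⟩ * (Ex.Y * Ex.Y)))

theorem exK2_e_R (s l : ℝ) : exK2_e.R s l =
    2 * s ^ 2 * (2 + 4 * s + 2 * s ^ 2 + s ^ 3) - 6 * l * (1 + s) ^ 2 +
      s ^ 5 * (1 + s) ^ 2 * (l * kQ_e (1 - s ^ 2) l - 9 / 2 * (1 - 4 * l + 93 / 20 * l ^ 2)) := by
  simp only [exK2_e, exZ, Ex.R_add, Ex.R_sub, Ex.R_mul, Ex.R_c, Ex.R_X, Ex.R_Y, Fr.R, kQ_e]
  push_cast
  ring

theorem exK2_e_chk : tchkE (2 ^ 1024) 40 4000 [[exK2_e]] (Ex.c ⟨0, 0⟩)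
    (.sx (.sy (.leaf 0) (.leaf 0)) (.leaf 0)) 9 10 10 0 19 40 = true := by
  (clear * -; decide +kernel)

theorem kK2_e {z s l : ℝ} (hz0 : 0 ≤ z) (hz : z ≤ 3 / 16) (hs : 0 < s)
    (hsz : s ^ 2 = 1 - z) (h0 : 0 ≤ l) (h1 : l ≤ 19 / 40) :
    9 / 2 * z * (1 - z) * (1 - 4 * l + 93 / 20 * l ^ 2) ≤
      4 / s - 4 * s / (1 + s) - 2 * s ^ 2 - 6 * (z / s ^ 3) * l + ksC z s l := by
  have hs1 : s ≤ 1 := by nlinarith only [hz0, hsz]
  have hs0 : 9 / 10 ≤ s := by nlinarith only [hz, hs, hsz]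
  have e0 : 0 ≤ exK2_e.R s l := by
    obtain ⟨i, hi⟩ := tchkE_sound (x := s) (y := l) (by simp [Ex.R_c, Fr.R]) _ _ _ _ _ _ _ (by norm_num) (by norm_num)
      (by norm_num) (by norm_num) exK2_e_chk (by push_cast; linarith only [hs0]) (by push_cast; linarith only [hs1])
      (by push_cast; linarith only [h0]) (by push_cast; linarith only [h1])
    rcases i with _ | i
    · exact hi _ (by simp)
    · exfalso
      have := hi (Ex.c ⟨-1, 0⟩) (by simp only [Int.reduceNeg, List.getD_eq_getElem?_getD, List.length_cons, List.length_nil, zero_add, Order.lt_one_iff, Nat.add_eq_zero_iff, one_ne_zero, and_false, not_false_eq_true, getElem?_neg, Option.getD_none, List.mem_cons, List.not_mem_nil, or_false])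
      simp only [Int.reduceNeg, Ex.R_c, Fr.R, Int.cast_neg, Int.cast_one, CharP.cast_eq_zero, zero_add, div_one, Left.nonneg_neg_iff] at this
      linarith only [this]
  rw [exK2_e_R] at e0
  have hQ := ksC_ge_e (s := s) hz0 h0 h1
  have hz' : z = 1 - s ^ 2 := by linarith only [hsz]
  subst hz'
  have h2 := mul_nonneg (div_nonneg (sub_nonneg.2 hs1) (mul_pos (pow_pos hs 3) (by linarith only [hs] : 0 < 1 + s)).le) e0
  have h3 : (1 - s) / (s ^ 3 * (1 + s)) * (2 * s ^ 2 * (2 + 4 * s + 2 * s ^ 2 + s ^ 3) - 6 * l * (1 + s) ^ 2 +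
      s ^ 5 * (1 + s) ^ 2 * (l * kQ_e (1 - s ^ 2) l - 9 / 2 * (1 - 4 * l + 93 / 20 * l ^ 2))) =
      4 / s - 4 * s / (1 + s) - 2 * s ^ 2 - 6 * ((1 - s ^ 2) / s ^ 3) * l +
      s ^ 2 * (1 - s ^ 2) * l * kQ_e (1 - s ^ 2) l -
      9 / 2 * (1 - s ^ 2) * (1 - (1 - s ^ 2)) * (1 - 4 * l + 93 / 20 * l ^ 2) := by
    generalize kQ_e (1 - s ^ 2) l = K
    have : (1 : ℝ) + s ≠ 0 := by linarith only [hs]
    field_simp
    ring
  rw [h3] at h2
  linarith only [hQ, h2]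

/-- the whole kernel part -/
theorem kK_e {m z s l W : ℝ} (hm : 0 ≤ m) (hz0 : 0 ≤ z)  (hz : z ≤ 3 / 16) (hs : 0 < s)
    (hsz : s ^ 2 = 1 - z) (h0 : 0 ≤ l) (h1 : l ≤ 19 / 40) (hw0 : 25 / 4 ≤ m * z)
    (hw1 : m * z ≤ 9) (hW : 0 ≤ W) :
    -(z * (1007 / 100 + 141 / 10 * z + 733 / 10 * z ^ 2) / (1 - z) ^ 2 * l ^ 2) +
      9 / 2 * z * (1 - z) * (1 - 4 * l + 93 / 20 * l ^ 2) * W ≤
      (3 * (m - 3) * (z ^ 2 / s ^ 5) - 9 * (z / s ^ 3)) * l ^ 2 +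
      (4 / s - 4 * s / (1 + s) - 2 * s ^ 2 - 6 * (z / s ^ 3) * l) * W + dpS m z s l W := by
  have a1 := kK1_e hm hz0 hz hs hsz h0 h1 hw0 hw1
  have a2 := mul_le_mul_of_nonneg_right (kK2_e hz0 hz hs hsz h0 h1) hW
  rw [dpS_eq]
  linarith

end Vale.Agent.P237.AllN
end

section

/-!
# P237, block D, `x ≥ 7/10`, `l > 0`: one-variable inequalities
-/

namespace Vale.Agent.P237.AllN

theorem fxr_log_ge {r : ℝ} (h0 : 0 < r) (h1 : r ≤ 1) : (r - r⁻¹) / 2 ≤ Real.log r := by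
  have h := Real.sinh_le_self_iff.2 (Real.log_nonpos h0.le h1)
  rwa [Real.sinh_log h0] at h

theorem fxr_W {u : ℝ} (hu : 0 < 1 + u) : u ^ 2 / (1 + u) = (1 + u) - 2 + (1 + u)⁻¹ := by
  field_simp
  ring

/-- `φ ≤ W/2` for `u ≤ 0` -/
theorem fxr_phi2 {u : ℝ} (hu : 0 < 1 + u) (hu0 : u ≤ 0) :
    u - Real.log (1 + u) ≤ 1 / 2 * (u ^ 2 / (1 + u)) := by
  have h := fxr_log_ge hu (by linarith only [hu0])
  rw [fxr_W hu]
  linarith

theorem fxr_log_ge' {r : ℝ} (h1 : 1 ≤ r) : 2 * (r - 1) / (r + 1) ≤ Real.log r := by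
  have h := Real.le_log_one_add_of_nonneg (x := r - 1) (by linarith only [h1])
  rw [show 1 + (r - 1) = r by ring, show r - 1 + 2 = r + 1 by ring] at h
  exact h

theorem fxr_log3 : Real.log 3 < 10990 / 10000 := by
  have h1 : Real.log 3 = Real.log 2 + Real.log (1 + 1 / 2) := by
    rw [← Real.log_mul (by norm_num) (by norm_num)]
    (clear * -; norm_num)
  have h2 : Real.log (1 + 1 / 2) < 4056 / 10000 := by
    rw [Real.log_lt_iff_lt_exp (by (clear * -; norm_num))]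
    have h := Real.sum_le_exp_of_nonneg (x := 4056 / 10000) (by norm_num) 6
    refine lt_of_lt_of_le ?_ h
    simp only [Finset.sum_range_succ, Finset.sum_range_zero, Nat.factorial]
    norm_num
  have h3 := Real.log_two_lt_d9
  linarith

/-- `φ ≤ W/4 + 1/10` for `u ≤ 0` -/
theorem fxr_phi4 {u : ℝ} (hu : 0 < 1 + u) (hu0 : u ≤ 0) :
    u - Real.log (1 + u) ≤ 1 / 4 * (u ^ 2 / (1 + u)) + 1 / 10 := by
  rw [fxr_W hu]
  obtain ⟨p, hp⟩ : ∃ p : ℝ, p = 1 + u := ⟨_, rfl⟩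
  have hu' : u = p - 1 := by linarith only [hp]
  rw [← hp] at hu ⊢
  have hp1 : p ≤ 1 := by linarith only [hu0, hp]
  rw [hu']
  have h3 := fxr_log3
  have hlog : Real.log p = Real.log (3 * p) - Real.log 3 := by
    rw [Real.log_mul (by norm_num) hu.ne']
    ring
  rcases le_total (3 * p) 1 with h | h
  · have h4 := fxr_log_ge (r := 3 * p) (by positivity) h
    rw [hlog]
    have e : (3 * p)⁻¹ = 1 / 3 * p⁻¹ := by
      rw [mul_inv]
      norm_num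
    rw [e] at h4
    have h5 : 0 < p⁻¹ := inv_pos.2 hu
    have h6 : p * p⁻¹ = 1 := mul_inv_cancel₀ hu.ne'
    nlinarith only [h3, h, h4, h6, hu]
  · have h4 := fxr_log_ge' h
    rw [hlog]
    have h7 : 0 ≤ 1 / 4 * (p - 2 + p⁻¹) + 1 / 10 - (p - 1) + 2 * (3 * p - 1) / (3 * p + 1) -
        10990 / 10000 := by
      have e : 1 / 4 * (p - 2 + p⁻¹) + 1 / 10 - (p - 1) + 2 * (3 * p - 1) / (3 * p + 1) -
        10990 / 10000 = ((1 / 4 * (p ^ 2 - 2 * p + 1) + 1 / 10 * p - (p - 1) * p) * (3 * p + 1) +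
          2 * (3 * p - 1) * p - 10990 / 10000 * p * (3 * p + 1)) / (p * (3 * p + 1)) := by
        field_simp
      rw [e]
      apply div_nonneg _ (by positivity)
      nlinarith only [hp1, mul_nonneg (mul_nonneg (sub_nonneg.2 hp1) (sub_nonneg.2 h)) hu.le]
    linarith

/-- `φ ≤ W/10 + 3/5` for `u ≤ 0` -/
theorem fxr_phi10 {u : ℝ} (hu : 0 < 1 + u) (hu0 : u ≤ 0) :
    u - Real.log (1 + u) ≤ 1 / 10 * (u ^ 2 / (1 + u)) + 3 / 5 := by
  rw [fxr_W hu]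
  obtain ⟨p, hp⟩ : ∃ p : ℝ, p = 1 + u := ⟨_, rfl⟩
  have hu' : u = p - 1 := by linarith
  rw [← hp] at hu ⊢
  have hp1 : p ≤ 1 := by linarith only [hu0, hp]
  rw [hu']
  have h3 := fxr_log3
  have hlog9 : Real.log 9 = 2 * Real.log 3 := by
    rw [show (9 : ℝ) = 3 ^ 2 by norm_num, Real.log_pow]
    norm_num
  have hlog : Real.log p = Real.log (9 * p) - Real.log 9 := by
    rw [Real.log_mul (by norm_num) hu.ne']
    ring
  rcases le_total (9 * p) 1 with h | h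
  · have h4 := fxr_log_ge (r := 9 * p) (by positivity) h
    rw [hlog]
    have e : (9 * p)⁻¹ = 1 / 9 * p⁻¹ := by
      rw [mul_inv]
      (clear * -; norm_num)
    rw [e] at h4
    have h5 : 0 < p⁻¹ := inv_pos.2 hu
    have h6 : p * p⁻¹ = 1 := mul_inv_cancel₀ hu.ne'
    have h7 : 0 ≤ (9 * p - 1) ^ 2 * p⁻¹ := by (clear * - hu; positivity)
    have h8 : (9 * p - 1) ^ 2 * p⁻¹ = 81 * p * (p * p⁻¹) - 18 * (p * p⁻¹) + p⁻¹ := by ring
    rw [h8, h6] at h7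
    linarith only [h3, hlog9, h4, h7]
  · have h4 := fxr_log_ge' h
    rw [hlog]
    have h7 : 0 ≤ 1 / 10 * (p - 2 + p⁻¹) + 3 / 5 - (p - 1) + 2 * (9 * p - 1) / (9 * p + 1) -
        21980 / 10000 := by
      have e : 1 / 10 * (p - 2 + p⁻¹) + 3 / 5 - (p - 1) + 2 * (9 * p - 1) / (9 * p + 1) -
        21980 / 10000 = ((1 / 10 * (p ^ 2 - 2 * p + 1) + 3 / 5 * p - (p - 1) * p) * (9 * p + 1) +
          2 * (9 * p - 1) * p - 21980 / 10000 * p * (9 * p + 1)) / (p * (9 * p + 1)) := by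
        field_simp
      rw [e]
      apply div_nonneg _ (by positivity)
      nlinarith only [mul_nonneg (mul_nonneg (sub_nonneg.2 hp1) (sub_nonneg.2 h)) hu.le]
    linarith

/-- `(log (1+u))² ≤ W` for `u ≤ 0` -/
theorem fxr_logsq {u : ℝ} (hu : 0 < 1 + u) (hu0 : u ≤ 0) :
    Real.log (1 + u) ^ 2 ≤ u ^ 2 / (1 + u) := by
  obtain ⟨r, hr⟩ : ∃ r : ℝ, r = Real.sqrt (1 + u) := ⟨_, rfl⟩
  have hr0 : 0 < r := hr ▸ Real.sqrt_pos.2 hu
  have hr2 : r ^ 2 = 1 + u := by rw [hr, Real.sq_sqrt hu.le]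
  have hr1 : r ≤ 1 := by
    rw [hr]
    apply Real.sqrt_le_one.2
    linarith
  have h := fxr_log_ge hr0 hr1
  have hlog : Real.log (1 + u) = 2 * Real.log r := by
    rw [← hr2, Real.log_pow]
    norm_num
  have hl0 : Real.log r ≤ 0 := Real.log_nonpos hr0.le hr1
  have e : u ^ 2 / (1 + u) = (r - r⁻¹) ^ 2 := by
    have : u = r ^ 2 - 1 := by linarith only [hr2]
    rw [← hr2, this]
    (clear * - hr0; field_simp)
  rw [e, hlog]
  linarith only [mul_nonneg (sub_nonneg.2 h) (sub_nonneg.2 hl0), mul_nonneg (sub_nonneg.2 h) (sub_nonneg.2 h)]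

/-- `φ ≤ f_s W` for `0 ≤ u`, `u s ≤ 1` -/
theorem fxr_phis {u s : ℝ} (hu : 0 ≤ u) (hs : 0 < s) (hus : u * s ≤ 1) :
    u - Real.log (1 + u) ≤
      (1 + s) * (1 + 3 * s) / (1 + 6 * s + 6 * s ^ 2) * (u ^ 2 / (1 + u)) := by
  refine (log_defect hu).trans ?_
  rw [div_mul_div_comm, div_le_div_iff₀ (by positivity) (by positivity)]
  have h1 : 0 ≤ (1 + s) * (1 + 3 * s) * (6 + 6 * u + u ^ 2) -
      (1 + u) * (3 + u) * (1 + 6 * s + 6 * s ^ 2) := by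
    have e : (1 + s) * (1 + 3 * s) * (6 + 6 * u + u ^ 2) -
      (1 + u) * (3 + u) * (1 + 6 * s + 6 * s ^ 2) =
      (3 + 6 * s) * (1 - u * s) + (2 + 3 * s) * (u * (1 - u * s)) + 3 * s * (s * u) * 0 +
      (3 + 6 * s) * (u * s) - (2 + 3 * s) * u + (2 - 6 * s ^ 2) * u := by ring
    rw [e]
    have h2 : 0 ≤ 1 - u * s := by linarith only [hus]
    have h3 := mul_nonneg hu h2
    nlinarith only [h3, hs, h2]
  have h2 := mul_nonneg (sq_nonneg u) h1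
  linarith

end Vale.Agent.P237.AllN
end

section

/-!
# P237, block D, `x ≥ 7/10`, `l > 0`: kernel checks of the two-variable polynomial inequalities

`s = X`, `λ = l/s²`.
-/

namespace Vale.Agent.P237.AllN

open PolyPos

def fxk (n : ℤ) (d : ℕ) : Ex := Ex.c ⟨n, d⟩

def fxZ : Ex := Ex.c ⟨1, 0⟩ - Ex.X * Ex.X

def fxQ (z l : Ex) : Ex :=
  fxk 3 3 * (fxk (-16) 0 + fxk 21163 499 * l - fxk 766 24 * (l * l)) +
  fxk 5 7 * z * (fxk (-36) 0 + fxk 35779 249 * l - fxk 124867 999 * (l * l)) +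
  fxk 35 63 * (z * z) * (fxk (-64) 0 + fxk 31961 99 * l - fxk 30887 99 * (l * l)) +
  fxk 63 127 * (z * z * z) * (fxk (-100) 0 + fxk 14423 24 * l - fxk 59341 99 * (l * l)) +
  fxk 231 511 * (z * z * (z * z)) * (fxk (-144) 0 + fxk 22908 24 * l - fxk 98173 99 * (l * l))

theorem fxQ_R (z l : Ex) (x y : ℝ) : (fxQ z l).R x y = kQ_a (z.R x y) (l.R x y) := by
  simp only [fxQ, fxk, kQ_a, Ex.R_add, Ex.R_sub, Ex.R_mul, Ex.R_c, Fr.R]
  push_cast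
  ring

def fxD (w z l : Ex) : Ex :=
  fxk 3 15 * ((w + fxk 5 0 * z) * (fxk 128 2 - fxk 26211 1249 * l + fxk 15309 499 * (l * l)) -
    fxk 6 0 * (fxk 32 2 - fxk 1067 99 * l + fxk 6697 999 * (l * l))) +
  fxk 5 47 * z * ((w + fxk 7 0 * z) * (fxk 216 0 - fxk 104223 499 * l + fxk 3127 9 * (l * l)) -
    fxk 20 0 * (fxk 36 0 - fxk 5401 99 * l + fxk 9139 199 * (l * l))) +
  fxk 35 511 * (z * z) * ((w + fxk 9 0 * z) * (fxk 2048 2 - fxk 195259 199 * l + fxk 162797 99 * (l * l)) -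
    fxk 42 0 * (fxk 256 2 - fxk 17067 99 * l + fxk 87257 499 * (l * l))) +
  fxk 63 1279 * (z * z * z) * ((w + fxk 11 0 * z) *
    (fxk 5000 2 - fxk 12641 3 * l + fxk 59249 9 * (l * l)) -
    fxk 72 0 * (fxk 500 2 - fxk 41667 99 * l + fxk 60812 124 * (l * l))) +
  fxk 77 2047 * (z * z * (z * z)) * ((w + fxk 13 0 * z) *
    (fxk 3456 0 - fxk 409851 49 * l + fxk 173519 9 * (l * l)) -
    fxk 110 0 * (fxk 288 0 - fxk 86401 99 * l + fxk 27828 24 * (l * l)))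

theorem fxD_R (w z l : Ex) (x y : ℝ) :
    (fxD w z l).R x y = kD_a (w.R x y) (z.R x y) (l.R x y) := by
  simp only [fxD, fxk, kD_a, Ex.R_add, Ex.R_sub, Ex.R_mul, Ex.R_c, Fr.R]
  push_cast
  ring

/-- `(1+s)·s·` lower bound of the `W`-coefficient -/
noncomputable def fxrW (s lam : ℝ) : ℝ :=
  4 * (1 + s) - 4 * s ^ 2 - 2 * s ^ 3 * (1 + s) - 6 * (1 - s ^ 2) * lam * (1 + s) +
    s ^ 3 * (1 - s ^ 2) * (lam * s ^ 2) * kQ_a (1 - s ^ 2) (lam * s ^ 2) * (1 + s) +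
    4 * s ^ 3 * (1 + s) * (1 - 2 * (lam * s ^ 2) + 1558 / 1000 * (lam * s ^ 2) ^ 2)

def fxWE (lam : Ex) : Ex :=
  let v := Ex.X
  let p := fxk 1 0 + v
  let X3 := v * v * v
  let l := lam * (v * v)
  fxk 4 0 * p - fxk 4 0 * (v * v) - fxk 2 0 * (X3 * p) - fxk 6 0 * (fxZ * lam * p) +
    X3 * (fxZ * (l * (fxQ fxZ l * p))) +
    fxk 4 0 * (X3 * p) * (fxk 1 0 - fxk 2 0 * l + fxk 1558 999 * (l * l))

theorem fxWE_R (lam : Ex) (x y : ℝ) : (fxWE lam).R x y = fxrW x (lam.R x y) := by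
  simp only [fxWE, fxk, fxrW, fxZ, Ex.R_add, Ex.R_sub, Ex.R_mul, Ex.R_c, Ex.R_X, fxQ_R, Fr.R]
  push_cast
  rw [show (1 : ℝ) / (0 + 1) = 1 by norm_num, show (1 : ℝ) - x * x = 1 - x ^ 2 by ring,
    show lam.R x y * (x * x) = lam.R x y * x ^ 2 by ring]
  ring

/-- the `l`-coefficient, `m = 27`, divided by `s² z/s⁵` -/
noncomputable def fxrD0 (s lam : ℝ) : ℝ :=
  2337 / 50 * s ^ 3 - 14 + 82 * (1 - s ^ 2) -
    lam * s ^ 5 * kD_a (27 * (1 - s ^ 2)) (1 - s ^ 2) (lam * s ^ 2) +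
    18 / 5 * (27 * (1 - s ^ 2) * s - 3 * s ^ 3)

def fxD0E (lam : Ex) : Ex :=
  let v := Ex.X
  let X3 := v * v * v
  let l := lam * (v * v)
  fxk 2337 49 * X3 - fxk 14 0 + fxk 82 0 * fxZ -
    lam * (X3 * (v * v) * fxD (fxk 27 0 * fxZ) fxZ l) +
    fxk 18 4 * (fxk 27 0 * (fxZ * v) - fxk 3 0 * X3)

theorem fxD0E_R (lam : Ex) (x y : ℝ) : (fxD0E lam).R x y = fxrD0 x (lam.R x y) := by
  simp only [fxD0E, fxk, fxrD0, fxZ, Ex.R_add, Ex.R_sub, Ex.R_mul, Ex.R_c, Ex.R_X, fxD_R, Fr.R]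
  push_cast
  rw [show (1 : ℝ) / (0 + 1) = 1 by norm_num, show (1 : ℝ) - x * x = 1 - x ^ 2 by ring,
    show lam.R x y * (x * x) = lam.R x y * x ^ 2 by ring,
    show (27 : ℝ) / (0 + 1) = 27 by norm_num]
  ring

/-- the derivative in `m`, divided by `s³ z/s⁵` -/
noncomputable def fxrD1 (s lam : ℝ) : ℝ :=
  1558 / 1000 * s ^ 2 - lam * s ^ 4 * (1 - s ^ 2) *
    (kD_a 1 (1 - s ^ 2) (lam * s ^ 2) - kD_a 0 (1 - s ^ 2) (lam * s ^ 2)) +
    3 / 25 * (57 * (1 - s ^ 2) - 3 * s ^ 2)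

def fxD1E (lam : Ex) : Ex :=
  let v := Ex.X
  let X2 := v * v
  let l := lam * (v * v)
  fxk 1558 999 * X2 - lam * (X2 * X2 * fxZ) * (fxD (fxk 1 0) fxZ l - fxD (fxk 0 0) fxZ l) +
    fxk 3 24 * (fxk 57 0 * fxZ - fxk 3 0 * X2)

theorem fxD1E_R (lam : Ex) (x y : ℝ) : (fxD1E lam).R x y = fxrD1 x (lam.R x y) := by
  simp only [fxD1E, fxk, fxrD1, fxZ, Ex.R_add, Ex.R_sub, Ex.R_mul, Ex.R_c, Ex.R_X, fxD_R, Fr.R]
  push_cast
  rw [show (1 : ℝ) / (0 + 1) = 1 by norm_num, show (1 : ℝ) - x * x = 1 - x ^ 2 by ring,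
    show lam.R x y * (x * x) = lam.R x y * x ^ 2 by ring,
    show (0 : ℝ) / (0 + 1) = 0 by norm_num]
  ring

/-- the test for `u ≥ 0`, `s ≥ 1/5` -/
noncomputable def fxrG (s lam : ℝ) : ℝ :=
  (3 / 8 * (72 - 82 * s ^ 2) * (1 - s ^ 2) ^ 2 * lam ^ 2 * s * (1 + s) * (1 + s) + fxrW s lam -
    1 / 3 * s ^ 2 * (1 + s) ^ 2 - 1 / 5 * (1 + s)) * (1 + 6 * s + 6 * s ^ 2) -
    28 / 13 * (1 + s) ^ 2 * (1 + 3 * s)

def fxGE (lam : Ex) : Ex :=
  let v := Ex.X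
  let p := fxk 1 0 + v
  (fxk 3 7 * (fxk 72 0 - fxk 82 0 * (v * v)) * (fxZ * fxZ) * (lam * lam) * (v * (p * p)) + fxWE lam -
    fxk 1 2 * (v * v * (p * p)) - fxk 1 4 * p) * (fxk 1 0 + fxk 6 0 * v + fxk 6 0 * (v * v)) -
    fxk 28 12 * (p * p * (fxk 1 0 + fxk 3 0 * v))

theorem fxGE_R (lam : Ex) (x y : ℝ) : (fxGE lam).R x y = fxrG x (lam.R x y) := by
  simp only [fxGE, fxk, fxrG, fxZ, Ex.R_add, Ex.R_sub, Ex.R_mul, Ex.R_c, Ex.R_X, fxWE_R, Fr.R]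
  push_cast
  ring

/-- `λ = θ (1/2 + 79/200 s²)` -/
def fxL1 : Ex := Ex.Y * (fxk 1 1 + fxk 79 199 * (Ex.X * Ex.X))

/-- `λ = θ (1/2 + 3/10 s²)` -/
def fxL2 : Ex := Ex.Y * (fxk 1 1 + fxk 3 9 * (Ex.X * Ex.X))

theorem fxL1_R (x y : ℝ) : fxL1.R x y = y * (1 / 2 + 79 / 200 * x ^ 2) := by
  simp only [fxL1, fxk, Ex.R_add, Ex.R_mul, Ex.R_c, Ex.R_X, Ex.R_Y, Fr.R]
  push_cast
  ring

theorem fxL2_R (x y : ℝ) : fxL2.R x y = y * (1 / 2 + 3 / 10 * x ^ 2) := by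
  simp only [fxL2, fxk, Ex.R_add, Ex.R_mul, Ex.R_c, Ex.R_X, Ex.R_Y, Fr.R]
  push_cast
  ring

theorem fx_chkD0 : Ex.nn (2 ^ 1024) 60 4000 0 5 7 0 1 1 (fxD0E fxL1) = true := by
  decide +kernel

theorem fx_chkD1 : Ex.nn (2 ^ 1024) 60 4000 0 5 7 0 1 1 (fxD1E fxL1) = true := by
  decide +kernel

theorem fx_chkG : tchkE (2 ^ 1024) 60 4000 [[fxGE fxL1]] (Ex.c ⟨0, 0⟩)
    (.sx (.leaf 0) (.sy (.leaf 0) (.sx (.leaf 0) (.sy (.leaf 0) (.leaf 0))))) 7 25 35 0 1 1 =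
    true := by
  decide +kernel

theorem fx_chkW : Ex.nn (2 ^ 1024) 60 4000 0 1 5 0 1 1
    (fxWE fxL1 - (fxk 388 99 - fxk 6 0 * fxL1) * (fxk 1 0 + Ex.X)) = true := by
  decide +kernel

theorem fx_chkW3 : Ex.nn (2 ^ 1024) 60 4000 0 12 25 0 1 1
    (fxWE fxL2 - fxk 1 2 * (fxk 1 0 + Ex.X)) = true := by
  decide +kernel

theorem fx_chkWa : Ex.nn (2 ^ 1024) 60 4000 0 5 7 0 7 20
    (fxWE Ex.Y - fxk 6 4 * (fxk 1 0 + Ex.X)) = true := by
  decide +kernel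

theorem fx_chkWb : Ex.nn (2 ^ 1024) 60 4000 0 5 7 7 10 20
    (fxWE Ex.Y - fxk 33 49 * (fxk 1 0 + Ex.X)) = true := by
  decide +kernel

end Vale.Agent.P237.AllN
end

section

/-!
# P237, block D, `x ≥ 7/10`, `l > 0`: bounds of the coefficients
-/

namespace Vale.Agent.P237.AllN

open PolyPos

/-- `(1-t)(1+v+v²/2+v³/6+v⁴/24) - 1`, `v = t + b t²` -/
private def exU (b : Ex) : Ex :=
  let v := Ex.X + b * (Ex.X * Ex.X)
  (fxk 1 0 - Ex.X) * (fxk 1 0 + v + fxk 1 1 * (v * v) + fxk 1 5 * (v * (v * v)) +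
    fxk 1 23 * (v * v * (v * v))) - fxk 1 0

private theorem chkU1 : Ex.nn (2 ^ 512) 20 4000 0 51 100 0 1 1 (exU (fxk 79 99)) = true := by
  (clear * -; decide +kernel)

private theorem chkU2 : Ex.nn (2 ^ 512) 20 4000 0 144 625 0 1 1 (exU (fxk 3 4)) = true := by
  (clear * -; decide +kernel)

theorem fxr_U1 {t : ℝ} (h0 : 0 ≤ t) (h1 : t ≤ 51 / 100) :
    1 ≤ (1 - t) * (1 + (t + 79 / 100 * t ^ 2) + (t + 79 / 100 * t ^ 2) ^ 2 / 2 +
      (t + 79 / 100 * t ^ 2) ^ 3 / 6 + (t + 79 / 100 * t ^ 2) ^ 4 / 24) := by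
  have h := Ex.nn_closed (x := t) (y := 0) (by norm_num) (by norm_num) (by norm_num)
    (by norm_num) chkU1 (by push_cast; linarith only [h0]) (by push_cast; linarith) (by norm_num)
    (by norm_num)
  simp only [exU, fxk, Ex.R_sub, Ex.R_mul, Ex.R_c, Fr.R, Ex.R_X, Ex.R_add] at h
  push_cast at h
  linarith

theorem fxr_U2 {t : ℝ} (h0 : 0 ≤ t) (h1 : t ≤ 144 / 625) :
    1 ≤ (1 - t) * (1 + (t + 3 / 5 * t ^ 2) + (t + 3 / 5 * t ^ 2) ^ 2 / 2 +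
      (t + 3 / 5 * t ^ 2) ^ 3 / 6 + (t + 3 / 5 * t ^ 2) ^ 4 / 24) := by
  have h := Ex.nn_closed (x := t) (y := 0) (by norm_num) (by norm_num) (by norm_num)
    (by norm_num) chkU2 (by push_cast; linarith only [h0]) (by push_cast; linarith only [h1]) (by norm_num)
    (by norm_num)
  simp only [exU, fxk, Ex.R_add, Ex.R_sub, Ex.R_mul, Ex.R_c, Ex.R_X, Fr.R] at h
  push_cast at h
  linarith

theorem fxr_exp5 {v : ℝ} (hv : 0 ≤ v) :
    1 + v + v ^ 2 / 2 + v ^ 3 / 6 + v ^ 4 / 24 ≤ Real.exp v := by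
  have h := Real.sum_le_exp_of_nonneg hv 5
  refine le_trans (le_of_eq ?_) h
  simp only [Finset.sum_range_succ, Finset.sum_range_zero, Nat.factorial]
  push_cast
  ring

theorem fxr_lt_of_exp {v l z : ℝ} (hv : 0 ≤ v) (hz : 0 < z)
    (h : 1 ≤ z * (1 + v + v ^ 2 / 2 + v ^ 3 / 6 + v ^ 4 / 24))
    (hτ : z * Real.exp (2 * l) ≤ 1) : 2 * l ≤ v := by
  by_contra hlt
  push Not at hlt
  have h1 := fxr_exp5 (v := v) hv
  have h2 := Real.exp_lt_exp.2 hlt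
  have h3 := mul_le_mul_of_nonneg_left h1 hz.le
  have h4 := mul_lt_mul_of_pos_left h2 hz
  linarith only [h, hτ, h3, h4]

/-- `l ≤ U(s)` -/
theorem fxr_lam1 {z s l : ℝ} (hz : 49 / 100 ≤ z) (hsz : s ^ 2 = 1 - z)
    (hτ : z * Real.exp (2 * l) ≤ 1) : l ≤ s ^ 2 * (1 / 2 + 79 / 200 * s ^ 2) := by
  have h := fxr_U1 (t := s ^ 2) (sq_nonneg s) (by linarith)
  rw [show 1 - s ^ 2 = z by linarith only [hsz]] at h
  have h2 := fxr_lt_of_exp (by (clear * -; positivity)) (by linarith only [hz]) h hτ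
  linarith only [h2]

theorem fxr_lam2 {z s l : ℝ} (hs : 0 ≤ s) (hs1 : s ≤ 12 / 25) (hsz : s ^ 2 = 1 - z)
    (hτ : z * Real.exp (2 * l) ≤ 1) : l ≤ s ^ 2 * (1 / 2 + 3 / 10 * s ^ 2) := by
  have h1 : s ^ 2 ≤ 144 / 625 := by nlinarith only [hs1, hs]
  have h := fxr_U2 (t := s ^ 2) (sq_nonneg s) h1
  rw [show 1 - s ^ 2 = z by linarith only [hsz]] at h
  have h2 := fxr_lt_of_exp (by (clear * -; positivity)) (by linarith only [hsz, h1]) h hτ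
  linarith only [h2]

/-- the coefficient of `l²` -/
noncomputable def fxq (m s : ℝ) : ℝ :=
  (1 - s ^ 2) ^ 2 / s ^ 5 * (72 - 82 * s ^ 2 + 3 * (m - 27)) +
    3 / 25 * (m - 27) ^ 2 * ((1 - s ^ 2) ^ 2 / s ^ 2)

theorem kD_affine (m z l : ℝ) : kD_a (m * z) z l =
    kD_a (27 * z) z l + (m - 27) * z * (kD_a 1 z l - kD_a 0 z l) := by
  unfold kD_a
  ring

theorem fxr_s_le {z s : ℝ} (hz : 49 / 100 ≤ z) (hs : 0 < s) (hsz : s ^ 2 = 1 - z) :
    s ≤ 5 / 7 := by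
  nlinarith

/-- `λ/(1/2 + 79/200 s²) ∈ [0,1]` -/
theorem fxr_theta {s l b : ℝ} (hs : 0 < s) (hb : 0 ≤ b) (hl : 0 < l)
    (hU : l ≤ s ^ 2 * (1 / 2 + b * s ^ 2)) :
    0 ≤ l / s ^ 2 / (1 / 2 + b * s ^ 2) ∧ l / s ^ 2 / (1 / 2 + b * s ^ 2) ≤ 1 ∧
      l / s ^ 2 / (1 / 2 + b * s ^ 2) * (1 / 2 + b * s ^ 2) = l / s ^ 2 := by
  have h1 : 0 < 1 / 2 + b * s ^ 2 := by positivity
  refine ⟨by positivity, ?_, by field_simp⟩
  rw [div_le_one h1, div_le_iff₀ (by positivity)]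
  (clear * - hU; linarith)

theorem fxr_D {s l : ℝ} (hs : 0 < s) (hs1 : s ≤ 5 / 7) (hl : 0 < l)
    (hU : l ≤ s ^ 2 * (1 / 2 + 79 / 200 * s ^ 2)) :
    0 ≤ fxrD0 s (l / s ^ 2) ∧ 0 ≤ fxrD1 s (l / s ^ 2) := by
  obtain ⟨h1, h2, h3⟩ := fxr_theta hs (by norm_num) hl hU
  have a := Ex.nn_closed (x := s) (y := l / s ^ 2 / (1 / 2 + 79 / 200 * s ^ 2))
    (by norm_num) (by norm_num) (by norm_num) (by norm_num) fx_chkD0 (by push_cast; linarith only [hs])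
    (by push_cast; linarith only [hs1]) (by push_cast; linarith only [h1]) (by push_cast; linarith only [h2])
  have b := Ex.nn_closed (x := s) (y := l / s ^ 2 / (1 / 2 + 79 / 200 * s ^ 2))
    (by norm_num) (by norm_num) (by norm_num) (by norm_num) fx_chkD1 (by push_cast; linarith only [hs])
    (by push_cast; linarith only [hs1]) (by push_cast; linarith only [h1]) (by push_cast; linarith only [h2])
  rw [fxD0E_R, fxL1_R, h3] at a
  rw [fxD1E_R, fxL1_R, h3] at b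
  exact ⟨a, b⟩

/-- **lower bound of the part without `u`** -/
theorem fxr_A {m z s l : ℝ} (hm : 27 ≤ m) (hz : 49 / 100 ≤ z) (hs : 0 < s)
    (hsz : s ^ 2 = 1 - z) (hl : 0 < l) (hl1 : l ≤ 2 / 5)
    (hU : l ≤ s ^ 2 * (1 / 2 + 79 / 200 * s ^ 2)) :
    fxq m s * l ^ 2 ≤ (m + 3) * z * (Real.exp (-(2 * l)) - 1 + 2 * l) +
      (3 * (m - 3) * (z ^ 2 / s ^ 5) - 9 * (z / s ^ 3)) * l ^ 2 + dpS0 m z l +
      3 / 25 * (m + 3) * z * (m * (z / s ^ 2) - 3) * l ^ 2 - 5 * (z / s ^ 3) * l ^ 2 := by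
  have hs1 := fxr_s_le hz hs hsz
  obtain ⟨d0, d1⟩ := fxr_D hs hs1 hl hU
  have he := exp_E1a hl.le hl1
  have hk := dpS0_ge_a (m := m) (z := z) (by linarith only [hm]) (by linarith only [hz]) hl.le hl1
  rw [kD_affine] at hk
  have h1 : (m + 3) * z * (1558 / 1000 * l ^ 2) ≤
      (m + 3) * z * (Real.exp (-(2 * l)) - 1 + 2 * l) :=
    mul_le_mul_of_nonneg_left (by (clear * - he; linarith)) (by
      have : 0 ≤ m + 3 := by linarith only [hm]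
      have : 0 ≤ z := by linarith only [hz]
      positivity)
  have hz' : z = 1 - s ^ 2 := by linarith only [hsz]
  have hlam : l / s ^ 2 * s ^ 2 = l := by field_simp
  unfold fxrD0 at d0
  unfold fxrD1 at d1
  rw [hlam, ← hz'] at d0 d1
  obtain ⟨a, ha⟩ : ∃ a : ℝ, a = kD_a (27 * z) z l := ⟨_, rfl⟩
  obtain ⟨b, hb⟩ : ∃ b : ℝ, b = kD_a 1 z l - kD_a 0 z l := ⟨_, rfl⟩
  rw [← ha] at d0 hk
  rw [← hb] at d1 hk
  have hz0 : 0 < z := by linarith only [hz]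
  have key : 0 ≤ l ^ 2 * (z / s ^ 5) * (s ^ 2 * (2337 / 50 * s ^ 3 - 14 + 82 * z -
      l / s ^ 2 * s ^ 5 * a + 18 / 5 * (27 * z * s - 3 * s ^ 3)) +
      (m - 27) * (s ^ 3 * (1558 / 1000 * s ^ 2 - l / s ^ 2 * s ^ 4 * z * b +
        3 / 25 * (57 * z - 3 * s ^ 2)))) := by
    have : 0 ≤ m - 27 := by linarith only [hm]
    (clear * - hl hz hs d0 hm d1; positivity)
  have e : l ^ 2 * (z / s ^ 5) * (s ^ 2 * (2337 / 50 * s ^ 3 - 14 + 82 * z -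
      l / s ^ 2 * s ^ 5 * a + 18 / 5 * (27 * z * s - 3 * s ^ 3)) +
      (m - 27) * (s ^ 3 * (1558 / 1000 * s ^ 2 - l / s ^ 2 * s ^ 4 * z * b +
        3 / 25 * (57 * z - 3 * s ^ 2)))) =
      (m + 3) * z * (1558 / 1000 * l ^ 2) +
      (3 * (m - 3) * (z ^ 2 / s ^ 5) - 9 * (z / s ^ 3)) * l ^ 2 +
      -(l ^ 3 * z * (a + (m - 27) * z * b)) +
      3 / 25 * (m + 3) * z * (m * (z / s ^ 2) - 3) * l ^ 2 - 5 * (z / s ^ 3) * l ^ 2 -
      fxq m s * l ^ 2 := by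
    unfold fxq
    rw [← hz']
    field_simp
    ring
  linarith only [h1, hk, key, e]

/-- the whole `W`-coefficient times `s` -/
noncomputable def fxw (z s l : ℝ) : ℝ :=
  s * (4 / s - 4 * s / (1 + s) - 2 * s ^ 2 - 6 * (z / s ^ 3) * l + ksC z s l +
    4 * s ^ 2 * Real.exp (-(2 * l)))

theorem fxr_w {z s l : ℝ} (hz : 0 ≤ z) (hs : 0 < s) (hsz : s ^ 2 = 1 - z) (hl : 0 < l)
    (hl1 : l ≤ 2 / 5) : fxrW s (l / s ^ 2) ≤ (1 + s) * fxw z s l := by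
  have he := exp_E1a hl.le hl1
  have hk := ksC_ge_a (s := s) hz hl.le hl1
  have hz' : z = 1 - s ^ 2 := by linarith only [hsz]
  have hlam : l / s ^ 2 * s ^ 2 = l := by (clear * - hs hl; field_simp)
  unfold fxrW fxw
  rw [hlam, ← hz']
  obtain ⟨a, ha⟩ : ∃ a : ℝ, a = kQ_a z l := ⟨_, rfl⟩
  rw [← ha] at hk ⊢
  have h1 : (1 + s) * (s * (4 / s - 4 * s / (1 + s) - 2 * s ^ 2 - 6 * (z / s ^ 3) * l +
      s ^ 2 * z * l * a + 4 * s ^ 2 * (1 - 2 * l + 1558 / 1000 * l ^ 2))) ≤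
      (1 + s) * (s * (4 / s - 4 * s / (1 + s) - 2 * s ^ 2 - 6 * (z / s ^ 3) * l +
      ksC z s l + 4 * s ^ 2 * Real.exp (-(2 * l)))) := by
    apply mul_le_mul_of_nonneg_left _ (by positivity)
    apply mul_le_mul_of_nonneg_left _ hs.le
    have h2 := mul_le_mul_of_nonneg_left he (by positivity : 0 ≤ 4 * s ^ 2)
    linarith only [hk, h2]
  refine le_trans (le_of_eq ?_) h1
  have h1s : 1 + s ≠ 0 := by positivity
  (clear * - hs h1s; field_simp)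

theorem fxr_G {s l : ℝ} (hs : 1 / 5 ≤ s) (hs1 : s ≤ 5 / 7) (hl : 0 < l)
    (hU : l ≤ s ^ 2 * (1 / 2 + 79 / 200 * s ^ 2)) : 0 ≤ fxrG s (l / s ^ 2) := by
  obtain ⟨h1, h2, h3⟩ := fxr_theta (by linarith only [hs]) (by norm_num) hl hU
  obtain ⟨i, hi⟩ := tchkE_sound (x := s) (y := l / s ^ 2 / (1 / 2 + 79 / 200 * s ^ 2))
    (by simp only [one_div, Ex.R_c, Fr.R, Int.cast_zero, CharP.cast_eq_zero, zero_add, div_one, Std.le_refl]) _ _ _ _ _ _ _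
    (by norm_num) (by norm_num) (by norm_num) (by norm_num) fx_chkG (by push_cast; linarith only [hs])
    (by push_cast; linarith only [hs1]) (by push_cast; linarith only [h1]) (by push_cast; linarith only [h2])
  rcases i with _ | i
  · have h := hi (fxGE fxL1) (by simp)
    rw [fxGE_R, fxL1_R, h3] at h
    exact h
  · exfalso
    have := hi (Ex.c ⟨-1, 0⟩) (by simp only [Int.reduceNeg, List.getD_eq_getElem?_getD, List.length_cons, List.length_nil, zero_add, Order.lt_one_iff, Nat.add_eq_zero_iff, one_ne_zero, and_false, not_false_eq_true, getElem?_neg, Option.getD_none, List.mem_cons, List.not_mem_nil, or_false])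
    simp only [one_div, Int.reduceNeg, Ex.R_c, Fr.R, Int.cast_neg, Int.cast_one, CharP.cast_eq_zero, zero_add, div_one, Left.nonneg_neg_iff] at this
    linarith only [this]

theorem fxr_wsmall {z s l : ℝ} (hz : 0 ≤ z) (hs : 0 < s) (hs1 : s ≤ 1 / 5)
    (hsz : s ^ 2 = 1 - z) (hl : 0 < l) (hl1 : l ≤ 2 / 5)
    (hU : l ≤ s ^ 2 * (1 / 2 + 79 / 200 * s ^ 2)) :
    388 / 100 - 6 * (l / s ^ 2) ≤ fxw z s l := by
  obtain ⟨h1, h2, h3⟩ := fxr_theta hs (by norm_num) hl hU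
  have a := Ex.nn_closed (x := s) (y := l / s ^ 2 / (1 / 2 + 79 / 200 * s ^ 2))
    (by norm_num) (by norm_num) (by norm_num) (by norm_num) fx_chkW (by push_cast; linarith only [hs])
    (by push_cast; linarith only [hs1]) (by push_cast; linarith only [h1]) (by push_cast; linarith only [h2])
  simp only [fxk, Ex.R_sub, Ex.R_add, Ex.R_mul, Ex.R_c, Ex.R_X] at a
  rw [fxWE_R, fxL1_R, h3] at a
  have hw := fxr_w hz hs hsz hl hl1
  simp only [Fr.R] at a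
  push_cast at a
  have h4 : 0 < 1 + s := by linarith only [hs]
  have h5 : (1 + s) * (388 / 100 - 6 * (l / s ^ 2)) ≤ (1 + s) * fxw z s l := by
    linarith only [a, hw]
  exact le_of_mul_le_mul_left h5 h4

end Vale.Agent.P237.AllN
end

section

/-!
# P237, block D, `x ≥ 7/10`, `l > 0`: lower bounds of `T`
-/

namespace Vale.Agent.P237.AllN

open PolyPos

theorem fxr_w3 {z s l : ℝ} (hz : 49 / 100 ≤ z) (hs : 0 < s) (hsz : s ^ 2 = 1 - z) (hl : 0 < l)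
    (hl1 : l ≤ 2 / 5) (hτ : z * Real.exp (2 * l) ≤ 1) : 1 / 3 ≤ fxw z s l := by
  have hs1 := fxr_s_le hz hs hsz
  have hz0 : 0 < z := by linarith only [hz]
  rcases le_total s (12 / 25) with h | h
  · have hU := fxr_lam2 hs.le h hsz hτ
    obtain ⟨h1, h2, h3⟩ := fxr_theta hs (by norm_num) hl hU
    have a := Ex.nn_closed (x := s) (y := l / s ^ 2 / (1 / 2 + 3 / 10 * s ^ 2))
      (by norm_num) (by norm_num) (by (clear * -; norm_num)) (by norm_num) fx_chkW3 (by push_cast; linarith only [hs])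
      (by push_cast; linarith only [h]) (by push_cast; linarith only [h1]) (by push_cast; linarith only [h2])
    simp only [fxk, Ex.R_sub, Ex.R_add, Ex.R_mul, Ex.R_c, Ex.R_X] at a
    rw [fxWE_R, fxL2_R, h3] at a
    have hw := fxr_w hz0.le hs hsz hl hl1
    simp only [Fr.R] at a
    push_cast at a
    have h4 : 0 < 1 + s := by linarith only [hs]
    have h5 : (1 + s) * (1 / 3) ≤ (1 + s) * fxw z s l := by linarith only [a, hw]
    exact le_of_mul_le_mul_left h5 h4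
  · have hC := kK3 hz0 hs hsz hτ
    have he : z ≤ Real.exp (-(2 * l)) := by
      rw [Real.exp_neg, ← one_div, le_div_iff₀ (Real.exp_pos _)]
      exact hτ
    unfold fxw
    have h1 : s * (4 * s ^ 2 * z) ≤ s * (4 / s - 4 * s / (1 + s) - 2 * s ^ 2 -
        6 * (z / s ^ 3) * l + ksC z s l + 4 * s ^ 2 * Real.exp (-(2 * l))) := by
      apply mul_le_mul_of_nonneg_left _ hs.le
      have := mul_le_mul_of_nonneg_left he (by positivity : 0 ≤ 4 * s ^ 2)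
      linarith only [hC, this]
    refine le_trans ?_ h1
    have hz' : z = 1 - s ^ 2 := by linarith only [hsz]
    have h2 : s * (4 * s ^ 2 * z) = 4 * (s ^ 2 * s * z) := by ring
    have h3 : (144 / 625 : ℝ) ≤ s ^ 2 := by nlinarith only [h]
    rw [h2, hz']
    -- `4 s³ (1-s²)` is increasing
    have h4 : 0 ≤ (s - 12 / 25) * (s ^ 2 * (1 - s ^ 2) - 12 / 25 * s * (s + 12 / 25) * s * 0) := by
      have : 0 ≤ s - 12 / 25 := by linarith only [h]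
      have : 0 ≤ 1 - s ^ 2 := by linarith only [hz, hsz]
      have e : s ^ 2 * (1 - s ^ 2) - 12 / 25 * s * (s + 12 / 25) * s * 0 =
        s ^ 2 * (1 - s ^ 2) := by ring
      rw [e]
      (clear * - h hs this; positivity)
    have h5 : s ^ 2 * (1 - s ^ 2) ≥ 144 / 625 * (1 - 144 / 625) := by
      have h6 : s ^ 2 ≤ 51 / 100 := by linarith only [hz, hsz]
      nlinarith only [hsz, h3, hz]
    nlinarith only [h4, h5]

theorem fxr_wa {z s l : ℝ} (hz : 49 / 100 ≤ z) (hs : 0 < s) (hsz : s ^ 2 = 1 - z) (hl : 0 < l)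
    (hl1 : l ≤ 2 / 5) (ha : l / s ^ 2 ≤ 7 / 20) : 6 / 5 ≤ fxw z s l := by
  have hs1 := fxr_s_le hz hs hsz
  have h0 : 0 < l / s ^ 2 := by positivity
  have a := Ex.nn_closed (x := s) (y := l / s ^ 2)
    (by norm_num) (by norm_num) (by norm_num) (by norm_num) fx_chkWa (by push_cast; linarith only [hs])
    (by push_cast; linarith only [hs1]) (by push_cast; linarith only [h0]) (by push_cast; linarith only [ha])
  simp only [fxk, Ex.R_sub, Ex.R_add, Ex.R_mul, Ex.R_c, Ex.R_X] at a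
  rw [fxWE_R, Ex.R_Y] at a
  have hw := fxr_w (by linarith only [hz]) hs hsz hl hl1
  simp only [Fr.R] at a
  push_cast at a
  have h4 : 0 < 1 + s := by linarith only [hs]
  have h5 : (1 + s) * (6 / 5) ≤ (1 + s) * fxw z s l := by linarith only [a, hw]
  exact le_of_mul_le_mul_left h5 h4

theorem fxr_wb {z s l : ℝ} (hz : 49 / 100 ≤ z) (hs : 0 < s) (hsz : s ^ 2 = 1 - z) (hl : 0 < l)
    (hl1 : l ≤ 2 / 5) (ha : 7 / 20 ≤ l / s ^ 2) (hb : l / s ^ 2 ≤ 1 / 2) :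
    33 / 50 ≤ fxw z s l := by
  have hs1 := fxr_s_le hz hs hsz
  have a := Ex.nn_closed (x := s) (y := l / s ^ 2)
    (by norm_num) (by norm_num) (by norm_num) (by norm_num) fx_chkWb (by push_cast; linarith only [hs])
    (by push_cast; linarith only [hs1]) (by push_cast; linarith only [ha]) (by push_cast; linarith only [hb])
  simp only [fxk, Ex.R_sub, Ex.R_add, Ex.R_mul, Ex.R_c, Ex.R_X] at a
  rw [fxWE_R, Ex.R_Y] at a
  have hw := fxr_w (by linarith only [hz]) hs hsz hl hl1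
  simp only [Fr.R] at a
  push_cast at a
  have h4 : 0 < 1 + s := by linarith only [hs]
  have h5 : (1 + s) * (33 / 50) ≤ (1 + s) * fxw z s l := by linarith only [a, hw]
  exact le_of_mul_le_mul_left h5 h4

/-- `T` from below, general form -/
theorem fxr_T_ge {m z s l u G N : ℝ} (hm : 27 ≤ m) (hz : 49 / 100 ≤ z) (hs : 0 < s)
    (hsz : s ^ 2 = 1 - z) (hl : 0 < l) (hl1 : l ≤ 2 / 5)
    (hU : l ≤ s ^ 2 * (1 / 2 + 79 / 200 * s ^ 2)) (hN : Real.log (1 + u) - u ≤ N)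
    (hG : -(5 * (z / s ^ 3) * l ^ 2) ≤ G) (hφ : 0 ≤ u - Real.log (1 + u)) :
    fxq m s * l ^ 2 + fxw z s l * (u ^ 2 / (1 + u) / s) -
      28 / 13 * ((u - Real.log (1 + u)) / s) - 6 / 25 * (m + 3) * z * (u * l) ≤
      dpT m z s l u G N := by
  have hA := fxr_A hm hz hs hsz hl hl1 hU
  have h1s : 1 + s ≠ 0 := by positivity
  have e : dpT m z s l u G N = ((m + 3) * z * (Real.exp (-(2 * l)) - 1 + 2 * l) +
      (3 * (m - 3) * (z ^ 2 / s ^ 5) - 9 * (z / s ^ 3)) * l ^ 2 + dpS0 m z l +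
      3 / 25 * (m + 3) * z * (m * (z / s ^ 2) - 3) * l ^ 2) + G +
      fxw z s l * (u ^ 2 / (1 + u) / s) + 2 * (m + 1) / (m - 1) * (N / s) -
      6 / 25 * (m + 3) * z * (u * l) := by
    unfold dpT
    rw [dpS_eq]
    have e2 : fxw z s l * (u ^ 2 / (1 + u) / s) = (4 / s - 4 * s / (1 + s) - 2 * s ^ 2 -
        6 * (z / s ^ 3) * l + ksC z s l + 4 * s ^ 2 * Real.exp (-(2 * l))) *
        (u ^ 2 / (1 + u)) := by
      unfold fxw
      field_simp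
    rw [e2]
    have e3 : 2 * (m + 1) / ((m - 1) * s) * N = 2 * (m + 1) / (m - 1) * (N / s) := by
      rw [div_mul_div_comm, div_mul_eq_mul_div]
    rw [e3]
    ring
  have h2 : -(28 / 13 * ((u - Real.log (1 + u)) / s)) ≤ 2 * (m + 1) / (m - 1) * (N / s) := by
    have hκ : 2 * (m + 1) / (m - 1) ≤ 28 / 13 := by
      rw [div_le_iff₀ (by linarith only [hm])]
      linarith only [hm]
    have hκ0 : 0 ≤ 2 * (m + 1) / (m - 1) := div_nonneg (by linarith only [hm]) (by linarith only [hm])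
    have h3 : -((u - Real.log (1 + u)) / s) ≤ N / s := by
      rw [← neg_div, div_le_div_iff_of_pos_right hs]
      linarith only [hN]
    have h4 := mul_le_mul_of_nonneg_left h3 hκ0
    have h5 : 2 * (m + 1) / (m - 1) * ((u - Real.log (1 + u)) / s) ≤
        28 / 13 * ((u - Real.log (1 + u)) / s) :=
      mul_le_mul_of_nonneg_right hκ (div_nonneg hφ hs.le)
    linarith only [h4, h5]
  rw [e]
  linarith only [hG, hA, h2]

theorem fxr_phi_nonneg {u : ℝ} (hu : 0 < 1 + u) : 0 ≤ u - Real.log (1 + u) := by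
  have := Real.log_le_sub_one_of_pos hu
  linarith

theorem fxr_q0 {m s : ℝ} (hm : 27 ≤ m) (hs : 0 < s) (hs1 : s ≤ 5 / 7) :
    (72 - 82 * s ^ 2) * (1 - s ^ 2) ^ 2 / s ^ 5 ≤ fxq m s := by
  unfold fxq
  have h1 : 0 ≤ (1 - s ^ 2) ^ 2 / s ^ 5 * (3 * (m - 27)) := by
    have : 0 ≤ m - 27 := by linarith only [hm]
    (clear * - hs hm; positivity)
  have h2 : 0 ≤ 3 / 25 * (m - 27) ^ 2 * ((1 - s ^ 2) ^ 2 / s ^ 2) := by positivity
  have e : (72 - 82 * s ^ 2) * (1 - s ^ 2) ^ 2 / s ^ 5 =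
      (1 - s ^ 2) ^ 2 / s ^ 5 * (72 - 82 * s ^ 2) := by ring
  rw [e]
  linarith only [h1, h2]

theorem fxr_q1 {m s : ℝ} (hm : 27 ≤ m) (hs : 0 < s) (hs1 : s ≤ 5 / 7) :
    54 / 625 * ((m + 3) * (1 - s ^ 2)) ^ 2 ≤ fxq m s * s ^ 2 := by
  obtain ⟨t, ht⟩ : ∃ t : ℝ, t = m - 27 := ⟨_, rfl⟩
  have ht0 : 0 ≤ t := by linarith only [hm, ht]
  have hm' : m = 27 + t := by linarith only [ht]
  have e : fxq m s * s ^ 2 - 54 / 625 * ((m + 3) * (1 - s ^ 2)) ^ 2 =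
      (1 - s ^ 2) ^ 2 / s ^ 3 * ((72 - 82 * s ^ 2 - 7776 / 100 * s ^ 3) +
        t * (3 - 5184 / 1000 * s ^ 3) + t ^ 2 * (3 / 25 - 864 / 10000) * s ^ 3) := by
    unfold fxq
    rw [hm']
    field_simp
    ring
  have h1 : s ^ 3 ≤ 125 / 343 := by
    have := pow_le_pow_left₀ hs.le hs1 3
    norm_num at this
    exact this
  have h2 : s ^ 2 ≤ 25 / 49 := by nlinarith only [hs1, hs]
  have h3 : 0 ≤ 72 - 82 * s ^ 2 - 7776 / 100 * s ^ 3 := by linarith only [h1, h2]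
  have h4 : 0 ≤ 3 - 5184 / 1000 * s ^ 3 := by linarith only [h1]
  have h5 : 0 ≤ (1 - s ^ 2) ^ 2 / s ^ 3 * ((72 - 82 * s ^ 2 - 7776 / 100 * s ^ 3) +
        t * (3 - 5184 / 1000 * s ^ 3) + t ^ 2 * (3 / 25 - 864 / 10000) * s ^ 3) := by
    have : (0 : ℝ) ≤ 3 / 25 - 864 / 10000 := by norm_num
    (clear * - hs h3 ht0 h4; positivity)
  linarith only [e, h5]

theorem fxr_q_pos {m s : ℝ} (hm : 27 ≤ m) (hs : 0 < s) (hs1 : s ≤ 5 / 7) : 0 < fxq m s := by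
  refine lt_of_lt_of_le ?_ (fxr_q0 hm hs hs1)
  have h2 : s ^ 2 ≤ 25 / 49 := by nlinarith only [hs1, hs]
  have h3 : 0 < 1 - s ^ 2 := by linarith only [h2]
  have h4 : 0 < 72 - 82 * s ^ 2 := by linarith only [h2]
  positivity

/-- the cross term -/
theorem fxr_cross {m s l u : ℝ} (hm : 27 ≤ m) (hs : 0 < s) (hs1 : s ≤ 5 / 7) (hl : 0 ≤ l)
    (hu : 0 ≤ u) :
    6 / 25 * (m + 3) * (1 - s ^ 2) * (u * l) ≤ fxq m s / 2 * l ^ 2 + s ^ 2 / 3 * u ^ 2 := by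
  have hq := fxr_q_pos hm hs hs1
  have h1 := fxr_q1 hm hs hs1
  -- `(q/2) l² - B u l + (s²/3) u² ≥ 0`, `B² ≤ (2/3) q s²`
  obtain ⟨B, hB⟩ : ∃ B : ℝ, B = 6 / 25 * (m + 3) * (1 - s ^ 2) := ⟨_, rfl⟩
  have hB2 : B ^ 2 ≤ 2 / 3 * fxq m s * s ^ 2 := by
    have : B ^ 2 = 36 / 625 * ((m + 3) * (1 - s ^ 2)) ^ 2 := by rw [hB]; ring
    rw [this]
    linarith only [h1]
  rw [← hB]
  have h2 : 0 ≤ (fxq m s * l - B * u) ^ 2 := sq_nonneg _
  have h3 : B ^ 2 * u ^ 2 ≤ 2 / 3 * fxq m s * s ^ 2 * u ^ 2 :=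
    mul_le_mul_of_nonneg_right hB2 (sq_nonneg u)
  have h4 : 0 ≤ fxq m s * (fxq m s * l ^ 2 + 2 / 3 * s ^ 2 * u ^ 2 - 2 * (B * (u * l))) := by
    linarith only [h3, h2]
  have h5 := nonneg_of_mul_nonneg_right h4 hq
  linarith only [h5]

end Vale.Agent.P237.AllN
end
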