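import Vale.Agent.P237.Bd3.B4
import Vale.Agent.P237.Bd3.B11
import Vale.Agent.P237.Bd3.B3
import Vale.Agent.P237.Bd3.B8
import Vale.Agent.P237.Bd3.B13
import Vale.Agent.P237.Bd3.B6

set_option linter.all false

section

/-!
# P237, plain certificate (m ≥ 5): from the quadratic forms to the pointwise inequality
-/

namespace Vale.Agent.P237.AllN

open PolyPos

theorem regLP {P : Pm} (hm : 0 < P.m) {R C rb x v t l lam : ℝ} (htx : t = 1 - x ^ 2) (ht : 0 < t)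
    (hE : 0 < 1 + x * v) (hδ : 3 / ((P.m : ℝ) + 2) - x ^ 2 ≠ 0)
    (hF : FormNN (entLP Fr.R P R C rb x v)) :
    P.eps.R * ((x * v) ^ 2 / (1 + x * v)) ≤
      pcLow P.m P.k1.R P.th.R P.c2.R R C (rb / (1 + x * v)) (x ^ 2 / t) l (x * v) lam +
      pcNL P.m P.a1.R P.a2.R P.a3.R (3 / ((P.m : ℝ) + 2)) (x ^ 2) (x ^ 2 / t) (l - lam)
        (x * v) lam := by
  have hm' : (P.m : ℝ) ≠ 0 := by exact_mod_cast hm.ne'
  have hm1 : (P.m : ℝ) + 1 ≠ 0 := by positivity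
  set e := (l - lam) / (3 / ((P.m : ℝ) + 2) - x ^ 2) with hedef
  have h := hF (x * v) (x * e) (x * lam)
  simp only [entLP, Fr.R1, Fr.R2, Fr.R3, Fr.R12, Fr.R32, Fr.R92, Pm.cx_R, Pm.cg_R, Pm.c1_R,
    Pm.c3_R, Pm.ci_R P hm, Pm.ch_R P hm] at h
  refine pc_left_ge (η := 0) (lm := 0) (e := e) hm' ht hE hδ ?_ le_rfl (Or.inl rfl) ?_
  · rw [hedef, mul_comm, div_mul_cancel₀ _ hδ]
    ring
  · refine h.trans (le_of_eq ?_)
    simp only
    rw [htx]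
    clear_value e
    field_simp
    ring

theorem regLM {P : Pm} (hm : 0 < P.m) {kap R C rb x z n1 t l lam : ℝ} (hz : z = x ^ 2)
    (hx : 0 < x) (htx : t = 1 - x ^ 2) (ht : 0 < t) (hE : 0 < 1 - z * n1)
    (hδ : 3 / ((P.m : ℝ) + 2) - x ^ 2 ≠ 0) (hn : 0 ≤ n1) (hrb : 0 ≤ rb) (hkap : 0 ≤ kap)
    (hm1 : 1 ≤ P.m) (hl : l ≤ t * (31 / 50 + 7 / 50 * z))
    (hF : FormNN (entLM Fr.R P kap R C rb z n1)) :
    P.eps.R * ((-(z * n1)) ^ 2 / (1 + -(z * n1))) ≤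
      pcLow P.m P.k1.R P.th.R P.c2.R R C (rb / (1 + -(z * n1))) (x ^ 2 / t) l (-(z * n1)) lam +
      pcNL P.m P.a1.R P.a2.R P.a3.R (3 / ((P.m : ℝ) + 2)) (x ^ 2) (x ^ 2 / t) (l - lam)
        (-(z * n1)) lam := by
  have hm' : (P.m : ℝ) ≠ 0 := by exact_mod_cast hm.ne'
  have hm2 : (1 : ℝ) ≤ P.m := by exact_mod_cast hm1
  have hm1 : (P.m : ℝ) + 1 ≠ 0 := by positivity
  set e := (l - lam) / (3 / ((P.m : ℝ) + 2) - x ^ 2) with hedef
  have h := hF (-(z * n1)) e lam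
  have r31 : Fr.R ⟨31, 49⟩ = 31 / 50 := by simp [Fr.R]; norm_num
  have r7 : Fr.R ⟨7, 49⟩ = 7 / 50 := by simp [Fr.R]; norm_num
  simp only [entLM, Fr.R1, Fr.R2, Fr.R3, Fr.R12, Fr.R32, Fr.R92, Pm.cx_R, Pm.cg_R, Pm.c1_R,
    Pm.c3_R, Pm.ci_R P hm, Pm.ch_R P hm, r31, r7] at h
  have hvz : x * (-(x * n1)) = -(z * n1) := by rw [hz]; ring
  have hS : 0 ≤ 3 * (((P.m : ℝ) - 1) / (P.m + 1)) * z + 1 / (P.m : ℝ) * (rb * t) := by
    have h1 : 0 ≤ ((P.m : ℝ) - 1) / (P.m + 1) := div_nonneg (by linarith only [hm2]) (by linarith only [])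
    have h2 : 0 ≤ z := by rw [hz]; positivity
    (clear * - hm2 hm h2 hrb ht; positivity)
  have hη : 0 ≤ kap * (z * n1) *
      ((3 * (((P.m : ℝ) - 1) / (P.m + 1)) * z + 1 / (P.m : ℝ) * (rb * t)) / t) := by
    have h2 : 0 ≤ z := by rw [hz]; positivity
    (clear * - hkap h2 hn hm2 hm hrb ht; positivity)
  rw [← hvz]
  refine pc_left_ge (η := kap * (z * n1) *
      ((3 * (((P.m : ℝ) - 1) / (P.m + 1)) * z + 1 / (P.m : ℝ) * (rb * t)) / t))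
    (lm := t * (31 / 50 + 7 / 50 * z)) (e := e) hm' ht (by rw [hvz]; linarith only [hE]) hδ ?_ hη
    (Or.inr hl) ?_
  · rw [hedef, mul_comm, div_mul_cancel₀ _ hδ]
    ring
  · refine h.trans (le_of_eq ?_)
    simp only
    have htne := ht.ne'
    have : (1 : ℝ) - z = t := by rw [htx, hz]
    rw [this]
    have hz2 : z = x ^ 2 := hz
    rw [hz2]
    clear_value e
    field_simp
    ring

end Vale.Agent.P237.AllN
end

section

/-!
# P237, plain certificate (m ≥ 5): the pointwise inequality on the left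
-/

open Set

namespace Vale.Agent.P237.AllN

open PolyPos

/-- `u - m ((1+u)^(1/m) - 1)` -/
noncomputable def pmf (m : ℕ) (u : ℝ) : ℝ := u - m * ((1 + u) ^ (1 / (m : ℝ)) - 1)

/-- bounds of `pmf` -/
structure RhoOK (D : Dat) : Prop where
  nn : ∀ u : ℝ, 0 < 1 + u → 0 ≤ pmf D.P.m u
  a : ∀ u : ℝ, 0 ≤ u → u ^ 2 * ((D.P.m : ℝ) - 1) ≤ 3 * D.k.R ^ 2 →
    pmf D.P.m u * (1 + u) ≤ (D.r0.R + D.r1.R * u - D.cp.R * (u * u)) * u ^ 2
  b : ∀ u : ℝ, 0 < 1 + u → u ≤ 0 →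
    pmf D.P.m u * (1 + u) ≤ (D.r0.R + D.r1.R * u + D.r2.R * (u * u)) * u ^ 2
  c : ∀ u : ℝ, 3 / 500 ≤ 1 + u → 1 + u ≤ 1 / 4 →
    pmf D.P.m u * (1 + u) ≤ (D.g0.R + D.g1.R * (1 + u)) * u ^ 2
  d : ∀ u : ℝ, 0 < 1 + u → u ≤ 0 → pmf D.P.m u ≤ ((D.P.m : ℝ) - 1) * u ^ 2
  e : ∀ u : ℝ, 0 ≤ u → ∀ n : ℝ, n * (1 + u) = u → n ≤ 13 / 20 →
    pmf D.P.m u * (1 + u) ≤ (D.r0.R + D.r1.R * n + (D.r1.R + D.r2.R) * (n * n) +
      D.q3.R * (n * (n * n))) * u ^ 2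
  f : ∀ u : ℝ, 0 ≤ u → 13 / 20 * (1 + u) ≤ u →
    pmf D.P.m u * (1 + u) ^ 2 ≤ ((1 + u) - D.q4.R) * u ^ 2
  g : ∀ u : ℝ, 0 ≤ u → pmf D.P.m u * (1 + u) ^ 2 ≤ (D.r0.R + u) * u ^ 2

/-- numeric side conditions -/
structure Dat.Num (D : Dat) (lamL : ℝ) : Prop where
  m5 : 5 ≤ D.P.m
  e0 : 0 < D.P.e0.R
  x0 : 3 / ((D.P.m : ℝ) + 2) ≤ ((D.X0 : ℝ) / 1000) ^ 2
  v0 : D.k.R ^ 2 ≤ ((D.V0 : ℝ) / 1000) ^ 2 * (1 - 3 / ((D.P.m : ℝ) + 2))
  s0 : 1 - 3 / ((D.P.m : ℝ) + 2) ≤ ((D.S0 : ℝ) / 1000) ^ 2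
  k0 : D.k.R ≤ (D.K0 : ℝ) / 1000
  kpos : 0 ≤ D.k.R
  k1pos : 0 ≤ D.P.k1.R
  mu0 : 0 < 1 + D.P.k1.R * lamL
  th : D.P.th.R ≤ 22 / 25 * (1 + D.P.k1.R * lamL)
  c2 : (1 + D.P.k1.R * ((1 - 3 / ((D.P.m : ℝ) + 2)) * (31 / 50 + 7 / 50 *
    (3 / ((D.P.m : ℝ) + 2))))) * (53 / 100) ≤ D.P.c2.R * (D.P.m : ℝ) ^ 2
  lx : 0 ≤ (1 - 3 / ((D.P.m : ℝ) + 2)) + 2 * D.lx.R * (1 - 3 / ((D.P.m : ℝ) + 2)) ^ 2 +
    Real.log (1 - (1 - 3 / ((D.P.m : ℝ) + 2)))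
  c4 : 0 ≤ (1 - 3 / ((D.P.m : ℝ) + 2)) + (1 - 3 / ((D.P.m : ℝ) + 2)) ^ 2 / 2 +
    (1 - 3 / ((D.P.m : ℝ) + 2)) ^ 3 / 3 + 2 * D.c4.R * (1 - 3 / ((D.P.m : ℝ) + 2)) ^ 4 +
    Real.log (1 - (1 - 3 / ((D.P.m : ℝ) + 2)))
  pp : D.P.m ≤ 2 * D.pp ∨ (D.P.m = 5 ∧ D.pp = 2)
  pp0 : 0 < D.pp
  g0 : 0 ≤ D.g0.R
  r0 : 0 ≤ D.r0.R
  V0pos : 0 < D.V0
  K0pos : 0 < D.K0
  S0pos : 200 < D.S0

theorem pc_sq_facts {x : ℝ} (hx : x ∈ Ioo (0 : ℝ) 1) :
    0 < sq x ∧ sq x < 1 ∧ sq x ^ 2 = 1 - x ^ 2 := by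
  have h1 : sq x ^ 2 = 1 - x ^ 2 := Real.sq_sqrt (by nlinarith [hx.1, hx.2])
  have h2 : 0 < sq x := Real.sqrt_pos.2 (by nlinarith only [hx.1, hx.2])
  refine ⟨h2, ?_, h1⟩
  nlinarith only [h1, hx.1]

/-- the functional is bounded below by the quadratic form -/
theorem pc_low_in {D : Dat} {lamL : ℝ} (hn : D.Num lamL) {x l u lam R C ρ : ℝ}
    (hin : PcIn D.P.m D.k.R lamL x l u lam) (hR : R ≤ 1 - sq x ^ 2 / (1 + sq x))
    (hC : -(C * (x ^ 2 / sq x ^ 2)) * l ^ 2 ≤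
      sq x * (bg (x * Real.exp l) - bg x) + x ^ 2 * l / (1 + sq x) ^ 2)
    (hpm0 : 0 ≤ pmf D.P.m u) (hpm : pmf D.P.m u ≤ ρ * u ^ 2) :
    pcLow D.P.m D.P.k1.R D.P.th.R D.P.c2.R R C ρ (x ^ 2 / sq x ^ 2) l u lam ≤
      TR D.P.m x (sq x) l u 0 (1 + D.P.k1.R * lam) (Real.exp (l / D.P.m))
        ((1 + u) ^ (1 / (D.P.m : ℝ))) (bg (x * Real.exp l)) (bg x) 0 0 := by
  obtain ⟨hs, hs1, hsx⟩ := pc_sq_facts hin.hx
  have hm5 : (5 : ℝ) ≤ D.P.m := by exact_mod_cast hn.m5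
  have hmpos : (0 : ℝ) < D.P.m := by linarith only [hm5]
  have hmne := hmpos.ne'
  have hk1 := hn.k1pos
  have hmuL : 1 + D.P.k1.R * lamL ≤ 1 + D.P.k1.R * lam := by
    have := mul_le_mul_of_nonneg_left hin.lamlo hk1
    linarith only [this]
  have hmu : 0 < 1 + D.P.k1.R * lam := hn.mu0.trans_le hmuL
  have hmuH : (1 + D.P.k1.R * lam) * (53 / 100) ≤ D.P.c2.R * (D.P.m : ℝ) ^ 2 := by
    have := mul_le_mul_of_nonneg_left hin.lamhi hk1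
    have h2 := hn.c2
    linarith only [h2, this]
  -- the exponential
  set y := l / (D.P.m : ℝ) with hy
  have hy1 : -(9 / 25) ≤ y := by
    rw [hy, le_div_iff₀ hmpos]
    exact hin.llo
  have hl1 : l ≤ 5 / 8 := by
    have h1 := hin.sgn
    have h2 : 0 < x ^ 2 := by have := hin.hx.1; positivity
    have h3 : x ^ 2 < 1 := by rw [← sub_pos, ← hsx]; positivity
    nlinarith only [h1]
  have hy2 : y ≤ 1 / 8 := by
    rw [hy, div_le_iff₀ hmpos]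
    linarith only [hm5, hl1]
  have hyl : l = y * D.P.m := by rw [hy]; (clear * - hmne; field_simp)
  have e1 := pcn_exp_ge hy1
  have e2 := pcn_exp_le hy1 hy2
  refine pc_lower (by linarith only [hm5]) hs hin.hu hR hC hpm0 hpm ?_ ?_ ?_
  · exact mul_nonneg hmu.le (Real.exp_pos _).le
  · have h1 := mul_le_mul_of_nonneg_left e2 hmu.le
    have h2 : (1 + D.P.k1.R * lam) * (53 / 100 * y ^ 2) ≤ D.P.c2.R * l ^ 2 := by
      have := mul_le_mul_of_nonneg_right hmuH (sq_nonneg y)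
      rw [hyl]
      linarith only [this]
    linarith only [h2, h1]
  · have h1 := mul_le_mul_of_nonneg_left e1 hmu.le
    have h2 : D.P.th.R / (2 * D.P.m) * l ^ 2 = D.P.th.R / 2 * y ^ 2 * D.P.m := by
      rw [hyl]
      (clear * - hmne; field_simp)
    have h3 : D.P.th.R / 2 ≤ 11 / 25 * (1 + D.P.k1.R * lam) := by
      have := hn.th
      nlinarith only [hmuL, this]
    have h4 : D.P.th.R / 2 * y ^ 2 * D.P.m ≤
        11 / 25 * (1 + D.P.k1.R * lam) * y ^ 2 * D.P.m := by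
      apply mul_le_mul_of_nonneg_right _ hmpos.le
      exact mul_le_mul_of_nonneg_right h3 (sq_nonneg y)
    rw [h2]
    have h5 : (1 + D.P.k1.R * lam) * D.P.m * (Real.exp y - 1) - (1 + D.P.k1.R * lam) * l =
        ((1 + D.P.k1.R * lam) * (Real.exp y - 1 - y)) * D.P.m := by
      rw [hyl]
      ring
    rw [h5]
    have h6 : (1 + D.P.k1.R * lam) * (11 / 25 * y ^ 2) ≤
        (1 + D.P.k1.R * lam) * (Real.exp y - 1 - y) :=
      mul_le_mul_of_nonneg_left (by linarith only [e1]) hmu.le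
    have h7 := mul_le_mul_of_nonneg_right h6 hmpos.le
    linarith only [h7, h4]

theorem pc_getD {F : List Ex} {x y : ℝ}
    (h : ∃ i, ∀ E ∈ [F].getD i [Ex.c ⟨-1, 0⟩], 0 ≤ E.R x y) : ∀ E ∈ F, 0 ≤ E.R x y := by
  obtain ⟨i, hi⟩ := h
  rcases i with _ | i
  · simpa only [Int.reduceNeg, List.getD_eq_getElem?_getD, List.length_cons, List.length_nil, zero_add,     Order.lt_one_iff, getElem?_pos, List.getElem_cons_zero, Option.getD_some] using hi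
  · exfalso
    have := hi (Ex.c ⟨-1, 0⟩) (by simp)
    rw [Ex.R_c] at this
    simp only [Fr.R, Int.reduceNeg, Int.cast_neg, Int.cast_one, CharP.cast_eq_zero, zero_add, div_one, Left.nonneg_neg_iff] at this
    linarith

theorem pc_getD2 {F G : List Ex} {x y : ℝ}
    (h : ∃ i, ∀ E ∈ [F, G].getD i [Ex.c ⟨-1, 0⟩], 0 ≤ E.R x y) :
    (∀ E ∈ F, 0 ≤ E.R x y) ∨ ∀ E ∈ G, 0 ≤ E.R x y := by
  obtain ⟨i, hi⟩ := h
  rcases i with _ | _ | i
  · left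
    simpa only [Int.reduceNeg, List.getD_eq_getElem?_getD, List.length_cons, List.length_nil, zero_add,     Nat.reduceAdd, Order.lt_two_iff, zero_le, getElem?_pos, List.getElem_cons_zero, Option.getD_some] using hi
  · right
    simpa only [zero_add, Int.reduceNeg, List.getD_eq_getElem?_getD, List.length_cons, List.length_nil,     Nat.reduceAdd, Order.lt_two_iff, Std.le_refl, getElem?_pos, List.getElem_cons_succ, List.getElem_cons_zero,     Option.getD_some] using hi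
  · exfalso
    have := hi (Ex.c ⟨-1, 0⟩) (by simp only [Int.reduceNeg, List.getD_eq_getElem?_getD, List.length_cons, List.length_nil, zero_add, Nat.reduceAdd, Order.lt_two_iff, add_le_iff_nonpos_left, nonpos_iff_eq_zero, Nat.add_eq_zero_iff, one_ne_zero, and_false, not_false_eq_true, getElem?_neg, Option.getD_none, List.mem_cons, List.not_mem_nil, or_false])
    rw [Ex.R_c] at this
    simp only [Fr.R, Int.reduceNeg, Int.cast_neg, Int.cast_one, CharP.cast_eq_zero, zero_add, div_one, Left.nonneg_neg_iff] at this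
    linarith

theorem qR_R (z : Ex) (x y : ℝ) : (qR z).R x y =
    1 / 2 + 3 / 8 * z.R x y + 1 / 16 * (z.R x y * z.R x y) := by
  simp only [qR, Ex.R_add, Ex.R_mul, Ex.R_c, Fr.R]
  (clear * -; norm_num)

theorem qC_R (z : Ex) (x y : ℝ) : (qC z).R x y =
    2 / 5 + 13 / 20 * z.R x y + 22 / 5 * (z.R x y * (z.R x y * z.R x y)) := by
  simp only [qC, Ex.R_add, Ex.R_mul, Ex.R_c, Fr.R]
  (clear * -; norm_num)

/-- **the pointwise inequality, `x < x₀`, `u ≥ 0`** -/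
theorem point_LP {D : Dat} {lamL : ℝ} (hn : D.Num lamL) (hρ : RhoOK D) {t : PT}
    (hk : D.kLP t = true) {x l u lam : ℝ} (hin : PcIn D.P.m D.k.R lamL x l u lam)
    (hxx : x ^ 2 < 3 / ((D.P.m : ℝ) + 2)) (hu : 0 ≤ u) :
    D.P.eps.R * (u ^ 2 / (1 + u)) ≤
      TR D.P.m x (sq x) l u 0 (1 + D.P.k1.R * lam) (Real.exp (l / D.P.m))
        ((1 + u) ^ (1 / (D.P.m : ℝ))) (bg (x * Real.exp l)) (bg x) 0 0 +
      pcNL D.P.m D.P.a1.R D.P.a2.R D.P.a3.R (3 / ((D.P.m : ℝ) + 2)) (x ^ 2) (x ^ 2 / sq x ^ 2)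
        (l - lam) u lam := by
  obtain ⟨hs, hs1, hsx⟩ := pc_sq_facts hin.hx
  have hx0 := hin.hx.1
  have hm5 : (5 : ℝ) ≤ D.P.m := by exact_mod_cast hn.m5
  have hm0 : 0 < D.P.m := by have := hn.m5; omega
  have h37 : 3 / ((D.P.m : ℝ) + 2) ≤ 3 / 7 := by
    apply div_le_div_of_nonneg_left (by norm_num) (by norm_num) (by linarith only [hm5])
  obtain ⟨v, hv⟩ : ∃ v, v = u / x := ⟨_, rfl⟩
  have huv : u = x * v := by rw [hv]; (clear * - hx0; field_simp)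
  have hv0 : 0 ≤ v := by rw [hv]; (clear * - hu hx0; positivity)
  have ht : 0 < 1 - x * x := by linarith only [h37, hxx]
  have hvs : v * sq x ≤ D.k.R := by
    have h1 := hin.uk
    rw [huv] at h1
    have h2 : x * (v * sq x) ≤ x * D.k.R := by linarith only [h1]
    exact le_of_mul_le_mul_left h2 hx0
  have hvs2 : v ^ 2 * (1 - x ^ 2) ≤ D.k.R ^ 2 := by
    rw [← hsx, ← mul_pow]
    exact pow_le_pow_left₀ (by (clear * - hv0 hs; positivity)) hvs 2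
  have hLo : D.loLP.R x v ≤ 0 := by
    simp only [Dat.loLP, Ex.R_sub, Ex.R_mul, Ex.R_c, Ex.R_X, Ex.R_Y, Fr.R1]
    linarith only [hvs2]
  have hX : x ≤ (D.X0 : ℝ) / 1000 :=
    le_of_sq_le_sq (by (clear * - hxx hn; linarith [hn.x0])) (by (clear * -; positivity))
  have hV : v ≤ (D.V0 : ℝ) / 1000 := by
    have h1 : 0 < 1 - 3 / ((D.P.m : ℝ) + 2) := by linarith only [h37]
    have h2 : v ^ 2 * (1 - 3 / ((D.P.m : ℝ) + 2)) ≤
        ((D.V0 : ℝ) / 1000) ^ 2 * (1 - 3 / ((D.P.m : ℝ) + 2)) := by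
      have : v ^ 2 * (1 - 3 / ((D.P.m : ℝ) + 2)) ≤ v ^ 2 * (1 - x ^ 2) :=
        mul_le_mul_of_nonneg_left (by linarith only [hxx]) (sq_nonneg v)
      linarith only [hvs2, this, hn.v0]
    exact le_of_sq_le_sq (le_of_mul_le_mul_right h2 h1) (by (clear * -; positivity))
  have hX0 : (0 : ℤ) < (D.X0 : ℤ) := by
    have : (0 : ℝ) < D.X0 := by
      have := hx0.trans_le hX
      linarith only [hx0, hX]
    exact_mod_cast this
  have hV0 : (0 : ℤ) < (D.V0 : ℤ) := by exact_mod_cast hn.V0pos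
  have hpsd := pc_getD (tchkE_sound hLo t 0 D.X0 1000 0 D.V0 1000 (by norm_num) (by norm_num) hX0
    hV0 hk (by push_cast; linarith only [hx0]) (by push_cast; linarith only [hX]) (by push_cast; linarith only [hv0])
    (by push_cast; linarith only [hV]))
  have hF := formLP hpsd hn.e0 ht
  have hreg := regLP (t := sq x ^ 2) (l := l) (lam := lam) hm0 hsx (by positivity)
    (by rw [← huv]; exact hin.hu) (by linarith only [hxx]) hF
  rw [← huv] at hreg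
  refine hreg.trans (add_le_add_left (pc_low_in hn hin ?_ ?_ (hρ.nn u hin.hu) ?_) _)
  · rw [qR_R]
    simp only [Ex.R_mul, Ex.R_X]
    have h1 := pcn_R hs.le hs1.le
    have h2 : x * x = 1 - sq x ^ 2 := by rw [hsx]; ring
    rw [h2]
    exact h1
  · rw [qC_R]
    simp only [Ex.R_mul, Ex.R_X]
    have h1 := Corr.corr_A hx0 (by (clear * - hxx h37; linarith)) hin.tau1 (by rw [hsx]; exact hin.sgn)
    refine (le_of_eq ?_).trans h1
    ring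
  · have h1 := hρ.a u hu (by
      have h2 : v ^ 2 * (1 - 3 / ((D.P.m : ℝ) + 2)) ≤ D.k.R ^ 2 := by
        have : v ^ 2 * (1 - 3 / ((D.P.m : ℝ) + 2)) ≤ v ^ 2 * (1 - x ^ 2) :=
          mul_le_mul_of_nonneg_left (by linarith only [hxx]) (sq_nonneg v)
        linarith only [hvs2, this]
      have h3 : 1 - 3 / ((D.P.m : ℝ) + 2) = ((D.P.m : ℝ) - 1) / ((D.P.m : ℝ) + 2) := by
        field_simp
        ring
      rw [h3, ← mul_div_assoc, div_le_iff₀ (by linarith only [])] at h2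
      have h4 : x ^ 2 * ((D.P.m : ℝ) + 2) ≤ 3 := by
        rw [lt_div_iff₀ (by linarith only [])] at hxx
        exact hxx.le
      rw [huv, mul_pow]
      calc x ^ 2 * v ^ 2 * ((D.P.m : ℝ) - 1) = x ^ 2 * (v ^ 2 * ((D.P.m : ℝ) - 1)) := by ring
        _ ≤ x ^ 2 * (D.k.R ^ 2 * ((D.P.m : ℝ) + 2)) :=
            mul_le_mul_of_nonneg_left h2 (sq_nonneg x)
        _ = (x ^ 2 * ((D.P.m : ℝ) + 2)) * D.k.R ^ 2 := by ring
        _ ≤ 3 * D.k.R ^ 2 := mul_le_mul_of_nonneg_right h4 (sq_nonneg _))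
    rw [div_mul_eq_mul_div, le_div_iff₀ hin.hu]
    simp only [Dat.rbLP, Ex.R_sub, Ex.R_add, Ex.R_c, Ex.R_mul, Ex.R_X, Ex.R_Y]
    rw [← huv]
    exact h1

theorem exgeo_w0 (z : Ex) : exgeo z 0 = Ex.c ⟨0, 0⟩ := rfl

theorem exgeo_w1 (z : Ex) (n : ℕ) : exgeo z (n + 1) = Ex.c ⟨1, 0⟩ + (Ex.c ⟨1, 0⟩ - z) * exgeo z n := rfl

theorem exgeo_R (z n1 : ℝ) (n : ℕ) : (exgeo Ex.X n).R z n1 * z = 1 - (1 - z) ^ n := by
  induction n with
  | zero => simp only [exgeo_w0, Ex.R_c, Fr.R, Int.cast_zero, CharP.cast_eq_zero, zero_add, div_one, zero_mul, pow_zero, sub_self]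
  | succ n ih =>
    simp only [exgeo_w1, Ex.R_add, Ex.R_sub, Ex.R_mul, Ex.R_c, Ex.R_X, Fr.R1]
    have : (1 + (1 - z) * (exgeo Ex.X n).R z n1) * z =
        z + (1 - z) * ((exgeo Ex.X n).R z n1 * z) := by ring
    rw [this, ih, pow_succ]
    ring

theorem exgeo_le {z n1 : ℝ} (h0 : 0 ≤ z) (h1 : z ≤ 1) (n : ℕ) :
    0 ≤ (exgeo Ex.X n).R z n1 ∧ (exgeo Ex.X n).R z n1 ≤ n := by
  induction n with
  | zero => simp only [exgeo_w0, Ex.R_c, Fr.R, Int.cast_zero, CharP.cast_eq_zero, zero_add, div_one, Std.le_refl, and_self]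
  | succ n ih =>
    simp only [exgeo_w1, Ex.R_add, Ex.R_sub, Ex.R_mul, Ex.R_c, Ex.R_X, Fr.R1]
    push_cast
    have h2 : 0 ≤ 1 - z := by linarith only [h1]
    have h3 := mul_nonneg h2 ih.1
    refine ⟨by linarith only [h3], ?_⟩
    nlinarith only [ih, h0]

/-- **the pointwise inequality, `x < x₀`, `u ≤ 0`** -/
theorem point_LM {D : Dat} {lamL : ℝ} (hn : D.Num lamL) (hρ : RhoOK D) {t : PT}
    (hk : D.kLM t = true) {x l u lam : ℝ} (hin : PcIn D.P.m D.k.R lamL x l u lam)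
    (hxx : x ^ 2 < 3 / ((D.P.m : ℝ) + 2)) (hu : u ≤ 0) :
    D.P.eps.R * (u ^ 2 / (1 + u)) ≤
      TR D.P.m x (sq x) l u 0 (1 + D.P.k1.R * lam) (Real.exp (l / D.P.m))
        ((1 + u) ^ (1 / (D.P.m : ℝ))) (bg (x * Real.exp l)) (bg x) 0 0 +
      pcNL D.P.m D.P.a1.R D.P.a2.R D.P.a3.R (3 / ((D.P.m : ℝ) + 2)) (x ^ 2) (x ^ 2 / sq x ^ 2)
        (l - lam) u lam := by
  obtain ⟨hs, hs1, hsx⟩ := pc_sq_facts hin.hx
  have hx0 := hin.hx.1
  have hm5 : (5 : ℝ) ≤ D.P.m := by exact_mod_cast hn.m5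
  have hm0 : 0 < D.P.m := by have := hn.m5; omega
  have hm1 : 1 ≤ D.P.m := by omega
  have h37 : 3 / ((D.P.m : ℝ) + 2) ≤ 3 / 7 := by
    apply div_le_div_of_nonneg_left (by norm_num) (by norm_num) (by linarith only [hm5])
  obtain ⟨z, hz⟩ : ∃ z, z = x ^ 2 := ⟨_, rfl⟩
  have hz0 : 0 < z := by rw [hz]; positivity
  have hz1 : z < 1 := by rw [hz]; linarith
  obtain ⟨n1, hn1⟩ : ∃ n1, n1 = -u / z := ⟨_, rfl⟩
  have hun : u = -(z * n1) := by rw [hn1]; (clear * - hz0; field_simp)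
  have hn0 : 0 ≤ n1 := by rw [hn1]; apply div_nonneg (by linarith only [hu]) hz0.le
  -- the lower bound of `1 + u`
  have hE : (1 - z) ^ D.pp ≤ 1 + u := by
    rw [hz, ← hsx, ← pow_mul]
    rcases hn.pp with h | ⟨h1, h2⟩
    · exact (pow_le_pow_of_le_one hs.le hs1.le h).trans hin.Es
    · rw [h2]
      exact hin.E4 h1 (by linarith only [hxx, h37])
  have hgz := exgeo_R z n1 D.pp
  have hgl := exgeo_le (n1 := n1) hz0.le hz1.le D.pp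
  have hn2 : n1 ≤ (exgeo Ex.X D.pp).R z n1 := by
    have h1 : z * n1 ≤ z * (exgeo Ex.X D.pp).R z n1 := by
      have : z * n1 = -u := by rw [hun]; ring
      rw [this, mul_comm, hgz]
      linarith only [hE]
    exact le_of_mul_le_mul_left h1 hz0
  have hLo : D.loLM.R z n1 ≤ 0 := by
    simp only [Dat.loLM, Ex.R_sub, Ex.R_Y]
    linarith only [hn2]
  have hz3 : ((D.P.m + 2 : ℕ) : ℝ) * z ≤ 3 := by
    rw [lt_div_iff₀ (by linarith only []), ← hz] at hxx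
    push_cast
    linarith only [hxx]
  have hpsd := pc_getD (tchkE_sound hLo t 0 3 (D.P.m + 2) 0 D.pp 1 (by omega) (by norm_num)
    (by norm_num) (by exact_mod_cast hn.pp0) hk
    (by push_cast; exact mul_nonneg (by positivity) hz0.le) (by push_cast at hz3 ⊢; exact hz3) (by push_cast; linarith only [hn0])
    (by push_cast; linarith only [hgl, hn2]))
  have hF := formLM hpsd hn.e0 hz0 (by linarith only [hxx, h37, hz])
  have hb := hρ.b u hin.hu hu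
  have hrb : (D.rbLM).R z n1 = D.r0.R + D.r1.R * u + D.r2.R * (u * u) := by
    simp only [Dat.rbLM, Ex.R_add, Ex.R_sub, Ex.R_mul, Ex.R_c, Ex.R_X, Ex.R_Y]
    rw [hun]
    ring
  have hrb0 : 0 ≤ (D.rbLM).R z n1 := by
    rw [hrb]
    rcases hu.eq_or_lt with h | h
    · rw [h]
      simpa only [mul_zero, add_zero] using hn.r0
    · have h1 : 0 ≤ pmf D.P.m u * (1 + u) := mul_nonneg (hρ.nn u hin.hu) hin.hu.le
      have h2 : 0 < u ^ 2 := by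
        have := h.ne
        (clear * - this; positivity)
      exact nonneg_of_mul_nonneg_left (h1.trans hb) h2
  have hreg := regLM (x := x) (t := sq x ^ 2) (l := l) (lam := lam) hm0 hz hx0 hsx (by positivity)
    (by have := hin.hu; rw [hun] at this; linarith only [this]) (by (clear * - hxx; linarith)) hn0 hrb0
    (by rw [Ex.R_c, Fr.R1]; norm_num) hm1 (by rw [hsx, hz]; exact hin.sgn) hF
  rw [← hun] at hreg
  refine hreg.trans (add_le_add_left (pc_low_in hn hin ?_ ?_ (hρ.nn u hin.hu) ?_) _)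
  · rw [qR_R]
    simp only [Ex.R_X]
    have h1 := pcn_R hs.le hs1.le
    have h2 : z = 1 - sq x ^ 2 := by rw [hsx, hz]; ring
    rw [h2]
    exact h1
  · rw [qC_R]
    simp only [Ex.R_X]
    have h1 := Corr.corr_A hx0 (by (clear * - hxx h37; linarith)) hin.tau1 (by rw [hsx]; exact hin.sgn)
    refine (le_of_eq ?_).trans h1
    rw [hz]
    ring
  · rw [div_mul_eq_mul_div, le_div_iff₀ hin.hu, hrb]
    exact hb

end Vale.Agent.P237.AllN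
end

section

/-!
# P237, plain certificate (m ≥ 5): from the quadratic forms to the pointwise inequality (right, `u ≤ 0`)
-/

namespace Vale.Agent.P237.AllN

open PolyPos

theorem regRM {P : Pm} (hm : 0 < P.m) {kap ly C rh s E z t l lam : ℝ}
    (hs : 0 < s) (hts : t = s * s) (hz : z = 1 - t) (hz0 : 0 ≤ z) (hE : 0 < E) (hE1 : E ≤ 1)
    (hδ : z - 3 / ((P.m : ℝ) + 2) ≠ 0) (hrb : 0 ≤ rh) (hkap : 0 ≤ kap)
    (hm1 : 1 ≤ P.m) (hl : l ≤ t * ly)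
    (hF : FormNN (entRM Fr.R P kap ly C rh s E)) :
    P.eps.R * ((E - 1) ^ 2 / (1 + (E - 1))) ≤
      pcLow P.m P.k1.R P.th.R P.c2.R (1 - t / (1 + s)) C (rh / (1 + (E - 1))) (z / t) l
        (E - 1) lam +
      pcNR P.m P.a4.R (3 / ((P.m : ℝ) + 2)) z (z / t) (l - lam) (E - 1) := by
  have hm' : (P.m : ℝ) ≠ 0 := by exact_mod_cast hm.ne'
  have hm2 : (1 : ℝ) ≤ P.m := by exact_mod_cast hm1
  have hm1 : (P.m : ℝ) + 1 ≠ 0 := by positivity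
  have ht : 0 < t := by rw [hts]; positivity
  have htne := ht.ne'
  have hs1 : (1 : ℝ) + s ≠ 0 := by positivity
  set e := (l - lam) / (z - 3 / ((P.m : ℝ) + 2)) with hedef
  have h := hF (E - 1) (e / t) (lam / t)
  have h1 : 0 ≤ ((P.m : ℝ) - 1) / (P.m + 1) := div_nonneg (by linarith only [hm2]) (by linarith only [])
  have hS : 0 ≤ 3 * (((P.m : ℝ) - 1) / (P.m + 1)) * z + 1 / (P.m : ℝ) * (rh * t) := by
    (clear * - hm2 hm hz0 hrb ht; positivity)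
  have hn : 0 ≤ 1 - E := by linarith only [hE1]
  have hη : 0 ≤ kap * (1 - E) *
      ((3 * (((P.m : ℝ) - 1) / (P.m + 1)) * z + 1 / (P.m : ℝ) * (rh * t)) / t) := by
    (clear * - hkap hE1 hm2 hm hz0 hrb ht; positivity)
  refine pc_right_ge (η := kap * (1 - E) *
      ((3 * (((P.m : ℝ) - 1) / (P.m + 1)) * z + 1 / (P.m : ℝ) * (rh * t)) / t))
    (lm := t * ly) (e := e) hm' ht (by linarith only [hE]) hδ ?_ hη (Or.inr hl) ?_
  · rw [hedef, mul_comm, div_mul_cancel₀ _ hδ]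
    ring
  · refine nonneg_of_mul_nonneg_right (a := 1 + s) (h.trans (le_of_eq ?_)) (by linarith only [hs])
    simp only [entRM, Fr.R1, Fr.R2, Fr.R3, Fr.R12, Fr.R32, Fr.R92, Pm.cx_R, Pm.cg_R, Pm.c1_R,
      Pm.c3_R, Pm.ci_R P hm, Pm.ch_R P hm]
    rw [← hts, ← hz]
    clear_value e
    field_simp
    ring

end Vale.Agent.P237.AllN
end

section

/-!
# P237, plain certificate (m ≥ 5): the pointwise inequality on the right
-/

open Set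

namespace Vale.Agent.P237.AllN

open PolyPos

/-- the correction on the right, `u ≤ 0`: constant `2` -/
theorem corr_R2 {x l : ℝ} (hx : x ∈ Ioo (0 : ℝ) 1) (h1 : x * Real.exp l ≤ 1)
    (hl : l ≤ (1 - x ^ 2) * (31 / 50 + 7 / 50 * x ^ 2)) :
    -(2 * (x ^ 2 / sq x ^ 2)) * l ^ 2 ≤
      sq x * (bg (x * Real.exp l) - bg x) + x ^ 2 * l / (1 + sq x) ^ 2 := by
  obtain ⟨hs, hs1, hsx⟩ := pc_sq_facts hx
  rcases le_or_gt (x ^ 2) (3 / 7) with h | h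
  · have h2 := Corr.corr_A hx.1 h h1 (by rw [hsx]; exact hl)
    refine le_trans ?_ h2
    have h3 : 2 / 5 + 13 * x ^ 2 / 20 + 22 * (x ^ 2) ^ 3 / 5 ≤ 2 := by
      have h4 : (x ^ 2) ^ 3 ≤ (3 / 7) ^ 3 := pow_le_pow_left₀ (sq_nonneg x) h 3
      linarith only [h, h4]
    have h5 : 0 ≤ x ^ 2 / sq x ^ 2 * l ^ 2 := by (clear * - hs; positivity)
    nlinarith only [h3, h5]
  · exact Corr.corr_B hx.1 hx.2 h.le h1

/-- the correction on the right, `u ≥ 0`: constant `3/2` -/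
theorem corr_R3 {m : ℕ} {x l u : ℝ} (hx : x ∈ Ioo (0 : ℝ) 1) (hu : 0 ≤ u)
    (h1 : x * Real.exp l ≤ 1)
    (hl : l ≤ (1 - x ^ 2) * (31 / 50 + 7 / 50 * x ^ 2))
    (ht : (1 + (1 + u) * (sq x ^ 2 / (((m : ℝ) + 2) - ((m : ℝ) + 1) * sq x ^ 2))) *
      (x * Real.exp l) ≤ 1) (hm15 : m ≤ 14) :
    -(3 / 2 * (x ^ 2 / sq x ^ 2)) * l ^ 2 ≤
      sq x * (bg (x * Real.exp l) - bg x) + x ^ 2 * l / (1 + sq x) ^ 2 := by
  obtain ⟨hs, hs1, hsx⟩ := pc_sq_facts hx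
  rcases le_or_gt (x ^ 2) (3 / 7) with h | h
  · have h2 := Corr.corr_A hx.1 h h1 (by rw [hsx]; exact hl)
    refine le_trans ?_ h2
    have h3 : 2 / 5 + 13 * x ^ 2 / 20 + 22 * (x ^ 2) ^ 3 / 5 ≤ 3 / 2 := by
      have h4 : (x ^ 2) ^ 3 ≤ (3 / 7) ^ 3 := pow_le_pow_left₀ (sq_nonneg x) h 3
      linarith only [h, h4]
    have h5 : 0 ≤ x ^ 2 / sq x ^ 2 * l ^ 2 := by (clear * - hs; positivity)
    nlinarith only [h3, h5]
  · refine Corr.corr_C hx.1 hx.2 h.le (le_trans ?_ ht)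
    have hxl : 0 < x * Real.exp l := mul_pos hx.1 (Real.exp_pos l)
    apply mul_le_mul_of_nonneg_right _ hxl.le
    have hmr : (m : ℝ) ≤ 14 := by exact_mod_cast hm15
    have hs2 : sq x ^ 2 ≤ 1 := by nlinarith only [hsx]
    have hG : 0 < ((m : ℝ) + 2) - ((m : ℝ) + 1) * sq x ^ 2 := by nlinarith only [hsx]
    have hG2 : ((m : ℝ) + 2) - ((m : ℝ) + 1) * sq x ^ 2 ≤ 16 - 15 * sq x ^ 2 := by linarith only [mul_eq_zero_of_left (sub_eq_zero.2 hsx) (14 - (↑m)), mul_nonneg (sq_nonneg (x : ℝ)) (sub_nonneg.2 hmr)]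
    have h6 : sq x ^ 2 / (16 - 15 * sq x ^ 2) ≤
        sq x ^ 2 / (((m : ℝ) + 2) - ((m : ℝ) + 1) * sq x ^ 2) :=
      div_le_div_of_nonneg_left (sq_nonneg _) hG hG2
    have h7 : 0 ≤ sq x ^ 2 / (((m : ℝ) + 2) - ((m : ℝ) + 1) * sq x ^ 2) := by (clear * - hs hG; positivity)
    nlinarith only [h6, hu, h7]

theorem expow_w0 (q : Ex) : expow q 0 = Ex.c ⟨1, 0⟩ := rfl

theorem expow_w1 (q : Ex) (n : ℕ) : expow q (n + 1) = q * expow q n := rfl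

theorem expow_R (x y : ℝ) (n : ℕ) : (expow Ex.X n).R x y = x ^ n := by
  induction n with
  | zero => simp only [expow_w0, Ex.R_c, Fr.R, Int.cast_one, CharP.cast_eq_zero, zero_add, ne_eq, one_ne_zero, not_false_eq_true, div_self, pow_zero]
  | succ n ih =>
    simp only [expow_w1, Ex.R_mul, Ex.R_X, ih, pow_succ]
    ring

/-- **the pointwise inequality, `x > x₀`, `u ≤ 0`**, one piece -/
theorem point_RM {D : Dat} {lamL : ℝ} (hn : D.Num lamL) (hρ : RhoOK D) {rb : Ex} {ex : ℕ}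
    {s0 s1 e0 e1 : ℤ} {t : PT} (hs01 : s0 < s1) (he01 : e0 < e1)
    (hk : D.kRM rb ex s0 s1 e0 e1 t = true) {x l u lam : ℝ}
    (hin : PcIn D.P.m D.k.R lamL x l u lam)
    (hxx : 3 / ((D.P.m : ℝ) + 2) < x ^ 2) (hu : u ≤ 0)
    (hsl : (s0 : ℝ) ≤ 1000 * sq x) (hsr : 1000 * sq x ≤ s1)
    (hel : (e0 : ℝ) ≤ 1000 * (1 + u)) (her : 1000 * (1 + u) ≤ e1)
    (hex : sq x ^ ex ≤ 1 + u)
    (hpm : pmf D.P.m u * (1 + u) ≤ rb.R (sq x) (1 + u) * u ^ 2)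
    (hrb0 : 0 ≤ rb.R (sq x) (1 + u)) :
    D.P.eps.R * (u ^ 2 / (1 + u)) ≤
      TR D.P.m x (sq x) l u 0 (1 + D.P.k1.R * lam) (Real.exp (l / D.P.m))
        ((1 + u) ^ (1 / (D.P.m : ℝ))) (bg (x * Real.exp l)) (bg x) 0 0 +
      pcNR D.P.m D.P.a4.R (3 / ((D.P.m : ℝ) + 2)) (x ^ 2) (x ^ 2 / sq x ^ 2) (l - lam) u := by
  obtain ⟨hs, hs1, hsx⟩ := pc_sq_facts hin.hx
  have hx0 := hin.hx.1
  have hm5 : (5 : ℝ) ≤ D.P.m := by exact_mod_cast hn.m5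
  have hm0 : 0 < D.P.m := by have := hn.m5; omega
  have hm1 : 1 ≤ D.P.m := by omega
  have hLo : (D.loRM ex).R (sq x) (1 + u) ≤ 0 := by
    simp only [Dat.loRM, Ex.R_sub, Ex.R_Y, expow_R]
    linarith only [hex]
  have hpsd := pc_getD (tchkE_sound hLo t s0 s1 1000 e0 e1 1000 (by norm_num) (by norm_num) hs01
    he01 hk (by push_cast; exact hsl) (by push_cast; exact hsr) (by push_cast; exact hel)
    (by push_cast; exact her))
  have hF := formRM hpsd hn.e0 hs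
  have hly : D.ly.R (sq x) (1 + u) = 1 / 2 + D.lx.R * sq x ^ 2 := by
    simp only [Dat.ly, Ex.R_add, Ex.R_c, Fr.R12, Ex.R_mul, Ex.R_X]
    ring
  have ht1 : sq x ^ 2 ≤ 1 - 3 / ((D.P.m : ℝ) + 2) := by rw [hsx]; linarith only [hxx]
  have hl : l ≤ sq x ^ 2 * D.ly.R (sq x) (1 + u) := by
    have h1 := pcn_log2 (T := 1 - 3 / ((D.P.m : ℝ) + 2)) (by
      have : 0 < 3 / ((D.P.m : ℝ) + 2) := by (clear * - hm0; positivity)
      linarith only [this]) hn.lx (sq_nonneg (sq x)) ht1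
    have h2 : Real.log (1 - sq x ^ 2) = 2 * Real.log x := by
      rw [hsx, show (1 : ℝ) - (1 - x ^ 2) = x ^ 2 by ring, Real.log_pow]
      (clear * -; norm_num)
    have h3 : Real.log x + l ≤ 0 := by
      have := Real.log_nonpos (mul_pos hx0 (Real.exp_pos l)).le hin.tau1
      rwa [Real.log_mul hx0.ne' (Real.exp_pos l).ne', Real.log_exp] at this
    rw [hly]
    rw [h2] at h1
    linarith only [h3, h1]
  have hreg := regRM (l := l) (lam := lam) (z := x ^ 2) (t := sq x ^ 2) (E := 1 + u) hm0 hs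
    (by ring) (by rw [hsx]; ring) (sq_nonneg x) hin.hu (by linarith only [hu]) (by linarith only [hxx]) hrb0
    (by rw [Ex.R_c, Fr.R1]; norm_num) hm1 hl hF
  rw [show 1 + u - 1 = u by ring] at hreg
  refine hreg.trans (add_le_add_left (pc_low_in hn hin le_rfl ?_ (hρ.nn u hin.hu) ?_) _)
  · rw [Ex.R_c, Fr.R2]
    exact corr_R2 hin.hx hin.tau1 hin.sgn
  · rw [div_mul_eq_mul_div, le_div_iff₀ hin.hu]
    exact hpm

/-- the tail bound in the form used for `u ≥ 0` -/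
theorem pc_tail_in {D : Dat} {lamL : ℝ} (hn : D.Num lamL) {x l u lam y : ℝ}
    (hin : PcIn D.P.m D.k.R lamL x l u lam)
    (hxx : 3 / ((D.P.m : ℝ) + 2) < x ^ 2) {D2 : ℝ}
    (hD2 : D2 * (1 + u) = 2 * (((D.P.m : ℝ) + 2) - ((D.P.m : ℝ) + 1) * sq x ^ 2) +
      sq x ^ 2 * (1 + u)) :
    0 < D2 ∧ l ≤ sq x ^ 2 * (D.lp.R (sq x) y - 2 / D2) := by
  obtain ⟨hs, hs1, hsx⟩ := pc_sq_facts hin.hx
  have hx0 := hin.hx.1
  have hm5 : (5 : ℝ) ≤ D.P.m := by exact_mod_cast hn.m5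
  have hu := hin.hu
  have hs2 : sq x ^ 2 < 1 := by nlinarith only [hs1, hs]
  have hs20 : 0 < sq x ^ 2 := by (clear * - hs; positivity)
  have hG : 0 < ((D.P.m : ℝ) + 2) - ((D.P.m : ℝ) + 1) * sq x ^ 2 := by nlinarith only [hs2]
  have hD0 : 0 < D2 := by
    have h1 : 0 < D2 * (1 + u) := by
      rw [hD2]
      (clear * - hG hs hu; positivity)
    exact (pos_iff_pos_of_mul_pos h1).2 hu
  refine ⟨hD0, ?_⟩
  have hlp : D.lp.R (sq x) y = 1 / 2 + 1 / 4 * sq x ^ 2 + 1 / 6 * (sq x ^ 2) ^ 2 +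
      D.c4.R * (sq x ^ 2) ^ 3 := by
    simp only [Dat.lp, Ex.R_add, Ex.R_mul, Ex.R_c, Ex.R_X, Fr.R12]
    have r4 : Fr.R ⟨1, 3⟩ = 1 / 4 := by simp only [Fr.R, Int.cast_one, Nat.cast_ofNat, one_div, inv_inj]; norm_num
    have r6 : Fr.R ⟨1, 5⟩ = 1 / 6 := by simp only [Fr.R, Int.cast_one, Nat.cast_ofNat, one_div, inv_inj]; norm_num
    rw [r4, r6]
    ring
  have ht1 : sq x ^ 2 ≤ 1 - 3 / ((D.P.m : ℝ) + 2) := by rw [hsx]; linarith only [hxx]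
  have h1 := pcn_log4 (T := 1 - 3 / ((D.P.m : ℝ) + 2)) (by
      have : 0 < 3 / ((D.P.m : ℝ) + 2) := by positivity
      linarith only [this]) hn.c4 (sq_nonneg (sq x)) ht1
  refine pcn_tail (q := (1 + u) * (sq x ^ 2 / (((D.P.m : ℝ) + 2) -
    ((D.P.m : ℝ) + 1) * sq x ^ 2))) hx0 hsx (by (clear * - hu hs hG; positivity)) ?_ ?_ hin.tail
  · rw [hlp]
    refine h1.trans_eq ?_
    ring
  · have hDne := hD0.ne'
    have hGne := hG.ne'
    set G := ((D.P.m : ℝ) + 2) - ((D.P.m : ℝ) + 1) * sq x ^ 2 with hGdef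
    have h2 : 2 + (1 + u) * (sq x ^ 2 / G) = D2 * (1 + u) / G := by
      rw [hD2]
      (clear * - hGne hG hu hs; field_simp)
    rw [h2]
    have hune := hu.ne'
    field_simp

/-- **the pointwise inequality, `x > x₀`, `u ≥ 0`**, from the positivity of the form -/
theorem point_RP {D : Dat} {lamL : ℝ} (hn : D.Num lamL) (hρ : RhoOK D) (hm14 : D.P.m ≤ 14)
    {kap rb : Ex} {x l u lam be : ℝ}
    (hin : PcIn D.P.m D.k.R lamL x l u lam)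
    (hxx : 3 / ((D.P.m : ℝ) + 2) < x ^ 2) (hu : 0 ≤ u) (hbe : be = 1 / (1 + u))
    (hpsd : ∀ p ∈ psdE (entRP Ex.c D.P kap D.lp (Ex.c ⟨3, 1⟩) rb Ex.X Ex.Y), 0 ≤ p.R (sq x) be)
    (hkap : 0 ≤ kap.R (sq x) be)
    (hpm : pmf D.P.m u * (1 + u) ≤ rb.R (sq x) be * u ^ 2)
    (hrb0 : 0 ≤ rb.R (sq x) be) :
    D.P.eps.R * (u ^ 2 / (1 + u)) ≤
      TR D.P.m x (sq x) l u 0 (1 + D.P.k1.R * lam) (Real.exp (l / D.P.m))
        ((1 + u) ^ (1 / (D.P.m : ℝ))) (bg (x * Real.exp l)) (bg x) 0 0 +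
      pcNR D.P.m D.P.a4.R (3 / ((D.P.m : ℝ) + 2)) (x ^ 2) (x ^ 2 / sq x ^ 2) (l - lam) u := by
  obtain ⟨hs, hs1, hsx⟩ := pc_sq_facts hin.hx
  have hx0 := hin.hx.1
  have hm5 : (5 : ℝ) ≤ D.P.m := by exact_mod_cast hn.m5
  have hm0 : 0 < D.P.m := by have := hn.m5; omega
  have hm1 : 1 ≤ D.P.m := by omega
  have hu1 := hin.hu
  have hune := hu1.ne'
  have hbe0 : 0 < be := by rw [hbe]; (clear * - hu; positivity)
  have hbu : be * (1 + u) = 1 := by rw [hbe]; (clear * - hune; field_simp)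
  obtain ⟨hD0, hl⟩ := pc_tail_in hn (y := be) hin hxx
    (D2 := 2 * be * ((D.P.m : ℝ) + 2 - ((D.P.m : ℝ) + 1) * sq x ^ 2) + sq x ^ 2) (by
      have : (2 * be * ((D.P.m : ℝ) + 2 - ((D.P.m : ℝ) + 1) * sq x ^ 2) + sq x ^ 2) * (1 + u) =
        2 * ((D.P.m : ℝ) + 2 - ((D.P.m : ℝ) + 1) * sq x ^ 2) * (be * (1 + u)) +
          sq x ^ 2 * (1 + u) := by ring
      rw [this, hbu, mul_one])
  have hF := formRP hpsd hn.e0 hs (by rw [← pow_two]; exact hD0)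
  have hreg := regRP (l := l) (lam := lam) (z := x ^ 2) (t := sq x ^ 2) (u := u) hm0 hs
    (by ring) (by rw [hsx]; ring) (sq_nonneg x) hbe0 (by rw [hbe]; field_simp; ring)
    (by linarith only [hxx]) hrb0 hkap hm1 hD0 hl hF
  refine hreg.trans (add_le_add_left (pc_low_in hn hin le_rfl ?_ (hρ.nn u hin.hu) ?_) _)
  · rw [Ex.R_c, Fr.R32]
    exact corr_R3 hin.hx hu hin.tau1 hin.sgn hin.tail hm14
  · rw [div_mul_eq_mul_div, le_div_iff₀ hin.hu]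
    exact hpm

theorem point_RP1 {D : Dat} {lamL : ℝ} (hn : D.Num lamL) (hρ : RhoOK D) (hm14 : D.P.m ≤ 14)
    {t : PT} (hk : D.kRP1 t = true) {x l u lam : ℝ}
    (hin : PcIn D.P.m D.k.R lamL x l u lam)
    (hxx : 3 / ((D.P.m : ℝ) + 2) < x ^ 2) (hu : 0 ≤ u) (hsl : 200 ≤ 1000 * sq x)
    (hsr : 1000 * sq x ≤ D.S0) (hb : 7 * (1 + u) ≤ 20) :
    D.P.eps.R * (u ^ 2 / (1 + u)) ≤
      TR D.P.m x (sq x) l u 0 (1 + D.P.k1.R * lam) (Real.exp (l / D.P.m))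
        ((1 + u) ^ (1 / (D.P.m : ℝ))) (bg (x * Real.exp l)) (bg x) 0 0 +
      pcNR D.P.m D.P.a4.R (3 / ((D.P.m : ℝ) + 2)) (x ^ 2) (x ^ 2 / sq x ^ 2) (l - lam) u := by
  obtain ⟨hs, hs1, hsx⟩ := pc_sq_facts hin.hx
  have hx0 := hin.hx.1
  have hu1 := hin.hu
  have hune := hu1.ne'
  obtain ⟨be, hbe⟩ : ∃ be, be = 1 / (1 + u) := ⟨_, rfl⟩
  have hbe0 : 0 < be := by rw [hbe]; (clear * - hu; positivity)
  have hbu : be * (1 + u) = 1 := by rw [hbe]; field_simp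
  have hbe1 : be ≤ 1 := by nlinarith only [hbu, hu]
  have hb35 : 35 ≤ 100 * be := by nlinarith only [hb, hbu, hu]
  have hk0 := hn.kpos
  have hLo : D.loRP.R (sq x) be ≤ 0 := by
    simp only [Dat.loRP, Ex.R_sub, Ex.R_mul, Ex.R_c, Ex.R_X, Ex.R_Y, Fr.R1]
    have h1 : (1 - be) * sq x ≤ be * D.k.R * x := by
      have h2 := mul_le_mul_of_nonneg_left hin.uk hbe0.le
      have h3 : be * u = 1 - be := by linarith only [hbu]
      calc (1 - be) * sq x = be * (u * sq x) := by rw [← h3]; ring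
        _ ≤ be * (D.k.R * x) := h2
        _ = be * D.k.R * x := by ring
    have h4 := pow_le_pow_left₀ (by have : 0 ≤ 1 - be := by linarith only [hbe1]
                                    (clear * - hbe1 hs; positivity)) h1 2
    have h5 : (be * D.k.R * x) ^ 2 = be * be * (D.k.R * D.k.R) * (1 - sq x * sq x) := by
      have : x ^ 2 = 1 - sq x * sq x := by rw [← pow_two, hsx]; ring
      rw [mul_pow, this]
      ring
    rw [h5] at h4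
    linarith only [h4]
  have hpm : pmf D.P.m u * (1 + u) ≤ D.rbP.R (sq x) be * u ^ 2 := by
    have h1 := hρ.e u hu (1 - be) (by linarith only [hbu]) (by linarith only [hb35])
    refine h1.trans_eq ?_
    simp only [Dat.rbP, Ex.R_add, Ex.R_c, Ex.R_mul, Ex.R_sub, Fr.R1, Ex.R_Y]
  have hrb0 : 0 ≤ D.rbP.R (sq x) be := by
    rcases hu.eq_or_lt with h | h
    · have h1 : be = 1 := by rw [hbe, ← h]; norm_num
      simp only [Dat.rbP, Ex.R_add, Ex.R_sub, Ex.R_mul, Ex.R_c, Ex.R_Y, Fr.R1, h1]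
      simpa only [sub_self, mul_zero, add_zero, ge_iff_le] using hn.r0
    · have h1 : 0 ≤ pmf D.P.m u * (1 + u) := mul_nonneg (hρ.nn u hin.hu) hin.hu.le
      exact nonneg_of_mul_nonneg_left (h1.trans hpm) (by (clear * - h; positivity))
  have hor := pc_getD2 (tchkE_sound hLo t 200 D.S0 1000 35 100 100 (by norm_num) (by norm_num)
    (by exact_mod_cast hn.S0pos) (by norm_num) hk (by push_cast; linarith only [hsl])
    (by push_cast; exact hsr) (by push_cast; linarith only [hb35]) (by push_cast; linarith only [hbe1]))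
  rcases hor with h | h
  · exact point_RP hn hρ hm14 hin hxx hu hbe h (by rw [Ex.R_c]; unfold Fr.R; norm_num) hpm hrb0
  · exact point_RP hn hρ hm14 hin hxx hu hbe h (by rw [Ex.R_c]; unfold Fr.R; norm_num) hpm hrb0

theorem point_RP2 {D : Dat} {lamL : ℝ} (hn : D.Num lamL) (hρ : RhoOK D) (hm14 : D.P.m ≤ 14)
    {t : PT} (hk : D.kRP2 t = true) {x l u lam : ℝ}
    (hin : PcIn D.P.m D.k.R lamL x l u lam)
    (hxx : 3 / ((D.P.m : ℝ) + 2) < x ^ 2) (hu : 0 ≤ u) (hsl : 200 ≤ 1000 * sq x)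
    (hsr : 1000 * sq x ≤ D.S0) (hb : 20 ≤ 7 * (1 + u)) :
    D.P.eps.R * (u ^ 2 / (1 + u)) ≤
      TR D.P.m x (sq x) l u 0 (1 + D.P.k1.R * lam) (Real.exp (l / D.P.m))
        ((1 + u) ^ (1 / (D.P.m : ℝ))) (bg (x * Real.exp l)) (bg x) 0 0 +
      pcNR D.P.m D.P.a4.R (3 / ((D.P.m : ℝ) + 2)) (x ^ 2) (x ^ 2 / sq x ^ 2) (l - lam) u := by
  obtain ⟨hs, hs1, hsx⟩ := pc_sq_facts hin.hx
  have hx0 := hin.hx.1
  have hu1 := hin.hu
  have hune := hu1.ne'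
  obtain ⟨be, hbe⟩ : ∃ be, be = 1 / (1 + u) := ⟨_, rfl⟩
  have hbe0 : 0 < be := by rw [hbe]; (clear * - hu; positivity)
  have hbu : be * (1 + u) = 1 := by rw [hbe]; field_simp
  have hbe1 : be ≤ 1 := by nlinarith only [hbu, hu]
  have hb35 : 100 * be ≤ 35 := by (by_contra nlg; linarith only [nlg, mul_nonneg (le_of_lt (sub_pos.2 (not_le.1 nlg))) (sub_nonneg.2 hb), hbu, hb])
  have hk0 := hn.kpos
  have hLo : D.loRP.R (sq x) be ≤ 0 := by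
    simp only [Dat.loRP, Ex.R_sub, Ex.R_mul, Ex.R_c, Ex.R_X, Ex.R_Y, Fr.R1]
    have h1 : (1 - be) * sq x ≤ be * D.k.R * x := by
      have h2 := mul_le_mul_of_nonneg_left hin.uk hbe0.le
      have h3 : be * u = 1 - be := by linarith only [hbu]
      calc (1 - be) * sq x = be * (u * sq x) := by rw [← h3]; ring
        _ ≤ be * (D.k.R * x) := h2
        _ = be * D.k.R * x := by ring
    have h4 := pow_le_pow_left₀ (by have : 0 ≤ 1 - be := by linarith only [hbe1]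
                                    (clear * - hbe1 hs; positivity)) h1 2
    have h5 : (be * D.k.R * x) ^ 2 = be * be * (D.k.R * D.k.R) * (1 - sq x * sq x) := by
      have : x ^ 2 = 1 - sq x * sq x := by rw [← pow_two, hsx]; ring
      rw [mul_pow, this]
      ring
    rw [h5] at h4
    linarith only [h4]
  have hpm : pmf D.P.m u * (1 + u) ≤ D.rbQ.R (sq x) be * u ^ 2 := by
    have h1 := hρ.f u hu (by linarith only [hb])
    simp only [Dat.rbQ, Ex.R_sub, Ex.R_c, Fr.R1, Ex.R_mul, Ex.R_Y]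
    have h2 := mul_le_mul_of_nonneg_left h1 hbe0.le
    have e1 : be * (pmf D.P.m u * (1 + u) ^ 2) = pmf D.P.m u * (1 + u) * (be * (1 + u)) := by ring
    have e2 : be * ((1 + u - D.q4.R) * u ^ 2) = (be * (1 + u) - D.q4.R * be) * u ^ 2 := by ring
    rw [e1, e2, hbu, mul_one] at h2
    exact h2
  have hrb0 : 0 ≤ D.rbQ.R (sq x) be := by
    have h0 : 0 < u := by linarith only [hb]
    have h1 : 0 ≤ pmf D.P.m u * (1 + u) := mul_nonneg (hρ.nn u hin.hu) hin.hu.le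
    exact nonneg_of_mul_nonneg_left (h1.trans hpm) (by (clear * - h0; positivity))
  have h := pc_getD (tchkE_sound hLo t 200 D.S0 1000 0 35 100 (by norm_num) (by norm_num)
    (by exact_mod_cast hn.S0pos) (by norm_num) hk (by push_cast; linarith only [hsl])
    (by push_cast; exact hsr) (by push_cast; linarith only [hbe0]) (by push_cast; linarith only [hb35]))
  exact point_RP hn hρ hm14 hin hxx hu hbe h (by rw [Ex.R_c]; unfold Fr.R; norm_num) hpm hrb0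

/-- **the pointwise inequality, `s ≤ 1/5`, `u ≥ 0`**, from the positivity of the form -/
theorem point_RSk {D : Dat} {lamL : ℝ} (hn : D.Num lamL) (hρ : RhoOK D) (hm14 : D.P.m ≤ 14)
    {kap : Ex} {x l u lam v : ℝ}
    (hin : PcIn D.P.m D.k.R lamL x l u lam)
    (hxx : 3 / ((D.P.m : ℝ) + 2) < x ^ 2) (hu : 0 ≤ u) (hv : v = u * sq x)
    (hpsd : ∀ p ∈ psdE (entRS Ex.c D.P kap D.lp (Ex.c ⟨3, 1⟩) (Ex.c D.r0) Ex.X Ex.Y),
      0 ≤ p.R (sq x) v)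
    (hkap : 0 ≤ kap.R (sq x) v) :
    D.P.eps.R * (u ^ 2 / (1 + u)) ≤
      TR D.P.m x (sq x) l u 0 (1 + D.P.k1.R * lam) (Real.exp (l / D.P.m))
        ((1 + u) ^ (1 / (D.P.m : ℝ))) (bg (x * Real.exp l)) (bg x) 0 0 +
      pcNR D.P.m D.P.a4.R (3 / ((D.P.m : ℝ) + 2)) (x ^ 2) (x ^ 2 / sq x ^ 2) (l - lam) u := by
  obtain ⟨hs, hs1, hsx⟩ := pc_sq_facts hin.hx
  have hx0 := hin.hx.1
  have hm5 : (5 : ℝ) ≤ D.P.m := by exact_mod_cast hn.m5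
  have hm0 : 0 < D.P.m := by have := hn.m5; omega
  have hm1 : 1 ≤ D.P.m := by omega
  have hu1 := hin.hu
  have hune := hu1.ne'
  have hv0 : 0 ≤ v := by rw [hv]; (clear * - hu hs; positivity)
  have hq : sq x + v = sq x * (1 + u) := by rw [hv]; ring
  have hq0 : 0 < sq x + v := by (clear * - hs hv0; positivity)
  obtain ⟨hD0, hl⟩ := pc_tail_in hn (y := v) hin hxx
    (D2 := (2 * sq x * ((D.P.m : ℝ) + 2 - ((D.P.m : ℝ) + 1) * sq x ^ 2) +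
      sq x ^ 2 * (sq x + v)) / (sq x + v)) (by
      rw [hq]
      field_simp)
  have hD1 : 0 < 2 * sq x * ((D.P.m : ℝ) + 2 - ((D.P.m : ℝ) + 1) * sq x ^ 2) +
      sq x ^ 2 * (sq x + v) := by
    rw [div_pos_iff_of_pos_right hq0] at hD0
    exact hD0
  have hF := formRS hpsd hn.e0 hs (by
    have : sq x * sq x = sq x ^ 2 := by ring
    rw [this]
    exact hD1)
  have hreg := regRS (l := l) (lam := lam) (z := x ^ 2) (t := sq x ^ 2) (u := u) hm0 hs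
    (by ring) (by rw [hsx]; ring) (sq_nonneg x) hv0 hv
    (by linarith only [hxx]) (by rw [Ex.R_c]; exact hn.r0) hkap hm1 hD1 (by
      refine hl.trans_eq ?_
      rw [div_div_eq_mul_div]) hF
  refine hreg.trans (add_le_add_left (pc_low_in hn hin le_rfl ?_ (hρ.nn u hin.hu) ?_) _)
  · rw [Ex.R_c, Fr.R32]
    exact corr_R3 hin.hx hu hin.tau1 hin.sgn hin.tail hm14
  · have h1 := hρ.g u hu
    have e1 : ((Ex.c D.r0).R (sq x) v * sq x + v) / (sq x + v) / (1 + u) =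
        (D.r0.R + u) / (1 + u) ^ 2 := by
      rw [Ex.R_c, hq, hv]
      (clear * - hs hune; field_simp)
    rw [e1, div_mul_eq_mul_div, le_div_iff₀ (by (clear * - hu; positivity))]
    exact h1

theorem point_RS {D : Dat} {lamL : ℝ} (hn : D.Num lamL) (hρ : RhoOK D) (hm14 : D.P.m ≤ 14)
    {t : PT} (hk : D.kRS t = true) {x l u lam : ℝ}
    (hin : PcIn D.P.m D.k.R lamL x l u lam)
    (hxx : 3 / ((D.P.m : ℝ) + 2) < x ^ 2) (hu : 0 ≤ u) (hsr : 1000 * sq x ≤ 200) :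
    D.P.eps.R * (u ^ 2 / (1 + u)) ≤
      TR D.P.m x (sq x) l u 0 (1 + D.P.k1.R * lam) (Real.exp (l / D.P.m))
        ((1 + u) ^ (1 / (D.P.m : ℝ))) (bg (x * Real.exp l)) (bg x) 0 0 +
      pcNR D.P.m D.P.a4.R (3 / ((D.P.m : ℝ) + 2)) (x ^ 2) (x ^ 2 / sq x ^ 2) (l - lam) u := by
  obtain ⟨hs, hs1, hsx⟩ := pc_sq_facts hin.hx
  have hx0 := hin.hx.1
  obtain ⟨v, hv⟩ : ∃ v, v = u * sq x := ⟨_, rfl⟩
  have hv0 : 0 ≤ v := by rw [hv]; (clear * - hu hs; positivity)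
  have hv1 : v ≤ (D.K0 : ℝ) / 1000 := by
    have h1 := hin.uk
    have h2 : D.k.R * x ≤ D.k.R * 1 := mul_le_mul_of_nonneg_left hin.hx.2.le hn.kpos
    rw [hv]
    linarith only [h1, h2, hn.k0]
  have hLo : (Ex.c ⟨0, 0⟩).R (sq x) v ≤ 0 := by
    rw [Ex.R_c]
    simp [Fr.R]
  have hor := pc_getD2 (tchkE_sound hLo t 0 200 1000 0 D.K0 1000 (by norm_num) (by norm_num)
    (by norm_num) (by exact_mod_cast hn.K0pos) hk (by push_cast; linarith only [hs])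
    (by push_cast; exact hsr) (by push_cast; linarith only [hv0]) (by push_cast; linarith only [hv1]))
  rcases hor with h | h
  · exact point_RSk hn hρ hm14 hin hxx hu hv h (by rw [Ex.R_c]; unfold Fr.R; norm_num)
  · exact point_RSk hn hρ hm14 hin hxx hu hv h (by rw [Ex.R_c]; unfold Fr.R; norm_num)

end Vale.Agent.P237.AllN
end

section

/-!
# P237, all dimensions: `l ≤ (1 - x²)(31/50 + 7/50 x²)` for m = 8, m = 9, m = 10, m = 11, m = 12, m = 13, m = 14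
-/

open MeasureTheory Metric Set Module Filter Topology Real

namespace Vale.Agent.P237.AllN

/-- nodes, `m = 8` -/
def nodes8 : List (ℤ × ℤ × ℤ) :=
    [(962, 950248, 1481909), (1161, 1141107, 1779553), (1411, 1374358, 2143307),
     (1732, 1665120, 2596749), (2163, 2033946, 3171931), (2771, 2506447, 3928847),
     (3551, 3017830, 4958888), (4588, 3520937, 6197802), (6015, 3906892, 7659976),
     (7120, 4033565, 9227435)]

/-- cells, `m = 8` -/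
def cells8 : List (ℤ × ℤ) :=
    [(6240000, 10000000), (7190000, 9092000), (8840000, 7807000), (9820000, 6554000), (10000000, 6337000)]

theorem tP8 : tPairs (tAe 4) 800 nodes8 = true := by decide +kernel

theorem tC8 : tCells 8 4063492 4295147 (1000 * 800, 1481909) (nodes8.map Prod.snd) 0 cells8 = true := by
  decide +kernel

theorem ls_8 {r τ τ' T : ℝ → ℝ} (hr : IsProf r) (h : IsTrans 8 r τ τ' T)
    (hN : (∫ y in (-1 : ℝ)..1, r y ^ (8 - 1)) ^ 8 * aInt 8 ^ (8 - 1) ≤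
      aInt (8 - 1) ^ 8 * (∫ y in (-1 : ℝ)..1, r y ^ 8) ^ (8 - 1)) {x : ℝ}
    (hx : x ∈ Ioo (0 : ℝ) 1) : τ x ≤ lsX x :=
  ls_main (m := 8) (by norm_num) (z := 4063492) (z' := 4295147) (by norm_num) ls_lo8 ls_hi7
    (fun n a h0 h1 h2 => tAe_sound (h := 4) h1 h2 h0)
    (by simp [cells8]) (n0 := 800) (u0 := 1481909) (by norm_num) (by norm_num) (by norm_num)
    (by decide +kernel) tP8 tC8 hr h hN hx

/-- nodes, `m = 9` -/
def nodes9 : List (ℤ × ℤ × ℤ) :=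
    [(945, 941570, 1481909), (1123, 1110878, 1748378), (1345, 1317785, 2074023),
     (1629, 1574122, 2477464), (2006, 1898712, 2988327), (2545, 2322552, 3655396),
     (3406, 2888836, 4581802), (4582, 3427189, 5975548), (5824, 3728798, 7652223),
     (6893, 3832949, 9051882), (7120, 3862354, 9882830)]

/-- cells, `m = 9` -/
def cells9 : List (ℤ × ℤ) :=
    [(6460000, 10000000), (7460000, 8967000), (8670000, 7499000), (9630000, 6422000), (10000000, 6084000)]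

theorem tP9 : tPairs (tAo 4 3865633) 800 nodes9 = true := by decide +kernel

theorem tC9 : tCells 9 3865630 4063493 (1000 * 800, 1481909) (nodes9.map Prod.snd) 0 cells9 = true := by
  decide +kernel

theorem ls_9 {r τ τ' T : ℝ → ℝ} (hr : IsProf r) (h : IsTrans 9 r τ τ' T)
    (hN : (∫ y in (-1 : ℝ)..1, r y ^ (9 - 1)) ^ 9 * aInt 9 ^ (9 - 1) ≤
      aInt (9 - 1) ^ 9 * (∫ y in (-1 : ℝ)..1, r y ^ 9) ^ (9 - 1)) {x : ℝ}
    (hx : x ∈ Ioo (0 : ℝ) 1) : τ x ≤ lsX x :=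
  ls_main (m := 9) (by norm_num) (z := 3865630) (z' := 4063493) (by norm_num) ls_lo9 ls_hi8
    (fun n a h0 h1 h2 => tAo_sound (h := 4) (zh := 3865633) ls_hi9 h1 h2 h0)
    (by simp [cells9]) (n0 := 800) (u0 := 1481909) (by norm_num) (by norm_num) (by norm_num)
    (by decide +kernel) tP9 tC9 hr h hN hx

/-- nodes, `m = 10` -/
def nodes10 : List (ℤ × ℤ × ℤ) :=
    [(954, 940115, 1481909), (1144, 1119633, 1764884), (1383, 1340046, 2112322),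
     (1693, 1615286, 2546183), (2110, 1961912, 3102524), (2703, 2401759, 3836845),
     (3638, 2951780, 4846202), (4850, 3403163, 6329229), (5817, 3586618, 7989700),
     (6560, 3654021, 9045234), (7120, 3681818, 9664409)]

/-- cells, `m = 10` -/
def cells10 : List (ℤ × ℤ) :=
    [(6970000, 10000000), (7840000, 8285000), (8940000, 7028000), (9830000, 6087000), (10000000, 5823000)]

theorem tP10 : tPairs (tAe 5) 800 nodes10 = true := by decide +kernel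

theorem tC10 : tCells 10 3694083 3865633 (1000 * 800, 1481909) (nodes10.map Prod.snd) 0 cells10 = true := by
  decide +kernel

theorem ls_10 {r τ τ' T : ℝ → ℝ} (hr : IsProf r) (h : IsTrans 10 r τ τ' T)
    (hN : (∫ y in (-1 : ℝ)..1, r y ^ (10 - 1)) ^ 10 * aInt 10 ^ (10 - 1) ≤
      aInt (10 - 1) ^ 10 * (∫ y in (-1 : ℝ)..1, r y ^ 10) ^ (10 - 1)) {x : ℝ}
    (hx : x ∈ Ioo (0 : ℝ) 1) : τ x ≤ lsX x :=
  ls_main (m := 10) (by norm_num) (z := 3694083) (z' := 3865633) (by norm_num) ls_lo10 ls_hi9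
    (fun n a h0 h1 h2 => tAe_sound (h := 5) h1 h2 h0)
    (by simp [cells10]) (n0 := 800) (u0 := 1481909) (by norm_num) (by norm_num) (by norm_num)
    (by decide +kernel) tP10 tC10 hr h hN hx

/-- nodes, `m = 11` -/
def nodes11 : List (ℤ × ℤ × ℤ) :=
    [(822, 816850, 1297604), (970, 958361, 1522401), (1152, 1129472, 1794218),
     (1381, 1338901, 2126905), (1679, 1600564, 2542569), (2069, 1920946, 3077575),
     (2593, 2305716, 3765456), (3397, 2784944, 4662498), (4407, 3193096, 5961624),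
     (5631, 3444273, 7422238), (6505, 3514504, 8863149), (7120, 3535726, 9624727)]

/-- cells, `m = 11` -/
def cells11 : List (ℤ × ℤ) :=
    [(6760000, 10000000), (7450000, 8859000), (8580000, 7598000), (9680000, 6186000), (10000000, 5629000)]

theorem tP11 : tPairs (tAo 5 3543497) 700 nodes11 = true := by decide +kernel

theorem tC11 : tCells 11 3543494 3694084 (1000 * 700, 1297604) (nodes11.map Prod.snd) 0 cells11 = true := by
  decide +kernel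

theorem ls_11 {r τ τ' T : ℝ → ℝ} (hr : IsProf r) (h : IsTrans 11 r τ τ' T)
    (hN : (∫ y in (-1 : ℝ)..1, r y ^ (11 - 1)) ^ 11 * aInt 11 ^ (11 - 1) ≤
      aInt (11 - 1) ^ 11 * (∫ y in (-1 : ℝ)..1, r y ^ 11) ^ (11 - 1)) {x : ℝ}
    (hx : x ∈ Ioo (0 : ℝ) 1) : τ x ≤ lsX x :=
  ls_main (m := 11) (by norm_num) (z := 3543494) (z' := 3694084) (by norm_num) ls_lo11 ls_hi10
    (fun n a h0 h1 h2 => tAo_sound (h := 5) (zh := 3543497) ls_hi11 h1 h2 h0)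
    (by simp [cells11]) (n0 := 700) (u0 := 1297604) (by norm_num) (by norm_num) (by norm_num)
    (by decide +kernel) tP11 tC11 hr h hN hx

/-- nodes, `m = 12` -/
def nodes12 : List (ℤ × ℤ × ℤ) :=
    [(824, 813219, 1297604), (974, 956408, 1526081), (1159, 1129047, 1801550),
     (1393, 1340945, 2139662), (1701, 1607037, 2564249), (2135, 1953308, 3116772),
     (2785, 2399718, 3880283), (3604, 2829599, 4982003), (4614, 3164457, 6278042),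
     (5548, 3322256, 7693469), (6443, 3385870, 8778556), (7120, 3403383, 9578786)]

/-- cells, `m = 12` -/
def cells12 : List (ℤ × ℤ) :=
    [(6790000, 10000000), (7690000, 9023000), (8800000, 7269000), (9670000, 5883000), (10000000, 5441000)]

theorem tP12 : tPairs (tAe 6) 700 nodes12 = true := by decide +kernel

theorem tC12 : tCells 12 3409923 3543497 (1000 * 700, 1297604) (nodes12.map Prod.snd) 0 cells12 = true := by
  decide +kernel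

theorem ls_12 {r τ τ' T : ℝ → ℝ} (hr : IsProf r) (h : IsTrans 12 r τ τ' T)
    (hN : (∫ y in (-1 : ℝ)..1, r y ^ (12 - 1)) ^ 12 * aInt 12 ^ (12 - 1) ≤
      aInt (12 - 1) ^ 12 * (∫ y in (-1 : ℝ)..1, r y ^ 12) ^ (12 - 1)) {x : ℝ}
    (hx : x ∈ Ioo (0 : ℝ) 1) : τ x ≤ lsX x :=
  ls_main (m := 12) (by norm_num) (z := 3409923) (z' := 3543497) (by norm_num) ls_lo12 ls_hi11
    (fun n a h0 h1 h2 => tAe_sound (h := 6) h1 h2 h0)
    (by simp [cells12]) (n0 := 700) (u0 := 1297604) (by norm_num) (by norm_num) (by norm_num)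
    (by decide +kernel) tP12 tC12 hr h hN hx

/-- nodes, `m = 13` -/
def nodes13 : List (ℤ × ℤ × ℤ) :=
    [(942, 927535, 1481909), (1117, 1090875, 1742875), (1338, 1291291, 2063076),
     (1629, 1542729, 2464794), (2037, 1869333, 2988327), (2616, 2272450, 3709607),
     (3323, 2660006, 4701051), (4237, 2996788, 5846577), (5092, 3171270, 7191859),
     (5958, 3253447, 8278408), (6596, 3278041, 9176232), (7120, 3286405, 9689835)]

/-- cells, `m = 13` -/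
def cells13 : List (ℤ × ℤ) :=
    [(6910000, 10000000), (7790000, 8980000), (8900000, 7153000), (9740000, 5685000), (10000000, 5257000)]

theorem tP13 : tPairs (tAo 6 3290390) 800 nodes13 = true := by decide +kernel

theorem tC13 : tCells 13 3290388 3409924 (1000 * 800, 1481909) (nodes13.map Prod.snd) 0 cells13 = true := by
  decide +kernel

theorem ls_13 {r τ τ' T : ℝ → ℝ} (hr : IsProf r) (h : IsTrans 13 r τ τ' T)
    (hN : (∫ y in (-1 : ℝ)..1, r y ^ (13 - 1)) ^ 13 * aInt 13 ^ (13 - 1) ≤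
      aInt (13 - 1) ^ 13 * (∫ y in (-1 : ℝ)..1, r y ^ 13) ^ (13 - 1)) {x : ℝ}
    (hx : x ∈ Ioo (0 : ℝ) 1) : τ x ≤ lsX x :=
  ls_main (m := 13) (by norm_num) (z := 3290388) (z' := 3409924) (by norm_num) ls_lo13 ls_hi12
    (fun n a h0 h1 h2 => tAo_sound (h := 6) (zh := 3290390) ls_hi13 h1 h2 h0)
    (by simp [cells13]) (n0 := 800) (u0 := 1481909) (by norm_num) (by norm_num) (by norm_num)
    (by decide +kernel) tP13 tC13 hr h hN hx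

/-- nodes, `m = 14` -/
def nodes14 : List (ℤ × ℤ × ℤ) :=
    [(929, 910661, 1481909), (1085, 1056373, 1719024), (1279, 1231897, 2004653),
     (1528, 1448953, 2357866), (1868, 1725195, 2807390), (2306, 2046140, 3412840),
     (2885, 2400865, 4175426), (3819, 2807846, 5146245), (4953, 3066162, 6597852),
     (5775, 3144179, 8114484), (6327, 3167221, 9005033), (6743, 3175771, 9489423),
     (7120, 3180013, 9789118)]

/-- cells, `m = 14` -/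
def cells14 : List (ℤ × ℤ) :=
    [(7100000, 10000000), (7600000, 8741000), (8420000, 7607000), (9490000, 6154000), (10000000, 5179000)]

theorem tP14 : tPairs (tAe 7) 800 nodes14 = true := by decide +kernel

theorem tC14 : tCells 14 3182595 3290390 (1000 * 800, 1481909) (nodes14.map Prod.snd) 0 cells14 = true := by
  decide +kernel

theorem ls_14 {r τ τ' T : ℝ → ℝ} (hr : IsProf r) (h : IsTrans 14 r τ τ' T)
    (hN : (∫ y in (-1 : ℝ)..1, r y ^ (14 - 1)) ^ 14 * aInt 14 ^ (14 - 1) ≤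
      aInt (14 - 1) ^ 14 * (∫ y in (-1 : ℝ)..1, r y ^ 14) ^ (14 - 1)) {x : ℝ}
    (hx : x ∈ Ioo (0 : ℝ) 1) : τ x ≤ lsX x :=
  ls_main (m := 14) (by norm_num) (z := 3182595) (z' := 3290390) (by norm_num) ls_lo14 ls_hi13
    (fun n a h0 h1 h2 => tAe_sound (h := 7) h1 h2 h0)
    (by simp [cells14]) (n0 := 800) (u0 := 1481909) (by norm_num) (by norm_num) (by norm_num)
    (by decide +kernel) tP14 tC14 hr h hN hx

end Vale.Agent.P237.AllN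
end

section

/-!
# P237, all dimensions: the a priori bound and the sign of the plain pair for `4 ≤ m ≤ 22`
-/

open MeasureTheory Metric Set Module Filter Topology Real

namespace Vale.Agent.P237.AllN

/-- **A priori bound**: `τ x ≤ x exp((1 - x²)(31/50 + 7/50 x²))` for `4 ≤ m ≤ 22`. -/
theorem IsTrans.le_lstar {m : ℕ} (hm4 : 4 ≤ m) (hm : m ≤ 22) {r τ τ' T : ℝ → ℝ} (hr : IsProf r)
    (h : IsTrans m r τ τ' T)
    (hN : (∫ y in (-1 : ℝ)..1, r y ^ (m - 1)) ^ m * aInt m ^ (m - 1) ≤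
      aInt (m - 1) ^ m * (∫ y in (-1 : ℝ)..1, r y ^ m) ^ (m - 1))
    {x : ℝ} (hx : x ∈ Ioo (0 : ℝ) 1) :
    τ x ≤ x * Real.exp ((1 - x ^ 2) * (31 / 50 + 7 / 50 * x ^ 2)) := by
  rcases le_or_gt m 7 with h7 | h7
  · exact h.le_sgn hm4 h7 hr hN hx
  · have h8 : 8 ≤ m := h7
    clear h7 hm4
    interval_cases m
    · exact ls_8 hr h hN hx
    · exact ls_9 hr h hN hx
    · exact ls_10 hr h hN hx
    · exact ls_11 hr h hN hx
    · exact ls_12 hr h hN hx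
    · exact ls_13 hr h hN hx
    · exact ls_14 hr h hN hx
    · exact ls_15 hr h hN hx
    · exact ls_16 hr h hN hx
    · exact ls_17 hr h hN hx
    · exact ls_18 hr h hN hx
    · exact ls_19 hr h hN hx
    · exact ls_20 hr h hN hx
    · exact ls_21 hr h hN hx
    · exact ls_22 hr h hN hx

/-- the same with the logarithm -/
theorem IsTrans.log_le_lstar {m : ℕ} (hm4 : 4 ≤ m) (hm : m ≤ 22) {r τ τ' T : ℝ → ℝ}
    (hr : IsProf r) (h : IsTrans m r τ τ' T)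
    (hN : (∫ y in (-1 : ℝ)..1, r y ^ (m - 1)) ^ m * aInt m ^ (m - 1) ≤
      aInt (m - 1) ^ m * (∫ y in (-1 : ℝ)..1, r y ^ m) ^ (m - 1))
    {x : ℝ} (hx : x ∈ Ioo (0 : ℝ) 1) :
    Real.log (τ x / x) ≤ (1 - x ^ 2) * (31 / 50 + 7 / 50 * x ^ 2) := by
  have hτ := h.mem x hx
  have h1 := h.le_lstar hm4 hm hr hN hx
  have hx0 := hx.1
  rw [Real.log_le_iff_le_exp (div_pos hτ.1 hx0), div_le_iff₀ hx0]
  linarith

/-- **Admissibility of the plain tangent pair** of the kernel `kA`, `4 ≤ m ≤ 22`, for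
profiles with `N ≤ N_B`. -/
theorem IsTrans.kA_plain_le_all {m : ℕ} (hm4 : 4 ≤ m) (hm : m ≤ 22) {r τ τ' T : ℝ → ℝ}
    (hr : IsProf r) (h : IsTrans m r τ τ' T)
    (hN : (∫ y in (-1 : ℝ)..1, r y ^ (m - 1)) ^ m * aInt m ^ (m - 1) ≤
      aInt (m - 1) ^ m * (∫ y in (-1 : ℝ)..1, r y ^ m) ^ (m - 1))
    {x : ℝ} (hx : x ∈ Ioo (0 : ℝ) 1) {b : ℝ} (hb : b ∈ Icc (-1 : ℝ) 1) :
    kAc x (Real.log (τ x / x)) + kAp x (Real.log (τ x / x)) * b ≤ kA (τ x) b := by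
  have hτ := h.mem x hx
  have hx0 := hx.1
  have e : x * Real.exp (Real.log (τ x / x)) = τ x := by
    rw [Real.exp_log (div_pos hτ.1 hx0)]
    field_simp
  rcases lt_or_ge 0 b with hb0 | hb0
  · have h1 := kA_plain_pos (x := x) (l := Real.log (τ x / x)) hx (by rw [e]; exact hτ.2) hb0 hb.2
    rwa [e] at h1
  · have h1 := kA_neg_plain hx (h.log_le_lstar hm4 hm hr hN hx)
    rw [e] at h1
    exact kA_neg hτ.1 h1 hb0

end Vale.Agent.P237.AllN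
end

section

/-!
# P237, block D (`m ≥ 25`), `0 ≤ l`, `√m x ≤ 3`: the correction term

`2(g₀(x e^l) - g₀(x)) + 2 z l/(s(1+s)²) ≥ -(2/s) y (2/5 + 13z/20 + 22z³/5) l²`.
-/

open Real

namespace Vale.Agent.P237.AllN

open Corr PolyPos

/-- the inequality of the corner, scaled -/
def fcQ : List ℤ := padd (psm (43 ^ 2 * 2 * 693 * 8000) (pmul (padd [40] (padd (psm 65 cz)
    (psm 440 (ppow cz 3)))) (pmul (ppow [1, 1] 2) (ppow [193, 500] 2))))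
  (padd (psm (-(2727 ^ 2 * 500 * 500 * 2000)) (pmul (pmul cz [693, 1000]) (ppow cs 2)))
    (psm (-(1007 * 693 * 4000000)) (pmul (ppow cs 2) (ppow [193, 500] 2))))

set_option maxRecDepth 100000 in
theorem fcQ_nonneg {s : ℝ} (h0 : 8000 ≤ 10000 * s) (h1 : 10000 * s < 8075) : 0 ≤ ev1 fcQ s :=
  auto1_sound (n := 8) (A := 8000) (B := 8075) (D := 10000) (by norm_num) (by decide +kernel)
    (by push_cast; exact h0) (by push_cast; linarith)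

/-- the corner `7/20 ≤ x² ≤ 9/25`, `l ≤ 43/100` -/
theorem fcor_corner {x l : ℝ} (hx0 : 0 < x) (hz1 : 7 / 20 ≤ x ^ 2) (hz2 : x ^ 2 ≤ 9 / 25)
    (hl : 0 < l) (hl1 : l ≤ 43 / 100) (h1 : x * exp l ≤ 1) :
    -((2 / 5 + 13 * x ^ 2 / 20 + 22 * (x ^ 2) ^ 3 / 5) * (x ^ 2 / sq x ^ 2)) * l ^ 2 ≤
      sq x * (bg (x * exp l) - bg x) + x ^ 2 * l / (1 + sq x) ^ 2 := by
  have hx1 : x < 1 := by nlinarith only [hz2]
  obtain ⟨a1, a2, a3, a4, a5⟩ := Corr.sq_facts hx0 hx1 h1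
  rw [Fc_bg hx0 hx1, neg_mul]
  have hE : exp (2 * (43 / 100 : ℝ)) ≤ 23635 / 10000 := by
    have e1 : exp (2 * (43 / 100 : ℝ)) = exp (43 / 100) ^ 2 := by
      rw [← exp_nat_mul]; norm_num
    have e2 : exp (43 / 100 : ℝ) ≤ 15373 / 10000 := by
      have := exp_le_p (x := 43 / 100) (by norm_num) (by norm_num)
      refine this.trans ?_
      norm_num
    rw [e1]
    calc exp (43 / 100 : ℝ) ^ 2 ≤ (15373 / 10000) ^ 2 := pow_le_pow_left₀ (exp_pos _).le e2 2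
      _ ≤ _ := by norm_num
  set s := sq x with hs
  have hs2 : s ^ 2 = 1 - x ^ 2 := by linarith only [a3]
  have hsl : 4 / 5 ≤ s := by nlinarith only [hz2, a3, a1]
  have hsu : s ≤ 807 / 1000 := by nlinarith only [hz1, a3]
  refine gen (a := 43 / 100) (σ := 386 / 1000) (E := 23635 / 10000) a1 a3 (by positivity)
    (by norm_num) a4 a5 hl hl1 hE ?_ ?_
  · linarith only [hz2]
  · set z := x ^ 2
    have hQ := fcQ_nonneg (s := s) (by linarith only [hsl]) (by linarith only [hsu])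
    have hz' : ev1 cz s = z := by rw [ev_cz, a3]
    rw [← sub_nonneg]
    have e : 2 * (2 / 5 + 13 * z / 20 + 22 * z ^ 3 / 5) * (1 + s) ^ 2 * (43 / 100) ^ 2 / s ^ 2 -
        ((23635 / 10000 - 1) ^ 2 * z * (1 + 2 * s + 386 / 1000) /
        ((386 / 1000 + s) ^ 2 * (1 + 386 / 1000)) + (23635 / 10000 - 1 - 2 * (43 / 100))) =
        ev1 fcQ s / (500 ^ 3 * 8000 * 10 ^ 6 * (s ^ 2 * ((386 / 1000 + s) ^ 2 * (1 + 386 / 1000))))
        := by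
      simp only [fcQ, ev1_padd, ev1_psm, ev1_pmul, ev1_cons, ev1_nil, hz', ev1_ppow, ev_cs]
      have h1 : (386 / 1000 + s) ≠ 0 := by positivity
      push_cast
      field_simp
      ring
    rw [e]
    (clear * - hQ a1; positivity)

/-- the bound on the box `√m x ≤ 3` -/
theorem fcor_le {x l : ℝ} (hx0 : 0 < x) (hz : x ^ 2 ≤ 9 / 25) (hl : 0 ≤ l)
    (hb : l ≤ 43 / 100 ∨ (x ^ 2 ≤ 9 / 40 ∧ l ≤ 19 / 40)) (h1 : x * exp l ≤ 1) :
    -((2 / 5 + 13 * x ^ 2 / 20 + 22 * (x ^ 2) ^ 3 / 5) * (x ^ 2 / sq x ^ 2)) * l ^ 2 ≤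
      sq x * (bg (x * exp l) - bg x) + x ^ 2 * l / (1 + sq x) ^ 2 := by
  have hx1 : x < 1 := by nlinarith only [hz]
  obtain ⟨a1, a2, a3, a4, a5⟩ := Corr.sq_facts hx0 hx1 h1
  have hs2 : sq x ^ 2 = 1 - x ^ 2 := by linarith only [a3]
  rcases hl.eq_or_lt with h | h
  · rw [← h]
    simp only [ne_eq, OfNat.ofNat_ne_zero, not_false_eq_true, zero_pow, mul_zero, exp_zero, mul_one, sub_self, zero_div, add_zero, Std.le_refl]
  · rcases hb with hb | ⟨hb1, hb2⟩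
    · rcases le_total (x ^ 2) (7 / 20) with hz1 | hz1
      · refine corr_A hx0 (by linarith only [hz1]) h1 ?_
        rw [hs2]
        nlinarith only [hb, hz1]
      · exact fcor_corner hx0 hz1 hz h hb h1
    · refine corr_A hx0 (by linarith only [hb1]) h1 ?_
      rw [hs2]
      nlinarith only [hb1, hb2]

/-- the form used for block D: `G` is the correction of `dpT` -/
theorem fcor_G {x l : ℝ} (hx0 : 0 < x) (hz : x ^ 2 ≤ 9 / 25) (hl : 0 ≤ l)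
    (hb : l ≤ 43 / 100 ∨ (x ^ 2 ≤ 9 / 40 ∧ l ≤ 19 / 40)) (h1 : x * exp l ≤ 1) :
    -(2 / sq x * ((2 / 5 + 13 * x ^ 2 / 20 + 22 * (x ^ 2) ^ 3 / 5) * (x ^ 2 / sq x ^ 2)) * l ^ 2) ≤
      2 * (bg (x * exp l) - bg x + x ^ 2 * l / (sq x * (1 + sq x) ^ 2)) := by
  have hx1 : x < 1 := by nlinarith only [hz]
  obtain ⟨a1, -⟩ := Corr.sq_facts hx0 hx1 h1
  have h := mul_le_mul_of_nonneg_left (fcor_le hx0 hz hl hb h1) (show 0 ≤ 2 / sq x by positivity)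
  have e : 2 / sq x * (sq x * (bg (x * exp l) - bg x) + x ^ 2 * l / (1 + sq x) ^ 2) =
      2 * (bg (x * exp l) - bg x + x ^ 2 * l / (sq x * (1 + sq x) ^ 2)) := by
    field_simp
  rw [e] at h
  refine le_trans (le_of_eq ?_) h
  ring

/-- the form for `m ≥ 27`: `x² ≤ 1/3`, `l ≤ 11/25` or `x² ≤ 9/40`, `l ≤ 19/40` -/
theorem fcor_G' {x l : ℝ} (hx0 : 0 < x) (hl : 0 ≤ l)
    (hb : (x ^ 2 ≤ 1 / 3 ∧ l ≤ 11 / 25) ∨ (x ^ 2 ≤ 9 / 40 ∧ l ≤ 19 / 40)) (h1 : x * exp l ≤ 1) :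
    -(2 / sq x * ((2 / 5 + 13 * x ^ 2 / 20 + 22 * (x ^ 2) ^ 3 / 5) * (x ^ 2 / sq x ^ 2)) * l ^ 2) ≤
      2 * (bg (x * exp l) - bg x + x ^ 2 * l / (sq x * (1 + sq x) ^ 2)) := by
  have hx1 : x < 1 := by rcases hb with ⟨h, -⟩ | ⟨h, -⟩ <;> nlinarith only [h]
  have hle : -((2 / 5 + 13 * x ^ 2 / 20 + 22 * (x ^ 2) ^ 3 / 5) * (x ^ 2 / sq x ^ 2)) * l ^ 2 ≤
      sq x * (bg (x * exp l) - bg x) + x ^ 2 * l / (1 + sq x) ^ 2 := by
    obtain ⟨a1, a2, a3, a4, a5⟩ := Corr.sq_facts hx0 hx1 h1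
    have hs2 : sq x ^ 2 = 1 - x ^ 2 := by linarith only [a3]
    rcases hb with ⟨hb1, hb2⟩ | ⟨hb1, hb2⟩
    · refine corr_A hx0 (by linarith only [hb1]) h1 ?_
      rw [hs2]
      nlinarith only [hb1, hb2]
    · refine corr_A hx0 (by linarith only [hb1]) h1 ?_
      rw [hs2]
      nlinarith only [hb1, hb2]
  obtain ⟨a1, -⟩ := Corr.sq_facts hx0 hx1 h1
  have h := mul_le_mul_of_nonneg_left hle (show 0 ≤ 2 / sq x by positivity)
  have e : 2 / sq x * (sq x * (bg (x * exp l) - bg x) + x ^ 2 * l / (1 + sq x) ^ 2) =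
      2 * (bg (x * exp l) - bg x + x ^ 2 * l / (sq x * (1 + sq x) ^ 2)) := by
    (clear * - a1; field_simp)
  rw [e] at h
  refine le_trans (le_of_eq ?_) h
  ring

end Vale.Agent.P237.AllN
end

section

/-!
# P237, block D, `l > 0`, `1 ≤ m z ≤ 9`, `u ≥ 0`: the test from polynomial inequalities
-/

namespace Vale.Agent.P237.AllN

theorem fpu_fin {T e ρ A B R L l u lam1 lam2 k : ℝ} (hl : 0 ≤ l) (hlL : l ≤ L) (hl2 : l ≤ 1 / 2)
    (hu : 0 ≤ u) (h1 : 1 / 2 ≤ lam1) (h2 : 0 < lam2) (hT : lam1 * l ^ 2 + lam2 * u ^ 2 ≤ T)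
    (hP : e - T ≤ B * l + A * u) (hB : 0 ≤ B) (hA : 0 < A) (hR : B * L + A * u + R ≤ ρ)
    (hC : lam2 * B ^ 2 + lam1 * A ^ 2 ≤ 999 / 1000 * (lam1 * lam2 * R)) (hρ : 1 / 5 ≤ ρ)
    (hE : -(k * l) ≤ e) (hk0 : 0 ≤ k) (hk : k ≤ 1 / 16) : JTest T e ρ u := by
  have hl1 : 0 < lam1 := by linarith only [h1]
  have hT0 : 0 ≤ lam1 * l ^ 2 + lam2 * u ^ 2 := by (clear * - h1 h2; positivity)
  have hR0 : 0 < R := by
    have a1 : 0 < lam2 * B ^ 2 + lam1 * A ^ 2 := by positivity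
    have a2 : 0 < lam1 * lam2 * R := by linarith only [hC, a1]
    exact (pos_iff_pos_of_mul_pos a2).1 (by positivity)
  have hBl : B * l ≤ B * L := mul_le_mul_of_nonneg_left hlL hB
  have hkl : k * l ≤ 1 / 32 := by
    calc k * l ≤ 1 / 16 * (1 / 2) := mul_le_mul hk hl2 hl (by norm_num)
      _ = 1 / 32 := by norm_num
  have hP0 : 0 ≤ B * l + A * u := by (clear * - hB hl hA hu; positivity)
  refine JTest.of_bounds (T0 := lam1 * l ^ 2 + lam2 * u ^ 2) (P := B * l + A * u) (E := k * l)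
    (θ := 999 / 1000) hT hT0 (fun h0 => ?_) (by norm_num) hP hP0 (by linarith only [hR, hR0, hBl]) ?_ hE
    (by positivity) (by linarith only [hρ, hkl]) ?_
  · have : 0 < u ^ 2 := by positivity
    positivity
  · -- Cauchy
    have c1 : lam1 * lam2 * (B * l + A * u) ^ 2 ≤
        (lam2 * B ^ 2 + lam1 * A ^ 2) * (lam1 * l ^ 2 + lam2 * u ^ 2) := by
      have : (lam2 * B ^ 2 + lam1 * A ^ 2) * (lam1 * l ^ 2 + lam2 * u ^ 2) -
          lam1 * lam2 * (B * l + A * u) ^ 2 = (lam2 * B * u - lam1 * A * l) ^ 2 := by ring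
      have h := sq_nonneg (lam2 * B * u - lam1 * A * l)
      linarith only [h]
    have c2 : (lam2 * B ^ 2 + lam1 * A ^ 2) * (lam1 * l ^ 2 + lam2 * u ^ 2) ≤
        999 / 1000 * (lam1 * lam2 * R) * (lam1 * l ^ 2 + lam2 * u ^ 2) :=
      mul_le_mul_of_nonneg_right hC hT0
    have c3 : (B * l + A * u) ^ 2 ≤ 999 / 1000 * (R * (lam1 * l ^ 2 + lam2 * u ^ 2)) := by
      have hp : 0 < lam1 * lam2 := by positivity
      refine le_of_mul_le_mul_left ?_ hp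
      calc lam1 * lam2 * (B * l + A * u) ^ 2
          ≤ 999 / 1000 * (lam1 * lam2 * R) * (lam1 * l ^ 2 + lam2 * u ^ 2) := c1.trans c2
        _ = lam1 * lam2 * (999 / 1000 * (R * (lam1 * l ^ 2 + lam2 * u ^ 2))) := by ring
    have c4 : R * (lam1 * l ^ 2 + lam2 * u ^ 2) ≤
        (lam1 * l ^ 2 + lam2 * u ^ 2) * (ρ - (B * l + A * u)) := by
      rw [mul_comm]
      exact mul_le_mul_of_nonneg_left (by linarith only [hR, hBl]) hT0
    linarith only [c3, c4]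
  · have d1 : (k * l) ^ 2 ≤ 1 / 256 * l ^ 2 := by
      rw [mul_pow]
      apply mul_le_mul_of_nonneg_right _ (sq_nonneg l)
      calc k ^ 2 ≤ (1 / 16) ^ 2 := pow_le_pow_left₀ hk0 hk 2
        _ = 1 / 256 := by norm_num
    have d2 : 1 / 2 * l ^ 2 ≤ lam1 * l ^ 2 + lam2 * u ^ 2 := by
      have e1 : 1 / 2 * l ^ 2 ≤ lam1 * l ^ 2 := mul_le_mul_of_nonneg_right h1 (sq_nonneg l)
      have e2 : 0 ≤ lam2 * u ^ 2 := by (clear * - h2; positivity)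
      linarith only [e1, e2]
    have d3 : (lam1 * l ^ 2 + lam2 * u ^ 2) * (27 / 160) ≤
        (lam1 * l ^ 2 + lam2 * u ^ 2) * (ρ - k * l) :=
      mul_le_mul_of_nonneg_left (by linarith only [hρ, hkl]) hT0
    have d4 := sq_nonneg l
    linarith only [hT0, d1, d2, d3]

theorem fpu_rho {m z s w : ℝ} (hs : s ^ 2 = 1 - z) (hz1 : 0 < 1 - z) (hw : w = m * z) :
    dpR m (z / s ^ 2) = fpuRh z w / (1 - z) ^ 2 := by
  unfold dpR fpuRh
  rw [hs, hw]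
  field_simp
  ring

theorem fpu_core {m z s l u c G N e C g q L lam1 lam2 w : ℝ} (hm : 27 ≤ m) (hz0 : 0 < z)
    (hs0 : 0 < s) (hs : s ^ 2 = 1 - z) (hz : z ≤ 1 / 3) (hw : w = m * z) (hw1 : 1 ≤ w)
    (hl : 0 ≤ l) (hlL : l ≤ L) (hL : L ≤ 12 / 25) (hu : 0 ≤ u) (hu1 : u ≤ 5 / 4) (hC : 4 ≤ C)
    (hc0 : 1 - 1 / (2 * m) ≤ c) (hc : c ≤ 1) (hc2 : c ^ 2 ≤ (m + 1) / (m + 2))
    (hE : 1 - 2 * l + e * l ^ 2 ≤ Real.exp (-(2 * l)))
    (hK : -(z * g / (1 - z) ^ 2 * l ^ 2) +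
      9 / 2 * z * (1 - z) * (1 - 4 * l + C * l ^ 2) * (u ^ 2 / (1 + u)) ≤
      (3 * (m - 3) * (z ^ 2 / s ^ 5) - 9 * (z / s ^ 3)) * l ^ 2 +
      (4 / s - 4 * s / (1 + s) - 2 * s ^ 2 - 6 * (z / s ^ 3) * l) * (u ^ 2 / (1 + u)) +
      dpS m z s l (u ^ 2 / (1 + u)))
    (hG : -(z * q / (1 - z) ^ 2 * l ^ 2) ≤ G)
    (hN : -(u ^ 2 / (2 + 31 / 25 * u)) ≤ N)
    (hl1 : 1 / 2 ≤ lam1) (hl2 : 0 < lam2)
    (h1 : 0 ≤ fpuNA e C (g + q) lam1 z w u) (h2 : 0 ≤ fpuNG lam2 z w u)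
    (h3 : fpuNB z w u ^ 2 * ((2 + 31 / 25 * u) * (1 - z) ^ 3 * (w - z)) ≤
      fpuNA e C (g + q) lam1 z w u * fpuNG lam2 z w u)
    (h4 : 0 ≤ fpuP (g + q) z w →
      lam2 * fpuBa L (g + q) z w u ^ 2 + lam1 * (z * fpuA z w u * (1 - z)) ^ 2 ≤
      999 / 1000 * (lam1 * lam2 * (fpuRa L (g + q) z w u * (w * (1 - z) ^ 2))))
    (h5 : fpuP (g + q) z w ≤ 0 →
      lam2 * fpuBb z w u ^ 2 + lam1 * (z * fpuA z w u) ^ 2 ≤
      999 / 1000 * (lam1 * lam2 * (fpuRb L z w u * w))) :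
    JTest (dpT m z s l u G N) (dpE m z s l u c N) (dpR m (z / s ^ 2)) u := by
  have hz1 : 0 < 1 - z := by linarith only [hz]
  have hw0 : 0 < w := by linarith only [hw1]
  have hwz : 27 * z ≤ w := by
    rw [hw]
    exact mul_le_mul_of_nonneg_right hm hz0.le
  have hL0 : 0 ≤ L := hl.trans hlL
  have hT := fpu_T hm hz0 hs0 hs hz hw hu hE hK hG hN h1 h2 h3
  have hU := fpu_U hm hz0 hs0 hs hz hw hl hu hC hc0 hc hc2 hK hG hN
  have ha : 19 / 50 ≤ Real.exp (-(2 * l)) := by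
    have a1 : Real.exp (-(2 * (12 / 25 : ℝ))) ≤ Real.exp (-(2 * l)) := by
      apply Real.exp_le_exp.2
      linarith only [hlL, hL]
    have a2 : (19 : ℝ) / 50 ≤ Real.exp (-(2 * (12 / 25 : ℝ))) := by
      rw [Real.exp_neg, le_inv_comm₀ (by norm_num) (Real.exp_pos _)]
      have h := Real.exp_bound' (x := 2 * (12 / 25)) (by norm_num) (by norm_num) (n := 8)
        (by norm_num)
      refine h.trans ?_
      simp only [Finset.sum_range_succ, Finset.sum_range_zero, Nat.factorial]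
      norm_num
    exact a2.trans a1
  have hLo := fpu_L hm hz0 hs0 hs hz hw hw1 hl hu hu1 hc0 hc ha hN
  have hA0 : 0 < fpuA z w u := by
    unfold fpuA
    have a1 : 0 < 3 - 9 / 4 * z := by linarith only [hz]
    have a2 : 0 < 1 - z / 2 := by linarith only [hz]
    (clear * - a1 hw1 a2 hu; positivity)
  have hA : 0 < z * fpuA z w u / (w * (1 - z)) := by (clear * - hz0 hA0 hw1 hz1; positivity)
  have hRh : 1 / 5 ≤ dpR m (z / s ^ 2) := by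
    rw [fpu_rho hs hz1 hw, le_div_iff₀ (by (clear * - hz1; positivity))]
    unfold fpuRh
    have a1 : 0 ≤ w * (w - 2 * z) := mul_nonneg hw0.le (by linarith only [hz0, hwz])
    have a2 : 0 ≤ w * (1 - z) := by (clear * - hw1 hz1; positivity)
    linarith only [a1, a2]
  have hk0 : 0 ≤ 1 / 8 * (z / (1 - z)) := by (clear * - hz0 hz1; positivity)
  have hk : 1 / 8 * (z / (1 - z)) ≤ 1 / 16 := by
    have : z / (1 - z) ≤ 1 / 2 := by
      rw [div_le_iff₀ hz1]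
      linarith only [hz]
    linarith only [this]
  have hBb0 : 0 ≤ fpuBb z w u := by
    unfold fpuBb
    (clear * - hz0 hw1 hz1 hu; positivity)
  rcases le_total 0 (fpuP (g + q) z w) with hp | hp
  · have h4' := h4 hp
    have hBa0 : 0 ≤ fpuBa L (g + q) z w u := by
      unfold fpuBa
      (clear * - hw1 hL0 hp hBb0 hz1; positivity)
    refine fpu_fin (B := fpuBa L (g + q) z w u / (w * (1 - z) ^ 2))
      (A := z * fpuA z w u / (w * (1 - z))) (R := fpuRa L (g + q) z w u / (w * (1 - z) ^ 2))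
      (L := L) (lam1 := lam1) (lam2 := lam2) (k := 1 / 8 * (z / (1 - z)))
      hl hlL (by linarith only [hlL, hL]) hu hl1 hl2 hT ?_ (by (clear * - hBa0 hw1 hz1; positivity)) hA ?_ ?_ hRh hLo hk0 hk
    · refine hU.trans ?_
      have b1 : fpuP (g + q) z w / (1 - z) ^ 2 * l ^ 2 ≤
          fpuP (g + q) z w / (1 - z) ^ 2 * (L * l) := by
        apply mul_le_mul_of_nonneg_left _ (by (clear * - hp hz1; positivity))
        rw [pow_two]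
        exact mul_le_mul_of_nonneg_right hlL hl
      have b2 : fpuBa L (g + q) z w u / (w * (1 - z) ^ 2) * l +
          z * fpuA z w u / (w * (1 - z)) * u =
          fpuP (g + q) z w / (1 - z) ^ 2 * (L * l) + 2 * z ^ 2 / (w * (1 - z)) * l +
          6 / 25 * (w + 3 * z) * u * l + z * fpuA z w u / (w * (1 - z)) * u := by
        unfold fpuBa fpuBb
        field_simp
        ring
      rw [b2]
      linarith only [b1]
    · apply le_of_eq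
      rw [fpu_rho hs hz1 hw]
      unfold fpuRa
      field_simp
      ring
    · have b3 : lam2 * (fpuBa L (g + q) z w u / (w * (1 - z) ^ 2)) ^ 2 +
          lam1 * (z * fpuA z w u / (w * (1 - z))) ^ 2 =
          (lam2 * fpuBa L (g + q) z w u ^ 2 + lam1 * (z * fpuA z w u * (1 - z)) ^ 2) /
            (w * (1 - z) ^ 2) ^ 2 := by
        (clear * - hl2 hz0 hz1 hl1 hA0 hw1; field_simp)
      have b4 : 999 / 1000 * (lam1 * lam2 * (fpuRa L (g + q) z w u / (w * (1 - z) ^ 2))) =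
          999 / 1000 * (lam1 * lam2 * (fpuRa L (g + q) z w u * (w * (1 - z) ^ 2))) /
            (w * (1 - z) ^ 2) ^ 2 := by
        (clear * - hz1 hw1 hl2 hl1; field_simp)
      rw [b3, b4]
      exact div_le_div_of_nonneg_right h4' (by (clear * - hw1 hz1; positivity))
  · have h5' := h5 hp
    refine fpu_fin (B := fpuBb z w u / (w * (1 - z)))
      (A := z * fpuA z w u / (w * (1 - z))) (R := fpuRb L z w u / (w * (1 - z) ^ 2))
      (L := L) (lam1 := lam1) (lam2 := lam2) (k := 1 / 8 * (z / (1 - z)))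
      hl hlL (by linarith only [hlL, hL]) hu hl1 hl2 hT ?_ (by (clear * - hBb0 hw1 hz1; positivity)) hA ?_ ?_ hRh hLo hk0 hk
    · refine hU.trans ?_
      have b1 : fpuP (g + q) z w / (1 - z) ^ 2 * l ^ 2 ≤ 0 :=
        mul_nonpos_of_nonpos_of_nonneg (div_nonpos_of_nonpos_of_nonneg hp (by (clear * - hz1; positivity)))
          (sq_nonneg l)
      have b2 : fpuBb z w u / (w * (1 - z)) * l +
          z * fpuA z w u / (w * (1 - z)) * u =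
          2 * z ^ 2 / (w * (1 - z)) * l +
          6 / 25 * (w + 3 * z) * u * l + z * fpuA z w u / (w * (1 - z)) * u := by
        unfold fpuBb
        (clear * - hz1 hw1; field_simp)
      rw [b2]
      linarith only [b1]
    · apply le_of_eq
      rw [fpu_rho hs hz1 hw]
      unfold fpuRb
      field_simp
      ring
    · have b3 : lam2 * (fpuBb z w u / (w * (1 - z))) ^ 2 +
          lam1 * (z * fpuA z w u / (w * (1 - z))) ^ 2 =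
          (lam2 * fpuBb z w u ^ 2 + lam1 * (z * fpuA z w u) ^ 2) /
            (w * (1 - z)) ^ 2 := by
        (clear * - hl2 hz0 hl1 hA0 hz1 hw1; field_simp)
      have b4 : 999 / 1000 * (lam1 * lam2 * (fpuRb L z w u / (w * (1 - z) ^ 2))) =
          999 / 1000 * (lam1 * lam2 * (fpuRb L z w u * w)) /
            (w * (1 - z)) ^ 2 := by
        (clear * - hz1 hw1 hl2 hl1; field_simp)
      rw [b3, b4]
      exact div_le_div_of_nonneg_right h5' (by (clear * - hw1 hz1; positivity))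

end Vale.Agent.P237.AllN
end

section

/-!
# P237, block D, `l > 0`, `1 ≤ m z ≤ 9`, `u ≥ 0`: the polynomial expressions for the kernel check

Variables `X = z`, `Y = w = m z`, `Z = u`.
-/

namespace Vale.Agent.P237.AllN

open PolyPos

/-- data of one slab -/
structure FpuD where
  e : Fr
  C : Fr
  g0 : Fr
  g1 : Fr
  g2 : Fr
  q0 : Fr
  q1 : Fr
  q2 : Fr
  L : Fr
  l1 : Fr
  l2 : Fr

namespace FpuD

/-- `g` -/
noncomputable def g (d : FpuD) (z : ℝ) : ℝ := d.g0.R + d.g1.R * z + d.g2.R * z ^ 2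

/-- `q` -/
noncomputable def q (d : FpuD) (z : ℝ) : ℝ := d.q0.R + d.q1.R * z + d.q2.R * z ^ 2

/-- `1 - z` -/
def s2 : Ex3 := Ex3.c ⟨1, 0⟩ - Ex3.X

/-- `w + 3 z` -/
def Q : Ex3 := Ex3.Y + Ex3.c ⟨3, 0⟩ * Ex3.X

/-- `1 + u` -/
def du : Ex3 := Ex3.c ⟨1, 0⟩ + Ex3.Z

/-- `2 + 31 u/25` -/
def ku : Ex3 := Ex3.c ⟨2, 0⟩ + Ex3.c ⟨31, 24⟩ * Ex3.Z

/-- `g + q` -/
def xF (d : FpuD) : Ex3 := (Ex3.c d.g0 + Ex3.c d.q0) + (Ex3.c d.g1 + Ex3.c d.q1) * Ex3.X +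
  (Ex3.c d.g2 + Ex3.c d.q2) * (Ex3.X * Ex3.X)

/-- `3 (1-z)² - w (1-z)` -/
def xV : Ex3 := Ex3.c ⟨3, 0⟩ * (s2 * s2) - Ex3.Y * s2

/-- `NA` -/
def xNA (d : FpuD) : Ex3 :=
  ((Ex3.c d.e * Q - Ex3.c d.l1) * (s2 * s2) - Ex3.X * d.xF - Ex3.c ⟨3, 24⟩ * Q * xV) * du +
  s2 * (s2 * s2) * (Ex3.c ⟨4, 0⟩ * Ex3.c d.e + Ex3.c ⟨9, 1⟩ * Ex3.c d.C * Ex3.X) * (Ex3.Z * Ex3.Z)

/-- `NG` -/
def xNG (d : FpuD) : Ex3 :=
  s2 * s2 * (Ex3.c ⟨4, 0⟩ + Ex3.c ⟨9, 1⟩ * Ex3.X) * ku * (Ex3.Y - Ex3.X) -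
  (Ex3.c ⟨2, 0⟩ - Ex3.X - Ex3.c ⟨1, 3⟩ * (Ex3.X * Ex3.X)) * (Ex3.Y + Ex3.X) * du -
  Ex3.c d.l2 * du * ku * s2 * (Ex3.Y - Ex3.X)

/-- `NB` -/
def xNB : Ex3 :=
  Ex3.c ⟨3, 24⟩ * Q * du + (Ex3.c ⟨4, 0⟩ + Ex3.c ⟨9, 0⟩ * Ex3.X) * s2 * Ex3.Z

/-- first determinant -/
def xG1 (d : FpuD) : Ex3 :=
  d.xNA * d.xNG - xNB * xNB * (ku * (s2 * (s2 * s2)) * (Ex3.Y - Ex3.X))

/-- `A w (1-z)/z` -/
def xA : Ex3 :=
  (Ex3.c ⟨3, 0⟩ - Ex3.c ⟨9, 3⟩ * Ex3.X) * Ex3.Y +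
  Ex3.c ⟨517, 99⟩ * (Ex3.c ⟨1, 0⟩ - Ex3.c ⟨1, 1⟩ * Ex3.X) *
    (Ex3.c ⟨877, 9999⟩ + Ex3.c ⟨2283, 9999⟩ * Ex3.Z)

/-- `Bb` -/
def xBb : Ex3 :=
  Ex3.c ⟨2, 0⟩ * (Ex3.X * Ex3.X) + Ex3.c ⟨6, 24⟩ * Q * Ex3.Y * s2 * Ex3.Z

/-- `P` -/
def xP (d : FpuD) : Ex3 := Ex3.X * d.xF + Ex3.c ⟨3, 24⟩ * Q * xV

/-- `Ba` -/
def xBa (d : FpuD) : Ex3 := Ex3.Y * (Ex3.c d.L * d.xP) + xBb * s2

/-- `Rh` -/
def xRh : Ex3 :=
  Ex3.c ⟨1, 4⟩ * (s2 * s2) + Ex3.c ⟨1, 1⟩ * Ex3.Y * s2 +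
  Ex3.c ⟨1, 9⟩ * (Ex3.Y * Ex3.Y - Ex3.c ⟨2, 0⟩ * Ex3.Y * Ex3.X)

/-- `Ra` -/
def xRa (d : FpuD) : Ex3 :=
  Ex3.Y * xRh - Ex3.c d.L * d.xBa - Ex3.X * xA * Ex3.Z * s2

/-- `Rb` -/
def xRb (d : FpuD) : Ex3 :=
  Ex3.Y * xRh - Ex3.c d.L * xBb * s2 - Ex3.X * xA * Ex3.Z * s2

/-- second condition -/
def xG2 (d : FpuD) : Ex3 :=
  Ex3.c ⟨999, 999⟩ * (Ex3.c d.l1 * Ex3.c d.l2) * (d.xRa * (Ex3.Y * (s2 * s2))) -
  (Ex3.c d.l2 * (d.xBa * d.xBa) +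
    Ex3.c d.l1 * ((Ex3.X * xA * s2) * (Ex3.X * xA * s2)))

/-- third condition -/
def xG3 (d : FpuD) : Ex3 :=
  Ex3.c ⟨999, 999⟩ * (Ex3.c d.l1 * Ex3.c d.l2) * (d.xRb * Ex3.Y) -
  (Ex3.c d.l2 * (xBb * xBb) + Ex3.c d.l1 * ((Ex3.X * xA) * (Ex3.X * xA)))

variable (d : FpuD) (z w u : ℝ)

theorem s2_R : s2.R z w u = 1 - z := by
  simp only [s2, Ex3.R_sub, Ex3.R_c, Ex3.R_X, Fr.R]
  norm_num

theorem Q_R : Q.R z w u = w + 3 * z := by
  simp only [Q, Ex3.R_add, Ex3.R_mul, Ex3.R_c, Ex3.R_X, Ex3.R_Y, Fr.R]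
  norm_num

theorem du_R : du.R z w u = 1 + u := by
  simp only [du, Ex3.R_add, Ex3.R_c, Ex3.R_Z, Fr.R]
  norm_num

theorem ku_R : ku.R z w u = 2 + 31 / 25 * u := by
  simp only [ku, Ex3.R_add, Ex3.R_mul, Ex3.R_c, Ex3.R_Z, Fr.R]
  norm_num

theorem xF_R : d.xF.R z w u = d.g z + d.q z := by
  simp only [xF, Ex3.R_add, Ex3.R_mul, Ex3.R_c, Ex3.R_X, g, q]
  ring

theorem xV_R : xV.R z w u = 3 * (1 - z) ^ 2 - w * (1 - z) := by
  simp only [xV, Ex3.R_sub, Ex3.R_mul, Ex3.R_c, Ex3.R_Y, s2_R]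
  simp only [Fr.R]
  push_cast
  ring

theorem xNA_R : d.xNA.R z w u = fpuNA d.e.R d.C.R (d.g z + d.q z) d.l1.R z w u := by
  simp only [xNA, Ex3.R_sub, Ex3.R_add, Ex3.R_mul, Ex3.R_c, Ex3.R_X, Ex3.R_Z, s2_R, Q_R, du_R,
    xF_R, xV_R, fpuNA]
  generalize d.g z + d.q z = F
  generalize d.e.R = e
  generalize d.C.R = C
  generalize d.l1.R = l1
  simp only [Fr.R]
  push_cast
  ring

theorem xNG_R : d.xNG.R z w u = fpuNG d.l2.R z w u := by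
  simp only [xNG, Ex3.R_sub, Ex3.R_add, Ex3.R_mul, Ex3.R_c, Ex3.R_X, Ex3.R_Y, s2_R, du_R,
    ku_R, fpuNG]
  generalize d.l2.R = l2
  simp only [Fr.R]
  push_cast
  ring

theorem xNB_R : xNB.R z w u = fpuNB z w u := by
  simp only [xNB, Ex3.R_add, Ex3.R_mul, Ex3.R_c, Ex3.R_X, Ex3.R_Z, s2_R, Q_R, du_R, fpuNB]
  simp only [Fr.R]
  push_cast
  ring

theorem xG1_R : d.xG1.R z w u =
    fpuNA d.e.R d.C.R (d.g z + d.q z) d.l1.R z w u * fpuNG d.l2.R z w u -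
    fpuNB z w u ^ 2 * ((2 + 31 / 25 * u) * (1 - z) ^ 3 * (w - z)) := by
  simp only [xG1, Ex3.R_sub, Ex3.R_mul, Ex3.R_X, Ex3.R_Y, s2_R, ku_R, xNA_R, xNG_R, xNB_R]
  ring

theorem xA_R : xA.R z w u = fpuA z w u := by
  simp only [xA, Ex3.R_sub, Ex3.R_add, Ex3.R_mul, Ex3.R_c, Ex3.R_X, Ex3.R_Y, Ex3.R_Z, fpuA]
  simp only [Fr.R]
  push_cast
  ring

theorem xBb_R : xBb.R z w u = fpuBb z w u := by
  simp only [xBb, Ex3.R_add, Ex3.R_mul, Ex3.R_c, Ex3.R_X, Ex3.R_Y, Ex3.R_Z, s2_R, Q_R, fpuBb]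
  simp only [Fr.R]
  push_cast
  ring

theorem xP_R : d.xP.R z w u = fpuP (d.g z + d.q z) z w := by
  simp only [xP, Ex3.R_add, Ex3.R_mul, Ex3.R_c, Ex3.R_X, Q_R, xF_R, xV_R, fpuP]
  generalize d.g z + d.q z = F
  simp only [Fr.R]
  push_cast
  ring

theorem xBa_R : d.xBa.R z w u = fpuBa d.L.R (d.g z + d.q z) z w u := by
  simp only [xBa, Ex3.R_add, Ex3.R_mul, Ex3.R_c, Ex3.R_Y, s2_R, xP_R, xBb_R, fpuBa]

theorem xRh_R : xRh.R z w u = fpuRh z w := by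
  simp only [xRh, Ex3.R_sub, Ex3.R_add, Ex3.R_mul, Ex3.R_c, Ex3.R_X, Ex3.R_Y, s2_R, fpuRh]
  simp only [Fr.R]
  push_cast
  ring

theorem xRa_R : d.xRa.R z w u = fpuRa d.L.R (d.g z + d.q z) z w u := by
  simp only [xRa, Ex3.R_sub, Ex3.R_mul, Ex3.R_c, Ex3.R_X, Ex3.R_Y, Ex3.R_Z, s2_R, xRh_R, xBa_R,
    xA_R, fpuRa]

theorem xRb_R : d.xRb.R z w u = fpuRb d.L.R z w u := by
  simp only [xRb, Ex3.R_sub, Ex3.R_mul, Ex3.R_c, Ex3.R_X, Ex3.R_Y, Ex3.R_Z, s2_R, xRh_R, xBb_R,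
    xA_R, fpuRb]

theorem xG2_R : d.xG2.R z w u =
    999 / 1000 * (d.l1.R * d.l2.R * (fpuRa d.L.R (d.g z + d.q z) z w u * (w * (1 - z) ^ 2))) -
    (d.l2.R * fpuBa d.L.R (d.g z + d.q z) z w u ^ 2 +
      d.l1.R * (z * fpuA z w u * (1 - z)) ^ 2) := by
  simp only [xG2, Ex3.R_sub, Ex3.R_add, Ex3.R_mul, Ex3.R_c, Ex3.R_X, Ex3.R_Y, s2_R, xRa_R,
    xBa_R, xA_R]
  generalize fpuRa d.L.R (d.g z + d.q z) z w u = a1
  generalize fpuBa d.L.R (d.g z + d.q z) z w u = a2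
  generalize d.l1.R = l1
  generalize d.l2.R = l2
  simp only [Fr.R]
  push_cast
  ring

theorem xG3_R : d.xG3.R z w u =
    999 / 1000 * (d.l1.R * d.l2.R * (fpuRb d.L.R z w u * w)) -
    (d.l2.R * fpuBb z w u ^ 2 + d.l1.R * (z * fpuA z w u) ^ 2) := by
  simp only [xG3, Ex3.R_sub, Ex3.R_add, Ex3.R_mul, Ex3.R_c, Ex3.R_X, Ex3.R_Y, xRb_R,
    xBb_R, xA_R]
  generalize fpuRb d.L.R z w u = a1
  generalize d.l1.R = l1
  generalize d.l2.R = l2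
  simp only [Fr.R]
  push_cast
  ring

/-- the region: `m ≥ mm`, window of `u`, `m ≤ mM` -/
def Lo (mm mM : Fr) : List Ex3 :=
  [Ex3.c mm * Ex3.X - Ex3.Y, Ex3.Z * Ex3.Z * s2 - Ex3.c ⟨4, 24⟩ * Ex3.Y,
    Ex3.Z * Ex3.Z * s2 - Ex3.c ⟨1, 0⟩, Ex3.Y - Ex3.c mM * Ex3.X]

/-- the region without upper bound of `m` -/
def Lo' (mm : Fr) : List Ex3 :=
  [Ex3.c mm * Ex3.X - Ex3.Y, Ex3.Z * Ex3.Z * s2 - Ex3.c ⟨4, 24⟩ * Ex3.Y,
    Ex3.Z * Ex3.Z * s2 - Ex3.c ⟨1, 0⟩]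

variable {z w u}

theorem Lo_R {mm mM : Fr} (h0 : mm.R * z ≤ w) (h1 : u ^ 2 * (1 - z) ≤ 4 / 25 * w)
    (h2 : u ^ 2 * (1 - z) ≤ 1) (h3 : w ≤ mM.R * z) : ∀ E ∈ Lo mm mM, E.R z w u ≤ 0 := by
  intro E hE
  simp only [Lo, List.mem_cons, List.not_mem_nil, or_false] at hE
  rcases hE with rfl | rfl | rfl | rfl
  · simp only [Ex3.R_sub, Ex3.R_mul, Ex3.R_c, Ex3.R_X, Ex3.R_Y]
    linarith
  · simp only [Ex3.R_sub, Ex3.R_mul, Ex3.R_c, Ex3.R_Z, Ex3.R_Y, s2_R]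
    simp only [Fr.R]
    push_cast
    linarith
  · simp only [Ex3.R_sub, Ex3.R_mul, Ex3.R_c, Ex3.R_Z, s2_R]
    simp only [Fr.R]
    push_cast
    linarith
  · simp only [Ex3.R_sub, Ex3.R_mul, Ex3.R_c, Ex3.R_X, Ex3.R_Y]
    linarith

theorem Lo'_R {mm : Fr} (h0 : mm.R * z ≤ w) (h1 : u ^ 2 * (1 - z) ≤ 4 / 25 * w)
    (h2 : u ^ 2 * (1 - z) ≤ 1) : ∀ E ∈ Lo' mm, E.R z w u ≤ 0 := by
  intro E hE
  simp only [Lo', List.mem_cons, List.not_mem_nil, or_false] at hE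
  rcases hE with rfl | rfl | rfl
  · simp only [Ex3.R_sub, Ex3.R_mul, Ex3.R_c, Ex3.R_X, Ex3.R_Y]
    linarith
  · simp only [Ex3.R_sub, Ex3.R_mul, Ex3.R_c, Ex3.R_Z, Ex3.R_Y, s2_R]
    simp only [Fr.R]
    push_cast
    linarith
  · simp only [Ex3.R_sub, Ex3.R_mul, Ex3.R_c, Ex3.R_Z, s2_R]
    simp only [Fr.R]
    push_cast
    linarith

end FpuD

/-- the box of a slab -/
structure FpuB where
  A : ℤ
  B : ℤ
  D : ℕ
  A' : ℤ
  B' : ℤ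
  D' : ℕ
  A'' : ℤ
  B'' : ℤ
  D'' : ℕ

/-- the box is not degenerate -/
def FpuB.ok (b : FpuB) : Bool :=
  decide (0 < b.D) && decide (0 < b.D') && decide (0 < b.D'') && decide (b.A < b.B) &&
    decide (b.A' < b.B') && decide (b.A'' < b.B'')

/-- membership in the box -/
def FpuB.mem (b : FpuB) (z w u : ℝ) : Prop :=
  ((b.A : ℝ) ≤ b.D * z ∧ (b.D : ℝ) * z ≤ b.B) ∧ ((b.A' : ℝ) ≤ b.D' * w ∧ (b.D' : ℝ) * w ≤ b.B') ∧
    ((b.A'' : ℝ) ≤ b.D'' * u ∧ (b.D'' : ℝ) * u ≤ b.B'')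

/-- check of one expression -/
noncomputable def FpuB.chk (b : FpuB) (K Ld : ℕ) (E : Ex3) (Lo : List Ex3) (t : PT3) : Bool :=
  tchk3 (2 ^ K) Ld 4000 [[E]] Lo t b.A b.B b.D b.A' b.B' b.D' b.A'' b.B'' b.D''

theorem FpuB.sound {b : FpuB} (hb : b.ok = true) {z w u : ℝ} (hm : b.mem z w u) {K Ld : ℕ}
    {E : Ex3} {Lo : List Ex3} {t : PT3} (hLo : ∀ E ∈ Lo, E.R z w u ≤ 0)
    (h : b.chk K Ld E Lo t = true) : 0 ≤ E.R z w u := by
  simp only [FpuB.ok, Bool.and_eq_true, decide_eq_true_eq] at hb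
  obtain ⟨⟨⟨⟨⟨h1, h2⟩, h3⟩, h4⟩, h5⟩, h6⟩ := hb
  obtain ⟨⟨m1, m2⟩, ⟨m3, m4⟩, m5, m6⟩ := hm
  obtain ⟨G, hG, hE⟩ := tchk3_sound hLo t _ _ _ _ _ _ _ _ _ h1 h2 h3 h4 h5 h6 h m1 m2 m3 m4 m5 m6
  simp only [List.mem_cons, List.not_mem_nil, or_false] at hG
  subst hG
  exact hE E (by simp)

/-- the five polynomial conditions of `fpu_core` -/
def FpuOK (d : FpuD) (z w u : ℝ) : Prop :=
  0 ≤ fpuNA d.e.R d.C.R (d.g z + d.q z) d.l1.R z w u ∧ 0 ≤ fpuNG d.l2.R z w u ∧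
  fpuNB z w u ^ 2 * ((2 + 31 / 25 * u) * (1 - z) ^ 3 * (w - z)) ≤
    fpuNA d.e.R d.C.R (d.g z + d.q z) d.l1.R z w u * fpuNG d.l2.R z w u ∧
  d.l2.R * fpuBa d.L.R (d.g z + d.q z) z w u ^ 2 + d.l1.R * (z * fpuA z w u * (1 - z)) ^ 2 ≤
    999 / 1000 * (d.l1.R * d.l2.R * (fpuRa d.L.R (d.g z + d.q z) z w u * (w * (1 - z) ^ 2))) ∧
  d.l2.R * fpuBb z w u ^ 2 + d.l1.R * (z * fpuA z w u) ^ 2 ≤
    999 / 1000 * (d.l1.R * d.l2.R * (fpuRb d.L.R z w u * w))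

theorem FpuOK.of {d : FpuD} {z w u : ℝ} (h1 : 0 ≤ d.xNA.R z w u) (h2 : 0 ≤ d.xNG.R z w u)
    (h3 : 0 ≤ d.xG1.R z w u) (h4 : 0 ≤ d.xG2.R z w u) (h5 : 0 ≤ d.xG3.R z w u) :
    FpuOK d z w u := by
  rw [FpuD.xNA_R] at h1
  rw [FpuD.xNG_R] at h2
  rw [FpuD.xG1_R] at h3
  rw [FpuD.xG2_R] at h4
  rw [FpuD.xG3_R] at h5
  exact ⟨h1, h2, sub_nonneg.1 h3, sub_nonneg.1 h4, sub_nonneg.1 h5⟩

end Vale.Agent.P237.AllN
end

section

/-!
# P237, block D, `l > 0`, `1 ≤ m z ≤ 9`, `u ≥ 0`: kernel checks, slabs 1 to 6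
-/

namespace Vale.Agent.P237.AllN

open PolyPos

set_option maxRecDepth 100000

/-- slab 1 -/
def fpuD1 : FpuD :=
  ⟨⟨779, 499⟩, ⟨5, 0⟩, ⟨61, 9⟩, ⟨5, 1⟩, ⟨53, 0⟩, ⟨27, 39⟩, ⟨3, 9⟩, ⟨29, 9⟩, ⟨2, 4⟩, ⟨73, 99⟩, ⟨267, 999⟩⟩

/-- box 1 -/
def fpuB1 : FpuB := ⟨0, 2, 27, 1, 2, 1, 0, 59, 100⟩

/-- region 1 -/
def fpuLo1 : List Ex3 := FpuD.Lo' ⟨27, 0⟩

theorem fpu_chk1NA : fpuB1.chk 512 12 fpuD1.xNA fpuLo1 (.leaf 0) = true := by
  decide +kernel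

theorem fpu_chk1NG : fpuB1.chk 512 12 fpuD1.xNG fpuLo1 (.leaf 0) = true := by
  decide +kernel

/-- tree -/
def fpuT1G1 : PT3 :=
  .sx (.leaf 0) (.sx (.sy (.sy (.sz (.leaf 0) (.sz (.leaf 0) (.sy (.out 1) (.leaf 0)))) (.leaf
  0)) (.leaf 0)) (.sy (.sy (.out 0) (.sz (.leaf 0) (.sz (.leaf 0) (.sy (.out 0) (.leaf 0)))))
  (.leaf 0)))

theorem fpu_chk1G1 : fpuB1.chk 512 12 fpuD1.xG1 fpuLo1 fpuT1G1 = true := by
  decide +kernel

/-- tree -/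
def fpuT1G2 : PT3 :=
  .sx (.leaf 0) (.sz (.sz (.leaf 0) (.sx (.leaf 0) (.sy (.sy (.out 0) (.leaf 0)) (.leaf 0))))
  (.sx (.leaf 0) (.sy (.sy (.out 0) (.sy (.out 0) (.sz (.leaf 0) (.sz (.leaf 0) (.out 1)))))
  (.leaf 0))))

theorem fpu_chk1G2 : fpuB1.chk 512 12 fpuD1.xG2 fpuLo1 fpuT1G2 = true := by
  decide +kernel

theorem fpu_chk1G3 : fpuB1.chk 512 12 fpuD1.xG3 fpuLo1 (.leaf 0) = true := by
  decide +kernel

/-- slab 2 -/
def fpuD2 : FpuD :=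
  ⟨⟨779, 499⟩, ⟨5, 0⟩, ⟨61, 9⟩, ⟨5, 1⟩, ⟨53, 0⟩, ⟨27, 39⟩, ⟨3, 9⟩, ⟨29, 9⟩, ⟨2, 4⟩, ⟨28, 24⟩, ⟨157, 499⟩⟩

/-- box 2 -/
def fpuB2 : FpuB := ⟨0, 1, 9, 2, 3, 1, 0, 37, 50⟩

/-- region 2 -/
def fpuLo2 : List Ex3 := FpuD.Lo' ⟨27, 0⟩

theorem fpu_chk2NA : fpuB2.chk 512 12 fpuD2.xNA fpuLo2 (.leaf 0) = true := by
  decide +kernel

theorem fpu_chk2NG : fpuB2.chk 512 12 fpuD2.xNG fpuLo2 (.leaf 0) = true := by
  decide +kernel

/-- tree -/
def fpuT2G1 : PT3 :=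
  .sy (.sy (.sz (.leaf 0) (.sz (.leaf 0) (.sx (.leaf 0) (.sy (.sz (.sx (.leaf 0) (.out 0))
  (.out 1)) (.sz (.leaf 0) (.out 1)))))) (.leaf 0)) (.leaf 0)

theorem fpu_chk2G1 : fpuB2.chk 512 12 fpuD2.xG1 fpuLo2 fpuT2G1 = true := by
  decide +kernel

/-- tree -/
def fpuT2G2 : PT3 :=
  .sx (.leaf 0) (.sx (.leaf 0) (.sy (.sy (.sz (.leaf 0) (.sy (.out 0) (.sz (.leaf 0) (.sz
  (.leaf 0) (.out 1))))) (.sz (.leaf 0) (.sz (.leaf 0) (.sy (.sy (.sz (.leaf 0) (.out 1))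
  (.leaf 0)) (.leaf 0))))) (.leaf 0)))

theorem fpu_chk2G2 : fpuB2.chk 512 12 fpuD2.xG2 fpuLo2 fpuT2G2 = true := by
  decide +kernel

theorem fpu_chk2G3 : fpuB2.chk 512 12 fpuD2.xG3 fpuLo2 (.leaf 0) = true := by
  decide +kernel

/-- slab 3 -/
def fpuD3 : FpuD :=
  ⟨⟨779, 499⟩, ⟨5, 0⟩, ⟨61, 9⟩, ⟨5, 1⟩, ⟨53, 0⟩, ⟨27, 39⟩, ⟨3, 9⟩, ⟨29, 9⟩, ⟨2, 4⟩, ⟨157, 99⟩, ⟨19, 99⟩⟩

/-- box 3 -/
def fpuB3 : FpuB := ⟨0, 4, 27, 3, 4, 1, 0, 87, 100⟩

/-- region 3 -/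
def fpuLo3 : List Ex3 := FpuD.Lo' ⟨27, 0⟩

theorem fpu_chk3NA : fpuB3.chk 512 12 fpuD3.xNA fpuLo3 (.leaf 0) = true := by
  decide +kernel

theorem fpu_chk3NG : fpuB3.chk 512 12 fpuD3.xNG fpuLo3 (.leaf 0) = true := by
  decide +kernel

theorem fpu_chk3G1 : fpuB3.chk 512 12 fpuD3.xG1 fpuLo3 (.leaf 0) = true := by
  decide +kernel

/-- tree -/
def fpuT3G2 : PT3 :=
  .sy (.sy (.sz (.leaf 0) (.sz (.sx (.leaf 0) (.sz (.leaf 0) (.sy (.sx (.leaf 0) (.sx (.leaf 0)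
  (.out 0))) (.leaf 0)))) (.sx (.leaf 0) (.sz (.sx (.leaf 0) (.sx (.leaf 0) (.out 0))) (.sy
  (.sx (.leaf 0) (.sx (.leaf 0) (.out 0))) (.sx (.leaf 0) (.sz (.sx (.leaf 0) (.out 0)) (.out
  1)))))))) (.sz (.leaf 0) (.sz (.leaf 0) (.sx (.leaf 0) (.sz (.leaf 0) (.sy (.sx (.leaf 0)
  (.sx (.leaf 0) (.out 0))) (.sx (.leaf 0) (.sx (.leaf 0) (.sz (.leaf 0) (.out 1))))))))))
  (.leaf 0)

theorem fpu_chk3G2 : fpuB3.chk 512 12 fpuD3.xG2 fpuLo3 fpuT3G2 = true := by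
  decide +kernel

theorem fpu_chk3G3 : fpuB3.chk 512 12 fpuD3.xG3 fpuLo3 (.leaf 0) = true := by
  decide +kernel

/-- slab 4 -/
def fpuD4 : FpuD :=
  ⟨⟨779, 499⟩, ⟨5, 0⟩, ⟨61, 9⟩, ⟨5, 1⟩, ⟨53, 0⟩, ⟨27, 39⟩, ⟨3, 9⟩, ⟨29, 9⟩, ⟨2, 4⟩, ⟨73, 49⟩, ⟨23, 99⟩⟩

/-- box 4 -/
def fpuB4 : FpuB := ⟨0, 5, 27, 4, 5, 1, 0, 1, 1⟩

/-- region 4 -/
def fpuLo4 : List Ex3 := FpuD.Lo' ⟨27, 0⟩

theorem fpu_chk4NA : fpuB4.chk 512 12 fpuD4.xNA fpuLo4 (.leaf 0) = true := by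
  decide +kernel

theorem fpu_chk4NG : fpuB4.chk 512 12 fpuD4.xNG fpuLo4 (.leaf 0) = true := by
  decide +kernel

theorem fpu_chk4G1 : fpuB4.chk 512 12 fpuD4.xG1 fpuLo4 (.leaf 0) = true := by
  decide +kernel

/-- tree -/
def fpuT4G2 : PT3 :=
  .sx (.leaf 0) (.sz (.leaf 0) (.sy (.sy (.sy (.sx (.leaf 0) (.sz (.leaf 0) (.sy (.sz (.sz
  (.leaf 0) (.sx (.leaf 0) (.out 0))) (.sz (.sx (.leaf 0) (.out 0)) (.out 1))) (.sz (.leaf 0)
  (.sz (.sx (.leaf 0) (.out 0)) (.out 1)))))) (.sx (.leaf 0) (.sz (.leaf 0) (.sz (.leaf 0) (.sy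
  (.sz (.leaf 0) (.out 1)) (.sz (.leaf 0) (.out 1))))))) (.leaf 0)) (.leaf 0)))

theorem fpu_chk4G2 : fpuB4.chk 512 12 fpuD4.xG2 fpuLo4 fpuT4G2 = true := by
  decide +kernel

theorem fpu_chk4G3 : fpuB4.chk 512 12 fpuD4.xG3 fpuLo4 (.leaf 0) = true := by
  decide +kernel

/-- slab 5 -/
def fpuD5 : FpuD :=
  ⟨⟨779, 499⟩, ⟨5, 0⟩, ⟨61, 9⟩, ⟨5, 1⟩, ⟨53, 0⟩, ⟨27, 39⟩, ⟨3, 9⟩, ⟨29, 9⟩, ⟨2, 4⟩, ⟨42, 24⟩, ⟨219, 999⟩⟩

/-- box 5 -/
def fpuB5 : FpuB := ⟨0, 25, 108, 20, 25, 4, 0, 23, 20⟩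

/-- region 5 -/
def fpuLo5 : List Ex3 := FpuD.Lo' ⟨27, 0⟩

theorem fpu_chk5NA : fpuB5.chk 512 12 fpuD5.xNA fpuLo5 (.leaf 0) = true := by
  decide +kernel

theorem fpu_chk5NG : fpuB5.chk 512 12 fpuD5.xNG fpuLo5 (.leaf 0) = true := by
  decide +kernel

/-- tree -/
def fpuT5G1 : PT3 :=
  .sx (.leaf 0) (.sy (.sy (.sz (.leaf 0) (.sz (.leaf 0) (.sy (.sz (.leaf 0) (.sx (.leaf 0) (.sx
  (.leaf 0) (.out 0)))) (.sz (.leaf 0) (.sx (.leaf 0) (.sx (.leaf 0) (.out 0))))))) (.sz (.leaf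
  0) (.sz (.leaf 0) (.sy (.sz (.leaf 0) (.sx (.leaf 0) (.sz (.leaf 0) (.out 1)))) (.leaf 0)))))
  (.leaf 0))

theorem fpu_chk5G1 : fpuB5.chk 512 12 fpuD5.xG1 fpuLo5 fpuT5G1 = true := by
  decide +kernel

/-- tree -/
def fpuT5G2 : PT3 :=
  .sx (.leaf 0) (.sy (.sy (.sz (.leaf 0) (.sz (.leaf 0) (.sy (.sz (.sx (.leaf 0) (.sz (.leaf 0)
  (.sy (.sx (.leaf 0) (.out 0)) (.leaf 0)))) (.sx (.leaf 0) (.sz (.sy (.sx (.leaf 0) (.out 0))
  (.sx (.leaf 0) (.out 0))) (.out 1)))) (.sz (.leaf 0) (.sx (.leaf 0) (.sz (.sy (.sx (.leaf 0)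
  (.out 0)) (.leaf 0)) (.out 1))))))) (.leaf 0)) (.leaf 0))

theorem fpu_chk5G2 : fpuB5.chk 512 12 fpuD5.xG2 fpuLo5 fpuT5G2 = true := by
  decide +kernel

theorem fpu_chk5G3 : fpuB5.chk 512 12 fpuD5.xG3 fpuLo5 (.leaf 0) = true := by
  decide +kernel

/-- slab 6 -/
def fpuD6 : FpuD :=
  ⟨⟨779, 499⟩, ⟨5, 0⟩, ⟨61, 9⟩, ⟨5, 1⟩, ⟨53, 0⟩, ⟨27, 39⟩, ⟨3, 9⟩, ⟨29, 9⟩, ⟨2, 4⟩, ⟨19, 9⟩, ⟨21, 124⟩⟩

/-- box 6 -/
def fpuB6 : FpuB := ⟨0, 121, 432, 100, 121, 16, 0, 59, 50⟩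

/-- region 6 -/
def fpuLo6 : List Ex3 := FpuD.Lo' ⟨27, 0⟩

theorem fpu_chk6NA : fpuB6.chk 512 12 fpuD6.xNA fpuLo6 (.leaf 0) = true := by
  decide +kernel

theorem fpu_chk6NG : fpuB6.chk 512 12 fpuD6.xNG fpuLo6 (.leaf 0) = true := by
  decide +kernel

/-- tree -/
def fpuT6G1 : PT3 :=
  .sx (.leaf 0) (.sz (.leaf 0) (.sy (.sy (.sy (.sz (.leaf 0) (.sz (.leaf 0) (.sx (.leaf 0) (.sx
  (.leaf 0) (.out 0))))) (.sz (.leaf 0) (.sz (.leaf 0) (.sx (.leaf 0) (.sx (.leaf 0) (.out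
  0)))))) (.leaf 0)) (.leaf 0)))

theorem fpu_chk6G1 : fpuB6.chk 512 12 fpuD6.xG1 fpuLo6 fpuT6G1 = true := by
  decide +kernel

/-- tree -/
def fpuT6G2 : PT3 :=
  .sx (.leaf 0) (.sz (.leaf 0) (.sy (.sy (.sy (.sz (.leaf 0) (.sz (.leaf 0) (.sx (.leaf 0) (.sx
  (.leaf 0) (.out 0))))) (.sz (.leaf 0) (.sz (.leaf 0) (.sx (.leaf 0) (.sx (.leaf 0) (.out
  0)))))) (.leaf 0)) (.leaf 0)))

theorem fpu_chk6G2 : fpuB6.chk 512 12 fpuD6.xG2 fpuLo6 fpuT6G2 = true := by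
  decide +kernel

theorem fpu_chk6G3 : fpuB6.chk 512 12 fpuD6.xG3 fpuLo6 (.leaf 0) = true := by
  decide +kernel

end Vale.Agent.P237.AllN
end

section

/-!
# P237, block D, `l > 0`, `1 ≤ m z ≤ 9`, `u ≥ 0`: kernel checks, slabs 10 to 12
-/

namespace Vale.Agent.P237.AllN

open PolyPos

set_option maxRecDepth 100000

/-- slab 10 -/
def fpuD10 : FpuD :=
  ⟨⟨761, 499⟩, ⟨477, 99⟩, ⟨192, 24⟩, ⟨246, 24⟩, ⟨653, 9⟩, ⟨97, 99⟩, ⟨-9, 3⟩, ⟨91, 9⟩, ⟨11, 24⟩, ⟨89, 49⟩, ⟨177, 999⟩⟩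

/-- box 10 -/
def fpuB10 : FpuB := ⟨3751, 6768, 23312, 121, 144, 16, 0, 119, 100⟩

/-- region 10 -/
def fpuLo10 : List Ex3 := FpuD.Lo ⟨31, 0⟩ ⟨47, 0⟩

theorem fpu_chk10NA : fpuB10.chk 512 12 fpuD10.xNA fpuLo10 (.leaf 0) = true := by
  decide +kernel

theorem fpu_chk10NG : fpuB10.chk 512 12 fpuD10.xNG fpuLo10 (.leaf 0) = true := by
  decide +kernel

/-- tree -/
def fpuT10G1 : PT3 :=
  .sx (.leaf 0) (.sy (.sy (.sz (.leaf 0) (.sz (.leaf 0) (.sy (.sz (.leaf 0) (.sx (.leaf 0)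
  (.out 0))) (.sz (.leaf 0) (.sx (.leaf 0) (.out 0)))))) (.sx (.leaf 0) (.sz (.leaf 0) (.sy
  (.sx (.leaf 0) (.out 0)) (.leaf 0))))) (.leaf 0))

theorem fpu_chk10G1 : fpuB10.chk 512 12 fpuD10.xG1 fpuLo10 fpuT10G1 = true := by
  decide +kernel

theorem fpu_chk10G2 : fpuB10.chk 512 12 fpuD10.xG2 fpuLo10 (.leaf 0) = true := by
  decide +kernel

theorem fpu_chk10G3 : fpuB10.chk 512 12 fpuD10.xG3 fpuLo10 (.leaf 0) = true := by
  decide +kernel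

/-- slab 11 -/
def fpuD11 : FpuD :=
  ⟨⟨373, 249⟩, ⟨93, 19⟩, ⟨1007, 99⟩, ⟨141, 9⟩, ⟨733, 9⟩, ⟨143, 199⟩, ⟨1, 1⟩, ⟨3, 0⟩, ⟨19, 39⟩, ⟨5, 1⟩, ⟨21, 124⟩⟩

/-- box 11 -/
def fpuB11 : FpuB := ⟨0, 121, 768, 100, 121, 16, 0, 109, 100⟩

/-- region 11 -/
def fpuLo11 : List Ex3 := FpuD.Lo' ⟨48, 0⟩

theorem fpu_chk11NA : fpuB11.chk 512 12 fpuD11.xNA fpuLo11 (.leaf 0) = true := by
  decide +kernel

theorem fpu_chk11NG : fpuB11.chk 512 12 fpuD11.xNG fpuLo11 (.leaf 0) = true := by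
  decide +kernel

theorem fpu_chk11G1 : fpuB11.chk 512 12 fpuD11.xG1 fpuLo11 (.leaf 0) = true := by
  decide +kernel

theorem fpu_chk11G2 : fpuB11.chk 512 12 fpuD11.xG2 fpuLo11 (.leaf 0) = true := by
  decide +kernel

theorem fpu_chk11G3 : fpuB11.chk 512 12 fpuD11.xG3 fpuLo11 (.leaf 0) = true := by
  decide +kernel

/-- slab 12 -/
def fpuD12 : FpuD :=
  ⟨⟨373, 249⟩, ⟨22, 4⟩, ⟨10, 0⟩, ⟨83, 4⟩, ⟨331, 4⟩, ⟨143, 199⟩, ⟨1, 1⟩, ⟨3, 0⟩, ⟨19, 39⟩, ⟨231, 99⟩, ⟨367, 999⟩⟩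

/-- box 12 -/
def fpuB12 : FpuB := ⟨0, 3, 16, 121, 144, 16, 0, 111, 100⟩

/-- region 12 -/
def fpuLo12 : List Ex3 := FpuD.Lo' ⟨48, 0⟩

theorem fpu_chk12NA : fpuB12.chk 512 12 fpuD12.xNA fpuLo12 (.leaf 0) = true := by
  decide +kernel

theorem fpu_chk12NG : fpuB12.chk 512 12 fpuD12.xNG fpuLo12 (.leaf 0) = true := by
  decide +kernel

theorem fpu_chk12G1 : fpuB12.chk 512 12 fpuD12.xG1 fpuLo12 (.leaf 0) = true := by
  decide +kernel

theorem fpu_chk12G2 : fpuB12.chk 512 12 fpuD12.xG2 fpuLo12 (.leaf 0) = true := by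
  decide +kernel

theorem fpu_chk12G3 : fpuB12.chk 512 12 fpuD12.xG3 fpuLo12 (.leaf 0) = true := by
  decide +kernel

end Vale.Agent.P237.AllN
end
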