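import Vale.Agent.P237.Bd3.B7
import Vale.Agent.P237.Bd3.B8
import Vale.Agent.P237.Bd3.B2
import Vale.Agent.P237.Bd3.B10

set_option linter.all false

section

/-!
# The seven bounds of `PcRho` for `11 ≤ m ≤ 14`: kernel checks
-/

namespace Vale.Agent.P237.AllN.PcRho
open PolyPos

/-! ### `m = 11` -/

theorem pc_11 : PW 11 [z0 11, z1 11, -cT 11 * MM 11] (NN 11) =
    [74383584, 148767168, 223150752, 297534336, 371917920, 446301504, 520685088, 595068672,
    669452256, 743835840, 818219424, -2361731328, -2027842080, -1693952832, -1360063584,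
    -1026174336, -692285088, -358395840, -24506592, 309382656, 643271904, 977161152,
    870311904, 763462656, 656613408, 549764160, 442914912, 336065664, 229216416, 122367168,
    15517920, -91331328, -198180576, -180164160, -162147744, -144131328, -126114912,
    -108098496, -90082080, -72065664, -54049248, -36032832, -18016416] := by
  decide +kernel

theorem okC_11 : OkC 11 :=
  okC_of (B := 21) (D := 20) (by norm_num) (by decide +kernel) (by rw [pc_11]; decide +kernel)

theorem pneg_11 : PW 11 [z0 11, z1 11, z2 11] (NN 11) =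
    [67200000, 134400000, 201600000, 268800000, 336000000, 403200000, 470400000, 537600000,
    604800000, 672000000, 739200000, -2419200000, -2063760000, -1708320000, -1352880000,
    -997440000, -642000000, -286560000, 68880000, 424320000, 779760000, 1135200000,
    1006800000, 878400000, 750000000, 621600000, 493200000, 364800000, 236400000, 108000000,
    -20400000, -148800000, -277200000, -252000000, -226800000, -201600000, -176400000,
    -151200000, -126000000, -100800000, -75600000, -50400000, -25200000] := by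
  decide +kernel

theorem okNeg_11 : OkNeg 11 :=
  okNeg_of (by norm_num) (by rw [pneg_11]; decide +kernel)

theorem p9_11 : PW 11 [(al9 11 + be9 11) * MM 11, be9 11 * MM 11] (NN 11) =
    [16195608, 32391216, 48586824, 64782432, 80978040, 97173648, 113369256, 129564864, 145760472,
    161956080, 178151688, -2728848144, -2122007976, -1515167808, -908327640, -301487472,
    305352696, 912192864, 1519033032, 2125873200, 2732713368, 3339553536, 3035957760,
    2732361984, 2428766208, 2125170432, 1821574656, 1517978880, 1214383104, 910787328,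
    607191552, 303595776] := by
  decide +kernel

theorem ok9_11 : Ok9 11 :=
  okLine_of (A := 45) (T := 58) (B := 58) (D := 72) (A' := 29) (B' := 32) (D' := 36)
    (by norm_num) (by decide +kernel) (by rw [p9_11]; decide +kernel)
    (by rw [p9_11]; decide +kernel)

theorem p10_11 : PW 11 [(al10 11 + be10 11) * MM 11, be10 11 * MM 11] (NN 11) =
    [17728920, 35457840, 53186760, 70915680, 88644600, 106373520, 124102440, 141831360, 159560280,
    177289200, 195018120, -2729934240, -2141046600, -1552158960, -963271320, -374383680,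
    214503960, 803391600, 1392279240, 1981166880, 2570054520, 3158942160, 2871765600,
    2584589040, 2297412480, 2010235920, 1723059360, 1435882800, 1148706240, 861529680,
    574353120, 287176560] := by
  decide +kernel

theorem ok10_11 : Ok10 11 :=
  okLine_of (A := 185) (T := 240) (B := 240) (D := 296) (A' := 270) (B' := 296) (D' := 333)
    (by norm_num) (by decide +kernel) (by rw [p10_11]; decide +kernel)
    (by rw [p10_11]; decide +kernel)

theorem pn3_11 : PV 11 [z0 11, z1 11, z1 11 + z2 11, q3T 11 * MM 11] (NN 11) =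
    [-61896000, -123792000, -185688000, -247584000, -309480000, -371376000, -433272000,
    -495168000, -557064000, -618960000, 2832984000, 2371608000, 1910232000, 1448856000,
    987480000, 526104000, 64728000, -396648000, -858024000, -1319400000, -1780776000,
    -2242152000, -1914888000, -1587624000, -1260360000, -933096000, -605832000, -278568000,
    48696000, 375960000, 703224000, 1030488000, 1357752000, 1202376000, 1047000000, 891624000,
    736248000, 580872000, 425496000, 270120000, 114744000, -40632000, -196008000, -351384000,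
    -319440000, -287496000, -255552000, -223608000, -191664000, -159720000, -127776000,
    -95832000, -63888000, -31944000] := by
  decide +kernel

theorem okN3_11 : OkN3 11 :=
  okN3_of (A := 389) (D := 428) (by norm_num) (by decide +kernel) (by rw [pn3_11]; decide +kernel)

theorem pn1_11 : PV 11 [NN 11 - q4T 11 * MM 11, q4T 11 * MM 11] (NN 11) =
    [0, 0, 0, 0, 0, 0, 0, 0, 0, 0, 3513840000, 2853238080, 2192636160, 1532034240, 871432320,
    210830400, -449771520, -1110373440, -1770975360, -2431577280, -3092179200, -3752781120,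
    -3411619200, -3070457280, -2729295360, -2388133440, -2046971520, -1705809600, -1364647680,
    -1023485760, -682323840, -341161920] := by
  decide +kernel

theorem okN1_11 : OkN1 11 :=
  okN1_of (B := 719) (D := 791) (by norm_num) (by decide +kernel) (by rw [pn1_11]; decide +kernel)

theorem pn0_11 : PV 11 [z0 11, NN 11 - z0 11] (NN 11) =
    [0, 0, 0, 0, 0, 0, 0, 0, 0, 0, 3513840000, 3020160000, 2526480000, 2032800000, 1539120000,
    1045440000, 551760000, 58080000, -435600000, -929280000, -1422960000, -1916640000,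
    -1742400000, -1568160000, -1393920000, -1219680000, -1045440000, -871200000, -696960000,
    -522720000, -348480000, -174240000] := by
  decide +kernel

theorem okN0_11 : OkN0 11 :=
  okN0_of (by norm_num) (by rw [pn0_11]; decide +kernel)

/-! ### `m = 12` -/

theorem pc_12 : PW 12 [z0 12, z1 12, -cT 12 * MM 12] (NN 12) =
    [98091264, 196182528, 294273792, 392365056, 490456320, 588547584, 686638848, 784730112,
    882821376, 980912640, 1079003904, 1177095168, -3367578624, -2935612416, -2503646208,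
    -2071680000, -1639713792, -1207747584, -775781376, -343815168, 88151040, 520117248,
    952083456, 1384049664, 1245363456, 1106677248, 967991040, 829304832, 690618624, 551932416,
    413246208, 274560000, 135873792, -2812416, -141498624, -280184832, -256836096, -233487360,
    -210138624, -186789888, -163441152, -140092416, -116743680, -93394944, -70046208,
    -46697472, -23348736] := by
  decide +kernel

theorem okC_12 : OkC 12 :=
  okC_of (B := 45) (D := 43) (by norm_num) (by decide +kernel) (by rw [pc_12]; decide +kernel)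

theorem pneg_12 : PW 12 [z0 12, z1 12, z2 12] (NN 12) =
    [88550000, 177100000, 265650000, 354200000, 442750000, 531300000, 619850000, 708400000,
    796950000, 885500000, 974050000, 1062600000, -3453450000, -2992860000, -2532270000,
    -2071680000, -1611090000, -1150500000, -689910000, -229320000, 231270000, 691860000,
    1152450000, 1613040000, 1445730000, 1278420000, 1111110000, 943800000, 776490000,
    609180000, 441870000, 274560000, 107250000, -60060000, -227370000, -394680000, -361790000,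
    -328900000, -296010000, -263120000, -230230000, -197340000, -164450000, -131560000,
    -98670000, -65780000, -32890000] := by
  decide +kernel

theorem okNeg_12 : OkNeg 12 :=
  okNeg_of (by norm_num) (by rw [pneg_12]; decide +kernel)

theorem p9_12 : PW 12 [(al9 12 + be9 12) * MM 12, be9 12 * MM 12] (NN 12) =
    [21523968, 43047936, 64571904, 86095872, 107619840, 129143808, 150667776, 172191744,
    193715712, 215239680, 236763648, 258287616, -3926942208, -3135532032, -2344121856,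
    -1552711680, -761301504, 30108672, 821518848, 1612929024, 2404339200, 3195749376,
    3987159552, 4778569728, 4380355584, 3982141440, 3583927296, 3185713152, 2787499008,
    2389284864, 1991070720, 1592856576, 1194642432, 796428288, 398214144] := by
  decide +kernel

theorem ok9_12 : Ok9 12 :=
  okLine_of (A := 7) (T := 9) (B := 9) (D := 11) (A' := 90) (B' := 99) (D' := 110)
    (by norm_num) (by decide +kernel) (by rw [p9_12]; decide +kernel)
    (by rw [p9_12]; decide +kernel)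

theorem p10_12 : PW 12 [(al10 12 + be10 12) * MM 12, be10 12 * MM 12] (NN 12) =
    [23556096, 47112192, 70668288, 94224384, 117780480, 141336576, 164892672, 188448768,
    212004864, 235560960, 259117056, 282673152, -3926278656, -3158590464, -2390902272,
    -1623214080, -855525888, -87837696, 679850496, 1447538688, 2215226880, 2982915072,
    3750603264, 4518291456, 4141767168, 3765242880, 3388718592, 3012194304, 2635670016,
    2259145728, 1882621440, 1506097152, 1129572864, 753048576, 376524288] := by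
  decide +kernel

theorem ok10_12 : Ok10 12 :=
  okLine_of (A := 119) (T := 154) (B := 154) (D := 187) (A' := 140) (B' := 153) (D' := 170)
    (by norm_num) (by decide +kernel) (by rw [p10_12]; decide +kernel)
    (by rw [p10_12]; decide +kernel)

theorem pn3_12 : PV 12 [z0 12, z1 12, z1 12 + z2 12, q3T 12 * MM 12] (NN 12) =
    [-78778000, -157556000, -236334000, -315112000, -393890000, -472668000, -551446000,
    -630224000, -709002000, -787780000, -866558000, 4031304000, 3430806000, 2830308000,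
    2229810000, 1629312000, 1028814000, 428316000, -172182000, -772680000, -1373178000,
    -1973676000, -2574174000, -3174672000, -2749950000, -2325228000, -1900506000, -1475784000,
    -1051062000, -626340000, -201618000, 223104000, 647826000, 1072548000, 1497270000,
    1921992000, 1720354000, 1518716000, 1317078000, 1115440000, 913802000, 712164000,
    510526000, 308888000, 107250000, -94388000, -296026000, -497664000, -456192000,
    -414720000, -373248000, -331776000, -290304000, -248832000, -207360000, -165888000,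
    -124416000, -82944000, -41472000] := by
  decide +kernel

theorem okN3_12 : OkN3 12 :=
  okN3_of (A := 54) (D := 59) (by norm_num) (by decide +kernel) (by rw [pn3_12]; decide +kernel)

theorem pn1_12 : PV 12 [NN 12 - q4T 12 * MM 12, q4T 12 * MM 12] (NN 12) =
    [0, 0, 0, 0, 0, 0, 0, 0, 0, 0, 0, 4976640000, 4123146240, 3269652480, 2416158720, 1562664960,
    709171200, -144322560, -997816320, -1851310080, -2704803840, -3558297600, -4411791360,
    -5265285120, -4826511360, -4387737600, -3948963840, -3510190080, -3071416320, -2632642560,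
    -2193868800, -1755095040, -1316321280, -877547520, -438773760] := by
  decide +kernel

theorem okN1_12 : OkN1 12 :=
  okN1_of (B := 186) (D := 203) (by norm_num) (by decide +kernel) (by rw [pn1_12]; decide +kernel)

theorem pn0_12 : PV 12 [z0 12, NN 12 - z0 12] (NN 12) =
    [0, 0, 0, 0, 0, 0, 0, 0, 0, 0, 0, 4976640000, 4337280000, 3697920000, 3058560000, 2419200000,
    1779840000, 1140480000, 501120000, -138240000, -777600000, -1416960000, -2056320000,
    -2695680000, -2471040000, -2246400000, -2021760000, -1797120000, -1572480000, -1347840000,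
    -1123200000, -898560000, -673920000, -449280000, -224640000] := by
  decide +kernel

theorem okN0_12 : OkN0 12 :=
  okN0_of (by norm_num) (by rw [pn0_12]; decide +kernel)

/-! ### `m = 13` -/

theorem pc_13 : PW 13 [z0 13, z1 13, -cT 13 * MM 13] (NN 13) =
    [126366864, 252733728, 379100592, 505467456, 631834320, 758201184, 884568048, 1010934912,
    1137301776, 1263668640, 1390035504, 1516402368, 1642769232, -4664331360, -4116791952,
    -3569252544, -3021713136, -2474173728, -1926634320, -1379094912, -831555504, -284016096,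
    263523312, 811062720, 1358602128, 1906141536, 1729882128, 1553622720, 1377363312,
    1201103904, 1024844496, 848585088, 672325680, 496066272, 319806864, 143547456, -32711952,
    -208971360, -385230768, -355597632, -325964496, -296331360, -266698224, -237065088,
    -207431952, -177798816, -148165680, -118532544, -88899408, -59266272, -29633136] := by
  decide +kernel

theorem okC_13 : OkC 13 :=
  okC_of (B := 24) (D := 23) (by norm_num) (by decide +kernel) (by rw [pc_13]; decide +kernel)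

theorem pneg_13 : PW 13 [z0 13, z1 13, z2 13] (NN 13) =
    [114000000, 228000000, 342000000, 456000000, 570000000, 684000000, 798000000, 912000000,
    1026000000, 1140000000, 1254000000, 1368000000, 1482000000, -4788000000, -4203360000,
    -3618720000, -3034080000, -2449440000, -1864800000, -1280160000, -695520000, -110880000,
    473760000, 1058400000, 1643040000, 2227680000, 2014320000, 1800960000, 1587600000,
    1374240000, 1160880000, 947520000, 734160000, 520800000, 307440000, 94080000, -119280000,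
    -332640000, -546000000, -504000000, -462000000, -420000000, -378000000, -336000000,
    -294000000, -252000000, -210000000, -168000000, -126000000, -84000000, -42000000] := by
  decide +kernel

theorem okNeg_13 : OkNeg 13 :=
  okNeg_of (by norm_num) (by rw [pneg_13]; decide +kernel)

theorem p9_13 : PW 13 [(al9 13 + be9 13) * MM 13, be9 13 * MM 13] (NN 13) =
    [27893112, 55786224, 83679336, 111572448, 139465560, 167358672, 195251784, 223144896,
    251038008, 278931120, 306824232, 334717344, 362610456, -5481971976, -4471914408,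
    -3461856840, -2451799272, -1441741704, -431684136, 578373432, 1588431000, 2598488568,
    3608546136, 4618603704, 5628661272, 6638718840, 6128048160, 5617377480, 5106706800,
    4596036120, 4085365440, 3574694760, 3064024080, 2553353400, 2042682720, 1532012040,
    1021341360, 510670680] := by
  decide +kernel

theorem ok9_13 : Ok9 13 :=
  okLine_of (A := 58) (T := 72) (B := 72) (D := 87) (A' := 240) (B' := 261) (D' := 290)
    (by norm_num) (by decide +kernel) (by rw [p9_13]; decide +kernel)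
    (by rw [p9_13]; decide +kernel)

theorem p10_13 : PW 13 [(al10 13 + be10 13) * MM 13, be10 13 * MM 13] (NN 13) =
    [30529512, 61059024, 91588536, 122118048, 152647560, 183177072, 213706584, 244236096,
    274765608, 305295120, 335824632, 366354144, 396883656, -5478333744, -4498911144,
    -3519488544, -2540065944, -1560643344, -581220744, 398201856, 1377624456, 2357047056,
    3336469656, 4315892256, 5295314856, 6274737456, 5792065344, 5309393232, 4826721120,
    4344049008, 3861376896, 3378704784, 2896032672, 2413360560, 1930688448, 1448016336,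
    965344224, 482672112] := by
  decide +kernel

theorem ok10_13 : Ok10 13 :=
  okLine_of (A := 74) (T := 93) (B := 93) (D := 111) (A' := 310) (B' := 333) (D' := 370)
    (by norm_num) (by decide +kernel) (by rw [p10_13]; decide +kernel)
    (by rw [p10_13]; decide +kernel)

theorem pn3_13 : PV 13 [z0 13, z1 13, z1 13 + z2 13, q3T 13 * MM 13] (NN 13) =
    [-98472000, -196944000, -295416000, -393888000, -492360000, -590832000, -689304000,
    -787776000, -886248000, -984720000, -1083192000, -1181664000, 5574504000, 4809432000,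
    4044360000, 3279288000, 2514216000, 1749144000, 984072000, 219000000, -546072000,
    -1311144000, -2076216000, -2841288000, -3606360000, -4371432000, -3831624000, -3291816000,
    -2752008000, -2212200000, -1672392000, -1132584000, -592776000, -52968000, 486840000,
    1026648000, 1566456000, 2106264000, 2646072000, 2389800000, 2133528000, 1877256000,
    1620984000, 1364712000, 1108440000, 852168000, 595896000, 339624000, 83352000, -172920000,
    -429192000, -685464000, -632736000, -580008000, -527280000, -474552000, -421824000,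
    -369096000, -316368000, -263640000, -210912000, -158184000, -105456000, -52728000] := by
  decide +kernel

theorem okN3_13 : OkN3 13 :=
  okN3_of (A := 35) (D := 38) (by norm_num) (by decide +kernel) (by rw [pn3_13]; decide +kernel)

theorem pn1_13 : PV 13 [NN 13 - q4T 13 * MM 13, q4T 13 * MM 13] (NN 13) =
    [0, 0, 0, 0, 0, 0, 0, 0, 0, 0, 0, 0, 6854640000, 5774243280, 4693846560, 3613449840,
    2533053120, 1452656400, 372259680, -708137040, -1788533760, -2868930480, -3949327200,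
    -5029723920, -6110120640, -7190517360, -6637400640, -6084283920, -5531167200, -4978050480,
    -4424933760, -3871817040, -3318700320, -2765583600, -2212466880, -1659350160, -1106233440,
    -553116720] := by
  decide +kernel

theorem okN1_13 : OkN1 13 :=
  okN1_of (B := 226) (D := 245) (by norm_num) (by decide +kernel) (by rw [pn1_13]; decide +kernel)

theorem pn0_13 : PV 13 [z0 13, NN 13 - z0 13] (NN 13) =
    [0, 0, 0, 0, 0, 0, 0, 0, 0, 0, 0, 0, 6854640000, 6043440000, 5232240000, 4421040000,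
    3609840000, 2798640000, 1987440000, 1176240000, 365040000, -446160000, -1257360000,
    -2068560000, -2879760000, -3690960000, -3407040000, -3123120000, -2839200000, -2555280000,
    -2271360000, -1987440000, -1703520000, -1419600000, -1135680000, -851760000, -567840000,
    -283920000] := by
  decide +kernel

theorem okN0_13 : OkN0 13 :=
  okN0_of (by norm_num) (by rw [pn0_13]; decide +kernel)

/-! ### `m = 14` -/

theorem pc_14 : PW 14 [z0 14, z1 14, -cT 14 * MM 14] (NN 14) =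
    [159351360, 318702720, 478054080, 637405440, 796756800, 956108160, 1115459520, 1274810880,
    1434162240, 1593513600, 1752864960, 1912216320, 2071567680, 2230919040, -6306095040,
    -5623269120, -4940443200, -4257617280, -3574791360, -2891965440, -2209139520, -1526313600,
    -843487680, -160661760, 522164160, 1204990080, 1887816000, 2570641920, 2349816000,
    2128990080, 1908164160, 1687338240, 1466512320, 1245686400, 1024860480, 804034560,
    583208640, 362382720, 141556800, -79269120, -300095040, -520920960, -483712320,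
    -446503680, -409295040, -372086400, -334877760, -297669120, -260460480, -223251840,
    -186043200, -148834560, -111625920, -74417280, -37208640] := by
  decide +kernel

theorem okC_14 : OkC 14 :=
  okC_of (B := 26) (D := 25) (by norm_num) (by decide +kernel) (by rw [pc_14]; decide +kernel)

theorem pneg_14 : PW 14 [z0 14, z1 14, z2 14] (NN 14) =
    [143910000, 287820000, 431730000, 575640000, 719550000, 863460000, 1007370000, 1151280000,
    1295190000, 1439100000, 1583010000, 1726920000, 1870830000, 2014740000, -6475950000,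
    -5746800000, -5017650000, -4288500000, -3559350000, -2830200000, -2101050000, -1371900000,
    -642750000, 86400000, 815550000, 1544700000, 2273850000, 3003000000, 2735850000,
    2468700000, 2201550000, 1934400000, 1667250000, 1400100000, 1132950000, 865800000,
    598650000, 331500000, 64350000, -202800000, -469950000, -737100000, -684450000,
    -631800000, -579150000, -526500000, -473850000, -421200000, -368550000, -315900000,
    -263250000, -210600000, -157950000, -105300000, -52650000] := by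
  decide +kernel

theorem okNeg_14 : OkNeg 14 :=
  okNeg_of (by norm_num) (by rw [pneg_14]; decide +kernel)

theorem p9_14 : PW 14 [(al9 14 + be9 14) * MM 14, be9 14 * MM 14] (NN 14) =
    [35430528, 70861056, 106291584, 141722112, 177152640, 212583168, 248013696, 283444224,
    318874752, 354305280, 389735808, 425166336, 460596864, 496027392, -7458192000,
    -6192571392, -4926950784, -3661330176, -2395709568, -1130088960, 135531648, 1401152256,
    2666772864, 3932393472, 5198014080, 6463634688, 7729255296, 8994875904, 8352384768,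
    7709893632, 7067402496, 6424911360, 5782420224, 5139929088, 4497437952, 3854946816,
    3212455680, 2569964544, 1927473408, 1284982272, 642491136] := by
  decide +kernel

theorem ok9_14 : Ok9 14 :=
  okLine_of (A := 171) (T := 208) (B := 208) (D := 247) (A' := 176) (B' := 190) (D' := 209)
    (by norm_num) (by decide +kernel) (by rw [p9_14]; decide +kernel)
    (by rw [p9_14]; decide +kernel)

theorem p10_14 : PW 14 [(al10 14 + be10 14) * MM 14, be10 14 * MM 14] (NN 14) =
    [38789184, 77578368, 116367552, 155156736, 193945920, 232735104, 271524288, 310313472,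
    349102656, 387891840, 426681024, 465470208, 504259392, 543048576, -7449894144,
    -6222996864, -4996099584, -3769202304, -2542305024, -1315407744, -88510464, 1138386816,
    2365284096, 3592181376, 4819078656, 6045975936, 7272873216, 8499770496, 7892644032,
    7285517568, 6678391104, 6071264640, 5464138176, 4857011712, 4249885248, 3642758784,
    3035632320, 2428505856, 1821379392, 1214252928, 607126464] := by
  decide +kernel

theorem ok10_14 : Ok10 14 :=
  okLine_of (A := 9) (T := 11) (B := 11) (D := 13) (A' := 121) (B' := 130) (D' := 143)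
    (by norm_num) (by decide +kernel) (by rw [p10_14]; decide +kernel)
    (by rw [p10_14]; decide +kernel)

theorem pn3_14 : PV 14 [z0 14, z1 14, z1 14 + z2 14, q3T 14 * MM 14] (NN 14) =
    [-121194000, -242388000, -363582000, -484776000, -605970000, -727164000, -848358000,
    -969552000, -1090746000, -1211940000, -1333134000, -1454328000, -1575522000, 7523124000,
    6565890000, 5608656000, 4651422000, 3694188000, 2736954000, 1779720000, 822486000,
    -134748000, -1091982000, -2049216000, -3006450000, -3963684000, -4920918000, -5878152000,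
    -5204166000, -4530180000, -3856194000, -3182208000, -2508222000, -1834236000, -1160250000,
    -486264000, 187722000, 861708000, 1535694000, 2209680000, 2883666000, 3557652000,
    3237678000, 2917704000, 2597730000, 2277756000, 1957782000, 1637808000, 1317834000,
    997860000, 677886000, 357912000, 37938000, -282036000, -602010000, -921984000, -856128000,
    -790272000, -724416000, -658560000, -592704000, -526848000, -460992000, -395136000,
    -329280000, -263424000, -197568000, -131712000, -65856000] := by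
  decide +kernel

theorem okN3_14 : OkN3 14 :=
  okN3_of (A := 25) (D := 27) (by norm_num) (by decide +kernel) (by rw [pn3_14]; decide +kernel)

theorem pn1_14 : PV 14 [NN 14 - q4T 14 * MM 14, q4T 14 * MM 14] (NN 14) =
    [0, 0, 0, 0, 0, 0, 0, 0, 0, 0, 0, 0, 0, 9219840000, 7875719040, 6531598080, 5187477120,
    3843356160, 2499235200, 1155114240, -189006720, -1533127680, -2877248640, -4221369600,
    -5565490560, -6909611520, -8253732480, -9597853440, -8912292480, -8226731520, -7541170560,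
    -6855609600, -6170048640, -5484487680, -4798926720, -4113365760, -3427804800, -2742243840,
    -2056682880, -1371121920, -685560960] := by
  decide +kernel

theorem okN1_14 : OkN1 14 :=
  okN1_of (B := 90) (D := 97) (by norm_num) (by decide +kernel) (by rw [pn1_14]; decide +kernel)

theorem pn0_14 : PV 14 [z0 14, NN 14 - z0 14] (NN 14) =
    [0, 0, 0, 0, 0, 0, 0, 0, 0, 0, 0, 0, 0, 9219840000, 8208480000, 7197120000, 6185760000,
    5174400000, 4163040000, 3151680000, 2140320000, 1128960000, 117600000, -893760000,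
    -1905120000, -2916480000, -3927840000, -4939200000, -4586400000, -4233600000, -3880800000,
    -3528000000, -3175200000, -2822400000, -2469600000, -2116800000, -1764000000, -1411200000,
    -1058400000, -705600000, -352800000] := by
  decide +kernel

theorem okN0_14 : OkN0 14 :=
  okN0_of (by norm_num) (by rw [pn0_14]; decide +kernel)

end Vale.Agent.P237.AllN.PcRho
end

section

/-!
# P237, block D: the a-priori steps for `m ≥ 48`, lemma (BETA)

For `48 ≤ m`, `X = √m x` and the step bounds `b(X)` of the three intervals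
`[19/10, 5/2]`, `[5/2, 11/4]`, `[11/4, 3]`,
`(1 - b/(m+1))^(m+1) √(π/(2(m+1))) ((m+2) x²/(1-x²) + 1) ≤ x (1-x²)^{m/2}`.
-/

open Finset

namespace Vale.Agent.P237.AllN

open Alm PolyPos

/-! ### logarithm bounds -/

theorem be_log_le {t : ℝ} (h0 : 0 ≤ t) (h1 : t < 1) :
    Real.log (1 - t) ≤ -t - t ^ 2 / 2 - t ^ 3 / 3 := by
  have h := Real.hasSum_pow_div_log_of_abs_lt_one (x := t) (by rwa [abs_of_nonneg h0])
  have h2 := h.summable.sum_le_tsum (Finset.range 3) (fun i _ => by (clear * - h0; positivity))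
  rw [h.tsum_eq] at h2
  simp only [Finset.sum_range_succ, Finset.sum_range_zero] at h2
  norm_num at h2
  (clear * - h2; linarith only [h2])

theorem be_geom {t : ℝ} (h0 : 0 ≤ t) (h1 : t < 1) (k : ℕ) :
    -Real.log (1 - t) ≤ ∑ i ∈ range k, t ^ (i + 1) / ((i : ℝ) + 1) +
      t ^ (k + 1) / ((k + 1) * (1 - t)) := by
  have h := Real.hasSum_pow_div_log_of_abs_lt_one (x := t) (by rwa [abs_of_nonneg h0])
  have h3 := (hasSum_nat_add_iff' k).2 h
  have h4 := (hasSum_geometric_of_lt_one h0 h1).mul_left (t ^ (k + 1) / ((k : ℝ) + 1))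
  have h5 := hasSum_le (f := fun n => t ^ (n + k + 1) / (((n + k : ℕ) : ℝ) + 1))
    (g := fun n => t ^ (k + 1) / ((k : ℝ) + 1) * t ^ n) (fun n => by
      have e : t ^ (k + 1) / ((k : ℝ) + 1) * t ^ n = t ^ (n + k + 1) / ((k : ℝ) + 1) := by
        rw [show n + k + 1 = (k + 1) + n by ring, pow_add t (k + 1) n]; ring
      rw [e]
      refine div_le_div_of_nonneg_left (by (clear * - h0; positivity)) (by (clear * -; positivity)) ?_
      push_cast
      have : (0 : ℝ) ≤ n := n.cast_nonneg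
      linarith only []) h3 h4
  have e2 : t ^ (k + 1) / ((k : ℝ) + 1) * (1 - t)⁻¹ = t ^ (k + 1) / ((k + 1) * (1 - t)) := by
    have : (1 - t) ≠ 0 := by linarith only [h1]
    (clear * - this; field_simp)
  rw [e2] at h5
  linarith only [h5]

theorem be_log2 {t : ℝ} (h0 : 0 ≤ t) (h1 : t < 1) :
    -Real.log (1 - t) ≤ t + t ^ 2 / 2 + t ^ 3 / (3 * (1 - t)) := by
  have h := be_geom h0 h1 2
  simp only [Finset.sum_range_succ, Finset.sum_range_zero] at h
  norm_num at h
  linarith only [h]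

theorem be_log3 {t : ℝ} (h0 : 0 ≤ t) (h1 : t < 1) :
    -Real.log (1 - t) ≤ t + t ^ 2 / 2 + t ^ 3 / 3 + t ^ 4 / (4 * (1 - t)) := by
  have h := be_geom h0 h1 3
  simp only [Finset.sum_range_succ, Finset.sum_range_zero] at h
  norm_num at h
  linarith only [h]

theorem be_log_ge {t : ℝ} (h0 : 0 ≤ t) : t - t ^ 2 / 2 ≤ Real.log (1 + t) := by
  have h := Real.le_log_one_add_of_nonneg h0
  refine le_trans ?_ h
  rw [le_div_iff₀ (by linarith only [h0])]
  linarith only [mul_nonneg (sq_nonneg (1 * t : ℝ)) (sub_nonneg.2 h0)]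

/-! ### the core estimate -/

/-- reduction to logarithms -/
theorem be_exp {m : ℕ} {x b : ℝ} (hx : 0 < x) (hx1 : x ^ 2 < 1) (hb : b < m + 1)
    (H : (m + 1) * Real.log (1 - b / (m + 1)) + (Real.log (Real.pi / 2) / 2 -
      Real.log (m + 1) / 2 + (Real.log (1 + (m + 1) * x ^ 2) - Real.log (1 - x ^ 2))) ≤
      Real.log x + m / 2 * Real.log (1 - x ^ 2)) :
    (1 - b / (m + 1)) ^ (m + 1) *
      (Real.sqrt (Real.pi / (2 * (m + 1))) * ((m + 2) * (x ^ 2 / (1 - x ^ 2)) + 1)) ≤
      x * sq x ^ m := by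
  have h1z : 0 < 1 - x ^ 2 := by linarith only [hx1]
  have hn0 : (0 : ℝ) < m + 1 := by (clear * -; positivity)
  have hbn : b / (m + 1) < 1 := by rwa [div_lt_one hn0]
  have hsq : sq x ^ m = Real.exp ((m : ℝ) / 2 * Real.log (1 - x ^ 2)) := by
    rw [sq, Real.sqrt_eq_rpow, ← Real.rpow_natCast, ← Real.rpow_mul h1z.le,
      Real.rpow_def_of_pos h1z]
    congr 1
    ring
  have hRHS : x * sq x ^ m = Real.exp (Real.log x + m / 2 * Real.log (1 - x ^ 2)) := by
    rw [Real.exp_add, Real.exp_log hx, hsq]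
  have hA : (1 - b / (m + 1)) ^ (m + 1) =
      Real.exp ((m + 1) * Real.log (1 - b / (m + 1))) := by
    rw [mul_comm, Real.exp_mul, Real.exp_log (by linarith only [hbn]), ← Real.rpow_natCast]
    push_cast
    rfl
  have hB : Real.sqrt (Real.pi / (2 * (m + 1))) =
      Real.exp (Real.log (Real.pi / 2) / 2 - Real.log (m + 1) / 2) := by
    have hpi : 0 < Real.pi / 2 := by positivity
    rw [show Real.pi / (2 * ((m : ℝ) + 1)) = Real.pi / 2 / (m + 1) by (clear * -; field_simp),
      show Real.log (Real.pi / 2) / 2 - Real.log ((m : ℝ) + 1) / 2 =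
        Real.log (Real.pi / 2 / (m + 1)) * (1 / 2) by
        rw [Real.log_div hpi.ne' hn0.ne']; ring,
      Real.exp_mul, Real.exp_log (by (clear * -; positivity)), Real.sqrt_eq_rpow]
  have hC : ((m : ℝ) + 2) * (x ^ 2 / (1 - x ^ 2)) + 1 =
      Real.exp (Real.log (1 + (m + 1) * x ^ 2) - Real.log (1 - x ^ 2)) := by
    rw [Real.exp_sub, Real.exp_log (by (clear * - hx; positivity)), Real.exp_log h1z]
    field_simp
    ring
  rw [hRHS, hA, hB, hC, ← Real.exp_add, ← Real.exp_add]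
  exact Real.exp_le_exp.2 H

/-- `(1 - b/n)^n`, logarithm -/
theorem be_l1 {M b e : ℝ} (hM : 48 ≤ M) (he : e * M = 1) (hb0 : 0 ≤ b) (hb1 : b ≤ 7) :
    (M + 1) * Real.log (1 - b / (M + 1)) ≤
      -b - b ^ 2 / 2 * (48 / 49 * e) - b ^ 3 / 3 * (48 / 49 * e) ^ 2 := by
  have hn0 : 0 < M + 1 := by linarith only [hM]
  have hbn : b / (M + 1) < 1 := by rw [div_lt_one hn0]; linarith only [hM, hb1]
  have hbn0 : 0 ≤ b / (M + 1) := by positivity
  have l1 : (M + 1) * Real.log (1 - b / (M + 1)) ≤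
      -b - b ^ 2 / 2 * (1 / (M + 1)) - b ^ 3 / 3 * (1 / (M + 1)) ^ 2 := by
    have := mul_le_mul_of_nonneg_left (be_log_le hbn0 hbn) hn0.le
    refine this.trans (le_of_eq ?_)
    field_simp
  have he0 : 0 < e := by
    by_contra h
    push Not at h
    have : e * M ≤ 0 := mul_nonpos_of_nonpos_of_nonneg h (by linarith only [hM])
    linarith only [he, this]
  have hq : 48 / 49 * e ≤ 1 / (M + 1) := by
    rw [le_div_iff₀ hn0]
    nlinarith only [he, hM]
  have hq0 : 0 ≤ 48 / 49 * e := by positivity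
  have h1 : b ^ 2 / 2 * (48 / 49 * e) ≤ b ^ 2 / 2 * (1 / (M + 1)) :=
    mul_le_mul_of_nonneg_left hq (by (clear * -; positivity))
  have h2 : b ^ 3 / 3 * (48 / 49 * e) ^ 2 ≤ b ^ 3 / 3 * (1 / (M + 1)) ^ 2 :=
    mul_le_mul_of_nonneg_left (pow_le_pow_left₀ hq0 hq 2) (by (clear * - hb0; positivity))
  linarith only [l1, h1, h2]

/-- `log(1 + (m+1) z)` -/
theorem be_l3 {M w z : ℝ} (hw : 0 ≤ w) (hz : 0 ≤ z) (hMz : M * z = w) :
    Real.log (1 + (M + 1) * z) ≤ Real.log (1 + w) + z / (1 + w) := by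
  have h1 : 1 + (M + 1) * z = (1 + w) * (1 + z / (1 + w)) := by
    field_simp
    linarith only [hMz]
  rw [h1, Real.log_mul (by positivity) (by positivity)]
  have := Real.log_le_sub_one_of_pos (x := 1 + z / (1 + w)) (by positivity)
  linarith only [this]

/-- the part without `m` -/
theorem be_l6 {X c0 v0 : ℝ} (hX : 0 < X) (hv0 : 0 < v0)
    (hc0 : v0 ^ 2 * (Real.pi / 2) ≤ Real.exp (2 * c0)) :
    Real.log (Real.pi / 2) / 2 + Real.log (1 + X ^ 2) - Real.log X ≤
      c0 + (X + 1 / X) / v0 - 1 := by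
  have hpi : 0 < Real.pi / 2 := by positivity
  have h1 : Real.log v0 * 2 + Real.log (Real.pi / 2) ≤ 2 * c0 := by
    have := Real.log_le_log (by (clear * - hv0; positivity)) hc0
    rw [Real.log_exp, Real.log_mul (by positivity) hpi.ne', Real.log_pow] at this
    push_cast at this
    linarith only [this]
  have h2 : Real.log (1 + X ^ 2) - Real.log X =
      Real.log ((X + 1 / X) / v0) + Real.log v0 := by
    rw [← Real.log_div (by positivity) hX.ne', ← Real.log_mul (by positivity) hv0.ne']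
    congr 1
    field_simp
    ring
  have h3 := Real.log_le_sub_one_of_pos (x := (X + 1 / X) / v0) (by positivity)
  linarith only [h3, h2, h1]

/-- the polynomial in `e = 1/m` -/
theorem be_poly {e P0 A S Q : ℝ} (he0 : 0 ≤ e) (he1 : e ≤ 1 / 48) (hS : 0 ≤ S) (hQ : 0 ≤ Q)
    (hP0 : P0 ≤ 0) (hP1 : P0 + (A + S / 48 + Q / 48 ^ 2) / 48 ≤ 0) :
    P0 + e * A + e ^ 2 * S + e ^ 3 * Q ≤ 0 := by
  have k1 : e ^ 2 * S ≤ e * (S / 48) := by linarith only [mul_nonneg (sub_nonneg.2 he1) (sub_nonneg.2 (mul_nonneg he0 hS))]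
  have k2 : e ^ 3 * Q ≤ e * (Q / 48 ^ 2) := by
    have h1 : e ^ 2 ≤ 1 / 48 ^ 2 := by nlinarith only [he1, he0]
    nlinarith only [h1, mul_nonneg he0 hQ]
  have a1 : (1 - 48 * e) * P0 ≤ 0 := mul_nonpos_of_nonneg_of_nonpos (by linarith only [he1]) hP0
  have a2 : 48 * e * (P0 + (A + S / 48 + Q / 48 ^ 2) / 48) ≤ 0 :=
    mul_nonpos_of_nonneg_of_nonpos (by linarith only [he0]) hP1
  linarith

/-- the logarithms of `1 - z` -/
theorem be_l45 {M e w z kap : ℝ} (hM : 0 < M) (hz0 : 0 ≤ z) (hz1 : z < 1) (hz : z = e * w)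
    (hMz : M * z = w) (hkz : 1 / (1 - z) ≤ kap) :
    -(M / 2 * Real.log (1 - z)) + -Real.log (1 - z) ≤
      (w / 2 + e * w ^ 2 / 4 + e ^ 2 * w ^ 3 / 6 + e ^ 3 * w ^ 4 / 8 * kap) +
      (e * w + e ^ 2 * w ^ 2 / 2 + e ^ 3 * w ^ 3 / 3 * kap) := by
  have h1z : 0 < 1 - z := by linarith only [hz1]
  have l4 := be_log2 hz0 hz1
  have l5 := be_log3 hz0 hz1
  have hy : z ^ 3 / (3 * (1 - z)) ≤ z ^ 3 / 3 * kap := by
    rw [show z ^ 3 / (3 * (1 - z)) = z ^ 3 / 3 * (1 / (1 - z)) by field_simp]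
    exact mul_le_mul_of_nonneg_left hkz (by (clear * - hz0; positivity))
  have hy' : z ^ 4 / (4 * (1 - z)) ≤ z ^ 4 / 4 * kap := by
    rw [show z ^ 4 / (4 * (1 - z)) = z ^ 4 / 4 * (1 / (1 - z)) by (clear * - h1z; field_simp)]
    exact mul_le_mul_of_nonneg_left hkz (by (clear * -; positivity))
  have h5 : -Real.log (1 - z) ≤ z + z ^ 2 / 2 + z ^ 3 / 3 + z ^ 4 / 4 * kap := by linarith only [hy', l5]
  have h4 : -Real.log (1 - z) ≤ z + z ^ 2 / 2 + z ^ 3 / 3 * kap := by linarith only [l4, hy]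
  have h1 := mul_le_mul_of_nonneg_left h5 (by positivity : 0 ≤ M / 2)
  have h2 : M / 2 * (z + z ^ 2 / 2 + z ^ 3 / 3 + z ^ 4 / 4 * kap) =
      w / 2 + e * w ^ 2 / 4 + e ^ 2 * w ^ 3 / 6 + e ^ 3 * w ^ 4 / 8 * kap := by
    have h3 : M / 2 * (z + z ^ 2 / 2 + z ^ 3 / 3 + z ^ 4 / 4 * kap) =
      M * z / 2 * (1 + z / 2 + z ^ 2 / 3 + z ^ 3 / 4 * kap) := by ring
    rw [h3, hMz, hz]; ring
  have h2' : z + z ^ 2 / 2 + z ^ 3 / 3 * kap =
      e * w + e ^ 2 * w ^ 2 / 2 + e ^ 3 * w ^ 3 / 3 * kap := by rw [hz]; ring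
  linarith only [l4, hy, h1, h2, h2']

/-- all terms but the polynomial inequalities -/
theorem be_core {m : ℕ} (hm : 48 ≤ m) {x X b c0 v0 om kap W : ℝ} (hx : 0 < x) (hX : 0 < X)
    (hXx : X ^ 2 = m * x ^ 2) (hXs : Real.log X = Real.log m / 2 + Real.log x)
    (hW : X ^ 2 ≤ W) (hW48 : W < 48) (hkap : 1 ≤ kap * (1 - W / 48))
    (hom : X ^ 2 ≤ om * (1 + X ^ 2)) (hb0 : 0 ≤ b) (hb1 : b ≤ 7) (hv0 : 0 < v0)
    (hc0 : v0 ^ 2 * (Real.pi / 2) ≤ Real.exp (2 * c0))
    (hco : 0 ≤ X ^ 4 / 2 + X ^ 6 / 6 + 1 / 4 - 2304 / 7203 * b ^ 3)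
    (hP0 : c0 + (X + 1 / X) / v0 - 1 + X ^ 2 / 2 - b ≤ 0)
    (hP1 : c0 + (X + 1 / X) / v0 - 1 + X ^ 2 / 2 - b +
      ((om + X ^ 2 + X ^ 4 / 4 - 1 / 2 - 24 / 49 * b ^ 2) +
        (X ^ 4 / 2 + X ^ 6 / 6 + 1 / 4 - 2304 / 7203 * b ^ 3) / 48 +
        kap * (X ^ 6 / 3 + X ^ 8 / 8) / 48 ^ 2) / 48 ≤ 0) :
    (1 - b / (m + 1)) ^ (m + 1) *
      (Real.sqrt (Real.pi / (2 * (m + 1))) * ((m + 2) * (x ^ 2 / (1 - x ^ 2)) + 1)) ≤
      x * sq x ^ m := by
  have hm' : (48 : ℝ) ≤ m := by exact_mod_cast hm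
  have hM0 : (0 : ℝ) < m := by linarith only [hm']
  obtain ⟨e, he⟩ : ∃ e : ℝ, e = 1 / (m : ℝ) := ⟨_, rfl⟩
  have he0 : 0 < e := by rw [he]; positivity
  have he1 : e ≤ 1 / 48 := he ▸ one_div_le_one_div_of_le (by norm_num) hm'
  have heM : e * m = 1 := by rw [he]; field_simp
  have hz : x ^ 2 = e * X ^ 2 := by rw [hXx, ← mul_assoc, heM, one_mul]
  have hz0 : 0 < x ^ 2 := by positivity
  have hzW : x ^ 2 ≤ W / 48 := by
    rw [hz]
    have : e * X ^ 2 ≤ 1 / 48 * W := mul_le_mul he1 hW (by positivity) (by norm_num)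
    linarith only [this]
  have hz1 : x ^ 2 < 1 := by
    have : W / 48 < 1 := by linarith only [hW48]
    linarith only [hzW, hW48]
  have h1z : 0 < 1 - x ^ 2 := by linarith only [hW48, hzW]
  have hk0 : 0 < kap := by
    by_contra h
    push Not at h
    have : kap * (1 - W / 48) ≤ 0 := mul_nonpos_of_nonpos_of_nonneg h (by linarith only [hW48])
    linarith only [this, hkap]
  have hkz : 1 / (1 - x ^ 2) ≤ kap := by
    rw [div_le_iff₀ h1z]
    have := mul_le_mul_of_nonneg_left hzW hk0.le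
    linarith only [hkap, this]
  refine be_exp hx hz1 (by linarith only [hb1, hm']) ?_
  have l1 := be_l1 hm' heM hb0 hb1
  have l2 : Real.log ((m : ℝ) + 1) = Real.log m + Real.log (1 + e) := by
    rw [← Real.log_mul hM0.ne' (by (clear * - he0; positivity))]
    congr 1
    rw [mul_add, mul_comm (m : ℝ) e, heM]; ring
  have l2' := be_log_ge he0.le
  have l3 := be_l3 (M := m) (w := X ^ 2) (z := x ^ 2) (by positivity) hz0.le hXx.symm
  have l45 := be_l45 (M := m) (e := e) (w := X ^ 2) (z := x ^ 2) hM0 hz0.le hz1 hz hXx.symm hkz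
  have l6 := be_l6 hX hv0 hc0
  have hzw : x ^ 2 / (1 + X ^ 2) ≤ e * om := by
    rw [div_le_iff₀ (by positivity), hz, mul_assoc]
    exact mul_le_mul_of_nonneg_left hom he0.le
  have key := be_poly (e := e) (Q := kap * (X ^ 6 / 3 + X ^ 8 / 8)) he0.le he1 hco
    (by positivity) hP0 hP1
  have fin : -b - b ^ 2 / 2 * (48 / 49 * e) - b ^ 3 / 3 * (48 / 49 * e) ^ 2 +
      (c0 + (X + 1 / X) / v0 - 1) - (e - e ^ 2 / 2) / 2 + e * om +
      (((X ^ 2) / 2 + e * (X ^ 2) ^ 2 / 4 + e ^ 2 * (X ^ 2) ^ 3 / 6 +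
        e ^ 3 * (X ^ 2) ^ 4 / 8 * kap) +
      (e * (X ^ 2) + e ^ 2 * (X ^ 2) ^ 2 / 2 + e ^ 3 * (X ^ 2) ^ 3 / 3 * kap)) =
      c0 + (X + 1 / X) / v0 - 1 + X ^ 2 / 2 - b +
      e * (om + X ^ 2 + X ^ 4 / 4 - 1 / 2 - 24 / 49 * b ^ 2) +
      e ^ 2 * (X ^ 4 / 2 + X ^ 6 / 6 + 1 / 4 - 2304 / 7203 * b ^ 3) +
      e ^ 3 * (kap * (X ^ 6 / 3 + X ^ 8 / 8)) := by
    ring
  (clear * - hXs l1 l2 l2' l3 l45 l6 hzw key; linarith)

/-! ### the three cases -/

/-- case A, polynomial `co` -/
def beAco : List ℤ := [1290661761, -4630605408, 6066897408, -2649563136, 225093750, 0, 75031250]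

set_option maxRecDepth 100000 in
theorem beAco_nonneg {X : ℝ} (h0 : 19 / 10 ≤ X) (h1 : X ≤ 5 / 2) : 0 ≤ ev1 beAco X :=
  auto1_sound (n := 8) (A := 190) (B := 251) (D := 100) (by norm_num) (by (clear * -; decide +kernel))
    (by push_cast; linarith only [h0]) (by push_cast; linarith only [h1])

/-- case A, polynomial `p0` -/
def beAp0 : List ℤ := [-2500, -14763, 15056, -3325]

set_option maxRecDepth 100000 in
theorem beAp0_nonneg {X : ℝ} (h0 : 19 / 10 ≤ X) (h1 : X ≤ 5 / 2) : 0 ≤ ev1 beAp0 X :=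
  auto1_sound (n := 8) (A := 190) (B := 251) (D := 100) (by norm_num) (by (clear * -; decide +kernel))
    (by push_cast; linarith only [h0]) (by push_cast; linarith only [h1])

/-- case A, polynomial `p1` -/
def beAp1 : List ℤ := [-5689958400000000, -33106568140691712, 32691638829735936, -6895094299508736, 38662425280512, -82114200000000, 0, -1147308726200, 0, -19669772325]

set_option maxRecDepth 100000 in
theorem beAp1_nonneg {X : ℝ} (h0 : 19 / 10 ≤ X) (h1 : X ≤ 5 / 2) : 0 ≤ ev1 beAp1 X :=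
  auto1_sound (n := 8) (A := 190) (B := 251) (D := 100) (by norm_num) (by (clear * -; decide +kernel))
    (by push_cast; linarith only [h0]) (by push_cast; linarith only [h1])

/-- case A -/
theorem be_stepA {m : ℕ} (hm : 48 ≤ m) {x X : ℝ} (hx : 0 < x) (hX : 0 < X)
    (hXx : X ^ 2 = m * x ^ 2) (hXs : Real.log X = Real.log m / 2 + Real.log x)
    (h0 : 19 / 10 ≤ X) (h1 : X ≤ 5 / 2) :
    (1 - ((528 * X - 403) / 200) / (m + 1)) ^ (m + 1) *
      (Real.sqrt (Real.pi / (2 * (m + 1))) * ((m + 2) * (x ^ 2 / (1 - x ^ 2)) + 1)) ≤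
      x * sq x ^ m := by
  have k1 := beAco_nonneg h0 h1
  have k2 := beAp0_nonneg h0 h1
  have k3 := beAp1_nonneg h0 h1
  simp only [beAco, ev1_cons, ev1_nil, beAp0, beAp1] at k1 k2 k3
  push_cast at k1 k2 k3
  have hXX : X * (1 / X) = 1 := by (clear * - hX; field_simp)
  refine be_core hm (c0 := 241 / 200) (v0 := 133 / 50) (om := 863 / 1000) (kap := 5749 / 5000)
    (W := 25 / 4) hx hX hXx hXs (by nlinarith only [h1, hX]) (by norm_num) (by norm_num) (by nlinarith only [h1, hX])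
    (by linarith only [h0]) (by linarith only [h1]) (by norm_num) ?_ ?_ ?_ ?_
  · have h := pin_exp_ge (241 / 200) (by norm_num)
    have hpi := Real.pi_lt_d6
    have h2 : Real.exp (2 * (241 / 200 : ℝ)) = Real.exp (241 / 200) ^ 2 := by
      rw [← Real.exp_nat_mul]; norm_num
    rw [h2]
    have h3 := pow_le_pow_left₀ (by norm_num) h 2
    refine le_trans ?_ h3
    norm_num
    linarith only [hpi]
  · linarith only [k1]
  · refine nonpos_of_mul_nonpos_right (a := X) ?_ hX
    have e : X * (241 / 200 + (X + 1 / X) / (133 / 50) - 1 + X ^ 2 / 2 - ((528 * X - 403) / 200)) =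
      X * (241 / 200) + (X ^ 2 + X * (1 / X)) / (133 / 50) - X + X ^ 3 / 2 - X * (((528 * X - 403) / 200)) := by
      ring
    rw [e, hXX]
    (clear * - k2; linarith only [k2])
  · refine nonpos_of_mul_nonpos_right (a := X) ?_ hX
    have e : X * (241 / 200 + (X + 1 / X) / (133 / 50) - 1 + X ^ 2 / 2 - ((528 * X - 403) / 200) +
      ((863 / 1000 + X ^ 2 + X ^ 4 / 4 - 1 / 2 - 24 / 49 * (((528 * X - 403) / 200)) ^ 2) +
        (X ^ 4 / 2 + X ^ 6 / 6 + 1 / 4 - 2304 / 7203 * (((528 * X - 403) / 200)) ^ 3) / 48 +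
        5749 / 5000 * (X ^ 6 / 3 + X ^ 8 / 8) / 48 ^ 2) / 48) =
      X * (241 / 200) + (X ^ 2 + X * (1 / X)) / (133 / 50) - X + X ^ 3 / 2 - X * (((528 * X - 403) / 200)) +
      X * (((863 / 1000 + X ^ 2 + X ^ 4 / 4 - 1 / 2 - 24 / 49 * (((528 * X - 403) / 200)) ^ 2) +
        (X ^ 4 / 2 + X ^ 6 / 6 + 1 / 4 - 2304 / 7203 * (((528 * X - 403) / 200)) ^ 3) / 48 +
        5749 / 5000 * (X ^ 6 / 3 + X ^ 8 / 8) / 48 ^ 2) / 48) := by
      ring
    rw [e, hXX]
    nlinarith only [k3]

/-- case B, polynomial `co` -/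
def beBco : List ℤ := [1934051403, -6566797440, 7891430400, -3161088000, 225093750, 0, 75031250]

set_option maxRecDepth 100000 in
theorem beBco_nonneg {X : ℝ} (h0 : 5 / 2 ≤ X) (h1 : X ≤ 11 / 4) : 0 ≤ ev1 beBco X :=
  auto1_sound (n := 8) (A := 250) (B := 276) (D := 100) (by norm_num) (by (clear * -; decide +kernel))
    (by push_cast; linarith only [h0]) (by push_cast; linarith only [h1])

/-- case B, polynomial `p0` -/
def beBp0 : List ℤ := [-200, -1593, 1480, -300]

set_option maxRecDepth 100000 in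
theorem beBp0_nonneg {X : ℝ} (h0 : 5 / 2 ≤ X) (h1 : X ≤ 11 / 4) : 0 ≤ ev1 beBp0 X :=
  auto1_sound (n := 8) (A := 250) (B := 276) (D := 100) (by norm_num) (by (clear * -; decide +kernel))
    (by push_cast; linarith only [h0]) (by push_cast; linarith only [h1])

/-- case B, polynomial `p1` -/
def beBp1 : List ℤ := [-177020928000000, -1385791175579136, 1242609851105280, -238150589644800, 1618477056000, -2881200000000, 0, -40316151400, 0, -712556775]

set_option maxRecDepth 100000 in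
theorem beBp1_nonneg {X : ℝ} (h0 : 5 / 2 ≤ X) (h1 : X ≤ 11 / 4) : 0 ≤ ev1 beBp1 X :=
  auto1_sound (n := 8) (A := 250) (B := 276) (D := 100) (by norm_num) (by (clear * -; decide +kernel))
    (by push_cast; linarith only [h0]) (by push_cast; linarith only [h1])

/-- case B -/
theorem be_stepB {m : ℕ} (hm : 48 ≤ m) {x X : ℝ} (hx : 0 < x) (hX : 0 < X)
    (hXx : X ^ 2 = m * x ^ 2) (hXs : Real.log X = Real.log m / 2 + Real.log x)
    (h0 : 5 / 2 ≤ X) (h1 : X ≤ 11 / 4) :
    (1 - ((280 * X - 233) / 100) / (m + 1)) ^ (m + 1) *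
      (Real.sqrt (Real.pi / (2 * (m + 1))) * ((m + 2) * (x ^ 2 / (1 - x ^ 2)) + 1)) ≤
      x * sq x ^ m := by
  have k1 := beBco_nonneg h0 h1
  have k2 := beBp0_nonneg h0 h1
  have k3 := beBp1_nonneg h0 h1
  simp only [beBco, beBp0, beBp1, ev1_cons, ev1_nil] at k1 k2 k3
  push_cast at k1 k2 k3
  have hXX : X * (1 / X) = 1 := by field_simp
  refine be_core hm (c0 := 53 / 40) (v0 := 3) (om := 221 / 250) (kap := 11871 / 10000)
    (W := 121 / 16) hx hX hXx hXs (by nlinarith only [h1, hX]) (by norm_num) (by norm_num) (by nlinarith only [h1, hX])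
    (by (clear * - h0; linarith)) (by linarith only [h1]) (by norm_num) ?_ ?_ ?_ ?_
  · have h := pin_exp_ge (53 / 40) (by norm_num)
    have hpi := Real.pi_lt_d6
    have h2 : Real.exp (2 * (53 / 40 : ℝ)) = Real.exp (53 / 40) ^ 2 := by
      rw [← Real.exp_nat_mul]; norm_num
    rw [h2]
    have h3 := pow_le_pow_left₀ (by norm_num) h 2
    refine le_trans ?_ h3
    norm_num
    linarith only [hpi]
  · linarith only [k1]
  · refine nonpos_of_mul_nonpos_right (a := X) ?_ hX
    have e : X * (53 / 40 + (X + 1 / X) / (3) - 1 + X ^ 2 / 2 - ((280 * X - 233) / 100)) =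
      X * (53 / 40) + (X ^ 2 + X * (1 / X)) / (3) - X + X ^ 3 / 2 - X * (((280 * X - 233) / 100)) := by
      ring
    rw [e, hXX]
    linarith only [k2]
  · refine nonpos_of_mul_nonpos_right (a := X) ?_ hX
    have e : X * (53 / 40 + (X + 1 / X) / (3) - 1 + X ^ 2 / 2 - ((280 * X - 233) / 100) +
      ((221 / 250 + X ^ 2 + X ^ 4 / 4 - 1 / 2 - 24 / 49 * (((280 * X - 233) / 100)) ^ 2) +
        (X ^ 4 / 2 + X ^ 6 / 6 + 1 / 4 - 2304 / 7203 * (((280 * X - 233) / 100)) ^ 3) / 48 +
        11871 / 10000 * (X ^ 6 / 3 + X ^ 8 / 8) / 48 ^ 2) / 48) =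
      X * (53 / 40) + (X ^ 2 + X * (1 / X)) / (3) - X + X ^ 3 / 2 - X * (((280 * X - 233) / 100)) +
      X * (((221 / 250 + X ^ 2 + X ^ 4 / 4 - 1 / 2 - 24 / 49 * (((280 * X - 233) / 100)) ^ 2) +
        (X ^ 4 / 2 + X ^ 6 / 6 + 1 / 4 - 2304 / 7203 * (((280 * X - 233) / 100)) ^ 3) / 48 +
        11871 / 10000 * (X ^ 6 / 3 + X ^ 8 / 8) / 48 ^ 2) / 48) := by
      ring
    rw [e, hXX]
    nlinarith only [k3]

/-- case C, polynomial `co` -/
def beCco : List ℤ := [4528205643, -13204653696, 13162466304, -4373471232, 225093750, 0, 75031250]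

set_option maxRecDepth 100000 in
theorem beCco_nonneg {X : ℝ} (h0 : 11 / 4 ≤ X) (h1 : X ≤ 3) : 0 ≤ ev1 beCco X :=
  auto1_sound (n := 8) (A := 275) (B := 301) (D := 100) (by norm_num) (by (clear * -; decide +kernel))
    (by push_cast; linarith only [h0]) (by push_cast; linarith only [h1])

/-- case C, polynomial `p0` -/
def beCp0 : List ℤ := [-25000, -283843, 226160, -40250]

set_option maxRecDepth 100000 in
theorem beCp0_nonneg {X : ℝ} (h0 : 11 / 4 ≤ X) (h1 : X ≤ 3) : 0 ≤ ev1 beCp0 X :=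
  auto1_sound (n := 8) (A := 275) (B := 301) (D := 100) (by norm_num) (by (clear * -; decide +kernel))
    (by push_cast; linarith) (by push_cast; linarith only [h1])

/-- case C, polynomial `p1` -/
def beCp1 : List ℤ := [-2844979200000000, -31501637109115776, 24027708010217472, -3977566949449728, 38626497921024, -49700700000000, 0, -696660234200, 0, -12744087825]

set_option maxRecDepth 100000 in
theorem beCp1_nonneg {X : ℝ} (h0 : 11 / 4 ≤ X) (h1 : X ≤ 3) : 0 ≤ ev1 beCp1 X :=
  auto1_sound (n := 8) (A := 275) (B := 301) (D := 100) (by norm_num) (by (clear * -; decide +kernel))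
    (by push_cast; linarith only [h0]) (by push_cast; linarith only [h1])

/-- case C -/
theorem be_stepC {m : ℕ} (hm : 48 ≤ m) {x X : ℝ} (hx : 0 < x) (hX : 0 < X)
    (hXx : X ^ 2 = m * x ^ 2) (hXs : Real.log X = Real.log m / 2 + Real.log x)
    (h0 : 11 / 4 ≤ X) (h1 : X ≤ 3) :
    (1 - ((312 * X - 313) / 100) / (m + 1)) ^ (m + 1) *
      (Real.sqrt (Real.pi / (2 * (m + 1))) * ((m + 2) * (x ^ 2 / (1 - x ^ 2)) + 1)) ≤
      x * sq x ^ m := by
  have k1 := beCco_nonneg h0 h1
  have k2 := beCp0_nonneg h0 h1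
  have k3 := beCp1_nonneg h0 h1
  simp only [beCco, beCp0, beCp1, ev1_cons, ev1_nil] at k1 k2 k3
  push_cast at k1 k2 k3
  have hXX : X * (1 / X) = 1 := by field_simp
  refine be_core hm (c0 := 349 / 250) (v0 := 161 / 50) (om := 9 / 10) (kap := 3077 / 2500)
    (W := 9) hx hX hXx hXs (by (clear * - h1 hX; nlinarith)) (by norm_num) (by norm_num) (by nlinarith only [h1, hX])
    (by linarith only [h0]) (by linarith only [h1]) (by norm_num) ?_ ?_ ?_ ?_
  · have h := pin_exp_ge (349 / 250) (by norm_num)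
    have hpi := Real.pi_lt_d6
    have h2 : Real.exp (2 * (349 / 250 : ℝ)) = Real.exp (349 / 250) ^ 2 := by
      rw [← Real.exp_nat_mul]; norm_num
    rw [h2]
    have h3 := pow_le_pow_left₀ (by norm_num) h 2
    refine le_trans ?_ h3
    norm_num
    linarith only [hpi]
  · linarith only [k1]
  · refine nonpos_of_mul_nonpos_right (a := X) ?_ hX
    have e : X * (349 / 250 + (X + 1 / X) / (161 / 50) - 1 + X ^ 2 / 2 - ((312 * X - 313) / 100)) =
      X * (349 / 250) + (X ^ 2 + X * (1 / X)) / (161 / 50) - X + X ^ 3 / 2 - X * (((312 * X - 313) / 100)) := by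
      ring
    rw [e, hXX]
    nlinarith only [k2]
  · refine nonpos_of_mul_nonpos_right (a := X) ?_ hX
    have e : X * (349 / 250 + (X + 1 / X) / (161 / 50) - 1 + X ^ 2 / 2 - ((312 * X - 313) / 100) +
      ((9 / 10 + X ^ 2 + X ^ 4 / 4 - 1 / 2 - 24 / 49 * (((312 * X - 313) / 100)) ^ 2) +
        (X ^ 4 / 2 + X ^ 6 / 6 + 1 / 4 - 2304 / 7203 * (((312 * X - 313) / 100)) ^ 3) / 48 +
        3077 / 2500 * (X ^ 6 / 3 + X ^ 8 / 8) / 48 ^ 2) / 48) =
      X * (349 / 250) + (X ^ 2 + X * (1 / X)) / (161 / 50) - X + X ^ 3 / 2 - X * (((312 * X - 313) / 100)) +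
      X * (((9 / 10 + X ^ 2 + X ^ 4 / 4 - 1 / 2 - 24 / 49 * (((312 * X - 313) / 100)) ^ 2) +
        (X ^ 4 / 2 + X ^ 6 / 6 + 1 / 4 - 2304 / 7203 * (((312 * X - 313) / 100)) ^ 3) / 48 +
        3077 / 2500 * (X ^ 6 / 3 + X ^ 8 / 8) / 48 ^ 2) / 48) := by
      ring
    rw [e, hXX]
    linarith only [k3]

/-! ### (L5), in the form needed -/

theorem be_X {m : ℕ} (hm : 48 ≤ m) {x : ℝ} (hx : 0 < x) :
    0 < Real.sqrt m * x ∧ (Real.sqrt m * x) ^ 2 = m * x ^ 2 ∧
      Real.log (Real.sqrt m * x) = Real.log m / 2 + Real.log x := by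
  have hm0 : (0 : ℝ) < m := by
    have : (48 : ℝ) ≤ m := by exact_mod_cast hm
    linarith only [this]
  have hs : 0 < Real.sqrt m := Real.sqrt_pos.2 hm0
  refine ⟨by positivity, ?_, ?_⟩
  · rw [mul_pow, Real.sq_sqrt hm0.le]
  · rw [Real.log_mul hs.ne' hx.ne', Real.log_sqrt hm0.le]

/-- **(L5)(i)** `19 / 10 ≤ √m x ≤ 5 / 2` -/
theorem apl_beta1 {m : ℕ} (hm : 48 ≤ m) {x : ℝ} (hx : 0 < x)
    (h0 : 19 / 10 ≤ Real.sqrt m * x) (h1 : Real.sqrt m * x ≤ 5 / 2) :
    (1 - ((528 * (Real.sqrt m * x) - 403) / 200) / (m + 1)) ^ (m + 1) *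
      (Real.sqrt (Real.pi / (2 * (m + 1))) * ((m + 2) * (x ^ 2 / (1 - x ^ 2)) + 1)) ≤
      x * sq x ^ m := by
  obtain ⟨a, b, c⟩ := be_X hm hx
  exact be_stepA hm hx a b c h0 h1

/-- **(L5)(ii)** `5 / 2 ≤ √m x ≤ 11 / 4` -/
theorem apl_beta2 {m : ℕ} (hm : 48 ≤ m) {x : ℝ} (hx : 0 < x)
    (h0 : 5 / 2 ≤ Real.sqrt m * x) (h1 : Real.sqrt m * x ≤ 11 / 4) :
    (1 - ((280 * (Real.sqrt m * x) - 233) / 100) / (m + 1)) ^ (m + 1) *
      (Real.sqrt (Real.pi / (2 * (m + 1))) * ((m + 2) * (x ^ 2 / (1 - x ^ 2)) + 1)) ≤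
      x * sq x ^ m := by
  obtain ⟨a, b, c⟩ := be_X hm hx
  exact be_stepB hm hx a b c h0 h1

/-- **(L5)(iii)** `11 / 4 ≤ √m x ≤ 3` -/
theorem apl_beta3 {m : ℕ} (hm : 48 ≤ m) {x : ℝ} (hx : 0 < x)
    (h0 : 11 / 4 ≤ Real.sqrt m * x) (h1 : Real.sqrt m * x ≤ 3) :
    (1 - ((312 * (Real.sqrt m * x) - 313) / 100) / (m + 1)) ^ (m + 1) *
      (Real.sqrt (Real.pi / (2 * (m + 1))) * ((m + 2) * (x ^ 2 / (1 - x ^ 2)) + 1)) ≤
      x * sq x ^ m := by
  obtain ⟨a, b, c⟩ := be_X hm hx
  exact be_stepC hm hx a b c h0 h1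

end Vale.Agent.P237.AllN
end

section

/-!
# P237, block D, `l > 0`: lower bounds of the kernel part of `T`
-/

open Finset

namespace Vale.Agent.P237.AllN

open PolyPos

/-! ## range `l ≤ 43 / 100` -/

theorem ks_h_two_b {l : ℝ} (h0 : 0 ≤ l) (h1 : l ≤ 43 / 100) :
    3 * kpt (4 * l) + kct (4 * l) ≤ l ^ 3 * (128 / 3 - 8393 / 400 * l + 7667 / 250 * l ^ 2) := by
  have h := ks_polyL (A := 43) (D := 100) (q := padd (psm (1260 ^ 2) [-12000, 96000, -96000, 256000, -125895, 184008])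
    (padd (psm 18000 (ppow kAL 2)) (psm (-6000) (ppow kBH 2)))) (by norm_num) (by norm_num)
    h0 (by push_cast; linarith only [h1]) (by (clear * -; decide +kernel))
  have hE := ks_E_ge' 2 h0 (by linarith)
  have hB := ks_B_le' 2 h0 (by linarith)
  rw [ev1_padd, ev1_padd, ev1_psm, ev1_psm, ev1_psm, ev1_ppow, ev1_ppow] at h
  simp only [ev1_cons, ev1_nil] at h
  rw [show -(2 * ((2 : ℕ) : ℝ) * l) = -(4 * l) by push_cast; ring] at hE
  rw [show 2 * ((2 : ℕ) : ℝ) * l = 4 * l by push_cast; ring] at hB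
  generalize ev1 kAL l ^ 2 = A at *
  generalize ev1 kBH l ^ 2 = B at *
  push_cast at h
  simp only [kpt, kct]
  linarith only [h, hB, hE]

theorem ks_p_two_b {l : ℝ} (h0 : 0 ≤ l) (h1 : l ≤ 43 / 100) :
    l ^ 3 * (32 / 3 - 1067 / 100 * l + 6587 / 1000 * l ^ 2) ≤ kpt (4 * l) := by
  have h := ks_polyL (A := 43) (D := 100) (q := padd (psm (1260 ^ 2) [3000, -12000, 24000, -32000, 32010, -19761])
    (psm (-3000) (ppow kAH 2))) (by norm_num) (by norm_num)
    h0 (by push_cast; (clear * - h1; linarith only [h1])) (by (clear * -; decide +kernel))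
  have hE := ks_E_le' 2 h0 (by linarith only [h1])
  rw [ev1_padd, ev1_psm, ev1_psm, ev1_ppow] at h
  simp only [ev1_cons, ev1_nil] at h
  rw [show -(2 * ((2 : ℕ) : ℝ) * l) = -(4 * l) by push_cast; ring] at hE
  generalize ev1 kAH l ^ 2 = A at *
  push_cast at h
  simp only [kpt]
  linarith

theorem ks_e_two_b {l : ℝ} (h0 : 0 ≤ l) (h1 : l ≤ 43 / 100) :
    l * (-16 + 5213 / 125 * l - 29139 / 1000 * l ^ 2) ≤ 6 * (Real.exp (-(4 * l)) - 1) + 8 * l := by
  have h := ks_polyL (A := 43) (D := 100) (q := padd (psm (1260 ^ 2) [-6000, 24000, -41704, 29139])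
    (psm 6000 (ppow kAL 2))) (by norm_num) (by norm_num)
    h0 (by push_cast; linarith only [h1]) (by (clear * -; decide +kernel))
  have hE := ks_E_ge' 2 h0 (by linarith only [h1])
  rw [ev1_padd, ev1_psm, ev1_psm, ev1_ppow] at h
  simp only [ev1_cons, ev1_nil] at h
  rw [show -(2 * ((2 : ℕ) : ℝ) * l) = -(4 * l) by push_cast; ring] at hE
  generalize ev1 kAL l ^ 2 = A at *
  push_cast at h
  linarith only [h, hE]

theorem ks_h_three_b {l : ℝ} (h0 : 0 ≤ l) (h1 : l ≤ 43 / 100) :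
    5 * kpt (6 * l) + kct (6 * l) ≤ l ^ 3 * (216 - 208771 / 1000 * l + 6279 / 20 * l ^ 2) := by
  have h := ks_polyL (A := 43) (D := 100) (q := padd (psm (1260 ^ 3) [-4000, 36000, -72000, 216000, -208771, 313950])
    (padd (psm 5000 (ppow kAL 3)) (psm (-1000) (ppow kBH 3)))) (by norm_num) (by norm_num)
    h0 (by push_cast; linarith only [h1]) (by (clear * -; decide +kernel))
  have hE := ks_E_ge' 3 h0 (by linarith only [h1])
  have hB := ks_B_le' 3 h0 (by linarith)
  rw [ev1_padd, ev1_padd, ev1_psm, ev1_psm, ev1_psm, ev1_ppow, ev1_ppow] at h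
  simp only [ev1_cons, ev1_nil] at h
  rw [show -(2 * ((3 : ℕ) : ℝ) * l) = -(6 * l) by push_cast; ring] at hE
  rw [show 2 * ((3 : ℕ) : ℝ) * l = 6 * l by push_cast; ring] at hB
  generalize ev1 kAL l ^ 3 = A at *
  generalize ev1 kBH l ^ 3 = B at *
  push_cast at h
  simp only [kpt, kct]
  linarith

theorem ks_p_three_b {l : ℝ} (h0 : 0 ≤ l) (h1 : l ≤ 43 / 100) :
    l ^ 3 * (36 - 5401 / 100 * l + 44667 / 1000 * l ^ 2) ≤ kpt (6 * l) := by
  have h := ks_polyL (A := 43) (D := 100) (q := padd (psm (1260 ^ 3) [1000, -6000, 18000, -36000, 54010, -44667])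
    (psm (-1000) (ppow kAH 3))) (by norm_num) (by norm_num)
    h0 (by push_cast; linarith only [h1]) (by (clear * -; decide +kernel))
  have hE := ks_E_le' 3 h0 (by linarith only [h1])
  rw [ev1_padd, ev1_psm, ev1_psm, ev1_ppow] at h
  simp only [ev1_cons, ev1_nil] at h
  rw [show -(2 * ((3 : ℕ) : ℝ) * l) = -(6 * l) by push_cast; ring] at hE
  generalize ev1 kAH l ^ 3 = A at *
  push_cast at h
  simp only [kpt]
  linarith only [h, hE]

theorem ks_e_three_b {l : ℝ} (h0 : 0 ≤ l) (h1 : l ≤ 43 / 100) :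
    l * (-36 + 69843 / 500 * l - 58299 / 500 * l ^ 2) ≤ 10 * (Real.exp (-(6 * l)) - 1) + 24 * l := by
  have h := ks_polyL (A := 43) (D := 100) (q := padd (psm (1260 ^ 3) [-5000, 30000, -69843, 58299])
    (psm 5000 (ppow kAL 3))) (by norm_num) (by norm_num)
    h0 (by push_cast; linarith only [h1]) (by (clear * -; decide +kernel))
  have hE := ks_E_ge' 3 h0 (by linarith only [h1])
  rw [ev1_padd, ev1_psm, ev1_psm, ev1_ppow] at h
  simp only [ev1_cons, ev1_nil] at h
  rw [show -(2 * ((3 : ℕ) : ℝ) * l) = -(6 * l) by push_cast; ring] at hE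
  generalize ev1 kAL l ^ 3 = A at *
  push_cast at h
  linarith only [h, hE]

theorem ks_h_four_b {l : ℝ} (h0 : 0 ≤ l) (h1 : l ≤ 43 / 100) :
    7 * kpt (8 * l) + kct (8 * l) ≤ l ^ 3 * (2048 / 3 - 122448 / 125 * l + 164327 / 100 * l ^ 2) := by
  have h := ks_polyL (A := 43) (D := 100) (q := padd (psm (1260 ^ 4) [-9000, 96000, -288000, 1024000, -1469376, 2464905])
    (padd (psm 10500 (ppow kAL 4)) (psm (-1500) (ppow kBH 4)))) (by norm_num) (by norm_num)
    h0 (by push_cast; linarith) (by (clear * -; decide +kernel))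
  have hE := ks_E_ge' 4 h0 (by linarith only [h1])
  have hB := ks_B_le' 4 h0 (by linarith)
  rw [ev1_padd, ev1_padd, ev1_psm, ev1_psm, ev1_psm, ev1_ppow, ev1_ppow] at h
  simp only [ev1_cons, ev1_nil] at h
  rw [show -(2 * ((4 : ℕ) : ℝ) * l) = -(8 * l) by push_cast; ring] at hE
  rw [show 2 * ((4 : ℕ) : ℝ) * l = 8 * l by push_cast; ring] at hB
  generalize ev1 kAL l ^ 4 = A at *
  generalize ev1 kBH l ^ 4 = B at *
  push_cast at h
  simp only [kpt, kct]
  linarith

theorem ks_p_four_b {l : ℝ} (h0 : 0 ≤ l) (h1 : l ≤ 43 / 100) :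
    l ^ 3 * (256 / 3 - 17067 / 100 * l + 42429 / 250 * l ^ 2) ≤ kpt (8 * l) := by
  have h := ks_polyL (A := 43) (D := 100) (q := padd (psm (1260 ^ 4) [1500, -12000, 48000, -128000, 256005, -254574])
    (psm (-1500) (ppow kAH 4))) (by norm_num) (by norm_num)
    h0 (by push_cast; linarith only [h1]) (by (clear * -; decide +kernel))
  have hE := ks_E_le' 4 h0 (by linarith only [h1])
  rw [ev1_padd, ev1_psm, ev1_psm, ev1_ppow] at h
  simp only [ev1_cons, ev1_nil] at h
  rw [show -(2 * ((4 : ℕ) : ℝ) * l) = -(8 * l) by push_cast; ring] at hE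
  generalize ev1 kAH l ^ 4 = A at *
  push_cast at h
  simp only [kpt]
  linarith only [h, hE]

theorem ks_e_four_b {l : ℝ} (h0 : 0 ≤ l) (h1 : l ≤ 43 / 100) :
    l * (-64 + 30941 / 100 * l - 7107 / 25 * l ^ 2) ≤ 14 * (Real.exp (-(8 * l)) - 1) + 48 * l := by
  have h := ks_polyL (A := 43) (D := 100) (q := padd (psm (1260 ^ 4) [-1400, 11200, -30941, 28428])
    (psm 1400 (ppow kAL 4))) (by norm_num) (by norm_num)
    h0 (by push_cast; (clear * - h1; linarith only [h1])) (by (clear * -; decide +kernel))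
  have hE := ks_E_ge' 4 h0 (by linarith only [h1])
  rw [ev1_padd, ev1_psm, ev1_psm, ev1_ppow] at h
  simp only [ev1_cons, ev1_nil] at h
  rw [show -(2 * ((4 : ℕ) : ℝ) * l) = -(8 * l) by push_cast; ring] at hE
  generalize ev1 kAL l ^ 4 = A at *
  push_cast at h
  linarith only [h, hE]

theorem ks_h_five_b {l : ℝ} (h0 : 0 ≤ l) (h1 : l ≤ 43 / 100) :
    9 * kpt (10 * l) + kct (10 * l) ≤ l ^ 3 * (5000 / 3 - 3179 * l + 12069 / 2 * l ^ 2) := by
  have h := ks_polyL (A := 43) (D := 100) (q := padd (psm (1260 ^ 5) [-48, 600, -2400, 10000, -19074, 36207])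
    (padd (psm 54 (ppow kAL 5)) (psm (-6) (ppow kBH 5)))) (by norm_num) (by norm_num)
    h0 (by push_cast; linarith only [h1]) (by (clear * -; decide +kernel))
  have hE := ks_E_ge' 5 h0 (by linarith only [h1])
  have hB := ks_B_le' 5 h0 (by linarith only [h1])
  rw [ev1_padd, ev1_padd, ev1_psm, ev1_psm, ev1_psm, ev1_ppow, ev1_ppow] at h
  simp only [ev1_cons, ev1_nil] at h
  rw [show -(2 * ((5 : ℕ) : ℝ) * l) = -(10 * l) by push_cast; ring] at hE
  rw [show 2 * ((5 : ℕ) : ℝ) * l = 10 * l by push_cast; ring] at hB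
  generalize ev1 kAL l ^ 5 = A at *
  generalize ev1 kBH l ^ 5 = B at *
  push_cast at h
  simp only [kpt, kct]
  linarith only [h, hB, hE]

theorem ks_p_five_b {l : ℝ} (h0 : 0 ≤ l) (h1 : l ≤ 43 / 100) :
    l ^ 3 * (500 / 3 - 41667 / 100 * l + 471083 / 1000 * l ^ 2) ≤ kpt (10 * l) := by
  have h := ks_polyL (A := 43) (D := 100) (q := padd (psm (1260 ^ 5) [3000, -30000, 150000, -500000, 1250010, -1413249])
    (psm (-3000) (ppow kAH 5))) (by norm_num) (by norm_num)
    h0 (by push_cast; linarith only [h1]) (by (clear * -; decide +kernel))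
  have hE := ks_E_le' 5 h0 (by linarith only [h1])
  rw [ev1_padd, ev1_psm, ev1_psm, ev1_ppow] at h
  simp only [ev1_cons, ev1_nil] at h
  rw [show -(2 * ((5 : ℕ) : ℝ) * l) = -(10 * l) by push_cast; ring] at hE
  generalize ev1 kAH l ^ 5 = A at *
  push_cast at h
  simp only [kpt]
  linarith

theorem ks_e_five_b {l : ℝ} (h0 : 0 ≤ l) (h1 : l ≤ 43 / 100) :
    l * (-100 + 55479 / 100 * l - 27003 / 50 * l ^ 2) ≤ 18 * (Real.exp (-(10 * l)) - 1) + 80 * l := by
  have h := ks_polyL (A := 43) (D := 100) (q := padd (psm (1260 ^ 5) [-1800, 18000, -55479, 54006])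
    (psm 1800 (ppow kAL 5))) (by norm_num) (by norm_num)
    h0 (by push_cast; linarith only [h1]) (by (clear * -; decide +kernel))
  have hE := ks_E_ge' 5 h0 (by linarith only [h1])
  rw [ev1_padd, ev1_psm, ev1_psm, ev1_ppow] at h
  simp only [ev1_cons, ev1_nil] at h
  rw [show -(2 * ((5 : ℕ) : ℝ) * l) = -(10 * l) by push_cast; ring] at hE
  generalize ev1 kAL l ^ 5 = A at *
  push_cast at h
  linarith only [h, hE]

theorem ks_h_six_b {l : ℝ} (h0 : 0 ≤ l) (h1 : l ≤ 43 / 100) :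
    11 * kpt (12 * l) + kct (12 * l) ≤ l ^ 3 * (3456 - 827103 / 100 * l + 179111 / 10 * l ^ 2) := by
  have h := ks_polyL (A := 43) (D := 100) (q := padd (psm (1260 ^ 6) [-1000, 14400, -72000, 345600, -827103, 1791110])
    (padd (psm 1100 (ppow kAL 6)) (psm (-100) (ppow kBH 6)))) (by norm_num) (by norm_num)
    h0 (by push_cast; linarith only [h1]) (by (clear * -; decide +kernel))
  have hE := ks_E_ge' 6 h0 (by linarith only [h1])
  have hB := ks_B_le' 6 h0 (by linarith)
  rw [ev1_padd, ev1_padd, ev1_psm, ev1_psm, ev1_psm, ev1_ppow, ev1_ppow] at h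
  simp only [ev1_cons, ev1_nil] at h
  rw [show -(2 * ((6 : ℕ) : ℝ) * l) = -(12 * l) by push_cast; ring] at hE
  rw [show 2 * ((6 : ℕ) : ℝ) * l = 12 * l by push_cast; ring] at hB
  generalize ev1 kAL l ^ 6 = A at *
  generalize ev1 kBH l ^ 6 = B at *
  push_cast at h
  simp only [kpt, kct]
  linarith only [h, hB, hE]

theorem ks_p_six_b {l : ℝ} (h0 : 0 ≤ l) (h1 : l ≤ 43 / 100) :
    l ^ 3 * (288 - 86401 / 100 * l + 1073933 / 1000 * l ^ 2) ≤ kpt (12 * l) := by
  have h := ks_polyL (A := 43) (D := 100) (q := padd (psm (1260 ^ 6) [1000, -12000, 72000, -288000, 864010, -1073933])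
    (psm (-1000) (ppow kAH 6))) (by norm_num) (by norm_num)
    h0 (by push_cast; (clear * - h1; linarith only [h1])) (by (clear * -; decide +kernel))
  have hE := ks_E_le' 6 h0 (by linarith only [h1])
  rw [ev1_padd, ev1_psm, ev1_psm, ev1_ppow] at h
  simp only [ev1_cons, ev1_nil] at h
  rw [show -(2 * ((6 : ℕ) : ℝ) * l) = -(12 * l) by push_cast; ring] at hE
  generalize ev1 kAH l ^ 6 = A at *
  push_cast at h
  simp only [kpt]
  linarith only [h, hE]

theorem ks_e_six_b {l : ℝ} (h0 : 0 ≤ l) (h1 : l ≤ 43 / 100) :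
    l * (-144 + 21913 / 25 * l - 22144 / 25 * l ^ 2) ≤ 22 * (Real.exp (-(12 * l)) - 1) + 120 * l := by
  have h := ks_polyL (A := 43) (D := 100) (q := padd (psm (1260 ^ 6) [-550, 6600, -21913, 22144])
    (psm 550 (ppow kAL 6))) (by norm_num) (by norm_num)
    h0 (by push_cast; linarith only [h1]) (by (clear * -; decide +kernel))
  have hE := ks_E_ge' 6 h0 (by linarith only [h1])
  rw [ev1_padd, ev1_psm, ev1_psm, ev1_ppow] at h
  simp only [ev1_cons, ev1_nil] at h
  rw [show -(2 * ((6 : ℕ) : ℝ) * l) = -(12 * l) by push_cast; ring] at hE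
  generalize ev1 kAL l ^ 6 = A at *
  push_cast at h
  linarith only [h, hE]

/-- cubic remainder, `w = m z` -/
noncomputable def kD_b (w z l : ℝ) : ℝ :=
  3 / 16 * ((w + 5 * z) * (128 / 3 - 8393 / 400 * l + 7667 / 250 * l ^ 2) - 6 * (32 / 3 - 1067 / 100 * l + 6587 / 1000 * l ^ 2)) +
  5 / 48 * z * ((w + 7 * z) * (216 - 208771 / 1000 * l + 6279 / 20 * l ^ 2) - 20 * (36 - 5401 / 100 * l + 44667 / 1000 * l ^ 2)) +
  35 / 512 * z ^ 2 * ((w + 9 * z) * (2048 / 3 - 122448 / 125 * l + 164327 / 100 * l ^ 2) - 42 * (256 / 3 - 17067 / 100 * l + 42429 / 250 * l ^ 2)) +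
  63 / 1280 * z ^ 3 * ((w + 11 * z) * (5000 / 3 - 3179 * l + 12069 / 2 * l ^ 2) - 72 * (500 / 3 - 41667 / 100 * l + 471083 / 1000 * l ^ 2)) +
  77 / 2048 * z ^ 4 * ((w + 13 * z) * (3456 - 827103 / 100 * l + 179111 / 10 * l ^ 2) - 110 * (288 - 86401 / 100 * l + 1073933 / 1000 * l ^ 2))

theorem dpS0_ge_b {m z l : ℝ} (hm : 0 ≤ m) (hz : 0 ≤ z) (h0 : 0 ≤ l) (h1 : l ≤ 43 / 100) :
    -(l ^ 3 * z * kD_b (m * z) z l) ≤ dpS0 m z l := by
  have a2 := ks_h_two_b h0 h1
  have b2 := ks_p_two_b h0 h1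
  have a3 := ks_h_three_b h0 h1
  have b3 := ks_p_three_b h0 h1
  have a4 := ks_h_four_b h0 h1
  have b4 := ks_p_four_b h0 h1
  have a5 := ks_h_five_b h0 h1
  have b5 := ks_p_five_b h0 h1
  have a6 := ks_h_six_b h0 h1
  have b6 := ks_p_six_b h0 h1
  have c2 : 3 / 16 * z * (6 * (l ^ 3 * (32 / 3 - 1067 / 100 * l + 6587 / 1000 * l ^ 2)) - (m + 5) * z * (l ^ 3 * (128 / 3 - 8393 / 400 * l + 7667 / 250 * l ^ 2))) ≤
      3 / 16 * z * (3 * (2 - (m + 5) * z) * kpt (4 * l) - (m + 5) * z * kct (4 * l)) := by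
    apply mul_le_mul_of_nonneg_left _ (by positivity)
    have d1 := mul_le_mul_of_nonneg_left a2 (by (clear * - hm hz; positivity) : 0 ≤ (m + 5) * z)
    linear_combination 6 * b2 + d1
  have c3 : 5 / 48 * z ^ 2 * (20 * (l ^ 3 * (36 - 5401 / 100 * l + 44667 / 1000 * l ^ 2)) - (m + 7) * z * (l ^ 3 * (216 - 208771 / 1000 * l + 6279 / 20 * l ^ 2))) ≤
      5 / 48 * z ^ 2 * (5 * (4 - (m + 7) * z) * kpt (6 * l) - (m + 7) * z * kct (6 * l)) := by
    apply mul_le_mul_of_nonneg_left _ (by (clear * -; positivity))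
    have d1 := mul_le_mul_of_nonneg_left a3 (by positivity : 0 ≤ (m + 7) * z)
    linear_combination 20 * b3 + d1
  have c4 : 35 / 512 * z ^ 3 * (42 * (l ^ 3 * (256 / 3 - 17067 / 100 * l + 42429 / 250 * l ^ 2)) - (m + 9) * z * (l ^ 3 * (2048 / 3 - 122448 / 125 * l + 164327 / 100 * l ^ 2))) ≤
      35 / 512 * z ^ 3 * (7 * (6 - (m + 9) * z) * kpt (8 * l) - (m + 9) * z * kct (8 * l)) := by
    apply mul_le_mul_of_nonneg_left _ (by (clear * - hz; positivity))
    have d1 := mul_le_mul_of_nonneg_left a4 (by positivity : 0 ≤ (m + 9) * z)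
    linear_combination 42 * b4 + d1
  have c5 : 63 / 1280 * z ^ 4 * (72 * (l ^ 3 * (500 / 3 - 41667 / 100 * l + 471083 / 1000 * l ^ 2)) - (m + 11) * z * (l ^ 3 * (5000 / 3 - 3179 * l + 12069 / 2 * l ^ 2))) ≤
      63 / 1280 * z ^ 4 * (9 * (8 - (m + 11) * z) * kpt (10 * l) - (m + 11) * z * kct (10 * l)) := by
    apply mul_le_mul_of_nonneg_left _ (by (clear * -; positivity))
    have d1 := mul_le_mul_of_nonneg_left a5 (by positivity : 0 ≤ (m + 11) * z)
    linear_combination 72 * b5 + d1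
  have c6 : 77 / 2048 * z ^ 5 * (110 * (l ^ 3 * (288 - 86401 / 100 * l + 1073933 / 1000 * l ^ 2)) - (m + 13) * z * (l ^ 3 * (3456 - 827103 / 100 * l + 179111 / 10 * l ^ 2))) ≤
      77 / 2048 * z ^ 5 * (11 * (10 - (m + 13) * z) * kpt (12 * l) - (m + 13) * z * kct (12 * l)) := by
    apply mul_le_mul_of_nonneg_left _ (by (clear * - hz; positivity))
    have d1 := mul_le_mul_of_nonneg_left a6 (by positivity : 0 ≤ (m + 13) * z)
    linear_combination 110 * b6 + d1
  simp only [kD_b, dpS0]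
  linear_combination c2 + c3 + c4 + c5 + c6

def exK1_b (W : Ex) : Ex :=
  Ex.X * (Ex.c ⟨7, 0⟩ + Ex.c ⟨12, 0⟩ * exZ + Ex.c ⟨52, 0⟩ * (exZ * exZ)) + Ex.c ⟨3, 0⟩ * (W - Ex.c ⟨3, 0⟩ * exZ) -
  Ex.c ⟨9, 0⟩ * (Ex.X * Ex.X) - Ex.X * Ex.X * Ex.X * Ex.X * Ex.X * Ex.Y * (
    Ex.c ⟨3, 15⟩ * ((W + Ex.c ⟨5, 0⟩ * exZ) * (Ex.c ⟨128, 2⟩ + Ex.c ⟨-8393, 399⟩ * Ex.Y + Ex.c ⟨7667, 249⟩ * (Ex.Y * Ex.Y)) - Ex.c ⟨6, 0⟩ * (Ex.c ⟨32, 2⟩ + Ex.c ⟨-1067, 99⟩ * Ex.Y + Ex.c ⟨6587, 999⟩ * (Ex.Y * Ex.Y))) +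
    Ex.c ⟨5, 47⟩ * exZ * ((W + Ex.c ⟨7, 0⟩ * exZ) * (Ex.c ⟨216, 0⟩ + Ex.c ⟨-208771, 999⟩ * Ex.Y + Ex.c ⟨6279, 19⟩ * (Ex.Y * Ex.Y)) - Ex.c ⟨20, 0⟩ * (Ex.c ⟨36, 0⟩ + Ex.c ⟨-5401, 99⟩ * Ex.Y + Ex.c ⟨44667, 999⟩ * (Ex.Y * Ex.Y))) +
    Ex.c ⟨35, 511⟩ * exZ * exZ * ((W + Ex.c ⟨9, 0⟩ * exZ) * (Ex.c ⟨2048, 2⟩ + Ex.c ⟨-122448, 124⟩ * Ex.Y + Ex.c ⟨164327, 99⟩ * (Ex.Y * Ex.Y)) - Ex.c ⟨42, 0⟩ * (Ex.c ⟨256, 2⟩ + Ex.c ⟨-17067, 99⟩ * Ex.Y + Ex.c ⟨42429, 249⟩ * (Ex.Y * Ex.Y))) +
    Ex.c ⟨63, 1279⟩ * exZ * exZ * exZ * ((W + Ex.c ⟨11, 0⟩ * exZ) * (Ex.c ⟨5000, 2⟩ + Ex.c ⟨-3179, 0⟩ * Ex.Y + Ex.c ⟨12069, 1⟩ * (Ex.Y * Ex.Y)) - Ex.c ⟨72, 0⟩ * (Ex.c ⟨500, 2⟩ + Ex.c ⟨-41667, 99⟩ * Ex.Y + Ex.c ⟨471083, 999⟩ * (Ex.Y * Ex.Y))) +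
    Ex.c ⟨77, 2047⟩ * exZ * exZ * exZ * exZ * ((W + Ex.c ⟨13, 0⟩ * exZ) * (Ex.c ⟨3456, 0⟩ + Ex.c ⟨-827103, 99⟩ * Ex.Y + Ex.c ⟨179111, 9⟩ * (Ex.Y * Ex.Y)) - Ex.c ⟨110, 0⟩ * (Ex.c ⟨288, 0⟩ + Ex.c ⟨-86401, 99⟩ * Ex.Y + Ex.c ⟨1073933, 999⟩ * (Ex.Y * Ex.Y))))

theorem exK1_b_R (W : Ex) (s l : ℝ) : (exK1_b W).R s l =
    s * (7 + 12 * (1 - s ^ 2) + 52 * (1 - s ^ 2) ^ 2) +
      3 * (W.R s l - 3 * (1 - s ^ 2)) - 9 * s ^ 2 - s ^ 5 * l * kD_b (W.R s l) (1 - s ^ 2) l := by
  simp only [exK1_b, exZ, Ex.R_sub, Ex.R_add, Ex.R_mul, Ex.R_X, Ex.R_c, Fr.R, Ex.R_Y, kD_b]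
  push_cast
  ring

theorem exK1_b_0 : tchkE (2 ^ 1024) 40 4000 [[exK1_b (Ex.c ⟨25, 3⟩)]] (Ex.c ⟨0, 0⟩)
    (.leaf 0) 4 5 5 0 43 100 = true := by
  (clear * -; decide +kernel)

theorem exK1_b_1 : tchkE (2 ^ 1024) 40 4000 [[exK1_b (Ex.c ⟨9, 0⟩)]] (Ex.c ⟨0, 0⟩)
    (.sx (.leaf 0) (.sy (.leaf 0) (.sx (.leaf 0) (.sy (.leaf 0) (.sx (.leaf 0) (.leaf 0)))))) 4 5 5 0 43 100 = true := by
  (clear * -; decide +kernel)

theorem kK1_b {m z s l : ℝ} (hm : 0 ≤ m) (hz0 : 0 ≤ z) (hz : z ≤ 9 / 25) (hs : 0 < s)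
    (hsz : s ^ 2 = 1 - z) (h0 : 0 ≤ l) (h1 : l ≤ 43 / 100) (hw0 : 25 / 4 ≤ m * z) (hw1 : m * z ≤ 9) :
    -(z * (7 + 12 * z + 52 * z ^ 2) / (1 - z) ^ 2 * l ^ 2) ≤
      dpS0 m z l + (3 * (m - 3) * (z ^ 2 / s ^ 5) - 9 * (z / s ^ 3)) * l ^ 2 := by
  have hs1 : s ≤ 1 := by nlinarith only [hz0, hsz]
  have hs0 : 4 / 5 ≤ s := by nlinarith only [hz, hsz, hs]
  have e0 : 0 ≤ (exK1_b (Ex.c ⟨25, 3⟩)).R s l := by
    obtain ⟨i, hi⟩ := tchkE_sound (x := s) (y := l) (by simp [Ex.R_c, Fr.R]) _ _ _ _ _ _ _ (by norm_num) (by norm_num)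
      (by norm_num) (by norm_num) exK1_b_0 (by push_cast; linarith only [hs0]) (by push_cast; linarith only [hs1])
      (by push_cast; linarith only [h0]) (by push_cast; linarith only [h1])
    rcases i with _ | i
    · exact hi _ (by simp)
    · exfalso
      have := hi (Ex.c ⟨-1, 0⟩) (by simp)
      simp only [Int.reduceNeg, Ex.R_c, Fr.R, Int.cast_neg, Int.cast_one, CharP.cast_eq_zero, zero_add, div_one, Left.nonneg_neg_iff] at this
      linarith only [this]
  have e1 : 0 ≤ (exK1_b (Ex.c ⟨9, 0⟩)).R s l := by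
    obtain ⟨i, hi⟩ := tchkE_sound (x := s) (y := l) (by simp only [Ex.R_c, Fr.R, Int.cast_zero, CharP.cast_eq_zero, zero_add, div_one, Std.le_refl]) _ _ _ _ _ _ _ (by norm_num) (by norm_num)
      (by norm_num) (by norm_num) exK1_b_1 (by push_cast; linarith only [hs0]) (by push_cast; linarith only [hs1])
      (by push_cast; linarith only [h0]) (by push_cast; linarith only [h1])
    rcases i with _ | i
    · exact hi _ (by simp only [Int.reduceNeg, List.getD_eq_getElem?_getD, List.length_cons, List.length_nil, zero_add, Order.lt_one_iff, getElem?_pos, List.getElem_cons_zero, Option.getD_some, List.mem_cons, List.not_mem_nil, or_false])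
    · exfalso
      have := hi (Ex.c ⟨-1, 0⟩) (by simp)
      simp only [Int.reduceNeg, Ex.R_c, Fr.R, Int.cast_neg, Int.cast_one, CharP.cast_eq_zero, zero_add, div_one, Left.nonneg_neg_iff] at this
      linarith only [this]
  rw [exK1_b_R] at e0 e1
  simp only [Ex.R_c, Fr.R] at e0 e1
  rw [hsz] at e0 e1
  rw [show (1 : ℝ) - (1 - z) = z by ring] at e0 e1
  have hD := dpS0_ge_b hm hz0 h0 h1
  set w := m * z with hw
  have aff : 0 ≤ s * (7 + 12 * z + 52 * z ^ 2) + 3 * (w - 3 * z) - 9 * s ^ 2 -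
      s ^ 5 * l * kD_b w z l := by
    have i1 := mul_nonneg (sub_nonneg.2 hw1) e0
    have i2 := mul_nonneg (sub_nonneg.2 hw0) e1
    push_cast at i1 i2
    have i3 : (9 - 25 / 4) * (s * (7 + 12 * z + 52 * z ^ 2) + 3 * (w - 3 * z) -
        9 * s ^ 2 - s ^ 5 * l * kD_b w z l) =
        (9 - w) * (s * (7 + 12 * z + 52 * z ^ 2) + 3 * (25 / 4 - 3 * z) -
        9 * s ^ 2 - s ^ 5 * l * kD_b (25 / 4) z l) +
        (w - 25 / 4) * (s * (7 + 12 * z + 52 * z ^ 2) + 3 * (9 - 3 * z) -
        9 * s ^ 2 - s ^ 5 * l * kD_b (9) z l) := by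
      simp only [kD_b]
      ring
    norm_num at i1 i2 i3 ⊢
    linarith only [hsz, i1, i2, i3]
  have h2 := mul_nonneg (div_nonneg (mul_nonneg hz0 (sq_nonneg l)) (pow_pos hs 5).le) aff
  have h3 : z * l ^ 2 / s ^ 5 * (s * (7 + 12 * z + 52 * z ^ 2) + 3 * (w - 3 * z) - 9 * s ^ 2 -
      s ^ 5 * l * kD_b w z l) = z * (7 + 12 * z + 52 * z ^ 2) / (1 - z) ^ 2 * l ^ 2 +
      (3 * (m - 3) * (z ^ 2 / s ^ 5) - 9 * (z / s ^ 3)) * l ^ 2 - l ^ 3 * z * kD_b w z l := by
    rw [← hsz, hw]
    generalize kD_b (m * z) z l = K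
    field_simp
    ring
  rw [h3] at h2
  linear_combination hD + h2

/-- lower bound of `ksC / (s² z l)` -/
noncomputable def kQ_b (z l : ℝ) : ℝ :=
  3 / 4 * (-16 + 5213 / 125 * l - 29139 / 1000 * l ^ 2) + 5 / 8 * z * (-36 + 69843 / 500 * l - 58299 / 500 * l ^ 2) + 35 / 64 * z ^ 2 * (-64 + 30941 / 100 * l - 7107 / 25 * l ^ 2) + 63 / 128 * z ^ 3 * (-100 + 55479 / 100 * l - 27003 / 50 * l ^ 2) + 231 / 512 * z ^ 4 * (-144 + 21913 / 25 * l - 22144 / 25 * l ^ 2)

theorem ksC_ge_b {z s l : ℝ} (hz : 0 ≤ z) (h0 : 0 ≤ l) (h1 : l ≤ 43 / 100) :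
    s ^ 2 * z * l * kQ_b z l ≤ ksC z s l := by
  have c2 := mul_le_mul_of_nonneg_left (ks_e_two_b h0 h1) (by positivity : 0 ≤ s ^ 2 * (3 / 4 * z))
  have c3 := mul_le_mul_of_nonneg_left (ks_e_three_b h0 h1) (by (clear * -; positivity) : 0 ≤ s ^ 2 * (5 / 8 * z ^ 2))
  have c4 := mul_le_mul_of_nonneg_left (ks_e_four_b h0 h1) (by positivity : 0 ≤ s ^ 2 * (35 / 64 * z ^ 3))
  have c5 := mul_le_mul_of_nonneg_left (ks_e_five_b h0 h1) (by positivity : 0 ≤ s ^ 2 * (63 / 128 * z ^ 4))
  have c6 := mul_le_mul_of_nonneg_left (ks_e_six_b h0 h1) (by positivity : 0 ≤ s ^ 2 * (231 / 512 * z ^ 5))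
  simp only [ksC, kQ_b]
  linear_combination c2 + c3 + c4 + c5 + c6

def exK2_b : Ex :=
  Ex.c ⟨2, 0⟩ * (Ex.X * Ex.X) * (Ex.c ⟨2, 0⟩ + Ex.c ⟨4, 0⟩ * Ex.X + Ex.c ⟨2, 0⟩ * (Ex.X * Ex.X) +
    Ex.X * Ex.X * Ex.X) - Ex.c ⟨6, 0⟩ * Ex.Y * ((Ex.c ⟨1, 0⟩ + Ex.X) * (Ex.c ⟨1, 0⟩ + Ex.X)) +
  Ex.X * Ex.X * Ex.X * Ex.X * Ex.X * ((Ex.c ⟨1, 0⟩ + Ex.X) * (Ex.c ⟨1, 0⟩ + Ex.X)) *
    (Ex.Y * (Ex.c ⟨3, 3⟩ * (Ex.c ⟨-16, 0⟩ + Ex.c ⟨5213, 124⟩ * Ex.Y + Ex.c ⟨-29139, 999⟩ * (Ex.Y * Ex.Y)) + Ex.c ⟨5, 7⟩ * exZ * (Ex.c ⟨-36, 0⟩ + Ex.c ⟨69843, 499⟩ * Ex.Y + Ex.c ⟨-58299, 499⟩ * (Ex.Y * Ex.Y)) + Ex.c ⟨35, 63⟩ * exZ * exZ * (Ex.c ⟨-64, 0⟩ + Ex.c ⟨30941, 99⟩ * Ex.Y + Ex.c ⟨-7107, 24⟩ * (Ex.Y * Ex.Y)) + Ex.c ⟨63, 127⟩ * exZ * exZ * exZ * (Ex.c ⟨-100, 0⟩ + Ex.c ⟨55479, 99⟩ * Ex.Y + Ex.c ⟨-27003, 49⟩ * (Ex.Y * Ex.Y)) + Ex.c ⟨231, 511⟩ * exZ * exZ * exZ * exZ * (Ex.c ⟨-144, 0⟩ + Ex.c ⟨21913, 24⟩ * Ex.Y + Ex.c ⟨-22144, 24⟩ * (Ex.Y * Ex.Y))) -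
      Ex.c ⟨9, 1⟩ * (Ex.c ⟨1, 0⟩ - Ex.c ⟨4, 0⟩ * Ex.Y + Ex.c ⟨47, 9⟩ * (Ex.Y * Ex.Y)))

theorem exK2_b_R (s l : ℝ) : exK2_b.R s l =
    2 * s ^ 2 * (2 + 4 * s + 2 * s ^ 2 + s ^ 3) - 6 * l * (1 + s) ^ 2 +
      s ^ 5 * (1 + s) ^ 2 * (l * kQ_b (1 - s ^ 2) l - 9 / 2 * (1 - 4 * l + 47 / 10 * l ^ 2)) := by
  simp only [exK2_b, exZ, Ex.R_add, Ex.R_sub, Ex.R_mul, Ex.R_c, Ex.R_X, Ex.R_Y, Fr.R, kQ_b]
  push_cast
  ring

theorem exK2_b_chk : tchkE (2 ^ 1024) 40 4000 [[exK2_b]] (Ex.c ⟨0, 0⟩)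
    (.sx (.sy (.leaf 0) (.leaf 0)) (.leaf 0)) 4 5 5 0 43 100 = true := by
  (clear * -; decide +kernel)

theorem kK2_b {z s l : ℝ} (hz0 : 0 ≤ z) (hz : z ≤ 9 / 25) (hs : 0 < s)
    (hsz : s ^ 2 = 1 - z) (h0 : 0 ≤ l) (h1 : l ≤ 43 / 100) :
    9 / 2 * z * (1 - z) * (1 - 4 * l + 47 / 10 * l ^ 2) ≤
      4 / s - 4 * s / (1 + s) - 2 * s ^ 2 - 6 * (z / s ^ 3) * l + ksC z s l := by
  have hs1 : s ≤ 1 := by nlinarith only [hz0, hsz]
  have hs0 : 4 / 5 ≤ s := by nlinarith only [hz, hsz, hs]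
  have e0 : 0 ≤ exK2_b.R s l := by
    obtain ⟨i, hi⟩ := tchkE_sound (x := s) (y := l) (by simp [Ex.R_c, Fr.R]) _ _ _ _ _ _ _ (by norm_num) (by norm_num)
      (by norm_num) (by norm_num) exK2_b_chk (by push_cast; linarith only [hs0]) (by push_cast; linarith only [hs1])
      (by push_cast; linarith only [h0]) (by push_cast; linarith only [h1])
    rcases i with _ | i
    · exact hi _ (by simp only [Int.reduceNeg, List.getD_eq_getElem?_getD, List.length_cons, List.length_nil, zero_add, Order.lt_one_iff, getElem?_pos, List.getElem_cons_zero, Option.getD_some, List.mem_cons, List.not_mem_nil, or_false])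
    · exfalso
      have := hi (Ex.c ⟨-1, 0⟩) (by simp)
      simp only [Int.reduceNeg, Ex.R_c, Fr.R, Int.cast_neg, Int.cast_one, CharP.cast_eq_zero, zero_add, div_one, Left.nonneg_neg_iff] at this
      linarith only [this]
  rw [exK2_b_R] at e0
  have hQ := ksC_ge_b (s := s) hz0 h0 h1
  have hz' : z = 1 - s ^ 2 := by linarith only [hsz]
  subst hz'
  have h2 := mul_nonneg (div_nonneg (sub_nonneg.2 hs1) (mul_pos (pow_pos hs 3) (by linarith only [hs] : 0 < 1 + s)).le) e0
  have h3 : (1 - s) / (s ^ 3 * (1 + s)) * (2 * s ^ 2 * (2 + 4 * s + 2 * s ^ 2 + s ^ 3) - 6 * l * (1 + s) ^ 2 +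
      s ^ 5 * (1 + s) ^ 2 * (l * kQ_b (1 - s ^ 2) l - 9 / 2 * (1 - 4 * l + 47 / 10 * l ^ 2))) =
      4 / s - 4 * s / (1 + s) - 2 * s ^ 2 - 6 * ((1 - s ^ 2) / s ^ 3) * l +
      s ^ 2 * (1 - s ^ 2) * l * kQ_b (1 - s ^ 2) l -
      9 / 2 * (1 - s ^ 2) * (1 - (1 - s ^ 2)) * (1 - 4 * l + 47 / 10 * l ^ 2) := by
    generalize kQ_b (1 - s ^ 2) l = K
    have : (1 : ℝ) + s ≠ 0 := by linarith only [hs]
    field_simp
    ring
  rw [h3] at h2
  linear_combination hQ + h2

/-- the whole kernel part -/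
theorem kK_b {m z s l W : ℝ} (hm : 0 ≤ m) (hz0 : 0 ≤ z) (hz : z ≤ 9 / 25) (hs : 0 < s)
    (hsz : s ^ 2 = 1 - z) (h0 : 0 ≤ l) (h1 : l ≤ 43 / 100) (hw0 : 25 / 4 ≤ m * z)
    (hw1 : m * z ≤ 9) (hW : 0 ≤ W) :
    -(z * (7 + 12 * z + 52 * z ^ 2) / (1 - z) ^ 2 * l ^ 2) +
      9 / 2 * z * (1 - z) * (1 - 4 * l + 47 / 10 * l ^ 2) * W ≤
      (3 * (m - 3) * (z ^ 2 / s ^ 5) - 9 * (z / s ^ 3)) * l ^ 2 +
      (4 / s - 4 * s / (1 + s) - 2 * s ^ 2 - 6 * (z / s ^ 3) * l) * W + dpS m z s l W := by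
  have a1 := kK1_b hm hz0 hz hs hsz h0 h1 hw0 hw1
  have a2 := mul_le_mul_of_nonneg_right (kK2_b hz0 hz hs hsz h0 h1) hW
  rw [dpS_eq]
  linear_combination a1 + a2

end Vale.Agent.P237.AllN
end
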