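import Mathlib
import Vale.Agent.P237.Bd3.B4
import Vale.Agent.P237.Bd3.B13
import Vale.Agent.P237.Bd3.B7
import Vale.Agent.P237.Bd3.B8
import Vale.Agent.P237.Bd3.B1
import Vale.Agent.P237.Bd3.B6
import Vale.Agent.P237.Bd3.B12
import Vale.Agent.P237.Bd3.B3

set_option linter.all false

section

/-!
# P237, plain certificate: kernel checks for `m = 12`
-/

namespace Vale.Agent.P237.AllN

open PolyPos

/-- data of the certificate, `m = 12` -/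
def D12 : Dat := ⟨⟨12, ⟨3, 4⟩, ⟨51, 199⟩, ⟨509, 999⟩, ⟨6, 4⟩, ⟨16, 124⟩, ⟨37, 99⟩, ⟨49, 9999⟩, ⟨1, 999⟩, ⟨1, 999⟩⟩,
  ⟨677, 499⟩, ⟨563, 9999⟩, ⟨1, 9⟩, ⟨529, 499⟩, ⟨153, 249⟩, ⟨187, 499⟩, ⟨519, 9999⟩, ⟨4801, 4999⟩, 6, 463, 1528, 887, 1354, 2 ^ 1024, 40⟩

theorem chk12_LP :
    D12.kLP (.leaf 0) = true := by
  decide +kernel

theorem chk12_LM :
    D12.kLM (.sx (.leaf 0) (.sy (.leaf 0) (.sx (.leaf 0) (.sy (.leaf 0) .out)))) = true := by
  decide +kernel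

theorem chk12_RMT0 :
    D12.kRM D12.rbT 12 0 887 250 1000 (.sx (.leaf 0) (.leaf 0)) = true := by
  decide +kernel

theorem chk12_RMt0 :
    D12.kRM D12.rbG 12 0 887 6 250 (.sx (.leaf 0) (.leaf 0)) = true := by
  decide +kernel

theorem chk12_RMc0 :
    D12.kRM D12.rbC 12 0 887 0 6 (.sx (.leaf 0) (.leaf 0)) = true := by
  decide +kernel

theorem chk12_RP1 :
    D12.kRP1 (.sx (.leaf 0) (.sy (.sx (.leaf 0) (.sy (.sx (.sy (.sx (.leaf 0) .out) (.leaf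
    0)) (.sy .out (.leaf 0))) (.leaf 0))) (.leaf 0))) = true := by
  decide +kernel

theorem chk12_RP2 :
    D12.kRP2 (.sx (.sy (.sx (.sy .out (.leaf 0)) .out) (.leaf 0)) (.sy .out (.sx (.leaf 0)
    .out))) = true := by
  decide +kernel

theorem chk12_RS :
    D12.kRS (.leaf 1) = true := by
  decide +kernel

end Vale.Agent.P237.AllN
end

section

/-!
# P237, block D, `l > 0`, `m z ≤ 1`: `u ≤ 0` (algebra)
-/

namespace Vale.Agent.P237.AllN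

theorem pa_W_le {M u : ℝ} (hM : M ≤ 1) (hM0 : 0 < M) (hu0 : u ≤ 0) (hu2 : -(M / 2) ≤ u) :
    u ^ 2 / (1 + u) ≤ M ^ 2 / 2 := by
  have h1 : 1 / 2 ≤ 1 + u := by linarith only [hM, hu2]
  rw [div_le_iff₀ (by linarith only [hM, hu2])]
  have h2 : u ^ 2 ≤ M ^ 2 / 4 := by linarith [mul_nonneg (sub_nonneg.2 hu2) (sub_nonneg.2 hu0), mul_nonneg (sub_nonneg.2 hu2) (sub_nonneg.2 hu2)]
  have h3 : M ^ 2 / 2 * (1 / 2) ≤ M ^ 2 / 2 * (1 + u) :=
    mul_le_mul_of_nonneg_left h1 (by positivity)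
  linarith only [h2, h3]

theorem pa_usq_le {u : ℝ} (hu : 0 < 1 + u) (hu0 : u ≤ 0) : u ^ 2 ≤ u ^ 2 / (1 + u) := by
  rw [le_div_iff₀ hu]
  linarith only [mul_nonneg (sq_nonneg (u : ℝ)) (sub_nonneg.2 hu0)]

/-- the coefficient of `l²` -/
theorem pa_Aneg {M l : ℝ} (hM0 : 0 < M) (hM : M ≤ 1) (hl0 : 0 ≤ l) (hl : l ≤ 1 / 2)
    (hl1 : 16 / 25 ≤ M → l ≤ 2 / 5) :
    5 / 4 * ((0.0417 + 0.8832 * l) ^ 2 * M) ≤ 0.14346 + 0.1384 * M := by
  rcases le_total (16 / 25) M with h | h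
  · have h1 : 0.0417 + 0.8832 * l ≤ 0.39498 := by
      have := hl1 h
      norm_num
      linarith
    have h2 : (0.0417 + 0.8832 * l) ^ 2 ≤ 0.39498 ^ 2 :=
      pow_le_pow_left₀ (by positivity) h1 2
    have h3 := mul_le_mul_of_nonneg_right h2 hM0.le
    norm_num at h3 ⊢
    linarith only [hM, h3]
  · have h1 : 0.0417 + 0.8832 * l ≤ 0.4833 := by
      norm_num
      linarith only [hl]
    have h2 : (0.0417 + 0.8832 * l) ^ 2 ≤ 0.4833 ^ 2 :=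
      pow_le_pow_left₀ (by positivity) h1 2
    have h3 := mul_le_mul_of_nonneg_right h2 hM0.le
    norm_num at h3 ⊢
    linarith only [h3, h]

/-- the part `P` for `u ≤ 0` -/
theorem pa_Pneg {M l W ρ : ℝ} (hM0 : 0 < M) (hM : M ≤ 1) (hl0 : 0 ≤ l)
    (hl : l ≤ 1 / 2) (hl1 : 16 / 25 ≤ M → l ≤ 2 / 5)
    (hW0 : 0 ≤ W) (hW : W ≤ M ^ 2 / 2) (hρ : 0.2 + 0.5 * M ≤ ρ) :
    M * ((0.0417 + 0.8832 * l) * l) + 0.13 * W < ρ ∧
    (M * ((0.0417 + 0.8832 * l) * l) + 0.13 * W) ^ 2 ≤ 9 / 10 * ((0.797 * (M * l ^ 2) + 0.33 * W) *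
      (ρ - (M * ((0.0417 + 0.8832 * l) * l) + 0.13 * W))) := by
  have hA := pa_Aneg hM0 hM hl0 hl hl1
  have hM2 : M ^ 2 ≤ M := by nlinarith only [hM0, hM]
  have hAl : (0.0417 + 0.8832 * l) * l ≤ 0.2417 := by
    have h1 : 0.0417 + 0.8832 * l ≤ 0.4833 := by norm_num; linarith only [hl]
    have h2 := mul_le_mul h1 hl hl0 (by norm_num)
    norm_num at h2 ⊢
    linarith only [h2]
  generalize 0.0417 + 0.8832 * l = A at hA hAl ⊢
  have hMl : 0 ≤ M * l ^ 2 := by (clear * - hM0; positivity)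
  have hP1 : M * (A * l) + 0.13 * W ≤ 0.307 * M := by
    have h1 := mul_le_mul_of_nonneg_left hAl hM0.le
    have h2 : W ≤ M / 2 := by linarith only [hW, hM2]
    norm_num at h1 ⊢
    linarith only [hM0, hW, hM2, h1]
  have hρP : 0.2 + 0.193 * M ≤ ρ - (M * (A * l) + 0.13 * W) := by
    norm_num at hP1 hρ ⊢
    linarith only [hP1, hρ]
  constructor
  · norm_num at hρP ⊢
    linarith only [hM0, hρ, hP1]
  have hT0 : 0 ≤ 0.797 * (M * l ^ 2) + 0.33 * W := by (clear * - hM0 hW0; positivity)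
  have h1 := mul_le_mul_of_nonneg_left hρP hT0
  have h2 : (M * (A * l) + 0.13 * W) ^ 2 ≤ 5 / 4 * (M * (A * l)) ^ 2 + 5 * (0.13 * W) ^ 2 := by
    have := sq_nonneg (M * (A * l) - 4 * (0.13 * W))
    linarith only [this]
  have h3 : 5 / 4 * (M * (A * l)) ^ 2 ≤ M * l ^ 2 * (0.14346 + 0.1384 * M) := by
    have e : 5 / 4 * (M * (A * l)) ^ 2 = M * l ^ 2 * (5 / 4 * (A ^ 2 * M)) := by ring
    rw [e]
    exact mul_le_mul_of_nonneg_left hA hMl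
  have h4 : 5 * (0.13 * W) ^ 2 ≤ 0.0423 * W := by
    have h5 : W * W ≤ W * (M ^ 2 / 2) := mul_le_mul_of_nonneg_left hW hW0
    have h6 : W * (M ^ 2 / 2) ≤ W * (1 / 2) :=
      mul_le_mul_of_nonneg_left (by linarith only [hM, hM2]) hW0
    norm_num
    nlinarith only [h5, h6]
  have hWM : 0 ≤ W * M := by positivity
  have e5 : 9 / 10 * ((0.797 * (M * l ^ 2) + 0.33 * W) * (0.2 + 0.193 * M)) =
      M * l ^ 2 * (0.14346 + 0.1384 * M) + 0.0594 * W + 0.057321 * (W * M) +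
      0.0000389 * (M * (M * l ^ 2)) := by ring
  have h8 : 0 ≤ M * (M * l ^ 2) := by (clear * - hM0; positivity)
  have h9 : 5 / 4 * (M * (A * l)) ^ 2 + 5 * (0.13 * W) ^ 2 ≤
      9 / 10 * ((0.797 * (M * l ^ 2) + 0.33 * W) * (0.2 + 0.193 * M)) := by
    rw [e5]
    norm_num at h3 h4 ⊢
    linarith only [hW0, hWM, h8, h3, h4]
  linarith only [hW0, h1, h2, h3, h4, hWM, h8]

/-- the part `E` for `u ≤ 0` -/
theorem pa_Eneg {M z l W ρ v : ℝ} (hM0 : 0 < M) (hM : M ≤ 1) (hz0 : 0 < z)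
    (hz : z ≤ 1 / 25 * M) (hl0 : 0 ≤ l) (hl : l ≤ 1 / 2) (hv0 : 0 ≤ v) (hv : v ≤ M / 2)
    (hvW : v ^ 2 ≤ W) (hρ : 0.2 + 0.5 * M ≤ ρ) :
    62 / 1000 * (z * l) + 3.042 * (z * v) < ρ ∧
    (62 / 1000 * (z * l) + 3.042 * (z * v)) ^ 2 ≤
      9 / 10 * ((0.797 * (M * l ^ 2) + 0.33 * W) *
      (ρ - (62 / 1000 * (z * l) + 3.042 * (z * v)))) := by
  have hz1 : z ≤ 1 / 25 := by linarith only [hM, hz]
  have h1 : z * l ≤ 1 / 25 * M * (1 / 2) := mul_le_mul hz hl hl0 (by positivity)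
  have h2 : z * v ≤ 1 / 25 * (M / 2) := mul_le_mul hz1 hv hv0 (by norm_num)
  have hE : 62 / 1000 * (z * l) + 3.042 * (z * v) ≤ 0.07 * M := by
    norm_num
    linarith only [hz0, hz, h1, h2]
  have hρE : 0.2 ≤ ρ - (62 / 1000 * (z * l) + 3.042 * (z * v)) := by
    norm_num at hE hρ ⊢
    linarith only [hz0, hz, h1, h2, hρ]
  have hW0 : 0 ≤ W := (sq_nonneg v).trans hvW
  constructor
  · norm_num at hρE ⊢
    linarith only [h2, h1, hρ, hz, hz0]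
  have hT0 : 0 ≤ 0.797 * (M * l ^ 2) + 0.33 * W := by (clear * - hM0 hW0; positivity)
  have h3 := mul_le_mul_of_nonneg_left hρE hT0
  have h4 : (62 / 1000 * (z * l) + 3.042 * (z * v)) ^ 2 ≤
      2 * (62 / 1000 * (z * l)) ^ 2 + 2 * (3.042 * (z * v)) ^ 2 := by
    have := sq_nonneg (62 / 1000 * (z * l) - 3.042 * (z * v))
    linarith only [this]
  have hz2 : z ^ 2 ≤ 1 / 625 * M := by nlinarith only [hM, hz, hz0]
  have hz2' : z ^ 2 ≤ 1 / 625 := by linarith only [hz2, hM]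
  have h5 : (z * l) ^ 2 ≤ 1 / 625 * (M * l ^ 2) := by
    have := mul_le_mul_of_nonneg_right hz2 (sq_nonneg l)
    nlinarith only [this]
  have h6 : (z * v) ^ 2 ≤ 1 / 625 * W := by
    have := mul_le_mul hz2' hvW (sq_nonneg v) (by norm_num)
    linarith only [this]
  have hMl : 0 ≤ M * l ^ 2 := by (clear * - hM0; positivity)
  have e1 : (62 / 1000 * (z * l)) ^ 2 = 961 / 250000 * (z * l) ^ 2 := by ring
  have e2 : (3.042 * (z * v)) ^ 2 = 9.253764 * (z * v) ^ 2 := by ring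
  rw [e1, e2] at h4
  norm_num at h3 h4 ⊢
  linarith only [hT0, h5, h6, hMl, h3, h4]

/-- algebraic end of the case `u ≤ 0` -/
theorem pa_fin3 {M z l u T e ρ : ℝ} (hM0 : 0 < M) (hM : M ≤ 1) (hz0 : 0 < z)
    (hz : z ≤ 1 / 25 * M) (hl0 : 0 ≤ l) (hl : l ≤ 1 / 2) (hl1 : 16 / 25 ≤ M → l ≤ 2 / 5)
    (hu0 : u ≤ 0) (hu2 : -(M / 2) ≤ u)
    (hT' : 0.797 * (M * l ^ 2) + 0.33 * (u ^ 2 / (1 + u)) ≤ T)
    (hP' : e - T ≤ M * ((0.0417 + 0.8832 * l) * l) + 0.13 * (u ^ 2 / (1 + u)))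
    (he : -(62 / 1000 * (z * l) + 3.042 * (z * -u)) ≤ e)
    (hρ : 0.2 + 0.5 * M ≤ ρ) : JTest T e ρ u := by
  have hu : 0 < 1 + u := by linarith only [hM, hu2]
  have hW0 : 0 ≤ u ^ 2 / (1 + u) := by (clear * - hu; positivity)
  have hWle := pa_W_le hM hM0 hu0 hu2
  have hvW : (-u) ^ 2 ≤ u ^ 2 / (1 + u) := by
    rw [neg_sq]; exact pa_usq_le hu hu0
  obtain ⟨p1, p2⟩ := pa_Pneg hM0 hM hl0 hl hl1 hW0 hWle hρ
  obtain ⟨q1, q2⟩ := pa_Eneg hM0 hM hz0 hz hl0 hl (by linarith only [hu0] : 0 ≤ -u) (by linarith only [hu2]) hvW hρ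
  have hMl : 0 ≤ M * l ^ 2 := by (clear * - hM0; positivity)
  refine JTest.of_bounds (θ := 9 / 10) hT' (by (clear * - hM0 hu; positivity)) (fun hu' => ?_) (by norm_num) hP'
    (by (clear * - hM0 hl0 hu; positivity)) p1 p2 he ?_ q1 q2
  · have h1 : 0 < u ^ 2 := by positivity
    positivity
  · have h1 : 0 ≤ z * -u := mul_nonneg hz0.le (by linarith only [hu0])
    (clear * - hz0 hl0 h1; positivity)

end Vale.Agent.P237.AllN
end

section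

/-!
# P237, block D, region `l ≤ 0`, part 3: numerical inequalities
-/

set_option linter.all false

namespace Vale.Agent.P237.AllN
namespace FNeg


theorem regA0 {η : ℝ} (h0 : 0 ≤ η) (h1 : η ≤ 0.6) :
    0 ≤ 0.038 + 1.425 * η + 3.705 * η ^ 2 - 0.69445 * (η ^ 2 * (9 - 10.8 * η + 10.44 * η ^ 2))
      - 0.20699 * (η * (1 + η)) - η * (1 + η) / 18 * ((η / 4 + 1 / 30) ^ 2 + 6.4827) := by
  have h2 : 0 ≤ 0.6 - η := by linarith
  nlinarith only [h0, mul_nonneg (mul_nonneg (mul_nonneg h0 h0) h0) h2]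

theorem regA1 {η : ℝ} (h0 : 0 ≤ η) (h1 : η ≤ 0.6) :
    0 ≤ 0.038 + 1.425 * η + 3.705 * η ^ 2
      - 0.69445 * (η ^ 2 * (9 - 10.8 * η + 10.44 * η ^ 2)) * (1 - (0.322 + 0.465 * η))
      - 0.20699 * (η * (1 + η)) - η * (1 + η) / 18 * ((6.54 * (0.322 + 0.465 * η) + (η / 4 + 1 / 30)) ^ 2 + 6.4827) := by
  have h2 : 0 ≤ 0.6 - η := by linarith
  nlinarith only [mul_nonneg (mul_nonneg (mul_nonneg h0 h0) h0) h2, mul_nonneg h0 (sq_nonneg (η * (η - 0.5)))]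

theorem regA {η w : ℝ} (h0 : 0 ≤ η) (h1 : η ≤ 0.6) (hw0 : 0 ≤ w) (hw : w ≤ 0.322 + 0.465 * η) :
    0.69445 * (η ^ 2 * (9 - 10.8 * η + 10.44 * η ^ 2)) * (1 - w) + 0.20699 * (η * (1 + η))
      + η * (1 + η) / 18 * ((6.54 * w + (η / 4 + 1 / 30)) ^ 2 + 6.4827)
      ≤ 0.038 + 1.425 * η + 3.705 * η ^ 2 := by
  have hA := regA0 h0 h1
  have hB := regA1 h0 h1
  set wm := 0.322 + 0.465 * η with hwm
  have hwmp : 0 < wm := by rw [hwm]; positivity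
  set Q := 0.69445 * (η ^ 2 * (9 - 10.8 * η + 10.44 * η ^ 2)) with hQ
  set C := η * (1 + η) / 18 with hC
  have hC0 : 0 ≤ C := by rw [hC]; (clear * - h0; positivity)
  set r := η / 4 + 1 / 30 with hr
  have hr0 : 0 ≤ r := by rw [hr]; (clear * - h0; positivity)
  set S := 0.038 + 1.425 * η + 3.705 * η ^ 2 - 0.20699 * (η * (1 + η)) with hS
  have e : wm * (S - Q * (1 - w) - C * ((6.54 * w + r) ^ 2 + 6.4827))
      = (wm - w) * (S - Q - C * (r ^ 2 + 6.4827)) + w * (S - Q * (1 - wm) - C * ((6.54 * wm + r) ^ 2 + 6.4827))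
        + C * 6.54 ^ 2 * w * wm * (wm - w) := by ring
  have hA' : 0 ≤ S - Q - C * (r ^ 2 + 6.4827) := by rw [hS]; linarith only [hA]
  have hB' : 0 ≤ S - Q * (1 - wm) - C * ((6.54 * wm + r) ^ 2 + 6.4827) := by rw [hS]; linarith only [hB]
  have hfin : 0 ≤ wm * (S - Q * (1 - w) - C * ((6.54 * w + r) ^ 2 + 6.4827)) := by
    rw [e]
    have h5 := mul_nonneg (by linarith only [hw] : 0 ≤ wm - w) hA'
    have h6 := mul_nonneg hw0 hB'
    have h7 : 0 ≤ C * 6.54 ^ 2 * w * wm * (wm - w) := by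
      have : 0 ≤ wm - w := by linarith only [hw]
      (clear * - h0 hw0 hw; positivity)
    linarith only [h5, h6, h7]
  have := nonneg_of_mul_nonneg_right hfin hwmp
  rw [hS] at this
  linarith only [this]

/-- region B1: `η ≥ 0.6`, `w ≤ 0.3` -/
theorem regB1 {η : ℝ} (h0 : 0.6 ≤ η) :
    0.69445 * (η * (3 + η) / (1 + η)) ^ 2 + 0.20699 * (η * (1 + η))
      + η * (1 + η) / 18 * ((6.54 * 0.3 + 1) ^ 2 + 3)
      ≤ 0.038 + 1.425 * η + 3.705 * η ^ 2 := by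
  have h1 : 0 < 1 + η := by linarith only [h0]
  have e : 0.038 + 1.425 * η + 3.705 * η ^ 2 - (0.69445 * (η * (3 + η) / (1 + η)) ^ 2 + 0.20699 * (η * (1 + η))
      + η * (1 + η) / 18 * ((6.54 * 0.3 + 1) ^ 2 + 3))
      = ((0.038 + 1.425 * η + 3.705 * η ^ 2 - 0.20699 * (η * (1 + η))
      - η * (1 + η) / 18 * ((6.54 * 0.3 + 1) ^ 2 + 3)) * (1 + η) ^ 2 - 0.69445 * (η * (3 + η)) ^ 2) / (1 + η) ^ 2 := by
    field_simp
    ring
  have h2 : 0 ≤ ((0.038 + 1.425 * η + 3.705 * η ^ 2 - 0.20699 * (η * (1 + η))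
      - η * (1 + η) / 18 * ((6.54 * 0.3 + 1) ^ 2 + 3)) * (1 + η) ^ 2 - 0.69445 * (η * (3 + η)) ^ 2) := by
    obtain ⟨t, ht, rfl⟩ : ∃ t : ℝ, 0 ≤ t ∧ η = 0.6 + t := ⟨η - 0.6, by linarith only [h0], by ring⟩
    have : 0 ≤ t ^ 2 := by (clear * -; positivity)
    have : 0 ≤ t ^ 3 := by positivity
    have : 0 ≤ t ^ 4 := by positivity
    (clear h0 h1 e; nlinarith)
  have h3 := div_nonneg h2 (by positivity : 0 ≤ (1 + η) ^ 2)
  rw [← e] at h3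
  linarith only [h3]

theorem regB2a {η : ℝ} (h0 : 0.6 ≤ η) (h1' : η ≤ 1.3) :
    0.69445 * (η * (3 + η) / (1 + η)) ^ 2 * 0.7 + 0.20699 * (η * (1 + η))
      + η * (1 + η) / 18 * ((3.74 + 0.36) ^ 2 + 3)
      ≤ 0.038 + 1.425 * η + 3.705 * η ^ 2 := by
  have h1 : 0 < 1 + η := by linarith only [h0]
  have e : 0.038 + 1.425 * η + 3.705 * η ^ 2 - (0.69445 * (η * (3 + η) / (1 + η)) ^ 2 * 0.7 + 0.20699 * (η * (1 + η))
      + η * (1 + η) / 18 * ((3.74 + 0.36) ^ 2 + 3))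
      = ((0.038 + 1.425 * η + 3.705 * η ^ 2 - 0.20699 * (η * (1 + η))
      - η * (1 + η) / 18 * ((3.74 + 0.36) ^ 2 + 3)) * (1 + η) ^ 2 - 0.69445 * (η * (3 + η)) ^ 2 * 0.7) / (1 + η) ^ 2 := by
    field_simp
    ring
  have h2 : 0 ≤ ((0.038 + 1.425 * η + 3.705 * η ^ 2 - 0.20699 * (η * (1 + η))
      - η * (1 + η) / 18 * ((3.74 + 0.36) ^ 2 + 3)) * (1 + η) ^ 2 - 0.69445 * (η * (3 + η)) ^ 2 * 0.7) := by
    obtain ⟨t, ht, rfl⟩ : ∃ t : ℝ, 0 ≤ t ∧ η = 0.6 + t := ⟨η - 0.6, by linarith only [h0], by ring⟩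
    have : 0 ≤ t ^ 2 := by (clear * -; positivity)
    have : 0 ≤ t ^ 3 := by (clear * - ht; positivity)
    have : 0 ≤ t ^ 4 := by (clear * -; positivity)
    nlinarith
  have h3 := div_nonneg h2 (by positivity : 0 ≤ (1 + η) ^ 2)
  rw [← e] at h3
  linarith only [h3]

theorem regB2b {η : ℝ} (h0 : 1.3 ≤ η) :
    0.69445 * (η * (3 + η) / (1 + η)) ^ 2 * 0.7 + 0.20699 * (η * (1 + η))
      + η * (1 + η) / 18 * ((3.74 + 1) ^ 2 + 3)
      ≤ 0.038 + 1.425 * η + 3.705 * η ^ 2 := by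
  have h1 : 0 < 1 + η := by linarith
  have e : 0.038 + 1.425 * η + 3.705 * η ^ 2 - (0.69445 * (η * (3 + η) / (1 + η)) ^ 2 * 0.7 + 0.20699 * (η * (1 + η))
      + η * (1 + η) / 18 * ((3.74 + 1) ^ 2 + 3))
      = ((0.038 + 1.425 * η + 3.705 * η ^ 2 - 0.20699 * (η * (1 + η))
      - η * (1 + η) / 18 * ((3.74 + 1) ^ 2 + 3)) * (1 + η) ^ 2 - 0.69445 * (η * (3 + η)) ^ 2 * 0.7) / (1 + η) ^ 2 := by
    field_simp
    ring
  have h2 : 0 ≤ ((0.038 + 1.425 * η + 3.705 * η ^ 2 - 0.20699 * (η * (1 + η))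
      - η * (1 + η) / 18 * ((3.74 + 1) ^ 2 + 3)) * (1 + η) ^ 2 - 0.69445 * (η * (3 + η)) ^ 2 * 0.7) := by
    obtain ⟨t, ht, rfl⟩ : ∃ t : ℝ, 0 ≤ t ∧ η = 1.3 + t := ⟨η - 1.3, by linarith only [h0], by ring⟩
    have : 0 ≤ t ^ 2 := by (clear * -; positivity)
    have : 0 ≤ t ^ 3 := by positivity
    have : 0 ≤ t ^ 4 := by positivity
    (clear h0 h1 e; nlinarith)
  have h3 := div_nonneg h2 (by positivity : 0 ≤ (1 + η) ^ 2)
  rw [← e] at h3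
  linarith only [h3]


theorem cs3 {x z P Q X Z : ℝ} (hP : 0 ≤ P) (hQ : 0 ≤ Q) (hX : 0 ≤ X) (hZ : 0 ≤ Z)
    (h1 : x ^ 2 ≤ P * X) (h2 : z ^ 2 ≤ Q * Z) : (x + z) ^ 2 ≤ (P + Q) * (X + Z) := by
  have h3 : (x * z) ^ 2 ≤ (P * Z) * (Q * X) := by
    have : (x * z) ^ 2 = x ^ 2 * z ^ 2 := by ring
    rw [this]
    calc x ^ 2 * z ^ 2 ≤ (P * X) * (Q * Z) := mul_le_mul h1 h2 (sq_nonneg _) (by (clear * - hP hX; positivity))
      _ = (P * Z) * (Q * X) := by ring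
  have h4 : 2 * (x * z) ≤ P * Z + Q * X := by
    have h5 : (2 * (x * z)) ^ 2 ≤ (P * Z + Q * X) ^ 2 := by
      linarith only [sq_nonneg (P * Z - Q * X), h3]
    have h6 : 0 ≤ P * Z + Q * X := by positivity
    by_contra hcon
    push Not at hcon
    linarith [mul_pos (sub_pos.2 hcon) (sub_pos.2 hcon), mul_nonneg (sub_nonneg.2 h6) (le_of_lt (sub_pos.2 hcon)), h5]
  linarith

/-- `(p + k a)² ≤ (p² + 3k²)(1 + 2a/3 + a²/3)` -/
theorem pk_le {p k a : ℝ} (ha : 0 ≤ a) :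
    (p + k * a) ^ 2 ≤ (p ^ 2 + 3 * k ^ 2) * (1 + 2 / 3 * a + 1 / 3 * a ^ 2) := by
  have h1 : 0 ≤ a * (p - 3 / 2 * k) ^ 2 := by positivity
  have h2 : 0 ≤ a * k ^ 2 := by (clear * - ha; positivity)
  have h3 : 0 ≤ p ^ 2 * a ^ 2 := by positivity
  have h4 : 0 ≤ k ^ 2 := by positivity
  linarith

theorem alpha_le {u qb K σ : ℝ} (hu : 0 ≤ u) (hqb : 0 ≤ qb) (hK : 0 ≤ K) (hσ : 0 ≤ σ) :
    ((u / (1 + u)) * (qb * (2 / (2 + u)) + K * σ * (u * (1 + u) / (2 + u)))) ^ 2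
      ≤ 0.69445 * (qb ^ 2 * (1 / (1 + u)) + (K * σ * u) ^ 2) * (1.8 * (u ^ 2 / (1 + u))) := by
  set α1 := qb * (2 / (2 + u)) with hα1
  set α2 := K * σ * (u * (1 + u) / (2 + u)) with hα2
  have h1u : 0 < 1 + u := by linarith only [hu]
  have h2u : 0 < 2 + u := by linarith only [hu]
  have h1 : (α1 + α2) ^ 2 ≤ 1.25 * α1 ^ 2 + 5 * α2 ^ 2 := by nlinarith only [sq_nonneg (α1 - 4 * α2)]
  have h2 : α1 ^ 2 ≤ qb ^ 2 := by
    apply pow_le_pow_left₀ (by positivity)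
    rw [hα1]
    have : 2 / (2 + u) ≤ 1 := by rw [div_le_one h2u]; linarith only [hu]
    linarith only [mul_nonneg (sub_nonneg.2 hqb) (sub_nonneg.2 this)]
  have h3 : α2 ^ 2 ≤ (K * σ * u) ^ 2 * ((1 + u) / 4) := by
    have e : α2 ^ 2 = (K * σ * u) ^ 2 * ((1 + u) ^ 2 / (2 + u) ^ 2) := by
      rw [hα2]; (clear * - hu; field_simp)
    rw [e]
    apply mul_le_mul_of_nonneg_left _ (sq_nonneg _)
    rw [div_le_div_iff₀ (by positivity) (by norm_num)]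
    linarith only [mul_nonneg h1u.le (sq_nonneg u)]
  have h4 : 1.25 * α1 ^ 2 + 5 * α2 ^ 2 ≤ 0.69445 * (qb ^ 2 * (1 / (1 + u)) + (K * σ * u) ^ 2) * (1.8 * (1 + u)) := by
    have e : 0.69445 * (qb ^ 2 * (1 / (1 + u)) + (K * σ * u) ^ 2) * (1.8 * (1 + u))
        = 0.69445 * 1.8 * qb ^ 2 + 0.69445 * 1.8 * ((K * σ * u) ^ 2 * (1 + u)) := by
      (clear * - hu; field_simp)
    rw [e]
    have : 0 ≤ (K * σ * u) ^ 2 * (1 + u) := by (clear * - hu; positivity)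
    have : 0 ≤ qb ^ 2 := by (clear * -; positivity)
    linarith
  have e : ((u / (1 + u)) * (α1 + α2)) ^ 2 = (u / (1 + u)) ^ 2 * (α1 + α2) ^ 2 := by ring
  rw [e]
  calc (u / (1 + u)) ^ 2 * (α1 + α2) ^ 2
      ≤ (u / (1 + u)) ^ 2 * (0.69445 * (qb ^ 2 * (1 / (1 + u)) + (K * σ * u) ^ 2) * (1.8 * (1 + u))) :=
        mul_le_mul_of_nonneg_left (h1.trans h4) (sq_nonneg _)
    _ = 0.69445 * (qb ^ 2 * (1 / (1 + u)) + (K * σ * u) ^ 2) * (1.8 * (u ^ 2 / (1 + u))) := by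
        (clear * - hu; field_simp)

theorem beta_le {m y σ a p0 k : ℝ} (hm : 15 ≤ m) (hσ : 1 ≤ σ) (hy : σ ^ 2 = 1 + y) (hy0 : 0 < y)
    (ha : 0 ≤ a) :
    (a * (y * (p0 + k * a))) ^ 2 ≤ (y * (1 + y) / (m + 3)) * (p0 ^ 2 + 3 * k ^ 2)
      * ((m + 3) * (y / σ ^ 2) * (a ^ 2 * (1 + 2 / 3 * a + 1 / 3 * a ^ 2))) := by
  have hm3 : 0 < m + 3 := by linarith
  have h1 := pk_le (p := p0) (k := k) ha
  have e : (y * (1 + y) / (m + 3)) * (p0 ^ 2 + 3 * k ^ 2)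
      * ((m + 3) * (y / σ ^ 2) * (a ^ 2 * (1 + 2 / 3 * a + 1 / 3 * a ^ 2)))
      = (a * y) ^ 2 * ((p0 ^ 2 + 3 * k ^ 2) * (1 + 2 / 3 * a + 1 / 3 * a ^ 2)) := by
    rw [hy]
    have : (1 + y) ≠ 0 := by linarith only [hy0]
    (clear * - this hm ha hy0; field_simp)
  rw [e]
  have e2 : (a * (y * (p0 + k * a))) ^ 2 = (a * y) ^ 2 * (p0 + k * a) ^ 2 := by ring
  rw [e2]
  exact mul_le_mul_of_nonneg_left h1 (sq_nonneg _)

theorem qb_nonneg {σ : ℝ} (h : 1 ≤ σ) : 0 ≤ 2 * (σ - 1) + 2 * (1 - 1 / σ ^ 2) := by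
  have : 1 / σ ^ 2 ≤ 1 := by rw [div_le_one (by positivity)]; nlinarith
  linarith

/-- `(P2)` from its numerical form -/
theorem P2core {m σ y a u K p0 k cc ρ : ℝ} (hm : 15 ≤ m) (h : 1 ≤ σ) (hy : σ ^ 2 = 1 + y)
    (hy0 : 0 < y) (ha : 0 ≤ a) (hu : 0 ≤ u) (hK : 0 ≤ K)
    (hp : 6 * y * (1 + 2 * y) / σ ^ 3 * (u / (1 + u)) + (σ - 1) * (σ - 1 + 1 / m) ≤ y * p0)
    (hk : cc + 3 * (y / σ) ^ 3 * (7 - (m - 3) * y) ≤ y * k)
    (hp0 : 0 ≤ p0) (hk0 : 0 ≤ k)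
    (hfin : 0.69445 * ((2 * (σ - 1) + 2 * (1 - 1 / σ ^ 2)) ^ 2 * (1 / (1 + u)) + (K * σ * u) ^ 2)
      + y * (1 + y) / (m + 3) * (p0 ^ 2 + 3 * k ^ 2) ≤ 0.19 * ρ) {P : ℝ} (hPle : P ≤ 
      (u / (1 + u)) * ((2 * (σ - 1) + 2 * (1 - 1 / σ ^ 2)) * (2 / (2 + u)) + K * σ * (u * (1 + u) / (2 + u)))
      + a * (6 * y * (1 + 2 * y) / σ ^ 3 * (u / (1 + u)) + (cc + 3 * (y / σ) ^ 3 * (7 - (m - 3) * y)) * a
        + (σ - 1) * (σ - 1 + 1 / m))) (hP0 : 0 < P) :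
    P ^ 2 ≤ 0.19 * ρ * (1.8 * (u ^ 2 / (1 + u)) + (m + 3) * (y / σ ^ 2) * (a ^ 2 * (1 + 2 / 3 * a + 1 / 3 * a ^ 2))) := by
  have hσ : 0 < σ := by linarith only [h]
  have hm3 : 0 < m + 3 := by linarith only [hm]
  have hqb := qb_nonneg h
  have h1 := alpha_le (u := u) hu hqb hK hσ.le
  have h2 := beta_le (p0 := p0) (k := k) hm h hy hy0 ha
  set qb := 2 * (σ - 1) + 2 * (1 - 1 / σ ^ 2) with hqbd
  set X := (u / (1 + u)) * (qb * (2 / (2 + u)) + K * σ * (u * (1 + u) / (2 + u))) with hX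
  have h3 : P ≤ X + a * (y * (p0 + k * a)) := by
    refine hPle.trans ?_
    have g1 : (6 * y * (1 + 2 * y) / σ ^ 3 * (u / (1 + u)) + (cc + 3 * (y / σ) ^ 3 * (7 - (m - 3) * y)) * a
        + (σ - 1) * (σ - 1 + 1 / m)) ≤ y * (p0 + k * a) := by
      have := mul_le_mul_of_nonneg_right hk ha
      linarith only [hp, this]
    have := mul_le_mul_of_nonneg_left g1 ha
    linarith only [this]
  have h4 : (X + a * (y * (p0 + k * a))) ^ 2 ≤ _ := cs3 (by (clear * - hu; positivity)) (by (clear * - hy0 hm; positivity)) (by (clear * - hu; positivity)) (by (clear * - hm hy0 h ha; positivity)) h1 h2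
  have h5 : P ^ 2 ≤ (X + a * (y * (p0 + k * a))) ^ 2 := pow_le_pow_left₀ hP0.le h3 2
  refine h5.trans (h4.trans ?_)
  apply mul_le_mul_of_nonneg_right hfin
  (clear * - hu hm hy0 h ha; positivity)

/-- `K²σ²u² ≤ .29806 η(1+η)` -/
theorem Ksu {m y σ u K : ℝ} (hm : 15 ≤ m) (hσ1 : 1 ≤ σ) (hy : σ ^ 2 = 1 + y) (hy0 : 0 < y)
    (hK : 0 ≤ K) (hK2 : K * m ≤ 5.286) (hu2 : u ^ 2 ≤ 0.16 * (m * y)) :
    (K * σ * u) ^ 2 ≤ 0.29806 * ((m * y / 15) * (1 + m * y / 15)) := by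
  have hm0 : 0 < m := by linarith only [hm]
  have h1 : (K * m) ^ 2 ≤ 27.942 := by nlinarith only [hK2, mul_nonneg hK hm0.le]
  have h2 : K ^ 2 * m ≤ 27.942 / 15 := by
    have : K ^ 2 * m * 15 ≤ (K * m) ^ 2 := by nlinarith only [hm]
    (clear * - h1 this; linarith)
  have h3 : K ^ 2 * u ^ 2 ≤ 27.942 / 15 * (0.16 * y) := by
    have g1 : K ^ 2 * u ^ 2 ≤ K ^ 2 * (0.16 * (m * y)) := mul_le_mul_of_nonneg_left hu2 (sq_nonneg K)
    have g2 : K ^ 2 * (0.16 * (m * y)) = K ^ 2 * m * (0.16 * y) := by ring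
    rw [g2] at g1
    exact g1.trans (mul_le_mul_of_nonneg_right h2 (by positivity))
  have e : (K * σ * u) ^ 2 = K ^ 2 * u ^ 2 * (1 + y) := by rw [← hy]; ring
  rw [e]
  have h4 : y ≤ m * y / 15 := by nlinarith only [hm, hy0]
  have h5 : K ^ 2 * u ^ 2 * (1 + y) ≤ 27.942 / 15 * (0.16 * y) * (1 + y) :=
    mul_le_mul_of_nonneg_right h3 (by linarith only [hy0])
  have h6 : y * (1 + y) ≤ (m * y / 15) * (1 + m * y / 15) := by
    apply mul_le_mul h4 (by linarith only [h4]) (by linarith only [hy0]) (by positivity)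
  nlinarith only [e, h5, h6]

theorem qb_eta {m y σ : ℝ} (hm : 15 ≤ m) (hσ1 : 1 ≤ σ) (hy : σ ^ 2 = 1 + y) (hy0 : 0 < y) :
    2 * (σ - 1) + 2 * (1 - 1 / σ ^ 2) ≤ (m * y / 15) * (3 + m * y / 15) / (1 + m * y / 15) := by
  have h1 := sqb hσ1 hy
  have h4 : y ≤ m * y / 15 := by linarith only [mul_nonneg (sub_nonneg.2 hm) (le_of_lt (sub_pos.2 hy0))]
  set η := m * y / 15 with hη
  have hη0 : 0 < η := by linarith only [hy0, h4]
  refine h1.trans ?_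
  have e1 : y + 2 * y / (1 + y) = y + 2 - 2 / (1 + y) := by field_simp; ring
  have e2 : η * (3 + η) / (1 + η) = η + 2 - 2 / (1 + η) := by field_simp; ring
  rw [e1, e2]
  have : 2 / (1 + η) ≤ 2 / (1 + y) := by
    apply div_le_div_of_nonneg_left (by norm_num) (by linarith only [hy0]) (by linarith only [h4])
  linarith only [h4, this]

theorem qb_eta2 {η : ℝ} (hη0 : 0 ≤ η) (h1 : η ≤ 0.6) :
    (η * (3 + η) / (1 + η)) ^ 2 ≤ η ^ 2 * (9 - 10.8 * η + 10.44 * η ^ 2) := by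
  have h2 : (3 + η) / (1 + η) ≤ 3 - 1.8 * η + 1.2 * η ^ 2 := by
    rw [div_le_iff₀ (by linarith only [hη0])]
    nlinarith only [mul_nonneg hη0 (sq_nonneg (η - 0.25))]
  have h3 : 0 ≤ (3 + η) / (1 + η) := by positivity
  have h4 : ((3 + η) / (1 + η)) ^ 2 ≤ (3 - 1.8 * η + 1.2 * η ^ 2) ^ 2 := pow_le_pow_left₀ h3 h2 2
  have h5 : (3 - 1.8 * η + 1.2 * η ^ 2) ^ 2 ≤ 9 - 10.8 * η + 10.44 * η ^ 2 := by
    have : 0 ≤ η ^ 3 * (3 - η) := by
      have : 0 ≤ 3 - η := by linarith only [h1]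
      positivity
    linarith only [this]
  have e : (η * (3 + η) / (1 + η)) ^ 2 = η ^ 2 * ((3 + η) / (1 + η)) ^ 2 := by ring
  rw [e]
  exact mul_le_mul_of_nonneg_left (h4.trans h5) (sq_nonneg _)

theorem C_eta {m y : ℝ} (hm : 15 ≤ m) (hy0 : 0 < y) :
    y * (1 + y) / (m + 3) ≤ (m * y / 15) * (1 + m * y / 15) / 18 := by
  have h4 : y ≤ m * y / 15 := by linarith only [mul_nonneg (sub_nonneg.2 hm) (le_of_lt (sub_pos.2 hy0))]
  have h6 : y * (1 + y) ≤ (m * y / 15) * (1 + m * y / 15) := by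
    apply mul_le_mul h4 (by linarith) (by linarith only [hy0]) (by positivity)
  apply div_le_div₀ (by positivity) h6 (by norm_num) (by linarith only [hm])

/-- `(σ-1)(σ-1+1/m) ≤ y (η/4+1/30)` and `≤ y` -/
theorem rm1 {m y σ : ℝ} (hm : 15 ≤ m) (hσ1 : 1 ≤ σ) (hy : σ ^ 2 = 1 + y) (hy0 : 0 < y) :
    (σ - 1) * (σ - 1 + 1 / m) ≤ y * (m * y / 15 / 4 + 1 / 30) := by
  have hm0 : 0 < m := by linarith only [hm]
  have h1 : σ - 1 ≤ y / 2 := by linarith only [sq_nonneg (σ - 1), hy]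
  have h2 : 1 / m ≤ 1 / 15 := by
    apply div_le_div_of_nonneg_left (by norm_num) (by norm_num) hm
  have h3 : (σ - 1) * (σ - 1 + 1 / m) ≤ (y / 2) * (y / 2 + 1 / 15) := by
    apply mul_le_mul h1 (by linarith) _ (by linarith only [hy0])
    have : 0 ≤ 1 / m := by positivity
    linarith only [hσ1, this]
  have h4 : y ≤ m * y / 15 := by linarith only [mul_nonneg (sub_nonneg.2 hm) (le_of_lt (sub_pos.2 hy0))]
  nlinarith only [hσ1, h1, h2, h4]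

theorem rm2 {m y σ : ℝ} (hm : 15 ≤ m) (hσ1 : 1 ≤ σ) (hy : σ ^ 2 = 1 + y) (hy0 : 0 < y) :
    (σ - 1) * (σ - 1 + 1 / m) ≤ y * 1 := by
  have h2 : 1 / m ≤ 1 / 15 := by
    apply div_le_div_of_nonneg_left (by norm_num) (by norm_num) hm
  have e : y = (σ - 1) * (σ + 1) := by (clear * - hy; linarith)
  rw [e, mul_one]
  apply mul_le_mul_of_nonneg_left (by linarith) (by linarith only [hσ1])

theorem kk1 {m y σ cc : ℝ} (hm : 15 ≤ m) (hσ1 : 1 ≤ σ) (hy : σ ^ 2 = 1 + y) (hy0 : 0 < y)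
    (hc : cc ≤ y * (1 + y) / 2) :
    cc + 3 * (y / σ) ^ 3 * (7 - (m - 3) * y) ≤ y * 1.47 := by
  have h1 := sA2 hσ1 hy hc
  have : 3 * (y / σ) ^ 3 * (7 - (m - 3) * y) ≤ 3 * (y / σ) ^ 3 * (7 - 12 * y) := by
    apply mul_le_mul_of_nonneg_left _ (by (clear * - hy0 hσ1; positivity))
    nlinarith only [hm, hy0]
  linarith

theorem kk2 {m y σ cc : ℝ} (hm : 15 ≤ m) (hσ1 : 1 ≤ σ) (hy : σ ^ 2 = 1 + y) (hy0 : 0 < y)
    (hc : cc ≤ y * (1 + y) / 2) (hη : 0.6 ≤ m * y / 15) :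
    cc + 3 * (y / σ) ^ 3 * (7 - (m - 3) * y) ≤ y * 1 := by
  rcases le_total y 1 with h1 | h1
  · have h2 : 7 - (m - 3) * y ≤ 0 := by nlinarith
    have h3 : 3 * (y / σ) ^ 3 * (7 - (m - 3) * y) ≤ 0 :=
      mul_nonpos_of_nonneg_of_nonpos (by positivity) h2
    nlinarith only [hc, h3, hy0, h1]
  · have h2 := sA2' hσ1 hy hc h1
    have : 3 * (y / σ) ^ 3 * (7 - (m - 3) * y) ≤ 3 * (y / σ) ^ 3 * (7 - 12 * y) := by
      apply mul_le_mul_of_nonneg_left _ (by (clear * - hy0 hσ1; positivity))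
      nlinarith only [hm, hy0]
    linarith

/-- existence of `p0, k` -/
theorem P2num {m y σ u K cc ρ : ℝ} (hm : 15 ≤ m) (h : 1 ≤ σ) (hy : σ ^ 2 = 1 + y)
    (hy0 : 0 < y) (hu : 0 ≤ u) (hu1 : u ≤ σ) (hK : 0 ≤ K) (hK2 : K * m ≤ 5.286)
    (hu2 : u ^ 2 ≤ 0.16 * (m * y)) (hc : cc ≤ y * (1 + y) / 2)
    (hρ : 0.2 + 0.5 * (m * y) + 13 / 150 * (m * y) ^ 2 ≤ ρ) :
    ∃ p0 k : ℝ, 0 ≤ p0 ∧ 1 ≤ k ∧
      6 * y * (1 + 2 * y) / σ ^ 3 * (u / (1 + u)) + (σ - 1) * (σ - 1 + 1 / m) ≤ y * p0 ∧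
      cc + 3 * (y / σ) ^ 3 * (7 - (m - 3) * y) ≤ y * k ∧
      0.69445 * ((2 * (σ - 1) + 2 * (1 - 1 / σ ^ 2)) ^ 2 * (1 / (1 + u)) + (K * σ * u) ^ 2)
      + y * (1 + y) / (m + 3) * (p0 ^ 2 + 3 * k ^ 2) ≤ 0.19 * ρ := by
  have hm0 : 0 < m := by linarith only [hm]
  have hσ : 0 < σ := by linarith only [h]
  have hKsu := Ksu hm h hy hy0 hK hK2 hu2
  have hqe := qb_eta hm h hy hy0
  have hq0 := qb_nonneg h
  have hCe := C_eta hm hy0
  have hr1 := rm1 hm h hy hy0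
  have hr2 := rm2 hm h hy hy0
  have hA1 := sA1 h hy
  have hA1w := sA1w h hy hu hu1
  have hw0 : 0 ≤ u / (1 + u) := by (clear * - hu; positivity)
  have hw1 : u / (1 + u) ≤ 1 := by rw [div_le_one (by linarith only [hu])]; linarith only []
  have hwe : 1 / (1 + u) = 1 - u / (1 + u) := by field_simp; ring
  have hwb := wbound hu hu2
  have hA1b : 6 * y * (1 + 2 * y) / σ ^ 3 * (u / (1 + u)) ≤ 6.54 * y * (u / (1 + u)) :=
    mul_le_mul_of_nonneg_right hA1 hw0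
  set η := m * y / 15 with hη
  have hη0 : 0 < η := by positivity
  have hmy : m * y = 15 * η := by rw [hη]; ring
  have hηη : 0 ≤ η * (1 + η) := by positivity
  have hρ' : 0.2 + 7.5 * η + 19.5 * η ^ 2 ≤ ρ := by rw [hmy] at hρ; linarith only [hρ]
  set w := u / (1 + u) with hw
  rw [hwe]
  set qb := 2 * (σ - 1) + 2 * (1 - 1 / σ ^ 2) with hqb
  have hqb2 : qb ^ 2 ≤ (η * (3 + η) / (1 + η)) ^ 2 := pow_le_pow_left₀ hq0 hqe 2
  have h1w : 0 ≤ 1 - w := by linarith only [hw1]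
  rcases le_total η 0.6 with hη6 | hη6
  · -- region A
    refine ⟨6.54 * w + (η / 4 + 1 / 30), 1.47, by (clear * - hu hm hy0; positivity), by norm_num, ?_, kk1 hm h hy hy0 hc, ?_⟩
    · linarith only [hr1, hA1b]
    · have hwm : w ≤ 0.322 + 0.465 * η := by rw [hmy] at hwb; linarith only [hwb]
      have hR := regA hη0.le hη6 hw0 hwm
      have hq3 := hqb2.trans (qb_eta2 hη0.le hη6)
      have g1 : qb ^ 2 * (1 - w) ≤ η ^ 2 * (9 - 10.8 * η + 10.44 * η ^ 2) * (1 - w) :=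
        mul_le_mul_of_nonneg_right hq3 h1w
      have g2 : y * (1 + y) / (m + 3) * ((6.54 * w + (η / 4 + 1 / 30)) ^ 2 + 3 * 1.47 ^ 2)
          ≤ η * (1 + η) / 18 * ((6.54 * w + (η / 4 + 1 / 30)) ^ 2 + 3 * 1.47 ^ 2) :=
        mul_le_mul_of_nonneg_right hCe (by (clear * - hu hm hy0; positivity))
      have e3 : (3 * 1.47 ^ 2 : ℝ) = 6.4827 := by norm_num
      rw [e3] at g2 ⊢
      linarith only [hKsu, hηη, hρ', hR, g1, g2]
  · rcases le_total w 0.3 with hw3 | hw3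
    · -- region B1
      refine ⟨6.54 * 0.3 + 1, 1, by norm_num, by norm_num, ?_, kk2 hm h hy hy0 hc hη6, ?_⟩
      · have := mul_le_mul_of_nonneg_left hw3 (by positivity : 0 ≤ 6.54 * y)
        linarith only [hr2, hA1b, this]
      · have hR := regB1 hη6
        have g1 : qb ^ 2 * (1 - w) ≤ (η * (3 + η) / (1 + η)) ^ 2 := by
          calc qb ^ 2 * (1 - w) ≤ (η * (3 + η) / (1 + η)) ^ 2 * 1 :=
                mul_le_mul hqb2 (by linarith only [hw0]) h1w (by (clear * - hm hy0; positivity))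
            _ = _ := by ring
        have g2 : y * (1 + y) / (m + 3) * ((6.54 * 0.3 + 1) ^ 2 + 3 * 1 ^ 2)
            ≤ η * (1 + η) / 18 * ((6.54 * 0.3 + 1) ^ 2 + 3 * 1 ^ 2) :=
          mul_le_mul_of_nonneg_right hCe (by positivity)
        have e3 : (3 * 1 ^ 2 : ℝ) = 3 := by norm_num
        rw [e3] at g2 ⊢
        linarith only [hKsu, hCe, hηη, hρ', hR, g1]
    · have g1 : qb ^ 2 * (1 - w) ≤ (η * (3 + η) / (1 + η)) ^ 2 * 0.7 :=
        mul_le_mul hqb2 (by linarith only [hw3]) h1w (by positivity)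
      rcases le_total η 1.3 with hη13 | hη13
      · refine ⟨3.74 + 0.36, 1, by norm_num, by norm_num, ?_, kk2 hm h hy hy0 hc hη6, ?_⟩
        · have : y * (η / 4 + 1 / 30) ≤ y * 0.36 := by
            apply mul_le_mul_of_nonneg_left _ hy0.le
            linarith only [hη13]
          linarith only [hr1, hA1w, this]
        · have hR := regB2a hη6 hη13
          have g2 : y * (1 + y) / (m + 3) * ((3.74 + 0.36) ^ 2 + 3 * 1 ^ 2)
              ≤ η * (1 + η) / 18 * ((3.74 + 0.36) ^ 2 + 3 * 1 ^ 2) :=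
            mul_le_mul_of_nonneg_right hCe (by positivity)
          have e3 : (3 * 1 ^ 2 : ℝ) = 3 := by norm_num
          rw [e3] at g2 ⊢
          linarith only [hKsu, hCe, hηη, hρ', g1, hR]
      · refine ⟨3.74 + 1, 1, by norm_num, by norm_num, ?_, kk2 hm h hy hy0 hc hη6, ?_⟩
        · linarith only [hr2, hA1w]
        · have hR := regB2b hη13
          have g2 : y * (1 + y) / (m + 3) * ((3.74 + 1) ^ 2 + 3 * 1 ^ 2)
              ≤ η * (1 + η) / 18 * ((3.74 + 1) ^ 2 + 3 * 1 ^ 2) :=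
            mul_le_mul_of_nonneg_right hCe (by positivity)
          have e3 : (3 * 1 ^ 2 : ℝ) = 3 := by norm_num
          rw [e3] at g2 ⊢
          linarith only [hR, g1, hρ', hηη, hCe, hKsu]
end FNeg
end Vale.Agent.P237.AllN
end

section

/-!
# P237, block D, region `l ≤ 0`, part 4: numerical inequalities
-/

set_option linter.all false

namespace Vale.Agent.P237.AllN
namespace FNeg


theorem p1fin {η : ℝ} (hη : 0 ≤ η) {V : ℝ} (hV : V ≤ 7.83 * η ^ 3 * (7 - 12 * η) ∨ V ≤ 0) :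
    6.2163 * η + 6.8339 * η ^ 2 + V ≤ 0.8 * (0.2 + 7.5 * η + 19.5 * η ^ 2) := by
  rcases hV with h | h
  · have := p1poly hη
    linarith only [sq_nonneg η, this, h, hη]
  · nlinarith only [h]

theorem t1_le {σ y u η : ℝ} (h : 1 ≤ σ) (hy : σ ^ 2 = 1 + y) (hy0 : 0 < y) (hy4 : y ≤ η) (hu : 0 ≤ u) :
    (u / (1 + u)) * ((2 * (σ - 1) + 2 * (1 - 1 / σ ^ 2)) * (2 / (2 + u))) ≤ 1.032 * η := by
  have g1 : (u / (1 + u)) * (2 / (2 + u)) ≤ 0.344 := by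
    rw [div_mul_div_comm, div_le_iff₀ (by (clear * - hu; positivity))]
    nlinarith only [sq_nonneg (u - 1.41)]
  have g2 := sqb3 h
  have g3 := qb_nonneg h
  have e : σ ^ 2 - 1 = y := by linarith only [hy]
  rw [e] at g2
  have g4 : (2 * (σ - 1) + 2 * (1 - 1 / σ ^ 2)) * ((u / (1 + u)) * (2 / (2 + u))) ≤ (3 * y) * 0.344 :=
    mul_le_mul g2 g1 (by (clear * - hu; positivity)) (by positivity)
  have e2 : (u / (1 + u)) * ((2 * (σ - 1) + 2 * (1 - 1 / σ ^ 2)) * (2 / (2 + u)))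
    = (2 * (σ - 1) + 2 * (1 - 1 / σ ^ 2)) * ((u / (1 + u)) * (2 / (2 + u))) := by ring
  rw [e2]; linarith only [hy4, g4]

theorem t2_le {m σ y u η K : ℝ} (h : 1 ≤ σ) (hm0 : 0 < m) (hy : σ ^ 2 = 1 + y) (hy0 : 0 < y) (hy4 : y ≤ η)
    (hu : 0 ≤ u) (hK : 0 ≤ K) (hK2 : K * m ≤ 5.286) (hu2 : u ^ 2 ≤ 0.16 * (m * y)) :
    (u / (1 + u)) * (K * σ * (u * (1 + u) / (2 + u))) ≤ 0.42288 * η + 0.21144 * η ^ 2 := by
  have hσ : 0 < σ := by linarith only [h]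
  have e : (u / (1 + u)) * (K * σ * (u * (1 + u) / (2 + u))) = K * σ * (u ^ 2 / (2 + u)) := by
    have : (1 + u) ≠ 0 := by linarith only [hu]
    have : (2 + u) ≠ 0 := by linarith only [hu]
    field_simp
  rw [e]
  have g1 : u ^ 2 / (2 + u) ≤ 0.08 * (m * y) := by
    rw [div_le_iff₀ (by linarith only [hu])]
    have : 0 ≤ (m * y) * u := by (clear * - hm0 hy0 hu; positivity)
    linarith only [this, hu2]
  have g2 : σ ≤ 1 + y / 2 := by nlinarith only [hy, sq_nonneg (σ - 1)]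
  have g3 : K * σ * (u ^ 2 / (2 + u)) ≤ K * σ * (0.08 * (m * y)) :=
    mul_le_mul_of_nonneg_left g1 (by (clear * - hK h; positivity))
  have g4 : K * σ * (0.08 * (m * y)) = (K * m) * (0.08 * σ * y) := by ring
  have g5 : (K * m) * (0.08 * σ * y) ≤ 5.286 * (0.08 * σ * y) :=
    mul_le_mul_of_nonneg_right hK2 (by positivity)
  have g6 : σ * y ≤ (1 + η / 2) * η := by
    apply mul_le_mul (by linarith only [hy4, g2]) hy4 hy0.le (by linarith only [hy0, hy4])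
  rw [g4] at g3
  linarith only [g3, g5, g6]

theorem t3_le {m σ y u η a : ℝ} (h : 1 ≤ σ) (hy : σ ^ 2 = 1 + y) (hη0 : 0 < η)
    (hmy : m * y = 15 * η) (hay : a * y ≤ 1.61565 * η) (ha : 0 ≤ a) (hay0 : 0 ≤ a * y)
    (hu : 0 ≤ u) (hu2 : u ^ 2 ≤ 0.16 * (m * y)) :
    a * (6 * y * (1 + 2 * y) / σ ^ 3 * (u / (1 + u))) ≤ 3.4025 * η + 4.9135 * η ^ 2 := by
  have g1 := sA1 h hy
  have g2 := wbound hu hu2
  have hw0 : 0 ≤ u / (1 + u) := by (clear * - hu; positivity)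
  rw [hmy] at g2
  have g3 : a * (6 * y * (1 + 2 * y) / σ ^ 3 * (u / (1 + u))) ≤ a * (6.54 * y * (u / (1 + u))) := by
    apply mul_le_mul_of_nonneg_left _ ha
    exact mul_le_mul_of_nonneg_right g1 hw0
  have g4 : a * (6.54 * y * (u / (1 + u))) = 6.54 * ((a * y) * (u / (1 + u))) := by ring
  have g5 : (a * y) * (u / (1 + u)) ≤ (1.61565 * η) * (0.322 + 0.031 * (15 * η)) :=
    mul_le_mul hay g2 hw0 (by positivity)
  rw [g4] at g3
  have : 0 ≤ η ^ 2 := sq_nonneg η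
  linarith only [this, g5, g3, hη0]

theorem t5_le {m σ y η a : ℝ} (hm : 15 ≤ m) (h : 1 ≤ σ) (hy : σ ^ 2 = 1 + y) (hy0 : 0 < y)
    (hη : η = m * y / 15) (hη0 : 0 < η) (hay : a * y ≤ 1.61565 * η) (ha : 0 ≤ a) :
    a * ((σ - 1) * (σ - 1 + 1 / m)) ≤ 0.053856 * η + 0.403913 * η ^ 2 := by
  have g1 := rm1 hm h hy hy0
  have g2 := mul_le_mul_of_nonneg_left g1 ha
  have g3 : a * (y * (m * y / 15 / 4 + 1 / 30)) = (a * y) * (η / 4 + 1 / 30) := by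
    rw [hη]; ring
  have g4 : (a * y) * (η / 4 + 1 / 30) ≤ (1.61565 * η) * (η / 4 + 1 / 30) :=
    mul_le_mul_of_nonneg_right hay (by (clear * - hη0; positivity))
  rw [g3] at g2
  have : 0 ≤ η ^ 2 := sq_nonneg η
  linarith only [this, g4, g2, hη0]

theorem t4_le {m σ y η a cc : ℝ} (hm : 15 ≤ m) (h : 1 ≤ σ) (hy : σ ^ 2 = 1 + y) (hy0 : 0 < y)
    (hη : η = m * y / 15) (hη0 : 0 < η) (hy4 : y ≤ η) (ha : 0 ≤ a) (ha2 : a ^ 2 ≤ 0.174 * m)
    (hc : cc ≤ y * (1 + y) / 2) :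
    ∃ V : ℝ, (V ≤ 7.83 * η ^ 3 * (7 - 12 * η) ∨ V ≤ 0) ∧
      a * ((cc + 3 * (y / σ) ^ 3 * (7 - (m - 3) * y)) * a) ≤ 1.305 * η + 1.305 * η ^ 2 + V := by
  have hmy : m * y = 15 * η := by rw [hη]; ring
  have hσ : 0 < σ := by linarith only [h]
  have g0 : (cc + 3 * (y / σ) ^ 3 * (7 - (m - 3) * y)) ≤ y * (1 + y) / 2 + 3 * (y / σ) ^ 3 * (7 - 12 * η) := by
    have : 3 * (y / σ) ^ 3 * (7 - (m - 3) * y) ≤ 3 * (y / σ) ^ 3 * (7 - 12 * η) := by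
      apply mul_le_mul_of_nonneg_left _ (by (clear * - hy0 h; positivity))
      linarith only [hη, hy4]
    (clear * - hc this; linarith)
  have g1 : a * ((cc + 3 * (y / σ) ^ 3 * (7 - (m - 3) * y)) * a)
      ≤ a ^ 2 * (y * (1 + y) / 2) + a ^ 2 * (3 * (y / σ) ^ 3 * (7 - 12 * η)) := by
    have := mul_le_mul_of_nonneg_right g0 (sq_nonneg a)
    have e1 : a * ((cc + 3 * (y / σ) ^ 3 * (7 - (m - 3) * y)) * a)
      = (cc + 3 * (y / σ) ^ 3 * (7 - (m - 3) * y)) * a ^ 2 := by ring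
    have e2 : (y * (1 + y) / 2 + 3 * (y / σ) ^ 3 * (7 - 12 * η)) * a ^ 2
      = a ^ 2 * (y * (1 + y) / 2) + a ^ 2 * (3 * (y / σ) ^ 3 * (7 - 12 * η)) := by ring
    rw [e1, ← e2]; exact this
  have g2 : a ^ 2 * (y * (1 + y) / 2) ≤ 1.305 * η + 1.305 * η ^ 2 := by
    have h1 : a ^ 2 * (y * (1 + y) / 2) ≤ (0.174 * m) * (y * (1 + y) / 2) :=
      mul_le_mul_of_nonneg_right ha2 (by (clear * - hy0; positivity))
    have e : (0.174 * m) * (y * (1 + y) / 2) = 0.087 * (m * y) * (1 + y) := by ring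
    rw [e, hmy] at h1
    have h2 : 0.087 * (15 * η) * (1 + y) ≤ 0.087 * (15 * η) * (1 + η) := by
      apply mul_le_mul_of_nonneg_left (by linarith only [hy4]) (by positivity)
    linarith only [h1, h2]
  rcases le_total (12 * η) 7 with h7 | h7
  · refine ⟨7.83 * η ^ 3 * (7 - 12 * η), Or.inl le_rfl, ?_⟩
    have g3 : a ^ 2 * (3 * (y / σ) ^ 3) ≤ 7.83 * η ^ 3 := by
      have e1 : (y / σ) ^ 3 ≤ y ^ 3 := by
        have : y / σ ≤ y := div_le_self hy0.le h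
        exact pow_le_pow_left₀ (by positivity) this 3
      have e2 : a ^ 2 * (3 * (y / σ) ^ 3) ≤ (0.174 * m) * (3 * y ^ 3) :=
        mul_le_mul ha2 (by linarith only [e1]) (by (clear * - hy0 h; positivity)) (by positivity)
      have e3 : (0.174 * m) * (3 * y ^ 3) = 0.522 * (m * y) * y ^ 2 := by ring
      rw [e3, hmy] at e2
      have e4 : y ^ 2 ≤ η ^ 2 := pow_le_pow_left₀ hy0.le hy4 2
      have e5 : 0.522 * (15 * η) * y ^ 2 ≤ 0.522 * (15 * η) * η ^ 2 :=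
        mul_le_mul_of_nonneg_left e4 (by positivity)
      have e6 : 0.522 * (15 * η) * η ^ 2 = 7.83 * η ^ 3 := by ring
      linarith only [e5, e2]
    have g4 := mul_le_mul_of_nonneg_right g3 (by linarith only [h7] : 0 ≤ 7 - 12 * η)
    have e6 : a ^ 2 * (3 * (y / σ) ^ 3 * (7 - 12 * η)) = a ^ 2 * (3 * (y / σ) ^ 3) * (7 - 12 * η) := by ring
    rw [e6] at g1
    (clear * - g1 g2 g4; linarith)
  · refine ⟨0, Or.inr le_rfl, ?_⟩
    have g3 : a ^ 2 * (3 * (y / σ) ^ 3 * (7 - 12 * η)) ≤ 0 := by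
      have : 3 * (y / σ) ^ 3 * (7 - 12 * η) ≤ 0 :=
        mul_nonpos_of_nonneg_of_nonpos (by positivity) (by linarith only [h7])
      exact mul_nonpos_of_nonneg_of_nonpos (sq_nonneg a) this
    linarith only [g3, g2, g1]

/-- `(P1)` for `u ≥ 0` -/
theorem P1num {m σ y a u K cc ρ : ℝ} (hm : 15 ≤ m) (h : 1 ≤ σ) (hy : σ ^ 2 = 1 + y)
    (hy0 : 0 < y) (ha : 0 ≤ a) (ha2 : a ^ 2 ≤ 0.174 * m) (hu : 0 ≤ u)
    (hK : 0 ≤ K) (hK2 : K * m ≤ 5.286)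
    (hu2 : u ^ 2 ≤ 0.16 * (m * y)) (hc : cc ≤ y * (1 + y) / 2)
    (hρ : 0.2 + 0.5 * (m * y) + 13 / 150 * (m * y) ^ 2 ≤ ρ) :
    (u / (1 + u)) * ((2 * (σ - 1) + 2 * (1 - 1 / σ ^ 2)) * (2 / (2 + u)) + K * σ * (u * (1 + u) / (2 + u)))
      + a * (6 * y * (1 + 2 * y) / σ ^ 3 * (u / (1 + u)) + (cc + 3 * (y / σ) ^ 3 * (7 - (m - 3) * y)) * a
        + (σ - 1) * (σ - 1 + 1 / m)) ≤ 0.8 * ρ := by
  have hm0 : 0 < m := by linarith only [hm]
  have hab := a_bound hm ha2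
  have hy4 : y ≤ m * y / 15 := by linarith only [mul_nonneg (sub_nonneg.2 hm) (le_of_lt (sub_pos.2 hy0))]
  obtain ⟨η, hη⟩ : ∃ η, η = m * y / 15 := ⟨_, rfl⟩
  rw [← hη] at hy4
  have hη0 : 0 < η := by linarith only [hy0, hy4]
  have hmy : m * y = 15 * η := by rw [hη]; ring
  have hρ' : 0.2 + 7.5 * η + 19.5 * η ^ 2 ≤ ρ := by rw [hmy] at hρ; linarith only [hρ]
  have hay : a * y ≤ 1.61565 * η := by
    have h1 : a * y ≤ 0.10771 * m * y := mul_le_mul_of_nonneg_right hab hy0.le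
    have h2 : 0.10771 * m * y = 0.10771 * (m * y) := by ring
    rw [h2, hmy] at h1
    linarith only [h1]
  have hay0 : 0 ≤ a * y := by (clear * - ha hy0; positivity)
  have t1 := t1_le (η := η) h hy hy0 hy4 hu
  have t2 := t2_le h hm0 hy hy0 hy4 hu hK hK2 hu2
  have t3 := t3_le h hy hη0 hmy hay ha hay0 hu hu2
  have t5 := t5_le hm h hy hy0 hη hη0 hay ha
  obtain ⟨V, hV, t4⟩ := t4_le hm h hy hy0 hη hη0 hy4 ha ha2 hc
  have hfin := p1fin hη0.le hV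
  have h9 : 0 ≤ η ^ 2 := sq_nonneg η
  have e1 : (u / (1 + u)) * ((2 * (σ - 1) + 2 * (1 - 1 / σ ^ 2)) * (2 / (2 + u)) + K * σ * (u * (1 + u) / (2 + u)))
      = (u / (1 + u)) * ((2 * (σ - 1) + 2 * (1 - 1 / σ ^ 2)) * (2 / (2 + u)))
        + (u / (1 + u)) * (K * σ * (u * (1 + u) / (2 + u))) := by ring
  have e2 : a * (6 * y * (1 + 2 * y) / σ ^ 3 * (u / (1 + u)) + (cc + 3 * (y / σ) ^ 3 * (7 - (m - 3) * y)) * a
        + (σ - 1) * (σ - 1 + 1 / m))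
      = a * (6 * y * (1 + 2 * y) / σ ^ 3 * (u / (1 + u))) + a * ((cc + 3 * (y / σ) ^ 3 * (7 - (m - 3) * y)) * a)
        + a * ((σ - 1) * (σ - 1 + 1 / m)) := by ring
  rw [e1, e2]
  generalize (u / (1 + u)) * ((2 * (σ - 1) + 2 * (1 - 1 / σ ^ 2)) * (2 / (2 + u))) = X1 at *
  generalize (u / (1 + u)) * (K * σ * (u * (1 + u) / (2 + u))) = X2 at *
  generalize a * (6 * y * (1 + 2 * y) / σ ^ 3 * (u / (1 + u))) = X3 at *
  generalize a * ((cc + 3 * (y / σ) ^ 3 * (7 - (m - 3) * y)) * a) = X4 at *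
  generalize a * ((σ - 1) * (σ - 1 + 1 / m)) = X5 at *
  linarith only [t5, t4, t3, t2, t1, h9, hfin, hρ', hy4, hy0]

/-- (E2) for `u ≥ 0` (and as a building block) -/
theorem ya_sq {m y σ a ρ : ℝ} (hm : 15 ≤ m) (hσ : 1 ≤ σ) (hy : σ ^ 2 = 1 + y) (hy0 : 0 < y)
    (ha : 0 ≤ a) :
    (y * a) ^ 2 ≤ (y * (1 + y) / (m + 3)) * ((m + 3) * (y / σ ^ 2) * (a ^ 2 * (1 + 2 / 3 * a + 1 / 3 * a ^ 2))) := by
  have hm3 : 0 < m + 3 := by linarith only [hm]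
  have e : (y * (1 + y) / (m + 3)) * ((m + 3) * (y / σ ^ 2) * (a ^ 2 * (1 + 2 / 3 * a + 1 / 3 * a ^ 2)))
      = (y * a) ^ 2 * (1 + 2 / 3 * a + 1 / 3 * a ^ 2) := by
    rw [hy]
    have : (1 + y) ≠ 0 := by linarith only [hy0]
    field_simp
  rw [e]
  have : 0 ≤ 2 / 3 * a + 1 / 3 * a ^ 2 := by (clear * - ha; positivity)
  linarith only [mul_nonneg (sq_nonneg (1 * y * (1 * a) : ℝ)) (sub_nonneg.2 this)]

theorem e2poly {η : ℝ} (h0 : 1.5 ≤ η) :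
    ((η * (3 + η) / (1 + η)) ^ 2 + 4 * (1 + η)) / 1.8 + η * (1 + η) / 18
      ≤ 0.038 + 1.425 * η + 3.705 * η ^ 2 := by
  have h1 : 0 < 1 + η := by linarith
  have h2 : η * (3 + η) / (1 + η) ≤ 2.7 / 1.5 * η := by
    rw [div_le_iff₀ h1]; linarith only [mul_nonneg (sub_nonneg.2 h0) (sub_nonneg.2 h0), mul_nonneg (mul_self_nonneg (1 : ℝ)) (sub_nonneg.2 h0)]
  have h3 : 0 ≤ η * (3 + η) / (1 + η) := by positivity
  have h4 : (η * (3 + η) / (1 + η)) ^ 2 ≤ (2.7 / 1.5 * η) ^ 2 := pow_le_pow_left₀ h3 h2 2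
  have h5 : (2.7 / 1.5 * η) ^ 2 = 3.24 * η ^ 2 := by ring
  have h6 : 1.5 * η ≤ η ^ 2 := by nlinarith only [h0]
  rw [h5] at h4
  have h7 : ((η * (3 + η) / (1 + η)) ^ 2 + 4 * (1 + η)) / 1.8 ≤ (3.24 * η ^ 2 + 4 * (1 + η)) / 1.8 := by
    apply div_le_div_of_nonneg_right _ (by norm_num)
    linarith only [h4]
  have h8 : (3.24 * η ^ 2 + 4 * (1 + η)) / 1.8 + η * (1 + η) / 18
      ≤ 0.038 + 1.425 * η + 3.705 * η ^ 2 := by
    have e : (3.24 * η ^ 2 + 4 * (1 + η)) / 1.8 + η * (1 + η) / 18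
      = (1.8 + 1 / 18) * η ^ 2 + (4 / 1.8 + 1 / 18) * η + 4 / 1.8 := by ring
    rw [e]
    linarith only [h0, h6]
  linarith only [h8, h7]

theorem En1 {σ y φ W : ℝ} (h : 1 ≤ σ) (hy : σ ^ 2 = 1 + y) (hyc : y ≤ 3 / 2) (hW0 : 0 ≤ W)
    (hφ1 : φ ≤ W / 2) : 2 * σ * φ ≤ 4 / σ ^ 2 * W := by
  have hσ : 0 < σ := by linarith only [h]
  have g2 : 2 * σ * φ ≤ σ * W := by
    have := mul_le_mul_of_nonneg_left hφ1 (by linarith only [h] : 0 ≤ 2 * σ)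
    linarith only [this]
  have g3 : σ * W ≤ 4 / σ ^ 2 * W := by
    apply mul_le_mul_of_nonneg_right _ hW0
    rw [le_div_iff₀ (by positivity)]
    have h1 : σ ≤ 1.5812 := by nlinarith only [hy, hyc]
    have h2 : σ * σ ^ 2 ≤ 1.5812 * 2.5 := by
      apply mul_le_mul h1 (by linarith only [hy, hyc]) (by positivity) (by norm_num)
    linarith only [h2]
  linarith only [g2, g3]

theorem En2 {σ y φ W v : ℝ} (h : 1 ≤ σ) (hy : σ ^ 2 = 1 + y) (hW0 : 0 ≤ W) (hv : v ^ 2 ≤ 1)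
    (hφ2 : φ ^ 2 ≤ W * v ^ 2) : 2 * σ * φ - 4 / σ ^ 2 * W ≤ (1 + y) ^ 2 / 4 := by
  have hσ : 0 < σ := by linarith only [h]
  have hσ4 : σ ^ 4 = (1 + y) ^ 2 := by rw [← hy]; ring
  have g2 : φ ^ 2 ≤ W := by
    have : W * v ^ 2 ≤ W * 1 := mul_le_mul_of_nonneg_left hv hW0
    linarith only [hφ2, this]
  have g3 : 4 / σ ^ 2 * φ ^ 2 ≤ 4 / σ ^ 2 * W := mul_le_mul_of_nonneg_left g2 (by positivity)
  have g4 : 0 ≤ (2 * φ / σ - σ ^ 2 / 2) ^ 2 := sq_nonneg _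
  have e : (2 * φ / σ - σ ^ 2 / 2) ^ 2 = 4 / σ ^ 2 * φ ^ 2 - 2 * σ * φ + σ ^ 4 / 4 := by
    field_simp; ring
  rw [e, hσ4] at g4
  linarith

/-- abstract version, `y ≤ 3/2` -/
theorem En3 {e qb v y a W Z C ρ : ℝ} (g4 : -e ≤ qb * v + y * a) (hneg : e < 0)
    (hWv : v ^ 2 ≤ W) (hW0 : 0 ≤ W) (hZ0 : 0 ≤ Z) (hC : 0 ≤ C) (hya : (y * a) ^ 2 ≤ C * Z)
    (hnum : 0.69445 * qb ^ 2 + C ≤ 0.19 * ρ) : e ^ 2 ≤ 0.19 * ρ * (1.8 * W + Z) := by
  have g5 : e ^ 2 ≤ (qb * v + y * a) ^ 2 := by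
    have : (-e) ^ 2 ≤ (qb * v + y * a) ^ 2 := pow_le_pow_left₀ (by linarith only [hneg]) g4 2
    simpa only [ge_iff_le, even_two, Even.neg_pow] using this
  have g6 : (qb * v) ^ 2 ≤ (qb ^ 2 / 1.8) * (1.8 * W) := by
    have e : (qb ^ 2 / 1.8) * (1.8 * W) = qb ^ 2 * W := by ring
    rw [e]
    have : (qb * v) ^ 2 = qb ^ 2 * v ^ 2 := by ring
    rw [this]
    exact mul_le_mul_of_nonneg_left hWv (sq_nonneg _)
  have g7 := cs3 (by positivity) hC (by positivity) hZ0 g6 hya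
  refine g5.trans (g7.trans ?_)
  apply mul_le_mul_of_nonneg_right _ (by positivity)
  have h1 : qb ^ 2 / 1.8 ≤ 0.69445 * qb ^ 2 := by
    rw [div_le_iff₀ (by norm_num)]
    have := sq_nonneg qb
    linarith only [this]
  linarith only [hnum, h1]

theorem En4 {e qb v y a W Z C ρ σ φ : ℝ} (g4 : -e ≤ (qb * v + 2 * σ * φ) + y * a) (hneg : e < 0)
    (hWv : v ^ 2 + φ ^ 2 ≤ W) (hW0 : 0 ≤ W) (hZ0 : 0 ≤ Z) (hC : 0 ≤ C) (hya : (y * a) ^ 2 ≤ C * Z)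
    (hnum : (qb ^ 2 + 4 * σ ^ 2) / 1.8 + C ≤ 0.19 * ρ) : e ^ 2 ≤ 0.19 * ρ * (1.8 * W + Z) := by
  have g5 : e ^ 2 ≤ ((qb * v + 2 * σ * φ) + y * a) ^ 2 := by
    have : (-e) ^ 2 ≤ ((qb * v + 2 * σ * φ) + y * a) ^ 2 := pow_le_pow_left₀ (by linarith only [hneg]) g4 2
    simpa only [ge_iff_le, even_two, Even.neg_pow] using this
  have g6 : (qb * v + 2 * σ * φ) ^ 2 ≤ ((qb ^ 2 + 4 * σ ^ 2) / 1.8) * (1.8 * W) := by
    have e : ((qb ^ 2 + 4 * σ ^ 2) / 1.8) * (1.8 * W) = (qb ^ 2 + 4 * σ ^ 2) * W := by ring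
    rw [e]
    have g7 : (qb * v + 2 * σ * φ) ^ 2 ≤ (qb ^ 2 + 4 * σ ^ 2) * (v ^ 2 + φ ^ 2) := by
      have : (qb ^ 2 + 4 * σ ^ 2) * (v ^ 2 + φ ^ 2) - (qb * v + 2 * σ * φ) ^ 2 = (qb * φ - 2 * σ * v) ^ 2 := by
        ring
      have := sq_nonneg (qb * φ - 2 * σ * v)
      linarith only [this]
    exact g7.trans (mul_le_mul_of_nonneg_left hWv (by (clear * -; positivity)))
  have g7 := cs3 (by (clear * -; positivity)) hC (by positivity) hZ0 g6 hya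
  refine g5.trans (g7.trans ?_)
  exact mul_le_mul_of_nonneg_right hnum (by (clear * - hW0 hZ0; positivity))

/-- (E) for `u ≤ 0` -/
theorem Eneg {m c σ y a u E N φ ρ : ℝ} (hm : 15 ≤ m) (h : 1 ≤ σ) (hy : σ ^ 2 = 1 + y) (hy0 : 0 < y)
    (ha : 0 ≤ a) (ha2 : a ^ 2 ≤ 0.174 * m) (hu : u ≤ 0) (hu1 : -1 < u)
    (hE : 1 + 2 * a + 2 * a ^ 2 + 4 / 3 * a ^ 3 + 2 / 3 * a ^ 4 ≤ E)
    (hc0 : 0 ≤ c) (hc2 : c ≤ 1) (hN : -φ ≤ N) (hφ0 : 0 ≤ φ)
    (hφ1 : φ ≤ u ^ 2 / (1 + u) / 2) (hφ2 : φ ^ 2 ≤ u ^ 2 / (1 + u) * u ^ 2)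
    (hρ : 0.2 + 0.5 * (m * y) + 13 / 150 * (m * y) ^ 2 ≤ ρ)
    (hnum : 0.69445 * (2 * (σ - 1) + 2 * (1 - 1 / σ ^ 2)) ^ 2 + y * (1 + y) / (m + 3) ≤ 0.19 * ρ) :
    -(ef m c σ y a u E N) ≤ 0.8 * ρ ∧ (ef m c σ y a u E N < 0 → (ef m c σ y a u E N) ^ 2 ≤
      0.19 * ρ * (1.8 * (u ^ 2 / (1 + u)) + (m + 3) * (y / σ ^ 2) * (a ^ 2 * (1 + 2 / 3 * a + 1 / 3 * a ^ 2)))) := by
  have hm0 : 0 < m := by linarith only [hm]
  have hm3 : 0 < m + 3 := by linarith only [hm]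
  have hσ : 0 < σ := by linarith only [h]
  have hU : 0 < 1 + u := by linarith only [hu1]
  have hA := Aneg0 hm h hy ha hu hu1 hE hc0 hc2 hN hφ0
  have hab := a_bound hm ha2
  have hy4 : y ≤ m * y / 15 := by nlinarith only [hm, hy0]
  have hqe := qb_eta hm h hy hy0
  have hCe := C_eta hm hy0
  obtain ⟨η, hη⟩ : ∃ η, η = m * y / 15 := ⟨_, rfl⟩
  rw [← hη] at hy4 hqe hCe
  have hη0 : 0 < η := by linarith only [hy0, hy4]
  have hmy : m * y = 15 * η := by rw [hη]; ring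
  have hρ' : 0.2 + 7.5 * η + 19.5 * η ^ 2 ≤ ρ := by rw [hmy] at hρ; linarith only [hρ]
  have hay : y * a ≤ 1.61565 * η := by
    have h1 : a * y ≤ 0.10771 * m * y := mul_le_mul_of_nonneg_right hab hy0.le
    have h2 : 0.10771 * m * y = 0.10771 * (m * y) := by ring
    rw [h2, hmy] at h1
    linarith only [h1]
  have hq0 := qb_nonneg h
  have hq3 := sqb3 h
  have eσ : σ ^ 2 - 1 = y := by linarith only [hy]
  rw [eσ] at hq3
  have hya := ya_sq (ρ := ρ) hm h hy hy0 ha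
  have hW0 : 0 ≤ u ^ 2 / (1 + u) := by (clear * - hU; positivity)
  have hZ0 : 0 ≤ (m + 3) * (y / σ ^ 2) * (a ^ 2 * (1 + 2 / 3 * a + 1 / 3 * a ^ 2)) := by (clear * - hm hy0 h ha; positivity)
  have hWU : u ^ 2 / (1 + u) * (1 + u) = u ^ 2 := by (clear * - hU; field_simp)
  have hC0 : 0 ≤ y * (1 + y) / (m + 3) := by positivity
  generalize (m + 3) * (y / σ ^ 2) * (a ^ 2 * (1 + 2 / 3 * a + 1 / 3 * a ^ 2)) = Z at *
  generalize u ^ 2 / (1 + u) = W at *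
  generalize 2 * (σ - 1) + 2 * (1 - 1 / σ ^ 2) = qb at *
  generalize ef m c σ y a u E N = e at *
  generalize y * (1 + y) / (m + 3) = C at *
  have hv1 : -u ≤ 1 := by linarith only [hu1]
  have hWu : (-u) ^ 2 ≤ W := by
    have : 0 ≤ W * (-u) := mul_nonneg hW0 (by linarith only [hu])
    have e1 : (-u) ^ 2 = u ^ 2 := by ring
    rw [e1, ← hWU]; linarith only [this]
  have hqv : qb * (-u) ≤ 3 * η := by
    have : qb * (-u) ≤ (3 * y) * 1 := mul_le_mul hq3 hv1 (by linarith only [hu]) (by linarith only [hy0])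
    linarith only [hy4, this]
  have hqv0 : 0 ≤ qb * (-u) := mul_nonneg hq0 (by linarith only [hu])
  have hya0 : 0 ≤ y * a := by (clear * - hy0 ha; positivity)
  have hη2 : 0 ≤ η ^ 2 := sq_nonneg η
  rcases le_total y (3 / 2) with hyc | hyc
  · have g1 := En1 h hy hyc hW0 hφ1
    have g4 : -e ≤ qb * (-u) + y * a := by linarith only [hA, g1]
    exact ⟨by linarith only [g1, hη2, hqv, hA, hay, hρ', hy4, hy0], fun hneg => En3 g4 hneg hWu hW0 hZ0 hC0 hya hnum⟩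
  · have hu2 : u ^ 2 ≤ 1 := (sq_le_one_iff_abs_le_one _).2 (abs_le.2 ⟨by linarith only [hu1], by linarith only [hu]⟩)
    have g1 := En2 h hy hW0 hu2 hφ2
    have hη15 : 1.5 ≤ η := by linarith only [hy4, hyc]
    have h4W : 0 ≤ 4 / σ ^ 2 * W := by (clear * - h hW0; positivity)
    refine ⟨?_, fun hneg => ?_⟩
    · have h5 : (1 + y) ^ 2 ≤ (1 + η) ^ 2 := by
        apply pow_le_pow_left₀ (by linarith only [hyc]) (by linarith only [hy4])
      have h6 : (1 + η) ^ 2 = 1 + 2 * η + η ^ 2 := by ring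
      have h7 : 1.5 * η ≤ η * η := mul_le_mul_of_nonneg_right hη15 hη0.le
      have h8 : η * η = η ^ 2 := by ring
      rw [h8] at h7
      rw [h6] at h5
      clear hnum hya hφ2 hφ1 hN hE ha2 hWU hWu
      linarith only [hy4, hρ', hay, hA, hqv, hyc, g1, h5, h7]
    · have g4 : -e ≤ (qb * (-u) + 2 * σ * φ) + y * a := by linarith only [hA, h4W]
      have g8 : (-u) ^ 2 + φ ^ 2 ≤ W := by
        have e1 : (-u) ^ 2 = W * (1 + u) := by rw [hWU]; ring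
        rw [e1]
        have h9 : u ^ 2 ≤ -u := by
          have : (-u) * (-u) ≤ 1 * (-u) := mul_le_mul_of_nonneg_right hv1 (by linarith only [hu])
          have e2 : (-u) * (-u) = u ^ 2 := by ring
          linarith only [this]
        have : W * (u ^ 2) ≤ W * (-u) := mul_le_mul_of_nonneg_left h9 hW0
        linarith only [hφ2, this]
      refine En4 g4 hneg g8 hW0 hZ0 hC0 hya ?_
      have hp := e2poly hη15
      have h1 : qb ^ 2 ≤ (η * (3 + η) / (1 + η)) ^ 2 := pow_le_pow_left₀ hq0 hqe 2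
      have h2 : (qb ^ 2 + 4 * σ ^ 2) / 1.8 ≤ ((η * (3 + η) / (1 + η)) ^ 2 + 4 * (1 + η)) / 1.8 := by
        apply div_le_div_of_nonneg_right _ (by norm_num)
        rw [hy]; linarith only [hy4, h1]
      linarith only [h2, hp, hCe, hρ']

/-- (E) for `u ≥ 0` -/
theorem Epos {m c σ y a u E N φ ρ : ℝ} (hm : 15 ≤ m) (h : 1 ≤ σ) (hy : σ ^ 2 = 1 + y) (hy0 : 0 < y)
    (ha : 0 ≤ a) (ha2 : a ^ 2 ≤ 0.174 * m) (hu : 0 ≤ u)
    (hE : 1 + 2 * a + 2 * a ^ 2 + 4 / 3 * a ^ 3 + 2 / 3 * a ^ 4 ≤ E)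
    (hφ : φ ≤ u ^ 2 / (2 + u)) (hc0 : 0 ≤ c) (hc2 : c ≤ 1) (hN : -φ ≤ N)
    (hρ : 0.2 + 0.5 * (m * y) + 13 / 150 * (m * y) ^ 2 ≤ ρ) :
    -(ef m c σ y a u E N) ≤ 0.8 * ρ ∧ (ef m c σ y a u E N < 0 → (ef m c σ y a u E N) ^ 2 ≤
      0.19 * ρ * (1.8 * (u ^ 2 / (1 + u)) + (m + 3) * (y / σ ^ 2) * (a ^ 2 * (1 + 2 / 3 * a + 1 / 3 * a ^ 2)))) := by
  have hm0 : 0 < m := by linarith only [hm]
  have hm3 : 0 < m + 3 := by linarith only [hm]
  have hσ : 0 < σ := by linarith only [h]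
  have hA := Apos hm h hy ha hu hE hφ hc0 hc2 hN
  have hab := a_bound hm ha2
  have hy4 : y ≤ m * y / 15 := by nlinarith only [hm, hy0]
  have hCe := C_eta hm hy0
  obtain ⟨η, hη⟩ : ∃ η, η = m * y / 15 := ⟨_, rfl⟩
  rw [← hη] at hy4 hCe
  have hη0 : 0 < η := by linarith only [hy0, hy4]
  have hmy : m * y = 15 * η := by rw [hη]; ring
  have hρ' : 0.2 + 7.5 * η + 19.5 * η ^ 2 ≤ ρ := by rw [hmy] at hρ; linarith only [hρ]
  have hay : y * a ≤ 1.61565 * η := by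
    have h1 : a * y ≤ 0.10771 * m * y := mul_le_mul_of_nonneg_right hab hy0.le
    have h2 : 0.10771 * m * y = 0.10771 * (m * y) := by ring
    rw [h2, hmy] at h1
    linarith only [h1]
  have hη2 : 0 ≤ η ^ 2 := sq_nonneg η
  have hya := ya_sq (ρ := ρ) hm h hy hy0 ha
  have hya0 : 0 ≤ y * a := by (clear * - hy0 ha; positivity)
  refine ⟨by linarith only [hy0, hA, hy4, hρ', hay, hη2], fun hneg => ?_⟩
  have g5 : (ef m c σ y a u E N) ^ 2 ≤ (y * a) ^ 2 := by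
    have : (-(ef m c σ y a u E N)) ^ 2 ≤ (y * a) ^ 2 := pow_le_pow_left₀ (by linarith only [hneg]) hA 2
    simpa only [ge_iff_le, even_two, Even.neg_pow] using this
  refine g5.trans (hya.trans ?_)
  have hZ0 : 0 ≤ (m + 3) * (y / σ ^ 2) * (a ^ 2 * (1 + 2 / 3 * a + 1 / 3 * a ^ 2)) := by (clear * - hm hy0 h ha; positivity)
  have hW0 : 0 ≤ 1.8 * (u ^ 2 / (1 + u)) := by (clear * - hu; positivity)
  have hρ0 : 0 ≤ ρ := by linarith only [hy0, hy4, hρ', hη2]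
  apply mul_le_mul _ (by linarith only [hW0]) hZ0 (by linarith only [hy0, hy4, hρ', hη2])
  linarith only [hy0, hCe, hy4, hρ', hη2]
end FNeg
end Vale.Agent.P237.AllN
end

section

/-!
# P237, block D, `x ≥ 7/10`, `l > 0`: the correction term
-/

open Real

namespace Vale.Agent.P237.AllN

open Corr

theorem fxr_G5 {x l : ℝ} (hz : 49 / 100 ≤ x ^ 2) (hx0 : 0 < x) (hx1 : x < 1)
    (h1 : x * exp l ≤ 1) :
    -(5 * (x ^ 2 / sq x ^ 3) * l ^ 2) ≤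
      2 * (bg (x * exp l) - bg x + x ^ 2 * l / (sq x * (1 + sq x) ^ 2)) := by
  obtain ⟨a1, -⟩ := Corr.sq_facts hx0 hx1 h1
  have h := mul_le_mul_of_nonneg_left (corr_B hx0 hx1 (by linarith) h1)
    (show 0 ≤ 2 / sq x by positivity)
  have e : 2 / sq x * (sq x * (bg (x * exp l) - bg x) + x ^ 2 * l / (1 + sq x) ^ 2) =
      2 * (bg (x * exp l) - bg x + x ^ 2 * l / (sq x * (1 + sq x) ^ 2)) := by
    field_simp
  rw [e] at h
  refine le_trans ?_ h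
  have e2 : 2 / sq x * (-(2 * (x ^ 2 / sq x ^ 2)) * l ^ 2) = -(4 * (x ^ 2 / sq x ^ 3) * l ^ 2) := by
    field_simp
    ring
  rw [e2]
  have : 0 ≤ x ^ 2 / sq x ^ 3 * l ^ 2 := by positivity
  linarith only [this]

end Vale.Agent.P237.AllN
end

section

/-!
# P237, block D, region `X ≥ 3`: lower bound of the correction term, in terms of `h = z (e^{2l} - 1)`

From `v ≥ 2 s v²/(s²+v²)`, `v = sq (x e^l)`, `s = sq x`, `v² = s² - h`.
-/

set_option linter.all false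

open Set Real

namespace Vale.Agent.P237.AllN

theorem fxa_den {s h : ℝ} (hs : 0 < s) (hh : h ≤ s ^ 2) :
    s ^ 2 ≤ 2 * s ^ 2 * (1 + s) - h * (1 + 2 * s) := by
  linarith only [mul_le_mul_of_nonneg_right hh (by linarith : (0 : ℝ) ≤ 1 + 2 * s)]

/-- algebraic form of the bound: `v/(1+v) - s/(1+s)`, `v² = s² - h` -/
theorem fxa_alg {s v h : ℝ} (hs : 0 < s) (hv : 0 ≤ v) (hvs : v ^ 2 = s ^ 2 - h) :
    -(s * h / ((1 + s) * (2 * s ^ 2 * (1 + s) - h * (1 + 2 * s)))) ≤ v / (1 + v) - s / (1 + s) := by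
  have hh : h ≤ s ^ 2 := by linarith only [sq_nonneg v, hvs]
  have hden := fxa_den hs hh
  have hD : 0 < 2 * s ^ 2 * (1 + s) - h * (1 + 2 * s) := by linarith only [sq_pos_of_pos hs, hden]
  have e1 : v / (1 + v) - s / (1 + s) = (v - s) / ((1 + v) * (1 + s)) := by
    field_simp; ring
  rw [e1, ← neg_div, div_le_div_iff₀ (by positivity) (by positivity)]
  -- `- s h (1+v)(1+s) ≤ (v-s)(1+s) D`
  have key : -(s * h) * (1 + v) ≤ (v - s) * (2 * s ^ 2 * (1 + s) - h * (1 + 2 * s)) := by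
    have hh2 : h = s ^ 2 - v ^ 2 := by linarith
    subst hh2
    have : (v - s) * (2 * s ^ 2 * (1 + s) - (s ^ 2 - v ^ 2) * (1 + 2 * s)) - -(s * (s ^ 2 - v ^ 2)) * (1 + v)
        = (v - s) ^ 2 * v * (1 + s) := by ring
    have h3 : 0 ≤ (v - s) ^ 2 * v * (1 + s) := by positivity
    linarith
  have := mul_le_mul_of_nonneg_left key (by linarith : (0 : ℝ) ≤ 1 + s)
  linarith only [this]

/-- **(b)** the increment of `bg` -/
theorem fxa_bg {x l : ℝ} (hx : x ∈ Ioo (0 : ℝ) 1) (h1 : x * exp l ≤ 1) :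
    -(sq x * (x ^ 2 * (exp (2 * l) - 1)) /
        ((1 + sq x) * (2 * sq x ^ 2 * (1 + sq x) - (x ^ 2 * (exp (2 * l) - 1)) * (1 + 2 * sq x)))) ≤
      bg (x * exp l) - bg x := by
  have hτ0 : 0 < x * exp l := mul_pos hx.1 (exp_pos l)
  have hs2 : sq x ^ 2 = 1 - x ^ 2 := br_sq_sq ⟨by linarith [hx.1], hx.2.le⟩
  have hS2 : sq (x * exp l) ^ 2 = 1 - (x * exp l) ^ 2 := br_sq_sq ⟨by linarith, h1⟩
  have hs0 : 0 < sq x := br_sq_pos ⟨by linarith [hx.1], hx.2⟩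
  have he : exp (2 * l) = exp l ^ 2 := by rw [← exp_nat_mul]; norm_num
  have h := fxa_alg (s := sq x) (v := sq (x * exp l)) (h := x ^ 2 * (exp (2 * l) - 1)) hs0
    (br_sq_nonneg _) (by rw [hS2, hs2, he]; ring)
  exact h

/-- **(b)** the correction term -/
theorem fxa_corr {x l : ℝ} (hx : x ∈ Ioo (0 : ℝ) 1) (h1 : x * exp l ≤ 1) :
    2 * (x ^ 2 / (sq x * (1 + sq x) ^ 2) * l - sq x * (x ^ 2 * (exp (2 * l) - 1)) /
        ((1 + sq x) * (2 * sq x ^ 2 * (1 + sq x) - (x ^ 2 * (exp (2 * l) - 1)) * (1 + 2 * sq x)))) ≤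
      2 * (bg (x * exp l) - bg x + x ^ 2 / (sq x * (1 + sq x) ^ 2) * l) := by
  have := fxa_bg hx h1
  linarith

/-- the same with `z = x²`, `s = sq x`, `E = exp (-(2 l))`, `h = z (1-E)/E` -/
theorem fxa_corr' {x l z s E : ℝ} (hx : x ∈ Ioo (0 : ℝ) 1) (h1 : x * exp l ≤ 1)
    (hz : z = x ^ 2) (hs : s = sq x) (hE : E = exp (-(2 * l))) :
    2 * (z / (s * (1 + s) ^ 2) * l - s * (z * (1 - E) / E) /
        ((1 + s) * (2 * s ^ 2 * (1 + s) - (z * (1 - E) / E) * (1 + 2 * s)))) ≤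
      2 * (bg (x * exp l) - bg x + x ^ 2 / (sq x * (1 + sq x) ^ 2) * l) := by
  have h := fxa_corr hx h1
  have e : z * (1 - E) / E = x ^ 2 * (exp (2 * l) - 1) := by
    rw [hz, hE, exp_neg]
    have := exp_pos (2 * l)
    field_simp
  rw [e, hz, hs]
  exact h

/-- `h = z (1-E)/E` satisfies `h ≤ s²` iff `z ≤ E`; the denominator is `≥ s²` -/
theorem fxa_den' {z s E : ℝ} (hs : 0 < s) (hs2 : s ^ 2 = 1 - z) (hE : 0 < E) (hzE : z ≤ E) :
    s ^ 2 ≤ 2 * s ^ 2 * (1 + s) - (z * (1 - E) / E) * (1 + 2 * s) := by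
  apply fxa_den hs
  rw [hs2, div_le_iff₀ hE]
  linarith only [hzE]

end Vale.Agent.P237.AllN
end

section

/-!
# P237, block D, `X ≥ 3`: rational lower bound of the logarithm
-/

open Set

namespace Vale.Agent.P237.AllN

/-- `-log E ≥ (1-E)(11+38E+11E²)/(3(1+E)(1+8E+E²))` -/
theorem xs_log_ge {E : ℝ} (h0 : 0 < E) (h1 : E ≤ 1) :
    (1 - E) * (11 + 38 * E + 11 * E ^ 2) / (3 * (1 + E) * (1 + 8 * E + E ^ 2)) ≤
      -Real.log E := by
  have hd : ∀ t ∈ Ioi (0 : ℝ), HasDerivAt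
      (fun t : ℝ => -Real.log t -
        (1 - t) * (11 + 38 * t + 11 * t ^ 2) / (3 * (1 + t) * (1 + 8 * t + t ^ 2)))
      (-(9 * (1 - t) ^ 6) / (t * (3 * (1 + t) * (1 + 8 * t + t ^ 2)) ^ 2)) t := by
    intro t ht
    have ht' : (0 : ℝ) < t := ht
    have a1 : HasDerivAt (fun t : ℝ => (1 - t) * (11 + 38 * t + 11 * t ^ 2))
        (27 - 54 * t - 33 * t ^ 2) t := by
      have b1 := ((hasDerivAt_id t).const_sub 1)
      have b2 := (((hasDerivAt_id t).const_mul 38).const_add 11).add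
        (((hasDerivAt_id t).pow 2).const_mul 11)
      refine (b1.mul b2).congr_deriv ?_
      simp only [id, Pi.add_apply]
      norm_num
      ring
    have a2 : HasDerivAt (fun t : ℝ => 3 * (1 + t) * (1 + 8 * t + t ^ 2))
        (27 + 54 * t + 9 * t ^ 2) t := by
      have b1 := ((hasDerivAt_id t).const_add 1).const_mul 3
      have b2 := (((hasDerivAt_id t).const_mul 8).const_add 1).add ((hasDerivAt_id t).pow 2)
      refine (b1.mul b2).congr_deriv ?_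
      simp only [id, Pi.add_apply]
      norm_num
      ring
    have hq : (3 * (1 + t) * (1 + 8 * t + t ^ 2)) ≠ 0 := by positivity
    have a3 := (Real.hasDerivAt_log ht'.ne').neg.sub (a1.div a2 hq)
    refine a3.congr_deriv ?_
    have : 1 + t ≠ 0 := by positivity
    have : 1 + 8 * t + t ^ 2 ≠ 0 := by positivity
    field_simp
    ring
  have key : AntitoneOn (fun t : ℝ => -Real.log t -
        (1 - t) * (11 + 38 * t + 11 * t ^ 2) / (3 * (1 + t) * (1 + 8 * t + t ^ 2))) (Ioc 0 1) := by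
    apply antitoneOn_of_deriv_nonpos (convex_Ioc 0 1)
    · intro t ht
      exact (hd t ht.1).continuousAt.continuousWithinAt
    · intro t ht
      rw [interior_Ioc] at ht
      exact (hd t ht.1).differentiableAt.differentiableWithinAt
    · intro t ht
      rw [interior_Ioc] at ht
      rw [(hd t ht.1).deriv]
      have ht' : (0 : ℝ) < t := ht.1
      apply div_nonpos_of_nonpos_of_nonneg
      · have : 0 ≤ (1 - t) ^ 6 := by positivity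
        linarith
      · positivity
  have h := key ⟨h0, h1⟩ ⟨zero_lt_one, le_rfl⟩ h1
  simp only [Real.log_one, sub_self, zero_mul, zero_div, neg_zero] at h
  linarith

end Vale.Agent.P237.AllN
end

section

/-!
# P237, block D, region `X ≥ 3`, `u ≥ 0`, `z ≤ 1/5`: real-variable form of the checked inequalities
-/

namespace Vale.Agent.P237.AllN

open PolyPos

namespace FXu

/-- coefficient of `λ²` -/
noncomputable def c2r (z r : ℝ) : ℝ :=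
  3 / 100 * (1 + 3 * z * r) * (1 + z + z ^ 2 - 3 * r) - 88 * z ^ 6 * r ^ 2

/-- coefficient of `λ` -/
noncomputable def c1r (z r : ℝ) : ℝ :=
  r * (1 + 3 * z * r) + z * r ^ 2 / 4 + 3 / 4 * z * (2 * r + r ^ 2 * (10 * z - 3)) +
  5 / 8 * z ^ 2 * (3 * r + r ^ 2 * (21 * z - 10)) + 35 / 64 * z ^ 3 * (4 * r + r ^ 2 * (36 * z - 21)) +
  63 / 128 * z ^ 4 * (5 * r + r ^ 2 * (55 * z - 36)) +
  231 / 512 * z ^ 5 * (6 * r + r ^ 2 * (78 * z - 55))

/-- constant coefficient (`q = r / E`) -/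
noncomputable def c0r (t E z r q : ℝ) : ℝ :=
  r * (1 + 3 * z * r) * (E - 1) - r ^ 2 * (t - z) * (1 + 91 / 100 * z) +
  3 / 4 * (r * (z * (3 * E ^ 2 - 2) / 4) - q * t / 4 + r ^ 2 * (5 * (z * (z * (3 * E ^ 2 - 2) / 4) - t ^ 2 / 4) -
    3 / 2 * z * (E ^ 2 - 1))) +
  5 / 8 * (r * (z ^ 2 * (5 * E ^ 3 - 4) / 6) - q * t ^ 2 / 6 + r ^ 2 * (7 * (z * (z ^ 2 * (5 * E ^ 3 - 4) / 6) -
    t ^ 3 / 6) - 10 / 3 * z ^ 2 * (E ^ 3 - 1))) +
  35 / 64 * (r * (z ^ 3 * (7 * E ^ 4 - 6) / 8) - q * t ^ 3 / 8 + r ^ 2 * (9 * (z * (z ^ 3 * (7 * E ^ 4 - 6) / 8) -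
    t ^ 4 / 8) - 21 / 4 * z ^ 3 * (E ^ 4 - 1))) +
  63 / 128 * (r * (z ^ 4 * (9 * E ^ 5 - 8) / 10) - q * t ^ 4 / 10 + r ^ 2 * (11 * (z * (z ^ 4 * (9 * E ^ 5 - 8) / 10) -
    t ^ 5 / 10) - 36 / 5 * z ^ 4 * (E ^ 5 - 1))) +
  231 / 512 * (r * (z ^ 5 * (11 * E ^ 6 - 10) / 12) - q * t ^ 5 / 12 + r ^ 2 * (13 * (z * (z ^ 5 * (11 * E ^ 6 - 10) / 12) -
    t ^ 6 / 12) - 55 / 6 * z ^ 5 * (E ^ 6 - 1)))

theorem C2_R (t E Z : ℝ) : C2.R t E Z = c2r (t * E) (10 / 33 * Z * E) := by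
  simp only [C2, z1, rr, qq, z2, z6, z3, Ex3.R_sub, Ex3.R_mul, Ex3.R_c, Fr.R, Ex3.R_add, Ex3.R_X, Ex3.R_Y, Ex3.R_Z, c2r]
  push_cast
  ring

theorem C1_R (t E Z : ℝ) : C1.R t E Z = c1r (t * E) (10 / 33 * Z * E) := by
  simp only [C1, c1r, R13, rr, qq, z1, z2, z3, z4, z5, Ex3.R_add, Ex3.R_sub, Ex3.R_mul, Ex3.R_c,
    Ex3.R_X, Ex3.R_Y, Ex3.R_Z, Fr.R]
  push_cast
  ring

theorem C0_R (t E Z : ℝ) :
    C0.R t E Z = c0r t E (t * E) (10 / 33 * Z * E) (10 / 33 * Z) := by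
  simp only [C0, c0r, R13, rr, qq, z1, z2, z3, z4, z5, t2, t3, t4, t5, t6, E2, E3, E4, E5, E6,
    br2, br3, br4, br5, br6, Ex3.R_add, Ex3.R_sub, Ex3.R_mul, Ex3.R_c,
    Ex3.R_X, Ex3.R_Y, Ex3.R_Z, Fr.R]
  push_cast
  ring


/-- `w² c2r` -/
noncomputable def W2 (z w : ℝ) : ℝ :=
  3 / 100 * (w + 3 * z) * (w * (1 + z + z ^ 2) - 3) - 88 * z ^ 6

/-- `w² c1r` -/
noncomputable def W1 (z w : ℝ) : ℝ :=
  (w + 3 * z) + z / 4 + 3 / 4 * z * (2 * w + (10 * z - 3)) +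
  5 / 8 * z ^ 2 * (3 * w + (21 * z - 10)) + 35 / 64 * z ^ 3 * (4 * w + (36 * z - 21)) +
  63 / 128 * z ^ 4 * (5 * w + (55 * z - 36)) +
  231 / 512 * z ^ 5 * (6 * w + (78 * z - 55))

/-- `w² c0r` for `t = z B`, `q = r B` -/
noncomputable def W0 (z w E B : ℝ) : ℝ :=
  (w + 3 * z) * (E - 1) - (z * B - z) * (1 + 91 / 100 * z) +
  3 / 4 * (w * (z * (3 * E ^ 2 - 2) / 4) - w * B * (z * B) / 4 + (5 * (z * (z * (3 * E ^ 2 - 2) / 4) - (z * B) ^ 2 / 4) -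
    3 / 2 * z * (E ^ 2 - 1))) +
  5 / 8 * (w * (z ^ 2 * (5 * E ^ 3 - 4) / 6) - w * B * (z * B) ^ 2 / 6 + (7 * (z * (z ^ 2 * (5 * E ^ 3 - 4) / 6) -
    (z * B) ^ 3 / 6) - 10 / 3 * z ^ 2 * (E ^ 3 - 1))) +
  35 / 64 * (w * (z ^ 3 * (7 * E ^ 4 - 6) / 8) - w * B * (z * B) ^ 3 / 8 + (9 * (z * (z ^ 3 * (7 * E ^ 4 - 6) / 8) -
    (z * B) ^ 4 / 8) - 21 / 4 * z ^ 3 * (E ^ 4 - 1))) +
  63 / 128 * (w * (z ^ 4 * (9 * E ^ 5 - 8) / 10) - w * B * (z * B) ^ 4 / 10 + (11 * (z * (z ^ 4 * (9 * E ^ 5 - 8) / 10) -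
    (z * B) ^ 5 / 10) - 36 / 5 * z ^ 4 * (E ^ 5 - 1))) +
  231 / 512 * (w * (z ^ 5 * (11 * E ^ 6 - 10) / 12) - w * B * (z * B) ^ 5 / 12 + (13 * (z * (z ^ 5 * (11 * E ^ 6 - 10) / 12) -
    (z * B) ^ 6 / 12) - 55 / 6 * z ^ 5 * (E ^ 6 - 1)))

theorem W2_eq {z w r : ℝ} (hr : r * w = 1) : w ^ 2 * c2r z r = W2 z w := by
  have e1 : w ^ 2 * r = w := by linear_combination w * hr
  have e2 : w ^ 2 * r ^ 2 = 1 := by linear_combination (r * w + 1) * hr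
  simp only [c2r, W2]
  linear_combination (3 / 100 * (3 * z * (1 + z + z ^ 2) - 3)) * e1 +
    (-(27 / 100) * z - 88 * z ^ 6) * e2

theorem W1_eq {z w r : ℝ} (hr : r * w = 1) : w ^ 2 * c1r z r = W1 z w := by
  have hw : w ≠ 0 := by rintro rfl; simp only [mul_zero, zero_ne_one] at hr
  have hr' : r = 1 / w := by field_simp; exact hr
  subst hr'
  simp only [c1r, W1]
  (clear * - hw; field_simp)

theorem W0_eq {z w r E B : ℝ} (hr : r * w = 1) :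
    w ^ 2 * c0r (z * B) E z r (r * B) = W0 z w E B := by
  have hw : w ≠ 0 := by rintro rfl; simp at hr
  have hr' : r = 1 / w := by field_simp; exact hr
  subst hr'
  simp only [c0r, W0]
  field_simp

/-- `1 + 5/2 z + 35/8 z² + 105/16 z³ + 1155/128 z⁴` -/
def T5E : Ex := Ex.c ⟨1, 0⟩ + Ex.c ⟨5, 1⟩ * Ex.X + Ex.c ⟨35, 7⟩ * (Ex.X * Ex.X) +
  Ex.c ⟨105, 15⟩ * (Ex.X * Ex.X * Ex.X) + Ex.c ⟨1155, 127⟩ * (Ex.X * Ex.X * (Ex.X * Ex.X))
def omE : Ex := Ex.c ⟨1, 0⟩ - Ex.X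
def s5E : Ex := Ex.c ⟨1, 0⟩ - omE * omE * omE * omE * omE * (T5E * T5E)

theorem chk_s5 : Ex.nn (2 ^ 1024) 40 4000 0 1 5 0 1 1 s5E = true := by (clear * -; decide +kernel)

/-- Taylor polynomial of `(1-z)^{-5/2}` -/
theorem inv_s5 {z s : ℝ} (hz : 0 < z) (hz5 : z ≤ 1 / 5) (hs : 0 < s) (hsz : s ^ 2 = 1 - z) :
    1 + 5 / 2 * z + 35 / 8 * z ^ 2 + 105 / 16 * z ^ 3 + 1155 / 128 * z ^ 4 ≤ 1 / s ^ 5 := by
  have h := Ex.nn_closed (x := z) (y := 0) (by norm_num) (by norm_num) (by norm_num) (by norm_num)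
    chk_s5 (by push_cast; linarith only [hz]) (by push_cast; linarith only [hz5]) (by push_cast; linarith only [])
    (by push_cast; linarith only [])
  simp only [s5E, omE, T5E, Ex.R_add, Ex.R_sub, Ex.R_mul, Ex.R_c, Ex.R_X, Fr.R] at h
  push_cast at h
  set T := 1 + 5 / 2 * z + 35 / 8 * z ^ 2 + 105 / 16 * z ^ 3 + 1155 / 128 * z ^ 4 with hT
  have hT0 : 0 ≤ T := by positivity
  rw [le_div_iff₀ (by positivity)]
  have h1 : (T * s ^ 5) ^ 2 ≤ 1 ^ 2 := by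
    have e : (T * s ^ 5) ^ 2 = T ^ 2 * (s ^ 2) ^ 5 := by ring
    rw [e, hsz, hT]
    linarith
  exact le_of_sq_le_sq h1 (by norm_num)

/-- identity for the kernel part -/
theorem dpS0_W {m z l w : ℝ} (hw : w = m * z) :
    W2 z w * (2 * l) ^ 2 + W1 z w * (2 * l) + W0 z w (Real.exp (-(2 * l))) (Real.exp (2 * l)) =
      (m + 3) * z * (Real.exp (-(2 * l)) - 1 + 2 * l) +
      3 * z * (w - 3) * (1 + 5 / 2 * z + 35 / 8 * z ^ 2 + 105 / 16 * z ^ 3 + 1155 / 128 * z ^ 4) * l ^ 2 +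
      dpS0 m z l + 3 / 25 * (w + 3 * z) * (w * (1 + z + z ^ 2) - 3) * l ^ 2 -
      (z * Real.exp (2 * l) - z) * (1 + 91 / 100 * z) + z * l / 2 -
      (352 - 39 * (1155 / 128)) * z ^ 6 * l ^ 2 := by
  have e2 : Real.exp (-(4 * l)) = Real.exp (-(2 * l)) ^ 2 := by
    rw [← Real.exp_nat_mul]; congr 1; push_cast; ring
  have e3 : Real.exp (-(6 * l)) = Real.exp (-(2 * l)) ^ 3 := by
    rw [← Real.exp_nat_mul]; congr 1; push_cast; ring
  have e4 : Real.exp (-(8 * l)) = Real.exp (-(2 * l)) ^ 4 := by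
    rw [← Real.exp_nat_mul]; congr 1; push_cast; ring
  have e5 : Real.exp (-(10 * l)) = Real.exp (-(2 * l)) ^ 5 := by
    rw [← Real.exp_nat_mul]; congr 1; push_cast; ring
  have e6 : Real.exp (-(12 * l)) = Real.exp (-(2 * l)) ^ 6 := by
    rw [← Real.exp_nat_mul]; congr 1; push_cast; ring
  have f2 : Real.exp (4 * l) = Real.exp (2 * l) ^ 2 := by
    rw [← Real.exp_nat_mul]; congr 1; push_cast; ring
  have f3 : Real.exp (6 * l) = Real.exp (2 * l) ^ 3 := by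
    rw [← Real.exp_nat_mul]; congr 1; push_cast; ring
  have f4 : Real.exp (8 * l) = Real.exp (2 * l) ^ 4 := by
    rw [← Real.exp_nat_mul]; congr 1; push_cast; ring
  have f5 : Real.exp (10 * l) = Real.exp (2 * l) ^ 5 := by
    rw [← Real.exp_nat_mul]; congr 1; push_cast; ring
  have f6 : Real.exp (12 * l) = Real.exp (2 * l) ^ 6 := by
    rw [← Real.exp_nat_mul]; congr 1; push_cast; ring
  simp only [dpS0, kpt, kct, e2, e3, e4, e5, e6, f2, f3, f4, f5, f6]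
  generalize Real.exp (-(2 * l)) = E
  generalize Real.exp (2 * l) = B
  subst hw
  simp only [W2, W1, W0]
  ring

/-- the `(l, 0)`-part of `T` -/
noncomputable def Apart (m z s l G : ℝ) : ℝ :=
  (m + 3) * z * (Real.exp (-(2 * l)) - 1 + 2 * l) +
  (3 * (m - 3) * (z ^ 2 / s ^ 5) - 9 * (z / s ^ 3)) * l ^ 2 + dpS0 m z l + G +
  3 / 25 * (m + 3) * z * (m * (z / s ^ 2) - 3) * l ^ 2

theorem A_aux {m z s l : ℝ} (hz : 0 < z) (hz5 : z ≤ 1 / 5) (hs : 0 < s) (hsz : s ^ 2 = 1 - z)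
    (hw : 9 ≤ m * z) :
    3 * z * (m * z - 3) * (1 + 5 / 2 * z + 35 / 8 * z ^ 2 + 105 / 16 * z ^ 3 + 1155 / 128 * z ^ 4) *
      l ^ 2 + 3 / 25 * (m * z + 3 * z) * (m * z * (1 + z + z ^ 2) - 3) * l ^ 2 ≤
    (3 * (m - 3) * (z ^ 2 / s ^ 5) - 9 * (z / s ^ 3)) * l ^ 2 +
      3 / 25 * (m + 3) * z * (m * (z / s ^ 2) - 3) * l ^ 2 := by
  have h1 := inv_s5 hz hz5 hs hsz
  have e1 : 3 * (m - 3) * (z ^ 2 / s ^ 5) - 9 * (z / s ^ 3) = 3 * z * (m * z - 3) * (1 / s ^ 5) := by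
    field_simp
    rw [hsz]
    ring
  have h2 : 1 + z + z ^ 2 ≤ 1 / s ^ 2 := by
    rw [le_div_iff₀ (by positivity), hsz]
    nlinarith only [hz]
  have e2 : m * (z / s ^ 2) = m * z * (1 / s ^ 2) := by ring
  rw [e1, e2]
  have h3 : 3 * z * (m * z - 3) * (1 + 5 / 2 * z + 35 / 8 * z ^ 2 + 105 / 16 * z ^ 3 +
      1155 / 128 * z ^ 4) * l ^ 2 ≤ 3 * z * (m * z - 3) * (1 / s ^ 5) * l ^ 2 := by
    apply mul_le_mul_of_nonneg_right _ (sq_nonneg l)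
    exact mul_le_mul_of_nonneg_left h1 (mul_nonneg (by positivity) (by linarith only [hw]))
  have h4 : 3 / 25 * (m * z + 3 * z) * (m * z * (1 + z + z ^ 2) - 3) * l ^ 2 ≤
      3 / 25 * (m + 3) * z * (m * z * (1 / s ^ 2) - 3) * l ^ 2 := by
    apply mul_le_mul_of_nonneg_right _ (sq_nonneg l)
    have e3 : 3 / 25 * (m + 3) * z = 3 / 25 * (m * z + 3 * z) := by ring
    rw [e3]
    apply mul_le_mul_of_nonneg_left _ (by positivity)
    have := mul_le_mul_of_nonneg_left h2 (by linarith only [hw] : 0 ≤ m * z)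
    linarith only [this]
  linarith only [h3, h4]

/-- lower bound of the `(l, 0)`-part of `T` for all `l` -/
theorem A_ge {m z s l G r : ℝ} (hz : 0 < z) (hz5 : z ≤ 1 / 5) (hs : 0 < s) (hsz : s ^ 2 = 1 - z)
    (hw : 9 ≤ m * z) (hr : r * (m * z) = 1) (hl : 0 ≤ l)
    (hG : -(2 * (z * Real.exp (2 * l) - z) / (s * (1 + s))) + 2 * z * l / (s * (1 + s) ^ 2) ≤ G) :
    (m * z) ^ 2 * (c2r z r * (2 * l) ^ 2 + c1r z r * (2 * l) +
      c0r (z * Real.exp (2 * l)) (Real.exp (-(2 * l))) z r (r * Real.exp (2 * l))) ≤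
      Apart m z s l G := by
  have e0 : (m * z) ^ 2 * (c2r z r * (2 * l) ^ 2 + c1r z r * (2 * l) +
      c0r (z * Real.exp (2 * l)) (Real.exp (-(2 * l))) z r (r * Real.exp (2 * l))) =
      W2 z (m * z) * (2 * l) ^ 2 + W1 z (m * z) * (2 * l) +
        W0 z (m * z) (Real.exp (-(2 * l))) (Real.exp (2 * l)) := by
    rw [← W2_eq hr, ← W1_eq hr, ← W0_eq hr]
    ring
  rw [e0, dpS0_W rfl]
  have hs1 : s ≤ 1 := by nlinarith only [hsz, hz]
  have hs2 : 89 / 100 ≤ s := by nlinarith only [hz5, hsz, hs]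
  have h1 := A_aux (l := l) hz hz5 hs hsz hw
  have hB : 1 ≤ Real.exp (2 * l) := Real.one_le_exp (by linarith only [hl])
  have h2 : 2 * (z * Real.exp (2 * l) - z) / (s * (1 + s)) ≤
      (z * Real.exp (2 * l) - z) * (1 + 91 / 100 * z) := by
    have h3 : 2 / (s * (1 + s)) ≤ 1 + 91 / 100 * z := by
      rw [div_le_iff₀ (by positivity)]
      have hz' : z = 1 - s ^ 2 := by linarith only [hsz]
      rw [hz']
      nlinarith only [hz, hsz, hs2, mul_nonneg (mul_nonneg (sub_nonneg.2 hs2) (sub_nonneg.2 hs1)) (sq_nonneg s)]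
    have h4 : 0 ≤ z * Real.exp (2 * l) - z := by nlinarith only [hz, hB]
    have := mul_le_mul_of_nonneg_left h3 h4
    calc 2 * (z * Real.exp (2 * l) - z) / (s * (1 + s)) =
        (z * Real.exp (2 * l) - z) * (2 / (s * (1 + s))) := by ring
      _ ≤ _ := this
  have h5 : z * l / 2 ≤ 2 * z * l / (s * (1 + s) ^ 2) := by
    rw [le_div_iff₀ (by positivity)]
    have h6 : s * (1 + s) ^ 2 ≤ 4 := by nlinarith only [hz, hsz]
    linarith only [mul_le_mul_of_nonneg_left h6 (by positivity : 0 ≤ z * l)]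
  have h7 : 0 ≤ (352 - 39 * (1155 / 128)) * z ^ 6 * l ^ 2 := by (clear * - hz; positivity)
  simp only [Apart]
  linarith

end FXu

end Vale.Agent.P237.AllN
end

section

/-!
# P237, block D, region `X ≥ 3`, `u ≥ 0`, `z ≤ 1/5`: reduction of `T`, `e` and the part `l ≥ 1/2`
-/

namespace Vale.Agent.P237.AllN

open PolyPos

namespace FXu

theorem T_eq (m z s l u G N : ℝ) : dpT m z s l u G N = Apart m z s l G +
      4 * s ^ 2 * Real.exp (-(2 * l)) * (u ^ 2 / (1 + u)) - 6 / 25 * ((m + 3) * z) * (u * l) +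
      (4 / s - 4 * s / (1 + s) - 2 * s ^ 2 - 6 * (z / s ^ 3) * l + ksC z s l) * (u ^ 2 / (1 + u)) +
      2 * (m + 1) / ((m - 1) * s) * N := by
  simp only [dpT, Apart, dpS_eq]
  ring

theorem e_eq {m z s : ℝ} (hsz : s ^ 2 = 1 - z) (l u c N : ℝ) :
    dpE m z s l u c N = (m + 3) * z * (Real.exp (-(2 * l)) - 1 + 2 * l) +
        4 * s ^ 2 * Real.exp (-(2 * l)) * (u ^ 2 / (1 + u)) + 2 * c * (1 / s) * N +
        (2 * z + 2 * c * (1 / s - 1)) * u +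
        (2 * c * (1 / s - 1) - 2 * ((1 - c) * m) * (z / s ^ 2)) * l := by
  simp only [dpE]
  rw [show 2 * c / s - 2 * s ^ 2 + 2 * (1 - c) = 2 * z + 2 * c * (1 / s - 1) by rw [hsz]; ring]
  ring

theorem kappa {m s : ℝ} (hm : 45 ≤ m) (hs : 0 < s) :
    2 / s ≤ 2 * (m + 1) / ((m - 1) * s) ∧ 2 * (m + 1) / ((m - 1) * s) ≤ 23 / 11 / s := by
  have hm1 : 0 < m - 1 := by linarith only [hm]
  constructor
  · rw [div_le_div_iff₀ hs (by positivity)]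
    linarith
  · rw [div_div, div_le_div_iff₀ (by positivity) (by positivity)]
    nlinarith only [hm, hs]

theorem c_facts {m c : ℝ} (hm : 45 ≤ m) (hc1 : 1 - 1 / (2 * m) ≤ c) :
    89 / 90 ≤ c ∧ (1 - c) * m ≤ 1 / 2 := by
  have hm0 : 0 < m := by linarith only [hm]
  constructor
  · have : 1 / (2 * m) ≤ 1 / 90 := by
      apply one_div_le_one_div_of_le (by norm_num); linarith only [hm]
    linarith only [hc1, this]
  · have h1 : 1 - c ≤ 1 / (2 * m) := by linarith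
    have h2 := mul_le_mul_of_nonneg_right h1 hm0.le
    have h3 : 1 / (2 * m) * m = 1 / 2 := by field_simp
    linarith only [h2, h3]

theorem kappa2 {m s c : ℝ} (hm : 45 ≤ m) (hs : 0 < s) (hc1 : 1 - 1 / (2 * m) ≤ c) :
    2 * (m + 1) / ((m - 1) * s) ≤ (2 * c + 1 / 8) * (1 / s) := by
  have h := (kappa hm hs).2
  obtain ⟨h1, -⟩ := c_facts hm hc1
  refine h.trans ?_
  have e : 23 / 11 / s = 23 / 11 * (1 / s) := by ring
  rw [e]
  have hs' : 0 < 1 / s := by positivity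
  exact mul_le_mul_of_nonneg_right (by linarith only [h1]) hs'.le

theorem W_nn {u : ℝ} (hu : 0 ≤ u) : 0 ≤ u ^ 2 / (1 + u) := by (clear * - hu; positivity)

theorem log_le {u : ℝ} (hu : 0 ≤ u) : Real.log (1 + u) ≤ u := by
  have := Real.log_le_sub_one_of_pos (by linarith : 0 < 1 + u)
  linarith only [this]

/-- `T ≥ ..` from a lower bound of the `(l,0)`-part -/
theorem red_T {m z s l u G N A0 φ : ℝ} (hm : 45 ≤ m) (hz : 0 < z) (hs : 0 < s)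
    (hsz : s ^ 2 = 1 - z) (hT : z * Real.exp (2 * l) ≤ 1) (hu : 0 ≤ u)
    (hN : Real.log (1 + u) - u ≤ N)
    (hφ : u - Real.log (1 + u) ≤ φ) (hA : A0 ≤ Apart m z s l G) :
    A0 + 4 * s ^ 2 * Real.exp (-(2 * l)) * (u ^ 2 / (1 + u)) - 6 / 25 * ((m + 3) * z) * (u * l) -
        23 / 11 / s * φ ≤ dpT m z s l u G N := by
  have hKW := mul_nonneg (kK3 hz hs hsz hT) (W_nn hu)
  rw [T_eq]
  have h1 : 2 * (m + 1) / ((m - 1) * s) * (-φ) ≤ 2 * (m + 1) / ((m - 1) * s) * N := by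
    apply mul_le_mul_of_nonneg_left (by linarith only [hN, hφ])
    have := (kappa hm hs).1
    have h2 : 0 ≤ 2 / s := by positivity
    linarith only [this, h2]
  have h2 : 2 * (m + 1) / ((m - 1) * s) * φ ≤ 23 / 11 / s * φ := by
    apply mul_le_mul_of_nonneg_right (kappa hm hs).2
    have := log_le hu
    linarith only [hφ, this]
  linarith only [hA, hKW, h1, h2]

/-- `e - T ≤ ..` from a lower bound of the `(l,0)`-part -/
theorem red_P {m z s l u c G N A0 φ : ℝ} (hm : 45 ≤ m) (hz : 0 < z) (hs : 0 < s)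
    (hsz : s ^ 2 = 1 - z) (hl : 0 ≤ l) (hT : z * Real.exp (2 * l) ≤ 1) (hu : 0 ≤ u)
    (hc1 : 1 - 1 / (2 * m) ≤ c) (hc2 : c ≤ 1) (hN : Real.log (1 + u) - u ≤ N)
    (hφ : u - Real.log (1 + u) ≤ φ) (hA : A0 ≤ Apart m z s l G) :
    dpE m z s l u c N - dpT m z s l u G N ≤
      (m + 3) * z * (Real.exp (-(2 * l)) - 1 + 2 * l) - A0 + 6 / 25 * ((m + 3) * z) * (u * l) +
        (2 / s - 2 * s ^ 2) * u + (2 / s - 2) * l + 1 / 8 / s * φ := by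
  have hm0 : 0 < m := by linarith only [hm]
  have hz1 : z < 1 := by nlinarith only [hsz, hs]
  have hs1 : s ≤ 1 := by nlinarith only [hsz, hz]
  have hKW := mul_nonneg (kK3 hz hs hsz hT) (W_nn hu)
  have hs' : 0 < 1 / s := by positivity
  have hs'1 : 1 ≤ 1 / s := by rw [le_div_iff₀ hs]; linarith only [hs1]
  have hφ0 : 0 ≤ φ := by have := log_le hu; linarith only [hφ, this]
  rw [T_eq, e_eq hsz]
  have g1 : 0 ≤ (1 - c) * (1 / s - 1) := mul_nonneg (by linarith only [hc2]) (by linarith only [hs'1])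
  have g2 : 0 ≤ (1 - c) * m * (z / s ^ 2) :=
    mul_nonneg (mul_nonneg (by linarith only [hc2]) hm0.le) (by positivity)
  have h2 : (2 * z + 2 * c * (1 / s - 1)) * u ≤ (2 / s - 2 * s ^ 2) * u := by
    apply mul_le_mul_of_nonneg_right _ hu
    rw [hsz, show 2 / s = 2 * (1 / s) by ring]
    linarith only [g1]
  have h3 : (2 * c * (1 / s - 1) - 2 * ((1 - c) * m) * (z / s ^ 2)) * l ≤
      (2 / s - 2) * l := by
    apply mul_le_mul_of_nonneg_right _ hl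
    rw [show 2 / s = 2 * (1 / s) by ring]
    linarith only [g1, g2]
  have h4 : (2 * (m + 1) / ((m - 1) * s) - 2 * c * (1 / s)) * (-N) ≤ 1 / 8 / s * φ := by
    have k0 : 0 ≤ 2 * (m + 1) / ((m - 1) * s) - 2 * c * (1 / s) := by
      have h5 := (kappa hm hs).1
      rw [show 2 / s = 2 * (1 / s) by ring] at h5
      have : c * (1 / s) ≤ 1 * (1 / s) := mul_le_mul_of_nonneg_right hc2 hs'.le
      linarith only [hc2, g1, h5]
    have k1 : 2 * (m + 1) / ((m - 1) * s) - 2 * c * (1 / s) ≤ 1 / 8 / s := by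
      have h5 := kappa2 hm hs hc1
      rw [show 1 / 8 / s = 1 / 8 * (1 / s) by ring]
      (clear * - h5; linarith)
    calc (2 * (m + 1) / ((m - 1) * s) - 2 * c * (1 / s)) * (-N) ≤
        (2 * (m + 1) / ((m - 1) * s) - 2 * c * (1 / s)) * φ :=
          mul_le_mul_of_nonneg_left (by linarith only [hN, hφ]) k0
      _ ≤ 1 / 8 / s * φ := mul_le_mul_of_nonneg_right k1 hφ0
  linarith only [h4, h3, h2, hKW, hA]

/-- `e ≥ ..` -/
theorem red_E {m z s l u c N φ : ℝ} (hm : 45 ≤ m) (hz : 0 < z) (hs : 0 < s)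
    (hsz : s ^ 2 = 1 - z) (hl : 0 ≤ l) (hu : 0 ≤ u)
    (hc1 : 1 - 1 / (2 * m) ≤ c) (hc2 : c ≤ 1) (hN : Real.log (1 + u) - u ≤ N)
    (hφ : u - Real.log (1 + u) ≤ φ) :
    (m + 3) * z * (Real.exp (-(2 * l)) - 1 + 2 * l) +
        4 * s ^ 2 * Real.exp (-(2 * l)) * (u ^ 2 / (1 + u)) - 2 / s * φ + 2 * z * u - z / s ^ 2 * l ≤
      dpE m z s l u c N := by
  have hm0 : 0 < m := by linarith only [hm]
  have hz1 : z < 1 := by nlinarith only [hsz, hs]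
  have hs1 : s ≤ 1 := by nlinarith only [hsz, hz]
  have hs' : 0 < 1 / s := by positivity
  have hs'1 : 1 ≤ 1 / s := by rw [le_div_iff₀ hs]; linarith only [hs1]
  have hφ0 : 0 ≤ φ := by have := log_le hu; linarith only [hφ, this]
  obtain ⟨hc3, hc4⟩ := c_facts hm hc1
  rw [e_eq hsz]
  have h1 : -(2 / s * φ) ≤ 2 * c * (1 / s) * N := by
    have h3 : 2 * c * (1 / s) * (-φ) ≤ 2 * c * (1 / s) * N := by
      apply mul_le_mul_of_nonneg_left (by linarith only [hN, hφ])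
      have : 0 ≤ c := by linarith only [hc3]
      (clear * - hc3 hs; positivity)
    have h4 : c * ((1 / s) * φ) ≤ 1 * ((1 / s) * φ) := by
      apply mul_le_mul_of_nonneg_right hc2 (by positivity)
    have e3 : 2 / s * φ = 2 * ((1 / s) * φ) := by ring
    rw [e3]
    linarith only [h3, h4]
  have h2 : 0 ≤ c * (1 / s - 1) := mul_nonneg (by linarith only [hc3]) (by linarith only [hs'1])
  have h3 : 2 * z * u ≤ (2 * z + 2 * c * (1 / s - 1)) * u :=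
    mul_le_mul_of_nonneg_right (by linarith only [h2]) hu
  have h4 : -(z / s ^ 2) ≤ 2 * c * (1 / s - 1) - 2 * ((1 - c) * m) * (z / s ^ 2) := by
    have h5 : 0 ≤ z / s ^ 2 := by positivity
    have := mul_le_mul_of_nonneg_right hc4 h5
    linarith only [h2, this]
  have h5 := mul_le_mul_of_nonneg_right h4 hl
  linarith only [h1, h3, h5]

/-- lower bound of `ρ` -/
theorem rho_ge {m z s : ℝ} (hm : 45 ≤ m) (hz : 0 < z) (hs : 0 < s) (hsz : s ^ 2 = 1 - z) :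
    1 / 5 + 1 / 2 * (m * z * (1 + z + z ^ 2)) +
      1 / 10 * ((m * z) ^ 2 - 2 * z * (m * z)) * (1 + 2 * z + 3 * z ^ 2) ≤ dpR m (z / s ^ 2) := by
  have hz1 : z < 1 := by nlinarith
  have h2 : 1 + z + z ^ 2 ≤ 1 / s ^ 2 := by
    rw [le_div_iff₀ (by positivity), hsz]
    nlinarith only [hz]
  have h3 : 1 + 2 * z + 3 * z ^ 2 ≤ (1 / s ^ 2) ^ 2 := by
    have h4 : (1 + z + z ^ 2) ^ 2 ≤ (1 / s ^ 2) ^ 2 := pow_le_pow_left₀ (by positivity) h2 2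
    refine le_trans ?_ h4
    nlinarith only [hz]
  have e : dpR m (z / s ^ 2) = 1 / 5 + 1 / 2 * (m * z * (1 / s ^ 2)) +
      1 / 10 * (m * (m - 2) * z ^ 2) * (1 / s ^ 2) ^ 2 := by
    simp only [dpR]; ring
  rw [e]
  have h5 : 1 / 2 * (m * z * (1 + z + z ^ 2)) ≤ 1 / 2 * (m * z * (1 / s ^ 2)) := by
    have := mul_le_mul_of_nonneg_left h2 (by positivity : 0 ≤ m * z)
    linarith only [this]
  have h6 : 0 ≤ m * (m - 2) * z ^ 2 :=
    mul_nonneg (mul_nonneg (by linarith only [hm]) (by linarith only [hm])) (sq_nonneg z)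
  have h7 : 1 / 10 * ((m * z) ^ 2 - 2 * z * (m * z)) * (1 + 2 * z + 3 * z ^ 2) ≤
      1 / 10 * (m * (m - 2) * z ^ 2) * (1 / s ^ 2) ^ 2 := by
    have e2 : 1 / 10 * ((m * z) ^ 2 - 2 * z * (m * z)) = 1 / 10 * (m * (m - 2) * z ^ 2) := by ring
    rw [e2]
    exact mul_le_mul_of_nonneg_left h3 (by (clear * - h6; positivity))
  linarith only [h7, h5]

theorem s_facts {z s : ℝ} (hz : 0 < z) (hz5 : z ≤ 1 / 5) (hs : 0 < s) (hsz : s ^ 2 = 1 - z) :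
    447 / 500 ≤ s ∧ s ≤ 1 := by
  constructor <;> nlinarith

/-- the defect `φ = u²/(2 + 31u/25)` for `u ≤ 1/s` -/
theorem phi_le {s u : ℝ} (hs : 0 < s) (hu : 0 ≤ u) (hus : u * s ≤ 1) :
    u ^ 2 / (2 + 31 / 25 * u) ≤ 1 / (s * (2 * s + 31 / 25)) := by
  rw [div_le_div_iff₀ (by positivity) (by (clear * - hs; positivity))]
  have h1 : u * (u * s) ≤ u * 1 := mul_le_mul_of_nonneg_left hus hu
  have h2 : (u * s) ^ 2 ≤ 1 ^ 2 := pow_le_pow_left₀ (by positivity) hus 2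
  linarith

theorem u_le {z s u : ℝ} (hz : 0 < z) (hz5 : z ≤ 1 / 5) (hs : 0 < s) (hsz : s ^ 2 = 1 - z)
    (hu : 0 ≤ u) (hus : u * s ≤ 1) : u ≤ 28 / 25 := by
  obtain ⟨h1, -⟩ := s_facts hz hz5 hs hsz
  have := mul_le_mul_of_nonneg_left h1 hu
  linarith

theorem phi_E2 {z s u : ℝ} (hz : 0 < z) (hz5 : z ≤ 1 / 5) (hs : 0 < s) (hsz : s ^ 2 = 1 - z)
    (hu : 0 ≤ u) (hus : u * s ≤ 1) :
    u - Real.log (1 + u) ≤ u ^ 2 / (2 + 31 / 25 * u) :=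
  log_E2 hu ((u_le hz hz5 hs hsz hu hus).trans (by norm_num))

theorem k1 {z s u : ℝ} (hz : 0 < z) (hz5 : z ≤ 1 / 5) (hs : 0 < s) (hsz : s ^ 2 = 1 - z)
    (hu : 0 ≤ u) (hus : u * s ≤ 1) :
    23 / 11 / s * (u ^ 2 / (2 + 31 / 25 * u)) ≤ 13 / 20 + 11 / 10 * z := by
  obtain ⟨h1, h2⟩ := s_facts hz hz5 hs hsz
  have h3 := mul_le_mul_of_nonneg_left (phi_le hs hu hus) (by positivity : 0 ≤ 23 / 11 / s)
  refine h3.trans ?_
  have e : 23 / 11 / s * (1 / (s * (2 * s + 31 / 25))) = 23 / 11 / (s ^ 2 * (2 * s + 31 / 25)) := by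
    (clear * - hs; field_simp)
  rw [e, div_le_iff₀ (by positivity)]
  have hz' : z = 1 - s ^ 2 := by linarith only [hsz]
  rw [hz']
  have a := sub_nonneg.2 h1
  have b := sub_nonneg.2 h2
  nlinarith only [hz5, hsz, a, b, mul_nonneg (mul_nonneg a b) (pow_nonneg hs.le 3)]

theorem k1b {z s u : ℝ} (hz : 0 < z) (hz5 : z ≤ 1 / 5) (hs : 0 < s) (hsz : s ^ 2 = 1 - z)
    (hu : 0 ≤ u) (hus : u * s ≤ 1) : 1 / s * (u ^ 2 / (2 + 31 / 25 * u)) ≤ 21 / 50 := by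
  have h := k1 hz hz5 hs hsz hu hus
  have e : 23 / 11 / s * (u ^ 2 / (2 + 31 / 25 * u)) =
      23 / 11 * (1 / s * (u ^ 2 / (2 + 31 / 25 * u))) := by ring
  rw [e] at h
  linarith only [hz5, h]

theorem k2 {z s u l : ℝ} (hz : 0 < z) (hz5 : z ≤ 1 / 5) (hs : 0 < s) (hsz : s ^ 2 = 1 - z)
    (hl : 0 ≤ l) (hu : 0 ≤ u) (hus : u * s ≤ 1) :
    (2 / s - 2 * s ^ 2) * u + (2 / s - 2) * l + 1 / 8 / s * (u ^ 2 / (2 + 31 / 25 * u)) ≤
      3 / 50 + 18 / 5 * z + 3 / 5 * z * (2 * l) := by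
  obtain ⟨h1, h2⟩ := s_facts hz hz5 hs hsz
  have hz' : z = 1 - s ^ 2 := by linarith only [hsz]
  have a := sub_nonneg.2 h1
  have b := sub_nonneg.2 h2
  have g0 : 0 ≤ 2 / s - 2 * s ^ 2 := by
    have e : 2 / s - 2 * s ^ 2 = 2 * (1 - s ^ 3) / s := by field_simp
    rw [e]
    have : s ^ 3 ≤ 1 := pow_le_one₀ hs.le h2
    exact div_nonneg (by linarith only [this]) hs.le
  have g1 : (2 / s - 2 * s ^ 2) * u ≤ 18 / 5 * z := by
    have hu' : u ≤ 1 / s := by rw [le_div_iff₀ hs]; exact hus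
    refine (mul_le_mul_of_nonneg_left hu' g0).trans ?_
    have e : (2 / s - 2 * s ^ 2) * (1 / s) = (2 - 2 * s ^ 3) / s ^ 2 := by (clear * - hs; field_simp)
    rw [e, div_le_iff₀ (by positivity), hz']
    nlinarith only [a, b, mul_nonneg (mul_nonneg a b) (sq_nonneg s)]
  have g2 : (2 / s - 2) * l ≤ 3 / 5 * z * (2 * l) := by
    have h3 : 2 / s - 2 ≤ 6 / 5 * z := by
      have e : 2 / s - 2 = 2 * (1 - s) / s := by (clear * - hs; field_simp)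
      rw [e, div_le_iff₀ hs, hz']
      nlinarith only [hz, hsz, a, b]
    have := mul_le_mul_of_nonneg_right h3 hl
    linarith only [this]
  have g3 := k1b hz hz5 hs hsz hu hus
  have e : 1 / 8 / s * (u ^ 2 / (2 + 31 / 25 * u)) =
      1 / 8 * (1 / s * (u ^ 2 / (2 + 31 / 25 * u))) := by ring
  rw [e]
  linarith only [g1, g2, g3]

theorem psi_ge {l : ℝ} : 9 / 25 + (l - 1 / 2) ≤ Real.exp (-(2 * l)) - 1 + 2 * l ∨ l < 1 / 2 := by
  rcases lt_or_ge l (1 / 2) with h | h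
  · exact Or.inr h
  · left
    have h1 := Real.add_one_le_exp (1 - 2 * l)
    have h2 : Real.exp (-(2 * l)) = Real.exp (-1) * Real.exp (1 - 2 * l) := by
      rw [← Real.exp_add]; congr 1; ring
    have h3 : 9 / 25 ≤ Real.exp (-1) := by
      rw [Real.exp_neg, le_inv_comm₀ (by norm_num) (Real.exp_pos 1)]
      have := Real.exp_one_lt_d9
      norm_num
      linarith only [this]
    have h3' : Real.exp (-1) ≤ 1 / 2 := by
      rw [Real.exp_neg, inv_le_comm₀ (Real.exp_pos 1) (by norm_num)]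
      have := Real.exp_one_gt_d9
      norm_num
      linarith only [this]
    have h4 := mul_le_mul_of_nonneg_left h1 (Real.exp_pos (-1)).le
    rw [h2]
    nlinarith only [h3, h4, h, h3']

/-- the final step for `l ≥ 1/2` -/
theorem fin2 {m z s l u c G N A0 V τ0 p θ θ1 kr : ℝ} (hm : 45 ≤ m) (hz : 0 < z) (hz5 : z ≤ 1 / 5)
    (hs : 0 < s) (hsz : s ^ 2 = 1 - z) (hw : 9 ≤ m * z) (hl : 1 / 2 ≤ l)
    (hT : z * Real.exp (2 * l) ≤ 1) (hu : 0 ≤ u) (hus : u * s ≤ 1)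
    (hc1 : 1 - 1 / (2 * m) ≤ c) (hc2 : c ≤ 1) (hN : Real.log (1 + u) - u ≤ N)
    (hV : u ≤ V) (hA : A0 ≤ Apart m z s l G)
    (hA1 : 3 / 25 * ((m + 3) * z) * (V * (2 * l)) + (13 / 20 + 11 / 10 * z) + τ0 * (m * z) ≤ A0)
    (hA2 : (m + 3) * z * (Real.exp (-(2 * l)) - 1 + 2 * l) +
      3 / 25 * ((m + 3) * z) * (V * (2 * l)) + (3 / 50 + 18 / 5 * z) + 3 / 5 * z * (2 * l) -
      p * (m * z) ≤ A0)
    (hτ : 0 < τ0) (hp : 0 ≤ p) (hkr : 0 < kr) (hk : kr * (m * z) ≤ dpR m (z / s ^ 2))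
    (h1 : p ≤ θ * kr) (h2 : p ^ 2 ≤ θ1 * (kr * τ0)) (h0 : 0 ≤ θ1) (hθ : θ + θ1 < 1) :
    JTest (dpT m z s l u G N) (dpE m z s l u c N) (dpR m (z / s ^ 2)) u := by
  have hl0 : 0 ≤ l := by linarith only [hl]
  have hφ := phi_E2 hz hz5 hs hsz hu hus
  have rT := red_T hm hz hs hsz hT hu hN hφ hA
  have rP := red_P hm hz hs hsz hl0 hT hu hc1 hc2 hN hφ hA
  have rE := red_E hm hz hs hsz hl0 hu hc1 hc2 hN hφ
  have hX : 0 ≤ (m + 3) * z := by positivity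
  have hw0 : 0 < m * z := by linarith only [hw]
  have huV : 6 / 25 * ((m + 3) * z) * (u * l) ≤ 3 / 25 * ((m + 3) * z) * (V * (2 * l)) := by
    have := mul_le_mul_of_nonneg_left (mul_le_mul_of_nonneg_right hV hl0) hX
    calc 6 / 25 * ((m + 3) * z) * (u * l) = 6 / 25 * ((m + 3) * z * (u * l)) := by ring
      _ ≤ 6 / 25 * ((m + 3) * z * (V * l)) := by linarith only [this]
      _ = 3 / 25 * ((m + 3) * z) * (V * (2 * l)) := by ring
  have hCW : 0 ≤ 4 * s ^ 2 * Real.exp (-(2 * l)) * (u ^ 2 / (1 + u)) := by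
    have := W_nn hu
    (clear * - hs hu; positivity)
  have a1 := k1 hz hz5 hs hsz hu hus
  have a2 := k2 hz hz5 hs hsz hl0 hu hus
  have a3 := k1b hz hz5 hs hsz hu hus
  have b1 : τ0 * (m * z) ≤ dpT m z s l u G N := by linarith only [a1, hCW, huV, rT, hA1]
  have b2 : dpE m z s l u c N - dpT m z s l u G N ≤ p * (m * z) := by linarith only [hA2, rP, huV, a2]
  have hρ0 : 0 < dpR m (z / s ^ 2) := lt_of_lt_of_le (by positivity) hk
  have hτw : 0 < τ0 * (m * z) := by positivity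
  have hθ0 : 0 ≤ θ := by
    by_contra h
    push Not at h
    have := mul_neg_of_neg_of_pos h hkr
    linarith only [hp, h1, this]
  clear rT rP hA1 hA2 huV a1 a2 hφ
  have b3 : -0 ≤ dpE m z s l u c N := by
    have c1 : 9 / 25 + (l - 1 / 2) ≤ Real.exp (-(2 * l)) - 1 + 2 * l :=
      psi_ge.resolve_right (not_lt.2 hl)
    have c2 : 9 * (9 / 25 + (l - 1 / 2)) ≤ (m + 3) * z * (Real.exp (-(2 * l)) - 1 + 2 * l) := by
      apply mul_le_mul _ c1 (by linarith only [hl]) hX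
      have : (m + 3) * z = m * z + 3 * z := by ring
      linarith only [hz, hw]
    have c3 : z / s ^ 2 * l ≤ 1 / 4 * l := by
      apply mul_le_mul_of_nonneg_right _ hl0
      rw [div_le_iff₀ (by positivity), hsz]
      linarith only [hz5]
    have c4 : 2 / s * (u ^ 2 / (2 + 31 / 25 * u)) = 2 * (1 / s * (u ^ 2 / (2 + 31 / 25 * u))) := by
      ring
    have c5 : 0 ≤ 2 * z * u := by (clear * - hz hu; positivity)
    rw [c4] at rE
    have c6 : 0 ≤ (m + 3) * z * (Real.exp (-(2 * l)) - 1 + 2 * l) +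
      4 * s ^ 2 * Real.exp (-(2 * l)) * (u ^ 2 / (1 + u)) -
      2 * (1 / s * (u ^ 2 / (2 + 31 / 25 * u))) + 2 * z * u - z / s ^ 2 * l := by linarith only [hl, hCW, a3, c2, c3, c5]
    rw [neg_zero]
    exact c6.trans rE
  refine JTest.of_theta (T0 := τ0 * (m * z)) (P := p * (m * z)) (E := 0) (θ := θ) (θ1 := θ1)
    b1 hτw.le (fun _ => hτw) hρ0 h0 hθ b2 (by (clear * - hp hm hz; positivity)) ?_ ?_ b3 le_rfl (by (clear * - hθ0 hρ0; positivity)) ?_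
  · calc p * (m * z) ≤ θ * kr * (m * z) := mul_le_mul_of_nonneg_right h1 hw0.le
      _ = θ * (kr * (m * z)) := by ring
      _ ≤ _ := mul_le_mul_of_nonneg_left hk hθ0
  · calc (p * (m * z)) ^ 2 = p ^ 2 * (m * z) ^ 2 := by ring
      _ ≤ θ1 * (kr * τ0) * (m * z) ^ 2 := mul_le_mul_of_nonneg_right h2 (by positivity)
      _ = θ1 * (kr * (m * z) * (τ0 * (m * z))) := by ring
      _ ≤ _ := by
        apply mul_le_mul_of_nonneg_left _ h0
        exact mul_le_mul_of_nonneg_right hk hτw.le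
  · have : 0 ≤ θ1 * (dpR m (z / s ^ 2) * (τ0 * (m * z))) := by (clear * - h0 hρ0 hτ hm hz; positivity)
    simpa only [ne_eq, OfNat.ofNat_ne_zero, not_false_eq_true, zero_pow, ge_iff_le] using this

end FXu

end Vale.Agent.P237.AllN
end
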