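import Vale.Agent.P237.Bd3.B4
import Vale.Agent.P237.Bd3.B8
import Vale.Agent.P237.Bd3.B11
import Vale.Agent.P237.Bd3.B6
import Vale.Agent.P237.Bd3.B7
import Vale.Agent.P237.Bd3.B3

set_option linter.all false

section

/-!
# P237, plain certificate: kernel checks for `m = 11`
-/

namespace Vale.Agent.P237.AllN

open PolyPos

/-- data of the certificate, `m = 11` -/
def D11 : Dat := ⟨⟨11, ⟨61, 99⟩, ⟨29, 99⟩, ⟨1, 1⟩, ⟨6, 4⟩, ⟨13, 99⟩, ⟨39, 99⟩, ⟨29, 4999⟩, ⟨1, 999⟩, ⟨1, 999⟩⟩,
  ⟨647, 499⟩, ⟨141, 2499⟩, ⟨1, 9⟩, ⟨267, 249⟩, ⟨59, 99⟩, ⟨357, 999⟩, ⟨507, 9999⟩, ⟨594, 624⟩, 6, 481, 1476, 878, 1294, 2 ^ 1024, 40⟩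

theorem chk11_LP :
    D11.kLP (.leaf 0) = true := by
  decide +kernel

theorem chk11_LM :
    D11.kLM (.sx (.leaf 0) (.sy (.leaf 0) (.sx (.sy (.leaf 0) (.sx (.leaf 0) .out)) (.sy
    (.sx (.leaf 0) (.sy (.leaf 0) .out)) .out)))) = true := by
  decide +kernel

theorem chk11_RMT0 :
    D11.kRM D11.rbT 11 0 878 250 1000 (.sx (.leaf 0) (.leaf 0)) = true := by
  decide +kernel

theorem chk11_RMt0 :
    D11.kRM D11.rbG 11 0 878 6 250 (.sx (.leaf 0) (.leaf 0)) = true := by
  decide +kernel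

theorem chk11_RMc0 :
    D11.kRM D11.rbC 11 0 878 0 6 (.sx (.leaf 0) (.leaf 0)) = true := by
  decide +kernel

theorem chk11_RP1 :
    D11.kRP1 (.sx (.leaf 0) (.sy (.sx (.leaf 0) (.sy (.sx (.sy .out (.leaf 0)) (.sy .out
    (.leaf 0))) (.leaf 0))) (.leaf 0))) = true := by
  decide +kernel

theorem chk11_RP2 :
    D11.kRP2 (.sx (.sy (.sx (.sy .out (.leaf 0)) .out) (.leaf 0)) (.sy .out (.sx (.leaf 0)
    .out))) = true := by
  decide +kernel

theorem chk11_RS :
    D11.kRS (.leaf 1) = true := by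
  decide +kernel

end Vale.Agent.P237.AllN
end

section

/-!
# P237, uniform plain certificate: the correction term under the bound
`l ≤ (1-x²)(127/200 + 33/200 x²)`
-/

open MeasureTheory Set Finset

namespace Vale.Agent.P237.AllN

/-- upper bound of the exponential from a bound at the half -/
theorem cu_exp {a e E : ℝ} (ha : 0 ≤ a) (ha1 : a ≤ 1)
    (h : 1 + a + a ^ 2 / 2 + a ^ 3 / 6 + a ^ 4 / 24 + a ^ 5 / 120 + 7 * a ^ 6 / 4320 ≤ e)
    (hE : e ^ 2 ≤ E) : Real.exp (2 * a) ≤ E := by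
  have h1 := (Corr.exp_le_p ha ha1).trans h
  have h2 : Real.exp (2 * a) = Real.exp a ^ 2 := by
    rw [← Real.exp_nat_mul]; norm_num
  rw [h2]
  exact (pow_le_pow_left₀ (Real.exp_pos _).le h1 2).trans hE

/-- one box `z ∈ [z0, z1]`, `s ∈ [sl, sh]` -/
theorem cu_box {x l C a E σ z1 sl sh : ℝ} (hx : x ∈ Ioo (0 : ℝ) 1) (h1 : x * Real.exp l ≤ 1)
    (hC : 1 / 2 ≤ C) (hz1 : x ^ 2 ≤ z1) (hsl0 : 0 < sl) (hsl : sl ^ 2 ≤ 1 - z1)
    (hsh0 : 0 < sh) (hsh : 1 - x ^ 2 ≤ sh ^ 2) (hla : l ≤ a) (ha : 0 < a)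
    (hE : Real.exp (2 * a) ≤ E) (hσ : 0 ≤ σ) (hσE : σ ^ 2 ≤ 1 - z1 * E)
    (hst : (E - 1) ^ 2 * z1 * (1 + 2 * sh + σ) / ((σ + sl) ^ 2 * (1 + σ)) + (E - 1 - 2 * a) ≤
      2 * C * (1 + 1 / sh) ^ 2 * a ^ 2) :
    -(C * (x ^ 2 / sq x ^ 2)) * l ^ 2 ≤
      sq x * (bg (x * Real.exp l) - bg x) + x ^ 2 * l / (1 + sq x) ^ 2 := by
  obtain ⟨a1, a2, a3, a4, a5⟩ := Corr.sq_facts hx.1 hx.2 h1
  rw [Corr.Fc_bg hx.1 hx.2, neg_mul]
  have hz0 : 0 ≤ x ^ 2 := sq_nonneg x
  have hsx : sq x ^ 2 = 1 - x ^ 2 := by linarith only [a3]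
  have hE1 : 1 ≤ E := by
    have := Real.add_one_le_exp (2 * a)
    linarith only [ha, hE, this]
  rcases le_or_gt l 0 with hl | hl
  · refine Corr.neg_case a1 a3 hz0 a4 a5 hl ?_
    nlinarith only [hC]
  · have hslx : sl ≤ sq x := by
      have : sl ^ 2 ≤ sq x ^ 2 := by rw [hsx]; linarith only [hsl, hz1]
      exact le_of_sq_le_sq this a1.le
    have hshx : sq x ≤ sh := by
      have : sq x ^ 2 ≤ sh ^ 2 := by rw [hsx]; exact hsh
      exact le_of_sq_le_sq this hsh0.le
    refine Corr.gen a1 a3 hz0 hσ a4 a5 hl hla hE ?_ ?_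
    · have := mul_le_mul_of_nonneg_right hz1 (by linarith only [hE1] : (0 : ℝ) ≤ E)
      linarith only [hσE, this]
    · have e1 : (E - 1) ^ 2 * x ^ 2 * (1 + 2 * sq x + σ) / ((σ + sq x) ^ 2 * (1 + σ)) ≤
          (E - 1) ^ 2 * z1 * (1 + 2 * sh + σ) / ((σ + sl) ^ 2 * (1 + σ)) := by
        apply div_le_div₀
        · have : 0 ≤ z1 := hz0.trans hz1
          (clear * - this hsh0 hσ; positivity)
        · have : 0 ≤ z1 := hz0.trans hz1
          apply mul_le_mul
          · exact mul_le_mul_of_nonneg_left hz1 (sq_nonneg _)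
          · linarith only [hshx]
          · (clear * - a1 hσ; positivity)
          · (clear * - this; positivity)
        · (clear * - hσ hsl0; positivity)
        · apply mul_le_mul_of_nonneg_right _ (by linarith only [hσ])
          exact pow_le_pow_left₀ (by (clear * - hσ hsl0; positivity)) (by linarith only [hslx]) 2
      have e2 : 2 * C * (1 + 1 / sh) ^ 2 * a ^ 2 ≤ 2 * C * (1 + sq x) ^ 2 * a ^ 2 / sq x ^ 2 := by
        have e3 : 2 * C * (1 + sq x) ^ 2 * a ^ 2 / sq x ^ 2 =
            2 * C * (1 + 1 / sq x) ^ 2 * a ^ 2 := by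
          field_simp
          ring
        rw [e3]
        apply mul_le_mul_of_nonneg_right _ (sq_nonneg a)
        apply mul_le_mul_of_nonneg_left _ (by linarith only [hC])
        apply pow_le_pow_left₀ (by positivity)
        have : 1 / sh ≤ 1 / sq x := one_div_le_one_div_of_le a1 hshx
        linarith only [this]
      linarith

/-- `l**` is decreasing in `x²` -/
theorem cu_mono {z z0 : ℝ} (h0 : 0 ≤ z0) (h : z0 ≤ z) :
    (1 - z) * (127 / 200 + 33 / 200 * z) ≤ (1 - z0) * (127 / 200 + 33 / 200 * z0) := by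
  nlinarith only [h, h0]

/-- the correction is at least `-2 y l²` under `l ≤ l**` -/
theorem cu_corr_two {x l : ℝ} (hx : x ∈ Ioo (0 : ℝ) 1) (h1 : x * Real.exp l ≤ 1)
    (hs : x ^ 2 ≤ 1 / 2 → l ≤ (1 - x ^ 2) * (127 / 200 + 33 / 200 * x ^ 2)) :
    -(2 * (x ^ 2 / sq x ^ 2)) * l ^ 2 ≤
      sq x * (bg (x * Real.exp l) - bg x) + x ^ 2 * l / (1 + sq x) ^ 2 := by
  rcases le_or_gt (3 / 7) (x ^ 2) with h | h
  · exact Corr.corr_B hx.1 hx.2 h h1
  have hs' := hs (by linarith)
  rcases le_or_gt (x ^ 2) (3 / 16) with h2 | h2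
  · refine cu_box (C := 2) (a := 127 / 200) (E := 3.562) (σ := 0.57) (z1 := 3 / 16) (sl := 0.9)
      (sh := 1) hx h1 (by norm_num) h2 (by norm_num) (by norm_num) (by norm_num)
      (by nlinarith only []) ?_ (by norm_num) ?_ (by norm_num) (by norm_num) (by norm_num)
    · have := cu_mono (z := x ^ 2) (z0 := 0) le_rfl (sq_nonneg x)
      linarith
    · exact cu_exp (e := 1.8873) (by norm_num) (by norm_num) (by norm_num) (by norm_num)
  rcases le_or_gt (x ^ 2) (1 / 4) with h3 | h3
  · refine cu_box (C := 2) (a := 0.5412) (E := 2.953) (σ := 0.51) (z1 := 1 / 4) (sl := 0.866)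
      (sh := 0.9015) hx h1 (by norm_num) h3 (by norm_num) (by norm_num) (by norm_num)
      (by norm_num; linarith only [h2]) ?_ (by norm_num) ?_ (by norm_num) (by norm_num) (by norm_num)
    · have := cu_mono (z := x ^ 2) (z0 := 3 / 16) (by norm_num) h2.le
      linarith only [this, hs']
    · exact cu_exp (e := 1.7182) (by norm_num) (by norm_num) (by norm_num) (by norm_num)
  rcases le_or_gt (x ^ 2) (1 / 3) with h4 | h4
  · refine cu_box (C := 2) (a := 0.5073) (E := 2.759) (σ := 0.28) (z1 := 1 / 3) (sl := 0.8164)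
      (sh := 0.8661) hx h1 (by norm_num) h4 (by norm_num) (by norm_num) (by norm_num)
      (by norm_num; linarith only [h3]) ?_ (by norm_num) ?_ (by norm_num) (by norm_num) (by norm_num)
    · have := cu_mono (z := x ^ 2) (z0 := 1 / 4) (by norm_num) h3.le
      linarith only [this, hs']
    · exact cu_exp (e := 1.6609) (by norm_num) (by norm_num) (by norm_num) (by norm_num)
  rcases le_or_gt (x ^ 2) (3 / 8) with h5 | h5
  · refine cu_box (C := 2) (a := 0.4601) (E := 2.511) (σ := 0.24) (z1 := 3 / 8) (sl := 0.79)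
      (sh := 0.8166) hx h1 (by norm_num) h5 (by norm_num) (by norm_num) (by norm_num)
      (by norm_num; linarith only [h4]) ?_ (by norm_num) ?_ (by norm_num) (by norm_num) (by norm_num)
    · have := cu_mono (z := x ^ 2) (z0 := 1 / 3) (by norm_num) h4.le
      linarith only [this, hs']
    · exact cu_exp (e := 1.5845) (by norm_num) (by norm_num) (by norm_num) (by norm_num)
  rcases le_or_gt (x ^ 2) (2 / 5) with h6 | h6
  · refine cu_box (C := 2) (a := 0.4356) (E := 2.391) (σ := 0.2) (z1 := 2 / 5) (sl := 0.7745)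
      (sh := 0.7906) hx h1 (by norm_num) h6 (by norm_num) (by norm_num) (by norm_num)
      (by norm_num; linarith only [h5]) ?_ (by norm_num) ?_ (by norm_num) (by norm_num) (by norm_num)
    · have := cu_mono (z := x ^ 2) (z0 := 3 / 8) (by norm_num) h5.le
      linarith only [this, hs']
    · exact cu_exp (e := 1.5461) (by norm_num) (by norm_num) (by norm_num) (by norm_num)
  · refine cu_box (C := 2) (a := 0.42061) (E := 2.3195) (σ := 0.075) (z1 := 3 / 7) (sl := 0.7559)
      (sh := 0.7746) hx h1 (by norm_num) h.le (by norm_num) (by norm_num) (by norm_num)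
      (by norm_num; linarith only [h6]) ?_ (by norm_num) ?_ (by norm_num) (by norm_num) (by norm_num)
    · have := cu_mono (z := x ^ 2) (z0 := 2 / 5) (by norm_num) h6.le
      linarith only [this, hs']
    · exact cu_exp (e := 1.52299) (by norm_num) (by norm_num) (by norm_num) (by norm_num)

/-- near `0` the correction is at least `-(1/2) y l²` under `l ≤ l**` -/
theorem cu_corr_half {x l : ℝ} (hx : x ∈ Ioo (0 : ℝ) 1) (h1 : x * Real.exp l ≤ 1)
    (hs : l ≤ (1 - x ^ 2) * (127 / 200 + 33 / 200 * x ^ 2)) (h12 : x ^ 2 ≤ 1 / 12) :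
    -(1 / 2 * (x ^ 2 / sq x ^ 2)) * l ^ 2 ≤
      sq x * (bg (x * Real.exp l) - bg x) + x ^ 2 * l / (1 + sq x) ^ 2 := by
  rcases le_or_gt (x ^ 2) (3 / 100) with h2 | h2
  · refine cu_box (C := 1 / 2) (a := 127 / 200) (E := 3.562) (σ := 0.94) (z1 := 3 / 100)
      (sl := 0.98) (sh := 1) hx h1 (by norm_num) h2 (by norm_num) (by norm_num) (by norm_num)
      (by nlinarith only []) ?_ (by norm_num) ?_ (by norm_num) (by norm_num) (by norm_num)
    · have := cu_mono (z := x ^ 2) (z0 := 0) le_rfl (sq_nonneg x)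
      linarith only [hs, this]
    · exact cu_exp (e := 1.8873) (by norm_num) (by norm_num) (by norm_num) (by norm_num)
  rcases le_or_gt (x ^ 2) (6 / 100) with h3 | h3
  · refine cu_box (C := 1 / 2) (a := 0.6208) (E := 3.4622) (σ := 0.89) (z1 := 6 / 100)
      (sl := 0.969) (sh := 0.985) hx h1 (by norm_num) h3 (by norm_num) (by norm_num) (by norm_num)
      (by norm_num; linarith only [h2]) ?_ (by norm_num) ?_ (by norm_num) (by norm_num) (by norm_num)
    · have := cu_mono (z := x ^ 2) (z0 := 3 / 100) (by norm_num) h2.le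
      linarith only [hs, this]
    · exact cu_exp (e := 1.86068) (by norm_num) (by norm_num) (by norm_num) (by norm_num)
  · refine cu_box (C := 1 / 2) (a := 0.60622) (E := 3.3623) (σ := 0.84) (z1 := 1 / 12)
      (sl := 0.957) (sh := 0.9696) hx h1 (by norm_num) h12 (by norm_num) (by norm_num)
      (by norm_num) (by norm_num; linarith only [h3]) ?_ (by norm_num) ?_ (by norm_num) (by norm_num)
      (by norm_num)
    · have := cu_mono (z := x ^ 2) (z0 := 6 / 100) (by norm_num) h3.le
      linarith only [this, hs]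
    · exact cu_exp (e := 1.83364) (by norm_num) (by norm_num) (by norm_num) (by norm_num)

end Vale.Agent.P237.AllN
end

section

/-!
# P237, all dimensions: a priori steps, `27 ≤ m ≤ 38`
-/

open MeasureTheory Metric Set Module Filter Topology Real

namespace Vale.Agent.P237.AllN

/-- nodes -/
def sn27_0 : List (ℤ × ℤ × ℤ) :=
    [(796, 774202, 1267648), (825, 800732, 1312156), (857, 829808, 1359960),
     (892, 861362, 1412710), (930, 895318, 1470406), (972, 932470, 1533046),
     (1019, 973556, 1602281), (1072, 1019246, 1679757), (1132, 1070121, 1767125),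
     (1201, 1127468, 1866031), (1281, 1192342, 1979773), (1376, 1267038, 2111648),
     (1491, 1353920, 2268250), (1540, 1389727, 2457820)]

/-- cells -/
def sc27_0 : List (ℤ × ℤ) :=
    [(8709000, 10000000), (9457000, 5726000), (9911000, 4143000), (10000000, 3811000)]

theorem sS27_0 : tStep (tAo 13 2347493) 16484375 1540 769 sn27_0 = true := by decide +kernel

theorem sC27_0 : tCells 27 2347491 2389779 (1000 * 769, 1267648) (sn27_0.map Prod.snd) 0 sc27_0 = true := by
  decide +kernel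

/-- nodes -/
def sn27_1 : List (ℤ × ℤ × ℤ) :=
    [(1558, 1402695, 2295777), (1579, 1417698, 2324120), (1603, 1434676, 2355446),
     (1631, 1454256, 2391248), (1663, 1476331, 2433017), (1700, 1501452, 2480752),
     (1743, 1530100, 2535946), (1794, 1563309, 2600091), (1855, 1601931, 2676169),
     (1928, 1646569, 2767165), (2017, 1698654, 2876061), (2128, 1760019, 3008826),
     (2270, 1832748, 3174408), (2457, 1918825, 3386234), (2713, 2019516, 3665188),
     (3083, 2132951, 4047072), (3582, 2235423, 4599013), (3972, 2284510, 5343388),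
     (4292, 2310172, 5925164), (4551, 2323941, 6402519), (4758, 2331605, 6788878),
     (4923, 2336087, 7097667), (5054, 2338829, 7343803), (5157, 2340567, 7539220),
     (5238, 2341714, 7692868), (5293, 2342396, 7813699)]

/-- cells -/
def sc27_1 : List (ℤ × ℤ) :=
    [(7540000, 10000000), (7588000, 9845000), (7649000, 9658000), (7726000, 9423000),
     (7833000, 9127000), (7989000, 8720000), (8198000, 8136000), (8426000, 7380000),
     (8664000, 6601000), (8956000, 5857000), (9390000, 5072000), (9834000, 4234000),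
     (10000000, 3833000)]

theorem sS27_1 : tStep (tAo 13 2347493) 14917333 5293 1539 sn27_1 = true := by decide +kernel

theorem sC27_1 : tCells 27 2347491 2389779 (0, 1) (sn27_1.map Prod.snd) 0 sc27_1 = true := by
  decide +kernel

/-- nodes -/
def sn27_2 : List (ℤ × ℤ × ℤ) :=
    [(5444, 2343922, 8216142), (5570, 2344874, 8452131), (5675, 2345489, 8647753),
     (5774, 2345949, 8810772)]

/-- cells -/
def sc27_2 : List (ℤ × ℤ) :=
    [(7516000, 10000000), (7543000, 9938000), (7589000, 9833000), (7677000, 9654000),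
     (7822000, 9315000), (8138000, 8761000), (10000000, 7594000)]

theorem sS27_2 : tStep (tAo 13 2347493) 15525590 5774 5292 sn27_2 = true := by decide +kernel

theorem sC27_2 : tCells 27 2347491 2389779 (0, 1) (sn27_2.map Prod.snd) 0 sc27_2 = true := by
  decide +kernel

theorem steps27 {r τ τ' T : ℝ → ℝ} (hr : IsProf r) (h : IsTrans 27 r τ τ' T)
    (hN : (∫ y in (-1 : ℝ)..1, r y ^ (27 - 1)) ^ 27 * aInt 27 ^ (27 - 1) ≤
      aInt (27 - 1) ^ 27 * (∫ y in (-1 : ℝ)..1, r y ^ 27) ^ (27 - 1)) {x : ℝ}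
    (hx : x ∈ Ioo (0 : ℝ) 1) : ApBox3 (((27 : ℕ) : ℝ) * x ^ 2) (lf τ x) := by
  have hτ := h.mem x hx
  have hx0 := hx.1
  have hA : ∀ n a : ℤ, (tAo 13 2347493) n a = true → 0 ≤ n → n ≤ 10000 →
      ∫ t in (0 : ℝ)..((n : ℝ) / 10000), sq t ^ 27 ≤ (a : ℝ) / lsD :=
    (fun n a h0 h1 h2 => tAo_sound (h := 13) (zh := 2347493) ls_hi27 h1 h2 h0)
  refine ⟨fun h1 => ?_, fun h0 h1 => ?_, fun h0 h1 => ?_⟩
  · have hlt := ls_lt_of (m := 27) (n := 1540) hx0 (by norm_num) h1 (by norm_num)
    exact ls_log_of hx0 hτ.1 (by norm_num) (ls_step0 (m := 27) (by norm_num) (z := 2347491) (z' := 2389779)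
      (by norm_num) ls_lo27 ls_hi26 hA (by simp [sc27_0]) (n0 := 769) (nend := 1540) (c := 16484375)
      (u0 := 1267648) (by norm_num) (by norm_num) (by norm_num) (by norm_num) sS27_0 sC27_0 hr h hN hx
      hlt) (by rw [lsD_cast]; norm_num)
  · have hlt := ls_lt_of (m := 27) (n := 5293) hx0 (by norm_num) h1 (by norm_num)
    have hge := ls_ge_of (m := 27) (n := 1539) hx0 (by norm_num) h0 (by norm_num)
    exact ls_log_of hx0 hτ.1 (by norm_num) (ls_step (m := 27) (by norm_num) (z := 2347491) (z' := 2389779)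
      (by norm_num) ls_lo27 ls_hi26 hA (by simp [sc27_1]) (n0 := 1539) (nend := 5293) (c := 14917333)
      (by norm_num) sS27_1 sC27_1 hr h hN hx hge hlt) (by rw [lsD_cast]; norm_num)
  · have hlt := ls_lt_of (m := 27) (n := 5774) hx0 (by norm_num) h1 (by norm_num)
    have hge := ls_ge_of (m := 27) (n := 5292) hx0 (by norm_num) h0 (by norm_num)
    exact ls_log_of hx0 hτ.1 (by norm_num) (ls_step (m := 27) (by norm_num) (z := 2347491) (z' := 2389779)
      (by norm_num) ls_lo27 ls_hi26 hA (by simp [sc27_2]) (n0 := 5292) (nend := 5774) (c := 15525590)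
      (by norm_num) sS27_2 sC27_2 hr h hN hx hge hlt) (by rw [lsD_cast]; norm_num)

/-- nodes -/
def sn28_0 : List (ℤ × ℤ × ℤ) :=
    [(781, 759289, 1244570), (809, 784911, 1287429), (840, 813087, 1333585),
     (874, 843753, 1384687), (911, 876833, 1440734), (952, 913123, 1501726),
     (998, 953365, 1569312), (1049, 997373, 1645140), (1107, 1046616, 1729210),
     (1173, 1101570, 1824820), (1250, 1164169, 1933617), (1341, 1235966, 2060546),
     (1451, 1319469, 2210554), (1512, 1364177, 2391882)]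

/-- cells -/
def sc28_0 : List (ℤ × ℤ) :=
    [(8735000, 10000000), (9467000, 5687000), (9910000, 4087000), (10000000, 3749000)]

theorem sS28_0 : tStep (tAe 14) 16484375 1512 755 sn28_0 = true := by decide +kernel

theorem sC28_0 : tCells 28 2307372 2347493 (1000 * 755, 1244570) (sn28_0.map Prod.snd) 0 sc28_0 = true := by
  decide +kernel

/-- nodes -/
def sn28_1 : List (ℤ × ℤ × ℤ) :=
    [(1535, 1380733, 2254009), (1563, 1400662, 2289810), (1597, 1424527, 2331579),
     (1637, 1452131, 2382298), (1686, 1485243, 2441967), (1746, 1524727, 2515062),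
     (1821, 1572426, 2604566), (1916, 1630190, 2716446), (2040, 1701109, 2858161),
     (2208, 1789146, 3043135), (2445, 1897929, 3293747), (2802, 2029672, 3647287),
     (3394, 2174973, 4179836), (3841, 2238202, 5062942), (4190, 2268171, 5729747),
     (4466, 2283383, 6250362), (4683, 2291524, 6662080), (4854, 2296156, 6985787),
     (4988, 2298923, 7240873), (5093, 2300659, 7440765), (5174, 2301779, 7597397),
     (5198, 2302078, 7718228)]

/-- cells -/
def sc28_1 : List (ℤ × ℤ) :=
    [(7577000, 10000000), (7616000, 9867000), (7663000, 9712000), (7720000, 9527000),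
     (7793000, 9303000), (7895000, 9017000), (8040000, 8622000), (8221000, 8069000),
     (8392000, 7398000), (8559000, 6792000), (8730000, 6232000), (8922000, 5701000),
     (9175000, 5167000), (9588000, 4579000), (9920000, 3946000), (10000000, 3747000)]

theorem sS28_1 : tStep (tAe 14) 14917333 5198 1511 sn28_1 = true := by decide +kernel

theorem sC28_1 : tCells 28 2307372 2347493 (0, 1) (sn28_1.map Prod.snd) 0 sc28_1 = true := by
  decide +kernel

/-- nodes -/
def sn28_2 : List (ℤ × ℤ × ℤ) :=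
    [(5333, 2303514, 8068649), (5444, 2304428, 8279797), (5535, 2305029, 8452131),
     (5611, 2305446, 8593414), (5670, 2305723, 8711408)]

/-- cells -/
def sc28_2 : List (ℤ × ℤ) :=
    [(7577000, 10000000), (7630000, 9867000), (7716000, 9657000), (7854000, 9318000),
     (8112000, 8780000), (10000000, 7799000)]

theorem sS28_2 : tStep (tAe 14) 15525590 5670 5197 sn28_2 = true := by decide +kernel

theorem sC28_2 : tCells 28 2307372 2347493 (0, 1) (sn28_2.map Prod.snd) 0 sc28_2 = true := by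
  decide +kernel

theorem steps28 {r τ τ' T : ℝ → ℝ} (hr : IsProf r) (h : IsTrans 28 r τ τ' T)
    (hN : (∫ y in (-1 : ℝ)..1, r y ^ (28 - 1)) ^ 28 * aInt 28 ^ (28 - 1) ≤
      aInt (28 - 1) ^ 28 * (∫ y in (-1 : ℝ)..1, r y ^ 28) ^ (28 - 1)) {x : ℝ}
    (hx : x ∈ Ioo (0 : ℝ) 1) : ApBox3 (((28 : ℕ) : ℝ) * x ^ 2) (lf τ x) := by
  have hτ := h.mem x hx
  have hx0 := hx.1
  have hA : ∀ n a : ℤ, (tAe 14) n a = true → 0 ≤ n → n ≤ 10000 →
      ∫ t in (0 : ℝ)..((n : ℝ) / 10000), sq t ^ 28 ≤ (a : ℝ) / lsD :=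
    (fun n a h0 h1 h2 => tAe_sound (h := 14) h1 h2 h0)
  refine ⟨fun h1 => ?_, fun h0 h1 => ?_, fun h0 h1 => ?_⟩
  · have hlt := ls_lt_of (m := 28) (n := 1512) hx0 (by norm_num) h1 (by norm_num)
    exact ls_log_of hx0 hτ.1 (by norm_num) (ls_step0 (m := 28) (by norm_num) (z := 2307372) (z' := 2347493)
      (by norm_num) ls_lo28 ls_hi27 hA (by simp [sc28_0]) (n0 := 755) (nend := 1512) (c := 16484375)
      (u0 := 1244570) (by norm_num) (by norm_num) (by norm_num) (by norm_num) sS28_0 sC28_0 hr h hN hx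
      hlt) (by rw [lsD_cast]; norm_num)
  · have hlt := ls_lt_of (m := 28) (n := 5198) hx0 (by norm_num) h1 (by norm_num)
    have hge := ls_ge_of (m := 28) (n := 1511) hx0 (by norm_num) h0 (by norm_num)
    exact ls_log_of hx0 hτ.1 (by norm_num) (ls_step (m := 28) (by norm_num) (z := 2307372) (z' := 2347493)
      (by norm_num) ls_lo28 ls_hi27 hA (by simp [sc28_1]) (n0 := 1511) (nend := 5198) (c := 14917333)
      (by norm_num) sS28_1 sC28_1 hr h hN hx hge hlt) (by rw [lsD_cast]; norm_num)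
  · have hlt := ls_lt_of (m := 28) (n := 5670) hx0 (by norm_num) h1 (by norm_num)
    have hge := ls_ge_of (m := 28) (n := 5197) hx0 (by norm_num) h0 (by norm_num)
    exact ls_log_of hx0 hτ.1 (by norm_num) (ls_step (m := 28) (by norm_num) (z := 2307372) (z' := 2347493)
      (by norm_num) ls_lo28 ls_hi27 hA (by simp [sc28_2]) (n0 := 5197) (nend := 5670) (c := 15525590)
      (by norm_num) sS28_2 sC28_2 hr h hN hx hge hlt) (by rw [lsD_cast]; norm_num)

/-- nodes -/
def sn29_0 : List (ℤ × ℤ × ℤ) :=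
    [(768, 746914, 1223140), (796, 772531, 1266000), (826, 799794, 1312156),
     (859, 829555, 1361609), (895, 861742, 1416007), (935, 897150, 1475351),
     (979, 935654, 1541289), (1029, 978822, 1613820), (1085, 1026402, 1696242),
     (1149, 1079748, 1788554), (1224, 1140808, 1894054), (1312, 1210373, 2017687),
     (1418, 1291066, 2162750), (1486, 1340990, 2337484)]

/-- cells -/
def sc29_0 : List (ℤ × ℤ) :=
    [(8757000, 10000000), (9473000, 5657000), (9906000, 4039000), (10000000, 3691000)]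

theorem sS29_0 : tStep (tAo 14 2269243) 16484375 1486 742 sn29_0 = true := by decide +kernel

theorem sC29_0 : tCells 29 2269241 2307373 (1000 * 742, 1223140) (sn29_0.map Prod.snd) 0 sc29_0 = true := by
  decide +kernel

/-- nodes -/
def sn29_1 : List (ℤ × ℤ × ℤ) :=
    [(1508, 1356828, 2215223), (1535, 1376053, 2249533), (1567, 1398534, 2289810),
     (1605, 1424797, 2337546), (1651, 1455957, 2394231), (1708, 1493600, 2462851),
     (1779, 1538979, 2547880), (1869, 1594081, 2653793), (1986, 1661652, 2788049),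
     (2143, 1745141, 2962582), (2363, 1848530, 3196784), (2690, 1974320, 3524965),
     (3223, 2116622, 4012762), (3692, 2191211, 4807856), (4053, 2225638, 5507479),
     (4338, 2242907, 6045995), (4562, 2252055, 6471139), (4737, 2257172, 6805287),
     (4874, 2260208, 7066340), (4981, 2262098, 7270708), (5063, 2263304, 7430323),
     (5107, 2263876, 7552645)]

/-- cells -/
def sc29_1 : List (ℤ × ℤ) :=
    [(7618000, 10000000), (7656000, 9865000), (7699000, 9712000), (7750000, 9539000),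
     (7813000, 9334000), (7894000, 9082000), (8007000, 8761000), (8164000, 8317000),
     (8352000, 7714000), (8548000, 7016000), (8752000, 6329000), (8967000, 5673000),
     (9234000, 5061000), (9643000, 4442000), (9939000, 3843000), (10000000, 3684000)]

theorem sS29_1 : tStep (tAo 14 2269243) 14917333 5107 1485 sn29_1 = true := by decide +kernel

theorem sC29_1 : tCells 29 2269241 2307373 (0, 1) (sn29_1.map Prod.snd) 0 sc29_1 = true := by
  decide +kernel

/-- nodes -/
def sn29_2 : List (ℤ × ℤ × ℤ) :=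
    [(5246, 2265379, 7927366), (5359, 2266316, 8144724), (5449, 2266913, 8320163),
     (5522, 2267316, 8459893), (5571, 2267551, 8573230)]

/-- cells -/
def sc29_2 : List (ℤ × ℤ) :=
    [(7603000, 10000000), (7629000, 9926000), (7666000, 9821000), (7723000, 9672000),
     (7815000, 9442000), (7958000, 9074000), (8252000, 8509000), (10000000, 7383000)]

theorem sS29_2 : tStep (tAo 14 2269243) 15525590 5571 5106 sn29_2 = true := by decide +kernel

theorem sC29_2 : tCells 29 2269241 2307373 (0, 1) (sn29_2.map Prod.snd) 0 sc29_2 = true := by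
  decide +kernel

theorem steps29 {r τ τ' T : ℝ → ℝ} (hr : IsProf r) (h : IsTrans 29 r τ τ' T)
    (hN : (∫ y in (-1 : ℝ)..1, r y ^ (29 - 1)) ^ 29 * aInt 29 ^ (29 - 1) ≤
      aInt (29 - 1) ^ 29 * (∫ y in (-1 : ℝ)..1, r y ^ 29) ^ (29 - 1)) {x : ℝ}
    (hx : x ∈ Ioo (0 : ℝ) 1) : ApBox3 (((29 : ℕ) : ℝ) * x ^ 2) (lf τ x) := by
  have hτ := h.mem x hx
  have hx0 := hx.1
  have hA : ∀ n a : ℤ, (tAo 14 2269243) n a = true → 0 ≤ n → n ≤ 10000 →
      ∫ t in (0 : ℝ)..((n : ℝ) / 10000), sq t ^ 29 ≤ (a : ℝ) / lsD :=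
    (fun n a h0 h1 h2 => tAo_sound (h := 14) (zh := 2269243) ls_hi29 h1 h2 h0)
  refine ⟨fun h1 => ?_, fun h0 h1 => ?_, fun h0 h1 => ?_⟩
  · have hlt := ls_lt_of (m := 29) (n := 1486) hx0 (by norm_num) h1 (by norm_num)
    exact ls_log_of hx0 hτ.1 (by norm_num) (ls_step0 (m := 29) (by norm_num) (z := 2269241) (z' := 2307373)
      (by norm_num) ls_lo29 ls_hi28 hA (by simp [sc29_0]) (n0 := 742) (nend := 1486) (c := 16484375)
      (u0 := 1223140) (by norm_num) (by norm_num) (by norm_num) (by norm_num) sS29_0 sC29_0 hr h hN hx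
      hlt) (by rw [lsD_cast]; norm_num)
  · have hlt := ls_lt_of (m := 29) (n := 5107) hx0 (by norm_num) h1 (by norm_num)
    have hge := ls_ge_of (m := 29) (n := 1485) hx0 (by norm_num) h0 (by norm_num)
    exact ls_log_of hx0 hτ.1 (by norm_num) (ls_step (m := 29) (by norm_num) (z := 2269241) (z' := 2307373)
      (by norm_num) ls_lo29 ls_hi28 hA (by simp [sc29_1]) (n0 := 1485) (nend := 5107) (c := 14917333)
      (by norm_num) sS29_1 sC29_1 hr h hN hx hge hlt) (by rw [lsD_cast]; norm_num)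
  · have hlt := ls_lt_of (m := 29) (n := 5571) hx0 (by norm_num) h1 (by norm_num)
    have hge := ls_ge_of (m := 29) (n := 5106) hx0 (by norm_num) h0 (by norm_num)
    exact ls_log_of hx0 hτ.1 (by norm_num) (ls_step (m := 29) (by norm_num) (z := 2269241) (z' := 2307373)
      (by norm_num) ls_lo29 ls_hi28 hA (by simp [sc29_2]) (n0 := 5106) (nend := 5571) (c := 15525590)
      (by norm_num) sS29_2 sC29_2 hr h hN hx hge hlt) (by rw [lsD_cast]; norm_num)

/-- nodes -/
def sn30_0 : List (ℤ × ℤ × ℤ) :=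
    [(755, 733988, 1203359), (782, 758693, 1244570), (811, 785052, 1289078),
     (843, 813921, 1336882), (878, 845229, 1389632), (916, 878891, 1447328),
     (959, 916558, 1509968), (1007, 958051, 1580851), (1061, 1004009, 1659976),
     (1123, 1055797, 1748992), (1195, 1114575, 1851195), (1279, 1181225, 1969882),
     (1380, 1258514, 2108351), (1461, 1318173, 2274843)]

/-- cells -/
def sc30_0 : List (ℤ × ℤ) :=
    [(8782000, 10000000), (9484000, 5617000), (9907000, 3985000), (10000000, 3634000)]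

theorem sS30_0 : tStep (tAe 15) 16484375 1461 730 sn30_0 = true := by decide +kernel

theorem sC30_0 : tCells 30 2232941 2269243 (1000 * 730, 1203359) (sn30_0.map Prod.snd) 0 sc30_0 = true := by
  decide +kernel

/-- nodes -/
def sn30_1 : List (ℤ × ℤ × ℤ) :=
    [(1482, 1333295, 2177930), (1508, 1351819, 2210748), (1539, 1373615, 2249533),
     (1576, 1399214, 2295777), (1621, 1429734, 2350971), (1676, 1466115, 2418099),
     (1744, 1509684, 2500145), (1830, 1562537, 2601582), (1941, 1627030, 2729871),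
     (2090, 1707024, 2895454), (2298, 1806287, 3117722), (2605, 1927570, 3428003),
     (3099, 2066622, 3885965), (3581, 2149044, 4622881), (3948, 2186388, 5341896),
     (4237, 2204978, 5889363), (4463, 2214740, 6320473), (4640, 2220198, 6657605),
     (4778, 2223417, 6921642), (4885, 2225404, 7127501), (4968, 2226687, 7287117),
     (5021, 2227404, 7410931)]

/-- cells -/
def sc30_1 : List (ℤ × ℤ) :=
    [(7661000, 10000000), (7702000, 9848000), (7749000, 9679000), (7804000, 9486000),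
     (7870000, 9261000), (7953000, 8993000), (8068000, 8658000), (8225000, 8199000),
     (8404000, 7585000), (8588000, 6911000), (8795000, 6255000), (9025000, 5577000),
     (9305000, 4919000), (9708000, 4283000), (9960000, 3738000), (10000000, 3625000)]

theorem sS30_1 : tStep (tAe 15) 14917333 5021 1460 sn30_1 = true := by decide +kernel

theorem sC30_1 : tCells 30 2232941 2269243 (0, 1) (sn30_1.map Prod.snd) 0 sc30_1 = true := by
  decide +kernel

/-- nodes -/
def sn30_2 : List (ℤ × ℤ × ℤ) :=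
    [(5158, 2228935, 7793846), (5268, 2229882, 8008099), (5355, 2230486, 8178880),
     (5424, 2230887, 8313953), (5478, 2231160, 8421080)]

/-- cells -/
def sc30_2 : List (ℤ × ℤ) :=
    [(7637000, 10000000), (7655000, 9947000), (7681000, 9872000), (7718000, 9765000),
     (7775000, 9613000), (7864000, 9380000), (7999000, 9017000), (8254000, 8473000),
     (10000000, 7474000)]

theorem sS30_2 : tStep (tAe 15) 15525590 5478 5020 sn30_2 = true := by decide +kernel

theorem sC30_2 : tCells 30 2232941 2269243 (0, 1) (sn30_2.map Prod.snd) 0 sc30_2 = true := by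
  decide +kernel

theorem steps30 {r τ τ' T : ℝ → ℝ} (hr : IsProf r) (h : IsTrans 30 r τ τ' T)
    (hN : (∫ y in (-1 : ℝ)..1, r y ^ (30 - 1)) ^ 30 * aInt 30 ^ (30 - 1) ≤
      aInt (30 - 1) ^ 30 * (∫ y in (-1 : ℝ)..1, r y ^ 30) ^ (30 - 1)) {x : ℝ}
    (hx : x ∈ Ioo (0 : ℝ) 1) : ApBox3 (((30 : ℕ) : ℝ) * x ^ 2) (lf τ x) := by
  have hτ := h.mem x hx
  have hx0 := hx.1
  have hA : ∀ n a : ℤ, (tAe 15) n a = true → 0 ≤ n → n ≤ 10000 →
      ∫ t in (0 : ℝ)..((n : ℝ) / 10000), sq t ^ 30 ≤ (a : ℝ) / lsD :=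
    (fun n a h0 h1 h2 => tAe_sound (h := 15) h1 h2 h0)
  refine ⟨fun h1 => ?_, fun h0 h1 => ?_, fun h0 h1 => ?_⟩
  · have hlt := ls_lt_of (m := 30) (n := 1461) hx0 (by norm_num) h1 (by norm_num)
    exact ls_log_of hx0 hτ.1 (by norm_num) (ls_step0 (m := 30) (by norm_num) (z := 2232941) (z' := 2269243)
      (by norm_num) ls_lo30 ls_hi29 hA (by simp [sc30_0]) (n0 := 730) (nend := 1461) (c := 16484375)
      (u0 := 1203359) (by norm_num) (by norm_num) (by norm_num) (by norm_num) sS30_0 sC30_0 hr h hN hx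
      hlt) (by rw [lsD_cast]; norm_num)
  · have hlt := ls_lt_of (m := 30) (n := 5021) hx0 (by norm_num) h1 (by norm_num)
    have hge := ls_ge_of (m := 30) (n := 1460) hx0 (by norm_num) h0 (by norm_num)
    exact ls_log_of hx0 hτ.1 (by norm_num) (ls_step (m := 30) (by norm_num) (z := 2232941) (z' := 2269243)
      (by norm_num) ls_lo30 ls_hi29 hA (by simp [sc30_1]) (n0 := 1460) (nend := 5021) (c := 14917333)
      (by norm_num) sS30_1 sC30_1 hr h hN hx hge hlt) (by rw [lsD_cast]; norm_num)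
  · have hlt := ls_lt_of (m := 30) (n := 5478) hx0 (by norm_num) h1 (by norm_num)
    have hge := ls_ge_of (m := 30) (n := 5020) hx0 (by norm_num) h0 (by norm_num)
    exact ls_log_of hx0 hτ.1 (by norm_num) (ls_step (m := 30) (by norm_num) (z := 2232941) (z' := 2269243)
      (by norm_num) ls_lo30 ls_hi29 hA (by simp [sc30_2]) (n0 := 5020) (nend := 5478) (c := 15525590)
      (by norm_num) sS30_2 sC30_2 hr h hN hx hge hlt) (by rw [lsD_cast]; norm_num)

/-- nodes -/
def sn31_0 : List (ℤ × ℤ × ℤ) :=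
    [(742, 721629, 1183578), (768, 745424, 1223140), (796, 770885, 1266000),
     (827, 798867, 1312156), (861, 829300, 1363257), (898, 862104, 1419304),
     (939, 898058, 1480296), (985, 937883, 1547882), (1037, 982227, 1623710),
     (1096, 1031639, 1709429), (1165, 1088165, 1806687), (1246, 1152719, 1920429),
     (1343, 1227361, 2053953), (1437, 1296827, 2213851)]

/-- cells -/
def sc31_0 : List (ℤ × ℤ) :=
    [(8790000, 10000000), (9482000, 5629000), (9900000, 3953000), (10000000, 3583000)]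

theorem sS31_0 : tStep (tAo 15 2198329) 16484375 1437 718 sn31_0 = true := by decide +kernel

theorem sC31_0 : tCells 31 2198327 2232942 (1000 * 718, 1183578) (sn31_0.map Prod.snd) 0 sc31_0 = true := by
  decide +kernel

/-- nodes -/
def sn31_1 : List (ℤ × ℤ × ℤ) :=
    [(1454, 1309082, 2142129), (1475, 1324088, 2168980), (1499, 1341058, 2200306),
     (1527, 1360614, 2236108), (1560, 1383323, 2277876), (1599, 1409685, 2327103),
     (1646, 1440767, 2385281), (1703, 1477447, 2455393), (1773, 1520960, 2540421),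
     (1860, 1572679, 2644843), (1972, 1635405, 2774623), (2119, 1711197, 2941698),
     (2320, 1803082, 3160982), (2609, 1912604, 3460821), (3056, 2035380, 3891932),
     (3510, 2113437, 4558736), (3868, 2150742, 5235983), (4154, 2169688, 5770024),
     (4379, 2179702, 6196660), (4555, 2185293, 6532300), (4692, 2188583, 6794845),
     (4797, 2190594, 6999212), (4878, 2191889, 7155844), (4940, 2192749, 7276675)]

/-- cells -/
def sc31_1 : List (ℤ × ℤ) :=
    [(7688000, 10000000), (7717000, 9889000), (7750000, 9767000), (7788000, 9629000),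
     (7832000, 9471000), (7884000, 9288000), (7949000, 9072000), (8035000, 8804000),
     (8156000, 8451000), (8316000, 7963000), (8504000, 7331000), (8700000, 6620000),
     (8933000, 5927000), (9202000, 5188000), (9593000, 4484000), (9914000, 3805000),
     (10000000, 3579000)]

theorem sS31_1 : tStep (tAo 15 2198329) 14917333 4940 1436 sn31_1 = true := by decide +kernel

theorem sC31_1 : tCells 31 2198327 2232942 (0, 1) (sn31_1.map Prod.snd) 0 sc31_1 = true := by
  decide +kernel

/-- nodes -/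
def sn31_2 : List (ℤ × ℤ × ℤ) :=
    [(5066, 2194194, 7668088), (5166, 2195096, 7865263), (5245, 2195681, 8020519),
     (5307, 2196074, 8143171), (5356, 2196346, 8239430), (5389, 2196513, 8315506)]

/-- cells -/
def sc31_2 : List (ℤ × ℤ) :=
    [(7675000, 10000000), (7693000, 9943000), (7717000, 9868000), (7749000, 9767000),
     (7794000, 9634000), (7862000, 9446000), (7967000, 9163000), (8129000, 8730000),
     (8515000, 8071000), (10000000, 6580000)]

theorem sS31_2 : tStep (tAo 15 2198329) 15525590 5389 4939 sn31_2 = true := by decide +kernel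

theorem sC31_2 : tCells 31 2198327 2232942 (0, 1) (sn31_2.map Prod.snd) 0 sc31_2 = true := by
  decide +kernel

theorem steps31 {r τ τ' T : ℝ → ℝ} (hr : IsProf r) (h : IsTrans 31 r τ τ' T)
    (hN : (∫ y in (-1 : ℝ)..1, r y ^ (31 - 1)) ^ 31 * aInt 31 ^ (31 - 1) ≤
      aInt (31 - 1) ^ 31 * (∫ y in (-1 : ℝ)..1, r y ^ 31) ^ (31 - 1)) {x : ℝ}
    (hx : x ∈ Ioo (0 : ℝ) 1) : ApBox3 (((31 : ℕ) : ℝ) * x ^ 2) (lf τ x) := by
  have hτ := h.mem x hx
  have hx0 := hx.1
  have hA : ∀ n a : ℤ, (tAo 15 2198329) n a = true → 0 ≤ n → n ≤ 10000 →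
      ∫ t in (0 : ℝ)..((n : ℝ) / 10000), sq t ^ 31 ≤ (a : ℝ) / lsD :=
    (fun n a h0 h1 h2 => tAo_sound (h := 15) (zh := 2198329) ls_hi31 h1 h2 h0)
  refine ⟨fun h1 => ?_, fun h0 h1 => ?_, fun h0 h1 => ?_⟩
  · have hlt := ls_lt_of (m := 31) (n := 1437) hx0 (by norm_num) h1 (by norm_num)
    exact ls_log_of hx0 hτ.1 (by norm_num) (ls_step0 (m := 31) (by norm_num) (z := 2198327) (z' := 2232942)
      (by norm_num) ls_lo31 ls_hi30 hA (by simp [sc31_0]) (n0 := 718) (nend := 1437) (c := 16484375)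
      (u0 := 1183578) (by norm_num) (by norm_num) (by norm_num) (by norm_num) sS31_0 sC31_0 hr h hN hx
      hlt) (by rw [lsD_cast]; norm_num)
  · have hlt := ls_lt_of (m := 31) (n := 4940) hx0 (by norm_num) h1 (by norm_num)
    have hge := ls_ge_of (m := 31) (n := 1436) hx0 (by norm_num) h0 (by norm_num)
    exact ls_log_of hx0 hτ.1 (by norm_num) (ls_step (m := 31) (by norm_num) (z := 2198327) (z' := 2232942)
      (by norm_num) ls_lo31 ls_hi30 hA (by simp [sc31_1]) (n0 := 1436) (nend := 4940) (c := 14917333)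
      (by norm_num) sS31_1 sC31_1 hr h hN hx hge hlt) (by rw [lsD_cast]; norm_num)
  · have hlt := ls_lt_of (m := 31) (n := 5389) hx0 (by norm_num) h1 (by norm_num)
    have hge := ls_ge_of (m := 31) (n := 4939) hx0 (by norm_num) h0 (by norm_num)
    exact ls_log_of hx0 hτ.1 (by norm_num) (ls_step (m := 31) (by norm_num) (z := 2198327) (z' := 2232942)
      (by norm_num) ls_lo31 ls_hi30 hA (by simp [sc31_2]) (n0 := 4939) (nend := 5389) (c := 15525590)
      (by norm_num) sS31_2 sC31_2 hr h hN hx hge hlt) (by rw [lsD_cast]; norm_num)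

/-- nodes -/
def sn32_0 : List (ℤ × ℤ × ℤ) :=
    [(730, 709742, 1165445), (755, 732625, 1203359), (782, 757184, 1244570),
     (812, 784275, 1289078), (845, 813832, 1338531), (881, 845773, 1392929),
     (921, 880881, 1452273), (966, 919882, 1518210), (1016, 962577, 1592390),
     (1073, 1010400, 1674812), (1139, 1064601, 1768773), (1216, 1126183, 1877570),
     (1308, 1197337, 2004500), (1415, 1276649, 2156156)]

/-- cells -/
def sc32_0 : List (ℤ × ℤ) :=
    [(8792000, 10000000), (9463000, 5662000), (9886000, 3951000), (10000000, 3536000)]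

theorem sS32_0 : tStep (tAe 16) 16484375 1415 707 sn32_0 = true := by decide +kernel

theorem sC32_0 : tCells 32 2165276 2198329 (1000 * 707, 1165445) (sn32_0.map Prod.snd) 0 sc32_0 = true := by
  decide +kernel

/-- nodes -/
def sn32_1 : List (ℤ × ℤ × ℤ) :=
    [(1429, 1286746, 2109310), (1446, 1298918, 2131686), (1465, 1312406, 2157046),
     (1487, 1327872, 2185389), (1512, 1345246, 2218207), (1541, 1365133, 2255500),
     (1575, 1388080, 2298761), (1614, 1413909, 2349479), (1660, 1443695, 2407657),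
     (1715, 1478337, 2476277), (1781, 1518508, 2558322), (1862, 1565718, 2656777),
     (1963, 1621360, 2777607), (2092, 1687268, 2928272), (2262, 1765458, 3120706),
     (2494, 1856925, 3374300), (2829, 1960539, 3720382), (3294, 2057474, 4220113),
     (3657, 2104041, 4913769), (3954, 2128482, 5455268), (4193, 2141652, 5898313),
     (4383, 2149037, 6254837), (4533, 2153377, 6538267), (4650, 2156030, 6762027),
     (4742, 2157741, 6936559), (4813, 2158866, 7073799), (4862, 2159554, 7179712)]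

/-- cells -/
def sc32_1 : List (ℤ × ℤ) :=
    [(7733000, 10000000), (7772000, 9848000), (7816000, 9681000), (7866000, 9494000),
     (7924000, 9283000), (7994000, 9038000), (8083000, 8744000), (8205000, 8373000),
     (8370000, 7872000), (8567000, 7211000), (8763000, 6457000), (8980000, 5760000),
     (9284000, 5070000), (9701000, 4290000), (9957000, 3650000), (10000000, 3519000)]

theorem sS32_1 : tStep (tAe 16) 14917333 4862 1414 sn32_1 = true := by decide +kernel

theorem sC32_1 : tCells 32 2165276 2198329 (0, 1) (sn32_1.map Prod.snd) 0 sc32_1 = true := by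
  decide +kernel

/-- nodes -/
def sn32_2 : List (ℤ × ℤ × ℤ) :=
    [(4986, 2161016, 7546989), (5084, 2161929, 7741059), (5161, 2162521, 7893209),
     (5220, 2162910, 8012756), (5267, 2163184, 8104357), (5304, 2163380, 8177328)]

/-- cells -/
def sc32_2 : List (ℤ × ℤ) :=
    [(7708000, 10000000), (7721000, 9954000), (7738000, 9899000), (7760000, 9826000),
     (7790000, 9732000), (7831000, 9605000), (7891000, 9431000), (7983000, 9177000),
     (8120000, 8790000), (8375000, 8220000), (10000000, 7192000)]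

theorem sS32_2 : tStep (tAe 16) 15525590 5304 4861 sn32_2 = true := by decide +kernel

theorem sC32_2 : tCells 32 2165276 2198329 (0, 1) (sn32_2.map Prod.snd) 0 sc32_2 = true := by
  decide +kernel

theorem steps32 {r τ τ' T : ℝ → ℝ} (hr : IsProf r) (h : IsTrans 32 r τ τ' T)
    (hN : (∫ y in (-1 : ℝ)..1, r y ^ (32 - 1)) ^ 32 * aInt 32 ^ (32 - 1) ≤
      aInt (32 - 1) ^ 32 * (∫ y in (-1 : ℝ)..1, r y ^ 32) ^ (32 - 1)) {x : ℝ}
    (hx : x ∈ Ioo (0 : ℝ) 1) : ApBox3 (((32 : ℕ) : ℝ) * x ^ 2) (lf τ x) := by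
  have hτ := h.mem x hx
  have hx0 := hx.1
  have hA : ∀ n a : ℤ, (tAe 16) n a = true → 0 ≤ n → n ≤ 10000 →
      ∫ t in (0 : ℝ)..((n : ℝ) / 10000), sq t ^ 32 ≤ (a : ℝ) / lsD :=
    (fun n a h0 h1 h2 => tAe_sound (h := 16) h1 h2 h0)
  refine ⟨fun h1 => ?_, fun h0 h1 => ?_, fun h0 h1 => ?_⟩
  · have hlt := ls_lt_of (m := 32) (n := 1415) hx0 (by norm_num) h1 (by norm_num)
    exact ls_log_of hx0 hτ.1 (by norm_num) (ls_step0 (m := 32) (by norm_num) (z := 2165276) (z' := 2198329)
      (by norm_num) ls_lo32 ls_hi31 hA (by simp [sc32_0]) (n0 := 707) (nend := 1415) (c := 16484375)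
      (u0 := 1165445) (by norm_num) (by norm_num) (by norm_num) (by norm_num) sS32_0 sC32_0 hr h hN hx
      hlt) (by rw [lsD_cast]; norm_num)
  · have hlt := ls_lt_of (m := 32) (n := 4862) hx0 (by norm_num) h1 (by norm_num)
    have hge := ls_ge_of (m := 32) (n := 1414) hx0 (by norm_num) h0 (by norm_num)
    exact ls_log_of hx0 hτ.1 (by norm_num) (ls_step (m := 32) (by norm_num) (z := 2165276) (z' := 2198329)
      (by norm_num) ls_lo32 ls_hi31 hA (by simp [sc32_1]) (n0 := 1414) (nend := 4862) (c := 14917333)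
      (by norm_num) sS32_1 sC32_1 hr h hN hx hge hlt) (by rw [lsD_cast]; norm_num)
  · have hlt := ls_lt_of (m := 32) (n := 5304) hx0 (by norm_num) h1 (by norm_num)
    have hge := ls_ge_of (m := 32) (n := 4861) hx0 (by norm_num) h0 (by norm_num)
    exact ls_log_of hx0 hτ.1 (by norm_num) (ls_step (m := 32) (by norm_num) (z := 2165276) (z' := 2198329)
      (by norm_num) ls_lo32 ls_hi31 hA (by simp [sc32_2]) (n0 := 4861) (nend := 5304) (c := 15525590)
      (by norm_num) sS32_2 sC32_2 hr h hN hx hge hlt) (by rw [lsD_cast]; norm_num)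

/-- nodes -/
def sn33_0 : List (ℤ × ℤ × ℤ) :=
    [(719, 699236, 1147312), (744, 722118, 1185226), (771, 746672, 1226437),
     (800, 772857, 1270945), (832, 801516, 1318750), (867, 832573, 1371500),
     (906, 866812, 1429195), (949, 904099, 1493484), (998, 945973, 1564367),
     (1054, 993000, 1645140), (1118, 1045619, 1737453), (1193, 1105698, 1842953),
     (1283, 1175447, 1966585), (1393, 1257089, 2114945)]

/-- cells -/
def sc33_0 : List (ℤ × ℤ) :=
    [(8804000, 10000000), (9459000, 5662000), (9875000, 3929000), (10000000, 3491000)]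

theorem sS33_0 : tStep (tAo 16 2133672) 16484375 1393 696 sn33_0 = true := by decide +kernel

theorem sC33_0 : tCells 33 2133671 2165277 (1000 * 696, 1147312) (sn33_0.map Prod.snd) 0 sc33_0 = true := by
  decide +kernel

/-- nodes -/
def sn33_1 : List (ℤ × ℤ × ℤ) :=
    [(1409, 1268625, 2076492), (1428, 1282211, 2101852), (1450, 1297788, 2130195),
     (1476, 1315982, 2163013), (1506, 1336684, 2201798), (1542, 1361113, 2246550),
     (1585, 1389696, 2300252), (1637, 1423391, 2364397), (1700, 1462930, 2441967),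
     (1779, 1510512, 2535946), (1879, 1567552, 2653793), (2009, 1636402, 2802966),
     (2185, 1720219, 2996892), (2433, 1820706, 3259437), (2807, 1936686, 3629387),
     (3306, 2036398, 4187295), (3674, 2079839, 4931670), (3967, 2101635, 5480628),
     (4199, 2113116, 5917706), (4380, 2119441, 6263788), (4520, 2123111, 6533791),
     (4628, 2125353, 6742634), (4711, 2126783, 6903741), (4774, 2127721, 7027555),
     (4788, 2127914, 7121534)]

/-- cells -/
def sc33_1 : List (ℤ × ℤ) :=
    [(7761000, 10000000), (7793000, 9872000), (7828000, 9733000), (7866000, 9582000),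
     (7909000, 9418000), (7958000, 9233000), (8017000, 9022000), (8090000, 8770000),
     (8188000, 8460000), (8321000, 8049000), (8480000, 7499000), (8636000, 6862000),
     (8796000, 6265000), (8977000, 5690000), (9227000, 5098000), (9587000, 4410000),
     (9904000, 3735000), (10000000, 3481000)]

theorem sS33_1 : tStep (tAo 16 2133672) 14917333 4788 1392 sn33_1 = true := by decide +kernel

theorem sC33_1 : tCells 33 2133671 2165277 (0, 1) (sn33_1.map Prod.snd) 0 sc33_1 = true := by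
  decide +kernel

/-- nodes -/
def sn33_2 : List (ℤ × ℤ × ℤ) :=
    [(4902, 2129290, 7432099), (4993, 2130172, 7610644), (5064, 2130748, 7751927),
     (5120, 2131142, 7862158), (5164, 2131418, 7949102), (5198, 2131612, 8017414),
     (5223, 2131745, 8070201)]

/-- cells -/
def sc33_2 : List (ℤ × ℤ) :=
    [(7741000, 10000000), (7753000, 9959000), (7768000, 9907000), (7787000, 9842000),
     (7811000, 9759000), (7843000, 9655000), (7887000, 9517000), (7950000, 9327000),
     (8046000, 9057000), (8188000, 8647000), (8460000, 8049000), (10000000, 6941000)]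

theorem sS33_2 : tStep (tAo 16 2133672) 15525590 5223 4787 sn33_2 = true := by decide +kernel

theorem sC33_2 : tCells 33 2133671 2165277 (0, 1) (sn33_2.map Prod.snd) 0 sc33_2 = true := by
  decide +kernel

theorem steps33 {r τ τ' T : ℝ → ℝ} (hr : IsProf r) (h : IsTrans 33 r τ τ' T)
    (hN : (∫ y in (-1 : ℝ)..1, r y ^ (33 - 1)) ^ 33 * aInt 33 ^ (33 - 1) ≤
      aInt (33 - 1) ^ 33 * (∫ y in (-1 : ℝ)..1, r y ^ 33) ^ (33 - 1)) {x : ℝ}
    (hx : x ∈ Ioo (0 : ℝ) 1) : ApBox3 (((33 : ℕ) : ℝ) * x ^ 2) (lf τ x) := by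
  have hτ := h.mem x hx
  have hx0 := hx.1
  have hA : ∀ n a : ℤ, (tAo 16 2133672) n a = true → 0 ≤ n → n ≤ 10000 →
      ∫ t in (0 : ℝ)..((n : ℝ) / 10000), sq t ^ 33 ≤ (a : ℝ) / lsD :=
    (fun n a h0 h1 h2 => tAo_sound (h := 16) (zh := 2133672) ls_hi33 h1 h2 h0)
  refine ⟨fun h1 => ?_, fun h0 h1 => ?_, fun h0 h1 => ?_⟩
  · have hlt := ls_lt_of (m := 33) (n := 1393) hx0 (by norm_num) h1 (by norm_num)
    exact ls_log_of hx0 hτ.1 (by norm_num) (ls_step0 (m := 33) (by norm_num) (z := 2133671) (z' := 2165277)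
      (by norm_num) ls_lo33 ls_hi32 hA (by simp [sc33_0]) (n0 := 696) (nend := 1393) (c := 16484375)
      (u0 := 1147312) (by norm_num) (by norm_num) (by norm_num) (by norm_num) sS33_0 sC33_0 hr h hN hx
      hlt) (by rw [lsD_cast]; norm_num)
  · have hlt := ls_lt_of (m := 33) (n := 4788) hx0 (by norm_num) h1 (by norm_num)
    have hge := ls_ge_of (m := 33) (n := 1392) hx0 (by norm_num) h0 (by norm_num)
    exact ls_log_of hx0 hτ.1 (by norm_num) (ls_step (m := 33) (by norm_num) (z := 2133671) (z' := 2165277)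
      (by norm_num) ls_lo33 ls_hi32 hA (by simp [sc33_1]) (n0 := 1392) (nend := 4788) (c := 14917333)
      (by norm_num) sS33_1 sC33_1 hr h hN hx hge hlt) (by rw [lsD_cast]; norm_num)
  · have hlt := ls_lt_of (m := 33) (n := 5223) hx0 (by norm_num) h1 (by norm_num)
    have hge := ls_ge_of (m := 33) (n := 4787) hx0 (by norm_num) h0 (by norm_num)
    exact ls_log_of hx0 hτ.1 (by norm_num) (ls_step (m := 33) (by norm_num) (z := 2133671) (z' := 2165277)
      (by norm_num) ls_lo33 ls_hi32 hA (by simp [sc33_2]) (n0 := 4787) (nend := 5223) (c := 15525590)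
      (by norm_num) sS33_2 sC33_2 hr h hN hx hge hlt) (by rw [lsD_cast]; norm_num)

/-- nodes -/
def sn34_0 : List (ℤ × ℤ × ℤ) :=
    [(704, 684691, 1129179), (725, 703941, 1160500), (747, 724000, 1195117),
     (771, 745755, 1231382), (797, 769168, 1270945), (825, 794196, 1313804),
     (855, 820793, 1359960), (888, 849781, 1409414), (925, 881938, 1463812),
     (966, 917133, 1524804), (1011, 955214, 1592390), (1062, 997658, 1666570),
     (1120, 1044974, 1750640), (1187, 1098328, 1846250), (1265, 1158620, 1956695),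
     (1372, 1238030, 2085273)]

/-- cells -/
def sc34_0 : List (ℤ × ℤ) :=
    [(8821000, 10000000), (9465000, 5645000), (9874000, 3892000), (10000000, 3445000)]

theorem sS34_0 : tStep (tAe 17) 16484375 1372 685 sn34_0 = true := by decide +kernel

theorem sC34_0 : tCells 34 2103411 2133672 (1000 * 685, 1129179) (sn34_0.map Prod.snd) 0 sc34_0 = true := by
  decide +kernel

/-- nodes -/
def sn34_1 : List (ℤ × ℤ × ℤ) :=
    [(1389, 1250287, 2045166), (1410, 1265290, 2072017), (1435, 1282950, 2103343),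
     (1465, 1303855, 2140637), (1501, 1328522, 2185389), (1545, 1358046, 2239091),
     (1599, 1393336, 2304727), (1666, 1435665, 2385281), (1752, 1487623, 2485227),
     (1864, 1551281, 2613516), (2016, 1630467, 2780590), (2230, 1728207, 3007334),
     (2553, 1847065, 3326565), (3088, 1978797, 3808395), (3499, 2037613, 4606472),
     (3818, 2065522, 5219574), (4068, 2079732, 5695437), (4263, 2087400, 6068371),
     (4414, 2091770, 6359259), (4530, 2094387, 6584510), (4619, 2096033, 6757551),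
     (4688, 2097123, 6890316), (4717, 2097537, 6993245)]

/-- cells -/
def sc34_1 : List (ℤ × ℤ) :=
    [(7798000, 10000000), (7834000, 9851000), (7872000, 9693000), (7914000, 9526000),
     (7960000, 9342000), (8013000, 9141000), (8075000, 8910000), (8151000, 8641000),
     (8252000, 8314000), (8389000, 7884000), (8542000, 7312000), (8687000, 6693000),
     (8829000, 6133000), (8977000, 5616000), (9146000, 5121000), (9380000, 4618000),
     (9736000, 4054000), (9962000, 3533000), (10000000, 3421000)]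

theorem sS34_1 : tStep (tAe 17) 14917333 4717 1371 sn34_1 = true := by decide +kernel

theorem sC34_1 : tCells 34 2103411 2133672 (0, 1) (sn34_1.map Prod.snd) 0 sc34_1 = true := by
  decide +kernel

/-- nodes -/
def sn34_2 : List (ℤ × ℤ × ℤ) :=
    [(4820, 2098822, 7321868), (4904, 2099680, 7483334), (4971, 2100260, 7613749),
     (5024, 2100661, 7717770), (5066, 2100946, 7800056), (5100, 2101157, 7865263),
     (5127, 2101313, 7918050), (5145, 2101412, 7959969)]

/-- cells -/
def sc34_2 : List (ℤ × ℤ) :=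
    [(7778000, 10000000), (7795000, 9939000), (7816000, 9864000), (7842000, 9772000),
     (7875000, 9657000), (7917000, 9513000), (7975000, 9328000), (8061000, 9075000),
     (8192000, 8702000), (8410000, 8139000), (10000000, 7225000)]

theorem sS34_2 : tStep (tAe 17) 15525590 5145 4716 sn34_2 = true := by decide +kernel

theorem sC34_2 : tCells 34 2103411 2133672 (0, 1) (sn34_2.map Prod.snd) 0 sc34_2 = true := by
  decide +kernel

theorem steps34 {r τ τ' T : ℝ → ℝ} (hr : IsProf r) (h : IsTrans 34 r τ τ' T)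
    (hN : (∫ y in (-1 : ℝ)..1, r y ^ (34 - 1)) ^ 34 * aInt 34 ^ (34 - 1) ≤
      aInt (34 - 1) ^ 34 * (∫ y in (-1 : ℝ)..1, r y ^ 34) ^ (34 - 1)) {x : ℝ}
    (hx : x ∈ Ioo (0 : ℝ) 1) : ApBox3 (((34 : ℕ) : ℝ) * x ^ 2) (lf τ x) := by
  have hτ := h.mem x hx
  have hx0 := hx.1
  have hA : ∀ n a : ℤ, (tAe 17) n a = true → 0 ≤ n → n ≤ 10000 →
      ∫ t in (0 : ℝ)..((n : ℝ) / 10000), sq t ^ 34 ≤ (a : ℝ) / lsD :=
    (fun n a h0 h1 h2 => tAe_sound (h := 17) h1 h2 h0)
  refine ⟨fun h1 => ?_, fun h0 h1 => ?_, fun h0 h1 => ?_⟩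
  · have hlt := ls_lt_of (m := 34) (n := 1372) hx0 (by norm_num) h1 (by norm_num)
    exact ls_log_of hx0 hτ.1 (by norm_num) (ls_step0 (m := 34) (by norm_num) (z := 2103411) (z' := 2133672)
      (by norm_num) ls_lo34 ls_hi33 hA (by simp [sc34_0]) (n0 := 685) (nend := 1372) (c := 16484375)
      (u0 := 1129179) (by norm_num) (by norm_num) (by norm_num) (by norm_num) sS34_0 sC34_0 hr h hN hx
      hlt) (by rw [lsD_cast]; norm_num)
  · have hlt := ls_lt_of (m := 34) (n := 4717) hx0 (by norm_num) h1 (by norm_num)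
    have hge := ls_ge_of (m := 34) (n := 1371) hx0 (by norm_num) h0 (by norm_num)
    exact ls_log_of hx0 hτ.1 (by norm_num) (ls_step (m := 34) (by norm_num) (z := 2103411) (z' := 2133672)
      (by norm_num) ls_lo34 ls_hi33 hA (by simp [sc34_1]) (n0 := 1371) (nend := 4717) (c := 14917333)
      (by norm_num) sS34_1 sC34_1 hr h hN hx hge hlt) (by rw [lsD_cast]; norm_num)
  · have hlt := ls_lt_of (m := 34) (n := 5145) hx0 (by norm_num) h1 (by norm_num)
    have hge := ls_ge_of (m := 34) (n := 4716) hx0 (by norm_num) h0 (by norm_num)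
    exact ls_log_of hx0 hτ.1 (by norm_num) (ls_step (m := 34) (by norm_num) (z := 2103411) (z' := 2133672)
      (by norm_num) ls_lo34 ls_hi33 hA (by simp [sc34_2]) (n0 := 4716) (nend := 5145) (c := 15525590)
      (by norm_num) sS34_2 sC34_2 hr h hN hx hge hlt) (by rw [lsD_cast]; norm_num)

/-- nodes -/
def sn35_0 : List (ℤ × ℤ × ℤ) :=
    [(698, 678797, 1114343), (721, 699852, 1150609), (746, 722600, 1188523),
     (773, 747000, 1229734), (803, 773902, 1274242), (836, 803231, 1323695),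
     (873, 835777, 1378093), (914, 871410, 1439085), (960, 910831, 1506671),
     (1012, 954658, 1582500), (1072, 1004222, 1668218), (1142, 1060633, 1767125),
     (1225, 1125474, 1882515), (1325, 1200533, 2019335), (1353, 1220935, 2184179)]

/-- cells -/
def sc35_0 : List (ℤ × ℤ) :=
    [(8847000, 10000000), (9481000, 5593000), (9879000, 3838000), (10000000, 3398000)]

theorem sS35_0 : tStep (tAo 17 2074404) 16484375 1353 676 sn35_0 = true := by decide +kernel

theorem sC35_0 : tCells 35 2074402 2103412 (1000 * 676, 1114343) (sn35_0.map Prod.snd) 0 sc35_0 = true := by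
  decide +kernel

/-- nodes -/
def sn35_1 : List (ℤ × ℤ × ℤ) :=
    [(1370, 1233188, 2016823), (1391, 1248184, 2043674), (1416, 1265833, 2075001),
     (1445, 1286029, 2112294), (1480, 1310003, 2155554), (1523, 1338854, 2207765),
     (1576, 1373493, 2271909), (1642, 1415198, 2350971), (1726, 1465970, 2449426),
     (1836, 1528547, 2574731), (1984, 1605788, 2738822), (2193, 1701580, 2959598),
     (2507, 1817929, 3271371), (3026, 1947689, 3739775), (3437, 2007785, 4513984),
     (3755, 2036136, 5127087), (4004, 2050533, 5601458), (4197, 2058248, 5972900),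
     (4347, 2062662, 6260804), (4462, 2065300, 6484564), (4550, 2066955, 6656113),
     (4617, 2068033, 6787386), (4649, 2068498, 6887332)]

/-- cells -/
def sc35_1 : List (ℤ × ℤ) :=
    [(7829000, 10000000), (7864000, 9851000), (7901000, 9694000), (7941000, 9529000),
     (7985000, 9351000), (8034000, 9156000), (8090000, 8939000), (8157000, 8692000),
     (8241000, 8398000), (8355000, 8033000), (8503000, 7544000), (8655000, 6925000),
     (8800000, 6315000), (8946000, 5764000), (9104000, 5249000), (9302000, 4746000),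
     (9623000, 4214000), (9913000, 3618000), (10000000, 3386000)]

theorem sS35_1 : tStep (tAo 17 2074404) 14917333 4649 1352 sn35_1 = true := by decide +kernel

theorem sC35_1 : tCells 35 2074402 2103412 (0, 1) (sn35_1.map Prod.snd) 0 sc35_1 = true := by
  decide +kernel

/-- nodes -/
def sn35_2 : List (ℤ × ℤ × ℤ) :=
    [(4763, 2069922, 7216294), (4853, 2070824, 7394838), (4922, 2071403, 7534568),
     (4975, 2071790, 7641695), (5016, 2072058, 7723981), (5047, 2072244, 7787635),
     (5071, 2072380, 7835765)]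

/-- cells -/
def sc35_2 : List (ℤ × ℤ) :=
    [(7801000, 10000000), (7807000, 9976000), (7814000, 9949000), (7822000, 9918000),
     (7832000, 9882000), (7844000, 9837000), (7858000, 9784000), (7876000, 9721000),
     (7898000, 9641000), (7926000, 9542000), (7962000, 9418000), (8012000, 9258000),
     (8085000, 9036000), (8191000, 8714000), (8352000, 8250000), (8752000, 7557000),
     (10000000, 5942000)]

theorem sS35_2 : tStep (tAo 17 2074404) 15525590 5071 4648 sn35_2 = true := by decide +kernel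

theorem sC35_2 : tCells 35 2074402 2103412 (0, 1) (sn35_2.map Prod.snd) 0 sc35_2 = true := by
  decide +kernel

theorem steps35 {r τ τ' T : ℝ → ℝ} (hr : IsProf r) (h : IsTrans 35 r τ τ' T)
    (hN : (∫ y in (-1 : ℝ)..1, r y ^ (35 - 1)) ^ 35 * aInt 35 ^ (35 - 1) ≤
      aInt (35 - 1) ^ 35 * (∫ y in (-1 : ℝ)..1, r y ^ 35) ^ (35 - 1)) {x : ℝ}
    (hx : x ∈ Ioo (0 : ℝ) 1) : ApBox3 (((35 : ℕ) : ℝ) * x ^ 2) (lf τ x) := by
  have hτ := h.mem x hx
  have hx0 := hx.1
  have hA : ∀ n a : ℤ, (tAo 17 2074404) n a = true → 0 ≤ n → n ≤ 10000 →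
      ∫ t in (0 : ℝ)..((n : ℝ) / 10000), sq t ^ 35 ≤ (a : ℝ) / lsD :=
    (fun n a h0 h1 h2 => tAo_sound (h := 17) (zh := 2074404) ls_hi35 h1 h2 h0)
  refine ⟨fun h1 => ?_, fun h0 h1 => ?_, fun h0 h1 => ?_⟩
  · have hlt := ls_lt_of (m := 35) (n := 1353) hx0 (by norm_num) h1 (by norm_num)
    exact ls_log_of hx0 hτ.1 (by norm_num) (ls_step0 (m := 35) (by norm_num) (z := 2074402) (z' := 2103412)
      (by norm_num) ls_lo35 ls_hi34 hA (by simp [sc35_0]) (n0 := 676) (nend := 1353) (c := 16484375)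
      (u0 := 1114343) (by norm_num) (by norm_num) (by norm_num) (by norm_num) sS35_0 sC35_0 hr h hN hx
      hlt) (by rw [lsD_cast]; norm_num)
  · have hlt := ls_lt_of (m := 35) (n := 4649) hx0 (by norm_num) h1 (by norm_num)
    have hge := ls_ge_of (m := 35) (n := 1352) hx0 (by norm_num) h0 (by norm_num)
    exact ls_log_of hx0 hτ.1 (by norm_num) (ls_step (m := 35) (by norm_num) (z := 2074402) (z' := 2103412)
      (by norm_num) ls_lo35 ls_hi34 hA (by simp [sc35_1]) (n0 := 1352) (nend := 4649) (c := 14917333)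
      (by norm_num) sS35_1 sC35_1 hr h hN hx hge hlt) (by rw [lsD_cast]; norm_num)
  · have hlt := ls_lt_of (m := 35) (n := 5071) hx0 (by norm_num) h1 (by norm_num)
    have hge := ls_ge_of (m := 35) (n := 4648) hx0 (by norm_num) h0 (by norm_num)
    exact ls_log_of hx0 hτ.1 (by norm_num) (ls_step (m := 35) (by norm_num) (z := 2074402) (z' := 2103412)
      (by norm_num) ls_lo35 ls_hi34 hA (by simp [sc35_2]) (n0 := 4648) (nend := 5071) (c := 15525590)
      (by norm_num) sS35_2 sC35_2 hr h hN hx hge hlt) (by rw [lsD_cast]; norm_num)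

/-- nodes -/
def sn36_0 : List (ℤ × ℤ × ℤ) :=
    [(687, 668006, 1097859), (710, 689067, 1132476), (735, 711820, 1170390),
     (762, 736222, 1211601), (791, 762231, 1256109), (823, 790680, 1303914),
     (859, 822362, 1356664), (899, 857149, 1416007), (944, 895745, 1481945),
     (995, 938771, 1556125), (1053, 986745, 1640195), (1121, 1041646, 1735804),
     (1201, 1104304, 1847898), (1298, 1177373, 1979773), (1334, 1203659, 2139671)]

/-- cells -/
def sc36_0 : List (ℤ × ℤ) :=
    [(8865000, 10000000), (9488000, 5568000), (9878000, 3801000), (10000000, 3356000)]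

theorem sS36_0 : tStep (tAe 18) 16484375 1334 666 sn36_0 = true := by decide +kernel

theorem sC36_0 : tCells 36 2046562 2074404 (1000 * 666, 1097859) (sn36_0.map Prod.snd) 0 sc36_0 = true := by
  decide +kernel

/-- nodes -/
def sn36_1 : List (ℤ × ℤ × ℤ) :=
    [(1350, 1215195, 1988480), (1370, 1229487, 2013839), (1394, 1246448, 2043674),
     (1422, 1265975, 2079476), (1456, 1289304, 2121244), (1497, 1316877, 2171963),
     (1547, 1349667, 2233124), (1610, 1389670, 2307711), (1690, 1438345, 2401690),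
     (1794, 1498069, 2521029), (1933, 1571647, 2676169), (2128, 1663063, 2883520),
     (2418, 1774800, 3174408), (2889, 1902061, 3607011), (3319, 1972040, 4309617),
     (3649, 2004390, 4951062), (3907, 2020611, 5443334), (4108, 2029248, 5828202),
     (4263, 2034100, 6128040), (4382, 2036980, 6359259), (4474, 2038793, 6536775),
     (4544, 2039964, 6674014), (4584, 2040561, 6778436)]

/-- cells -/
def sc36_1 : List (ℤ × ℤ) :=
    [(7862000, 10000000), (7900000, 9835000), (7940000, 9663000), (7982000, 9482000),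
     (8028000, 9292000), (8079000, 9085000), (8137000, 8856000), (8205000, 8596000),
     (8290000, 8294000), (8405000, 7919000), (8552000, 7420000), (8706000, 6798000),
     (8869000, 6174000), (9043000, 5553000), (9232000, 4952000), (9487000, 4387000),
     (9821000, 3803000), (9985000, 3386000), (10000000, 3330000)]

theorem sS36_1 : tStep (tAe 18) 14917333 4584 1333 sn36_1 = true := by decide +kernel

theorem sC36_1 : tCells 36 2046562 2074404 (0, 1) (sn36_1.map Prod.snd) 0 sc36_1 = true := by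
  decide +kernel

/-- nodes -/
def sn36_2 : List (ℤ × ℤ × ℤ) :=
    [(4697, 2042001, 7115377), (4785, 2042902, 7292369), (4853, 2043487, 7428994),
     (4905, 2043876, 7534568), (4946, 2044152, 7615301), (4976, 2044338, 7678956),
     (5001, 2044483, 7725533)]

/-- cells -/
def sc36_2 : List (ℤ × ℤ) :=
    [(7832000, 10000000), (7839000, 9972000), (7847000, 9940000), (7856000, 9903000),
     (7867000, 9863000), (7880000, 9813000), (7895000, 9754000), (7913000, 9686000),
     (7935000, 9604000), (7963000, 9504000), (7998000, 9378000), (8045000, 9220000),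
     (8111000, 9008000), (8209000, 8712000), (8351000, 8276000), (8635000, 7653000),
     (10000000, 6458000)]

theorem sS36_2 : tStep (tAe 18) 15525590 5001 4583 sn36_2 = true := by decide +kernel

theorem sC36_2 : tCells 36 2046562 2074404 (0, 1) (sn36_2.map Prod.snd) 0 sc36_2 = true := by
  decide +kernel

theorem steps36 {r τ τ' T : ℝ → ℝ} (hr : IsProf r) (h : IsTrans 36 r τ τ' T)
    (hN : (∫ y in (-1 : ℝ)..1, r y ^ (36 - 1)) ^ 36 * aInt 36 ^ (36 - 1) ≤
      aInt (36 - 1) ^ 36 * (∫ y in (-1 : ℝ)..1, r y ^ 36) ^ (36 - 1)) {x : ℝ}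
    (hx : x ∈ Ioo (0 : ℝ) 1) : ApBox3 (((36 : ℕ) : ℝ) * x ^ 2) (lf τ x) := by
  have hτ := h.mem x hx
  have hx0 := hx.1
  have hA : ∀ n a : ℤ, (tAe 18) n a = true → 0 ≤ n → n ≤ 10000 →
      ∫ t in (0 : ℝ)..((n : ℝ) / 10000), sq t ^ 36 ≤ (a : ℝ) / lsD :=
    (fun n a h0 h1 h2 => tAe_sound (h := 18) h1 h2 h0)
  refine ⟨fun h1 => ?_, fun h0 h1 => ?_, fun h0 h1 => ?_⟩
  · have hlt := ls_lt_of (m := 36) (n := 1334) hx0 (by norm_num) h1 (by norm_num)
    exact ls_log_of hx0 hτ.1 (by norm_num) (ls_step0 (m := 36) (by norm_num) (z := 2046562) (z' := 2074404)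
      (by norm_num) ls_lo36 ls_hi35 hA (by simp [sc36_0]) (n0 := 666) (nend := 1334) (c := 16484375)
      (u0 := 1097859) (by norm_num) (by norm_num) (by norm_num) (by norm_num) sS36_0 sC36_0 hr h hN hx
      hlt) (by rw [lsD_cast]; norm_num)
  · have hlt := ls_lt_of (m := 36) (n := 4584) hx0 (by norm_num) h1 (by norm_num)
    have hge := ls_ge_of (m := 36) (n := 1333) hx0 (by norm_num) h0 (by norm_num)
    exact ls_log_of hx0 hτ.1 (by norm_num) (ls_step (m := 36) (by norm_num) (z := 2046562) (z' := 2074404)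
      (by norm_num) ls_lo36 ls_hi35 hA (by simp [sc36_1]) (n0 := 1333) (nend := 4584) (c := 14917333)
      (by norm_num) sS36_1 sC36_1 hr h hN hx hge hlt) (by rw [lsD_cast]; norm_num)
  · have hlt := ls_lt_of (m := 36) (n := 5001) hx0 (by norm_num) h1 (by norm_num)
    have hge := ls_ge_of (m := 36) (n := 4583) hx0 (by norm_num) h0 (by norm_num)
    exact ls_log_of hx0 hτ.1 (by norm_num) (ls_step (m := 36) (by norm_num) (z := 2046562) (z' := 2074404)
      (by norm_num) ls_lo36 ls_hi35 hA (by simp [sc36_2]) (n0 := 4583) (nend := 5001) (c := 15525590)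
      (by norm_num) sS36_2 sC36_2 hr h hN hx hge hlt) (by rw [lsD_cast]; norm_num)

/-- nodes -/
def sn37_0 : List (ℤ × ℤ × ℤ) :=
    [(678, 659374, 1083023), (700, 679520, 1117640), (724, 701366, 1153906),
     (750, 724873, 1193468), (779, 750893, 1236328), (810, 778465, 1284132),
     (845, 809287, 1335234), (884, 843233, 1392929), (927, 880157, 1457218),
     (976, 921568, 1528101), (1032, 967995, 1608875), (1097, 1020637, 1701187),
     (1174, 1081200, 1808335), (1267, 1151648, 1935265), (1316, 1187544, 2088570)]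

/-- cells -/
def sc37_0 : List (ℤ × ℤ) :=
    [(8883000, 10000000), (9497000, 5541000), (9879000, 3762000), (10000000, 3314000)]

theorem sS37_0 : tStep (tAo 18 2019814) 16484375 1316 657 sn37_0 = true := by decide +kernel

theorem sC37_0 : tCells 37 2019813 2046563 (1000 * 657, 1083023) (sn37_0.map Prod.snd) 0 sc37_0 = true := by
  decide +kernel

/-- nodes -/
def sn37_1 : List (ℤ × ℤ × ℤ) :=
    [(1331, 1198361, 1961629), (1350, 1211946, 1985497), (1373, 1228217, 2013839),
     (1400, 1247071, 2048149), (1432, 1269070, 2088426), (1471, 1295372, 2136162),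
     (1519, 1326967, 2194339), (1579, 1365251, 2265942), (1655, 1411803, 2355446),
     (1753, 1468621, 2468818), (1884, 1538945, 2615008), (2066, 1626139, 2810425),
     (2334, 1733271, 3081920), (2762, 1857421, 3481705), (3212, 1937930, 4120167),
     (3552, 1974105, 4791447), (3818, 1992070, 5298636), (4024, 2001487, 5695437),
     (4184, 2006770, 6002734), (4307, 2009882, 6241412), (4401, 2011804, 6424895),
     (4473, 2013049, 6565118), (4521, 2013782, 6672523)]

/-- cells -/
def sc37_1 : List (ℤ × ℤ) :=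
    [(7887000, 10000000), (7921000, 9851000), (7956000, 9694000), (7994000, 9534000),
     (8035000, 9359000), (8080000, 9171000), (8130000, 8966000), (8188000, 8738000),
     (8256000, 8476000), (8341000, 8169000), (8455000, 7790000), (8600000, 7289000),
     (8743000, 6669000), (8892000, 6083000), (9064000, 5508000), (9268000, 4903000),
     (9529000, 4289000), (9848000, 3703000), (9990000, 3330000), (10000000, 3287000)]

theorem sS37_1 : tStep (tAo 18 2019814) 14917333 4521 1315 sn37_1 = true := by decide +kernel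

theorem sC37_1 : tCells 37 2019813 2046563 (0, 1) (sn37_1.map Prod.snd) 0 sc37_1 = true := by
  decide +kernel

/-- nodes -/
def sn37_2 : List (ℤ × ℤ × ℤ) :=
    [(4628, 2015170, 7017566), (4712, 2016054, 7185243), (4777, 2016633, 7315658),
     (4827, 2017023, 7416574), (4865, 2017291, 7494202), (4895, 2017486, 7553199),
     (4918, 2017626, 7599776), (4932, 2017708, 7635485)]

/-- cells -/
def sc37_2 : List (ℤ × ℤ) :=
    [(7863000, 10000000), (7872000, 9962000), (7883000, 9920000), (7895000, 9869000),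
     (7909000, 9814000), (7925000, 9750000), (7944000, 9676000), (7966000, 9589000),
     (7993000, 9488000), (8027000, 9364000), (8070000, 9208000), (8128000, 9012000),
     (8213000, 8747000), (8334000, 8363000), (8535000, 7821000), (10000000, 6944000)]

theorem sS37_2 : tStep (tAo 18 2019814) 15525590 4932 4520 sn37_2 = true := by decide +kernel

theorem sC37_2 : tCells 37 2019813 2046563 (0, 1) (sn37_2.map Prod.snd) 0 sc37_2 = true := by
  decide +kernel

theorem steps37 {r τ τ' T : ℝ → ℝ} (hr : IsProf r) (h : IsTrans 37 r τ τ' T)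
    (hN : (∫ y in (-1 : ℝ)..1, r y ^ (37 - 1)) ^ 37 * aInt 37 ^ (37 - 1) ≤
      aInt (37 - 1) ^ 37 * (∫ y in (-1 : ℝ)..1, r y ^ 37) ^ (37 - 1)) {x : ℝ}
    (hx : x ∈ Ioo (0 : ℝ) 1) : ApBox3 (((37 : ℕ) : ℝ) * x ^ 2) (lf τ x) := by
  have hτ := h.mem x hx
  have hx0 := hx.1
  have hA : ∀ n a : ℤ, (tAo 18 2019814) n a = true → 0 ≤ n → n ≤ 10000 →
      ∫ t in (0 : ℝ)..((n : ℝ) / 10000), sq t ^ 37 ≤ (a : ℝ) / lsD :=
    (fun n a h0 h1 h2 => tAo_sound (h := 18) (zh := 2019814) ls_hi37 h1 h2 h0)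
  refine ⟨fun h1 => ?_, fun h0 h1 => ?_, fun h0 h1 => ?_⟩
  · have hlt := ls_lt_of (m := 37) (n := 1316) hx0 (by norm_num) h1 (by norm_num)
    exact ls_log_of hx0 hτ.1 (by norm_num) (ls_step0 (m := 37) (by norm_num) (z := 2019813) (z' := 2046563)
      (by norm_num) ls_lo37 ls_hi36 hA (by simp [sc37_0]) (n0 := 657) (nend := 1316) (c := 16484375)
      (u0 := 1083023) (by norm_num) (by norm_num) (by norm_num) (by norm_num) sS37_0 sC37_0 hr h hN hx
      hlt) (by rw [lsD_cast]; norm_num)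
  · have hlt := ls_lt_of (m := 37) (n := 4521) hx0 (by norm_num) h1 (by norm_num)
    have hge := ls_ge_of (m := 37) (n := 1315) hx0 (by norm_num) h0 (by norm_num)
    exact ls_log_of hx0 hτ.1 (by norm_num) (ls_step (m := 37) (by norm_num) (z := 2019813) (z' := 2046563)
      (by norm_num) ls_lo37 ls_hi36 hA (by simp [sc37_1]) (n0 := 1315) (nend := 4521) (c := 14917333)
      (by norm_num) sS37_1 sC37_1 hr h hN hx hge hlt) (by rw [lsD_cast]; norm_num)
  · have hlt := ls_lt_of (m := 37) (n := 4932) hx0 (by norm_num) h1 (by norm_num)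
    have hge := ls_ge_of (m := 37) (n := 4520) hx0 (by norm_num) h0 (by norm_num)
    exact ls_log_of hx0 hτ.1 (by norm_num) (ls_step (m := 37) (by norm_num) (z := 2019813) (z' := 2046563)
      (by norm_num) ls_lo37 ls_hi36 hA (by simp [sc37_2]) (n0 := 4520) (nend := 4932) (c := 15525590)
      (by norm_num) sS37_2 sC37_2 hr h hN hx hge hlt) (by rw [lsD_cast]; norm_num)

/-- nodes -/
def sn38_0 : List (ℤ × ℤ × ℤ) :=
    [(668, 649569, 1068187), (690, 669720, 1101156), (713, 690662, 1137421),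
     (738, 713276, 1175335), (766, 738416, 1216546), (796, 765123, 1262703),
     (830, 795098, 1312156), (867, 827351, 1368203), (909, 863485, 1429195),
     (956, 903297, 1498429), (1010, 948199, 1575906), (1073, 999406, 1664921),
     (1147, 1057873, 1768773), (1236, 1125696, 1890757), (1298, 1171283, 2037468)]

/-- cells -/
def sc38_0 : List (ℤ × ℤ) :=
    [(8902000, 10000000), (9507000, 5509000), (9881000, 3721000), (10000000, 3273000)]

theorem sS38_0 : tStep (tAe 19) 16484375 1298 648 sn38_0 = true := by decide +kernel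

theorem sC38_0 : tCells 38 1994086 2019814 (1000 * 648, 1068187) (sn38_0.map Prod.snd) 0 sc38_0 = true := by
  decide +kernel

/-- nodes -/
def sn38_1 : List (ℤ × ℤ × ℤ) :=
    [(1311, 1180666, 1934778), (1327, 1192129, 1955662), (1345, 1204912, 1979530),
     (1366, 1219676, 2006381), (1391, 1237039, 2037707), (1420, 1256889, 2075001),
     (1455, 1280427, 2118261), (1497, 1308064, 2170471), (1547, 1340095, 2233124),
     (1609, 1378494, 2307711), (1686, 1424142, 2400198), (1785, 1479514, 2515062),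
     (1915, 1546598, 2662743), (2092, 1627888, 2856669), (2346, 1725294, 3120706),
     (2736, 1835438, 3499606), (3158, 1911097, 4081382), (3490, 1947234, 4710893),
     (3754, 1965583, 5206149), (3961, 1975319, 5599966), (4122, 1980771, 5908755),
     (4246, 1983980, 6148924), (4341, 1985961, 6333899), (4413, 1987228, 6475614),
     (4462, 1987988, 6583019)]

/-- cells -/
def sc38_1 : List (ℤ × ℤ) :=
    [(7916000, 10000000), (7950000, 9843000), (7986000, 9685000), (8024000, 9517000),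
     (8065000, 9340000), (8109000, 9150000), (8158000, 8946000), (8213000, 8720000),
     (8278000, 8467000), (8358000, 8169000), (8463000, 7807000), (8599000, 7337000),
     (8753000, 6743000), (8911000, 6097000), (9092000, 5475000), (9315000, 4829000),
     (9627000, 4161000), (9910000, 3518000), (10000000, 3262000)]

theorem sS38_1 : tStep (tAe 19) 14917333 4462 1297 sn38_1 = true := by decide +kernel

theorem sC38_1 : tCells 38 1994086 2019814 (0, 1) (sn38_1.map Prod.snd) 0 sc38_1 = true := by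
  decide +kernel

/-- nodes -/
def sn38_2 : List (ℤ × ℤ × ℤ) :=
    [(4568, 1989384, 6925965), (4651, 1990273, 7092089), (4715, 1990853, 7220951),
     (4765, 1991251, 7320315), (4803, 1991523, 7397943), (4832, 1991715, 7456940),
     (4855, 1991858, 7501965), (4867, 1991930, 7537673)]

/-- cells -/
def sc38_2 : List (ℤ × ℤ) :=
    [(7892000, 10000000), (7902000, 9955000), (7913000, 9909000), (7926000, 9857000),
     (7941000, 9797000), (7958000, 9727000), (7978000, 9647000), (8001000, 9554000),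
     (8028000, 9447000), (8061000, 9321000), (8103000, 9168000), (8158000, 8974000),
     (8236000, 8720000), (8349000, 8361000), (8524000, 7847000), (9139000, 7068000),
     (10000000, 4676000)]

theorem sS38_2 : tStep (tAe 19) 15525590 4867 4461 sn38_2 = true := by decide +kernel

theorem sC38_2 : tCells 38 1994086 2019814 (0, 1) (sn38_2.map Prod.snd) 0 sc38_2 = true := by
  decide +kernel

theorem steps38 {r τ τ' T : ℝ → ℝ} (hr : IsProf r) (h : IsTrans 38 r τ τ' T)
    (hN : (∫ y in (-1 : ℝ)..1, r y ^ (38 - 1)) ^ 38 * aInt 38 ^ (38 - 1) ≤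
      aInt (38 - 1) ^ 38 * (∫ y in (-1 : ℝ)..1, r y ^ 38) ^ (38 - 1)) {x : ℝ}
    (hx : x ∈ Ioo (0 : ℝ) 1) : ApBox3 (((38 : ℕ) : ℝ) * x ^ 2) (lf τ x) := by
  have hτ := h.mem x hx
  have hx0 := hx.1
  have hA : ∀ n a : ℤ, (tAe 19) n a = true → 0 ≤ n → n ≤ 10000 →
      ∫ t in (0 : ℝ)..((n : ℝ) / 10000), sq t ^ 38 ≤ (a : ℝ) / lsD :=
    (fun n a h0 h1 h2 => tAe_sound (h := 19) h1 h2 h0)
  refine ⟨fun h1 => ?_, fun h0 h1 => ?_, fun h0 h1 => ?_⟩
  · have hlt := ls_lt_of (m := 38) (n := 1298) hx0 (by norm_num) h1 (by norm_num)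
    exact ls_log_of hx0 hτ.1 (by norm_num) (ls_step0 (m := 38) (by norm_num) (z := 1994086) (z' := 2019814)
      (by norm_num) ls_lo38 ls_hi37 hA (by simp [sc38_0]) (n0 := 648) (nend := 1298) (c := 16484375)
      (u0 := 1068187) (by norm_num) (by norm_num) (by norm_num) (by norm_num) sS38_0 sC38_0 hr h hN hx
      hlt) (by rw [lsD_cast]; norm_num)
  · have hlt := ls_lt_of (m := 38) (n := 4462) hx0 (by norm_num) h1 (by norm_num)
    have hge := ls_ge_of (m := 38) (n := 1297) hx0 (by norm_num) h0 (by norm_num)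
    exact ls_log_of hx0 hτ.1 (by norm_num) (ls_step (m := 38) (by norm_num) (z := 1994086) (z' := 2019814)
      (by norm_num) ls_lo38 ls_hi37 hA (by simp [sc38_1]) (n0 := 1297) (nend := 4462) (c := 14917333)
      (by norm_num) sS38_1 sC38_1 hr h hN hx hge hlt) (by rw [lsD_cast]; norm_num)
  · have hlt := ls_lt_of (m := 38) (n := 4867) hx0 (by norm_num) h1 (by norm_num)
    have hge := ls_ge_of (m := 38) (n := 4461) hx0 (by norm_num) h0 (by norm_num)
    exact ls_log_of hx0 hτ.1 (by norm_num) (ls_step (m := 38) (by norm_num) (z := 1994086) (z' := 2019814)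
      (by norm_num) ls_lo38 ls_hi37 hA (by simp [sc38_2]) (n0 := 4461) (nend := 4867) (c := 15525590)
      (by norm_num) sS38_2 sC38_2 hr h hN hx hge hlt) (by rw [lsD_cast]; norm_num)

end Vale.Agent.P237.AllN
end

section

/-!
# P237, all dimensions: a priori steps, `39 ≤ m ≤ 47`
-/

open MeasureTheory Metric Set Module Filter Topology Real

namespace Vale.Agent.P237.AllN

/-- nodes -/
def sn39_0 : List (ℤ × ℤ × ℤ) :=
    [(660, 641873, 1055000), (681, 661107, 1087968), (704, 682048, 1122585),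
     (729, 704661, 1160500), (756, 728901, 1201710), (786, 755608, 1246218),
     (819, 784702, 1295671), (856, 816956, 1350070), (897, 852230, 1411062),
     (944, 892043, 1478648), (997, 936111, 1556125), (1059, 986508, 1643492),
     (1132, 1044191, 1745695), (1219, 1110513, 1866031), (1282, 1156842, 2009445)]

/-- cells -/
def sc39_0 : List (ℤ × ℤ) :=
    [(8916000, 10000000), (9511000, 5494000), (9879000, 3693000), (10000000, 3236000)]

theorem sS39_0 : tStep (tAo 19 1969319) 16484375 1282 640 sn39_0 = true := by decide +kernel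

theorem sC39_0 : tCells 39 1969317 1994087 (1000 * 640, 1055000) (sn39_0.map Prod.snd) 0 sc39_0 = true := by
  decide +kernel

/-- nodes -/
def sn39_1 : List (ℤ × ℤ × ℤ) :=
    [(1294, 1165502, 1910910), (1309, 1176252, 1930302), (1327, 1189042, 1952678),
     (1347, 1203111, 1979530), (1371, 1219796, 2009364), (1399, 1238989, 2045166),
     (1432, 1261227, 2086934), (1472, 1287627, 2136162), (1520, 1318498, 2195831),
     (1579, 1355229, 2267434), (1653, 1399400, 2355446), (1747, 1452461, 2465835),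
     (1870, 1516776, 2606058), (2036, 1594554, 2789541), (2272, 1688072, 3037168),
     (2631, 1795591, 3389218), (3074, 1880902, 3924750), (3411, 1919779, 4585588),
     (3679, 1939414, 5088302), (3890, 1949805, 5488086), (4054, 1955580, 5802842),
     (4180, 1958950, 6047486), (4277, 1961031, 6235445), (4351, 1962364, 6380143),
     (4404, 1963199, 6490531)]

/-- cells -/
def sc39_1 : List (ℤ × ℤ) :=
    [(7939000, 10000000), (7970000, 9859000), (8002000, 9712000), (8035000, 9561000),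
     (8070000, 9405000), (8108000, 9240000), (8149000, 9062000), (8194000, 8869000),
     (8245000, 8659000), (8305000, 8421000), (8379000, 8143000), (8475000, 7802000),
     (8601000, 7366000), (8743000, 6805000), (8884000, 6195000), (9035000, 5620000),
     (9220000, 5049000), (9472000, 4432000), (9798000, 3774000), (9977000, 3289000),
     (10000000, 3208000)]

theorem sS39_1 : tStep (tAo 19 1969319) 14917333 4404 1281 sn39_1 = true := by decide +kernel

theorem sC39_1 : tCells 39 1969317 1994087 (0, 1) (sn39_1.map Prod.snd) 0 sc39_1 = true := by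
  decide +kernel

/-- nodes -/
def sn39_2 : List (ℤ × ℤ × ℤ) :=
    [(4509, 1964598, 6835917), (4591, 1965487, 7000488), (4654, 1966065, 7127798),
     (4702, 1966453, 7225609), (4739, 1966723, 7300132), (4768, 1966919, 7357577),
     (4790, 1967058, 7402601), (4804, 1967144, 7436757)]

/-- cells -/
def sc39_2 : List (ℤ × ℤ) :=
    [(7916000, 10000000), (7924000, 9968000), (7933000, 9930000), (7943000, 9888000),
     (7954000, 9840000), (7966000, 9788000), (7980000, 9731000), (7996000, 9665000),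
     (8014000, 9590000), (8035000, 9504000), (8060000, 9405000), (8090000, 9288000),
     (8127000, 9146000), (8175000, 8972000), (8240000, 8748000), (8334000, 8444000),
     (8468000, 8009000), (8727000, 7397000), (10000000, 6262000)]

theorem sS39_2 : tStep (tAo 19 1969319) 15525590 4804 4403 sn39_2 = true := by decide +kernel

theorem sC39_2 : tCells 39 1969317 1994087 (0, 1) (sn39_2.map Prod.snd) 0 sc39_2 = true := by
  decide +kernel

theorem steps39 {r τ τ' T : ℝ → ℝ} (hr : IsProf r) (h : IsTrans 39 r τ τ' T)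
    (hN : (∫ y in (-1 : ℝ)..1, r y ^ (39 - 1)) ^ 39 * aInt 39 ^ (39 - 1) ≤
      aInt (39 - 1) ^ 39 * (∫ y in (-1 : ℝ)..1, r y ^ 39) ^ (39 - 1)) {x : ℝ}
    (hx : x ∈ Ioo (0 : ℝ) 1) : ApBox3 (((39 : ℕ) : ℝ) * x ^ 2) (lf τ x) := by
  have hτ := h.mem x hx
  have hx0 := hx.1
  have hA : ∀ n a : ℤ, (tAo 19 1969319) n a = true → 0 ≤ n → n ≤ 10000 →
      ∫ t in (0 : ℝ)..((n : ℝ) / 10000), sq t ^ 39 ≤ (a : ℝ) / lsD :=
    (fun n a h0 h1 h2 => tAo_sound (h := 19) (zh := 1969319) ls_hi39 h1 h2 h0)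
  refine ⟨fun h1 => ?_, fun h0 h1 => ?_, fun h0 h1 => ?_⟩
  · have hlt := ls_lt_of (m := 39) (n := 1282) hx0 (by norm_num) h1 (by norm_num)
    exact ls_log_of hx0 hτ.1 (by norm_num) (ls_step0 (m := 39) (by norm_num) (z := 1969317) (z' := 1994087)
      (by norm_num) ls_lo39 ls_hi38 hA (by simp [sc39_0]) (n0 := 640) (nend := 1282) (c := 16484375)
      (u0 := 1055000) (by norm_num) (by norm_num) (by norm_num) (by norm_num) sS39_0 sC39_0 hr h hN hx
      hlt) (by rw [lsD_cast]; norm_num)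
  · have hlt := ls_lt_of (m := 39) (n := 4404) hx0 (by norm_num) h1 (by norm_num)
    have hge := ls_ge_of (m := 39) (n := 1281) hx0 (by norm_num) h0 (by norm_num)
    exact ls_log_of hx0 hτ.1 (by norm_num) (ls_step (m := 39) (by norm_num) (z := 1969317) (z' := 1994087)
      (by norm_num) ls_lo39 ls_hi38 hA (by simp [sc39_1]) (n0 := 1281) (nend := 4404) (c := 14917333)
      (by norm_num) sS39_1 sC39_1 hr h hN hx hge hlt) (by rw [lsD_cast]; norm_num)
  · have hlt := ls_lt_of (m := 39) (n := 4804) hx0 (by norm_num) h1 (by norm_num)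
    have hge := ls_ge_of (m := 39) (n := 4403) hx0 (by norm_num) h0 (by norm_num)
    exact ls_log_of hx0 hτ.1 (by norm_num) (ls_step (m := 39) (by norm_num) (z := 1969317) (z' := 1994087)
      (by norm_num) ls_lo39 ls_hi38 hA (by simp [sc39_2]) (n0 := 4403) (nend := 4804) (c := 15525590)
      (by norm_num) sS39_2 sC39_2 hr h hN hx hge hlt) (by rw [lsD_cast]; norm_num)

/-- nodes -/
def sn40_0 : List (ℤ × ℤ × ℤ) :=
    [(651, 633044, 1041812), (672, 652280, 1073132), (694, 672316, 1107750),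
     (718, 694033, 1144015), (745, 718286, 1183578), (774, 744117, 1228085),
     (806, 772351, 1275890), (842, 803764, 1328640), (882, 838221, 1387984),
     (927, 876402, 1453921), (979, 919728, 1528101), (1039, 968621, 1613820),
     (1109, 1024123, 1712726), (1193, 1088453, 1828117), (1265, 1141556, 1966585)]

/-- cells -/
def sc40_0 : List (ℤ × ℤ) :=
    [(8932000, 10000000), (9519000, 5470000), (9880000, 3658000), (10000000, 3199000)]

theorem sS40_0 : tStep (tAe 20) 16484375 1265 632 sn40_0 = true := by decide +kernel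

theorem sC40_0 : tCells 40 1945450 1969319 (1000 * 632, 1041812) (sn40_0.map Prod.snd) 0 sc40_0 = true := by
  decide +kernel

/-- nodes -/
def sn40_1 : List (ℤ × ℤ × ℤ) :=
    [(1277, 1150220, 1885550), (1292, 1160975, 1904943), (1309, 1173061, 1927319),
     (1329, 1187140, 1952678), (1352, 1203144, 1982513), (1379, 1221674, 2016823),
     (1411, 1243274, 2057100), (1449, 1268412, 2104835), (1495, 1298093, 2161521),
     (1552, 1333729, 2230141), (1622, 1375757, 2315170), (1711, 1426427, 2419591),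
     (1827, 1487849, 2552355), (1983, 1562345, 2725396), (2203, 1652213, 2958107),
     (2533, 1756521, 3286288), (3001, 1852474, 3778560), (3341, 1893589, 4476691),
     (3612, 1914323, 4983880), (3825, 1925230, 5388140), (3991, 1931283, 5705879),
     (4119, 1934813, 5953507), (4217, 1936972, 6144449), (4291, 1938339, 6290639),
     (4349, 1939271, 6401027)]

/-- cells -/
def sc40_1 : List (ℤ × ℤ) :=
    [(7964000, 10000000), (7993000, 9861000), (8023000, 9722000), (8055000, 9578000),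
     (8088000, 9425000), (8123000, 9267000), (8161000, 9100000), (8202000, 8920000),
     (8247000, 8725000), (8298000, 8512000), (8359000, 8271000), (8435000, 7985000),
     (8537000, 7632000), (8668000, 7164000), (8794000, 6578000), (8919000, 6035000),
     (9051000, 5522000), (9206000, 5017000), (9436000, 4484000), (9754000, 3841000),
     (9960000, 3296000), (10000000, 3172000)]

theorem sS40_1 : tStep (tAe 20) 14917333 4349 1264 sn40_1 = true := by decide +kernel

theorem sC40_1 : tCells 40 1945450 1969319 (0, 1) (sn40_1.map Prod.snd) 0 sc40_1 = true := by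
  decide +kernel

/-- nodes -/
def sn40_2 : List (ℤ × ℤ × ℤ) :=
    [(4455, 1940701, 6750526), (4537, 1941598, 6916650), (4600, 1942182, 7043960),
     (4648, 1942573, 7141771), (4684, 1942838, 7216294), (4712, 1943029, 7272186),
     (4733, 1943164, 7315658), (4744, 1943232, 7348261)]

/-- cells -/
def sc40_2 : List (ℤ × ℤ) :=
    [(7944000, 10000000), (7954000, 9957000), (7965000, 9909000), (7977000, 9856000),
     (7990000, 9799000), (8005000, 9736000), (8022000, 9664000), (8041000, 9583000),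
     (8063000, 9492000), (8088000, 9387000), (8118000, 9267000), (8154000, 9124000),
     (8199000, 8953000), (8259000, 8739000), (8344000, 8455000), (8462000, 8056000),
     (8660000, 7508000), (10000000, 6613000)]

theorem sS40_2 : tStep (tAe 20) 15525590 4744 4348 sn40_2 = true := by decide +kernel

theorem sC40_2 : tCells 40 1945450 1969319 (0, 1) (sn40_2.map Prod.snd) 0 sc40_2 = true := by
  decide +kernel

theorem steps40 {r τ τ' T : ℝ → ℝ} (hr : IsProf r) (h : IsTrans 40 r τ τ' T)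
    (hN : (∫ y in (-1 : ℝ)..1, r y ^ (40 - 1)) ^ 40 * aInt 40 ^ (40 - 1) ≤
      aInt (40 - 1) ^ 40 * (∫ y in (-1 : ℝ)..1, r y ^ 40) ^ (40 - 1)) {x : ℝ}
    (hx : x ∈ Ioo (0 : ℝ) 1) : ApBox3 (((40 : ℕ) : ℝ) * x ^ 2) (lf τ x) := by
  have hτ := h.mem x hx
  have hx0 := hx.1
  have hA : ∀ n a : ℤ, (tAe 20) n a = true → 0 ≤ n → n ≤ 10000 →
      ∫ t in (0 : ℝ)..((n : ℝ) / 10000), sq t ^ 40 ≤ (a : ℝ) / lsD :=
    (fun n a h0 h1 h2 => tAe_sound (h := 20) h1 h2 h0)
  refine ⟨fun h1 => ?_, fun h0 h1 => ?_, fun h0 h1 => ?_⟩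
  · have hlt := ls_lt_of (m := 40) (n := 1265) hx0 (by norm_num) h1 (by norm_num)
    exact ls_log_of hx0 hτ.1 (by norm_num) (ls_step0 (m := 40) (by norm_num) (z := 1945450) (z' := 1969319)
      (by norm_num) ls_lo40 ls_hi39 hA (by simp [sc40_0]) (n0 := 632) (nend := 1265) (c := 16484375)
      (u0 := 1041812) (by norm_num) (by norm_num) (by norm_num) (by norm_num) sS40_0 sC40_0 hr h hN hx
      hlt) (by rw [lsD_cast]; norm_num)
  · have hlt := ls_lt_of (m := 40) (n := 4349) hx0 (by norm_num) h1 (by norm_num)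
    have hge := ls_ge_of (m := 40) (n := 1264) hx0 (by norm_num) h0 (by norm_num)
    exact ls_log_of hx0 hτ.1 (by norm_num) (ls_step (m := 40) (by norm_num) (z := 1945450) (z' := 1969319)
      (by norm_num) ls_lo40 ls_hi39 hA (by simp [sc40_1]) (n0 := 1264) (nend := 4349) (c := 14917333)
      (by norm_num) sS40_1 sC40_1 hr h hN hx hge hlt) (by rw [lsD_cast]; norm_num)
  · have hlt := ls_lt_of (m := 40) (n := 4744) hx0 (by norm_num) h1 (by norm_num)
    have hge := ls_ge_of (m := 40) (n := 4348) hx0 (by norm_num) h0 (by norm_num)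
    exact ls_log_of hx0 hτ.1 (by norm_num) (ls_step (m := 40) (by norm_num) (z := 1945450) (z' := 1969319)
      (by norm_num) ls_lo40 ls_hi39 hA (by simp [sc40_2]) (n0 := 4348) (nend := 4744) (c := 15525590)
      (by norm_num) sS40_2 sC40_2 hr h hN hx hge hlt) (by rw [lsD_cast]; norm_num)

/-- nodes -/
def sn41_0 : List (ℤ × ℤ × ℤ) :=
    [(640, 622608, 1028625), (658, 639115, 1055000), (677, 656453, 1084671),
     (697, 674605, 1115992), (719, 694451, 1148960), (742, 715061, 1185226),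
     (767, 737300, 1223140), (795, 761999, 1264351), (825, 788212, 1310507),
     (858, 816738, 1359960), (895, 848327, 1414359), (937, 883663, 1475351),
     (984, 922529, 1544585), (1038, 966272, 1622062), (1100, 1015256, 1711078),
     (1173, 1071175, 1813281), (1250, 1128038, 1933617)]

/-- cells -/
def sc41_0 : List (ℤ × ℤ) :=
    [(8938000, 10000000), (9518000, 5485000), (9884000, 3642000), (10000000, 3162000)]

theorem sS41_0 : tStep (tAo 20 1922430) 16484375 1250 624 sn41_0 = true := by decide +kernel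

theorem sC41_0 : tCells 41 1922429 1945451 (1000 * 624, 1028625) (sn41_0.map Prod.snd) 0 sc41_0 = true := by
  decide +kernel

/-- nodes -/
def sn41_1 : List (ℤ × ℤ × ℤ) :=
    [(1263, 1137419, 1863174), (1280, 1149590, 1884059), (1300, 1163769, 1909418),
     (1323, 1179885, 1939253), (1351, 1199230, 1973563), (1385, 1222312, 2015331),
     (1426, 1249549, 2066050), (1477, 1282509, 2127211), (1541, 1322421, 2203290),
     (1623, 1371191, 2298761), (1731, 1431372, 2421083), (1878, 1505955, 2582190),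
     (2088, 1598265, 2801475), (2410, 1709593, 3114739), (2956, 1828936, 3595077),
     (3303, 1871177, 4409563), (3574, 1891836, 4927195), (3785, 1902569, 5331454),
     (3948, 1908476, 5646210), (4073, 1911912, 5889363), (4168, 1914006, 6075829),
     (4241, 1915358, 6217544), (4295, 1916232, 6326440)]

/-- cells -/
def sc41_1 : List (ℤ × ℤ) :=
    [(7989000, 10000000), (8019000, 9859000), (8050000, 9713000), (8082000, 9562000),
     (8115000, 9407000), (8150000, 9248000), (8187000, 9078000), (8227000, 8900000),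
     (8271000, 8708000), (8321000, 8497000), (8379000, 8258000), (8450000, 7982000),
     (8534000, 7647000), (8614000, 7255000), (8691000, 6887000), (8766000, 6540000),
     (8840000, 6209000), (8914000, 5891000), (8991000, 5583000), (9074000, 5274000),
     (9168000, 4958000), (9288000, 4622000), (9475000, 4235000), (9769000, 3737000),
     (9963000, 3249000), (10000000, 3135000)]

theorem sS41_1 : tStep (tAo 20 1922430) 14917333 4295 1249 sn41_1 = true := by decide +kernel

theorem sC41_1 : tCells 41 1922429 1945451 (0, 1) (sn41_1.map Prod.snd) 0 sc41_1 = true := by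
  decide +kernel

/-- nodes -/
def sn41_2 : List (ℤ × ℤ × ℤ) :=
    [(4400, 1917663, 6666688), (4481, 1918560, 6831259), (4543, 1919142, 6957016),
     (4590, 1919530, 7053275), (4626, 1919799, 7126245), (4653, 1919986, 7182137),
     (4673, 1920117, 7224057), (4686, 1920198, 7255108)]

/-- cells -/
def sc41_2 : List (ℤ × ℤ) :=
    [(7967000, 10000000), (7975000, 9966000), (7984000, 9927000), (7994000, 9883000),
     (8005000, 9834000), (8017000, 9781000), (8030000, 9723000), (8044000, 9659000),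
     (8060000, 9592000), (8078000, 9514000), (8099000, 9427000), (8123000, 9325000),
     (8151000, 9209000), (8185000, 9074000), (8227000, 8910000), (8281000, 8708000),
     (8356000, 8449000), (8462000, 8091000), (8623000, 7591000), (9129000, 6847000),
     (10000000, 4758000)]

theorem sS41_2 : tStep (tAo 20 1922430) 15525590 4686 4294 sn41_2 = true := by decide +kernel

theorem sC41_2 : tCells 41 1922429 1945451 (0, 1) (sn41_2.map Prod.snd) 0 sc41_2 = true := by
  decide +kernel

theorem steps41 {r τ τ' T : ℝ → ℝ} (hr : IsProf r) (h : IsTrans 41 r τ τ' T)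
    (hN : (∫ y in (-1 : ℝ)..1, r y ^ (41 - 1)) ^ 41 * aInt 41 ^ (41 - 1) ≤
      aInt (41 - 1) ^ 41 * (∫ y in (-1 : ℝ)..1, r y ^ 41) ^ (41 - 1)) {x : ℝ}
    (hx : x ∈ Ioo (0 : ℝ) 1) : ApBox3 (((41 : ℕ) : ℝ) * x ^ 2) (lf τ x) := by
  have hτ := h.mem x hx
  have hx0 := hx.1
  have hA : ∀ n a : ℤ, (tAo 20 1922430) n a = true → 0 ≤ n → n ≤ 10000 →
      ∫ t in (0 : ℝ)..((n : ℝ) / 10000), sq t ^ 41 ≤ (a : ℝ) / lsD :=
    (fun n a h0 h1 h2 => tAo_sound (h := 20) (zh := 1922430) ls_hi41 h1 h2 h0)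
  refine ⟨fun h1 => ?_, fun h0 h1 => ?_, fun h0 h1 => ?_⟩
  · have hlt := ls_lt_of (m := 41) (n := 1250) hx0 (by norm_num) h1 (by norm_num)
    exact ls_log_of hx0 hτ.1 (by norm_num) (ls_step0 (m := 41) (by norm_num) (z := 1922429) (z' := 1945451)
      (by norm_num) ls_lo41 ls_hi40 hA (by simp [sc41_0]) (n0 := 624) (nend := 1250) (c := 16484375)
      (u0 := 1028625) (by norm_num) (by norm_num) (by norm_num) (by norm_num) sS41_0 sC41_0 hr h hN hx
      hlt) (by rw [lsD_cast]; norm_num)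
  · have hlt := ls_lt_of (m := 41) (n := 4295) hx0 (by norm_num) h1 (by norm_num)
    have hge := ls_ge_of (m := 41) (n := 1249) hx0 (by norm_num) h0 (by norm_num)
    exact ls_log_of hx0 hτ.1 (by norm_num) (ls_step (m := 41) (by norm_num) (z := 1922429) (z' := 1945451)
      (by norm_num) ls_lo41 ls_hi40 hA (by simp [sc41_1]) (n0 := 1249) (nend := 4295) (c := 14917333)
      (by norm_num) sS41_1 sC41_1 hr h hN hx hge hlt) (by rw [lsD_cast]; norm_num)
  · have hlt := ls_lt_of (m := 41) (n := 4686) hx0 (by norm_num) h1 (by norm_num)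
    have hge := ls_ge_of (m := 41) (n := 4294) hx0 (by norm_num) h0 (by norm_num)
    exact ls_log_of hx0 hτ.1 (by norm_num) (ls_step (m := 41) (by norm_num) (z := 1922429) (z' := 1945451)
      (by norm_num) ls_lo41 ls_hi40 hA (by simp [sc41_2]) (n0 := 4294) (nend := 4686) (c := 15525590)
      (by norm_num) sS41_2 sC41_2 hr h hN hx hge hlt) (by rw [lsD_cast]; norm_num)

/-- nodes -/
def sn42_0 : List (ℤ × ℤ × ℤ) :=
    [(633, 615665, 1017085), (650, 631255, 1043460), (668, 647683, 1071484),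
     (688, 665838, 1101156), (709, 684788, 1134125), (732, 705407, 1168742),
     (757, 727652, 1206656), (784, 751478, 1247867), (814, 777703, 1292375),
     (847, 806238, 1341828), (883, 836985, 1396226), (924, 871501, 1455570),
     (970, 909571, 1523156), (1022, 951747, 1598984), (1083, 1000022, 1684703),
     (1154, 1054526, 1785257), (1235, 1114421, 1902296)]

/-- cells -/
def sc42_0 : List (ℤ × ℤ) :=
    [(8945000, 10000000), (9514000, 5496000), (9878000, 3634000), (10000000, 3131000)]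

theorem sS42_0 : tStep (tAe 21) 16484375 1235 617 sn42_0 = true := by decide +kernel

theorem sC42_0 : tCells 42 1900207 1922430 (1000 * 617, 1017085) (sn42_0.map Prod.snd) 0 sc42_0 = true := by
  decide +kernel

/-- nodes -/
def sn42_1 : List (ℤ × ℤ × ℤ) :=
    [(1248, 1123803, 1840798), (1264, 1135261, 1861683), (1283, 1148739, 1885550),
     (1305, 1164171, 1913893), (1332, 1182852, 1946711), (1364, 1204625, 1986988),
     (1403, 1230614, 2034724), (1451, 1261775, 2092901), (1511, 1299435, 2164505),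
     (1588, 1345657, 2254009), (1689, 1402691, 2368872), (1825, 1473095, 2519537),
     (2018, 1560716, 2722413), (2309, 1667213, 3010317), (2791, 1785567, 3444412),
     (3165, 1839180, 4163427), (3455, 1864701, 4721335), (3682, 1877760, 5153938),
     (3857, 1884788, 5492562), (3992, 1888824, 5753615), (4095, 1891252, 5954999),
     (4173, 1892777, 6108647), (4244, 1893962, 6225003)]

/-- cells -/
def sc42_1 : List (ℤ × ℤ) :=
    [(8006000, 10000000), (8029000, 9891000), (8052000, 9778000), (8076000, 9665000),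
     (8101000, 9547000), (8127000, 9424000), (8154000, 9297000), (8182000, 9165000),
     (8212000, 9028000), (8244000, 8881000), (8279000, 8725000), (8318000, 8555000),
     (8362000, 8366000), (8413000, 8153000), (8475000, 7908000), (8556000, 7612000),
     (8670000, 7229000), (8796000, 6699000), (8915000, 6133000), (9032000, 5620000),
     (9152000, 5145000), (9287000, 4695000), (9468000, 4242000), (9754000, 3740000),
     (9956000, 3234000), (10000000, 3101000)]

theorem sS42_1 : tStep (tAe 21) 14917333 4244 1234 sn42_1 = true := by decide +kernel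

theorem sC42_1 : tCells 42 1900207 1922430 (0, 1) (sn42_1.map Prod.snd) 0 sc42_1 = true := by
  decide +kernel

/-- nodes -/
def sn42_2 : List (ℤ × ℤ × ℤ) :=
    [(4346, 1895373, 6587507), (4425, 1896265, 6747421), (4486, 1896850, 6870073),
     (4533, 1897247, 6964779), (4569, 1897522, 7037749), (4596, 1897714, 7093642),
     (4617, 1897854, 7135561), (4630, 1897937, 7168164)]

/-- cells -/
def sc42_2 : List (ℤ × ℤ) :=
    [(7993000, 10000000), (8003000, 9955000), (8014000, 9906000), (8026000, 9852000),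
     (8039000, 9793000), (8053000, 9729000), (8068000, 9660000), (8085000, 9586000),
     (8104000, 9503000), (8125000, 9410000), (8149000, 9307000), (8177000, 9189000),
     (8210000, 9052000), (8250000, 8891000), (8300000, 8696000), (8368000, 8453000),
     (8465000, 8124000), (8605000, 7659000), (8910000, 6999000), (10000000, 5641000)]

theorem sS42_2 : tStep (tAe 21) 15525590 4630 4243 sn42_2 = true := by decide +kernel

theorem sC42_2 : tCells 42 1900207 1922430 (0, 1) (sn42_2.map Prod.snd) 0 sc42_2 = true := by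
  decide +kernel

theorem steps42 {r τ τ' T : ℝ → ℝ} (hr : IsProf r) (h : IsTrans 42 r τ τ' T)
    (hN : (∫ y in (-1 : ℝ)..1, r y ^ (42 - 1)) ^ 42 * aInt 42 ^ (42 - 1) ≤
      aInt (42 - 1) ^ 42 * (∫ y in (-1 : ℝ)..1, r y ^ 42) ^ (42 - 1)) {x : ℝ}
    (hx : x ∈ Ioo (0 : ℝ) 1) : ApBox3 (((42 : ℕ) : ℝ) * x ^ 2) (lf τ x) := by
  have hτ := h.mem x hx
  have hx0 := hx.1
  have hA : ∀ n a : ℤ, (tAe 21) n a = true → 0 ≤ n → n ≤ 10000 →
      ∫ t in (0 : ℝ)..((n : ℝ) / 10000), sq t ^ 42 ≤ (a : ℝ) / lsD :=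
    (fun n a h0 h1 h2 => tAe_sound (h := 21) h1 h2 h0)
  refine ⟨fun h1 => ?_, fun h0 h1 => ?_, fun h0 h1 => ?_⟩
  · have hlt := ls_lt_of (m := 42) (n := 1235) hx0 (by norm_num) h1 (by norm_num)
    exact ls_log_of hx0 hτ.1 (by norm_num) (ls_step0 (m := 42) (by norm_num) (z := 1900207) (z' := 1922430)
      (by norm_num) ls_lo42 ls_hi41 hA (by simp [sc42_0]) (n0 := 617) (nend := 1235) (c := 16484375)
      (u0 := 1017085) (by norm_num) (by norm_num) (by norm_num) (by norm_num) sS42_0 sC42_0 hr h hN hx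
      hlt) (by rw [lsD_cast]; norm_num)
  · have hlt := ls_lt_of (m := 42) (n := 4244) hx0 (by norm_num) h1 (by norm_num)
    have hge := ls_ge_of (m := 42) (n := 1234) hx0 (by norm_num) h0 (by norm_num)
    exact ls_log_of hx0 hτ.1 (by norm_num) (ls_step (m := 42) (by norm_num) (z := 1900207) (z' := 1922430)
      (by norm_num) ls_lo42 ls_hi41 hA (by simp [sc42_1]) (n0 := 1234) (nend := 4244) (c := 14917333)
      (by norm_num) sS42_1 sC42_1 hr h hN hx hge hlt) (by rw [lsD_cast]; norm_num)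
  · have hlt := ls_lt_of (m := 42) (n := 4630) hx0 (by norm_num) h1 (by norm_num)
    have hge := ls_ge_of (m := 42) (n := 4243) hx0 (by norm_num) h0 (by norm_num)
    exact ls_log_of hx0 hτ.1 (by norm_num) (ls_step (m := 42) (by norm_num) (z := 1900207) (z' := 1922430)
      (by norm_num) ls_lo42 ls_hi41 hA (by simp [sc42_2]) (n0 := 4243) (nend := 4630) (c := 15525590)
      (by norm_num) sS42_2 sC42_2 hr h hN hx hge hlt) (by rw [lsD_cast]; norm_num)

/-- nodes -/
def sn43_0 : List (ℤ × ℤ × ℤ) :=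
    [(627, 609840, 1003898), (647, 628166, 1033570), (668, 647298, 1066539),
     (691, 668119, 1101156), (716, 690590, 1139070), (743, 714663, 1180281),
     (773, 741167, 1224789), (806, 770016, 1274242), (843, 801968, 1328640),
     (885, 837718, 1389632), (933, 877874, 1458867), (988, 922936, 1537992),
     (1052, 974046, 1628656), (1129, 1033580, 1734156), (1220, 1101081, 1861085)]

/-- cells -/
def sc43_0 : List (ℤ × ℤ) :=
    [(8946000, 10000000), (9502000, 5531000), (9858000, 3647000), (9995000, 3110000),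
     (10000000, 3063000)]

theorem sS43_0 : tStep (tAo 21 1878739) 16484375 1220 609 sn43_0 = true := by decide +kernel

theorem sC43_0 : tCells 43 1878737 1900208 (1000 * 609, 1003898) (sn43_0.map Prod.snd) 0 sc43_0 = true := by
  decide +kernel

/-- nodes -/
def sn43_1 : List (ℤ × ℤ × ℤ) :=
    [(1232, 1109746, 1818422), (1247, 1120499, 1837815), (1265, 1133287, 1860191),
     (1286, 1148046, 1887042), (1311, 1165390, 1918369), (1341, 1185877, 1955662),
     (1378, 1210652, 2000414), (1423, 1240045, 2055608), (1480, 1276107, 2122736),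
     (1552, 1319781, 2207765), (1646, 1373644, 2315170), (1772, 1440267, 2455393),
     (1948, 1522846, 2643351), (2209, 1623943, 2905896), (2632, 1740049, 3295238),
     (3034, 1807109, 3926242), (3342, 1838057, 4525918), (3582, 1853553, 4985372),
     (3769, 1861833, 5343388), (3912, 1866468, 5622342), (4022, 1869240, 5835660),
     (4106, 1870972, 5999751), (4170, 1872099, 6125056), (4194, 1872483, 6220527)]

/-- cells -/
def sc43_1 : List (ℤ × ℤ) :=
    [(8040000, 10000000), (8073000, 9836000), (8107000, 9672000), (8141000, 9503000),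
     (8176000, 9334000), (8213000, 9160000), (8252000, 8977000), (8293000, 8784000),
     (8338000, 8582000), (8388000, 8361000), (8445000, 8116000), (8513000, 7839000),
     (8601000, 7510000), (8715000, 7090000), (8842000, 6556000), (8972000, 5982000),
     (9116000, 5422000), (9271000, 4848000), (9452000, 4299000), (9722000, 3769000),
     (9942000, 3245000), (10000000, 3071000)]

theorem sS43_1 : tStep (tAo 21 1878739) 14917333 4194 1219 sn43_1 = true := by decide +kernel

theorem sC43_1 : tCells 43 1878737 1900208 (0, 1) (sn43_1.map Prod.snd) 0 sc43_1 = true := by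
  decide +kernel

/-- nodes -/
def sn43_2 : List (ℤ × ℤ × ℤ) :=
    [(4295, 1873894, 6509879), (4374, 1874793, 6668240), (4435, 1875383, 6790893),
     (4481, 1875775, 6885599), (4516, 1876045, 6957016), (4543, 1876238, 7011356),
     (4564, 1876380, 7053275), (4575, 1876451, 7085879)]

/-- cells -/
def sc43_2 : List (ℤ × ℤ) :=
    [(8015000, 10000000), (8023000, 9961000), (8032000, 9921000), (8042000, 9876000),
     (8052000, 9826000), (8063000, 9776000), (8075000, 9722000), (8088000, 9662000),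
     (8102000, 9597000), (8117000, 9528000), (8134000, 9453000), (8153000, 9369000),
     (8175000, 9274000), (8200000, 9165000), (8229000, 9041000), (8263000, 8898000),
     (8305000, 8730000), (8359000, 8523000), (8435000, 8258000), (8542000, 7887000),
     (8708000, 7371000), (9420000, 6589000), (10000000, 3853000)]

theorem sS43_2 : tStep (tAo 21 1878739) 15525590 4575 4193 sn43_2 = true := by decide +kernel

theorem sC43_2 : tCells 43 1878737 1900208 (0, 1) (sn43_2.map Prod.snd) 0 sc43_2 = true := by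
  decide +kernel

theorem steps43 {r τ τ' T : ℝ → ℝ} (hr : IsProf r) (h : IsTrans 43 r τ τ' T)
    (hN : (∫ y in (-1 : ℝ)..1, r y ^ (43 - 1)) ^ 43 * aInt 43 ^ (43 - 1) ≤
      aInt (43 - 1) ^ 43 * (∫ y in (-1 : ℝ)..1, r y ^ 43) ^ (43 - 1)) {x : ℝ}
    (hx : x ∈ Ioo (0 : ℝ) 1) : ApBox3 (((43 : ℕ) : ℝ) * x ^ 2) (lf τ x) := by
  have hτ := h.mem x hx
  have hx0 := hx.1
  have hA : ∀ n a : ℤ, (tAo 21 1878739) n a = true → 0 ≤ n → n ≤ 10000 →
      ∫ t in (0 : ℝ)..((n : ℝ) / 10000), sq t ^ 43 ≤ (a : ℝ) / lsD :=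
    (fun n a h0 h1 h2 => tAo_sound (h := 21) (zh := 1878739) ls_hi43 h1 h2 h0)
  refine ⟨fun h1 => ?_, fun h0 h1 => ?_, fun h0 h1 => ?_⟩
  · have hlt := ls_lt_of (m := 43) (n := 1220) hx0 (by norm_num) h1 (by norm_num)
    exact ls_log_of hx0 hτ.1 (by norm_num) (ls_step0 (m := 43) (by norm_num) (z := 1878737) (z' := 1900208)
      (by norm_num) ls_lo43 ls_hi42 hA (by simp [sc43_0]) (n0 := 609) (nend := 1220) (c := 16484375)
      (u0 := 1003898) (by norm_num) (by norm_num) (by norm_num) (by norm_num) sS43_0 sC43_0 hr h hN hx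
      hlt) (by rw [lsD_cast]; norm_num)
  · have hlt := ls_lt_of (m := 43) (n := 4194) hx0 (by norm_num) h1 (by norm_num)
    have hge := ls_ge_of (m := 43) (n := 1219) hx0 (by norm_num) h0 (by norm_num)
    exact ls_log_of hx0 hτ.1 (by norm_num) (ls_step (m := 43) (by norm_num) (z := 1878737) (z' := 1900208)
      (by norm_num) ls_lo43 ls_hi42 hA (by simp [sc43_1]) (n0 := 1219) (nend := 4194) (c := 14917333)
      (by norm_num) sS43_1 sC43_1 hr h hN hx hge hlt) (by rw [lsD_cast]; norm_num)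
  · have hlt := ls_lt_of (m := 43) (n := 4575) hx0 (by norm_num) h1 (by norm_num)
    have hge := ls_ge_of (m := 43) (n := 4193) hx0 (by norm_num) h0 (by norm_num)
    exact ls_log_of hx0 hτ.1 (by norm_num) (ls_step (m := 43) (by norm_num) (z := 1878737) (z' := 1900208)
      (by norm_num) ls_lo43 ls_hi42 hA (by simp [sc43_2]) (n0 := 4193) (nend := 4575) (c := 15525590)
      (by norm_num) sS43_2 sC43_2 hr h hN hx hge hlt) (by rw [lsD_cast]; norm_num)

/-- nodes -/
def sn44_0 : List (ℤ × ℤ × ℤ) :=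
    [(621, 603857, 994007), (640, 621263, 1023679), (661, 640393, 1055000),
     (684, 661209, 1089617), (709, 683673, 1127531), (736, 707736, 1168742),
     (766, 734226, 1213250), (799, 763054, 1262703), (836, 794979, 1317101),
     (878, 830690, 1378093), (926, 870793, 1447328), (981, 915780, 1526453),
     (1045, 966785, 1617117), (1122, 1026164, 1722617), (1207, 1089107, 1849546)]

/-- cells -/
def sc44_0 : List (ℤ × ℤ) :=
    [(8962000, 10000000), (9512000, 5503000), (9863000, 3611000), (9996000, 3075000),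
     (10000000, 3030000)]

theorem sS44_0 : tStep (tAe 22) 16484375 1207 603 sn44_0 = true := by decide +kernel

theorem sC44_0 : tCells 44 1857980 1878739 (1000 * 603, 994007) (sn44_0.map Prod.snd) 0 sc44_0 = true := by
  decide +kernel

/-- nodes -/
def sn44_1 : List (ℤ × ℤ × ℤ) :=
    [(1219, 1097767, 1799030), (1234, 1108514, 1818422), (1252, 1121293, 1840798),
     (1273, 1136040, 1867650), (1298, 1153367, 1898976), (1328, 1173830, 1936269),
     (1365, 1198569, 1981021), (1410, 1227910, 2036215), (1466, 1263273, 2103343),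
     (1538, 1306855, 2186881), (1631, 1360011, 2294285), (1756, 1425915, 2433017),
     (1931, 1507725, 2619483), (2192, 1608234, 2880537), (2615, 1723096, 3269879),
     (3010, 1788072, 3900882), (3313, 1818151, 4490117), (3549, 1833237, 4942112),
     (3732, 1841285, 5294161), (3873, 1845837, 5567148), (3981, 1848553, 5777483),
     (4063, 1850244, 5938590), (4126, 1851357, 6060912), (4146, 1851680, 6154891)]

/-- cells -/
def sc44_1 : List (ℤ × ℤ) :=
    [(8063000, 10000000), (8096000, 9831000), (8130000, 9665000), (8165000, 9494000),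
     (8201000, 9318000), (8238000, 9137000), (8276000, 8952000), (8317000, 8762000),
     (8361000, 8557000), (8409000, 8338000), (8464000, 8100000), (8529000, 7829000),
     (8611000, 7511000), (8719000, 7113000), (8844000, 6600000), (8971000, 6023000),
     (9109000, 5465000), (9256000, 4899000), (9423000, 4358000), (9671000, 3839000),
     (9916000, 3294000), (9999000, 3047000), (10000000, 3030000)]

theorem sS44_1 : tStep (tAe 22) 14917333 4146 1206 sn44_1 = true := by decide +kernel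

theorem sC44_1 : tCells 44 1857980 1878739 (0, 1) (sn44_1.map Prod.snd) 0 sc44_1 = true := by
  decide +kernel

/-- nodes -/
def sn44_2 : List (ℤ × ℤ × ℤ) :=
    [(4246, 1853094, 6435357), (4324, 1853994, 6592165), (4384, 1854583, 6713265),
     (4430, 1854981, 6806418), (4465, 1855255, 6877836), (4492, 1855451, 6932175),
     (4512, 1855588, 6974095), (4523, 1855661, 7005146)]

/-- cells -/
def sc44_2 : List (ℤ × ℤ) :=
    [(8040000, 10000000), (8051000, 9947000), (8062000, 9892000), (8074000, 9836000),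
     (8087000, 9776000), (8101000, 9710000), (8116000, 9640000), (8132000, 9564000),
     (8150000, 9484000), (8169000, 9393000), (8190000, 9298000), (8214000, 9192000),
     (8242000, 9072000), (8274000, 8932000), (8312000, 8772000), (8360000, 8582000),
     (8423000, 8343000), (8512000, 8031000), (8637000, 7594000), (8872000, 6989000),
     (10000000, 5897000)]

theorem sS44_2 : tStep (tAe 22) 15525590 4523 4145 sn44_2 = true := by decide +kernel

theorem sC44_2 : tCells 44 1857980 1878739 (0, 1) (sn44_2.map Prod.snd) 0 sc44_2 = true := by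
  decide +kernel

theorem steps44 {r τ τ' T : ℝ → ℝ} (hr : IsProf r) (h : IsTrans 44 r τ τ' T)
    (hN : (∫ y in (-1 : ℝ)..1, r y ^ (44 - 1)) ^ 44 * aInt 44 ^ (44 - 1) ≤
      aInt (44 - 1) ^ 44 * (∫ y in (-1 : ℝ)..1, r y ^ 44) ^ (44 - 1)) {x : ℝ}
    (hx : x ∈ Ioo (0 : ℝ) 1) : ApBox3 (((44 : ℕ) : ℝ) * x ^ 2) (lf τ x) := by
  have hτ := h.mem x hx
  have hx0 := hx.1
  have hA : ∀ n a : ℤ, (tAe 22) n a = true → 0 ≤ n → n ≤ 10000 →
      ∫ t in (0 : ℝ)..((n : ℝ) / 10000), sq t ^ 44 ≤ (a : ℝ) / lsD :=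
    (fun n a h0 h1 h2 => tAe_sound (h := 22) h1 h2 h0)
  refine ⟨fun h1 => ?_, fun h0 h1 => ?_, fun h0 h1 => ?_⟩
  · have hlt := ls_lt_of (m := 44) (n := 1207) hx0 (by norm_num) h1 (by norm_num)
    exact ls_log_of hx0 hτ.1 (by norm_num) (ls_step0 (m := 44) (by norm_num) (z := 1857980) (z' := 1878739)
      (by norm_num) ls_lo44 ls_hi43 hA (by simp [sc44_0]) (n0 := 603) (nend := 1207) (c := 16484375)
      (u0 := 994007) (by norm_num) (by norm_num) (by norm_num) (by norm_num) sS44_0 sC44_0 hr h hN hx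
      hlt) (by rw [lsD_cast]; norm_num)
  · have hlt := ls_lt_of (m := 44) (n := 4146) hx0 (by norm_num) h1 (by norm_num)
    have hge := ls_ge_of (m := 44) (n := 1206) hx0 (by norm_num) h0 (by norm_num)
    exact ls_log_of hx0 hτ.1 (by norm_num) (ls_step (m := 44) (by norm_num) (z := 1857980) (z' := 1878739)
      (by norm_num) ls_lo44 ls_hi43 hA (by simp [sc44_1]) (n0 := 1206) (nend := 4146) (c := 14917333)
      (by norm_num) sS44_1 sC44_1 hr h hN hx hge hlt) (by rw [lsD_cast]; norm_num)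
  · have hlt := ls_lt_of (m := 44) (n := 4523) hx0 (by norm_num) h1 (by norm_num)
    have hge := ls_ge_of (m := 44) (n := 4145) hx0 (by norm_num) h0 (by norm_num)
    exact ls_log_of hx0 hτ.1 (by norm_num) (ls_step (m := 44) (by norm_num) (z := 1857980) (z' := 1878739)
      (by norm_num) ls_lo44 ls_hi43 hA (by simp [sc44_2]) (n0 := 4145) (nend := 4523) (c := 15525590)
      (by norm_num) sS44_2 sC44_2 hr h hN hx hge hlt) (by rw [lsD_cast]; norm_num)

/-- nodes -/
def sn45_0 : List (ℤ × ℤ × ℤ) :=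
    [(614, 597128, 982468), (633, 614534, 1012140), (653, 632754, 1043460),
     (675, 652671, 1076429), (699, 674248, 1112695), (725, 697438, 1152257),
     (754, 723072, 1195117), (786, 751064, 1242921), (822, 782175, 1295671),
     (862, 816258, 1355015), (908, 854798, 1420953), (961, 898304, 1496781),
     (1023, 947933, 1584148), (1096, 1004556, 1686351), (1193, 1076649, 1806687)]

/-- cells -/
def sc45_0 : List (ℤ × ℤ) :=
    [(8960000, 10000000), (9498000, 5552000), (9842000, 3633000), (9992000, 3060000),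
     (10000000, 2998000)]

theorem sS45_0 : tStep (tAo 22 1837897) 16484375 1193 596 sn45_0 = true := by decide +kernel

theorem sC45_0 : tCells 45 1837895 1857981 (1000 * 596, 982468) (sn45_0.map Prod.snd) 0 sc45_0 = true := by
  decide +kernel

/-- nodes -/
def sn45_1 : List (ℤ × ℤ × ℤ) :=
    [(1204, 1084593, 1778146), (1218, 1094633, 1796046), (1235, 1106721, 1816931),
     (1255, 1120794, 1842290), (1279, 1137469, 1872125), (1308, 1157308, 1907926),
     (1343, 1180796, 1951187), (1386, 1208968, 2003397), (1439, 1242646, 2067542),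
     (1506, 1283560, 2146604), (1593, 1333915, 2246550), (1709, 1396206, 2376331),
     (1870, 1473630, 2549372), (2107, 1569322, 2789541), (2483, 1681041, 3143082),
     (2905, 1759148, 3703973), (3220, 1793735, 4333485), (3467, 1810976, 4803381),
     (3659, 1820059, 5171839), (3806, 1825095, 5458252), (3919, 1828078, 5677536),
     (4005, 1829922, 5846102), (4071, 1831125, 5974391), (4100, 1831600, 6072846)]

/-- cells -/
def sc45_1 : List (ℤ × ℤ) :=
    [(8085000, 10000000), (8119000, 9827000), (8153000, 9654000), (8188000, 9481000),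
     (8223000, 9303000), (8260000, 9125000), (8298000, 8938000), (8338000, 8745000),
     (8381000, 8543000), (8427000, 8327000), (8479000, 8096000), (8539000, 7836000),
     (8613000, 7539000), (8710000, 7175000), (8827000, 6705000), (8941000, 6153000),
     (9058000, 5636000), (9188000, 5133000), (9360000, 4617000), (9563000, 4023000),
     (9833000, 3480000), (9980000, 3068000), (10000000, 2999000)]

theorem sS45_1 : tStep (tAo 22 1837897) 14917333 4100 1192 sn45_1 = true := by decide +kernel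

theorem sC45_1 : tCells 45 1837895 1857981 (0, 1) (sn45_1.map Prod.snd) 0 sc45_1 = true := by
  decide +kernel

/-- nodes -/
def sn45_2 : List (ℤ × ℤ × ℤ) :=
    [(4200, 1833023, 6363939), (4277, 1833916, 6520747), (4337, 1834509, 6640294),
     (4382, 1834900, 6733448), (4417, 1835176, 6803313), (4443, 1835366, 6857653),
     (4463, 1835504, 6898019), (4473, 1835571, 6929070)]

/-- cells -/
def sc45_2 : List (ℤ × ℤ) :=
    [(8060000, 10000000), (8069000, 9955000), (8079000, 9909000), (8089000, 9858000),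
     (8100000, 9807000), (8111000, 9751000), (8123000, 9695000), (8136000, 9634000),
     (8150000, 9568000), (8165000, 9496000), (8181000, 9420000), (8199000, 9339000),
     (8219000, 9247000), (8241000, 9146000), (8266000, 9034000), (8295000, 8907000),
     (8329000, 8761000), (8371000, 8589000), (8424000, 8377000), (8497000, 8111000),
     (8599000, 7747000), (8755000, 7243000), (9310000, 6490000), (10000000, 4184000)]

theorem sS45_2 : tStep (tAo 22 1837897) 15525590 4473 4099 sn45_2 = true := by decide +kernel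

theorem sC45_2 : tCells 45 1837895 1857981 (0, 1) (sn45_2.map Prod.snd) 0 sc45_2 = true := by
  decide +kernel

theorem steps45 {r τ τ' T : ℝ → ℝ} (hr : IsProf r) (h : IsTrans 45 r τ τ' T)
    (hN : (∫ y in (-1 : ℝ)..1, r y ^ (45 - 1)) ^ 45 * aInt 45 ^ (45 - 1) ≤
      aInt (45 - 1) ^ 45 * (∫ y in (-1 : ℝ)..1, r y ^ 45) ^ (45 - 1)) {x : ℝ}
    (hx : x ∈ Ioo (0 : ℝ) 1) : ApBox3 (((45 : ℕ) : ℝ) * x ^ 2) (lf τ x) := by
  have hτ := h.mem x hx
  have hx0 := hx.1
  have hA : ∀ n a : ℤ, (tAo 22 1837897) n a = true → 0 ≤ n → n ≤ 10000 →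
      ∫ t in (0 : ℝ)..((n : ℝ) / 10000), sq t ^ 45 ≤ (a : ℝ) / lsD :=
    (fun n a h0 h1 h2 => tAo_sound (h := 22) (zh := 1837897) ls_hi45 h1 h2 h0)
  refine ⟨fun h1 => ?_, fun h0 h1 => ?_, fun h0 h1 => ?_⟩
  · have hlt := ls_lt_of (m := 45) (n := 1193) hx0 (by norm_num) h1 (by norm_num)
    exact ls_log_of hx0 hτ.1 (by norm_num) (ls_step0 (m := 45) (by norm_num) (z := 1837895) (z' := 1857981)
      (by norm_num) ls_lo45 ls_hi44 hA (by simp [sc45_0]) (n0 := 596) (nend := 1193) (c := 16484375)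
      (u0 := 982468) (by norm_num) (by norm_num) (by norm_num) (by norm_num) sS45_0 sC45_0 hr h hN hx
      hlt) (by rw [lsD_cast]; norm_num)
  · have hlt := ls_lt_of (m := 45) (n := 4100) hx0 (by norm_num) h1 (by norm_num)
    have hge := ls_ge_of (m := 45) (n := 1192) hx0 (by norm_num) h0 (by norm_num)
    exact ls_log_of hx0 hτ.1 (by norm_num) (ls_step (m := 45) (by norm_num) (z := 1837895) (z' := 1857981)
      (by norm_num) ls_lo45 ls_hi44 hA (by simp [sc45_1]) (n0 := 1192) (nend := 4100) (c := 14917333)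
      (by norm_num) sS45_1 sC45_1 hr h hN hx hge hlt) (by rw [lsD_cast]; norm_num)
  · have hlt := ls_lt_of (m := 45) (n := 4473) hx0 (by norm_num) h1 (by norm_num)
    have hge := ls_ge_of (m := 45) (n := 4099) hx0 (by norm_num) h0 (by norm_num)
    exact ls_log_of hx0 hτ.1 (by norm_num) (ls_step (m := 45) (by norm_num) (z := 1837895) (z' := 1857981)
      (by norm_num) ls_lo45 ls_hi44 hA (by simp [sc45_2]) (n0 := 4099) (nend := 4473) (c := 15525590)
      (by norm_num) sS45_2 sC45_2 hr h hN hx hge hlt) (by rw [lsD_cast]; norm_num)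

/-- nodes -/
def sn46_0 : List (ℤ × ℤ × ℤ) :=
    [(606, 589345, 970929), (624, 605842, 998953), (644, 624073, 1028625),
     (666, 644001, 1061593), (690, 665588, 1097859), (716, 688787, 1137421),
     (744, 713549, 1180281), (775, 740687, 1226437), (810, 770965, 1277539),
     (849, 804237, 1335234), (894, 841998, 1399523), (945, 883950, 1473703),
     (1005, 932114, 1557773), (1076, 987386, 1656679), (1162, 1051744, 1773718),
     (1180, 1064847, 1915484)]

/-- cells -/
def sc46_0 : List (ℤ × ℤ) :=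
    [(8983000, 10000000), (9518000, 5490000), (9857000, 3573000), (9994000, 3020000),
     (10000000, 2967000)]

theorem sS46_0 : tStep (tAe 23) 16484375 1180 589 sn46_0 = true := by decide +kernel

theorem sC46_0 : tCells 46 1818448 1837897 (1000 * 589, 970929) (sn46_0.map Prod.snd) 0 sc46_0 = true := by
  decide +kernel

/-- nodes -/
def sn46_1 : List (ℤ × ℤ × ℤ) :=
    [(1191, 1072790, 1758753), (1205, 1082830, 1776654), (1222, 1094915, 1797538),
     (1242, 1108984, 1822898), (1266, 1125652, 1852732), (1294, 1144801, 1888534),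
     (1328, 1167621, 1930302), (1370, 1195150, 1981021), (1422, 1228219, 2043674),
     (1488, 1268565, 2121244), (1573, 1317844, 2219699), (1687, 1379212, 2346496),
     (1845, 1455466, 2516554), (2076, 1549322, 2752247), (2442, 1659445, 3096838),
     (2870, 1739710, 3642812), (3184, 1774391, 4281274), (3429, 1791575, 4749678),
     (3619, 1800612, 5115153), (3765, 1805645, 5398582), (3877, 1808620, 5616375),
     (3962, 1810456, 5783450), (4027, 1811650, 5910247), (4055, 1812114, 6007209)]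

/-- cells -/
def sc46_1 : List (ℤ × ℤ) :=
    [(8107000, 10000000), (8142000, 9820000), (8177000, 9640000), (8213000, 9460000),
     (8249000, 9275000), (8286000, 9090000), (8325000, 8900000), (8366000, 8700000),
     (8409000, 8491000), (8456000, 8272000), (8508000, 8034000), (8568000, 7771000),
     (8641000, 7470000), (8737000, 7107000), (8847000, 6637000), (8954000, 6112000),
     (9063000, 5620000), (9183000, 5143000), (9333000, 4655000), (9522000, 4113000),
     (9783000, 3563000), (9963000, 3089000), (10000000, 2970000)]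

theorem sS46_1 : tStep (tAe 23) 14917333 4055 1179 sn46_1 = true := by decide +kernel

theorem sC46_1 : tCells 46 1818448 1837897 (0, 1) (sn46_1.map Prod.snd) 0 sc46_1 = true := by
  decide +kernel

/-- nodes -/
def sn46_2 : List (ℤ × ℤ × ℤ) :=
    [(4154, 1813538, 6294074), (4231, 1814442, 6449330), (4290, 1815031, 6568877),
     (4335, 1815427, 6660478), (4369, 1815699, 6730343), (4395, 1815892, 6783130),
     (4415, 1816032, 6823496), (4424, 1816093, 6854547)]

/-- cells -/
def sc46_2 : List (ℤ × ℤ) :=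
    [(8082000, 10000000), (8092000, 9949000), (8103000, 9898000), (8114000, 9841000),
     (8126000, 9784000), (8139000, 9722000), (8153000, 9655000), (8167000, 9583000),
     (8182000, 9511000), (8199000, 9434000), (8217000, 9347000), (8237000, 9254000),
     (8259000, 9151000), (8284000, 9038000), (8312000, 8910000), (8344000, 8767000),
     (8383000, 8603000), (8431000, 8404000), (8494000, 8160000), (8583000, 7841000),
     (8708000, 7395000), (8956000, 6778000), (10000000, 5611000)]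

theorem sS46_2 : tStep (tAe 23) 15525590 4424 4054 sn46_2 = true := by decide +kernel

theorem sC46_2 : tCells 46 1818448 1837897 (0, 1) (sn46_2.map Prod.snd) 0 sc46_2 = true := by
  decide +kernel

theorem steps46 {r τ τ' T : ℝ → ℝ} (hr : IsProf r) (h : IsTrans 46 r τ τ' T)
    (hN : (∫ y in (-1 : ℝ)..1, r y ^ (46 - 1)) ^ 46 * aInt 46 ^ (46 - 1) ≤
      aInt (46 - 1) ^ 46 * (∫ y in (-1 : ℝ)..1, r y ^ 46) ^ (46 - 1)) {x : ℝ}
    (hx : x ∈ Ioo (0 : ℝ) 1) : ApBox3 (((46 : ℕ) : ℝ) * x ^ 2) (lf τ x) := by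
  have hτ := h.mem x hx
  have hx0 := hx.1
  have hA : ∀ n a : ℤ, (tAe 23) n a = true → 0 ≤ n → n ≤ 10000 →
      ∫ t in (0 : ℝ)..((n : ℝ) / 10000), sq t ^ 46 ≤ (a : ℝ) / lsD :=
    (fun n a h0 h1 h2 => tAe_sound (h := 23) h1 h2 h0)
  refine ⟨fun h1 => ?_, fun h0 h1 => ?_, fun h0 h1 => ?_⟩
  · have hlt := ls_lt_of (m := 46) (n := 1180) hx0 (by norm_num) h1 (by norm_num)
    exact ls_log_of hx0 hτ.1 (by norm_num) (ls_step0 (m := 46) (by norm_num) (z := 1818448) (z' := 1837897)
      (by norm_num) ls_lo46 ls_hi45 hA (by simp [sc46_0]) (n0 := 589) (nend := 1180) (c := 16484375)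
      (u0 := 970929) (by norm_num) (by norm_num) (by norm_num) (by norm_num) sS46_0 sC46_0 hr h hN hx
      hlt) (by rw [lsD_cast]; norm_num)
  · have hlt := ls_lt_of (m := 46) (n := 4055) hx0 (by norm_num) h1 (by norm_num)
    have hge := ls_ge_of (m := 46) (n := 1179) hx0 (by norm_num) h0 (by norm_num)
    exact ls_log_of hx0 hτ.1 (by norm_num) (ls_step (m := 46) (by norm_num) (z := 1818448) (z' := 1837897)
      (by norm_num) ls_lo46 ls_hi45 hA (by simp [sc46_1]) (n0 := 1179) (nend := 4055) (c := 14917333)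
      (by norm_num) sS46_1 sC46_1 hr h hN hx hge hlt) (by rw [lsD_cast]; norm_num)
  · have hlt := ls_lt_of (m := 46) (n := 4424) hx0 (by norm_num) h1 (by norm_num)
    have hge := ls_ge_of (m := 46) (n := 4054) hx0 (by norm_num) h0 (by norm_num)
    exact ls_log_of hx0 hτ.1 (by norm_num) (ls_step (m := 46) (by norm_num) (z := 1818448) (z' := 1837897)
      (by norm_num) ls_lo46 ls_hi45 hA (by simp [sc46_2]) (n0 := 4054) (nend := 4424) (c := 15525590)
      (by norm_num) sS46_2 sC46_2 hr h hN hx hge hlt) (by rw [lsD_cast]; norm_num)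

/-- nodes -/
def sn47_0 : List (ℤ × ℤ × ℤ) :=
    [(600, 583548, 961039), (618, 600043, 989062), (638, 618269, 1018734),
     (659, 637289, 1051703), (682, 657978, 1086320), (707, 680292, 1124234),
     (735, 705064, 1165445), (766, 732210, 1211601), (800, 761635, 1262703),
     (839, 794923, 1318750), (883, 831863, 1383039), (933, 873022, 1455570),
     (992, 920429, 1537992), (1062, 974987, 1635250), (1146, 1037952, 1750640),
     (1167, 1053255, 1889109)]

/-- cells -/
def sc47_0 : List (ℤ × ℤ) :=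
    [(8995000, 10000000), (9523000, 5475000), (9857000, 3549000), (9994000, 2991000),
     (10000000, 2937000)]

theorem sS47_0 : tStep (tAo 23 1799607) 16484375 1167 583 sn47_0 = true := by decide +kernel

theorem sC47_0 : tCells 47 1799606 1818449 (1000 * 583, 961039) (sn47_0.map Prod.snd) 0 sc47_0 = true := by
  decide +kernel

/-- nodes -/
def sn47_1 : List (ℤ × ℤ × ℤ) :=
    [(1178, 1061201, 1739361), (1192, 1071242, 1757261), (1208, 1082621, 1778146),
     (1227, 1095997, 1802013), (1250, 1111991, 1830356), (1277, 1130489, 1864666),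
     (1310, 1152687, 1904943), (1350, 1178984, 1954170), (1400, 1210911, 2013839),
     (1463, 1249639, 2088426), (1544, 1296969, 2182405), (1652, 1355777, 2303236),
     (1801, 1428960, 2464343), (2017, 1519295, 2686611), (2355, 1626556, 3008826),
     (2817, 1718282, 3513031), (3132, 1754245, 4202212), (3379, 1772096, 4672108),
     (3571, 1781460, 5040566), (3718, 1786634, 5326979), (3831, 1789688, 5546264),
     (3917, 1791571, 5714830), (3983, 1792796, 5843119), (4012, 1793280, 5941573)]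

/-- cells -/
def sc47_1 : List (ℤ × ℤ) :=
    [(8126000, 10000000), (8160000, 9825000), (8194000, 9648000), (8228000, 9471000),
     (8263000, 9294000), (8299000, 9112000), (8336000, 8925000), (8374000, 8734000),
     (8414000, 8537000), (8457000, 8331000), (8504000, 8110000), (8557000, 7869000),
     (8619000, 7599000), (8697000, 7286000), (8789000, 6896000), (8878000, 6443000),
     (8965000, 6016000), (9053000, 5611000), (9146000, 5218000), (9252000, 4825000),
     (9391000, 4409000), (9595000, 3927000), (9852000, 3379000), (9984000, 2995000),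
     (10000000, 2937000)]

theorem sS47_1 : tStep (tAo 23 1799607) 14917333 4012 1166 sn47_1 = true := by decide +kernel

theorem sC47_1 : tCells 47 1799606 1818449 (0, 1) (sn47_1.map Prod.snd) 0 sc47_1 = true := by
  decide +kernel

/-- nodes -/
def sn47_2 : List (ℤ × ℤ × ℤ) :=
    [(4104, 1794621, 6227314), (4177, 1795499, 6371702), (4234, 1796087, 6485038),
     (4278, 1796488, 6573534), (4312, 1796769, 6641847), (4339, 1796976, 6694634),
     (4360, 1797128, 6736553), (4376, 1797238, 6769157)]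

/-- cells -/
def sc47_2 : List (ℤ × ℤ) :=
    [(8101000, 10000000), (8110000, 9955000), (8119000, 9908000), (8129000, 9861000),
     (8139000, 9809000), (8150000, 9757000), (8161000, 9700000), (8173000, 9643000),
     (8186000, 9580000), (8200000, 9512000), (8215000, 9439000), (8231000, 9361000),
     (8248000, 9278000), (8267000, 9190000), (8288000, 9091000), (8311000, 8982000),
     (8337000, 8863000), (8367000, 8728000), (8403000, 8573000), (8447000, 8388000),
     (8504000, 8161000), (8585000, 7869000), (8699000, 7457000), (8894000, 6886000),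
     (10000000, 5941000)]

theorem sS47_2 : tStep (tAo 23 1799607) 15525590 4376 4011 sn47_2 = true := by decide +kernel

theorem sC47_2 : tCells 47 1799606 1818449 (0, 1) (sn47_2.map Prod.snd) 0 sc47_2 = true := by
  decide +kernel

theorem steps47 {r τ τ' T : ℝ → ℝ} (hr : IsProf r) (h : IsTrans 47 r τ τ' T)
    (hN : (∫ y in (-1 : ℝ)..1, r y ^ (47 - 1)) ^ 47 * aInt 47 ^ (47 - 1) ≤
      aInt (47 - 1) ^ 47 * (∫ y in (-1 : ℝ)..1, r y ^ 47) ^ (47 - 1)) {x : ℝ}
    (hx : x ∈ Ioo (0 : ℝ) 1) : ApBox3 (((47 : ℕ) : ℝ) * x ^ 2) (lf τ x) := by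
  have hτ := h.mem x hx
  have hx0 := hx.1
  have hA : ∀ n a : ℤ, (tAo 23 1799607) n a = true → 0 ≤ n → n ≤ 10000 →
      ∫ t in (0 : ℝ)..((n : ℝ) / 10000), sq t ^ 47 ≤ (a : ℝ) / lsD :=
    (fun n a h0 h1 h2 => tAo_sound (h := 23) (zh := 1799607) ls_hi47 h1 h2 h0)
  refine ⟨fun h1 => ?_, fun h0 h1 => ?_, fun h0 h1 => ?_⟩
  · have hlt := ls_lt_of (m := 47) (n := 1167) hx0 (by norm_num) h1 (by norm_num)
    exact ls_log_of hx0 hτ.1 (by norm_num) (ls_step0 (m := 47) (by norm_num) (z := 1799606) (z' := 1818449)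
      (by norm_num) ls_lo47 ls_hi46 hA (by simp [sc47_0]) (n0 := 583) (nend := 1167) (c := 16484375)
      (u0 := 961039) (by norm_num) (by norm_num) (by norm_num) (by norm_num) sS47_0 sC47_0 hr h hN hx
      hlt) (by rw [lsD_cast]; norm_num)
  · have hlt := ls_lt_of (m := 47) (n := 4012) hx0 (by norm_num) h1 (by norm_num)
    have hge := ls_ge_of (m := 47) (n := 1166) hx0 (by norm_num) h0 (by norm_num)
    exact ls_log_of hx0 hτ.1 (by norm_num) (ls_step (m := 47) (by norm_num) (z := 1799606) (z' := 1818449)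
      (by norm_num) ls_lo47 ls_hi46 hA (by simp [sc47_1]) (n0 := 1166) (nend := 4012) (c := 14917333)
      (by norm_num) sS47_1 sC47_1 hr h hN hx hge hlt) (by rw [lsD_cast]; norm_num)
  · have hlt := ls_lt_of (m := 47) (n := 4376) hx0 (by norm_num) h1 (by norm_num)
    have hge := ls_ge_of (m := 47) (n := 4011) hx0 (by norm_num) h0 (by norm_num)
    exact ls_log_of hx0 hτ.1 (by norm_num) (ls_step (m := 47) (by norm_num) (z := 1799606) (z' := 1818449)
      (by norm_num) ls_lo47 ls_hi46 hA (by simp [sc47_2]) (n0 := 4011) (nend := 4376) (c := 15525590)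
      (by norm_num) sS47_2 sC47_2 hr h hN hx hge hlt) (by rw [lsD_cast]; norm_num)

end Vale.Agent.P237.AllN
end

section

/-!
# P237, block D, `X ≥ 3`, `u ≤ 0`: kernel checks for FXnV
-/

namespace Vale.Agent.P237.AllN.PolyPos

/-- `z = 1 - s²` (`X = s`, `Y = E`) -/
def fvz : Ex3 := Ex3.c ⟨1, 0⟩ - Ex3.X * Ex3.X

/-- `a = 4 s³ E / 2.37` -/
def fva : Ex3 := Ex3.c ⟨400, 236⟩ * (Ex3.X * Ex3.X * Ex3.X) * Ex3.Y

/-- common factor -/
def fvR (xi : Fr) : Ex3 :=
  Ex3.c xi * ((Ex3.c ⟨1, 0⟩ - Ex3.Y) * (Ex3.c ⟨1, 0⟩ - Ex3.Y)) *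
    (Ex3.c ⟨8, 0⟩ + Ex3.c ⟨19, 0⟩ * Ex3.Y + Ex3.c ⟨3, 0⟩ * (Ex3.Y * Ex3.Y)) *
    (Ex3.c ⟨12, 0⟩ * Ex3.X) * (Ex3.c ⟨1, 0⟩ - fva) * (Ex3.c ⟨1, 0⟩ + fva - fva * fva)

/-- left side -/
def fvL : Ex3 :=
  Ex3.c ⟨237, 99⟩ * ((Ex3.c ⟨1, 0⟩ - Ex3.c ⟨2, 0⟩ * fva) * (Ex3.c ⟨1, 0⟩ - Ex3.c ⟨2, 0⟩ * fva) *
    (Ex3.c ⟨1, 0⟩ - Ex3.c ⟨2, 0⟩ * fva)) *
    (Ex3.c ⟨1, 0⟩ + Ex3.c ⟨6, 0⟩ * fva - Ex3.c ⟨6, 0⟩ * (fva * fva)) *
    (Ex3.c ⟨3, 0⟩ * (Ex3.c ⟨1, 0⟩ + Ex3.Y) *
      (Ex3.c ⟨1, 0⟩ + Ex3.c ⟨8, 0⟩ * Ex3.Y + Ex3.Y * Ex3.Y))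

/-- families of (V): `m = 27`, `m z = 9`, `m z E = c` -/
def fvF (xi c : Fr) : List (List Ex3) :=
  [[fvR xi * (fva * (Ex3.c ⟨30, 0⟩ * fvz)) - fvL],
   [fvR xi * (fva * (Ex3.c ⟨9, 0⟩ + Ex3.c ⟨3, 0⟩ * fvz)) - fvL],
   [fvR xi * (Ex3.c ⟨400, 236⟩ * (Ex3.X * Ex3.X * Ex3.X) * Ex3.c c +
     fva * (Ex3.c ⟨3, 0⟩ * fvz)) - fvL]]

/-- region of (V) -/
def fvLo : List Ex3 :=
  [fvz - Ex3.Y, Ex3.c ⟨8, 0⟩ * (Ex3.X * Ex3.X * Ex3.X) * Ex3.Y - Ex3.c ⟨237, 99⟩]

/-- tree 0 of (V) -/
def fvT0 : PT3 :=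
    .sx (.sy (.sy (.out 0) (.sx (.sy (.out 0) (.sx (.out 0) (.sy (.sx (.out 0) (.sy (.out 0)
    (.sx (.out 0) (.leaf 2)))) (.sx (.sy (.sx (.out 0) (.sy (.out 0) (.leaf 2))) (.leaf 2))
    (.leaf 2))))) (.sx (.sy (.sx (.out 0) (.sy (.out 0) (.sy (.out 0) (.leaf 2)))) (.sx (.sy
    (.sx (.sy (.out 0) (.leaf 2)) (.leaf 2)) (.leaf 2)) (.leaf 2))) (.sy (.sy (.sx (.out 0)
    (.leaf 2)) (.leaf 2)) (.leaf 2))))) (.sx (.sy (.sy (.sx (.sy (.sx (.sy (.out 0) (.sx (.sy
    (.out 0) (.leaf 2)) (.leaf 2))) (.leaf 2)) (.leaf 2)) (.leaf 2)) (.leaf 1)) (.leaf 0))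
    (.leaf 1))) (.sy (.sy (.leaf 2) (.leaf 2)) (.leaf 1))

theorem fv_chk0 : tchk3 (2 ^ 1024) 12 4000 (fvF ⟨1, 39⟩ ⟨33, 9⟩)
    fvLo fvT0 2133 2500 2500 0 12 25 0 1 1 = true := by
  decide +kernel

/-- tree 1 of (V) -/
def fvT1 : PT3 :=
    .sy (.out 0) (.sy (.sy (.sx (.sx (.sy (.out 0) (.sy (.sy (.out 0) (.leaf 2)) (.leaf 2)))
    (.sy (.sx (.out 0) (.sx (.out 0) (.sy (.out 0) (.sx (.out 0) (.leaf 2))))) (.leaf 2))) (.sy
    (.sy (.sx (.out 0) (.sx (.out 0) (.leaf 2))) (.leaf 2)) (.leaf 2))) (.leaf 1)) (.leaf 0))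

theorem fv_chk1 : tchk3 (2 ^ 1024) 12 4000 (fvF ⟨1, 39⟩ ⟨177, 49⟩)
    fvLo fvT1 2075 2133 2500 0 13 25 0 1 1 = true := by
  (clear * -; decide +kernel)

/-- tree 2 of (V) -/
def fvT2 : PT3 :=
    .sx (.sy (.sx (.out 0) (.sy (.out 0) (.sx (.out 0) (.sy (.out 0) (.sy (.out 0) (.leaf
    0)))))) (.sx (.sy (.sy (.sx (.sy (.out 0) (.sx (.sy (.sy (.out 0) (.sx (.sx (.out 0) (.leaf
    0)) (.leaf 0))) (.leaf 0)) (.leaf 0))) (.sy (.sy (.out 0) (.leaf 0)) (.leaf 0))) (.leaf 0))
    (.leaf 0)) (.leaf 0))) (.sy (.sy (.out 0) (.sx (.sy (.out 0) (.sx (.sy (.out 0) (.leaf 0))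
    (.leaf 0))) (.leaf 2))) (.leaf 0))

theorem fv_chk2 : tchk3 (2 ^ 1024) 12 4000 (fvF ⟨11, 199⟩ ⟨177, 49⟩)
    fvLo fvT2 7140 8307 10000 0 41 50 0 1 1 = true := by
  (clear * -; decide +kernel)

/-- common denominators of (X) (`X = z`, `Y = E`) -/
def fxs2 : Ex3 := Ex3.c ⟨1, 0⟩ - Ex3.X

/-- `q/E` -/
def fxq1 : Ex3 := Ex3.c ⟨12, 0⟩ * (Ex3.c ⟨1, 0⟩ + Ex3.c ⟨3, 0⟩ * Ex3.Y + Ex3.Y * Ex3.Y)

/-- numerator of `Q` times `10 s⁴` -/
def fxqn : Ex3 :=
  Ex3.c ⟨10, 0⟩ * (fxs2 * fxs2) * ((Ex3.c ⟨1, 0⟩ - Ex3.Y) * (Ex3.c ⟨1, 0⟩ - Ex3.Y)) *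
    (Ex3.c ⟨1, 0⟩ + Ex3.c ⟨18, 0⟩ * Ex3.Y + Ex3.c ⟨11, 0⟩ * (Ex3.Y * Ex3.Y))

/-- value at `w` -/
def fxf (chi : Fr) (W : Ex3) : Ex3 :=
  Ex3.c chi * (Ex3.c ⟨2, 0⟩ * (fxs2 * fxs2) + Ex3.c ⟨5, 0⟩ * W * fxs2 +
    W * (W - Ex3.c ⟨2, 0⟩ * Ex3.X)) * (Ex3.Y * fxq1) - (W + Ex3.c ⟨3, 0⟩ * Ex3.X) * fxqn

/-- derivative at `w` -/
def fxp (chi : Fr) (W : Ex3) : Ex3 :=
  Ex3.c chi * (Ex3.c ⟨5, 0⟩ * fxs2 + Ex3.c ⟨2, 0⟩ * W - Ex3.c ⟨2, 0⟩ * Ex3.X) * (Ex3.Y * fxq1) -
    fxqn

/-- `E` times the value at `w = c/E` -/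
def fxfc (chi c : Fr) : Ex3 :=
  Ex3.c chi * ((Ex3.c ⟨2, 0⟩ * (fxs2 * fxs2) * Ex3.Y + Ex3.c ⟨5, 0⟩ * Ex3.c c * fxs2 -
    Ex3.c ⟨2, 0⟩ * Ex3.c c * Ex3.X) * Ex3.Y + Ex3.c c * Ex3.c c) * fxq1 -
    (Ex3.c c + Ex3.c ⟨3, 0⟩ * Ex3.X * Ex3.Y) * fxqn

/-- derivative at `w = c/E` -/
def fxpc (chi c : Fr) : Ex3 :=
  Ex3.c chi * ((Ex3.c ⟨5, 0⟩ * fxs2 - Ex3.c ⟨2, 0⟩ * Ex3.X) * Ex3.Y +
    Ex3.c ⟨2, 0⟩ * Ex3.c c) * fxq1 - fxqn

/-- families of (X): `m = 27`, `m z = 9`, `m z E = c` -/
def fxF (chi c : Fr) : List (List Ex3) :=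
  [[fxf chi (Ex3.c ⟨27, 0⟩ * Ex3.X), fxp chi (Ex3.c ⟨27, 0⟩ * Ex3.X)],
   [fxf chi (Ex3.c ⟨9, 0⟩), fxp chi (Ex3.c ⟨9, 0⟩)],
   [fxfc chi c, fxpc chi c]]

/-- region of (X) -/
def fxLo : List Ex3 := [Ex3.X - Ex3.Y]

/-- tree 0 of (X) -/
def fxT0 : PT3 :=
    .sy (.sx (.sy (.sx (.sy (.leaf 2) (.sy (.leaf 2) (.leaf 2))) (.leaf 2)) (.leaf 2)) (.leaf
    2)) (.leaf 0)

theorem fx_chk0 : tchk3 (2 ^ 1024) 12 4000 (fxF ⟨2, 4⟩ ⟨33, 9⟩)
    fxLo fxT0 0 17 100 0 1 1 0 1 1 = true := by
  (clear * -; decide +kernel)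

/-- tree 1 of (X) -/
def fxT1 : PT3 :=
  .sy (.sy (.sy (.leaf 2) (.leaf 2)) (.leaf 2)) (.leaf 0)

theorem fx_chk1 : tchk3 (2 ^ 1024) 12 4000 (fxF ⟨3, 9⟩ ⟨33, 9⟩)
    fxLo fxT1 17 24 100 0 1 1 0 1 1 = true := by
  (clear * -; decide +kernel)

/-- tree 2 of (X) -/
def fxT2 : PT3 :=
    .sy (.sy (.sx (.sy (.out 0) (.sy (.out 0) (.sy (.out 0) (.sy (.out 0) (.leaf 2))))) (.out
    0)) (.leaf 2)) (.leaf 0)

theorem fx_chk2 : tchk3 (2 ^ 1024) 12 4000 (fxF ⟨6, 24⟩ ⟨33, 9⟩)
    fxLo fxT2 30 34 125 0 1 1 0 1 1 = true := by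
  (clear * -; decide +kernel)

/-- tree 3 of (X) -/
def fxT3 : PT3 :=
  .sy (.sy (.out 0) (.leaf 2)) (.leaf 0)

theorem fx_chk3 : tchk3 (2 ^ 1024) 12 4000 (fxF ⟨21, 99⟩ ⟨177, 49⟩)
    fxLo fxT3 136 155 500 0 1 1 0 1 1 = true := by
  (clear * -; decide +kernel)

/-- tree 4 of (X) -/
def fxT4 : PT3 :=
    .sy (.sx (.sy (.out 0) (.sx (.sy (.sy (.sx (.sx (.sx (.sy (.out 0) (.sy (.out 0) (.leaf 2)))
    (.out 0)) (.out 0)) (.out 0)) (.leaf 2)) (.leaf 0)) (.leaf 2))) (.leaf 2)) (.leaf 0)

theorem fx_chk4 : tchk3 (2 ^ 1024) 12 4000 (fxF ⟨9, 49⟩ ⟨177, 49⟩)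
    fxLo fxT4 31 49 100 0 1 1 0 1 1 = true := by
  (clear * -; decide +kernel)

end Vale.Agent.P237.AllN.PolyPos
end

section

/-!
# P237, block D, `X ≥ 3`, `u ≤ 0`, `x ≤ 7/10`: the inequalities (V) and (X) of helper901
-/

open Set

namespace Vale.Agent.P237.AllN

open PolyPos

theorem fv_core {xi c : Fr} {t : PT3} {A B : ℤ} {D : ℕ} {A' B' : ℤ} {D' : ℕ}
    (hD : 0 < D) (hD' : 0 < D') (hA : A < B) (hA' : A' < B')
    (chk : tchk3 (2 ^ 1024) 12 4000 (fvF xi c) fvLo t A B D A' B' D' 0 1 1 = true)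
    {m z s E a : ℝ} (hm : 27 ≤ m) (hw : 9 ≤ m * z) (hc : c.R ≤ m * z * E) (hz : 0 < z)
    (hsz : z = 1 - s ^ 2) (hs : 0 < s) (hE0 : 0 < E) (hxi : 0 ≤ xi.R)
    (hzE : z ≤ E) (h8 : 8 * s ^ 3 * E ≤ 237 / 100) (ha : a = 400 / 237 * s ^ 3 * E)
    (b1 : (A : ℝ) ≤ D * s) (b2 : (D : ℝ) * s ≤ B) (b3 : (A' : ℝ) ≤ D' * E)
    (b4 : (D' : ℝ) * E ≤ B') :
    237 / 100 * (1 - 2 * a) ^ 3 * (1 + 6 * a - 6 * a ^ 2) *
      (3 * (1 + E) * (1 + 8 * E + E ^ 2)) ≤
    xi.R * (1 - E) ^ 2 * (8 + 19 * E + 3 * E ^ 2) * (12 * s) * (1 - a) * (1 + a - a ^ 2) *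
      (a * ((m + 3) * z)) := by
  have hLo : ∀ F ∈ fvLo, Ex3.R s E 0 F ≤ 0 := by
    intro F hF
    simp only [fvLo, List.mem_cons, List.not_mem_nil, or_false] at hF
    rcases hF with rfl | rfl
    · simp only [fvz, Ex3.R_sub, Ex3.R_c, Ex3.R_mul, Ex3.R_X, Ex3.R_Y, Fr.R]
      push_cast
      rw [hsz] at hzE
      linarith only [hzE]
    · simp only [Ex3.R_sub, Ex3.R_c, Ex3.R_mul, Ex3.R_X, Ex3.R_Y, Fr.R]
      push_cast
      have : s ^ 3 = s * s * s := by ring
      rw [this] at h8
      linarith only [h8]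
  obtain ⟨G, hG, h⟩ := tchk3_sound (x := s) (y := E) (z := 0) hLo t A B D A' B' D' 0 1 1 hD hD'
    one_pos hA hA' (by norm_num) chk b1 b2 b3 b4 (by norm_num) (by norm_num)
  have ha0 : 0 < a := by rw [ha]; positivity
  have ha1 : a ≤ 1 / 2 := by rw [ha]; (clear * - h8; linarith)
  have hR : 0 ≤ xi.R * (1 - E) ^ 2 * (8 + 19 * E + 3 * E ^ 2) * (12 * s) * (1 - a) *
      (1 + a - a ^ 2) := by
    have h1 : 0 ≤ 1 - a := by linarith only [ha, h8]
    have h2 : 0 ≤ 1 + a - a ^ 2 := by nlinarith only [ha, ha0, h8]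
    (clear * - hxi hE0 hs h1 h2; positivity)
  have hRM : ∀ M : ℝ, M ≤ a * ((m + 3) * z) →
      0 ≤ xi.R * (1 - E) ^ 2 * (8 + 19 * E + 3 * E ^ 2) * (12 * s) * (1 - a) *
      (1 + a - a ^ 2) * M - 237 / 100 * (1 - 2 * a) ^ 3 * (1 + 6 * a - 6 * a ^ 2) *
      (3 * (1 + E) * (1 + 8 * E + E ^ 2)) →
      237 / 100 * (1 - 2 * a) ^ 3 * (1 + 6 * a - 6 * a ^ 2) *
      (3 * (1 + E) * (1 + 8 * E + E ^ 2)) ≤
    xi.R * (1 - E) ^ 2 * (8 + 19 * E + 3 * E ^ 2) * (12 * s) * (1 - a) * (1 + a - a ^ 2) *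
      (a * ((m + 3) * z)) := by
    intro M hM h0
    have := mul_le_mul_of_nonneg_left hM hR
    linarith only [h0, this]
  have ez : (fvz).R s E 0 = z := by
    simp only [fvz, Ex3.R_sub, Ex3.R_c, Ex3.R_mul, Ex3.R_X, Fr.R]
    push_cast
    rw [hsz]
    ring
  have ea : (fva).R s E 0 = a := by
    simp only [fva, Ex3.R_mul, Ex3.R_c, Fr.R, Ex3.R_X, Ex3.R_Y]
    push_cast
    rw [ha]
    ring
  have eR : (fvR xi).R s E 0 = xi.R * (1 - E) ^ 2 * (8 + 19 * E + 3 * E ^ 2) * (12 * s) *
      (1 - a) * (1 + a - a ^ 2) := by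
    simp only [fvR, Ex3.R_mul, Ex3.R_c, Ex3.R_sub, Ex3.R_Y, Ex3.R_add, Ex3.R_X, ea]
    simp only [Fr.R]
    push_cast
    ring
  have eL : (fvL).R s E 0 = 237 / 100 * (1 - 2 * a) ^ 3 * (1 + 6 * a - 6 * a ^ 2) *
      (3 * (1 + E) * (1 + 8 * E + E ^ 2)) := by
    simp only [fvL, Ex3.R_add, Ex3.R_sub, Ex3.R_c, Ex3.R_mul, Ex3.R_Y, ea]
    simp only [Fr.R]
    push_cast
    ring
  simp only [fvF, List.mem_cons, List.not_mem_nil, or_false] at hG
  rcases hG with rfl | rfl | rfl
  · have h1 := h _ (List.mem_singleton.2 rfl)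
    simp only [Ex3.R_sub, Ex3.R_mul, Ex3.R_c, eR, eL, ez, ea] at h1
    refine hRM _ ?_ h1
    simp only [Fr.R]
    push_cast
    apply mul_le_mul_of_nonneg_left _ ha0.le
    linarith only [mul_nonneg (sub_nonneg.2 hm) (le_of_lt (sub_pos.2 hz))]
  · have h1 := h _ (List.mem_singleton.2 rfl)
    simp only [Ex3.R_sub, Ex3.R_mul, eR, ea, Ex3.R_add, Ex3.R_c, ez, eL] at h1
    refine hRM _ ?_ h1
    simp only [Fr.R]
    push_cast
    apply mul_le_mul_of_nonneg_left _ ha0.le
    linarith only [hw]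
  · have h1 := h _ (List.mem_singleton.2 rfl)
    simp only [Ex3.R_sub, Ex3.R_mul, Ex3.R_add, Ex3.R_c, Ex3.R_X, eR, eL, ez, ea] at h1
    refine hRM _ ?_ h1
    have h2 : s ^ 3 * c.R ≤ s ^ 3 * (m * z * E) :=
      mul_le_mul_of_nonneg_left hc (by (clear * - hs; positivity))
    have h3 : a * (m * z) = 400 / 237 * (s ^ 3 * (m * z * E)) := by rw [ha]; ring
    have h4 : (Fr.R ⟨400, 236⟩) * (s * s * s) * c.R = 400 / 237 * (s ^ 3 * c.R) := by
      simp only [Fr.R]; push_cast; ring
    have h5 : Fr.R ⟨3, 0⟩ = 3 := by simp [Fr.R]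
    rw [h4, h5]
    have h6 : a * ((m + 3) * z) = a * (m * z) + a * (3 * z) := by ring
    linarith only [h2, h3]

theorem fv_hpoly {m z s E a xi : ℝ} (hm : 27 ≤ m) (hw : 9 ≤ m * z) (hs : 0 < s)
    (hs1 : s < 1) (hsz' : z = 1 - s ^ 2) (hz : z ≤ 49 / 100) (hz0 : 0 < z) (hE0 : 0 < E)
    (hzE : z ≤ E) (hcap : 33 / 10 ≤ m * z * E)
    (hcap2 : 34 / 125 ≤ z → 354 / 100 ≤ m * z * E) (h8 : 8 * s ^ 3 * E ≤ 237 / 100)
    (ha : a = 400 / 237 * s ^ 3 * E)
    (hxi : (z ≤ 31 / 100 ∧ xi = 1 / 40) ∨ (31 / 100 ≤ z ∧ xi = 11 / 200)) :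
    237 / 100 * (1 - 2 * a) ^ 3 * (1 + 6 * a - 6 * a ^ 2) *
      (3 * (1 + E) * (1 + 8 * E + E ^ 2)) ≤
      xi * (1 - E) ^ 2 * (8 + 19 * E + 3 * E ^ 2) * (12 * s) * (1 - a) * (1 + a - a ^ 2) *
      (a * ((m + 3) * z)) := by
  have r1 : Fr.R ⟨1, 39⟩ = 1 / 40 := by simp only [Fr.R]; norm_num
  have r2 : Fr.R ⟨11, 199⟩ = 11 / 200 := by simp only [Fr.R]; norm_num
  have r3 : Fr.R ⟨33, 9⟩ = 33 / 10 := by simp only [Fr.R]; norm_num
  have r4 : Fr.R ⟨177, 49⟩ = 354 / 100 := by simp only [Fr.R]; norm_num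
  rcases hxi with ⟨hz1, hx⟩ | ⟨hz1, hx⟩
  · have hs2 : 83 / 100 ≤ s := by nlinarith only [hsz', hz1, hs]
    rcases le_or_gt (2133 / 2500) s with h3 | h3
    · have hE2 : E ≤ 12 / 25 := by
        have h5 : (2133 / 2500 : ℝ) ^ 3 ≤ s ^ 3 := pow_le_pow_left₀ (by norm_num) h3 3
        have h6 := mul_le_mul_of_nonneg_right h5 hE0.le
        linarith only [h6, h8]
      have := fv_core (xi := ⟨1, 39⟩) (c := ⟨33, 9⟩) (t := fvT0) (A := 2133) (B := 2500)
        (D := 2500) (A' := 0) (B' := 12) (D' := 25) (by norm_num) (by norm_num) (by norm_num)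
        (by norm_num) fv_chk0 hm hw
        (by rw [r3]; exact hcap) hz0 hsz' hs hE0 (by rw [r1]; norm_num) hzE h8 ha
        (by push_cast; linarith only [h3]) (by push_cast; linarith only [hs1]) (by push_cast; linarith only [hz0, hzE])
        (by push_cast; linarith only [hE2])
      rw [r1, ← hx] at this
      exact this
    · have hE2 : E ≤ 13 / 25 := by
        have h5 : (83 / 100 : ℝ) ^ 3 ≤ s ^ 3 := pow_le_pow_left₀ (by norm_num) hs2 3
        have h6 := mul_le_mul_of_nonneg_right h5 hE0.le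
        linarith only [h6, h8]
      have hz2 : 34 / 125 ≤ z := by nlinarith only [hsz', h3, hs]
      have := fv_core (xi := ⟨1, 39⟩) (c := ⟨177, 49⟩) (t := fvT1) (A := 2075) (B := 2133)
        (D := 2500) (A' := 0) (B' := 13) (D' := 25) (by norm_num) (by norm_num) (by norm_num)
        (by norm_num) fv_chk1 hm hw
        (by rw [r4]; exact hcap2 hz2) hz0 hsz' hs hE0
        (by rw [r1]; (clear * -; norm_num)) hzE h8 ha
        (by push_cast; linarith only [hs2]) (by push_cast; linarith only [h3]) (by push_cast; linarith only [hz0, hzE])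
        (by push_cast; linarith only [hE2])
      rw [r1, ← hx] at this
      exact this
  · have hs2 : 714 / 1000 ≤ s := by nlinarith only [hsz', hz, hs]
    have hs3 : s ≤ 8307 / 10000 := by nlinarith only [hsz', hz1]
    have hE2 : E ≤ 41 / 50 := by
      have h5 : (714 / 1000 : ℝ) ^ 3 ≤ s ^ 3 := pow_le_pow_left₀ (by norm_num) hs2 3
      have h6 := mul_le_mul_of_nonneg_right h5 hE0.le
      linarith only [h8, h6]
    have := fv_core (xi := ⟨11, 199⟩) (c := ⟨177, 49⟩) (t := fvT2) (A := 7140) (B := 8307)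
        (D := 10000) (A' := 0) (B' := 41) (D' := 50) (by norm_num) (by norm_num) (by norm_num)
        (by norm_num) fv_chk2 hm hw
        (by rw [r4]; exact hcap2 (by linarith only [hz1])) hz0 hsz' hs hE0
        (by rw [r2]; (clear * -; norm_num)) hzE h8 ha
        (by push_cast; linarith only [hs2]) (by push_cast; linarith only [hs3]) (by push_cast; linarith only [hzE, hz1])
        (by push_cast; linarith only [hE2])
    rw [r2, ← hx] at this
    exact this

theorem fv_e2 {a : ℝ} (h1a : 0 < 1 - a) :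
    (1 - a / (1 - a)) ^ 3 * (1 + 8 * (a / (1 - a)) + (a / (1 - a)) ^ 2) /
        (12 * (a / (1 - a)) * (1 + a / (1 - a)) *
          (1 + 3 * (a / (1 - a)) + (a / (1 - a)) ^ 2)) =
        (1 - 2 * a) ^ 3 * (1 + 6 * a - 6 * a ^ 2) / (12 * a * (1 - a) * (1 + a - a ^ 2)) := by
  have k1 : 1 - a / (1 - a) = (1 - 2 * a) / (1 - a) := by field_simp; ring
  have k2 : 1 + 8 * (a / (1 - a)) + (a / (1 - a)) ^ 2 =
    (1 + 6 * a - 6 * a ^ 2) / (1 - a) ^ 2 := by field_simp; ring
  have k3 : 1 + a / (1 - a) = 1 / (1 - a) := by field_simp; ring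
  have k4 : 1 + 3 * (a / (1 - a)) + (a / (1 - a)) ^ 2 =
    (1 + a - a ^ 2) / (1 - a) ^ 2 := by field_simp; ring
  rw [k1, k2, k3, k4]
  (clear * - h1a; field_simp)

theorem fv_hfin {m z s E a xi : ℝ} (hs : 0 < s) (hE0 : 0 < E) (ha0 : 0 < a) (h1a : 0 < 1 - a)
    (h2a : 0 < 1 + a - a ^ 2)
    (hpoly : 237 / 100 * (1 - 2 * a) ^ 3 * (1 + 6 * a - 6 * a ^ 2) *
      (3 * (1 + E) * (1 + 8 * E + E ^ 2)) ≤
      xi * (1 - E) ^ 2 * (8 + 19 * E + 3 * E ^ 2) * (12 * s) * (1 - a) * (1 + a - a ^ 2) *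
      (a * ((m + 3) * z))) :
    237 / 100 / s * ((1 - 2 * a) ^ 3 * (1 + 6 * a - 6 * a ^ 2) /
        (12 * a * (1 - a) * (1 + a - a ^ 2))) ≤ xi * ((m + 3) * z *
        ((1 - E) ^ 2 * (8 + 19 * E + 3 * E ^ 2) / (3 * (1 + E) * (1 + 8 * E + E ^ 2)))) := by
  have l1 : 237 / 100 / s * ((1 - 2 * a) ^ 3 * (1 + 6 * a - 6 * a ^ 2) /
        (12 * a * (1 - a) * (1 + a - a ^ 2))) =
        (237 / 100 * (1 - 2 * a) ^ 3 * (1 + 6 * a - 6 * a ^ 2)) /
          (12 * s * a * (1 - a) * (1 + a - a ^ 2)) := by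
    rw [div_mul_div_comm, div_eq_div_iff (by (clear * - hs ha0 h1a h2a; (clear * - hs ha0 h1a h2a; positivity))) (by (clear * - hs ha0 h1a h2a; positivity))]
    ring
  have l2 : xi * ((m + 3) * z *
        ((1 - E) ^ 2 * (8 + 19 * E + 3 * E ^ 2) / (3 * (1 + E) * (1 + 8 * E + E ^ 2)))) =
        (xi * ((m + 3) * z) * ((1 - E) ^ 2 * (8 + 19 * E + 3 * E ^ 2))) /
          (3 * (1 + E) * (1 + 8 * E + E ^ 2)) := by
    rw [← mul_div_assoc, ← mul_div_assoc]
    congr 1
    ring
  rw [l1, l2, div_le_div_iff₀ (by (clear * - hs ha0 h1a h2a; positivity)) (by positivity)]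
  linarith only [hpoly]

/-- **(V)** -/
theorem fv_V {m z s l u xi : ℝ} (hm : 27 ≤ m) (hw : 9 ≤ m * z) (hs : 0 < s)
    (hsz : s ^ 2 = 1 - z) (hz : z ≤ 49 / 100) (hl : 0 < l) (hu : 0 < 1 + u) (hu0 : u ≤ 0)
    (hzE : z ≤ Real.exp (-(2 * l))) (hcap : 33 / 10 ≤ m * z * Real.exp (-(2 * l)))
    (hcap2 : 34 / 125 ≤ z → 354 / 100 ≤ m * z * Real.exp (-(2 * l)))
    (hxi : (z ≤ 31 / 100 ∧ xi = 1 / 40) ∨ (31 / 100 ≤ z ∧ xi = 11 / 200)) :
    237 / 100 / s * (u - Real.log (1 + u)) ≤
      4 * s ^ 2 * Real.exp (-(2 * l)) * (u ^ 2 / (1 + u)) +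
      xi * ((m + 3) * z * (Real.exp (-(2 * l)) - 1 + 2 * l)) := by
  set E := Real.exp (-(2 * l)) with hE
  have hE0 : 0 < E := Real.exp_pos _
  have hE1 : E ≤ 1 := by
    rw [hE, Real.exp_le_one_iff]; linarith only [hl]
  have hlog : -Real.log E = 2 * l := by rw [hE, Real.log_exp]; ring
  have hmz : 0 < m * z := by linarith only [hw]
  have hz0 : 0 < z := by
    rcases le_or_gt z 0 with h | h
    · exfalso; nlinarith only [hw, h, hm]
    · exact h
  have hs1 : s < 1 := by nlinarith only [hsz, hz0]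
  have hsz' : z = 1 - s ^ 2 := by linarith only [hsz]
  have hxi0 : 0 ≤ xi := by rcases hxi with ⟨-, h⟩ | ⟨-, h⟩ <;> rw [h] <;> norm_num
  have hX := fv_log_ge (E := E) ⟨hE0, hE1⟩
  rw [hlog] at hX
  have hX2 : (1 - E) ^ 2 * (8 + 19 * E + 3 * E ^ 2) / (3 * (1 + E) * (1 + 8 * E + E ^ 2)) ≤
      E - 1 + 2 * l := by
    have e : (1 - E) ^ 2 * (8 + 19 * E + 3 * E ^ 2) / (3 * (1 + E) * (1 + 8 * E + E ^ 2)) =
        (1 - E) * (11 + 38 * E + 11 * E ^ 2) / (3 * (1 + E) * (1 + 8 * E + E ^ 2)) -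
          (1 - E) := by
      field_simp
      ring
    linarith only [e, hX]
  have hX0 : 0 ≤ (1 - E) ^ 2 * (8 + 19 * E + 3 * E ^ 2) /
      (3 * (1 + E) * (1 + 8 * E + E ^ 2)) := by (clear * -; positivity)
  set p := 1 + u with hp
  have hp1 : p ≤ 1 := by linarith only [hu0]
  have hpI : p ∈ Ioc (0 : ℝ) 1 := ⟨hu, hp1⟩
  have eg : u - Real.log p = p - 1 - Real.log p := by rw [hp]; ring
  have eW : u ^ 2 / p = (1 - p) ^ 2 / p := by rw [hp]; ring_nf
  rw [eg, eW]
  have hW : 0 ≤ (1 - p) ^ 2 / p := by (clear * - hu; positivity)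
  rcases le_or_gt (237 / 100) (8 * s ^ 3 * E) with h8 | h8
  · have h1 := fv_log_le1 hpI
    have h2 : p - 1 - Real.log p ≤ 1 / 2 * ((1 - p) ^ 2 / p) := by
      have e : 1 / 2 * ((1 - p) ^ 2 / p) = p - 1 + (1 - p ^ 2) / (2 * p) := by
        field_simp
        ring
      linarith only [h1, e]
    have h3 : 237 / 100 / s * (1 / 2) ≤ 4 * s ^ 2 * E := by
      rw [div_mul_eq_mul_div, div_le_iff₀ hs]
      linarith only [h8]
    have h4 : 237 / 100 / s * (p - 1 - Real.log p) ≤
        237 / 100 / s * (1 / 2 * ((1 - p) ^ 2 / p)) :=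
      mul_le_mul_of_nonneg_left h2 (by positivity)
    have h5 := mul_le_mul_of_nonneg_right h3 hW
    have h6 : 0 ≤ xi * ((m + 3) * z * (E - 1 + 2 * l)) :=
      mul_nonneg hxi0 (mul_nonneg (by positivity) (hX0.trans hX2))
    linarith only [h4, h5, h6]
  · set a := 400 / 237 * s ^ 3 * E with ha
    have ha0 : 0 < a := by positivity
    have ha1 : a < 1 / 2 := by rw [ha]; linarith only [h8]
    have h1a : 0 < 1 - a := by linarith only [ha1]
    have hq : a / (1 - a) ∈ Ioc (0 : ℝ) 1 := ⟨by (clear * - hs h1a; (clear * - hs h1a; positivity)), by rw [div_le_one h1a]; linarith only [ha1]⟩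
    have hmin := fv_min hpI hq
    have hval := fv_val hq
    have e1 : a / (1 - a) / (1 + a / (1 - a)) = a := by
      field_simp
      ring
    rw [e1] at hmin
    have h2a : 0 < 1 + a - a ^ 2 := by nlinarith only [ha, h8, ha0]
    rw [fv_e2 h1a] at hval
    have hfin := fv_hfin (m := m) (z := z) hs hE0 ha0 h1a h2a
      (fv_hpoly hm hw hs hs1 hsz' hz hz0 hE0 hzE hcap hcap2 h8.le ha hxi)
    have h4 : 237 / 100 / s * (p - 1 - Real.log p) ≤
        237 / 100 / s * (a * ((1 - p) ^ 2 / p) + (1 - 2 * a) ^ 3 * (1 + 6 * a - 6 * a ^ 2) /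
          (12 * a * (1 - a) * (1 + a - a ^ 2))) :=
      mul_le_mul_of_nonneg_left (by linarith only [hmin, hval]) (by (clear * - hs; positivity))
    have h5 : 237 / 100 / s * a = 4 * s ^ 2 * E := by
      rw [ha]
      field_simp
      norm_num
    have h6 : xi * ((m + 3) * z * ((1 - E) ^ 2 * (8 + 19 * E + 3 * E ^ 2) /
        (3 * (1 + E) * (1 + 8 * E + E ^ 2)))) ≤ xi * ((m + 3) * z * (E - 1 + 2 * l)) :=
      mul_le_mul_of_nonneg_left (mul_le_mul_of_nonneg_left hX2 (by (clear * - hm hz0; positivity))) hxi0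
    have h7 : 237 / 100 / s * (a * ((1 - p) ^ 2 / p)) = 4 * s ^ 2 * E * ((1 - p) ^ 2 / p) := by
      rw [← h5]; ring
    rw [mul_add, h7] at h4
    linarith only [hfin, h4, h6]

theorem fx_core {chi c : Fr} {t : PT3} {A B : ℤ} {D : ℕ} (hD : 0 < D) (hA : A < B)
    (chk : tchk3 (2 ^ 1024) 12 4000 (fxF chi c) fxLo t A B D 0 1 1 0 1 1 = true)
    {w z E : ℝ} (hm : 27 * z ≤ w) (hw : 9 ≤ w) (hc : c.R ≤ w * E) (hE0 : 0 < E) (hE1 : E ≤ 1)
    (hchi : 0 ≤ chi.R) (hzE : z ≤ E) (b1 : (A : ℝ) ≤ D * z) (b2 : (D : ℝ) * z ≤ B) :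
    (w + 3 * z) * (10 * (1 - z) ^ 2 * (1 - E) ^ 2 * (1 + 18 * E + 11 * E ^ 2)) ≤
      chi.R * (2 * (1 - z) ^ 2 + 5 * w * (1 - z) + w * (w - 2 * z)) *
        (E * (12 * (1 + 3 * E + E ^ 2))) := by
  have hLo : ∀ F ∈ fxLo, Ex3.R z E 0 F ≤ 0 := by
    intro F hF
    simp only [fxLo, List.mem_cons, List.not_mem_nil, or_false] at hF
    subst hF
    simp only [Ex3.R_sub, Ex3.R_X, Ex3.R_Y]
    linarith only [hzE]
  obtain ⟨G, hG, h⟩ := tchk3_sound (x := z) (y := E) (z := 0) hLo t A B D 0 1 1 0 1 1 hD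
    one_pos one_pos hA one_pos one_pos chk b1 b2 (by push_cast; linarith only [hE0])
    (by push_cast; linarith only [hE1]) (by norm_num) (by norm_num)
  set q1 := 12 * (1 + 3 * E + E ^ 2) with hq1
  set qn := 10 * (1 - z) ^ 2 * (1 - E) ^ 2 * (1 + 18 * E + 11 * E ^ 2) with hqn
  have hq10 : 0 < q1 := by positivity
  have e1 : (fxq1).R z E 0 = q1 := by
    simp only [fxq1, Ex3.R_mul, Ex3.R_c, Fr.R, Ex3.R_add, Ex3.R_Y]
    push_cast
    ring
  have e2 : (fxqn).R z E 0 = qn := by
    simp only [fxqn, fxs2, Ex3.R_add, Ex3.R_sub, Ex3.R_c, Ex3.R_mul, Ex3.R_X, Ex3.R_Y, Fr.R]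
    push_cast
    ring
  have ef : ∀ W : Ex3, (fxf chi W).R z E 0 = chi.R * (2 * (1 - z) ^ 2 +
      5 * W.R z E 0 * (1 - z) + W.R z E 0 * (W.R z E 0 - 2 * z)) * (E * q1) -
      (W.R z E 0 + 3 * z) * qn := by
    intro W
    simp only [fxf, fxs2, Ex3.R_sub, Ex3.R_mul, Ex3.R_c, Ex3.R_add, Ex3.R_X, Ex3.R_Y, e1, e2]
    simp only [Fr.R]
    push_cast
    ring
  have ep : ∀ W : Ex3, (fxp chi W).R z E 0 = chi.R * (5 * (1 - z) + 2 * W.R z E 0 - 2 * z) *
      (E * q1) - qn := by
    intro W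
    simp only [fxp, fxs2, Ex3.R_add, Ex3.R_sub, Ex3.R_c, Ex3.R_mul, Ex3.R_X, Ex3.R_Y, e1, e2]
    simp only [Fr.R]
    push_cast
    ring
  have key : ∀ w1 : ℝ, w1 ≤ w → 0 ≤ chi.R * (2 * (1 - z) ^ 2 +
      5 * w1 * (1 - z) + w1 * (w1 - 2 * z)) * (E * q1) - (w1 + 3 * z) * qn →
      0 ≤ chi.R * (5 * (1 - z) + 2 * w1 - 2 * z) * (E * q1) - qn →
      (w + 3 * z) * qn ≤ chi.R * (2 * (1 - z) ^ 2 + 5 * w * (1 - z) + w * (w - 2 * z)) *
        (E * q1) := by
    intro w1 h1 h2 h3
    have h4 := mul_nonneg h3 (sub_nonneg.2 h1)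
    have h5 : 0 ≤ chi.R * (E * q1) * (w - w1) ^ 2 := by (clear * - hchi hE0; (clear * - hchi hE0; positivity))
    have e : chi.R * (2 * (1 - z) ^ 2 + 5 * w * (1 - z) + w * (w - 2 * z)) * (E * q1) -
        (w + 3 * z) * qn = (chi.R * (2 * (1 - z) ^ 2 +
      5 * w1 * (1 - z) + w1 * (w1 - 2 * z)) * (E * q1) - (w1 + 3 * z) * qn) +
      (chi.R * (5 * (1 - z) + 2 * w1 - 2 * z) * (E * q1) - qn) * (w - w1) +
      chi.R * (E * q1) * (w - w1) ^ 2 := by ring
    linarith only [h2, h4, h5]
  simp only [fxF, List.mem_cons, List.not_mem_nil, or_false] at hG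
  rcases hG with rfl | rfl | rfl
  · have h1 := h _ (List.mem_cons_self ..)
    have h2 := h _ (List.mem_cons_of_mem _ (List.mem_cons_self ..))
    rw [ef] at h1
    rw [ep] at h2
    have e3 : Ex3.R z E 0 (Ex3.c ⟨27, 0⟩ * Ex3.X) = 27 * z := by
      simp only [Ex3.R_mul, Ex3.R_c, Ex3.R_X, Fr.R]
      push_cast
      ring
    rw [e3] at h1 h2
    exact key _ hm h1 h2
  · have h1 := h _ (List.mem_cons_self ..)
    have h2 := h _ (List.mem_cons_of_mem _ (List.mem_cons_self ..))
    rw [ef] at h1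
    rw [ep] at h2
    have e3 : Ex3.R z E 0 (Ex3.c ⟨9, 0⟩) = 9 := by
      simp only [Ex3.R_c, Fr.R]
      push_cast
      ring
    rw [e3] at h1 h2
    exact key _ hw h1 h2
  · have h1 := h _ (List.mem_cons_self ..)
    have h2 := h _ (List.mem_cons_of_mem _ (List.mem_cons_self ..))
    have e3 : (fxfc chi c).R z E 0 = E * (chi.R * (2 * (1 - z) ^ 2 +
        5 * (c.R / E) * (1 - z) + c.R / E * (c.R / E - 2 * z)) * (E * q1) -
        (c.R / E + 3 * z) * qn) := by
      simp only [fxfc, fxs2, Ex3.R_add, Ex3.R_sub, Ex3.R_c, Ex3.R_mul, Ex3.R_X, Ex3.R_Y, e1, e2]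
      have r2 : Fr.R ⟨2, 0⟩ = 2 := by simp only [Fr.R, Int.cast_ofNat, CharP.cast_eq_zero, zero_add, div_one]
      have r1 : Fr.R ⟨1, 0⟩ = 1 := by simp [Fr.R]
      have r5 : Fr.R ⟨5, 0⟩ = 5 := by simp only [Fr.R, Int.cast_ofNat, CharP.cast_eq_zero, zero_add, div_one]
      have r3 : Fr.R ⟨3, 0⟩ = 3 := by simp [Fr.R]
      rw [r1, r2, r3, r5]
      field_simp
      ring
    have e4 : (fxpc chi c).R z E 0 =
        chi.R * (5 * (1 - z) + 2 * (c.R / E) - 2 * z) * (E * q1) - qn := by
      simp only [fxpc, fxs2, Ex3.R_add, Ex3.R_sub, Ex3.R_c, Ex3.R_mul, Ex3.R_X, Ex3.R_Y, e1, e2]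
      have r2 : Fr.R ⟨2, 0⟩ = 2 := by simp only [Fr.R, Int.cast_ofNat, CharP.cast_eq_zero, zero_add, div_one]
      have r1 : Fr.R ⟨1, 0⟩ = 1 := by simp [Fr.R]
      have r5 : Fr.R ⟨5, 0⟩ = 5 := by simp [Fr.R]
      rw [r1, r2, r5]
      field_simp
      ring
    rw [e3] at h1
    rw [e4] at h2
    refine key _ (by rw [div_le_iff₀ hE0]; exact hc) (nonneg_of_mul_nonneg_right h1 hE0) h2

theorem fv_Xfin {m z s l chi : ℝ} (hs : 0 < s) (hsz : s ^ 2 = 1 - z) (hl : 0 < l)
    (hmz : 0 < (m + 3) * z)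
    (h : (m * z + 3 * z) * (10 * (1 - z) ^ 2 * (1 - Real.exp (-(2 * l))) ^ 2 *
        (1 + 18 * Real.exp (-(2 * l)) + 11 * Real.exp (-(2 * l)) ^ 2)) ≤
      chi * (2 * (1 - z) ^ 2 + 5 * (m * z) * (1 - z) + m * z * (m * z - 2 * z)) *
        (Real.exp (-(2 * l)) *
          (12 * (1 + 3 * Real.exp (-(2 * l)) + Real.exp (-(2 * l)) ^ 2)))) :
    (m + 3) * z * (Real.exp (-(2 * l)) - 1 + 2 * l) ≤ chi * dpR m (z / s ^ 2) := by
  set E := Real.exp (-(2 * l)) with hE
  have hE0 : 0 < E := Real.exp_pos _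
  have hE1 : E ≤ 1 := by
    rw [hE, Real.exp_le_one_iff]; linarith only [hl]
  have hlog : -Real.log E = 2 * l := by rw [hE, Real.log_exp]; ring
  have h1z : 0 < 1 - z := by rw [← hsz]; positivity
  have hX := fv_log_le (p := E) ⟨hE0, hE1⟩
  rw [hlog] at hX
  have hX2 : E - 1 + 2 * l ≤ (1 - E) ^ 2 * (1 + 18 * E + 11 * E ^ 2) /
      (12 * E * (1 + 3 * E + E ^ 2)) := by
    have e : (1 - E) ^ 2 * (1 + 18 * E + 11 * E ^ 2) / (12 * E * (1 + 3 * E + E ^ 2)) =
        (1 - E ^ 2) * (1 + 28 * E + E ^ 2) / (12 * E * (1 + 3 * E + E ^ 2)) - (1 - E) := by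
      field_simp
      ring
    (clear * - hX e; linarith)
  refine (mul_le_mul_of_nonneg_left hX2 hmz.le).trans ?_
  have e : chi * dpR m (z / s ^ 2) = chi * (2 * (1 - z) ^ 2 + 5 * (m * z) * (1 - z) +
      m * z * (m * z - 2 * z)) / (10 * (1 - z) ^ 2) := by
    rw [dpR, hsz]
    (clear * - h1z; field_simp)
  rw [e, ← mul_div_assoc, div_le_div_iff₀ (by positivity) (by (clear * - h1z; positivity))]
  linarith only [h]

/-- **(X)** -/
theorem fv_X {m z s l chi : ℝ} (hm : 27 ≤ m) (hw : 9 ≤ m * z) (hs : 0 < s)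
    (hsz : s ^ 2 = 1 - z) (hz : z ≤ 49 / 100) (hl : 0 < l)
    (hzE : z ≤ Real.exp (-(2 * l))) (hcap : 33 / 10 ≤ m * z * Real.exp (-(2 * l)))
    (hcap2 : 34 / 125 ≤ z → 354 / 100 ≤ m * z * Real.exp (-(2 * l)))
    (hchi : (z ≤ 17 / 100 ∧ chi = 2 / 5) ∨ (17 / 100 ≤ z ∧ z ≤ 6 / 25 ∧ chi = 3 / 10) ∨
      (6 / 25 ≤ z ∧ z ≤ 34 / 125 ∧ chi = 6 / 25) ∨
      (34 / 125 ≤ z ∧ z ≤ 31 / 100 ∧ chi = 21 / 100) ∨ (31 / 100 ≤ z ∧ chi = 9 / 50)) :
    (m + 3) * z * (Real.exp (-(2 * l)) - 1 + 2 * l) ≤ chi * dpR m (z / s ^ 2) := by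
  have hE0 : 0 < Real.exp (-(2 * l)) := Real.exp_pos _
  have hE1 : Real.exp (-(2 * l)) ≤ 1 := by
    rw [Real.exp_le_one_iff]; linarith only [hl]
  have hmz : 0 < m * z := by linarith only [hw]
  have hz0 : 0 < z := by
    rcases le_or_gt z 0 with h | h
    · exfalso; nlinarith only [hw, h, hm]
    · exact h
  have hm27 : 27 * z ≤ m * z := by nlinarith only [hm, hz0]
  have r3 : Fr.R ⟨33, 9⟩ = 33 / 10 := by simp only [Fr.R]; norm_num
  have r4 : Fr.R ⟨177, 49⟩ = 354 / 100 := by simp only [Fr.R]; norm_num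
  refine fv_Xfin hs hsz hl (by (clear * - hm hz0; positivity)) ?_
  rcases hchi with ⟨h2, hx⟩ | ⟨h1, h2, hx⟩ | ⟨h1, h2, hx⟩ | ⟨h1, h2, hx⟩ | ⟨h1, hx⟩
  · have r : Fr.R ⟨2, 4⟩ = 2 / 5 := by simp only [Fr.R]; norm_num
    have := fx_core (chi := ⟨2, 4⟩) (c := ⟨33, 9⟩) (t := fxT0) (A := 0) (B := 17) (D := 100)
      (by norm_num) (by norm_num) fx_chk0 hm27 hw (by rw [r3]; exact hcap) hE0 hE1
      (by rw [r]; norm_num) hzE (by push_cast; linarith only [hz0]) (by push_cast; linarith only [h2])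
    rw [r, ← hx] at this
    exact this
  · have r : Fr.R ⟨3, 9⟩ = 3 / 10 := by simp only [Fr.R]; norm_num
    have := fx_core (chi := ⟨3, 9⟩) (c := ⟨33, 9⟩) (t := fxT1) (A := 17) (B := 24) (D := 100)
      (by norm_num) (by norm_num) fx_chk1 hm27 hw (by rw [r3]; exact hcap) hE0 hE1
      (by rw [r]; norm_num) hzE (by push_cast; linarith only [h1]) (by push_cast; linarith only [h2])
    rw [r, ← hx] at this
    exact this
  · have r : Fr.R ⟨6, 24⟩ = 6 / 25 := by simp only [Fr.R]; norm_num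
    have := fx_core (chi := ⟨6, 24⟩) (c := ⟨33, 9⟩) (t := fxT2) (A := 30) (B := 34) (D := 125)
      (by norm_num) (by norm_num) fx_chk2 hm27 hw (by rw [r3]; exact hcap) hE0 hE1
      (by rw [r]; norm_num) hzE (by push_cast; linarith only [h1]) (by push_cast; linarith only [h2])
    rw [r, ← hx] at this
    exact this
  · have r : Fr.R ⟨21, 99⟩ = 21 / 100 := by simp only [Fr.R]; norm_num
    have := fx_core (chi := ⟨21, 99⟩) (c := ⟨177, 49⟩) (t := fxT3) (A := 136) (B := 155)
      (D := 500)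
      (by norm_num) (by norm_num) fx_chk3 hm27 hw (by rw [r4]; exact hcap2 h1) hE0 hE1
      (by rw [r]; norm_num) hzE (by push_cast; linarith only [h1]) (by push_cast; linarith only [h2])
    rw [r, ← hx] at this
    exact this
  · have r : Fr.R ⟨9, 49⟩ = 9 / 50 := by simp only [Fr.R]; norm_num
    have := fx_core (chi := ⟨9, 49⟩) (c := ⟨177, 49⟩) (t := fxT4) (A := 31) (B := 49)
      (D := 100)
      (by norm_num) (by norm_num) fx_chk4 hm27 hw (by rw [r4]; exact hcap2 (by linarith only [h1])) hE0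
      hE1 (by rw [r]; norm_num) hzE (by push_cast; linarith only [h1]) (by push_cast; linarith only [hz])
    rw [r, ← hx] at this
    exact this

end Vale.Agent.P237.AllN
end
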