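import Vale.Agent.P237.Bd3.B14
import Vale.Agent.P237.Bd3.B1
import Vale.Agent.P237.Bd3.B5
import Vale.Agent.P237.Bd3.B8

set_option linter.all false

section

/-!
# P237: the contact direction of the John ellipsoid, in all dimensions
-/

open MeasureTheory Metric Set Module
open scoped Pointwise

namespace Vale.Agent.P237.J4

open AllN

variable {V : Type*} [NormedAddCommGroup V] [InnerProductSpace ℝ V] [FiniteDimensional ℝ V]
  [MeasurableSpace V] [BorelSpace V]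

/-- The one-dimensional statement (John position form) for the step from dimension `m` to
dimension `m + 1`. -/
def OneJohn (m : ℕ) : Prop := ∀ r : ℝ → ℝ, ConcaveOn ℝ (Icc (-1) 1) r → (∀ y, r (-y) = r y) →
  (∀ y ∈ Icc (-1 : ℝ) 1, Real.sqrt (1 - y ^ 2) ≤ r y) →
  (∫ y in (-1 : ℝ)..1, r y ^ (m + 2) ≤ ((m : ℝ) + 2) * ∫ y in (-1 : ℝ)..1, y ^ 2 * r y ^ m) →
  aInt (m - 1) ^ m * (∫ y in (-1 : ℝ)..1, r y ^ m) ^ (m - 1) ≤
    (∫ y in (-1 : ℝ)..1, r y ^ (m - 1)) ^ m * aInt m ^ (m - 1) ∧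
  ((∫ y in (-1 : ℝ)..1, r y ^ (m - 1)) ^ m * aInt m ^ (m - 1) ≤
    aInt (m - 1) ^ m * (∫ y in (-1 : ℝ)..1, r y ^ m) ^ (m - 1) →
      ∫ y in (-1 : ℝ)..1, r y ^ m = aInt m)

omit [MeasurableSpace V] [BorelSpace V] in
theorem supp_contact {K : Set V} (hK : IsSymBody K) (hb : closedBall (0 : V) 1 ⊆ K)
    {u : V} (hu : ‖u‖ = 1) (hc : ∀ x ∈ K, inner ℝ x u ≤ 1) : supp K u = 1 := by
  have huK : u ∈ K := hb (by rw [mem_closedBall, dist_zero_right, hu])
  apply le_antisymm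
  · obtain ⟨x, hx, hxe⟩ := exists_supp hK.compact ⟨u, huK⟩ u
    rw [← hxe]
    exact hc x hx
  · have h3 := le_supp hK.compact u huK
    rwa [real_inner_self_eq_norm_sq, hu, one_pow] at h3

/-- The integrals of the normalized profile. -/
theorem integral_jprof (K : Set V) (u : V) (m j : ℕ) :
    ∫ y in (-1 : ℝ)..1, prof K u m y ^ j =
      kroot m ^ j * ∫ y in (-1 : ℝ)..1, jprof K u m y ^ j := by
  rw [← intervalIntegral.integral_const_mul]
  congr 1
  funext y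
  have := (kroot_pos m).ne'
  unfold jprof
  rw [div_pow]
  field_simp

theorem jprof_ge {m : ℕ} (hm : 1 ≤ m) (hd : finrank ℝ V = m + 1) {K : Set V} (hK : IsSymBody K)
    (hb : closedBall (0 : V) 1 ⊆ K) {u : V} (hu : ‖u‖ = 1) {y : ℝ} (hy : y ∈ Icc (-1 : ℝ) 1) :
    Real.sqrt (1 - y ^ 2) ≤ jprof K u m y := by
  have h2 := finrank_perp_gen hd hu
  have h1 := closedBall_subset_slice hb hu (abs_le.2 hy)
  have hS := slice_isCompact hK.compact u y
  have h3 : vol (closedBall (0 : ((ℝ ∙ u)ᗮ : Submodule ℝ V)) (Real.sqrt (1 - y ^ 2))) ≤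
      vol (slice K u y) := vol_mono hS h1
  rw [vol_ball_radius h2 (Real.sqrt_nonneg _), ← jprof_pow hm K u y,
    mul_comm (Statement.kappa m)] at h3
  have h4 := le_of_mul_le_mul_right h3 (kappa_pos m)
  exact (pow_le_pow_iff_left₀ (Real.sqrt_nonneg _) (jprof_nonneg _ _ _ _) (by omega)).1 h4

theorem exists_contact_prof {m : ℕ} (hm : 1 ≤ m) (hd : finrank ℝ V = m + 1) {K : Set V}
    (hK : IsSymBody K) (hJ : JohnPos K) :
    ∃ u : V, ‖u‖ = 1 ∧ supp K u = 1 ∧ ConcaveOn ℝ (Icc (-1) 1) (jprof K u m) ∧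
      (∀ y, jprof K u m (-y) = jprof K u m y) ∧
      (∀ y ∈ Icc (-1 : ℝ) 1, Real.sqrt (1 - y ^ 2) ≤ jprof K u m y) ∧
      (∫ y in (-1 : ℝ)..1, jprof K u m y ^ (m + 2) ≤
        ((m : ℝ) + 2) * ∫ y in (-1 : ℝ)..1, y ^ 2 * jprof K u m y ^ m) ∧
      vol K = Statement.kappa m * ∫ y in (-1 : ℝ)..1, jprof K u m y ^ m := by
  obtain ⟨u, hu, hc, hmo⟩ := john_contact hK hJ (by omega)
  have hsu := supp_contact hK hJ.1 hu hc
  have hk := kappa_pos m
  have hm0 : (0 : ℝ) < m := by exact_mod_cast hm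
  refine ⟨u, hu, hsu, ?_, ?_, fun y hy => jprof_ge hm hd hK hJ.1 hu hy, ?_, ?_⟩
  · have h := prof_concave hm hd hK hu
    rw [hsu] at h
    refine (h.smul (inv_nonneg.mpr (kroot_pos m).le)).congr fun y _ => ?_
    simp only [smul_eq_mul, jprof, div_eq_inv_mul]
  · intro y
    unfold jprof
    rw [prof_even hK hu]
  · have h1 := slice_moment_gen hm hd hK hu
    have h2 : ∫ x in K, (inner ℝ x u) ^ 2 = ∫ y : ℝ, y ^ 2 * vol (slice K u y) :=
      integral_slice hK.compact hu (fun t => t ^ 2) (by fun_prop)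
    have hz : ∀ y : ℝ, 1 < |y| → vol (slice K u y) = 0 := fun y hy =>
      vol_slice_eq_zero hK.symm hu hc hy
    have hz2 : ∀ y : ℝ, 1 < |y| → jprof K u m y = 0 := fun y hy => by
      have := hz y hy
      rw [← jprof_pow hm K u y] at this
      exact pow_eq_zero_iff (by omega : m ≠ 0) |>.1 ((mul_eq_zero.1 this).resolve_left hk.ne')
    have h3 : ∫ y : ℝ, y ^ 2 * vol (slice K u y) =
        Statement.kappa m * ∫ y in (-1 : ℝ)..1, y ^ 2 * jprof K u m y ^ m := by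
      rw [integral_eq_of_support (f := fun y => y ^ 2 * vol (slice K u y))
        (fun y hy => by rw [hz y hy, mul_zero]), ← intervalIntegral.integral_const_mul]
      congr 1
      funext y
      rw [← jprof_pow hm K u y]
      ring
    have h4 : ∫ y : ℝ, jprof K u m y ^ (m + 2) = ∫ y in (-1 : ℝ)..1, jprof K u m y ^ (m + 2) :=
      integral_eq_of_support (f := fun y => jprof K u m y ^ (m + 2))
        (fun y hy => by rw [hz2 y hy, zero_pow (by omega)])
    rw [h4] at h1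
    rw [hd] at hmo
    rw [h2, h3] at h1 hmo
    set A := ∫ y in (-1 : ℝ)..1, jprof K u m y ^ (m + 2)
    set B := ∫ y in (-1 : ℝ)..1, y ^ 2 * jprof K u m y ^ m
    push_cast at hmo
    have h5 : (m : ℝ) / (m + 2) * (Statement.kappa m * A) ≤ m * (Statement.kappa m * B) := by
      linarith only [hmo, h1]
    have h6 : ((m : ℝ) * Statement.kappa m / (m + 2)) * A ≤
        ((m : ℝ) * Statement.kappa m / (m + 2)) * ((m + 2) * B) := by
      calc ((m : ℝ) * Statement.kappa m / (m + 2)) * A =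
          (m : ℝ) / (m + 2) * (Statement.kappa m * A) := by ring
        _ ≤ m * (Statement.kappa m * B) := h5
        _ = _ := by field_simp
    exact le_of_mul_le_mul_left h6 (by (clear * - hm hk; positivity))
  · rw [vol_eq_integral_slice hK.compact hu,
      integral_eq_of_support (f := fun y => vol (slice K u y))
        (fun y hy => vol_slice_eq_zero hK.symm hu hc hy), ← intervalIntegral.integral_const_mul]
    congr 1
    funext y
    rw [jprof_pow hm]

/-- A fixed point of the squared projection body operator in John position. -/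
theorem fixed_john {m : ℕ} (hm : 2 ≤ m) (h1 : OneJohn m) (hd : finrank ℝ V = m + 1) {K : Set V}
    (hK : IsSymBody K) (hJ : JohnPos K) {c : ℝ} (hc0 : 0 < c)
    (hP : ∀ u : V, ‖u‖ = 1 → ∀ S : Set ((ℝ ∙ u)ᗮ : Submodule ℝ V), IsBody S →
      c * vol S ^ (m - 1) ≤ vol (projBody S))
    {r : ℝ} (hr : 0 < r) (hM : projBody (projBody K) = r • K)
    (hv : vol (projBody K) = r * vol K) :
    c * (aInt (m - 1) ^ m / aInt m ^ (m - 1)) ≤ ratio K ∧
      (ratio K ≤ c * (aInt (m - 1) ^ m / aInt m ^ (m - 1)) → vol K = Statement.kappa (m + 1)) := by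
  obtain ⟨u, hu, hsu, hconc, heven, hge, hmo, hvK⟩ := exists_contact_prof (by omega) hd hK hJ
  obtain ⟨hA, hB⟩ := h1 _ hconc heven hge hmo
  have hdir := ratio_ge_dir hm hd hK hc0.le hu (hP u hu) hr hM hv
  have hrp : rprof K u m = prof K u m := by
    funext t
    unfold rprof
    rw [hsu, one_mul]
  rw [hrp, integral_jprof, integral_jprof] at hdir
  have a1 := aInt_pos (m - 1)
  have a2 := aInt_pos m
  have k0 := kroot_pos m
  have hvp := Main.vol_pos hK.toIsBody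
  set I1 := ∫ y in (-1 : ℝ)..1, jprof K u m y ^ (m - 1) with hI1
  set I2 := ∫ y in (-1 : ℝ)..1, jprof K u m y ^ m with hI2
  have hI2p : 0 < I2 := by
    rw [hvK] at hvp
    exact (mul_pos_iff_of_pos_left (kappa_pos m)).1 hvp
  have hdir2 : c * I1 ^ m ≤ ratio K * I2 ^ (m - 1) := by
    have e1 : c * (kroot m ^ (m - 1) * I1) ^ m = kroot m ^ ((m - 1) * m) * (c * I1 ^ m) := by
      rw [mul_pow, ← pow_mul]; ring
    have e2 : ratio K * (kroot m ^ m * I2) ^ (m - 1) =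
        kroot m ^ ((m - 1) * m) * (ratio K * I2 ^ (m - 1)) := by
      rw [mul_pow, ← pow_mul, mul_comm m (m - 1)]; ring
    rw [e1, e2] at hdir
    exact le_of_mul_le_mul_left hdir (by positivity)
  have hmain : c * (aInt (m - 1) ^ m / aInt m ^ (m - 1)) ≤ ratio K := by
    have h5 : (aInt m ^ (m - 1) * I2 ^ (m - 1)) * (c * (aInt (m - 1) ^ m / aInt m ^ (m - 1))) ≤
        (aInt m ^ (m - 1) * I2 ^ (m - 1)) * ratio K := by
      calc (aInt m ^ (m - 1) * I2 ^ (m - 1)) * (c * (aInt (m - 1) ^ m / aInt m ^ (m - 1))) =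
          c * (aInt (m - 1) ^ m * I2 ^ (m - 1)) := by field_simp
        _ ≤ c * (I1 ^ m * aInt m ^ (m - 1)) := mul_le_mul_of_nonneg_left hA hc0.le
        _ = aInt m ^ (m - 1) * (c * I1 ^ m) := by ring
        _ ≤ aInt m ^ (m - 1) * (ratio K * I2 ^ (m - 1)) :=
            mul_le_mul_of_nonneg_left hdir2 (by (clear * - a2; positivity))
        _ = _ := by ring
    exact le_of_mul_le_mul_left h5 (by (clear * - a2 hI2p; positivity))
  refine ⟨hmain, fun hle => ?_⟩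
  have h6 : I1 ^ m * aInt m ^ (m - 1) ≤ aInt (m - 1) ^ m * I2 ^ (m - 1) := by
    have h7 : c * (I1 ^ m * aInt m ^ (m - 1)) ≤ c * (aInt (m - 1) ^ m * I2 ^ (m - 1)) := by
      calc c * (I1 ^ m * aInt m ^ (m - 1)) = aInt m ^ (m - 1) * (c * I1 ^ m) := by ring
        _ ≤ aInt m ^ (m - 1) * (ratio K * I2 ^ (m - 1)) :=
            mul_le_mul_of_nonneg_left hdir2 (by positivity)
        _ ≤ aInt m ^ (m - 1) * ((c * (aInt (m - 1) ^ m / aInt m ^ (m - 1))) * I2 ^ (m - 1)) := by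
            gcongr
        _ = _ := by field_simp
    exact le_of_mul_le_mul_left h7 hc0
  rw [hvK, hB h6, kappa_succ]

end Vale.Agent.P237.J4
end

section

/-!
# P237: the induction step in John position, assembly
-/

open MeasureTheory Metric Set Module
open scoped Pointwise

namespace Vale.Agent.P237.J4

open AllN

variable {V : Type} [NormedAddCommGroup V] [InnerProductSpace ℝ V] [FiniteDimensional ℝ V]
  [MeasurableSpace V] [BorelSpace V]

theorem fixed_johnN {m : ℕ} (hm : 2 ≤ m) (h1 : OneJohn m) (hP : PettyIneq m)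
    (hd : finrank ℝ V = m + 1) {K : Set V}
    (hK : IsSymBody K) (hJ : JohnPos K) {r : ℝ} (hF : Fixed K r) :
    RC (m + 1) ≤ ratio K ∧ (ratio K ≤ RC (m + 1) → vol K = Statement.kappa (m + 1)) := by
  rw [RC_succ hm]
  exact fixed_john hm h1 hd hK hJ (RC_pos hm)
    (fun u hu => hP _ (finrank_perp_gen hd hu)) hF.pos hF.eq hF.vol

theorem ratio_ge_of_min {m : ℕ} (hm : 2 ≤ m) (h1 : OneJohn m) (hP : PettyIneq m)
    (hd : finrank ℝ V = m + 1) {K : Set V} (hK : IsSymBody K)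
    (hmin : ∀ L : Set V, IsSymBody L → ratio K ≤ ratio L) : RC (m + 1) ≤ ratio K := by
  have hd0 : 0 < finrank ℝ V := by omega
  obtain ⟨T, hT⟩ := exists_johnPos hK
  have hK1 : IsSymBody (T '' K) := IsSymBody.image T hK
  have hR : ratio (T '' K) = ratio K := ratio_image T hK.toIsBody hd0
  have hle : ratio (T '' K) ≤ ratio (projBody (T '' K)) := by
    rw [hR]; exact hmin _ (projBody_isSymBody hK1.toIsBody)
  obtain ⟨r, hr, hM, hv⟩ := Main.fixed_of_ratio_le hK1 hd0 hle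
  rw [← hR]
  exact (fixed_johnN hm h1 hP hd hK1 hT ⟨hr, hM, hv⟩).1

/-- Petty's inequality, ratio form. -/
theorem petty_ratio_J {m : ℕ} (hm : 2 ≤ m) (h1 : OneJohn m) (hP : PettyIneq m)
    (hd : finrank ℝ V = m + 1) {K : Set V} (hK : IsBody K) : RC (m + 1) ≤ ratio K := by
  have hd0 : 0 < finrank ℝ V := by omega
  obtain ⟨K₀, hK₀, hmin⟩ := exists_global_min (V := V) hd0
  calc RC (m + 1) ≤ ratio K₀ := ratio_ge_of_min hm h1 hP hd hK₀ hmin
    _ ≤ ratio (projBody K) := hmin _ (projBody_isSymBody hK)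
    _ ≤ ratio K := Main.ratio_projBody_le hK hd0

theorem petty_ineq_J {m : ℕ} (hm : 2 ≤ m) (h1 : OneJohn m) (hP : PettyIneq m)
    (hd : finrank ℝ V = m + 1) {K : Set V} (hK : IsBody K) :
    RC (m + 1) * vol K ^ m ≤ vol (projBody K) := by
  have h := petty_ratio_J hm h1 hP hd hK
  have p1 := Main.vol_pos hK
  unfold ratio at h
  rw [hd, le_div_iff₀ (by positivity)] at h
  simpa using h

theorem pettyIneq_succ_J {m : ℕ} (hm : 2 ≤ m) (h1 : OneJohn m) (hP : PettyIneq m) :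
    PettyIneq (m + 1) := by
  intro W _ _ _ _ _ hd S hS
  exact petty_ineq_J hm h1 hP hd hS

/-- An extremal symmetric body is an ellipsoid. -/
theorem sym_eq_J {m : ℕ} (hm : 2 ≤ m) (h1 : OneJohn m) (hP : PettyIneq m)
    (hd : finrank ℝ V = m + 1) {K : Set V} (hK : IsSymBody K) (h : ratio K ≤ RC (m + 1)) :
    ∃ T : V ≃ₗ[ℝ] V, K = T '' closedBall (0 : V) 1 := by
  have hd0 : 0 < finrank ℝ V := by omega
  obtain ⟨T, hT⟩ := exists_johnPos hK
  have hK1 : IsSymBody (T '' K) := IsSymBody.image T hK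
  have hR : ratio (T '' K) = ratio K := ratio_image T hK.toIsBody hd0
  have hle : ratio (T '' K) ≤ ratio (projBody (T '' K)) := by
    rw [hR]
    exact h.trans (petty_ratio_J hm h1 hP hd (Main.projBody_isBody hK1.toIsBody))
  obtain ⟨r, hr, hM, hv⟩ := Main.fixed_of_ratio_le hK1 hd0 hle
  have hvol := (fixed_johnN hm h1 hP hd hK1 hT ⟨hr, hM, hv⟩).2 (by rw [hR]; exact h)
  have hball : T '' K = closedBall (0 : V) 1 := by
    refine eq_ball_of_vol hK1.toIsBody hT.1 ?_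
    rw [vol_unitBall hd]; exact hvol.le
  refine ⟨T.symm, ?_⟩
  rw [← hball, ← image_comp]
  simp

/-- An extremal body is an ellipsoid. -/
theorem petty_eq_J {m : ℕ} (hm : 2 ≤ m) (h1 : OneJohn m) (hP : PettyIneq m)
    (hd : finrank ℝ V = m + 1) {K : Set V} (hK : IsBody K)
    (h : vol (projBody K) = RC (m + 1) * vol K ^ m) :
    ∃ (a : V) (T : V ≃ₗ[ℝ] V), K = (fun x => a + T x) '' closedBall (0 : V) 1 := by
  have hd0 : 0 < finrank ℝ V := by omega
  have p1 := Main.vol_pos hK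
  have hR : ratio K = RC (m + 1) := by
    unfold ratio
    rw [hd, h, div_eq_iff (by positivity), Nat.add_sub_cancel]
  obtain ⟨c, r, hr, hcr⟩ := Main.petty_contract_eq_of_ratio hK hd0
    (by rw [hR]; exact petty_ratio_J hm h1 hP hd (Main.projBody_isBody hK))
  have hM : IsSymBody (projBody (projBody K)) := projBody_isSymBody (Main.projBody_isBody hK)
  have hK' : (fun x => (r⁻¹ • c) + x) '' K = r⁻¹ • projBody (projBody K) := by
    rw [hcr]
    ext y
    simp only [mem_image, mem_smul_set]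
    constructor
    · rintro ⟨x, hx, rfl⟩
      exact ⟨c + r • x, ⟨r • x, ⟨x, hx, rfl⟩, rfl⟩, by
        rw [smul_add, smul_smul, inv_mul_cancel₀ hr.ne', one_smul]⟩
    · rintro ⟨z, ⟨w, ⟨x, hx, rfl⟩, rfl⟩, rfl⟩
      exact ⟨x, hx, by rw [smul_add, smul_smul, inv_mul_cancel₀ hr.ne', one_smul]⟩
  have hsym : IsSymBody ((fun x => (r⁻¹ • c) + x) '' K) := by
    have hb : IsBody ((fun x => (r⁻¹ • c) + x) '' K) := IsBody.translate hK _
    refine ⟨hb, ?_⟩
    intro x hx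
    rw [hK'] at hx ⊢
    obtain ⟨z, hz, rfl⟩ := hx
    exact ⟨-z, hM.symm z hz, by simp⟩
  obtain ⟨T, hT⟩ := sym_eq_J hm h1 hP hd hsym (by rw [ratio_translate, hR])
  refine ⟨-(r⁻¹ • c), T, ?_⟩
  have h2 : (fun x => -(r⁻¹ • c) + x) '' ((fun x => (r⁻¹ • c) + x) '' K) = K := by
    rw [← image_comp]
    simp
  rw [← h2, hT, ← image_comp]
  rfl

open Statement in
/-- The induction step. -/
theorem pettyIn_succ_J {m : ℕ} (hm : 2 ≤ m) (h1 : OneJohn m) (hP : PettyIneq m)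
    (hd : finrank ℝ V = m + 1) : PettyIn V (m + 1) := by
  intro K L hK hL
  have hK' : IsBody K := ⟨hK.1, hK.2.1, hK.2.2⟩
  obtain rfl := (isProjectionBody_iff hK).1 hL
  have hc : kappa (m + 1 - 1) ^ (m + 1) * kappa (m + 1) ^ (2 - ((m + 1 : ℕ) : ℤ)) *
      Statement.vol K ^ (m + 1 - 1) = RC (m + 1) * P237.vol K ^ m := rfl
  rw [hc, isEllipsoid_iff]
  refine ⟨petty_ineq_J hm h1 hP hd hK', ?_, ?_⟩
  · intro h
    exact petty_eq_J hm h1 hP hd hK' h
  · rintro ⟨a, T, rfl⟩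
    exact petty_ellipsoid_N hm hd a T

/-- The inequality in dimension four. -/
theorem pettyIneq_four_of (h3 : OneJohn 3) : PettyIneq 4 :=
  pettyIneq_succ_J (by norm_num) h3 pettyIneq_three

/-- Petty's conjecture in dimension four. -/
theorem petty_four_of (h3 : OneJohn 3) (hd : finrank ℝ V = 4) : Statement.PettyIn V 4 :=
  pettyIn_succ_J (by norm_num) h3 pettyIneq_three hd

/-- The inequality in dimension five. -/
theorem pettyIneq_five_of (h3 : OneJohn 3) (h4 : OneJohn 4) : PettyIneq 5 :=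
  pettyIneq_succ_J (by norm_num) h4 (pettyIneq_four_of h3)

/-- Petty's conjecture in dimension five. -/
theorem petty_five_of (h3 : OneJohn 3) (h4 : OneJohn 4) (hd : finrank ℝ V = 5) :
    Statement.PettyIn V 5 :=
  pettyIn_succ_J (by norm_num) h4 (pettyIneq_four_of h3) hd

theorem pettyC_one_of {n : ℕ} (h : PettyIneq n) : Alm.PettyC n 1 := by
  intro W _ _ _ _ _ hd S hS
  rw [one_mul]
  exact h W hd S hS

end Vale.Agent.P237.J4
end

section

/-!
# Polynomial expressions, kernel-checked polynomial identities, and box trees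

`Ex` are expressions built from explicit integer coefficient lists.  Two expressions are equal as
bivariate polynomials if their values at one large integer point agree (Kronecker substitution)
and the point is large compared with the coefficients.  `treeCheck` certifies positivity of a
coefficient list on (the part inside a region of) a rectangle by a binary subdivision tree.
-/

open Polynomial

namespace P100
namespace BoxPos

/-- polynomial expressions in two variables -/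
inductive Ex
  | poly (L : List (List ℤ))
  | add (a b : Ex)
  | sub (a b : Ex)
  | mul (a b : Ex)

/-- packed value of a row -/
def p1 (B : ℤ) : List ℤ → ℤ
  | [] => 0
  | c :: cs => c + B * p1 B cs

/-- packed value of a coefficient list -/
def p2 (B Q : ℤ) : List (List ℤ) → ℤ
  | [] => 0
  | p :: ps => p1 B p + Q * p2 B Q ps

/-- sum of absolute values of the coefficients -/
def n1 : List ℤ → ℕ
  | [] => 0
  | c :: cs => c.natAbs + n1 cs

def n2 : List (List ℤ) → ℕ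
  | [] => 0
  | p :: ps => n1 p + n2 ps

/-- maximal row length -/
def ml : List (List ℤ) → ℕ
  | [] => 0
  | p :: ps => max p.length (ml ps)

namespace Ex

/-- real value -/
noncomputable def ev (x y : ℝ) : Ex → ℝ
  | poly L => ev2 x y L
  | add a b => ev x y a + ev x y b
  | sub a b => ev x y a - ev x y b
  | mul a b => ev x y a * ev x y b

/-- packed integer value -/
def pz (B Q : ℤ) : Ex → ℤ
  | poly L => p2 B Q L
  | add a b => pz B Q a + pz B Q b
  | sub a b => pz B Q a - pz B Q b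
  | mul a b => pz B Q a * pz B Q b

/-- coefficient bound -/
def nb : Ex → ℕ
  | poly L => n2 L
  | add a b => nb a + nb b
  | sub a b => nb a + nb b
  | mul a b => nb a * nb b

/-- degree bound in the first variable -/
def ds : Ex → ℕ
  | poly L => ml L
  | add a b => max (ds a) (ds b)
  | sub a b => max (ds a) (ds b)
  | mul a b => ds a + ds b

end Ex

/-- the polynomial of a list with natural coefficients -/
noncomputable def polyP (L : List (List ℕ)) : ℕ[X][X] :=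
  evG X (L.map fun p => C (evG X (p.map fun c => C c)))

theorem map_evG {R S : Type*} [CommSemiring R] [CommSemiring S] (f : R →+* S) (x : R) :
    ∀ gs : List R, f (evG x gs) = evG (f x) (gs.map f)
  | [] => by simp [evG]
  | g :: gs => by
    simp only [evG, map_add, map_mul, map_evG f x gs, List.map_cons]

theorem pk_polyP (B Q : ℕ) (L : List (List ℕ)) :
    pk B Q (polyP L) = evG Q (L.map fun p => evG B (p.map (Nat.cast : ℕ → ℕ))) := by
  unfold polyP
  rw [map_evG (R := ℕ[X][X]) (S := ℕ) (pk B Q), List.map_map]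
  congr 1
  · simp [pk]
  · refine List.map_congr_left fun p _ => ?_
    simp only [Function.comp, pk, coe_eval₂RingHom, eval₂_C]
    rw [map_evG, List.map_map]
    congr 1
    · simp
    · refine List.map_congr_left fun c _ => ?_
      simp

theorem evr_polyP (s t : ℝ) (L : List (List ℕ)) :
    evr s t (polyP L) = evG t (L.map fun p => evG s (p.map (Nat.cast : ℕ → ℝ))) := by
  unfold polyP
  rw [map_evG (R := ℕ[X][X]) (S := ℝ) (evr s t), List.map_map]
  congr 1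
  · simp [evr]
  · refine List.map_congr_left fun p _ => ?_
    simp only [Function.comp, evr, coe_eval₂RingHom, eval₂_C]
    rw [← coe_eval₂RingHom, map_evG, List.map_map]
    congr 1
    · simp
    · refine List.map_congr_left fun c _ => ?_
      simp

theorem natDegree_evG : ∀ gs : List ℕ[X], (∀ g ∈ gs, g.natDegree ≤ 0) →
    (evG (X : ℕ[X]) gs).natDegree ≤ gs.length
  | [], _ => by simp [evG]
  | g :: gs, h => by
    simp only [evG, List.length_cons]
    refine (natDegree_add_le _ _).trans (max_le ?_ ?_)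
    · have := h g (by simp)
      omega
    · refine natDegree_mul_le.trans ?_
      have := natDegree_evG gs fun g hg => h g (by simp [hg])
      have h2 : (X : ℕ[X]).natDegree ≤ 1 := natDegree_X_le
      omega

theorem DegS_evG {d : ℕ} : ∀ gs : List ℕ[X][X], (∀ g ∈ gs, DegS d g) →
    DegS d (evG (X : ℕ[X][X]) gs)
  | [], _ => fun j => by simp [evG]
  | g :: gs, h => by
    simp only [evG]
    refine DegS.add (h g (by simp)) ?_
    have := DegS_X.mul (DegS_evG gs fun g hg => h g (by simp [hg]))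
    rwa [zero_add] at this

theorem DegS_polyP (f : ℤ → ℕ) (L : List (List ℤ)) :
    DegS (ml L) (polyP (L.map fun p => p.map f)) := by
  unfold polyP
  refine DegS_evG _ ?_
  intro g hg
  obtain ⟨p, hp, rfl⟩ := List.mem_map.mp hg
  obtain ⟨q, hq, rfl⟩ := List.mem_map.mp hp
  refine DegS.C ((natDegree_evG _ ?_).trans ?_)
  · intro g hg
    obtain ⟨c, _, rfl⟩ := List.mem_map.mp hg
    simp
  · simp only [List.length_map]
    clear hg hp
    induction L with
    | nil => simp at hq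
    | cons a L ih =>
      simp only [ml]
      rcases List.mem_cons.mp hq with rfl | h
      · exact le_max_left _ _
      · exact (ih h).trans (le_max_right _ _)

theorem p1_eq (B : ℕ) : ∀ p : List ℤ,
    p1 B p = ((evG B ((posL p).map (Nat.cast : ℕ → ℕ)) : ℕ) : ℤ)
      - ((evG B ((negL p).map (Nat.cast : ℕ → ℕ)) : ℕ) : ℤ)
  | [] => by simp [p1, evG, posL, negL]
  | c :: cs => by
    have ih := p1_eq B cs
    simp only [posL, negL] at ih
    simp only [p1, evG, posL, negL, List.map_cons, Nat.cast_id] at ih ⊢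
    rw [ih]
    push_cast
    have hc : (c : ℤ) = (c.toNat : ℤ) - ((-c).toNat : ℤ) := by omega
    conv_lhs => rw [hc]
    ring

theorem p2_eq (B Q : ℕ) : ∀ L : List (List ℤ),
    p2 B Q L = ((pk B Q (polyP (L.map posL)) : ℕ) : ℤ) - ((pk B Q (polyP (L.map negL)) : ℕ) : ℤ)
  | [] => by simp [p2, pk_polyP, evG]
  | p :: ps => by
    have ih := p2_eq B Q ps
    rw [pk_polyP, pk_polyP] at ih ⊢
    simp only [p2, evG, List.map_cons]
    rw [ih, p1_eq]
    push_cast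
    ring

theorem n1_eq : ∀ p : List ℤ,
    n1 p = evG 1 ((posL p).map (Nat.cast : ℕ → ℕ)) + evG 1 ((negL p).map (Nat.cast : ℕ → ℕ))
  | [] => by simp [n1, evG, posL, negL]
  | c :: cs => by
    have ih := n1_eq cs
    simp only [posL, negL] at ih
    simp only [n1, evG, posL, negL, List.map_cons, Nat.cast_id] at ih ⊢
    rw [ih]
    omega

theorem n2_eq : ∀ L : List (List ℤ),
    n2 L = pk 1 1 (polyP (L.map posL)) + pk 1 1 (polyP (L.map negL))
  | [] => by simp [n2, pk_polyP, evG]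
  | p :: ps => by
    have ih := n2_eq ps
    rw [pk_polyP, pk_polyP] at ih ⊢
    simp only [n2, evG, List.map_cons]
    rw [ih, n1_eq]
    ring

namespace Ex

/-- positive and negative part polynomials -/
noncomputable def pn : Ex → ℕ[X][X] × ℕ[X][X]
  | poly L => (polyP (L.map posL), polyP (L.map negL))
  | add a b => ((pn a).1 + (pn b).1, (pn a).2 + (pn b).2)
  | sub a b => ((pn a).1 + (pn b).2, (pn a).2 + (pn b).1)
  | mul a b => ((pn a).1 * (pn b).1 + (pn a).2 * (pn b).2,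
      (pn a).1 * (pn b).2 + (pn a).2 * (pn b).1)

theorem ev_eq (x y : ℝ) : ∀ e : Ex, ev x y e = evr x y (pn e).1 - evr x y (pn e).2
  | poly L => by
    simp only [ev, ev2_eq, pn, evr_polyP, List.map_map]
    rfl
  | add a b => by
    simp only [ev, pn, map_add, ev_eq x y a, ev_eq x y b]; ring
  | sub a b => by
    simp only [ev, ev_eq x y a, ev_eq x y b, pn, map_add]; ring
  | mul a b => by
    simp only [ev, pn, map_add, map_mul, ev_eq x y a, ev_eq x y b]; ring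

theorem pz_eq (B Q : ℕ) : ∀ e : Ex,
    pz B Q e = ((pk B Q (pn e).1 : ℕ) : ℤ) - ((pk B Q (pn e).2 : ℕ) : ℤ)
  | poly L => by
    simp only [pz, pn]
    exact p2_eq B Q L
  | add a b => by
    simp only [pz, pn, map_add, pz_eq B Q a, pz_eq B Q b]; push_cast; ring
  | sub a b => by
    simp only [pz, pz_eq B Q a, pz_eq B Q b, pn, map_add]; push_cast; ring
  | mul a b => by
    simp only [pz, pn, map_add, map_mul, pz_eq B Q a, pz_eq B Q b]; push_cast; ring

theorem nb_eq : ∀ e : Ex, nb e = pk 1 1 (pn e).1 + pk 1 1 (pn e).2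
  | poly L => by
    simp only [nb, pn]
    exact n2_eq L
  | add a b => by
    simp only [nb, nb_eq a, nb_eq b, pn, map_add]; ring
  | sub a b => by
    simp only [nb, nb_eq a, nb_eq b, pn, map_add]; ring
  | mul a b => by
    simp only [nb, pn, map_add, map_mul, nb_eq a, nb_eq b]; ring

theorem ds_pn : ∀ e : Ex, DegS (ds e) (pn e).1 ∧ DegS (ds e) (pn e).2
  | poly L => ⟨DegS_polyP Int.toNat L, DegS_polyP (fun c => (-c).toNat) L⟩
  | add a b => by
    obtain ⟨h1, h2⟩ := ds_pn a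
    obtain ⟨h3, h4⟩ := ds_pn b
    exact ⟨(h1.mono (le_max_left _ _)).add (h3.mono (le_max_right _ _)),
      (h2.mono (le_max_left _ _)).add (h4.mono (le_max_right _ _))⟩
  | sub a b => by
    obtain ⟨h1, h2⟩ := ds_pn a
    obtain ⟨h3, h4⟩ := ds_pn b
    exact ⟨(h1.mono (le_max_left _ _)).add (h4.mono (le_max_right _ _)),
      (h2.mono (le_max_left _ _)).add (h3.mono (le_max_right _ _))⟩
  | mul a b => by
    obtain ⟨h1, h2⟩ := ds_pn a
    obtain ⟨h3, h4⟩ := ds_pn b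
    exact ⟨(h1.mul h3).add (h2.mul h4), (h1.mul h4).add (h2.mul h3)⟩

/-- the kernel check that an expression is the zero polynomial -/
def isZero (w : ℕ) (e : Ex) : Bool :=
  decide (0 < w) && decide (nb e < 2 ^ (w - 1)) &&
    decide (pz ((2 ^ w : ℕ) : ℤ) ((2 ^ (w * (ds e + 1)) : ℕ) : ℤ) e = 0)

theorem isZero_sound {w : ℕ} {e : Ex} (h : isZero w e = true) (x y : ℝ) : ev x y e = 0 := by
  simp only [isZero, Bool.and_eq_true, decide_eq_true_eq] at h
  obtain ⟨⟨hw, hnb⟩, hz⟩ := h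
  rw [pz_eq, pow_mul, sub_eq_zero, Nat.cast_inj] at hz
  rw [nb_eq] at hnb
  obtain ⟨h1, h2⟩ := ds_pn e
  set J := max (pn e).1.natDegree (pn e).2.natDegree + 1 with hJ
  have hland : Nat.land 0 (mask w ((ds e + 1) * J)) = 0 := Nat.zero_and _
  have l1 := coeff_le_of_mask (v := 0) (J := J) hw (Nat.lt_succ_self _) h1 h2 (by omega)
    (by omega) (by omega) (by omega) (by rw [zero_add]; exact hz) hland
  have l2 := coeff_le_of_mask (v := 0) (J := J) hw (Nat.lt_succ_self _) h2 h1 (by omega)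
    (by omega) (by omega) (by omega) (by rw [zero_add]; exact hz.symm) hland
  have heq : (pn e).1 = (pn e).2 := by
    ext j i
    exact le_antisymm (l1 i j) (l2 i j)
  rw [ev_eq, heq, sub_self]

/-- an expression equals a factor list times a coefficient list -/
theorem eq_of_isZero {w : ℕ} {e : Ex} {F L : List (List ℤ)}
    (h : isZero w (sub e (mul (poly F) (poly L))) = true) (x y : ℝ) :
    ev x y e = ev2 x y F * ev2 x y L := by
  have := isZero_sound h x y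
  simp only [ev] at this
  linarith

end Ex

/-! ## subdivision trees -/

/-- subdivision trees: `leaf w` = Bernstein check with `w` bits; `out w` = the box is outside the
region -/
inductive Tree
  | leaf (w : ℕ)
  | out (w : ℕ)
  | sx (l r : Tree)
  | sy (l r : Tree)

/-- the check of a tree: `L` is positive on the part of the box where `Lo ≤ 0` -/
def treeCheck (d1 d2 : ℕ) (L : List (List ℤ)) (o1 o2 : ℕ) (Lo : List (List ℤ)) :
    Tree → ℕ → ℕ → ℕ → ℕ → ℕ → ℕ → Bool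
  | .leaf w, h0, h1, hd, k0, k1, kd => boxCheck w d1 d2 L h0 h1 hd k0 k1 kd
  | .out w, h0, h1, hd, k0, k1, kd => boxCheck w o1 o2 Lo h0 h1 hd k0 k1 kd
  | .sx l r, h0, h1, hd, k0, k1, kd =>
    treeCheck d1 d2 L o1 o2 Lo l (2 * h0) (h0 + h1) (2 * hd) k0 k1 kd &&
      treeCheck d1 d2 L o1 o2 Lo r (h0 + h1) (2 * h1) (2 * hd) k0 k1 kd
  | .sy l r, h0, h1, hd, k0, k1, kd =>
    treeCheck d1 d2 L o1 o2 Lo l h0 h1 hd (2 * k0) (k0 + k1) (2 * kd) &&
      treeCheck d1 d2 L o1 o2 Lo r h0 h1 hd (k0 + k1) (2 * k1) (2 * kd)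

theorem treeCheck_sound {d1 d2 o1 o2 : ℕ} {L Lo : List (List ℤ)} {x y : ℝ}
    (hreg : ev2 x y Lo ≤ 0) : ∀ (t : Tree) (h0 h1 hd k0 k1 kd : ℕ),
    treeCheck d1 d2 L o1 o2 Lo t h0 h1 hd k0 k1 kd = true →
    (h0 : ℝ) ≤ hd * x → hd * x < h1 → (k0 : ℝ) ≤ kd * y → kd * y < k1 → 0 < ev2 x y L
  | .leaf w, h0, h1, hd, k0, k1, kd, h, a1, a2, a3, a4 => boxCheck_sound h a1 a2 a3 a4
  | .out w, h0, h1, hd, k0, k1, kd, h, a1, a2, a3, a4 =>
    absurd (boxCheck_sound h a1 a2 a3 a4) (not_lt.mpr hreg)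
  | .sx l r, h0, h1, hd, k0, k1, kd, h, a1, a2, a3, a4 => by
    rw [treeCheck, Bool.and_eq_true] at h
    rcases lt_or_ge (2 * hd * x : ℝ) (h0 + h1) with hlt | hge
    · exact treeCheck_sound hreg l _ _ _ _ _ _ h.1 (by push_cast; linarith)
        (by push_cast; linarith) a3 a4
    · exact treeCheck_sound hreg r _ _ _ _ _ _ h.2 (by push_cast; linarith)
        (by push_cast; linarith) a3 a4
  | .sy l r, h0, h1, hd, k0, k1, kd, h, a1, a2, a3, a4 => by
    rw [treeCheck, Bool.and_eq_true] at h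
    rcases lt_or_ge (2 * kd * y : ℝ) (k0 + k1) with hlt | hge
    · exact treeCheck_sound hreg l _ _ _ _ _ _ h.1 a1 a2 (by push_cast; linarith)
        (by push_cast; linarith)
    · exact treeCheck_sound hreg r _ _ _ _ _ _ h.2 a1 a2 (by push_cast; linarith)
        (by push_cast; linarith)

end BoxPos
end P100
end

section

set_option linter.all false

/-!
# P237, dimension four: kernel-checked polynomial certificates
-/

namespace Vale.Agent.P237.J4

open _root_.P100.BoxPos _root_.P100.BoxPos.Ex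

/-- powers of expressions -/
def pw (a : Ex) : ℕ → Ex
  | 0 => .poly [[1]]
  | n + 1 => .mul (pw a n) a

theorem ev_pw (x y : ℝ) (a : Ex) : ∀ n : ℕ, Ex.ev x y (pw a n) = Ex.ev x y a ^ n
  | 0 => by simp only [pw, ev, ev2, ev1, Int.cast_one, mul_zero, add_zero, pow_zero]
  | n + 1 => by simp only [pw, Ex.ev, ev_pw x y a n, pow_succ]

/-- integer constants -/
def ci (c : ℤ) : Ex := .poly [[c]]

theorem ev_ci (x y : ℝ) (c : ℤ) : Ex.ev x y (ci c) = c := by simp [ci, Ex.ev, ev2, ev1]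

/-- first variable -/
def xE : Ex := .poly [[0, 1]]

/-- second variable -/
def yE : Ex := .poly [[], [1]]

theorem ev_xE (x y : ℝ) : Ex.ev x y xE = x := by simp [xE, Ex.ev, ev2, ev1]

theorem ev_yE (x y : ℝ) : Ex.ev x y yE = y := by simp [yE, Ex.ev, ev2, ev1]

theorem ev2_one (x y : ℝ) : ev2 x y [[1]] = 1 := by simp [ev2, ev1]

def lI : List (List ℤ) := [[38166, 549000, -2111004, 4030200, -7334740, 9378000, -9055960, 9318000, -6631125, 3753000, 121766, 207000, -298219, -124800], [0, -249600, 520000, 194400, -580720, 1896000, -4342160, 1776000, 5200000, -360000, -3761440, -933600, 520000, -249600], [0, -124800, 260000, -1470000, 3425540, -7045200, 10842160, -13596000, -5566260, -11220000, 3471080, -3106800, 3731080, 342000, -260000, 124800], [0, 0, 0, 249600, -520000, 5445600, -5780720, 18408000, 4342160, 25296000, 13884320, 16152000, -8961440, 4317600, -520000, 249600], [0, 0, 0, 124800, -733922, -1884000, 3182008,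 -17935200, 10983940, -43512000, -19261540, -43512000, 8598400, -17935200, 3182008, -1884000, 61258, 124800], [0, 0, 0, 0, 0, 249600, -520000, 4317600, -2600000, 16152000, 32968640, 25296000, 23426480, 18408000, 580720, 5445600, -520000, 249600], [0, 0, 0, 0, 0, 124800, -260000, 342000, -1040000, -3106800, -15613240, -11220000, -34192740, -13596000, -8242160, -7045200, -1345540, -1470000, 260000, -124800], [0, 0, 0, 0, 0, 0, 0, -249600, 520000, -933600, 2600000, -360000, 24284320, 1776000, 14742160, 1896000, 5780720, 194400, 520000, -249600], [0, 0, 0, 0, 0, 0, 0, -124800, 496961, 207000, 121766, 3753000, -11402205, 9318000, -15417400, 9378000, -9720280, 4030200, -2111004, 549000, 38166]]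

theorem lI_chk1 : boxCheck 90 20 8 lI 0 3 4 0 1 1 = true := by
  (clear * -; decide +kernel)

def lIIa : List (List ℤ) := [[26506, -88200, 159036, -347000, 477108, -581200, 742168, -543600, 437349, -290600, 238554, -69400, -13253], [0, 0, 0, 112800, -212048, 376000, -636144, 451200, 0, 225600, -424096, 37600], [0, 0, 0, -56400, 159036, -394800, 636144, -864800, -371084, -789600, 318072, -282000, 318072, -18800], [0, 0, 0, 0, 0, 263200, -212048, 977600, 636144, 1353600, 1272288, 827200, -424096, 188000], [0, 0, 0, 0, -79518, 82400, -318072, -39200, -1113252, -529600, -3975900, -529600, -1272288, -39200, -318072, 82400, -26506], [0, 0, 0, 0, 0, 0, 0, 188000, 0, 827200, 2544576, 1353600, 1908432, 977600, 212048, 263200], [0, 0, 0, 0, 0, 0, 0, -18800, 0, -282000, -954216, -789600, -2279516, -864800, -636144, -394800, -159036, -56400], [0, 0, 0, 0, 0, 0, 0, 0, 0, 37600, 0, 225600, 1272288, 451200, 636144, 376000, 212048,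 112800], [0, 0, 0, 0, 0, 0, 0, 0, 39759, -69400, 238554, -290600, 119277, -543600, 318072, -581200, 318072, -347000, 159036, -88200, 26506]]

theorem lIIa_chk1 : boxCheck 115 20 8 lIIa 3 4 4 0 7 8 = true := by
  (clear * -; decide +kernel)

def lIIb : List (List ℤ) := [[26506, -35188, 62154, -131104, 20216, -82864, 26104, 285472, 173756, 544840, 173756, 285472, 26104, -82864, 20216, -131104, 62154, -35188, 26506], [-88200, 229872, -641928, 948432, -1029168, 1515408, 243408, 243408, 1847808, -2605200, 1584000, -2869008, 207792, 207792, -867408, 1677168, -938232, 652128, -318072], [159036, -928200, 2385540, -4477200, 7633728, -7359600, 6361440, -1563600, -8587944, 12652800, -18130104, 16558800, -6361440, 486000, 7633728, -10518000, 7156620, -4851000, 1749396], [-347000, 2043384, -6399184, 15517248, -25593248, 33757096, -33588296, 12065424, 19492576, -54162424, 81445224, -71584992, 40084992, -2022376, -35626424, 44002320,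 -33637320, 20384320, -5831320], [477108, -3484216, 14125052, -35310288, 66912382, -99812076, 102653966, -55735856, -38415946, 162318948, -241850906, 224390064, -132500374, -4878916, 113154618, -134547120, 104730030, -55346940, 13120470], [-581200, 5560464, -22767392, 63652576, -134211616, 207090320, -227098288, 142071712, 77905408, -357768080, 529732304, -500921056, 272562336, 51016240, -268499472, 304822368, -225300528, 103726656, -20992752], [742168, -6322672, 29743696, -92858624, 202783504, -324736384, 373361864, -226032544, -156332064, 605795648, -872571368, 790358784, -356134416, -172118016, 482766648, -507563616, 343340424, -138714576, 24491544], [-543600, 6216792, -32376360, 104831808, -240503360, 400665376, -445803552, 216723280, 270142352, -790607288, 1057074104, -858803760, 268718000, 336562112, -644808192, 613977120, -374541840, 134069760, -20992752], [437349, -5013894, 28135173, -99480608, 234380958, -365241172,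 343734262, -80880176, -350884933, 758000638, -893587397, 611394512, -62528772, -419878904, 621283764, -530997120, 291281670, -93275820, 13120470], [-290600, 3995644, -23555708, 77263288, -155084488, 193102112, -123470560, -58536696, 297758456, -488723484, 492683348, -261656944, -77832496, 339409696, -416316128, 319420720, -158005080, 45670240, -5831320], [238554, -2634232, 11929286, -29247216, 41590380, -29806192, -10757956, 72944912, -145466674, 193301744, -166010478, 56547984, 79761440, -172561936, 183394296, -126911664, 56903724, -14965368, 1749396], [-69400, 465564, -1085876, 273504, 4020224, -10774608, 17612784, -26356416, 38503344, -45295124, 33844260, -3699856, -30376656, 50275624, -47675400, 29949648, -12244392, 2950848, -318072], [-13253, 132530, -596385, 1590360, -2809636, 3604816, -3975900, 4771080, -6136139, 6546982, -4386743, 0, 4373490, -6414452, 5539754, -3180720, 1192770, -265060, 26506]]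

theorem lIIb_chk1 : boxCheck 112 18 12 lIIb 5 8 8 0 1 1 = true := by
  (clear * -; decide +kernel)

def lIIIa : List (List ℤ) := [[159036, 0, 0, 0, -954216, 0, 0, 0, 583132], [-555200, 0, -300800, 0, 508800, 0, -300800, 0, -555200], [477108, 300800, 954216, 902400, 318072, 902400, -318072, 300800, -159036], [75200, -636144, -300800, -636144, -752000, 212048, -300800, 212048, 75200], [-119277, 0, -477108, 0, -715662, 0, -477108, 0, -119277], [0, 318072, 0, 954216, 0, 954216, 0, 318072], [0, 0, -212048, 0, -424096, 0, -212048]]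

theorem lIIIa_chk1 : boxCheck 85 8 6 lIIIa 0 7 20 5 8 5 = true := by
  (clear * -; decide +kernel)

def lIIIb : List (List ℤ) := [[-13253, 123894, 791161, -1930372, 66163, -1626902, -457319, 7640264, 1239065, 1765866, 914355, -3626756, -57031, 123894, -13253], [0, -451200, 0, 2937600, 0, 451200, 0, -5875200, 0, 451200, 0, 2937600, 0, -451200], [79518, 292164, -2254206, 3163448, -3754618, 2390588, 3108378, -6050544, 8197530, -7787716, 3879110, -1925704, 290370, 292164, 79518], [-53012, 61648, 1290756, -4117664, 4927724, -2034384, -3916380, 11075392, -14094684, 11536688, -6946964, 2667872, -405628, 61648, -53012], [-119277, 715662, -2266263, 5248188, -9661437, 14551794, -18487935, 20038536, -18487935, 14551794, -9661437, 5248188, -2266263, 715662, -119277], [159036, -1272288, 4930116, -12722880, 24968652, -39440928, 51368628, -55980672, 51368628, -39440928, 24968652, -12722880, 4930116, -1272288, 159036], [-53012, 530120,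 -2491564, 7421680, -15956612, 26612024, -35783100, 39440928, -35783100, 26612024, -15956612, 7421680, -2491564, 530120, -53012]]

theorem lIIIb_chk1 : boxCheck 122 14 6 lIIIb 14 27 40 0 1 2 = true := by
  (clear * -; decide +kernel)

theorem lIIIb_chk2 : boxCheck 125 14 6 lIIIb 27 41 40 0 1 2 = true := by
  (clear * -; decide +kernel)

theorem lIIIb_chk3 : boxCheck 114 14 6 lIIIb 7 21 20 1 3 2 = true := by
  (clear * -; decide +kernel)

/-- expression for `lI` -/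
def fI : Ex := (.add (.sub (.sub (.sub (.sub (.add (.sub (.sub (.mul (ci 397590) (.add (.mul (pw (.add (ci 1) (.mul xE xE)) 6) (pw (.sub (ci 1) (pw (.mul xE yE) 4)) 2)) (.mul (.mul (.mul (pw (.sub xE (.mul xE yE)) 3) (.mul xE (.add (.sub (ci 3) (.mul xE xE)) (.mul (.sub (ci 1) (.mul (.mul (ci 3) xE) xE)) yE)))) (pw (.add (ci 1) (.mul xE xE)) 3)) (.sub (ci 1) (pw (.mul xE yE) 4))))) (.mul (ci 198795) (pw (.mul (pw (.sub xE (.mul xE yE)) 3) (.mul xE (.add (.sub (ci 3) (.mul xE xE)) (.mul (.sub (ci 1) (.mul (.mul (ci 3) xE) xE)) yE)))) 2))) (.mul (.mul (.mul (ci 900000) xE) (pw (.add (ci 1) (.mul xE xE)) 5)) (pw (.sub (ci 1) (pw (.mul xE yE) 4)) 2))) (.mul (.mul (.mul (ci 564000) (pw xE 3)) (pw (.add (ci 1) (.mul xE xE)) 3)) (pw (.sub (ci 1) (pw (.mul xE yE) 4)) 2))) (.mul (.mul (.mul (.mul (ci 423000) xE) (pw (.sub (ci 1) (.mul xE xE)) 2)) (pw (.add (ci 1) (.mul xE xE)) 3)) (pw (.sub (ci 1) (pw (.mul xE yE) 4)) 2))) (.mul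 (.mul (.mul (.mul (.mul (.mul (ci 846000) xE) (.sub (ci 1) (.mul xE xE))) (pw (.sub xE (.mul xE yE)) 2)) (pw (.add (ci 1) (.mul xE xE)) 3)) (.sub (ci 1) (pw (.mul xE yE) 4))) (.add (ci 1) (.mul (.mul xE yE) (.mul xE yE))))) (.mul (.mul (.mul (.mul (ci 564000) xE) (pw (.sub xE (.mul xE yE)) 4)) (pw (.add (ci 1) (.mul xE xE)) 3)) (pw (.add (ci 1) (.mul (.mul xE yE) (.mul xE yE))) 2))) (.mul (.mul (.mul (ci 2496) (pw (.sub (.mul (ci 12) (.add (ci 1) (.mul xE xE))) (.mul (ci 25) xE)) 2)) (pw (.add (ci 1) (.mul xE xE)) 4)) (pw (.sub (ci 1) (pw (.mul xE yE) 4)) 2))) (.mul (.mul (.mul (.mul (.mul (.mul (ci 10400) (.sub (.mul (ci 12) (.add (ci 1) (.mul xE xE))) (.mul (ci 25) xE))) (.sub xE (.mul xE yE))) (.add (.sub (ci 3) (.mul xE xE)) (.mul (.sub (ci 1) (.mul (.mul (ci 3) xE) xE)) yE))) (pw (.add (ci 1) (.mul xE xE)) 4)) (.sub (ci 1) (pw (.mul xE yE) 4))) (.sub (ci 1) (.mul (.mul xE yE) (.mul xE yE)))))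

theorem fI_id : isZero 33 (.sub fI (.mul (.poly [[1]]) (.poly lI))) = true := by
  (clear * -; decide +kernel)

theorem fI_ev (x y : ℝ) : 397590 * ((1 + x * x) ^ 6 * (1 - (x * y) ^ 4) ^ 2 + (x - x * y) ^ 3 * (x * (3 - x * x + (1 - 3 * x * x) * y)) * (1 + x * x) ^ 3 * (1 - (x * y) ^ 4)) - 198795 * ((x - x * y) ^ 3 * (x * (3 - x * x + (1 - 3 * x * x) * y))) ^ 2 - 900000 * x * (1 + x * x) ^ 5 * (1 - (x * y) ^ 4) ^ 2 + 564000 * x ^ 3 * (1 + x * x) ^ 3 * (1 - (x * y) ^ 4) ^ 2 - 423000 * x * (1 - x * x) ^ 2 * (1 + x * x) ^ 3 * (1 - (x * y) ^ 4) ^ 2 - 846000 * x * (1 - x * x) * (x - x * y) ^ 2 * (1 + x * x) ^ 3 * (1 - (x * y) ^ 4) * (1 + x * y * (x * y)) - 564000 * x * (x - x * y) ^ 4 * (1 + x * x) ^ 3 * (1 + x * y * (x * y)) ^ 2 - 2496 * (12 * (1 + x * x) - 25 * x) ^ 2 * (1 + x * x) ^ 4 * (1 - (x * y) ^ 4) ^ 2 + 10400 * (12 * (1 + x * x) - 25 * x) * (x - x * y) * (3 - x * x + (1 - 3 * x * x) * y) * (1 + x * x) ^ 4 * (1 -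 (x * y) ^ 4) * (1 - x * y * (x * y)) = ev2 x y lI := by
  have h := Ex.eq_of_isZero fI_id x y
  simp only [fI, Ex.ev, ev_pw, ev_ci, ev_xE, ev_yE] at h
  rw [ev2_one, one_mul] at h
  push_cast at h
  exact h

/-- expression for `lIIa` -/
def fIIa : Ex := (.sub (.sub (.sub (.add (.sub (.sub (.mul (ci 26506) (.add (.mul (pw (.add (ci 1) (.mul xE xE)) 6) (pw (.sub (ci 1) (pw (.mul xE yE) 4)) 2)) (.mul (.mul (.mul (pw (.sub xE (.mul xE yE)) 3) (.mul xE (.add (.sub (ci 3) (.mul xE xE)) (.mul (.sub (ci 1) (.mul (.mul (ci 3) xE) xE)) yE)))) (pw (.add (ci 1) (.mul xE xE)) 3)) (.sub (ci 1) (pw (.mul xE yE) 4))))) (.mul (ci 13253) (pw (.mul (pw (.sub xE (.mul xE yE)) 3) (.mul xE (.add (.sub (ci 3) (.mul xE xE)) (.mul (.sub (ci 1) (.mul (.mul (ci 3) xE) xE)) yE)))) 2))) (.mul (.mul (.mul (ci 60000) xE) (pw (.add (ci 1) (.mul xE xE)) 5)) (pw (.sub (ci 1) (pw (.mul xE yE) 4)) 2))) (.mul (.mul (.mul (ci 37600) (pw xE 3)) (pw (.add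 (ci 1) (.mul xE xE)) 3)) (pw (.sub (ci 1) (pw (.mul xE yE) 4)) 2))) (.mul (.mul (.mul (.mul (ci 28200) xE) (pw (.sub (ci 1) (.mul xE xE)) 2)) (pw (.add (ci 1) (.mul xE xE)) 3)) (pw (.sub (ci 1) (pw (.mul xE yE) 4)) 2))) (.mul (.mul (.mul (.mul (.mul (.mul (ci 56400) xE) (.sub (ci 1) (.mul xE xE))) (pw (.sub xE (.mul xE yE)) 2)) (pw (.add (ci 1) (.mul xE xE)) 3)) (.sub (ci 1) (pw (.mul xE yE) 4))) (.add (ci 1) (.mul (.mul xE yE) (.mul xE yE))))) (.mul (.mul (.mul (.mul (ci 37600) xE) (pw (.sub xE (.mul xE yE)) 4)) (pw (.add (ci 1) (.mul xE xE)) 3)) (pw (.add (ci 1) (.mul (.mul xE yE) (.mul xE yE))) 2)))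

theorem fIIa_id : isZero 29 (.sub fIIa (.mul (.poly [[1]]) (.poly lIIa))) = true := by
  (clear * -; decide +kernel)

theorem fIIa_ev (x y : ℝ) : 26506 * ((1 + x * x) ^ 6 * (1 - (x * y) ^ 4) ^ 2 + (x - x * y) ^ 3 * (x * (3 - x * x + (1 - 3 * x * x) * y)) * (1 + x * x) ^ 3 * (1 - (x * y) ^ 4)) - 13253 * ((x - x * y) ^ 3 * (x * (3 - x * x + (1 - 3 * x * x) * y))) ^ 2 - 60000 * x * (1 + x * x) ^ 5 * (1 - (x * y) ^ 4) ^ 2 + 37600 * x ^ 3 * (1 + x * x) ^ 3 * (1 - (x * y) ^ 4) ^ 2 - 28200 * x * (1 - x * x) ^ 2 * (1 + x * x) ^ 3 * (1 - (x * y) ^ 4) ^ 2 - 56400 * x * (1 - x * x) * (x - x * y) ^ 2 * (1 + x * x) ^ 3 * (1 - (x * y) ^ 4) * (1 + x * y * (x * y)) - 37600 * x * (x - x * y) ^ 4 * (1 + x * x) ^ 3 * (1 + x * y * (x * y)) ^ 2 = ev2 x y lIIa := by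
  have h := Ex.eq_of_isZero fIIa_id x y
  simp only [fIIa, Ex.ev, ev_pw, ev_ci, ev_xE, ev_yE] at h
  rw [ev2_one, one_mul] at h
  push_cast at h
  exact h

/-- expression for `lIIb` -/
def fIIb : Ex := (.sub (.sub (.sub (.add (.sub (.sub (.mul (ci 26506) (.add (.mul (.mul (pw (.add (ci 1) (.mul (.add xE (.mul yE (.sub (ci 1) xE))) (.add xE (.mul yE (.sub (ci 1) xE))))) 6) (pw (.add (ci 1) xE) 2)) (pw (.add (ci 1) (.mul xE xE)) 2)) (.mul (.mul (.mul (.mul (.mul (pw yE 3) (pw (.sub (ci 1) xE) 2)) (.add (.sub (.mul (ci 3) (.add xE (.mul yE (.sub (ci 1) xE)))) (pw (.add xE (.mul yE (.sub (ci 1) xE))) 3)) (.mul (.sub (ci 1) (.mul (.mul (ci 3) (.add xE (.mul yE (.sub (ci 1) xE)))) (.add xE (.mul yE (.sub (ci 1) xE))))) xE))) (pw (.add (ci 1) (.mul (.add xE (.mul yE (.sub (ci 1) xE))) (.add xE (.mul yE (.sub (ci 1) xE))))) 3)) (.add (ci 1) xE)) (.add (ci 1) (.mul xE xE))))) (.mul (.mul (.mul (ci 13253) (pw yE 6)) (pw (.sub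 (ci 1) xE) 4)) (pw (.add (.sub (.mul (ci 3) (.add xE (.mul yE (.sub (ci 1) xE)))) (pw (.add xE (.mul yE (.sub (ci 1) xE))) 3)) (.mul (.sub (ci 1) (.mul (.mul (ci 3) (.add xE (.mul yE (.sub (ci 1) xE)))) (.add xE (.mul yE (.sub (ci 1) xE))))) xE)) 2))) (.mul (.mul (.mul (.mul (ci 60000) (.add xE (.mul yE (.sub (ci 1) xE)))) (pw (.add (ci 1) (.mul (.add xE (.mul yE (.sub (ci 1) xE))) (.add xE (.mul yE (.sub (ci 1) xE))))) 5)) (pw (.add (ci 1) xE) 2)) (pw (.add (ci 1) (.mul xE xE)) 2))) (.mul (.mul (.mul (.mul (ci 37600) (pw (.add xE (.mul yE (.sub (ci 1) xE))) 3)) (pw (.add (ci 1) (.mul (.add xE (.mul yE (.sub (ci 1) xE))) (.add xE (.mul yE (.sub (ci 1) xE))))) 3)) (pw (.add (ci 1) xE) 2)) (pw (.add (ci 1) (.mul xE xE)) 2))) (.mul (.mul (.mul (.mul (.mul (ci 28200) (.add xE (.mul yE (.sub (ci 1) xE)))) (pw (.sub (ci 1) (.mul (.add xE (.mul yE (.sub (ci 1) xE))) (.add xE (.mul yE (.sub (ci 1) xE))))) 2)) (pw (.add (ci 1)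 (.mul (.add xE (.mul yE (.sub (ci 1) xE))) (.add xE (.mul yE (.sub (ci 1) xE))))) 3)) (pw (.add (ci 1) xE) 2)) (pw (.add (ci 1) (.mul xE xE)) 2))) (.mul (.mul (.mul (.mul (.mul (.mul (.mul (ci 56400) (.add xE (.mul yE (.sub (ci 1) xE)))) (.sub (ci 1) (.mul (.add xE (.mul yE (.sub (ci 1) xE))) (.add xE (.mul yE (.sub (ci 1) xE)))))) (pw yE 2)) (.sub (ci 1) xE)) (pw (.add (ci 1) (.mul (.add xE (.mul yE (.sub (ci 1) xE))) (.add xE (.mul yE (.sub (ci 1) xE))))) 3)) (.add (ci 1) xE)) (pw (.add (ci 1) (.mul xE xE)) 2))) (.mul (.mul (.mul (.mul (.mul (ci 37600) (.add xE (.mul yE (.sub (ci 1) xE)))) (pw yE 4)) (pw (.sub (ci 1) xE) 2)) (pw (.add (ci 1) (.mul (.add xE (.mul yE (.sub (ci 1) xE))) (.add xE (.mul yE (.sub (ci 1) xE))))) 3)) (pw (.add (ci 1) (.mul xE xE)) 2)))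

theorem fIIb_id : isZero 41 (.sub fIIb (.mul (.poly [[1]]) (.poly lIIb))) = true := by
  (clear * -; decide +kernel)

theorem fIIb_ev (x y : ℝ) : 26506 * ((1 + (x + y * (1 - x)) * (x + y * (1 - x))) ^ 6 * (1 + x) ^ 2 * (1 + x * x) ^ 2 + y ^ 3 * (1 - x) ^ 2 * (3 * (x + y * (1 - x)) - (x + y * (1 - x)) ^ 3 + (1 - 3 * (x + y * (1 - x)) * (x + y * (1 - x))) * x) * (1 + (x + y * (1 - x)) * (x + y * (1 - x))) ^ 3 * (1 + x) * (1 + x * x)) - 13253 * y ^ 6 * (1 - x) ^ 4 * (3 * (x + y * (1 - x)) - (x + y * (1 - x)) ^ 3 + (1 - 3 * (x + y * (1 - x)) * (x + y * (1 - x))) * x) ^ 2 - 60000 * (x + y * (1 - x)) * (1 + (x + y * (1 - x)) * (x + y * (1 - x))) ^ 5 * (1 + x) ^ 2 * (1 + x * x) ^ 2 + 37600 * (x + y * (1 - x)) ^ 3 * (1 + (x + y * (1 - x)) * (x + y * (1 - x))) ^ 3 * (1 + x) ^ 2 * (1 + x * x) ^ 2 - 28200 * (x + y * (1 - x)) * (1 - (x + y * (1 - x)) * (x + y * (1 - x))) ^ 2 * (1 + (x + y * (1 - x)) * (x + y * (1 - x))) ^ 3 * (1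 + x) ^ 2 * (1 + x * x) ^ 2 - 56400 * (x + y * (1 - x)) * (1 - (x + y * (1 - x)) * (x + y * (1 - x))) * y ^ 2 * (1 - x) * (1 + (x + y * (1 - x)) * (x + y * (1 - x))) ^ 3 * (1 + x) * (1 + x * x) ^ 2 - 37600 * (x + y * (1 - x)) * y ^ 4 * (1 - x) ^ 2 * (1 + (x + y * (1 - x)) * (x + y * (1 - x))) ^ 3 * (1 + x * x) ^ 2 = ev2 x y lIIb := by
  have h := Ex.eq_of_isZero fIIb_id x y
  simp only [fIIb, Ex.ev, ev_pw, ev_ci, ev_xE, ev_yE] at h
  rw [ev2_one, one_mul] at h
  push_cast at h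
  exact h

/-- expression for `lIIIa` -/
def fIIIa : Ex := (.sub (.add (.sub (.add (.mul (ci 424096) (.mul (pw (.add (ci 1) (.mul xE xE)) 2) (pw (.sub (ci 1) (.mul xE xE)) 2))) (.mul (.mul (.mul (ci 106024) (.sub (.mul (.mul (pw yE 2) (.sub (.mul (ci 3) (.add (ci 1) (.mul xE xE))) (.mul (.mul (ci 4) yE) xE))) (.add (ci 1) (.mul xE xE))) (.mul (ci 2) (.add (ci 1) (pw xE 4))))) (.add (ci 1) (.mul xE xE))) (.sub (ci 1) (.mul xE xE)))) (.mul (ci 13253) (pw (.sub (.mul (.mul (pw yE 2) (.sub (.mul (ci 3) (.add (ci 1) (.mul xE xE))) (.mul (.mul (ci 4) yE) xE))) (.add (ci 1) (.mul xE xE))) (.mul (ci 2) (.add (ci 1) (pw xE 4)))) 2))) (.mul (.mul (.sub (.mul (ci 75200) (pw yE 3)) (.mul (ci 480000) yE)) (pw (.add (ci 1) (.mul xE xE)) 2)) (pw (.sub (ci 1) (.mul xE xE)) 2))) (.mul (.mul (.mul (ci 75200) yE) (pw (.sub (.add (ci 1) (.mul xE xE)) (.mul (.mul (ci 2) xE) yE)) 2)) (pw (.add (ci 1) (.mul xE xE)) 2)))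

theorem fIIIa_id : isZero 27 (.sub fIIIa (.mul (.poly [[1]]) (.poly lIIIa))) = true := by
  (clear * -; decide +kernel)

theorem fIIIa_ev (x y : ℝ) : 424096 * ((1 + x * x) ^ 2 * (1 - x * x) ^ 2) + 106024 * (y ^ 2 * (3 * (1 + x * x) - 4 * y * x) * (1 + x * x) - 2 * (1 + x ^ 4)) * (1 + x * x) * (1 - x * x) - 13253 * (y ^ 2 * (3 * (1 + x * x) - 4 * y * x) * (1 + x * x) - 2 * (1 + x ^ 4)) ^ 2 + (75200 * y ^ 3 - 480000 * y) * (1 + x * x) ^ 2 * (1 - x * x) ^ 2 - 75200 * y * (1 + x * x - 2 * x * y) ^ 2 * (1 + x * x) ^ 2 = ev2 x y lIIIa := by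
  have h := Ex.eq_of_isZero fIIIa_id x y
  simp only [fIIIa, Ex.ev, ev_pw, ev_ci, ev_xE, ev_yE] at h
  rw [ev2_one, one_mul] at h
  push_cast at h
  exact h

/-- expression for `lIIIb` -/
def fIIIb : Ex := (.sub (.add (.sub (.sub (.add (.mul (ci 6785536) (.mul (.mul (pw xE 4) (pw (.add (ci 1) (.mul xE xE)) 2)) (pw (.add (ci 1) xE) 2))) (.mul (.mul (.mul (.mul (.mul (ci 424096) (pw xE 2)) (.add (ci 1) (.mul xE xE))) (.add (ci 1) xE)) (pw (.sub (ci 1) xE) 3)) (.sub (.add (.add (.mul (ci 4) (.mul xE xE)) (.mul (.mul (.mul (ci 12) (.add (ci 1) (.mul xE xE))) xE) (.sub (ci 1) yE))) (.mul (.mul (.mul (ci 3) (.add (ci 1) (.mul xE xE))) (.sub (.add (ci 1) (.mul xE xE)) (.mul (ci 4) xE))) (pw (.sub (ci 1) yE) 2))) (.mul (.mul (.mul (ci 2) (.add (ci 1) (.mul xE xE))) (pw (.sub (ci 1) xE) 2)) (pw (.sub (ci 1) yE) 3))))) (.mul (.mul (ci 13253) (pw (.sub (ci 1) xE) 6)) (pw (.sub (.add (.add (.mul (ci 4) (.mul xE xE)) (.mul (.mul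 (.mul (ci 12) (.add (ci 1) (.mul xE xE))) xE) (.sub (ci 1) yE))) (.mul (.mul (.mul (ci 3) (.add (ci 1) (.mul xE xE))) (.sub (.add (ci 1) (.mul xE xE)) (.mul (ci 4) xE))) (pw (.sub (ci 1) yE) 2))) (.mul (.mul (.mul (ci 2) (.add (ci 1) (.mul xE xE))) (pw (.sub (ci 1) xE) 2)) (pw (.sub (ci 1) yE) 3))) 2))) (.mul (.mul (.mul (.mul (ci 3840000) (pw xE 3)) (.add (.mul (.mul (ci 2) xE) yE) (.mul (.sub (ci 1) yE) (.add (ci 1) (.mul xE xE))))) (pw (.add (ci 1) (.mul xE xE)) 2)) (pw (.add (ci 1) xE) 2))) (.mul (.mul (.mul (.mul (ci 150400) xE) (pw (.add (.mul (.mul (ci 2) xE) yE) (.mul (.sub (ci 1) yE) (.add (ci 1) (.mul xE xE)))) 3)) (pw (.add (ci 1) (.mul xE xE)) 2)) (pw (.add (ci 1) xE) 2))) (.mul (.mul (.mul (.mul (.mul (ci 601600) (pw xE 3)) (.add (.mul (.mul (ci 2) xE) yE) (.mul (.sub (ci 1) yE) (.add (ci 1) (.mul xE xE))))) (pw (.sub (ci 1) xE) 2)) (pw yE 2)) (pw (.add (ci 1) (.mul xE xE)) 2)))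

theorem fIIIb_id : isZero 38 (.sub fIIIb (.mul (.poly [[1]]) (.poly lIIIb))) = true := by
  (clear * -; decide +kernel)

theorem fIIIb_ev (x y : ℝ) : 6785536 * (x ^ 4 * (1 + x * x) ^ 2 * (1 + x) ^ 2) + 424096 * x ^ 2 * (1 + x * x) * (1 + x) * (1 - x) ^ 3 * (4 * (x * x) + 12 * (1 + x * x) * x * (1 - y) + 3 * (1 + x * x) * (1 + x * x - 4 * x) * (1 - y) ^ 2 - 2 * (1 + x * x) * (1 - x) ^ 2 * (1 - y) ^ 3) - 13253 * (1 - x) ^ 6 * (4 * (x * x) + 12 * (1 + x * x) * x * (1 - y) + 3 * (1 + x * x) * (1 + x * x - 4 * x) * (1 - y) ^ 2 - 2 * (1 + x * x) * (1 - x) ^ 2 * (1 - y) ^ 3) ^ 2 - 3840000 * x ^ 3 * (2 * x * y + (1 - y) * (1 + x * x)) * (1 + x * x) ^ 2 * (1 + x) ^ 2 + 150400 * x * (2 * x * y + (1 - y) * (1 + x * x)) ^ 3 * (1 + x * x) ^ 2 * (1 + x) ^ 2 - 601600 * x ^ 3 * (2 * x * y + (1 - y) * (1 + x * x)) * (1 - x) ^ 2 * y ^ 2 * (1 + x * x) ^ 2 = ev2 x y lIIIb := by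
  have h := Ex.eq_of_isZero fIIIb_id x y
  simp only [fIIIb, Ex.ev, ev_pw, ev_ci, ev_xE, ev_yE] at h
  rw [ev2_one, one_mul] at h
  push_cast at h
  exact h

end Vale.Agent.P237.J4
end

section

set_option linter.all false

/-!
# P237, dimension four: the pointwise inequality
-/

open Real

namespace Vale.Agent.P237.J4

open _root_.P100.BoxPos

/-- The constant `3 B₀ / A₀`. -/
noncomputable def K0 : ℝ := 27 * π / 32

theorem K0_ge : (13253 / 5000 : ℝ) ≤ K0 := by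
  unfold K0
  have := pi_gt_d4
  linarith only [this]

theorem sqrt_series {x : ℝ} (hx : 0 ≤ x) : 1 + x / 2 - x ^ 2 / 8 ≤ √(1 + x) := by
  rcases le_or_gt (1 + x / 2 - x ^ 2 / 8) 0 with h | h
  · exact h.trans (Real.sqrt_nonneg _)
  · apply Real.le_sqrt_of_sq_le
    have hx8 : x ≤ 8 := by nlinarith
    have h1 : 0 ≤ x ^ 3 * (8 - x) := by
      have : 0 ≤ 8 - x := by linarith only [hx8]
      (clear * - hx hx8; positivity)
    linarith only [h1]

/-- the weight `η'` -/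
noncomputable def wt (ρ : ℝ) : ℝ := 13 / 5 * max (24 / 25 - ρ) 0

/-- the potential `2 η` -/
noncomputable def pt (ρ : ℝ) : ℝ := -(13 / 5 * max (24 / 25 - ρ) 0 ^ 2)

/-- the bracket -/
noncomputable def uu (ρ t C X : ℝ) : ℝ :=
  K0 * √(3 / 2 * X) - 3 * ρ + 47 / 100 * ρ ^ 3 - 47 / 100 * ρ * (t ^ 2 + t * C + C ^ 2)

/-- the lower bound for the running integral from the tangent line -/
noncomputable def lowX (ρ s c C : ℝ) : ℝ :=
  2 / 3 + (ρ ^ 2 * (3 - 2 * ρ * s) - 1 - c ^ 2) / (3 * c) + 2 / 3 * C ^ 3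

/-- the lower bound of the bracket -/
theorem uu_ge {ρ t C X G : ℝ} (hG : 0 ≤ G) (hX : 2 / 3 + G ≤ X) :
    13253 / 5000 * (1 + 3 / 4 * G - 9 / 32 * G ^ 2) - 3 * ρ + 47 / 100 * ρ ^ 3 -
      47 / 100 * ρ * (t ^ 2 + t * C + C ^ 2) ≤ uu ρ t C X := by
  unfold uu
  have h1 : √(1 + 3 / 2 * G) ≤ √(3 / 2 * X) := Real.sqrt_le_sqrt (by linarith only [hX])
  have h2 := sqrt_series (x := 3 / 2 * G) (by positivity)
  have h3 : 1 + 3 / 4 * G - 9 / 32 * G ^ 2 ≤ √(3 / 2 * X) := by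
    refine le_trans (le_of_eq ?_) (h2.trans h1)
    ring
  have h4 : 13253 / 5000 * (1 + 3 / 4 * G - 9 / 32 * G ^ 2) ≤ K0 * √(3 / 2 * X) :=
    (mul_le_mul_of_nonneg_left h3 (by norm_num)).trans
      (mul_le_mul_of_nonneg_right K0_ge (Real.sqrt_nonneg _))
  linarith only [h4]

theorem algI {e P Q B M w : ℝ} (he : e ≠ 0) (hP : P ≠ 0) (hQ : Q ≠ 0) (hB : B ≠ 0) :
    13253 / 5000 * (1 + 3 / 4 * (4 * w ^ 3 * M / (3 * P ^ 3 * (B * Q))) -
      9 / 32 * (4 * w ^ 3 * M / (3 * P ^ 3 * (B * Q))) ^ 2) - 3 * (2 * e / P) +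
      47 / 100 * (2 * e / P) ^ 3 - 47 / 100 * (2 * e / P) * (3 * ((1 - e * e) / P) ^ 2 +
        3 * ((1 - e * e) / P) * (2 * w ^ 2 / (P * B)) + (2 * w ^ 2 / (P * B)) ^ 2) -
      13 / 5 * (24 / 25 - 2 * e / P) ^ 2 +
      13 / 5 * (24 / 25 - 2 * e / P) * (w * M / (3 * e * P * Q)) =
    (397590 * (P ^ 6 * (B * Q) ^ 2 + w ^ 3 * M * P ^ 3 * (B * Q)) - 198795 * (w ^ 3 * M) ^ 2 -
      900000 * e * P ^ 5 * (B * Q) ^ 2 + 564000 * e ^ 3 * P ^ 3 * (B * Q) ^ 2 -
      423000 * e * (1 - e * e) ^ 2 * P ^ 3 * (B * Q) ^ 2 -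
      846000 * e * (1 - e * e) * w ^ 2 * P ^ 3 * (B * Q) * Q -
      564000 * e * w ^ 4 * P ^ 3 * Q ^ 2 - 2496 * (12 * P - 25 * e) ^ 2 * P ^ 4 * (B * Q) ^ 2 +
      10400 * (12 * P - 25 * e) * w * (M / e) * P ^ 4 * (B * Q) * B) /
      (150000 * P ^ 6 * (B * Q) ^ 2) := by
  field_simp
  ring

theorem algII {e P Q B M w : ℝ} (hP : P ≠ 0) (hQ : Q ≠ 0) (hB : B ≠ 0) :
    13253 / 5000 * (1 + 3 / 4 * (4 * w ^ 3 * M / (3 * P ^ 3 * (B * Q))) -
      9 / 32 * (4 * w ^ 3 * M / (3 * P ^ 3 * (B * Q))) ^ 2) - 3 * (2 * e / P) +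
      47 / 100 * (2 * e / P) ^ 3 - 47 / 100 * (2 * e / P) * (3 * ((1 - e * e) / P) ^ 2 +
        3 * ((1 - e * e) / P) * (2 * w ^ 2 / (P * B)) + (2 * w ^ 2 / (P * B)) ^ 2) =
    (26506 * (P ^ 6 * (B * Q) ^ 2 + w ^ 3 * M * P ^ 3 * (B * Q)) - 13253 * (w ^ 3 * M) ^ 2 -
      60000 * e * P ^ 5 * (B * Q) ^ 2 + 37600 * e ^ 3 * P ^ 3 * (B * Q) ^ 2 -
      28200 * e * (1 - e * e) ^ 2 * P ^ 3 * (B * Q) ^ 2 -
      56400 * e * (1 - e * e) * w ^ 2 * P ^ 3 * (B * Q) * Q -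
      37600 * e * w ^ 4 * P ^ 3 * Q ^ 2) /
      (10000 * P ^ 6 * (B * Q) ^ 2) := by
  field_simp
  ring

/-- region I -/
theorem region_I {e b : ℝ} (hb : 0 ≤ b) (hbe : b < e) (he : e < 3 / 4) :
    0 < 397590 * ((1 + e * e) ^ 6 * ((1 - b * b) * (1 + b * b)) ^ 2 +
        (e - b) ^ 3 * (3 * e - e ^ 3 + (1 - 3 * e * e) * b) * (1 + e * e) ^ 3 *
          ((1 - b * b) * (1 + b * b))) -
      198795 * ((e - b) ^ 3 * (3 * e - e ^ 3 + (1 - 3 * e * e) * b)) ^ 2 -
      900000 * e * (1 + e * e) ^ 5 * ((1 - b * b) * (1 + b * b)) ^ 2 +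
      564000 * e ^ 3 * (1 + e * e) ^ 3 * ((1 - b * b) * (1 + b * b)) ^ 2 -
      423000 * e * (1 - e * e) ^ 2 * (1 + e * e) ^ 3 * ((1 - b * b) * (1 + b * b)) ^ 2 -
      846000 * e * (1 - e * e) * (e - b) ^ 2 * (1 + e * e) ^ 3 * ((1 - b * b) * (1 + b * b)) *
        (1 + b * b) -
      564000 * e * (e - b) ^ 4 * (1 + e * e) ^ 3 * (1 + b * b) ^ 2 -
      2496 * (12 * (1 + e * e) - 25 * e) ^ 2 * (1 + e * e) ^ 4 *
        ((1 - b * b) * (1 + b * b)) ^ 2 +
      10400 * (12 * (1 + e * e) - 25 * e) * (e - b) *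
        ((3 * e - e ^ 3 + (1 - 3 * e * e) * b) / e) * (1 + e * e) ^ 4 *
        ((1 - b * b) * (1 + b * b)) * (1 - b * b) := by
  have he0 : 0 < e := lt_of_le_of_lt hb hbe
  have hv0 : 0 ≤ b / e := by (clear * - hb he0; positivity)
  have hv1 : b / e < 1 := (div_lt_one he0).2 hbe
  have key := boxCheck_sound lI_chk1 (x := e) (y := b / e) (by push_cast; linarith only [hb, hbe])
    (by push_cast; linarith only [he]) (by push_cast; linarith only [hv0]) (by push_cast; linarith only [hv1])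
  rw [← fI_ev] at key
  have hM : (3 * e - e ^ 3 + (1 - 3 * e * e) * b) / e =
      3 - e * e + (1 - 3 * e * e) * (b / e) := by
    field_simp
  have hev : e * (b / e) = b := by (clear * - he0; field_simp)
  have h4 : 1 - (e * (b / e)) ^ 4 = (1 - b * b) * (1 + b * b) := by
    rw [hev]
    ring
  have hM2 : e * (3 - e * e + (1 - 3 * e * e) * (b / e)) =
      3 * e - e ^ 3 + (1 - 3 * e * e) * b := by
    rw [← hM]
    (clear * - he0; field_simp)
  rw [h4, hM2, hev] at key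
  rw [hM]
  exact key

/-- regions IIa, IIb -/
theorem region_II {e b : ℝ} (hb : 0 ≤ b) (hbe : b < e) (he : 3 / 4 ≤ e) (he1 : e < 1) :
    0 < 26506 * ((1 + e * e) ^ 6 * ((1 - b * b) * (1 + b * b)) ^ 2 +
        (e - b) ^ 3 * (3 * e - e ^ 3 + (1 - 3 * e * e) * b) * (1 + e * e) ^ 3 *
          ((1 - b * b) * (1 + b * b))) -
      13253 * ((e - b) ^ 3 * (3 * e - e ^ 3 + (1 - 3 * e * e) * b)) ^ 2 -
      60000 * e * (1 + e * e) ^ 5 * ((1 - b * b) * (1 + b * b)) ^ 2 +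
      37600 * e ^ 3 * (1 + e * e) ^ 3 * ((1 - b * b) * (1 + b * b)) ^ 2 -
      28200 * e * (1 - e * e) ^ 2 * (1 + e * e) ^ 3 * ((1 - b * b) * (1 + b * b)) ^ 2 -
      56400 * e * (1 - e * e) * (e - b) ^ 2 * (1 + e * e) ^ 3 * ((1 - b * b) * (1 + b * b)) *
        (1 + b * b) -
      37600 * e * (e - b) ^ 4 * (1 + e * e) ^ 3 * (1 + b * b) ^ 2 := by
  have he0 : 0 < e := lt_of_le_of_lt hb hbe
  rcases lt_or_ge (b / e) (7 / 8) with hv | hv
  · have hv0 : 0 ≤ b / e := by positivity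
    have key := boxCheck_sound lIIa_chk1 (x := e) (y := b / e) (by push_cast; linarith only [he])
      (by push_cast; linarith only [he1]) (by push_cast; linarith only [hv0]) (by push_cast; linarith only [hv])
    rw [← fIIa_ev] at key
    have hev : e * (b / e) = b := by field_simp
    have h4 : 1 - (e * (b / e)) ^ 4 = (1 - b * b) * (1 + b * b) := by
      rw [hev]
      ring
    have hM2 : e * (3 - e * e + (1 - 3 * e * e) * (b / e)) =
        3 * e - e ^ 3 + (1 - 3 * e * e) * b := by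
      (clear * - he; field_simp)
    rw [h4, hM2, hev] at key
    exact key
  · rw [le_div_iff₀ he0] at hv
    have hb1 : b < 1 := hbe.trans he1
    have hb2 : 0 < 1 - b := by linarith only [hbe, he1]
    have hu0 : 0 ≤ (e - b) / (1 - b) := div_nonneg (by linarith only [hbe]) hb2.le
    have hu1 : (e - b) / (1 - b) < 1 := (div_lt_one hb2).2 (by linarith only [he1])
    have key := boxCheck_sound lIIb_chk1 (x := b) (y := (e - b) / (1 - b))
      (by push_cast; linarith only [he, hv]) (by push_cast; linarith only [hbe, he1]) (by push_cast; linarith only [hu0])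
      (by push_cast; linarith only [hu1])
    rw [← fIIb_ev] at key
    obtain ⟨u, hu⟩ : ∃ u, u = (e - b) / (1 - b) := ⟨_, rfl⟩
    rw [← hu] at key hu0 hu1
    have heu : b + u * (1 - b) = e := by
      rw [hu]
      field_simp
      ring
    rw [heu] at key
    have hw : e - b = u * (1 - b) := by rw [← heu]; ring
    have key2 := mul_pos (pow_pos hb2 2) key
    rw [hw]
    refine lt_of_lt_of_eq key2 ?_
    ring

theorem algIIIa {b ρ Q B : ℝ} (hQ : Q ≠ 0) (hB : B ≠ 0) :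
    13253 / 5000 * (1 + 3 / 4 * ((ρ ^ 2 * (3 * Q - 4 * ρ * b) * Q - 2 * (1 + b ^ 4)) /
        (3 * Q * B)) - 9 / 32 * ((ρ ^ 2 * (3 * Q - 4 * ρ * b) * Q - 2 * (1 + b ^ 4)) /
        (3 * Q * B)) ^ 2) - 3 * ρ + 47 / 100 * ρ ^ 3 -
      47 / 100 * ρ * (((Q - 2 * b * ρ) / B) ^ 2 + (Q - 2 * b * ρ) / B * 0 + 0 ^ 2) =
    (424096 * (Q ^ 2 * B ^ 2) + 106024 * (ρ ^ 2 * (3 * Q - 4 * ρ * b) * Q - 2 * (1 + b ^ 4)) *
        Q * B - 13253 * (ρ ^ 2 * (3 * Q - 4 * ρ * b) * Q - 2 * (1 + b ^ 4)) ^ 2 +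
      (75200 * ρ ^ 3 - 480000 * ρ) * Q ^ 2 * B ^ 2 -
      75200 * ρ * (Q - 2 * b * ρ) ^ 2 * Q ^ 2) / (160000 * Q ^ 2 * B ^ 2) := by
  field_simp
  ring

/-- the lower bound `N` is nonnegative -/
theorem N_nonneg {b ρ : ℝ} (hb : 0 ≤ b) (hρ : 1 ≤ ρ) (ht : 0 ≤ 1 + b * b - 2 * b * ρ) :
    0 ≤ ρ ^ 2 * (3 * (1 + b * b) - 4 * ρ * b) * (1 + b * b) - 2 * (1 + b ^ 4) := by
  have h1 : ρ ^ 2 * (3 * (1 + b * b) - 4 * ρ * b) * (1 + b * b) - 2 * (1 + b ^ 4) =
      (1 - b) ^ 4 + (ρ - 1) * (1 + b * b) *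
        (3 * (1 + b * b) * (ρ + 1) - 4 * b * (ρ ^ 2 + ρ + 1)) := by ring
  have h2 : ρ * (3 * (1 + b * b) * (ρ + 1) - 4 * b * (ρ ^ 2 + ρ + 1)) =
      2 * (ρ ^ 2 + ρ + 1) * (1 + b * b - 2 * b * ρ) +
        (1 + b * b) * ((ρ - 1) * (ρ + 2)) := by ring
  have h3 : 0 ≤ ρ * (3 * (1 + b * b) * (ρ + 1) - 4 * b * (ρ ^ 2 + ρ + 1)) := by
    rw [h2]
    have : 0 ≤ ρ - 1 := by linarith only [hρ]
    (clear * - hρ ht hb; positivity)
  have h4 : 0 ≤ 3 * (1 + b * b) * (ρ + 1) - 4 * b * (ρ ^ 2 + ρ + 1) :=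
    nonneg_of_mul_nonneg_right h3 (by linarith only [hρ])
  rw [h1]
  have : 0 ≤ ρ - 1 := by linarith only [hρ]
  (clear * - hρ hb h4; (clear * - hρ hb h4; positivity))

/-- region IIIa -/
theorem region_IIIa {b ρ : ℝ} (hb : 0 ≤ b) (hb1 : b < 7 / 20) (hρ : 1 ≤ ρ) (hρ1 : ρ < 8 / 5) :
    0 < 424096 * ((1 + b * b) ^ 2 * (1 - b * b) ^ 2) +
      106024 * (ρ ^ 2 * (3 * (1 + b * b) - 4 * ρ * b) * (1 + b * b) - 2 * (1 + b ^ 4)) *
        (1 + b * b) * (1 - b * b) -
      13253 * (ρ ^ 2 * (3 * (1 + b * b) - 4 * ρ * b) * (1 + b * b) - 2 * (1 + b ^ 4)) ^ 2 +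
      (75200 * ρ ^ 3 - 480000 * ρ) * (1 + b * b) ^ 2 * (1 - b * b) ^ 2 -
      75200 * ρ * (1 + b * b - 2 * b * ρ) ^ 2 * (1 + b * b) ^ 2 := by
  have key := boxCheck_sound lIIIa_chk1 (x := b) (y := ρ) (by push_cast; linarith only [hb])
    (by push_cast; linarith only [hb1]) (by push_cast; linarith only [hρ]) (by push_cast; linarith only [hρ1])
  rw [← fIIIa_ev] at key
  exact key

theorem algIIIb {b x Q N : ℝ} (hb : b ≠ 0) (hQ : Q ≠ 0) (hB : 1 + b ≠ 0) :
    13253 / 5000 * (1 + 3 / 4 * ((1 - b) ^ 3 * N / (12 * b ^ 2 * Q * (1 + b))) -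
        9 / 32 * ((1 - b) ^ 3 * N / (12 * b ^ 2 * Q * (1 + b))) ^ 2) -
      3 * ((2 * b * x + (1 - x) * Q) / (2 * b)) +
      47 / 100 * ((2 * b * x + (1 - x) * Q) / (2 * b)) ^ 3 -
      47 / 100 * ((2 * b * x + (1 - x) * Q) / (2 * b)) *
        ((x * (1 - b) / (1 + b)) ^ 2 + x * (1 - b) / (1 + b) * 0 + 0 ^ 2) =
    (6785536 * (b ^ 4 * Q ^ 2 * (1 + b) ^ 2) +
        424096 * b ^ 2 * Q * (1 + b) * (1 - b) ^ 3 * N - 13253 * (1 - b) ^ 6 * N ^ 2 -
      3840000 * b ^ 3 * (2 * b * x + (1 - x) * Q) * Q ^ 2 * (1 + b) ^ 2 +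
      150400 * b * (2 * b * x + (1 - x) * Q) ^ 3 * Q ^ 2 * (1 + b) ^ 2 -
      601600 * b ^ 3 * (2 * b * x + (1 - x) * Q) * (1 - b) ^ 2 * x ^ 2 * Q ^ 2) /
      (2560000 * b ^ 4 * Q ^ 2 * (1 + b) ^ 2) := by
  field_simp
  ring

/-- region IIIb -/
theorem region_IIIb {b x : ℝ} (hb : 7 / 20 ≤ b) (hb1 : b < 1) (hx : 0 ≤ x) (hx1 : x ≤ 1) :
    0 < 6785536 * (b ^ 4 * (1 + b * b) ^ 2 * (1 + b) ^ 2) +
      424096 * b ^ 2 * (1 + b * b) * (1 + b) * (1 - b) ^ 3 *
        (4 * (b * b) + 12 * (1 + b * b) * b * (1 - x) +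
          3 * (1 + b * b) * (1 + b * b - 4 * b) * (1 - x) ^ 2 -
          2 * (1 + b * b) * (1 - b) ^ 2 * (1 - x) ^ 3) -
      13253 * (1 - b) ^ 6 * (4 * (b * b) + 12 * (1 + b * b) * b * (1 - x) +
          3 * (1 + b * b) * (1 + b * b - 4 * b) * (1 - x) ^ 2 -
          2 * (1 + b * b) * (1 - b) ^ 2 * (1 - x) ^ 3) ^ 2 -
      3840000 * b ^ 3 * (2 * b * x + (1 - x) * (1 + b * b)) * (1 + b * b) ^ 2 * (1 + b) ^ 2 +
      150400 * b * (2 * b * x + (1 - x) * (1 + b * b)) ^ 3 * (1 + b * b) ^ 2 * (1 + b) ^ 2 -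
      601600 * b ^ 3 * (2 * b * x + (1 - x) * (1 + b * b)) * (1 - b) ^ 2 * x ^ 2 *
        (1 + b * b) ^ 2 := by
  rcases lt_or_ge x (1 / 2) with h | h
  · rcases lt_or_ge b (27 / 40) with h2 | h2
    · have key := boxCheck_sound lIIIb_chk1 (x := b) (y := x) (by push_cast; linarith only [hb])
        (by push_cast; linarith only [h2]) (by push_cast; linarith only [hx]) (by push_cast; linarith only [h])
      rw [← fIIIb_ev] at key
      exact key
    · have key := boxCheck_sound lIIIb_chk2 (x := b) (y := x) (by push_cast; linarith only [h2])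
        (by push_cast; linarith only [hb1]) (by push_cast; linarith only [hx]) (by push_cast; linarith only [h])
      rw [← fIIIb_ev] at key
      exact key
  · have key := boxCheck_sound lIIIb_chk3 (x := b) (y := x) (by push_cast; linarith only [hb])
      (by push_cast; linarith only [hb1]) (by push_cast; linarith only [h]) (by push_cast; linarith only [hx1])
    rw [← fIIIb_ev] at key
    exact key

/-- region IIIc -/
theorem region_IIIc {ρ t X : ℝ} (hρ : 8 / 5 ≤ ρ) (ht : 0 ≤ t) (ht1 : t ≤ 1)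
    (hX : ρ ^ 2 * (1 + 2 * t) / 3 ≤ X) : 0 < uu ρ t 0 X := by
  have h1 : ρ * (7 / 10 + t / 2) ≤ √(3 / 2 * X) := by
    apply Real.le_sqrt_of_sq_le
    have h2 : ρ ^ 2 * (7 / 10 + t / 2) ^ 2 ≤ ρ ^ 2 * ((1 + 2 * t) / 2) := by
      apply mul_le_mul_of_nonneg_left _ (sq_nonneg ρ)
      nlinarith only [ht, ht1]
    linarith only [h2, hX]
  have h3 : 13253 / 5000 * (ρ * (7 / 10 + t / 2)) ≤ K0 * √(3 / 2 * X) :=
    (mul_le_mul_of_nonneg_right K0_ge (by positivity)).trans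
      (mul_le_mul_of_nonneg_left h1 ((by norm_num : (0 : ℝ) ≤ 13253 / 5000).trans K0_ge))
  unfold uu
  have h4 : 0 < 13253 / 5000 * (7 / 10 + t / 2) - 3 + 47 / 100 * ρ ^ 2 - 47 / 100 * t ^ 2 := by
    nlinarith only [hρ, ht, ht1]
  have h5 := mul_pos (by linarith only [hρ] : 0 < ρ) h4
  linarith only [h5, h3]

theorem wt_nonneg (ρ : ℝ) : 0 ≤ wt ρ := by unfold wt; positivity

theorem wt_of_lt {ρ : ℝ} (h : ρ ≤ 24 / 25) : wt ρ = 13 / 5 * (24 / 25 - ρ) := by
  unfold wt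
  rw [max_eq_left (by linarith)]

theorem pt_of_lt {ρ : ℝ} (h : ρ ≤ 24 / 25) : pt ρ = -(13 / 5 * (24 / 25 - ρ) ^ 2) := by
  unfold pt
  rw [max_eq_left (by linarith only [h])]

theorem wt_of_ge {ρ : ℝ} (h : 24 / 25 ≤ ρ) : wt ρ = 0 := by
  unfold wt
  rw [max_eq_right (by linarith)]
  ring

theorem pt_of_ge {ρ : ℝ} (h : 24 / 25 ≤ ρ) : pt ρ = 0 := by
  unfold pt
  rw [max_eq_right (by linarith)]
  ring

/-- the lower bound of `X` in terms of the parameters, `ρ < 1` -/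
theorem lowX_I {e b P Q B : ℝ} (hP : P = 1 + e * e) (hQ : Q = 1 + b * b) (hB : B = 1 - b * b)
    (hP0 : P ≠ 0) (hQ0 : Q ≠ 0) (hB0 : B ≠ 0) :
    lowX (2 * e / P) (2 * b / Q) (B / Q) ((1 - e * e) / P) = 2 / 3 +
      4 * (e - b) ^ 3 * (3 * e - e ^ 3 + (1 - 3 * e * e) * b) / (3 * P ^ 3 * (B * Q)) := by
  unfold lowX
  field_simp
  subst hP hQ hB
  ring

/-- the lower bound of `X` in terms of the parameters, `1 ≤ ρ` -/
theorem lowX_III {b ρ Q B : ℝ} (hQ : Q = 1 + b * b) (hB : B = 1 - b * b)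
    (hQ0 : Q ≠ 0) (hB0 : B ≠ 0) :
    lowX ρ (2 * b / Q) (B / Q) 0 = 2 / 3 +
      (ρ ^ 2 * (3 * Q - 4 * ρ * b) * Q - 2 * (1 + b ^ 4)) / (3 * Q * B) := by
  unfold lowX
  field_simp
  subst hQ hB
  ring

theorem th_sub {e b P B : ℝ} (hP : P = 1 + e * e) (hB : B = 1 - b * b) (hP0 : P ≠ 0)
    (hB0 : B ≠ 0) : (1 + b * b - 2 * b * (2 * e / P)) / B - (1 - e * e) / P =
      2 * (e - b) ^ 2 / (P * B) := by
  field_simp
  subst hP hB
  ring

theorem G_h {e b P Q B M : ℝ} (he : e ≠ 0) (hP : P ≠ 0) (hQ : Q ≠ 0) (hB : B ≠ 0) :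
    4 * (e - b) ^ 3 * M / (3 * P ^ 3 * (B * Q)) =
      (2 * e / P) * (2 * (e - b) ^ 2 / (P * B)) * ((e - b) * M / (3 * e * P * Q)) := by
  field_simp
  ring

theorem M_nonneg {e b : ℝ} (hb : 0 ≤ b) (hbe : b < e) (he1 : e < 1) :
    0 ≤ 3 * e - e ^ 3 + (1 - 3 * e * e) * b := by
  have he0 : 0 < e := by linarith
  have h3 : e ^ 3 ≤ e := by
    have h1 : e * e ≤ 1 := by nlinarith only [he1, hb, hbe]
    have h2 : e * (e * e) ≤ e * 1 := mul_le_mul_of_nonneg_left h1 he0.le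
    linarith
  rcases le_or_gt (3 * e * e) 1 with h | h
  · have h2 : 0 ≤ (1 - 3 * e * e) * b := mul_nonneg (by linarith only [h]) hb
    linarith only [hb, hbe, h3, h2]
  · have h1 : (1 - 3 * e * e) * e ≤ (1 - 3 * e * e) * b := by linarith only [mul_pos (sub_pos.2 hbe) (sub_pos.2 h)]
    linarith

/-- the pointwise inequality for `ρ < 1` in the parameters -/
theorem pw_lt {e b ρ t C X : ℝ} (hb : 0 ≤ b) (hbe : b < e) (he1 : e < 1)
    (hρ : ρ = 2 * e / (1 + e * e)) (hC : C = (1 - e * e) / (1 + e * e))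
    (ht : t = (1 + b * b - 2 * b * ρ) / (1 - b * b))
    (hX : lowX ρ (2 * b / (1 + b * b)) ((1 - b * b) / (1 + b * b)) C ≤ X) :
    0 < ρ * (t - C) * (uu ρ t C X + pt ρ) + wt ρ * (X - 2 / 3) := by
  have he0 : 0 < e := by (clear * - hb hbe; linarith)
  obtain ⟨P, hP⟩ : ∃ P, P = 1 + e * e := ⟨_, rfl⟩
  obtain ⟨Q, hQ⟩ : ∃ Q, Q = 1 + b * b := ⟨_, rfl⟩
  obtain ⟨B, hB⟩ : ∃ B, B = 1 - b * b := ⟨_, rfl⟩
  obtain ⟨M, hM⟩ : ∃ M, M = 3 * e - e ^ 3 + (1 - 3 * e * e) * b := ⟨_, rfl⟩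
  have hP0 : 0 < P := by rw [hP]; (clear * - he0; positivity)
  have hQ0 : 0 < Q := by rw [hQ]; (clear * - hb; positivity)
  have hB0 : 0 < B := by rw [hB]; (by_contra nlg; linarith only [nlg, mul_nonneg (le_of_lt (sub_pos.2 he1)) (sub_nonneg.2 hb), mul_pos (sub_pos.2 he1) (sub_pos.2 he1), mul_nonneg (le_of_lt (sub_pos.2 hbe)) (sub_nonneg.2 hb), mul_pos (sub_pos.2 hbe) (sub_pos.2 he1), mul_pos (sub_pos.2 hbe) (sub_pos.2 hbe), mul_nonneg (sub_nonneg.2 (not_lt.1 nlg)) (sub_nonneg.2 hb), mul_nonneg (sub_nonneg.2 (not_lt.1 nlg)) (le_of_lt (sub_pos.2 he1)), mul_nonneg (sub_nonneg.2 (not_lt.1 nlg)) (le_of_lt (sub_pos.2 hbe))])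
  have hM0 : 0 ≤ M := by rw [hM]; exact M_nonneg hb hbe he1
  rw [← hP] at hρ hC
  rw [← hB] at ht
  rw [← hQ, ← hB] at hX
  have hth : t - C = 2 * (e - b) ^ 2 / (P * B) := by
    rw [ht, hC, hρ]
    exact th_sub hP hB hP0.ne' hB0.ne'
  have hX1 : 2 / 3 + 4 * (e - b) ^ 3 * M / (3 * P ^ 3 * (B * Q)) ≤ X := by
    rw [hM, ← lowX_I hP hQ hB hP0.ne' hQ0.ne' hB0.ne', ← hρ, ← hC]
    exact hX
  obtain ⟨G, hG⟩ : ∃ G, G = 4 * (e - b) ^ 3 * M / (3 * P ^ 3 * (B * Q)) := ⟨_, rfl⟩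
  have hw0 : 0 < e - b := by linarith only [hbe]
  have hG0 : 0 ≤ G := by rw [hG]; (clear * - hbe hM0 hP0 hB0 hQ0; positivity)
  have hu := uu_ge (ρ := ρ) (t := t) (C := C) (X := X) hG0 (by rw [hG]; exact hX1)
  have hh0 : 0 < t - C := by rw [hth]; positivity
  have hρ0 : 0 < ρ := by rw [hρ]; positivity
  have hhp : 0 < ρ * (t - C) := mul_pos hρ0 hh0
  have htt : t ^ 2 + t * C + C ^ 2 = 3 * C ^ 2 + 3 * C * (t - C) + (t - C) ^ 2 := by ring
  rw [htt] at hu
  rw [← hG] at hX1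
  rcases lt_or_ge e (3 / 4) with h34 | h34
  · have hρ2 : ρ ≤ 24 / 25 := by
      rw [hρ, div_le_iff₀ hP0, hP]
      nlinarith only [h34]
    rw [wt_of_lt hρ2, pt_of_lt hρ2]
    have hGh : G = ρ * (t - C) * ((e - b) * M / (3 * e * P * Q)) := by
      rw [hG, hth, hρ]
      exact G_h he0.ne' hP0.ne' hQ0.ne' hB0.ne'
    have hreg := region_I hb hbe h34
    rw [← hP, ← hQ, ← hB, ← hM] at hreg
    have halg := algI (e := e) (P := P) (Q := Q) (B := B)
      (M := M) (w := e - b) he0.ne' hP0.ne' hQ0.ne' hB0.ne'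
    have hpos := div_pos hreg (by (clear * - hP0 hB0 hQ0; positivity) : 0 < 150000 * P ^ 6 * (B * Q) ^ 2)
    rw [← halg, ← hG, ← hth, ← hρ, ← hC] at hpos
    have h1 : 13 / 5 * (24 / 25 - ρ) * G ≤ 13 / 5 * (24 / 25 - ρ) * (X - 2 / 3) := by
      apply mul_le_mul_of_nonneg_left _ (by (clear * - hρ2; linarith))
      linarith only [hX1]
    obtain ⟨k, hk⟩ : ∃ k, k = (e - b) * M / (3 * e * P * Q) := ⟨_, rfl⟩
    rw [← hk] at hGh hpos
    have h3 : 0 < ρ * (t - C) * (uu ρ t C X -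
        13 / 5 * (24 / 25 - ρ) ^ 2 + 13 / 5 * (24 / 25 - ρ) * k) := by
      apply mul_pos hhp
      linarith only [hu, hpos]
    have h2 : ρ * (t - C) * (uu ρ t C X + -(13 / 5 * (24 / 25 - ρ) ^ 2)) +
        13 / 5 * (24 / 25 - ρ) * G = ρ * (t - C) * (uu ρ t C X -
        13 / 5 * (24 / 25 - ρ) ^ 2 + 13 / 5 * (24 / 25 - ρ) * k) := by
      have h4 : 13 / 5 * (24 / 25 - ρ) * G =
        13 / 5 * (24 / 25 - ρ) * (ρ * (t - C) * k) := by rw [← hGh]
      rw [h4]
      ring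
    linarith only [h1, h3, h2]
  · have hρ2 : 24 / 25 ≤ ρ := by
      rw [hρ, le_div_iff₀ hP0, hP]
      nlinarith only [h34, he1]
    rw [wt_of_ge hρ2, pt_of_ge hρ2]
    have hreg := region_II hb hbe h34 he1
    rw [← hP, ← hQ, ← hB, ← hM] at hreg
    have halg := algII (e := e) (P := P) (Q := Q) (B := B)
      (M := M) (w := e - b) hP0.ne' hQ0.ne' hB0.ne'
    have hpos := div_pos hreg (by (clear * - hP0 hB0 hQ0; positivity) : 0 < 10000 * P ^ 6 * (B * Q) ^ 2)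
    rw [← halg, ← hG, ← hth, ← hρ, ← hC] at hpos
    have h3 : 0 < ρ * (t - C) * (uu ρ t C X) := by
      apply mul_pos hhp
      (clear * - hu hpos; linarith)
    linarith only [h3]

theorem GxIIIb {b x Q : ℝ} (hQ : Q = 1 + b * b) (hb : b ≠ 0) (hQ0 : Q ≠ 0)
    (h1 : 1 - b ≠ 0) (h2 : 1 + b ≠ 0) :
    (((2 * b * x + (1 - x) * Q) / (2 * b)) ^ 2 *
      (3 * Q - 4 * ((2 * b * x + (1 - x) * Q) / (2 * b)) * b) * Q - 2 * (1 + b ^ 4)) /
        (3 * Q * ((1 - b) * (1 + b))) =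
      (1 - b) ^ 3 * (4 * (b * b) + 12 * Q * b * (1 - x) +
        3 * Q * (Q - 4 * b) * (1 - x) ^ 2 - 2 * Q * (1 - b) ^ 2 * (1 - x) ^ 3) /
        (12 * b ^ 2 * Q * (1 + b)) := by
  field_simp
  subst hQ
  ring

theorem tB {b ρ t : ℝ} (hB : 0 < 1 - b * b) (ht : t = (1 + b * b - 2 * b * ρ) / (1 - b * b)) :
    t * (1 - b * b) = 1 + b * b - 2 * b * ρ := by
  rw [ht, div_mul_cancel₀ _ hB.ne']

/-- the pointwise inequality for `1 ≤ ρ < 8/5` in the parameters -/
theorem pw_ge {b ρ t X : ℝ} (hb : 0 ≤ b) (hb1 : b < 1) (hρ : 1 ≤ ρ) (hρ1 : ρ < 8 / 5)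
    (ht0 : 0 < t)
    (ht : t = (1 + b * b - 2 * b * ρ) / (1 - b * b))
    (hX : lowX ρ (2 * b / (1 + b * b)) ((1 - b * b) / (1 + b * b)) 0 ≤ X) :
    0 < uu ρ t 0 X := by
  obtain ⟨Q, hQ⟩ : ∃ Q, Q = 1 + b * b := ⟨_, rfl⟩
  obtain ⟨B, hB⟩ : ∃ B, B = 1 - b * b := ⟨_, rfl⟩
  have hQ0 : 0 < Q := by rw [hQ]; (clear * - hb; positivity)
  have hB0 : 0 < B := by rw [hB]; nlinarith only [hb1, hb]
  have htB : t * B = Q - 2 * b * ρ := by
    rw [hB, hQ]
    exact tB (by rw [← hB]; exact hB0) ht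
  have ht' : t = (Q - 2 * b * ρ) / B := by rw [hB, hQ]; exact ht
  rw [← hQ, ← hB, lowX_III hQ hB hQ0.ne' hB0.ne'] at hX
  have hN := N_nonneg hb hρ (by rw [← hQ, ← htB]; positivity)
  rw [← hQ] at hN
  obtain ⟨G, hG⟩ : ∃ G, G = (ρ ^ 2 * (3 * Q - 4 * ρ * b) * Q -
    2 * (1 + b ^ 4)) / (3 * Q * B) := ⟨_, rfl⟩
  have hG0 : 0 ≤ G := by rw [hG]; (clear * - hN hQ0 hB0; positivity)
  rw [← hG] at hX
  have hu := uu_ge (ρ := ρ) (t := t) (C := 0) hG0 hX
  refine lt_of_lt_of_le ?_ hu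
  rcases lt_or_ge b (7 / 20) with h720 | h720
  · have hreg := region_IIIa hb h720 hρ hρ1
    rw [← hQ, ← hB] at hreg
    have hpos := div_pos hreg (by (clear * - hQ0 hB0; positivity) : 0 < 160000 * Q ^ 2 * B ^ 2)
    rw [← algIIIa hQ0.ne' hB0.ne', ← hG, ← ht'] at hpos
    exact hpos
  · have hbp : 0 < b := by linarith only [h720]
    have h1b : 0 < 1 - b := by linarith only [hb1]
    have h2b : 0 < 1 + b := by linarith only [hbp]
    obtain ⟨x, hx⟩ : ∃ x, x = t * (1 + b) / (1 - b) := ⟨_, rfl⟩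
    have hx0 : 0 ≤ x := by rw [hx]; (clear * - ht0 h720 hb1; positivity)
    have htx : t = x * (1 - b) / (1 + b) := by
      rw [hx]
      (clear * - h720 h1b ht0; field_simp)
    have h2 : t * B = x * (1 - b) ^ 2 := by
      have h3 : t * (1 + b) = x * (1 - b) := by
        rw [hx]
        (clear * - h1b h720 ht0; field_simp)
      rw [hB]
      linear_combination (1 - b) * h3
    have h4 : x * (1 - b) ^ 2 = Q - 2 * b * ρ := by rw [← h2, htB]
    have hρx : ρ = (2 * b * x + (1 - x) * Q) / (2 * b) := by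
      rw [eq_div_iff (by (clear * - h720; positivity))]
      rw [hQ] at h4 ⊢
      linear_combination h4
    have hx1 : x ≤ 1 := by
      have h3 : x * (1 - b) ^ 2 ≤ 1 * (1 - b) ^ 2 := by
        rw [h4, hQ]
        linarith only [mul_nonneg (sub_nonneg.2 hb) (sub_nonneg.2 hρ)]
      exact le_of_mul_le_mul_right h3 (by positivity)
    have hGx : G = (1 - b) ^ 3 * (4 * (b * b) + 12 * Q * b * (1 - x) +
        3 * Q * (Q - 4 * b) * (1 - x) ^ 2 -
        2 * Q * (1 - b) ^ 2 * (1 - x) ^ 3) / (12 * b ^ 2 * Q * (1 + b)) := by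
      rw [hG, hB, show 1 - b * b = (1 - b) * (1 + b) by ring, hρx]
      exact GxIIIb hQ hbp.ne' hQ0.ne' h1b.ne' h2b.ne'
    have hreg := region_IIIb h720 hb1 hx0 hx1
    rw [← hQ] at hreg
    have hpos := div_pos hreg (by (clear * - h720 hQ0; positivity) : 0 < 2560000 * b ^ 4 * Q ^ 2 * (1 + b) ^ 2)
    rw [← algIIIb hbp.ne' hQ0.ne' h2b.ne', ← hGx, ← htx, ← hρx] at hpos
    exact hpos

theorem param {b ρ t Q B : ℝ} (hQ : Q ≠ 0) (h : t * B = Q - 2 * b * ρ) :
    ρ * (2 * b / Q) + t * (B / Q) = 1 := by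
  have h1 : ρ * (2 * b / Q) + t * (B / Q) = (2 * b * ρ + t * B) / Q := by ring
  rw [h1, h, div_eq_one_iff_eq hQ]
  ring

theorem circ {b Q B : ℝ} (hQ : Q = 1 + b * b) (hB : B = 1 - b * b) (hQ0 : Q ≠ 0) :
    (2 * b / Q) ^ 2 + (B / Q) ^ 2 = 1 := by
  field_simp
  subst hQ hB
  ring

/-- the parameter `b` -/
theorem exists_b {ρ t : ℝ} (hρ : 0 < ρ) (ht0 : 0 < t) (ht1 : t ≤ 1) (h : 1 < t ^ 2 + ρ ^ 2) :
    ∃ b : ℝ, 0 ≤ b ∧ b < 1 ∧ b * ρ ≤ 1 - t ∧ (1 + t) * b ^ 2 ≤ 1 - t ∧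
      t * (1 - b * b) = 1 + b * b - 2 * b * ρ := by
  obtain ⟨q, hqd⟩ : ∃ q, q = √(t ^ 2 + ρ ^ 2 - 1) := ⟨_, rfl⟩
  have hq0 : 0 < q := by rw [hqd]; exact Real.sqrt_pos.2 (by linarith)
  have hq2 : q ^ 2 = t ^ 2 + ρ ^ 2 - 1 := by rw [hqd]; exact Real.sq_sqrt (by linarith only [h])
  have hqρ : q ≤ ρ := by
    by_contra h1
    push Not at h1
    linarith [mul_pos (sub_pos.2 h1) (sub_pos.2 h1), mul_pos (sub_pos.2 hρ) (sub_pos.2 h1), mul_eq_zero_of_left (sub_eq_zero.2 hq2) (t - (0)), mul_nonneg (sub_nonneg.2 ht1) (le_of_lt (sub_pos.2 ht0)), mul_eq_zero_of_left (sub_eq_zero.2 hq2) (1 - (t)), mul_nonneg (sub_nonneg.2 ht1) (sub_nonneg.2 ht1)]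
  obtain ⟨b, hbd⟩ : ∃ b, b = (ρ - q) / (1 + t) := ⟨_, rfl⟩
  have hb0 : 0 ≤ b := by rw [hbd]; exact div_nonneg (by linarith only [hqρ]) (by linarith only [ht0])
  have hbt : (1 + t) * b = ρ - q := by rw [hbd]; field_simp
  have h1t : (1 + t : ℝ) ≠ 0 := by linarith only [ht0]
  have hbq : b * (ρ + q) = 1 - t := by
    have h1 : (1 + t) * (b * (ρ + q)) = (1 + t) * (1 - t) := by
      calc (1 + t) * (b * (ρ + q)) = ((1 + t) * b) * (ρ + q) := by ring
        _ = (ρ - q) * (ρ + q) := by rw [hbt]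
        _ = (1 + t) * (1 - t) := by linear_combination -hq2
    exact mul_left_cancel₀ h1t h1
  refine ⟨b, hb0, ?_, ?_, ?_, ?_⟩
  · by_contra h1
    push Not at h1
    have h2 : ρ + q ≤ b * (ρ + q) := by linarith [mul_nonneg (sub_nonneg.2 h1) (le_of_lt (sub_pos.2 hρ)), mul_nonneg (le_of_lt (sub_pos.2 hq0)) (sub_nonneg.2 h1)]
    have h3 : 1 < ρ + t := by (by_contra nlg; linarith only [nlg, mul_pos (sub_pos.2 hρ) (sub_pos.2 ht0), mul_nonneg (le_of_lt (sub_pos.2 h)) (sub_nonneg.2 ht1), mul_pos (sub_pos.2 h) (sub_pos.2 ht0), mul_nonneg (sub_nonneg.2 (not_lt.1 nlg)) (sub_nonneg.2 ht1), mul_nonneg (sub_nonneg.2 (not_lt.1 nlg)) (le_of_lt (sub_pos.2 ht0)), mul_nonneg (sub_nonneg.2 (not_lt.1 nlg)) (le_of_lt (sub_pos.2 hρ))])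
    linarith only [hq0, hbq, h2, h3]
  · linarith only [mul_nonneg (sub_nonneg.2 hb0) (le_of_lt (sub_pos.2 hq0)), hbq]
  · have h1 : (1 + t) * b * b = (ρ - q) * b := by rw [hbt]
    linarith only [mul_nonneg (sub_nonneg.2 hb0) (le_of_lt (sub_pos.2 hq0)), h1, hbq]
  · have h1 : (1 + t) * b * b = (ρ - q) * b := by rw [hbt]
    linear_combination hbq - h1

theorem s_le {b ρ t : ℝ} (hb0 : 0 ≤ b) (hb1 : b < 1) (hρ : 0 < ρ) (h1 : (1 + t) * b ^ 2 ≤ 1 - t)
    (h2 : t * (1 - b * b) = 1 + b * b - 2 * b * ρ) : 2 * b / (1 + b * b) ≤ ρ := by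
  have hQ : 0 < 1 + b * b := by (clear * - hb0; positivity)
  rw [div_le_iff₀ hQ]
  rcases hb0.eq_or_lt with h | h
  · rw [← h]
    simp only [mul_zero]
    positivity
  · have h3 : 0 ≤ (1 - b ^ 2) * ((1 - t) - (1 + t) * b ^ 2) := by
      apply mul_nonneg
      · nlinarith only [hb1, hb0]
      · linarith only [h1]
    have h4 : 0 ≤ 2 * b * (ρ * (1 + b * b) - 2 * b) := by
      refine le_of_le_of_eq h3 ?_
      linear_combination -(1 + b * b) * h2
    have h5 := nonneg_of_mul_nonneg_right h4 (by positivity)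
    linarith only [h5]

/-- the parameter `e` -/
theorem exists_e {ρ C : ℝ} (hρ : 0 < ρ) (hρ1 : ρ < 1) (hC0 : 0 < C) (hC : C ^ 2 = 1 - ρ ^ 2) :
    ∃ e : ℝ, e < 1 ∧ e * ρ = 1 - C ∧ ρ = 2 * e / (1 + e * e) ∧
      C = (1 - e * e) / (1 + e * e) := by
  obtain ⟨e, hed⟩ : ∃ e, e = ρ / (1 + C) := ⟨_, rfl⟩
  have he0 : 0 < e := by rw [hed]; positivity
  have heC : e * (1 + C) = ρ := by rw [hed]; field_simp
  have h1C : (1 + C : ℝ) ≠ 0 := by linarith only [hC0]
  have heρ : e * ρ = 1 - C := by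
    have h1 : (e * ρ) * (1 + C) = (1 - C) * (1 + C) := by
      calc (e * ρ) * (1 + C) = (e * (1 + C)) * ρ := by ring
        _ = ρ * ρ := by rw [heC]
        _ = (1 - C) * (1 + C) := by linear_combination hC
    exact mul_right_cancel₀ h1C h1
  have hP0 : 0 < 1 + e * e := by positivity
  have hP2 : (1 + e * e) * (1 + C) = 2 := by
    have : (1 + e * e) * (1 + C) = 1 + C + e * (e * (1 + C)) := by ring
    rw [this, heC]
    linarith only [heρ]
  refine ⟨e, ?_, heρ, ?_, ?_⟩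
  · by_contra h1
    push Not at h1
    linarith only [mul_nonneg (sub_nonneg.2 h1) (le_of_lt (sub_pos.2 hC0)), hC0, hρ1, h1, heC]
  · rw [eq_div_iff hP0.ne']
    rw [← heC]
    linear_combination e * hP2
  · rw [eq_div_iff hP0.ne']
    linear_combination hP2

theorem pointwise {ρ t X : ℝ} (hρ : 0 < ρ) (ht1 : t ≤ 1) (hC : √(1 - ρ ^ 2) < t)
    (H1 : ∀ s c : ℝ, 0 ≤ s → s ≤ ρ → 0 < c → s ^ 2 + c ^ 2 = 1 → ρ * s + t * c = 1 →
      lowX ρ s c (√(1 - ρ ^ 2)) ≤ X)
    (H2 : 1 ≤ ρ → ρ ^ 2 * (1 + 2 * t) / 3 ≤ X) :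
    0 < ρ * (t - √(1 - ρ ^ 2)) * (uu ρ t (√(1 - ρ ^ 2)) X + pt ρ) + wt ρ * (X - 2 / 3) := by
  have ht0 : 0 < t := lt_of_le_of_lt (Real.sqrt_nonneg _) hC
  obtain ⟨C, hCd⟩ : ∃ C, C = √(1 - ρ ^ 2) := ⟨_, rfl⟩
  have hC0 : 0 ≤ C := by rw [hCd]; exact Real.sqrt_nonneg _
  rw [← hCd] at hC H1 ⊢
  have hsq : 1 < t ^ 2 + ρ ^ 2 := by
    rcases lt_or_ge ρ 1 with h | h
    · have h1 : C ^ 2 = 1 - ρ ^ 2 := by
        rw [hCd]
        exact Real.sq_sqrt (by nlinarith only [h, hρ])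
      nlinarith only [h1, hC, hC0]
    · nlinarith only [h, ht0]
  obtain ⟨b, hb0, hb1, hbρ, hbt2, htb⟩ := exists_b hρ ht0 ht1 hsq
  have hB0 : 0 < 1 - b * b := by (by_contra nlg; linarith only [nlg, mul_nonneg (sub_nonneg.2 (not_lt.1 nlg)) (le_of_lt (sub_pos.2 ht0)), hbt2, ht0])
  have hQ0 : 0 < 1 + b * b := by (clear * - hb0; positivity)
  have ht : t = (1 + b * b - 2 * b * ρ) / (1 - b * b) := by
    rw [eq_div_iff hB0.ne', htb]
  have hX1 : lowX ρ (2 * b / (1 + b * b)) ((1 - b * b) / (1 + b * b)) C ≤ X := by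
    apply H1
    · (clear * - hb0; positivity)
    · exact s_le hb0 hb1 hρ hbt2 htb
    · (clear * - hB0 hb0; positivity)
    · exact circ rfl rfl hQ0.ne'
    · exact param hQ0.ne' htb
  rcases lt_or_ge ρ 1 with hρ1 | hρ1
  · have hC2 : C ^ 2 = 1 - ρ ^ 2 := by
      rw [hCd]
      exact Real.sq_sqrt (by nlinarith only [hρ1, hρ])
    have hCp : 0 < C := by
      rcases hC0.lt_or_eq with h | h
      · exact h
      · rw [← h] at hC2
        nlinarith only [hρ1, hC2, hρ]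
    obtain ⟨e, he1, heρ, hρe, hCe⟩ := exists_e hρ hρ1 hCp hC2
    have hbe : b < e := by
      have h2 : b * ρ < e * ρ := by linarith only [hC, hbρ, heρ]
      exact lt_of_mul_lt_mul_right h2 hρ.le
    exact pw_lt hb0 hbe he1 hρe hCe ht hX1
  · have hCz : C = 0 := by
      rw [hCd]
      exact Real.sqrt_eq_zero_of_nonpos (by nlinarith only [hρ1])
    rw [hCz] at hX1 ⊢
    rw [wt_of_ge (by linarith only [hρ1]), pt_of_ge (by linarith only [hρ1])]
    have hhp : 0 < ρ * (t - 0) := by rw [sub_zero]; exact mul_pos hρ ht0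
    suffices h : 0 < uu ρ t 0 X by
      have := mul_pos hhp h
      linarith only [this]
    rcases lt_or_ge ρ (8 / 5) with h85 | h85
    · exact pw_ge hb0 hb1 hρ1 h85 ht0 ht hX1
    · exact region_IIIc h85 ht0.le ht1 (H2 hρ1)

end Vale.Agent.P237.J4
end

section

set_option linter.all false

/-!
# P237: the one-dimensional inequality for dimension four
-/

open Real MeasureTheory Set

namespace Vale.Agent.P237.J4

open AllN

/-- excess of the level function -/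
noncomputable def hh (p : ℝ → ℝ) (ρ : ℝ) : ℝ := lev p ρ - √(1 - ρ ^ 2)

/-- the running integral -/
noncomputable def XX (p : ℝ → ℝ) (ρ : ℝ) : ℝ := 2 / 3 + ∫ σ in (0 : ℝ)..ρ, 2 * σ * hh p σ

theorem lev_int (p : ℝ → ℝ) (a b : ℝ) : IntervalIntegrable (lev p) volume a b :=
  (lev_antitone p).intervalIntegrable

theorem hh_int (p : ℝ → ℝ) (a b : ℝ) : IntervalIntegrable (hh p) volume a b :=
  (lev_int p a b).sub (circ_cont.intervalIntegrable a b)

theorem hh_meas (p : ℝ → ℝ) : Measurable (hh p) :=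
  (lev_antitone p).measurable.sub circ_cont.measurable

theorem mul_hh_int (p : ℝ → ℝ) {f : ℝ → ℝ} (hf : Continuous f) (a b : ℝ) :
    IntervalIntegrable (fun σ => f σ * hh p σ) volume a b :=
  (hh_int p a b).continuousOn_mul hf.continuousOn

theorem XX_cont (p : ℝ → ℝ) : Continuous (XX p) :=
  continuous_const.add (intervalIntegral.continuous_primitive
    (fun a b => mul_hh_int p (by fun_prop) a b) 0)

theorem lev_cube_int (p : ℝ → ℝ) (a b : ℝ) :
    IntervalIntegrable (fun σ => lev p σ ^ 3) volume a b := by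
  apply Antitone.intervalIntegrable
  intro x y hxy
  exact pow_le_pow_left₀ (lev_nonneg p y) (lev_antitone p hxy) 3

namespace IsHalf

variable {p : ℝ → ℝ} (hp : IsHalf p)
include hp

theorem hh_nonneg {ρ : ℝ} (hρ : 0 ≤ ρ) : 0 ≤ hh p ρ := sub_nonneg.2 (hp.lev_ge hρ)

theorem hh_contAt {ρ : ℝ} (hρ : ρ ∈ Ioo 0 (p 0)) : ContinuousAt (hh p) ρ :=
  (hp.lev_continuousOn.continuousAt (isOpen_Ioo.mem_nhds hρ)).sub circ_cont.continuousAt

theorem XX_deriv {ρ : ℝ} (hρ : ρ ∈ Ioo 0 (p 0)) : HasDerivAt (XX p) (2 * ρ * hh p ρ) ρ := by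
  have h1 : HasDerivAt (fun u => ∫ σ in (0 : ℝ)..u, 2 * σ * hh p σ) (2 * ρ * hh p ρ) ρ := by
    apply intervalIntegral.integral_hasDerivAt_right (mul_hh_int p (by fun_prop) 0 ρ)
    · have hm : Measurable fun σ => 2 * σ * hh p σ :=
        (by fun_prop : Measurable fun σ : ℝ => 2 * σ).mul (hh_meas p)
      exact hm.stronglyMeasurable.stronglyMeasurableAtFilter
    · exact (by fun_prop : ContinuousAt (fun σ : ℝ => 2 * σ) ρ).mul (hp.hh_contAt hρ)
  have h2 := h1.const_add (2 / 3)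
  exact h2

theorem XX_ge {ρ : ℝ} (hρ : 0 ≤ ρ) : 2 / 3 ≤ XX p ρ := by
  unfold XX
  have : 0 ≤ ∫ σ in (0 : ℝ)..ρ, 2 * σ * hh p σ :=
    intervalIntegral.integral_nonneg hρ fun σ hσ => by
      have := hp.hh_nonneg hσ.1
      have := hσ.1
      positivity
  linarith only [this]

/-- the pieces of the functional in level form -/
theorem int_pow_hh (k : ℕ) : ∫ ρ in (0 : ℝ)..p 0, (((k : ℝ) + 1) * ρ ^ k) * hh p ρ =
    (∫ y in (0 : ℝ)..1, p y ^ (k + 1)) - aInt (k + 1) / 2 := by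
  rw [hp.int_pow k, ← circ_pow k hp.zero_ge, ← intervalIntegral.integral_sub
    ((lev_int p _ _).continuousOn_mul (by fun_prop))
    ((by fun_prop : Continuous fun ρ : ℝ => ((k : ℝ) + 1) * ρ ^ k * √(1 - ρ ^ 2)).intervalIntegrable
      _ _)]
  refine intervalIntegral.integral_congr fun ρ _ => ?_
  simp only [hh]
  ring

theorem XX_end : XX p (p 0) = ∫ y in (0 : ℝ)..1, p y ^ 2 := by
  have h := hp.int_pow_hh 1
  have h2 : (∫ σ in (0 : ℝ)..p 0, 2 * σ * hh p σ) =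
      ∫ ρ in (0 : ℝ)..p 0, (((1 : ℕ) : ℝ) + 1) * ρ ^ 1 * hh p ρ := by
    refine intervalIntegral.integral_congr fun ρ _ => ?_
    norm_num
  unfold XX
  rw [h2, h, show (1 + 1 : ℕ) = 2 from rfl, aInt_two]
  ring

theorem int_cube : ∫ ρ in (0 : ℝ)..p 0, 3 * ρ ^ 2 * ((lev p ρ ^ 3 - √(1 - ρ ^ 2) ^ 3) / 3) =
    (∫ y in (0 : ℝ)..1, y ^ 2 * p y ^ 3) - (aInt 3 - aInt 5) / 2 := by
  have h1 := hp.int_sq_mul 2
  have h2 := circ_sq_mul 2 hp.zero_ge
  norm_num at h1 h2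
  rw [h1, ← h2, ← intervalIntegral.integral_sub]
  · refine intervalIntegral.integral_congr fun ρ _ => ?_
    ring
  · exact ((lev_cube_int p _ _).div_const 3).continuousOn_mul (by fun_prop)
  · exact (by fun_prop : Continuous fun ρ : ℝ =>
      3 * ρ ^ 2 * (√(1 - ρ ^ 2) ^ 3 / 3)).intervalIntegrable _ _

/-- lower bound of the running integral by the tangent line -/
theorem XX_ge_lowX {ρ s c : ℝ} (hρ : ρ ∈ Icc 0 (p 0)) (hs : 0 ≤ s) (hsρ : s ≤ ρ) (hc : 0 < c)
    (hsc : s ^ 2 + c ^ 2 = 1) (ht : ρ * s + lev p ρ * c = 1) :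
    lowX ρ s c (√(1 - ρ ^ 2)) ≤ XX p ρ := by
  have hcs : √(1 - s ^ 2) = c := by
    rw [show 1 - s ^ 2 = c ^ 2 by linarith, Real.sqrt_sq hc.le]
  have hline : ∀ σ ∈ Icc s ρ, (1 - σ * s) / c ≤ lev p σ := by
    intro σ hσ
    rcases hsρ.eq_or_lt with h | h
    · have h1 : σ = ρ := le_antisymm hσ.2 (by rw [← h]; exact hσ.1)
      rw [h1, div_le_iff₀ hc]
      linarith
    · have hd : 0 < ρ - s := by linarith
      have h2 := hp.lev_concave.2 (⟨hs, hsρ.trans hρ.2⟩ : s ∈ Icc 0 (p 0)) hρ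
        (div_nonneg (by linarith [hσ.2]) hd.le : 0 ≤ (ρ - σ) / (ρ - s))
        (div_nonneg (by linarith [hσ.1]) hd.le : 0 ≤ (σ - s) / (ρ - s))
        (by field_simp; ring)
      simp only [smul_eq_mul] at h2
      have h3 : (ρ - σ) / (ρ - s) * s + (σ - s) / (ρ - s) * ρ = σ := by
        field_simp
        ring
      rw [h3] at h2
      refine le_trans ?_ h2
      have h4 : c ≤ lev p s := by
        rw [← hcs]
        exact hp.lev_ge hs
      have h5 : (ρ - σ) / (ρ - s) * c ≤ (ρ - σ) / (ρ - s) * lev p s :=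
        mul_le_mul_of_nonneg_left h4 (div_nonneg (by linarith only [hσ.2]) hd.le)
      have h6 : lev p ρ = (1 - ρ * s) / c := by
        rw [eq_div_iff hc.ne']
        linarith
      have h7 : (1 - σ * s) / c = (ρ - σ) / (ρ - s) * c +
          (σ - s) / (ρ - s) * ((1 - ρ * s) / c) := by
        field_simp
        linear_combination -(ρ - σ) * hsc
      rw [h7, h6]
      linarith only [h5]
  have hcont2 : ∀ a b : ℝ, IntervalIntegrable (fun σ => 2 * σ * hh p σ) volume a b :=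
    fun a b => mul_hh_int p (by fun_prop) a b
  have hsplit : XX p ρ = 2 / 3 + ((∫ σ in (0 : ℝ)..s, 2 * σ * hh p σ) +
      ∫ σ in s..ρ, 2 * σ * hh p σ) := by
    unfold XX
    rw [intervalIntegral.integral_add_adjacent_intervals (hcont2 0 s) (hcont2 s ρ)]
  have hfst : 0 ≤ ∫ σ in (0 : ℝ)..s, 2 * σ * hh p σ :=
    intervalIntegral.integral_nonneg hs fun σ hσ => by
      have := hp.hh_nonneg hσ.1
      have := hσ.1
      positivity
  have hsnd : ∫ σ in s..ρ, (2 * σ * ((1 - σ * s) / c) - 2 * σ * √(1 - σ ^ 2)) ≤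
      ∫ σ in s..ρ, 2 * σ * hh p σ := by
    apply intervalIntegral.integral_mono_on hsρ
    · exact (by fun_prop : Continuous fun σ : ℝ =>
        2 * σ * ((1 - σ * s) / c) - 2 * σ * √(1 - σ ^ 2)).intervalIntegrable _ _
    · exact hcont2 s ρ
    · intro σ hσ
      have h1 := hline σ hσ
      have h2 : 0 ≤ 2 * σ := by linarith only [hσ.1, hs]
      have h3 := mul_le_mul_of_nonneg_left h1 h2
      unfold hh
      linarith only [h3]
  have hval : ∫ σ in s..ρ, (2 * σ * ((1 - σ * s) / c) - 2 * σ * √(1 - σ ^ 2)) =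
      (ρ ^ 2 - s ^ 2 - 2 / 3 * s * (ρ ^ 3 - s ^ 3)) / c -
        2 / 3 * (c ^ 3 - √(1 - ρ ^ 2) ^ 3) := by
    rw [intervalIntegral.integral_sub
      ((by fun_prop : Continuous fun σ : ℝ => 2 * σ * ((1 - σ * s) / c)).intervalIntegrable _ _)
      ((by fun_prop : Continuous fun σ : ℝ => 2 * σ * √(1 - σ ^ 2)).intervalIntegrable _ _),
      circ_prim hs hsρ, hcs]
    congr 1
    have h1 : ∀ x ∈ uIcc s ρ, HasDerivAt (fun σ : ℝ => (σ ^ 2 - 2 / 3 * s * σ ^ 3) / c)
        (2 * x * ((1 - x * s) / c)) x := by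
      intro x _
      have h2 := ((hasDerivAt_pow 2 x).sub ((hasDerivAt_pow 3 x).const_mul (2 / 3 * s))).div_const c
      refine h2.congr_deriv ?_
      norm_num
      ring
    rw [intervalIntegral.integral_eq_sub_of_hasDerivAt h1
      ((by fun_prop : Continuous fun σ : ℝ => 2 * σ * ((1 - σ * s) / c)).intervalIntegrable _ _)]
    ring
  have hlow : lowX ρ s c (√(1 - ρ ^ 2)) = 2 / 3 +
      ((ρ ^ 2 - s ^ 2 - 2 / 3 * s * (ρ ^ 3 - s ^ 3)) / c -
        2 / 3 * (c ^ 3 - √(1 - ρ ^ 2) ^ 3)) := by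
    unfold lowX
    field_simp
    have h1 : s ^ 2 = 1 - c ^ 2 := by linarith
    have h2 : s ^ 4 = (1 - c ^ 2) ^ 2 := by rw [← h1]; ring
    linear_combination 3 * h1 - 2 * h2
  rw [hlow, hsplit]
  linarith only [hval, hsnd, hfst]

/-- lower bound of the running integral beyond `ρ = 1` -/
theorem XX_ge_cone {ρ : ℝ} (hρ : ρ ∈ Icc 0 (p 0)) (h1 : 1 ≤ ρ) :
    ρ ^ 2 * (1 + 2 * lev p ρ) / 3 ≤ XX p ρ := by
  have hρ0 : 0 < ρ := by linarith
  have hline : ∀ σ ∈ Icc 0 ρ, 1 - (1 - lev p ρ) * σ / ρ ≤ lev p σ := by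
    intro σ hσ
    have h2 := hp.lev_concave.2 (⟨le_rfl, zero_le_one.trans hp.zero_ge⟩ : (0 : ℝ) ∈ Icc 0 (p 0)) hρ
      (div_nonneg (by linarith [hσ.2]) hρ0.le : 0 ≤ (ρ - σ) / ρ)
      (div_nonneg hσ.1 hρ0.le : 0 ≤ σ / ρ)
      (by field_simp; ring)
    simp only [smul_eq_mul, mul_zero, zero_add, hp.lev_zero, mul_one] at h2
    have h3 : σ / ρ * ρ = σ := by field_simp
    rw [h3] at h2
    refine le_trans (le_of_eq ?_) h2
    field_simp
    ring
  have hcont2 : ∀ a b : ℝ, IntervalIntegrable (fun σ => 2 * σ * hh p σ) volume a b :=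
    fun a b => mul_hh_int p (by fun_prop) a b
  have hsnd : ∫ σ in (0 : ℝ)..ρ, (2 * σ * (1 - (1 - lev p ρ) * σ / ρ) - 2 * σ * √(1 - σ ^ 2)) ≤
      ∫ σ in (0 : ℝ)..ρ, 2 * σ * hh p σ := by
    apply intervalIntegral.integral_mono_on hρ0.le
    · exact (by fun_prop : Continuous fun σ : ℝ =>
        2 * σ * (1 - (1 - lev p ρ) * σ / ρ) - 2 * σ * √(1 - σ ^ 2)).intervalIntegrable _ _
    · exact hcont2 0 ρ
    · intro σ hσ
      have h1 := hline σ hσ
      have h2 : 0 ≤ 2 * σ := by linarith only [hσ.1]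
      have h3 := mul_le_mul_of_nonneg_left h1 h2
      unfold hh
      linarith only [h3]
  have hval : ∫ σ in (0 : ℝ)..ρ, (2 * σ * (1 - (1 - lev p ρ) * σ / ρ) - 2 * σ * √(1 - σ ^ 2)) =
      ρ ^ 2 * (1 + 2 * lev p ρ) / 3 - 2 / 3 := by
    rw [intervalIntegral.integral_sub
      ((by fun_prop : Continuous fun σ : ℝ =>
        2 * σ * (1 - (1 - lev p ρ) * σ / ρ)).intervalIntegrable _ _)
      ((by fun_prop : Continuous fun σ : ℝ => 2 * σ * √(1 - σ ^ 2)).intervalIntegrable _ _),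
      circ_prim le_rfl hρ0.le]
    have h1 : ∀ x ∈ uIcc 0 ρ, HasDerivAt
        (fun σ : ℝ => σ ^ 2 - 2 / 3 * ((1 - lev p ρ) / ρ) * σ ^ 3)
        (2 * x * (1 - (1 - lev p ρ) * x / ρ)) x := by
      intro x _
      have h2 := (hasDerivAt_pow 2 x).sub
        ((hasDerivAt_pow 3 x).const_mul (2 / 3 * ((1 - lev p ρ) / ρ)))
      refine h2.congr_deriv ?_
      norm_num
      ring
    rw [intervalIntegral.integral_eq_sub_of_hasDerivAt h1
      ((by fun_prop : Continuous fun σ : ℝ =>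
        2 * σ * (1 - (1 - lev p ρ) * σ / ρ)).intervalIntegrable _ _)]
    rw [Real.sqrt_eq_zero_of_nonpos (by nlinarith : 1 - ρ ^ 2 ≤ 0)]
    simp only [ne_eq, OfNat.ofNat_ne_zero, not_false_eq_true, zero_pow, sub_zero, sqrt_one,
      one_pow, mul_one, mul_zero]
    field_simp
    ring
  unfold XX
  linarith

/-- the integrand -/
noncomputable def ph (p : ℝ → ℝ) (ρ : ℝ) : ℝ :=
  ρ * hh p ρ * (uu ρ (lev p ρ) (√(1 - ρ ^ 2)) (XX p ρ) + pt ρ) + wt ρ * (XX p ρ - 2 / 3)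

omit hp in
theorem wt_cont : Continuous wt := by
  unfold wt
  fun_prop

omit hp in
theorem pt_cont : Continuous pt := by
  unfold pt
  fun_prop

omit hp in
theorem pt_deriv {x : ℝ} (hx : x ≠ 24 / 25) : HasDerivAt pt (2 * wt x) x := by
  rcases lt_or_gt_of_ne hx with h | h
  · have h1 : pt =ᶠ[nhds x] fun y => -(13 / 5 * (24 / 25 - y) ^ 2) := by
      filter_upwards [gt_mem_nhds h] with y hy
      exact pt_of_lt (le_of_lt hy)
    rw [wt_of_lt h.le]
    refine HasDerivAt.congr_of_eventuallyEq ?_ h1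
    have h2 := ((((hasDerivAt_id x).const_sub (24 / 25)).pow 2).const_mul (13 / 5)).neg
    refine h2.congr_deriv ?_
    simp
    ring
  · have h1 : pt =ᶠ[nhds x] fun _ => 0 := by
      filter_upwards [lt_mem_nhds h] with y hy
      exact pt_of_ge (le_of_lt hy)
    rw [wt_of_ge h.le, mul_zero]
    exact (hasDerivAt_const x (0 : ℝ)).congr_of_eventuallyEq h1

theorem ftc_main :
    ∫ ρ in (0 : ℝ)..p 0, ((K0 * √(3 / 2 * XX p ρ) + pt ρ) * ρ * hh p ρ +
      wt ρ * (XX p ρ - 2 / 3)) =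
    3 * π / 16 * ((3 / 2 * XX p (p 0)) * √(3 / 2 * XX p (p 0))) - 3 * π / 16 := by
  have hR := hp.zero_ge
  have hX := XX_cont p
  have hpt := pt_cont
  have hwt := wt_cont
  have h := integral_eq_of_hasDerivAt_off_countable_of_le
    (fun ρ : ℝ => 3 * π / 16 * ((3 / 2 * XX p ρ) * √(3 / 2 * XX p ρ)) +
      pt ρ / 2 * (XX p ρ - 2 / 3))
    (fun ρ => (K0 * √(3 / 2 * XX p ρ) + pt ρ) * ρ * hh p ρ + wt ρ * (XX p ρ - 2 / 3))
    (zero_le_one.trans hR) (s := {24 / 25}) (countable_singleton _) (by fun_prop) ?_ ?_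
  · rw [h]
    have h0 : XX p 0 = 2 / 3 := by simp [XX]
    have h1 : pt (p 0) = 0 := pt_of_ge (by linarith only [hR])
    rw [h0, h1]
    norm_num
  · rintro x ⟨hx, hx1⟩
    have h1 := hp.XX_deriv hx
    have h2 := pt_deriv (show x ≠ 24 / 25 from hx1)
    have hX0 : 2 / 3 ≤ XX p x := hp.XX_ge hx.1.le
    have hY0 : (3 / 2 * XX p x) ≠ 0 := by
      have : 0 < 3 / 2 * XX p x := by linarith
      exact this.ne'
    have h3 := h1.const_mul (3 / 2)
    have h4 := h3.sqrt hY0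
    have h5 := (h3.mul h4).const_mul (3 * π / 16)
    have h6 := (h2.div_const 2).mul (h1.sub_const (2 / 3))
    refine (h5.add h6).congr_deriv ?_
    have hs : √(3 / 2 * XX p x) ≠ 0 := by
      have : 0 < 3 / 2 * XX p x := by linarith
      exact (Real.sqrt_pos.2 this).ne'
    have hsq : √(3 / 2 * XX p x) ^ 2 = 3 / 2 * XX p x := Real.sq_sqrt (by linarith)
    have h7 : 3 / 2 * XX p x * (3 / 2 * (2 * x * hh p x) / (2 * √(3 / 2 * XX p x))) =
        3 / 2 * x * hh p x * √(3 / 2 * XX p x) := by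
      rw [← mul_div_assoc, div_eq_iff (by positivity)]
      linear_combination (-3 * x * hh p x) * hsq
    rw [h7]
    unfold K0
    ring
  · apply IntervalIntegrable.add
    · exact (hh_int p _ _).continuousOn_mul (by fun_prop)
    · exact (by fun_prop : Continuous fun ρ : ℝ => wt ρ * (XX p ρ - 2 / 3)).intervalIntegrable _ _

theorem ph_eq (ρ : ℝ) : ph p ρ = ((K0 * √(3 / 2 * XX p ρ) + pt ρ) * ρ * hh p ρ +
      wt ρ * (XX p ρ - 2 / 3)) - 3 * ρ ^ 2 * hh p ρ + 47 / 500 * (5 * ρ ^ 4 * hh p ρ -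
        5 * (3 * ρ ^ 2 * ((lev p ρ ^ 3 - √(1 - ρ ^ 2) ^ 3) / 3))) := by
  unfold ph uu hh
  ring

theorem i1 : IntervalIntegrable (fun ρ => (K0 * √(3 / 2 * XX p ρ) + pt ρ) * ρ * hh p ρ +
      wt ρ * (XX p ρ - 2 / 3)) volume 0 (p 0) := by
  have hX := XX_cont p
  have hpt := pt_cont
  have hwt := wt_cont
  apply IntervalIntegrable.add
  · exact (hh_int p _ _).continuousOn_mul (by fun_prop)
  · exact (by fun_prop : Continuous fun ρ : ℝ => wt ρ * (XX p ρ - 2 / 3)).intervalIntegrable _ _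

theorem i2 : IntervalIntegrable (fun ρ => 3 * ρ ^ 2 * hh p ρ) volume 0 (p 0) :=
  mul_hh_int p (by fun_prop) _ _

theorem i3 : IntervalIntegrable (fun ρ => 5 * ρ ^ 4 * hh p ρ) volume 0 (p 0) :=
  mul_hh_int p (by fun_prop) _ _

theorem i4 : IntervalIntegrable
    (fun ρ => 3 * ρ ^ 2 * ((lev p ρ ^ 3 - √(1 - ρ ^ 2) ^ 3) / 3)) volume 0 (p 0) := by
  have h1 : IntervalIntegrable (fun ρ => lev p ρ ^ 3 - √(1 - ρ ^ 2) ^ 3) volume 0 (p 0) :=
    (lev_cube_int p _ _).sub ((circ_cont.pow 3).intervalIntegrable _ _)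
  exact (h1.div_const 3).continuousOn_mul (by fun_prop)

theorem ph_int : IntervalIntegrable (ph p) volume 0 (p 0) := by
  have h := (hp.i1.sub hp.i2).add ((hp.i3.sub (hp.i4.const_mul 5)).const_mul (47 / 500))
  refine h.congr ?_
  intro ρ _
  simp only
  rw [hp.ph_eq]

theorem integral_ph : ∫ ρ in (0 : ℝ)..p 0, ph p ρ =
    3 * π / 16 * ((3 / 2 * ∫ y in (0 : ℝ)..1, p y ^ 2) * √(3 / 2 * ∫ y in (0 : ℝ)..1, p y ^ 2)) -
      (∫ y in (0 : ℝ)..1, p y ^ 3) + 47 / 500 * ((∫ y in (0 : ℝ)..1, p y ^ 5) -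
        5 * ∫ y in (0 : ℝ)..1, y ^ 2 * p y ^ 3) := by
  have e1 := hp.ftc_main
  have e2 := hp.int_pow_hh 2
  have e3 := hp.int_pow_hh 4
  have e4 := hp.int_cube
  rw [hp.XX_end] at e1
  norm_num at e2 e3
  rw [aInt_three] at e2
  have e5 : ∫ ρ in (0 : ℝ)..p 0, ph p ρ = (∫ ρ in (0 : ℝ)..p 0,
      ((K0 * √(3 / 2 * XX p ρ) + pt ρ) * ρ * hh p ρ + wt ρ * (XX p ρ - 2 / 3))) -
      (∫ ρ in (0 : ℝ)..p 0, 3 * ρ ^ 2 * hh p ρ) + 47 / 500 *
      ((∫ ρ in (0 : ℝ)..p 0, 5 * ρ ^ 4 * hh p ρ) -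
        5 * ∫ ρ in (0 : ℝ)..p 0, 3 * ρ ^ 2 * ((lev p ρ ^ 3 - √(1 - ρ ^ 2) ^ 3) / 3)) := by
    rw [← intervalIntegral.integral_sub hp.i1 hp.i2, ← intervalIntegral.integral_const_mul 5,
      ← intervalIntegral.integral_sub hp.i3 (hp.i4.const_mul 5),
      ← intervalIntegral.integral_const_mul (47 / 500),
      ← intervalIntegral.integral_add (hp.i1.sub hp.i2)
        ((hp.i3.sub (hp.i4.const_mul 5)).const_mul (47 / 500))]
    refine intervalIntegral.integral_congr fun ρ _ => ?_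
    exact hp.ph_eq ρ
  have h5 := aInt_five
  rw [e5, e1, e2, e3, e4]
  linear_combination (-47 / 1000 : ℝ) * h5

theorem ph_nonneg {ρ : ℝ} (hρ : ρ ∈ Ioc 0 (p 0)) : 0 ≤ ph p ρ ∧ (ph p ρ = 0 → hh p ρ = 0) := by
  have hρ0 : 0 < ρ := hρ.1
  have h1 := hp.hh_nonneg hρ0.le
  have hX0 := hp.XX_ge hρ0.le
  rcases h1.eq_or_lt with h | h
  · refine ⟨?_, fun _ => h.symm⟩
    unfold ph
    rw [← h]
    have := mul_nonneg (wt_nonneg ρ) (by linarith : 0 ≤ XX p ρ - 2 / 3)
    linarith only [this]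
  · have h2 : 0 < ph p ρ := by
      unfold ph hh
      apply pointwise hρ0 (lev_le_one p ρ)
      · unfold hh at h
        linarith
      · intro s c hs hsρ hc hsc ht
        exact hp.XX_ge_lowX ⟨hρ0.le, hρ.2⟩ hs hsρ hc hsc ht
      · intro h3
        exact hp.XX_ge_cone ⟨hρ0.le, hρ.2⟩ h3
    exact ⟨h2.le, fun h3 => absurd h3 h2.ne'⟩

/-- The inequality in half form, with the equality case. -/
theorem half_ineq (hM : ∫ y in (0 : ℝ)..1, p y ^ 5 ≤ 5 * ∫ y in (0 : ℝ)..1, y ^ 2 * p y ^ 3) :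
    (∫ y in (0 : ℝ)..1, p y ^ 3) ≤ 3 * π / 16 * ((3 / 2 * ∫ y in (0 : ℝ)..1, p y ^ 2) *
      √(3 / 2 * ∫ y in (0 : ℝ)..1, p y ^ 2)) ∧
    (3 * π / 16 * ((3 / 2 * ∫ y in (0 : ℝ)..1, p y ^ 2) *
      √(3 / 2 * ∫ y in (0 : ℝ)..1, p y ^ 2)) ≤ (∫ y in (0 : ℝ)..1, p y ^ 3) →
      ∫ y in (0 : ℝ)..1, p y ^ 3 = 3 * π / 16) := by
  have hR0 : 0 ≤ p 0 := zero_le_one.trans hp.zero_ge
  have h0 : 0 ≤ ∫ ρ in (0 : ℝ)..p 0, ph p ρ := by
    rw [intervalIntegral.integral_of_le hR0]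
    exact setIntegral_nonneg measurableSet_Ioc fun ρ hρ => (hp.ph_nonneg hρ).1
  have h1 := hp.integral_ph
  refine ⟨by linarith, fun h2 => ?_⟩
  have h3 : ∫ ρ in (0 : ℝ)..p 0, ph p ρ = 0 := le_antisymm (by linarith) h0
  rw [intervalIntegral.integral_of_le hR0] at h3
  have h4 : IntegrableOn (ph p) (Ioc 0 (p 0)) := by
    have := hp.ph_int
    rwa [intervalIntegrable_iff_integrableOn_Ioc_of_le hR0] at this
  have h5 := (setIntegral_eq_zero_iff_of_nonneg_ae
    ((ae_restrict_iff' measurableSet_Ioc).2 (ae_of_all _ fun ρ hρ => (hp.ph_nonneg hρ).1)) h4).1 h3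
  have h6 := hp.int_pow_hh 2
  norm_num at h6
  rw [aInt_three] at h6
  have h7 : ∫ ρ in (0 : ℝ)..p 0, 3 * ρ ^ 2 * hh p ρ = 0 := by
    rw [intervalIntegral.integral_of_le hR0]
    apply integral_eq_zero_of_ae
    filter_upwards [h5, ae_restrict_mem measurableSet_Ioc] with ρ h8 h9
    simp only [Pi.zero_apply] at h8 ⊢
    rw [(hp.ph_nonneg h9).2 h8, mul_zero]
  rw [h7] at h6
  linarith

end IsHalf

theorem one_d_john3 {r : ℝ → ℝ} (hc : ConcaveOn ℝ (Icc (-1) 1) r) (he : ∀ y, r (-y) = r y)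
    (hge : ∀ y ∈ Icc (-1 : ℝ) 1, √(1 - y ^ 2) ≤ r y)
    (hM : ∫ y in (-1 : ℝ)..1, r y ^ 5 ≤ 5 * ∫ y in (-1 : ℝ)..1, y ^ 2 * r y ^ 3) :
    aInt 2 ^ 3 * (∫ y in (-1 : ℝ)..1, r y ^ 3) ^ 2 ≤
      (∫ y in (-1 : ℝ)..1, r y ^ 2) ^ 3 * aInt 3 ^ 2 ∧
    ((∫ y in (-1 : ℝ)..1, r y ^ 2) ^ 3 * aInt 3 ^ 2 ≤
      aInt 2 ^ 3 * (∫ y in (-1 : ℝ)..1, r y ^ 3) ^ 2 →
      ∫ y in (-1 : ℝ)..1, r y ^ 3 = aInt 3) := by
  have hc' : ConcaveOn ℝ (Icc 0 1) r :=
    hc.subset (Icc_subset_Icc_left (by norm_num)) (convex_Icc 0 1)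
  have hp' : ∀ y ∈ Icc (0 : ℝ) 1, √(1 - y ^ 2) ≤ r y :=
    fun y hy => hge y ⟨by linarith [hy.1], hy.2⟩
  have hanti : AntitoneOn r (Icc 0 1) := by
    intro x hx y hy hxy
    rcases hy.1.eq_or_lt with h0 | h0
    · have : x = y := le_antisymm hxy (by rw [← h0]; exact hx.1)
      rw [this]
    · have h1 := hc.2 (⟨by linarith [hy.1, hy.2], by linarith [hy.1, hy.2]⟩ : -y ∈ Icc (-1 : ℝ) 1)
        (⟨by linarith [hy.1], hy.2⟩ : y ∈ Icc (-1 : ℝ) 1)
        (div_nonneg (by linarith) (by linarith) : 0 ≤ (y - x) / (2 * y))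
        (div_nonneg (by linarith [hx.1]) (by linarith) : 0 ≤ (y + x) / (2 * y))
        (by field_simp; ring)
      simp only [smul_eq_mul, he] at h1
      have h2 : (y - x) / (2 * y) * -y + (y + x) / (2 * y) * y = x := by
        field_simp
        ring
      have h3 : (y - x) / (2 * y) * r y + (y + x) / (2 * y) * r y = r y := by
        field_simp
        ring
      rw [h2, h3] at h1
      exact h1
  have hp : IsHalf r := ⟨hc', hanti, hp'⟩
  have hp0 : ∀ y ∈ Icc (0 : ℝ) 1, 0 ≤ r y := fun y hy => hp.nonneg hy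
  have hint := pow_intervalIntegrable hc' hp0
  have hyp2 : IntervalIntegrable (fun y => y ^ 2 * r y ^ 3) volume 0 1 :=
    (hint 3).continuousOn_mul (by fun_prop)
  rw [integral_even_eq (by intro y; simp [he]) (hint 5),
    integral_even_eq (by intro y; simp [he]) hyp2] at hM
  rw [integral_even_eq (by intro y; simp [he]) (hint 2),
    integral_even_eq (by intro y; simp [he]) (hint 3), aInt_two, aInt_three]
  obtain ⟨h1, h2⟩ := hp.half_ineq (by linarith)
  obtain ⟨A, hA⟩ : ∃ A, A = ∫ y in (0 : ℝ)..1, r y ^ 2 := ⟨_, rfl⟩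
  obtain ⟨B, hB⟩ : ∃ B, B = ∫ y in (0 : ℝ)..1, r y ^ 3 := ⟨_, rfl⟩
  rw [← hA, ← hB] at h1 h2 ⊢
  have hB0 : 0 ≤ B := by
    rw [hB]
    exact intervalIntegral.integral_nonneg zero_le_one fun y hy => pow_nonneg (hp0 y hy) 3
  have hA0 : 0 ≤ A := by
    rw [hA]
    exact intervalIntegral.integral_nonneg zero_le_one fun y hy => pow_nonneg (hp0 y hy) 2
  have hsq : √(3 / 2 * A) ^ 2 = 3 / 2 * A := Real.sq_sqrt (by positivity)
  have hS0 : 0 ≤ √(3 / 2 * A) := Real.sqrt_nonneg _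
  have hval : (3 * π / 16 * ((3 / 2 * A) * √(3 / 2 * A))) ^ 2 =
      (3 * π / 16) ^ 2 * (3 / 2 * A) ^ 3 := by
    have : (3 * π / 16 * ((3 / 2 * A) * √(3 / 2 * A))) ^ 2 =
      (3 * π / 16) ^ 2 * (3 / 2 * A) ^ 2 * √(3 / 2 * A) ^ 2 := by ring
    rw [this, hsq]
    ring
  constructor
  · have h3 := pow_le_pow_left₀ hB0 h1 2
    rw [hval] at h3
    linarith only [h3]
  · intro h4
    have h5 : (3 * π / 16 * ((3 / 2 * A) * √(3 / 2 * A))) ^ 2 ≤ B ^ 2 := by
      rw [hval]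
      linarith only [h4]
    have h6 := (pow_le_pow_iff_left₀ (by (clear * - hA0; positivity)) hB0 two_ne_zero).1 h5
    have h7 := h2 h6
    rw [h7]
    ring

end Vale.Agent.P237.J4
end

section

set_option linter.all false

/-!
# P237: Petty's conjecture in dimension four
-/

open MeasureTheory Metric Set Module
open scoped Pointwise

namespace Vale.Agent.P237.J4

open AllN

theorem oneJohn_three : OneJohn 3 := by
  intro r hc he hge hM
  norm_num at hM
  exact one_d_john3 hc he hge hM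

/-- The inequality in dimension four. -/
theorem pettyIneq_four : PettyIneq 4 := pettyIneq_four_of oneJohn_three

theorem petty_four {V : Type} [NormedAddCommGroup V] [InnerProductSpace ℝ V]
    [FiniteDimensional ℝ V] [MeasurableSpace V] [BorelSpace V] (hd : finrank ℝ V = 4) :
    Statement.PettyIn V 4 := petty_four_of oneJohn_three hd

end Vale.Agent.P237.J4
end

section

/-!
# P237, almost Petty in all dimensions: the final form
-/

open MeasureTheory Metric Set Module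

namespace Vale.Agent.P237.Statement

variable {V : Type} [NormedAddCommGroup V] [InnerProductSpace ℝ V] [FiniteDimensional ℝ V]
  [MeasurableSpace V] [BorelSpace V]

/-- Petty's inequality up to the factor `2/√(3π)` in every dimension `n ≥ 3`. -/
theorem almost_petty {n : ℕ} (hn : 3 ≤ n) (hd : finrank ℝ V = n) {K L : Set V}
    (hK : IsConvexBody K) (hL : IsProjectionBody K L) :
    2 / Real.sqrt (3 * Real.pi) *
      (kappa (n - 1) ^ n * kappa n ^ (2 - (n : ℤ)) * vol K ^ (n - 1)) ≤ vol L := by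
  have hK' : IsBody K := ⟨hK.1, hK.2.1, hK.2.2⟩
  obtain rfl := (isProjectionBody_iff hK).1 hL
  have h := Alm.pettyC_all hn V hd K hK'
  rw [← mul_assoc]
  exact h

end Vale.Agent.P237.Statement
end

section

set_option linter.all false

/-!
# P237: dimension four and the resulting constant in all dimensions
-/

open MeasureTheory Metric Set Module

namespace Vale.Agent.P237.J4

open AllN Alm

theorem cst_four : cst 4 * (3 * Real.pi / 8) = 1 := by
  unfold cst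
  have h : (8 * ((4 : ℕ) : ℝ) / (3 * (((4 : ℕ) : ℝ) - 1) * (((4 : ℕ) : ℝ) - 2))) = (4 / 3) ^ 2 := by
    push_cast; norm_num
  rw [show 4 - 3 = 1 by omega, aInt_one, h, Real.sqrt_sq (by norm_num)]
  have := Real.pi_pos
  field_simp
  norm_num

theorem pettyC_cst4 {n : ℕ} (hn : 4 ≤ n) : PettyC n (cst n * (3 * Real.pi / 8)) := by
  induction n, hn using Nat.le_induction with
  | base => rw [cst_four]; exact pettyC_one_of pettyIneq_four
  | succ m hm ih =>
    rw [← del_mul_cst (by omega : 3 ≤ m), mul_assoc]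
    have h0 : 0 ≤ cst m * (3 * Real.pi / 8) :=
      mul_nonneg (cst_nonneg m) (by have := Real.pi_pos; positivity)
    exact step (by omega : 3 ≤ m) h0 ih

theorem le_cst4 {n : ℕ} (hn : 4 ≤ n) : Real.sqrt (3 * Real.pi) / 4 ≤ cst n * (3 * Real.pi / 8) := by
  have h := le_cst (by omega : 3 ≤ n)
  have hpi := Real.pi_pos
  have h2 : Real.sqrt (3 * Real.pi) / 4 = 2 / Real.sqrt (3 * Real.pi) * (3 * Real.pi / 8) := by
    have h3 : 0 < Real.sqrt (3 * Real.pi) := Real.sqrt_pos.2 (by positivity)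
    have h4 : Real.sqrt (3 * Real.pi) ^ 2 = 3 * Real.pi := Real.sq_sqrt (by positivity)
    field_simp
    linarith
  rw [h2]
  exact mul_le_mul_of_nonneg_right h (by positivity)

theorem pettyC_all4 {n : ℕ} (hn : 4 ≤ n) : PettyC n (Real.sqrt (3 * Real.pi) / 4) := by
  intro W _ _ _ _ _ hd S hS
  have h := pettyC_cst4 hn W hd S hS
  have hR := Alm.RC_pos (m := n) (by omega)
  have hv := (Main.vol_pos hS).le
  refine le_trans ?_ h
  exact mul_le_mul_of_nonneg_right (mul_le_mul_of_nonneg_right (le_cst4 hn) hR.le) (by positivity)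

end Vale.Agent.P237.J4

namespace Vale.Agent.P237.Statement

variable {V : Type} [NormedAddCommGroup V] [InnerProductSpace ℝ V] [FiniteDimensional ℝ V]
  [MeasurableSpace V] [BorelSpace V]

/-- Petty's inequality up to the factor `√(3π)/4` in every dimension `n ≥ 4`. -/
theorem almost_petty4 {n : ℕ} (hn : 4 ≤ n) (hd : finrank ℝ V = n) {K L : Set V}
    (hK : IsConvexBody K) (hL : IsProjectionBody K L) :
    Real.sqrt (3 * Real.pi) / 4 *
      (kappa (n - 1) ^ n * kappa n ^ (2 - (n : ℤ)) * vol K ^ (n - 1)) ≤ vol L := by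
  have hK' : IsBody K := ⟨hK.1, hK.2.1, hK.2.2⟩
  obtain rfl := (isProjectionBody_iff hK).1 hL
  have h := J4.pettyC_all4 hn V hd K hK'
  rw [← mul_assoc]
  exact h

end Vale.Agent.P237.Statement
end

section

/-!
# P237, all dimensions: final assembly, induction started in dimension four
-/

open MeasureTheory Metric Set Module

namespace Vale.Agent.P237.AllN

variable {V : Type} [NormedAddCommGroup V] [InnerProductSpace ℝ V] [FiniteDimensional ℝ V]
  [MeasurableSpace V] [BorelSpace V]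

/-- The inequality in all dimensions from the one-dimensional statements. -/
theorem pettyIneq_from4 {N : ℕ} (h : ∀ m : ℕ, 4 ≤ m → m < N → ∃ θ : ℝ, OneDF m θ) :
    ∀ n : ℕ, 4 ≤ n → n ≤ N → PettyIneq n := by
  intro n hn
  induction n, hn using Nat.le_induction with
  | base => exact fun _ => J4.pettyIneq_four
  | succ m hm ih =>
    intro hN
    obtain ⟨θ, hθ⟩ := h m hm (by omega)
    exact pettyIneq_succ_F (by omega) hθ (ih (by omega))

/-- Petty's conjecture in dimensions `3 ≤ n ≤ N` from the one-dimensional statements. -/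
theorem petty_from4 {N : ℕ} (h : ∀ m : ℕ, 4 ≤ m → m < N → ∃ θ : ℝ, OneDF m θ) {n : ℕ}
    (hn : 3 ≤ n) (hN : n ≤ max 4 N) (hd : finrank ℝ V = n) : Statement.PettyIn V n := by
  rcases hn.eq_or_lt with h3 | h3
  · subst h3
    exact Statement.petty_dim_three hd
  rcases (show 4 ≤ n by omega).eq_or_lt with h4 | h4
  · subst h4
    exact J4.petty_four hd
  · have hN' : n ≤ N := by
      rcases le_max_iff.1 hN with h | h <;> omega
    obtain ⟨m, rfl⟩ : ∃ m, n = m + 1 := ⟨n - 1, by omega⟩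
    obtain ⟨θ, hθ⟩ := h m (by omega) (by omega)
    exact pettyIn_succ_F (by omega) hθ (pettyIneq_from4 h m (by omega) (by omega)) hd

/-- Petty's conjecture in all dimensions from the one-dimensional statements. -/
theorem petty_all_from4 (h : ∀ m : ℕ, 4 ≤ m → ∃ θ : ℝ, OneDF m θ) {n : ℕ}
    (hn : 3 ≤ n) (hd : finrank ℝ V = n) : Statement.PettyIn V n :=
  petty_from4 (N := n) (fun m hm _ => h m hm) hn (le_max_right _ _) hd

open Alm in
/-- The factor in the remaining dimensions. -/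
theorem pettyC_from4 {N : ℕ} (hN : 4 ≤ N) (h : ∀ m : ℕ, 4 ≤ m → m < N → ∃ θ : ℝ, OneDF m θ) {n : ℕ}
    (hn : N ≤ n) : PettyC n (cst n * (cst N)⁻¹) := by
  have hc : ∀ n, 4 ≤ n → 0 < cst n := by
    intro n hn
    have h1 := le_cst (by omega : 3 ≤ n)
    have h2 : 0 < 2 / Real.sqrt (3 * Real.pi) := by
      have := Real.pi_pos
      positivity
    linarith only [h2, h1]
  induction n, hn using Nat.le_induction with
  | base =>
    rw [mul_inv_cancel₀ (hc N hN).ne']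
    exact J4.pettyC_one_of (pettyIneq_from4 h N hN le_rfl)
  | succ m hm ih =>
    rw [← del_mul_cst (by omega : 3 ≤ m), mul_assoc]
    have h0 : 0 ≤ cst m * (cst N)⁻¹ :=
      mul_nonneg (cst_nonneg m) (inv_nonneg.2 (cst_nonneg N))
    exact step (by omega : 3 ≤ m) h0 ih

open Alm in
/-- Petty's inequality up to a factor in the remaining dimensions. -/
theorem almost_from4 {N : ℕ} (hN : 4 ≤ N) (h : ∀ m : ℕ, 4 ≤ m → m < N → ∃ θ : ℝ, OneDF m θ)
    {κ : ℝ} (hκ : κ * cst N ≤ 2 / Real.sqrt (3 * Real.pi)) {n : ℕ}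
    (hn : N ≤ n) (hd : finrank ℝ V = n) {K L : Set V}
    (hK : Statement.IsConvexBody K) (hL : Statement.IsProjectionBody K L) :
    κ * (Statement.kappa (n - 1) ^ n * Statement.kappa n ^ (2 - (n : ℤ)) *
      Statement.vol K ^ (n - 1)) ≤ Statement.vol L := by
  have hK' : IsBody K := ⟨hK.1, hK.2.1, hK.2.2⟩
  obtain rfl := (Statement.isProjectionBody_iff hK).1 hL
  have h1 := pettyC_from4 hN h hn V hd K hK'
  have hR := Alm.RC_pos (m := n) (by omega)
  have hv := (Main.vol_pos hK').le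
  have hcN : 0 < cst N := by
    have h1 := le_cst (by omega : 3 ≤ N)
    have h2 : 0 < 2 / Real.sqrt (3 * Real.pi) := by
      have := Real.pi_pos
      positivity
    linarith only [h2, h1]
  have h2 : κ ≤ cst n * (cst N)⁻¹ := by
    rw [← div_eq_mul_inv, le_div_iff₀ hcN]
    exact hκ.trans (le_cst (by omega : 3 ≤ n))
  rw [← mul_assoc]
  refine le_trans ?_ h1
  exact mul_le_mul_of_nonneg_right (mul_le_mul_of_nonneg_right h2 hR.le) (by positivity)

end Vale.Agent.P237.AllN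
end

section

/-!
# P237, all dimensions: values of the constant
-/

open Real

namespace Vale.Agent.P237.AllN

open Alm

theorem cstb_of {N : ℕ} {κ a q : ℝ} (ha : 0 < a) (hA : aInt (N - 3) = a)
    (hq : (8 * (N : ℝ) / (3 * ((N : ℝ) - 1) * ((N : ℝ) - 2))) = q) (hq0 : 0 ≤ q)
    (h : κ ^ 2 * q * (3 * 3.1416) ≤ 4 * a ^ 2) : κ * cst N ≤ 2 / Real.sqrt (3 * Real.pi) := by
  have hpi := Real.pi_pos
  have hpi' : Real.pi < 3.1416 := Real.pi_lt_d4
  have h3 : 0 < Real.sqrt (3 * Real.pi) := Real.sqrt_pos.2 (by positivity)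
  have h4 : Real.sqrt (3 * Real.pi) ^ 2 = 3 * Real.pi := Real.sq_sqrt (by positivity)
  unfold cst
  rw [hA, hq, ← mul_div_assoc, div_le_div_iff₀ ha h3]
  have h5 : Real.sqrt q ^ 2 = q := Real.sq_sqrt hq0
  have h6 : 0 ≤ Real.sqrt q := Real.sqrt_nonneg q
  refine abs_le_of_sq_le_sq' (b := 2 * a) ?_ (by positivity) |>.2
  calc (κ * Real.sqrt q * Real.sqrt (3 * Real.pi)) ^ 2
      = κ ^ 2 * Real.sqrt q ^ 2 * Real.sqrt (3 * Real.pi) ^ 2 := by ring
    _ = κ ^ 2 * q * (3 * Real.pi) := by rw [h5, h4]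
    _ ≤ κ ^ 2 * q * (3 * 3.1416) := by
        apply mul_le_mul_of_nonneg_left _ (by positivity)
        linarith only [hpi']
    _ ≤ 4 * a ^ 2 := h
    _ = (2 * a) ^ 2 := by ring

theorem cstb_five : 4 / 5 * cst 5 ≤ 2 / Real.sqrt (3 * Real.pi) := by
  have e2 : aInt 2 = 4 / 3 := by
    have := aInt_rec 0
    rw [aInt_zero] at this
    norm_num at this ⊢
    linarith
  exact cstb_of (N := 5) (a := 4 / 3) (q := 10 / 9) (by norm_num) e2 (by norm_num)
    (by norm_num) (by norm_num)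

theorem cstb_aInt : aInt 24 = 2 * (2 / 3) * (4 / 5) * (6 / 7) * (8 / 9) * (10 / 11) * (12 / 13) *
    (14 / 15) * (16 / 17) * (18 / 19) * (20 / 21) * (22 / 23) * (24 / 25) := by
  have e0 := aInt_zero
  have e2 := aInt_rec 0
  have e4 := aInt_rec 2
  have e6 := aInt_rec 4
  have e8 := aInt_rec 6
  have e10 := aInt_rec 8
  have e12 := aInt_rec 10
  have e14 := aInt_rec 12
  have e16 := aInt_rec 14
  have e18 := aInt_rec 16
  have e20 := aInt_rec 18
  have e22 := aInt_rec 20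
  have e24 := aInt_rec 22
  norm_num at e2 e4 e6 e8 e10 e12 e14 e16 e18 e20 e22 e24 ⊢
  linarith

theorem cstb_27 : 97 / 100 * cst 27 ≤ 2 / Real.sqrt (3 * Real.pi) := by
  exact cstb_of (N := 27) (a := 2 * (2 / 3) * (4 / 5) * (6 / 7) * (8 / 9) * (10 / 11) * (12 / 13) *
    (14 / 15) * (16 / 17) * (18 / 19) * (20 / 21) * (22 / 23) * (24 / 25)) (q := 216 / 1950)
    (by norm_num) cstb_aInt (by norm_num) (by norm_num) (by norm_num)

end Vale.Agent.P237.AllN
end

section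

/-!
# P237: the one-dimensional statement for `m = 4`
-/

open MeasureTheory Metric Set Module Filter Topology

namespace Vale.Agent.P237.AllN

open PolyPos Alm

/-- **The one-dimensional statement for `m = 4`** (dimension `n = 5`). -/
theorem oneD_four : OneD 4 := by
  refine oneD_of_cert le_rfl kA_kern2 (fun x hx b hb => kA_line_ball hx hb) ?_
  intro r τ τ' T hr hT hN
  have hμ : (0 : ℝ) ≤ 1 + 42 / 25 * lf τ (2 / 3) := by
    have := M4.in_lamlo hr hT
    linarith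
  refine cert_pole le_rfl kA_kern2 hr hT hN (XPair.zero 4 τ τ') ?_ hμ M4.x0_mem (41 / 100) (7 / 25)
    (gL := fun x => 11 / 200 * x ^ 2) (gL' := fun x => 11 / 200 * (2 * x))
    (gR := fun _ => 0) (gR' := fun _ => 0)
    (eL := fun x => 31 / 100 * x ^ 2) (eL' := fun x => 31 / 100 * (2 * x))
    (eR := fun _ => 0) (eR' := fun _ => 0) (f := fun _ => 0) (f' := fun _ => 0)
    ?_ ?_ ?_ ?_ ?_ ?_ ?_ ?_ ?_ ?_ (ε := 1 / 1000) (by norm_num) ?_ ?_
  · intro x hx b hb
    have h1 := hT.kA_plain_le le_rfl (by norm_num) hr hN hx hb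
    have h2 : Real.log (τ x / x) = lf τ x := rfl
    rw [h2, kAc_bc0 hx, kAp_bM0, pin_exp hT hx] at h1
    simpa using h1
  · intro x _
    have := ((hasDerivAt_pow 2 x).const_mul (11 / 200 : ℝ))
    simpa only [Nat.cast_ofNat, Nat.add_one_sub_one, pow_one] using this
  · fun_prop
  · intro x _
    exact hasDerivAt_const x 0
  · exact continuousOn_const
  · intro x _
    have := ((hasDerivAt_pow 2 x).const_mul (31 / 100 : ℝ))
    simpa only [Nat.cast_ofNat, Nat.add_one_sub_one, pow_one] using this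
  · fun_prop
  · intro x _
    exact hasDerivAt_const x 0
  · exact continuousOn_const
  · intro x _
    exact hasDerivAt_const x 0
  · exact continuousOn_const
  · intro x hx hx0
    refine (M4.ptL hr hT hx hx0).trans (le_of_eq ?_)
    unfold pcNL
    rw [show ((2 : ℝ) / 3) ^ 2 = 4 / 9 by norm_num]
    ring
  · intro x hx hx0
    refine (M4.ptR hr hT hx hx0).trans (le_of_eq ?_)
    unfold pcNR
    rw [show ((2 : ℝ) / 3) ^ 2 = 4 / 9 by norm_num]
    ring

theorem oneDF_four : ∃ θ : ℝ, OneDF 4 θ := ⟨0, oneD_four.toF⟩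

end Vale.Agent.P237.AllN
end

section

/-!
# P237: Petty's conjecture in dimension five
-/

open MeasureTheory Metric Set Module

namespace Vale.Agent.P237.AllN

theorem range5 : ∀ m : ℕ, 4 ≤ m → m < 5 → ∃ θ : ℝ, OneDF m θ := by
  intro m hm hm'
  obtain rfl : m = 4 := by omega
  exact oneDF_four

end Vale.Agent.P237.AllN
end
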