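import Vale.Agent.P237.Bd3.B11
import Vale.Agent.P237.Bd3.B18
import Vale.Agent.P237.Bd3.B4
import Vale.Agent.P237.Bd3.B20
import Vale.Agent.P237.Bd3.B3
import Vale.Agent.P237.Bd3.B10
import Vale.Agent.P237.Bd3.B13
import Vale.Agent.P237.Bd3.B19
import Vale.Agent.P237.Bd3.B17

set_option linter.all false

section

/-!
# P237, all dimensions: `l ≤ (1 - x²)(127/200 + 33/200 x²)` for `4 ≤ m ≤ 26`
-/

open MeasureTheory Metric Set Module Filter Topology Real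

namespace Vale.Agent.P237.AllN

/-- nodes, `m = 23` -/
def nodes23 : List (ℤ × ℤ × ℤ) :=
    [(1099, 1050599, 1877218), (1212, 1147406, 2061040), (1342, 1254998, 2270153),
     (1494, 1375319, 2509701), (1674, 1509687, 2788244), (1893, 1660670, 3115696),
     (2166, 1828958, 3510148), (2520, 2013933, 3994967), (3001, 2207562, 4610510),
     (3701, 2386941, 5418990), (4266, 2465133, 6526186), (4719, 2499300, 7347974),
     (5081, 2514766, 7952929), (5371, 2522171, 8398026), (5605, 2525954, 8728106),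
     (5796, 2528019, 8976301), (5953, 2529213, 9166374), (6083, 2529940, 9313923),
     (6192, 2530407, 9430022), (6285, 2530721, 9523042), (6365, 2530940, 9599244),
     (6436, 2531102, 9662433), (6500, 2531224, 9716665), (6559, 2531320, 9764049),
     (6615, 2531399, 9806460), (6668, 2531462, 9845579), (6721, 2531517, 9881577),
     (6774, 2531565, 9916572), (6827, 2531605, 9950559), (6881, 2531640, 9983531),
     (6900, 2531651, 10016077)]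

/-- cells, `m = 23` -/
def cells23 : List (ℤ × ℤ) :=
    [(7462000, 10000000), (7941000, 9430000), (8560000, 7803000), (9439000, 5982000),
     (10000000, 4372000)]

theorem tP23 : tQairs (tAo 11 2531814) 1000 nodes23 = true := by decide +kernel

theorem tC23 : tCells 23 2531813 2585098 (1000 * 1000, 1877218) (nodes23.map Prod.snd) 0 cells23 = true := by
  decide +kernel

theorem ls2_23 {r τ τ' T : ℝ → ℝ} (hr : IsProf r) (h : IsTrans 23 r τ τ' T)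
    (hN : (∫ y in (-1 : ℝ)..1, r y ^ (23 - 1)) ^ 23 * aInt 23 ^ (23 - 1) ≤
      aInt (23 - 1) ^ 23 * (∫ y in (-1 : ℝ)..1, r y ^ 23) ^ (23 - 1)) {x : ℝ}
    (hx : x ∈ Ioo (0 : ℝ) 1) : τ x ≤ lsY x :=
  ls_main2 (m := 23) (by norm_num) (z := 2531813) (z' := 2585098) (by norm_num) ls_lo23 ls_hi22
    (fun n a h0 h1 h2 => tAo_sound (h := 11) (zh := 2531814) ls_hi23 h1 h2 h0)
    (by simp [cells23]) (n0 := 1000) (u0 := 1877218) (by norm_num) (by norm_num) (by norm_num)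
    (by decide +kernel) tP23 tC23 hr h hN hx

/-- nodes, `m = 24` -/
def nodes24 : List (ℤ × ℤ × ℤ) :=
    [(1131, 1075501, 1877218), (1287, 1206213, 2120337), (1477, 1356930, 2408495),
     (1714, 1530814, 2757179), (2021, 1731284, 3188080), (2440, 1958471, 3738474),
     (3056, 2199344, 4472811), (3902, 2382196, 5509142), (4415, 2435352, 6826526),
     (4815, 2458167, 7552558), (5136, 2468831, 8074414), (5399, 2474193, 8462487),
     (5619, 2477078, 8758675), (5803, 2478698, 8990620), (5957, 2479649, 9173121),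
     (6086, 2480231, 9317578), (6194, 2480601, 9432635), (6285, 2480847, 9524712),
     (6364, 2481019, 9599244), (6434, 2481145, 9661656), (6497, 2481240, 9715162),
     (6555, 2481314, 9761860), (6610, 2481375, 9803624), (6664, 2481426, 9842132),
     (6718, 2481469, 9878895), (6772, 2481506, 9914618), (6828, 2481539, 9949294),
     (6887, 2481568, 9984143), (6900, 2481574, 10019628)]

/-- cells, `m = 24` -/
def cells24 : List (ℤ × ℤ) :=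
    [(7463000, 10000000), (7823000, 9607000), (8276000, 8331000), (8807000, 6845000),
     (9596000, 5402000), (10000000, 4166000)]

theorem tP24 : tQairs (tAe 12) 1000 nodes24 = true := by decide +kernel

theorem tC24 : tCells 24 2481693 2531814 (1000 * 1000, 1877218) (nodes24.map Prod.snd) 0 cells24 = true := by
  decide +kernel

theorem ls2_24 {r τ τ' T : ℝ → ℝ} (hr : IsProf r) (h : IsTrans 24 r τ τ' T)
    (hN : (∫ y in (-1 : ℝ)..1, r y ^ (24 - 1)) ^ 24 * aInt 24 ^ (24 - 1) ≤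
      aInt (24 - 1) ^ 24 * (∫ y in (-1 : ℝ)..1, r y ^ 24) ^ (24 - 1)) {x : ℝ}
    (hx : x ∈ Ioo (0 : ℝ) 1) : τ x ≤ lsY x :=
  ls_main2 (m := 24) (by norm_num) (z := 2481693) (z' := 2531814) (by norm_num) ls_lo24 ls_hi23
    (fun n a h0 h1 h2 => tAe_sound (h := 12) h1 h2 h0)
    (by simp [cells24]) (n0 := 1000) (u0 := 1877218) (by norm_num) (by norm_num) (by norm_num)
    (by decide +kernel) tP24 tC24 hr h hN hx

/-- nodes, `m = 25` -/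
def nodes25 : List (ℤ × ℤ × ℤ) :=
    [(1131, 1073762, 1877218), (1288, 1204325, 2120337), (1480, 1355060, 2410337),
     (1721, 1529255, 2762663), (2036, 1730258, 3200732), (2470, 1956658, 3765117),
     (3117, 2191993, 4524549), (3886, 2344142, 5608538), (4385, 2392472, 6802931),
     (4775, 2413178, 7511797), (5088, 2422825, 8024092), (5345, 2427675, 8406277),
     (5557, 2430250, 8699513), (5732, 2431687, 8926748), (5877, 2432531, 9103962),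
     (5997, 2433049, 9243490), (6096, 2433378, 9353840), (6178, 2433597, 9441324),
     (6247, 2433749, 9511318), (6306, 2433860, 9568462), (6357, 2433942, 9616043),
     (6403, 2434007, 9656213), (6444, 2434059, 9691676), (6482, 2434102, 9722666),
     (6518, 2434139, 9750867), (6552, 2434170, 9777118), (6586, 2434198, 9801493),
     (6619, 2434223, 9825460), (6653, 2434246, 9848331), (6687, 2434267, 9871490),
     (6722, 2434287, 9894238), (6759, 2434305, 9917223), (6798, 2434322, 9941042),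
     (6840, 2434338, 9965616), (6886, 2434354, 9991463), (6900, 2434358, 10019037)]

/-- cells, `m = 25` -/
def cells25 : List (ℤ × ℤ) :=
    [(7461000, 10000000), (7674000, 9795000), (8154000, 9010000), (8659000, 7328000),
     (9335000, 5794000), (9954000, 4394000), (10000000, 3939000)]

theorem tP25 : tQairs (tAo 12 2434437) 1000 nodes25 = true := by decide +kernel

theorem tC25 : tCells 25 2434435 2481694 (1000 * 1000, 1877218) (nodes25.map Prod.snd) 0 cells25 = true := by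
  decide +kernel

theorem ls2_25 {r τ τ' T : ℝ → ℝ} (hr : IsProf r) (h : IsTrans 25 r τ τ' T)
    (hN : (∫ y in (-1 : ℝ)..1, r y ^ (25 - 1)) ^ 25 * aInt 25 ^ (25 - 1) ≤
      aInt (25 - 1) ^ 25 * (∫ y in (-1 : ℝ)..1, r y ^ 25) ^ (25 - 1)) {x : ℝ}
    (hx : x ∈ Ioo (0 : ℝ) 1) : τ x ≤ lsY x :=
  ls_main2 (m := 25) (by norm_num) (z := 2434435) (z' := 2481694) (by norm_num) ls_lo25 ls_hi24
    (fun n a h0 h1 h2 => tAo_sound (h := 12) (zh := 2434437) ls_hi25 h1 h2 h0)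
    (by simp [cells25]) (n0 := 1000) (u0 := 1877218) (by norm_num) (by norm_num) (by norm_num)
    (by decide +kernel) tP25 tC25 hr h hN hx

/-- nodes, `m = 26` -/
def nodes26 : List (ℤ × ℤ × ℤ) :=
    [(1132, 1071947, 1877218), (1290, 1202315, 2122189), (1484, 1352988, 2414021),
     (1729, 1527344, 2769973), (2051, 1727992, 3215186), (2500, 1953094, 3791735),
     (3180, 2182346, 4576166), (3867, 2306671, 5710528), (4353, 2351046, 6774840),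
     (4732, 2370026, 7468078), (5034, 2378854, 7969523), (5280, 2383304, 8342266),
     (5483, 2385700, 8627158), (5651, 2387058, 8848971), (5791, 2387869, 9023122),
     (5906, 2388368, 9161544), (6000, 2388687, 9270587), (6078, 2388902, 9356539),
     (6143, 2389051, 9425660), (6197, 2389158, 9481718), (6243, 2389237, 9527214),
     (6283, 2389299, 9565194), (6319, 2389349, 9597636), (6350, 2389389, 9626367),
     (6378, 2389421, 9650752), (6404, 2389450, 9672493), (6428, 2389474, 9692438),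
     (6450, 2389495, 9710642), (6471, 2389513, 9727153), (6491, 2389530, 9742756),
     (6510, 2389545, 9757472), (6529, 2389560, 9771324), (6547, 2389572, 9785048),
     (6565, 2389585, 9797934), (6583, 2389596, 9810705), (6601, 2389607, 9823361),
     (6620, 2389618, 9835904), (6639, 2389628, 9849018), (6659, 2389638, 9862004),
     (6680, 2389648, 9875535), (6702, 2389658, 9889588), (6726, 2389668, 9904142),
     (6752, 2389678, 9919822), (6780, 2389688, 9936574), (6811, 2389697, 9954342),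
     (6845, 2389707, 9973684), (6883, 2389717, 9994498), (6900, 2389721, 10017262)]

/-- cells, `m = 26` -/
def cells26 : List (ℤ × ℤ) :=
    [(7481000, 10000000), (7600000, 9898000), (7955000, 9447000), (8456000, 8134000),
     (9027000, 6435000), (9760000, 4912000), (10000000, 3930000)]

theorem tP26 : tQairs (tAe 13) 1000 nodes26 = true := by decide +kernel

theorem tC26 : tCells 26 2389778 2434437 (1000 * 1000, 1877218) (nodes26.map Prod.snd) 0 cells26 = true := by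
  decide +kernel

theorem ls2_26 {r τ τ' T : ℝ → ℝ} (hr : IsProf r) (h : IsTrans 26 r τ τ' T)
    (hN : (∫ y in (-1 : ℝ)..1, r y ^ (26 - 1)) ^ 26 * aInt 26 ^ (26 - 1) ≤
      aInt (26 - 1) ^ 26 * (∫ y in (-1 : ℝ)..1, r y ^ 26) ^ (26 - 1)) {x : ℝ}
    (hx : x ∈ Ioo (0 : ℝ) 1) : τ x ≤ lsY x :=
  ls_main2 (m := 26) (by norm_num) (z := 2389778) (z' := 2434437) (by norm_num) ls_lo26 ls_hi25
    (fun n a h0 h1 h2 => tAe_sound (h := 13) h1 h2 h0)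
    (by simp [cells26]) (n0 := 1000) (u0 := 1877218) (by norm_num) (by norm_num) (by norm_num)
    (by decide +kernel) tP26 tC26 hr h hN hx

/-- **A priori bound**: `τ x ≤ x exp((1 - x²)(127/200 + 33/200 x²))` for `4 ≤ m ≤ 26`. -/
theorem IsTrans.le_lstar2 {m : ℕ} (hm4 : 4 ≤ m) (hm : m ≤ 26) {r τ τ' T : ℝ → ℝ} (hr : IsProf r)
    (h : IsTrans m r τ τ' T)
    (hN : (∫ y in (-1 : ℝ)..1, r y ^ (m - 1)) ^ m * aInt m ^ (m - 1) ≤
      aInt (m - 1) ^ m * (∫ y in (-1 : ℝ)..1, r y ^ m) ^ (m - 1))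
    {x : ℝ} (hx : x ∈ Ioo (0 : ℝ) 1) :
    τ x ≤ x * Real.exp ((1 - x ^ 2) * (127 / 200 + 33 / 200 * x ^ 2)) := by
  rcases le_or_gt m 22 with h7 | h7
  · refine (h.le_lstar hm4 h7 hr hN hx).trans ?_
    apply mul_le_mul_of_nonneg_left _ hx.1.le
    apply Real.exp_le_exp.2
    have h1 : 0 ≤ 1 - x ^ 2 := by (by_contra nlg; linarith only [nlg, mul_pos (sub_pos.2 hx.2) (sub_pos.2 hx.2), mul_pos (sub_pos.2 hx.1) (sub_pos.2 hx.2), mul_pos (sub_pos.2 (not_le.1 nlg)) (sub_pos.2 hx.2), mul_pos (sub_pos.2 (not_le.1 nlg)) (sub_pos.2 hx.1)])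
    apply mul_le_mul_of_nonneg_left _ h1
    linarith only [sq_nonneg x]
  · have h8 : 23 ≤ m := h7
    clear h7 hm4
    interval_cases m
    · exact ls2_23 hr h hN hx
    · exact ls2_24 hr h hN hx
    · exact ls2_25 hr h hN hx
    · exact ls2_26 hr h hN hx

/-- the same with the logarithm -/
theorem IsTrans.log_le_lstar2 {m : ℕ} (hm4 : 4 ≤ m) (hm : m ≤ 26) {r τ τ' T : ℝ → ℝ}
    (hr : IsProf r) (h : IsTrans m r τ τ' T)
    (hN : (∫ y in (-1 : ℝ)..1, r y ^ (m - 1)) ^ m * aInt m ^ (m - 1) ≤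
      aInt (m - 1) ^ m * (∫ y in (-1 : ℝ)..1, r y ^ m) ^ (m - 1))
    {x : ℝ} (hx : x ∈ Ioo (0 : ℝ) 1) :
    lf τ x ≤ (1 - x ^ 2) * (127 / 200 + 33 / 200 * x ^ 2) := by
  have hτ := h.mem x hx
  have h1 := h.le_lstar2 hm4 hm hr hN hx
  have hx0 := hx.1
  unfold lf
  rw [Real.log_le_iff_le_exp (div_pos hτ.1 hx0), div_le_iff₀ hx0]
  linarith

end Vale.Agent.P237.AllN
end

section

/-!
# P237, block D, region `l ≤ 0`: core theorem
-/

set_option linter.all false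

namespace Vale.Agent.P237.AllN
namespace FNeg

theorem finish {T e ρ W Z W' : ℝ} (hρ : 0 < ρ) (hW : 0 ≤ W) (hZ : 0 ≤ Z) (hW' : W' ≤ W) (hW0 : 0 ≤ W')
    (hT : 1.8 * W + Z ≤ T) (hE1 : -e ≤ 0.8 * ρ)
    (hE2 : e < 0 → e ^ 2 ≤ 0.19 * ρ * (1.8 * W + Z))
    (hB1 : -(T - e) ≤ 0.8 * ρ)
    (hB2 : T - e < 0 → (-(T - e)) ^ 2 ≤ 0.19 * ρ * (1.8 * W' + Z)) :
    0 < ρ + e ∧ e ^ 2 + 0.01 * (ρ * (1.8 * W + Z)) ≤ T * (ρ + e) := by
  have hρT : ρ * (1.8 * W + Z) ≤ ρ * T := mul_le_mul_of_nonneg_left hT hρ.le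
  have hρT0 : 0 ≤ ρ * (1.8 * W + Z) := mul_nonneg hρ.le (by linarith only [hZ, hW])
  have hWW : ρ * (1.8 * W' + Z) ≤ ρ * (1.8 * W + Z) := mul_le_mul_of_nonneg_left (by linarith only [hW']) hρ.le
  refine ⟨by linarith only [hE1, hρ], jcore (by linarith only [hW, hZ, hT]) (by linarith only [hρT0]) hρ hE1 (fun hn => ?_) hB1
    (fun hn => ?_) (by linarith only [hρT, hρT0])⟩
  · have := hE2 hn; linarith only [hρT, this]
  · have := hB2 hn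
    have e1 : (-(T - e)) ^ 2 = (T - e) ^ 2 := by ring
    rw [e1] at this
    linarith only [this, hWW, hρT]

theorem kappa_facts {m c κ : ℝ} (hm : 15 ≤ m) (hc1 : 1 - 1 / (2 * m) ≤ c) (hc2 : c ≤ 1)
    (hκ : κ = 2 * (m + 1) / (m - 1)) :
    0 ≤ κ ∧ κ ≤ 16 / 7 ∧ 0 ≤ κ - 2 * c ∧ (κ - 2 * c) * m ≤ 5.286 ∧ 0 ≤ c := by
  have hm0 : 0 < m := by linarith only [hm]
  have hm1 : 0 < m - 1 := by linarith only [hm]
  have hc29 : 29 / 30 ≤ c := by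
    have : 1 / (2 * m) ≤ 1 / 30 := by
      apply div_le_div_of_nonneg_left (by norm_num) (by norm_num) (by linarith only [hm])
    linarith only [hc1, this]
  have hκ0 : 0 ≤ κ := by rw [hκ]; (clear * - hm hm1; positivity)
  have hκ2 : κ ≤ 16 / 7 := by
    rw [hκ, div_le_iff₀ hm1]; linarith only [hm]
  have hκe : κ = 2 + 4 / (m - 1) := by
    rw [hκ]; field_simp; ring
  have hK : 0 ≤ κ - 2 * c := by
    have : 0 ≤ 4 / (m - 1) := by positivity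
    linarith only [this, hκe, hc2]
  have hK2 : (κ - 2 * c) * m ≤ 5.286 := by
    have h1 : κ - 2 * c ≤ 4 / (m - 1) + 1 / m := by
      have : 2 * (1 / (2 * m)) = 1 / m := by field_simp
      linarith only [hc1, hκe, this]
    have h2 : (4 / (m - 1) + 1 / m) * m = 4 * (m / (m - 1)) + 1 := by
      (clear * - hm hm1; field_simp)
    have h3 : m / (m - 1) ≤ 15 / 14 := by
      rw [div_le_div_iff₀ hm1 (by norm_num)]; linarith only [hm]
    have h4 := mul_le_mul_of_nonneg_right h1 hm0.le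
    rw [h2] at h4
    linarith only [h3, h4]
  exact ⟨hκ0, hκ2, hK, hK2, by linarith only [hc29]⟩

theorem core_pos {m c κ σ y a u E Cr N cc : ℝ} (hm : 15 ≤ m) (h : 1 ≤ σ) (hy : σ ^ 2 = 1 + y)
    (hy0 : 0 < y) (ha : 0 ≤ a) (ha2 : a ^ 2 ≤ 0.174 * m) (hu : 0 ≤ u) (hus : u ≤ σ)
    (hu2 : u ^ 2 ≤ 0.16 * (m * y))
    (hE : 1 + 2 * a + 2 * a ^ 2 + 4 / 3 * a ^ 3 + 2 / 3 * a ^ 4 ≤ E)
    (hc1 : 1 - 1 / (2 * m) ≤ c) (hc2 : c ≤ 1) (hκ : κ = 2 * (m + 1) / (m - 1))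
    (hc : cc ≤ y * (1 + y) / 2) (hCr : -(cc * a ^ 2) ≤ Cr) (hN : Real.log (1 + u) - u ≤ N) :
    0 < rhof m y + ef m c σ y a u E N ∧
    (ef m c σ y a u E N) ^ 2 + 0.01 * (rhof m y * (1.8 * (u ^ 2 / (1 + u)) +
        (m + 3) * (y / σ ^ 2) * (a ^ 2 * (1 + 2 / 3 * a + 1 / 3 * a ^ 2)))) ≤
      Tf m κ σ y a u E Cr N * (rhof m y + ef m c σ y a u E N) := by
  have hσ : 0 < σ := by linarith only [h]
  have hm3 : 0 < m + 3 := by linarith only [hm]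
  have hρl := rho_low hm hy0.le
  have hρ0 : 0 < rhof m y := by
    have : 0 ≤ (m * y) ^ 2 := sq_nonneg _
    have : 0 ≤ m * y := by positivity
    (clear c κ σ a u E Cr N cc h hy ha ha2 hu hus hu2 hE hc1 hc2 hκ hc hCr hN hσ hm3; linarith)
  obtain ⟨hκ0, hκ2, hK, hK2, hc0⟩ := kappa_facts hm hc1 hc2 hκ
  have hφN : -(u - Real.log (1 + u)) ≤ N := by linarith only [hN]
  have hφ := phi_pos hu
  have hT := Tlow_pos (cc := cc) (Cr := Cr) hm h hy ha hu hus hE hφ hκ0 hκ2 hc hCr hφN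
  have hB := Bpos (κ := κ) (E := E) (Cr := Cr) (cc := cc) hm h hy ha hu hφ hK hc1 hc2 hCr hφN
  have hP1 := P1num hm h hy hy0 ha ha2 hu hK hK2 hu2 hc hρl
  obtain ⟨p0, k, hp0, hk0, hp, hk, hfin⟩ := P2num hm h hy hy0 hu hus hK hK2 hu2 hc hρl
  have hE' := Epos hm h hy hy0 ha ha2 hu hE hφ hc0 hc2 hφN hρl
  exact finish hρ0 (by (clear * - hu; positivity)) (by (clear * - hm hy0 h ha; positivity)) le_rfl (by (clear * - hu; positivity)) hT hE'.1 hE'.2 (hB.trans hP1)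
    (fun hneg => P2core hm h hy hy0 ha hu hK hp hk hp0 (zero_le_one.trans hk0) hfin hB
      (by linarith only [hneg]))

theorem core_neg {m c κ σ y a u E Cr N cc : ℝ} (hm : 15 ≤ m) (h : 1 ≤ σ) (hy : σ ^ 2 = 1 + y)
    (hy0 : 0 < y) (ha : 0 ≤ a) (ha2 : a ^ 2 ≤ 0.174 * m) (hu1 : -1 < u) (hu : u ≤ 0)
    (hu3 : -(m * y / 2) ≤ u)
    (hE : 1 + 2 * a + 2 * a ^ 2 + 4 / 3 * a ^ 3 + 2 / 3 * a ^ 4 ≤ E)
    (hc1 : 1 - 1 / (2 * m) ≤ c) (hc2 : c ≤ 1) (hκ : κ = 2 * (m + 1) / (m - 1))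
    (hc : cc ≤ y * (1 + y) / 2) (hCr : -(cc * a ^ 2) ≤ Cr) (hN : Real.log (1 + u) - u ≤ N) :
    0 < rhof m y + ef m c σ y a u E N ∧
    (ef m c σ y a u E N) ^ 2 + 0.01 * (rhof m y * (1.8 * (u ^ 2 / (1 + u)) +
        (m + 3) * (y / σ ^ 2) * (a ^ 2 * (1 + 2 / 3 * a + 1 / 3 * a ^ 2)))) ≤
      Tf m κ σ y a u E Cr N * (rhof m y + ef m c σ y a u E N) := by
  have hσ : 0 < σ := by linarith only [h]
  have hU : 0 < 1 + u := by linarith only [hu1]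
  have hm3 : 0 < m + 3 := by linarith only [hm]
  have hρl := rho_low hm hy0.le
  have hρ0 : 0 < rhof m y := by
    have : 0 ≤ (m * y) ^ 2 := sq_nonneg _
    have : 0 ≤ m * y := by positivity
    (clear c κ σ a E Cr N cc h hy ha ha2 hu1 hE hc1 hc2 hκ hc hCr hN hσ hU hm3 this; linarith)
  obtain ⟨hκ0, hκ2, hK, hK2, hc0⟩ := kappa_facts hm hc1 hc2 hκ
  have hφN : -(u - Real.log (1 + u)) ≤ N := by linarith only [hN]
  have hφ0 := phi_nonneg hu1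
  have hφ1 := phi_neg1 hu1 hu
  have hφ2 := phi_neg2 hu1 hu
  have hT := Tlow_neg (cc := cc) (Cr := Cr) hm h hy ha hu hu1 hE hφ1 hκ0 hκ2 hc hCr hφN
  have hB := Bneg (κ := κ) (E := E) (Cr := Cr) (cc := cc) hm h hy ha hu hu1 hu3 hφ1 hK hK2 hc1 hc2 hCr hφN
  have hmy2 : (0:ℝ) ^ 2 ≤ 0.16 * (m * y) := by
    have : (0:ℝ) ^ 2 = 0 := by norm_num
    rw [this]; positivity
  have hP1 := P1num (u := 0) hm h hy hy0 ha ha2 le_rfl hK hK2 hmy2 hc hρl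
  obtain ⟨p0, k, hp0, hk0, hp, hk, hfin⟩ := P2num (u := 0) hm h hy hy0 le_rfl hσ.le hK hK2 hmy2 hc hρl
  have hnum : 0.69445 * (2 * (σ - 1) + 2 * (1 - 1 / σ ^ 2)) ^ 2 + y * (1 + y) / (m + 3) ≤ 0.19 * rhof m y := by
    have h1 : y * (1 + y) / (m + 3) * 1 ≤ y * (1 + y) / (m + 3) * (p0 ^ 2 + 3 * k ^ 2) := by
      apply mul_le_mul_of_nonneg_left _ (by positivity)
      have h4 : 1 ≤ k ^ 2 := one_le_pow₀ hk0
      have h5 := sq_nonneg p0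
      linarith only [h4, h5]
    have h2 : (1:ℝ) / (1 + 0) = 1 := by norm_num
    rw [h2] at hfin
    have h3 : ((κ - 2 * c) * σ * 0) ^ 2 = 0 := by ring
    rw [h3] at hfin
    linarith only [h1, hfin]
  have hE' := Eneg hm h hy hy0 ha ha2 hu hu1 hE hc0 hc2 hφN hφ0 hφ1 hφ2 hρl hnum
  have hB' : -(Tf m κ σ y a u E Cr N - ef m c σ y a u E N) ≤ 
    ((0:ℝ) / (1 + 0)) * ((2 * (σ - 1) + 2 * (1 - 1 / σ ^ 2)) * (2 / (2 + 0)) + (κ - 2 * c) * σ * (0 * (1 + 0) / (2 + 0)))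
    + a * (6 * y * (1 + 2 * y) / σ ^ 3 * (0 / (1 + 0)) + (cc + 3 * (y / σ) ^ 3 * (7 - (m - 3) * y)) * a
      + (σ - 1) * (σ - 1 + 1 / m)) := by
    refine hB.trans (le_of_eq ?_)
    rw [zero_div, zero_mul, mul_zero, zero_add, zero_add]
  have hW00 : (0:ℝ) ^ 2 / (1 + 0) ≤ u ^ 2 / (1 + u) := by
    have e2 : (0:ℝ) ^ 2 / (1 + 0) = 0 := by norm_num
    rw [e2]; (clear * - hU; positivity)
  exact finish hρ0 (by (clear * - hU; positivity)) (by (clear * - hm hy0 h ha; positivity)) hW00 (by norm_num) hT hE'.1 hE'.2 (hB'.trans hP1)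
    (fun hneg => P2core hm h hy hy0 ha le_rfl hK hp hk hp0 (zero_le_one.trans hk0) hfin hB'
      (by linarith only [hneg]))

/-- **core theorem**, region `l ≤ 0` -/
theorem core {m c κ σ y a u E Cr N cc : ℝ} (hm : 15 ≤ m) (h : 1 ≤ σ) (hy : σ ^ 2 = 1 + y)
    (hy0 : 0 < y) (ha : 0 ≤ a) (ha2 : a ^ 2 ≤ 0.174 * m) (hu1 : -1 < u) (hus : u ≤ σ)
    (hu2 : 0 ≤ u → u ^ 2 ≤ 0.16 * (m * y)) (hu3 : -(m * y / 2) ≤ u)
    (hE : 1 + 2 * a + 2 * a ^ 2 + 4 / 3 * a ^ 3 + 2 / 3 * a ^ 4 ≤ E)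
    (hc1 : 1 - 1 / (2 * m) ≤ c) (hc2 : c ≤ 1) (hκ : κ = 2 * (m + 1) / (m - 1))
    (hc : cc ≤ y * (1 + y) / 2) (hCr : -(cc * a ^ 2) ≤ Cr) (hN : Real.log (1 + u) - u ≤ N) :
    0 < rhof m y + ef m c σ y a u E N ∧
    (ef m c σ y a u E N) ^ 2 + 0.01 * (rhof m y * (1.8 * (u ^ 2 / (1 + u)) +
        (m + 3) * (y / σ ^ 2) * (a ^ 2 * (1 + 2 / 3 * a + 1 / 3 * a ^ 2)))) ≤
      Tf m κ σ y a u E Cr N * (rhof m y + ef m c σ y a u E N) := by
  rcases le_total 0 u with hu | hu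
  · exact core_pos hm h hy hy0 ha ha2 hu hus (hu2 hu) hE hc1 hc2 hκ hc hCr hN
  · exact core_neg hm h hy hy0 ha ha2 hu1 hu hu3 hE hc1 hc2 hκ hc hCr hN

end FNeg
end Vale.Agent.P237.AllN
end

section

/-!
# P237, block D: region `l ≤ 0` in the variables of `FPosDef`
-/

set_option linter.all false

namespace Vale.Agent.P237.AllN

/-- `T` for `l ≤ 0`: log lines, potential `H l²`, `H = 3z(1+z)/s` -/
noncomputable def dnT (m z s l u G N : ℝ) : ℝ :=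
  (m + 3) * z * (Real.exp (-(2 * l)) - 1 + 2 * l) +
  (3 * (m - 3) * (z ^ 2 / s ^ 5) - 9 * (z / s ^ 3)) * l ^ 2 +
  (4 / s - 4 * s / (1 + s) - 2 * s ^ 2 + 4 * s ^ 2 * Real.exp (-(2 * l)) - 6 * (z / s ^ 3) * l) *
    (u ^ 2 / (1 + u)) +
  G + 2 * (m + 1) / ((m - 1) * s) * N +
  ((1 - m * (z / s ^ 2)) * (3 * z * (1 + z) / s) * l ^ 2 +
    (6 * z * (1 + 2 * z) / s + 3 * z ^ 2 * (1 + z) / s ^ 3) * l ^ 2 +
    2 * (3 * z * (1 + z) / s) * l * u)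

namespace FNeg

theorem exp_taylor {a : ℝ} (ha : 0 ≤ a) :
    1 + 2 * a + 2 * a ^ 2 + 4 / 3 * a ^ 3 + 2 / 3 * a ^ 4 ≤ Real.exp (2 * a) := by
  have h := Real.sum_le_exp_of_nonneg (by (clear * - ha; positivity) : 0 ≤ 2 * a) 5
  simp only [Finset.sum_range_succ, Finset.sum_range_zero, Nat.factorial] at h
  norm_num at h
  linarith

theorem Tf_eq {m z s l u G N E : ℝ} (hs : 0 < s) (hs2 : s ^ 2 = 1 - z) (hm : m - 1 ≠ 0)
    (hE : E = Real.exp (-(2 * l))) :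
    Tf m (2 * (m + 1) / (m - 1)) (1 / s) (z / s ^ 2) (-l) u E G N = dnT m z s l u G N := by
  have hz : z = 1 - s ^ 2 := by (clear * - hs2; linarith)
  have hs1 : (1 + s) ≠ 0 := by linarith only [hs]
  unfold Tf dnT
  rw [← hE]
  have e1 : z / s ^ 2 / (1 / s) ^ 2 = z := by field_simp
  have e2 : 4 * (1 / s) - 4 / (1 + 1 / s) - 2 / (1 / s) ^ 2 + 4 * E / (1 / s) ^ 2
      + 6 * (z / s ^ 2) * (1 / s) * (-l) =
      4 / s - 4 * s / (1 + s) - 2 * s ^ 2 + 4 * s ^ 2 * E - 6 * (z / s ^ 3) * l := by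
    field_simp
    ring
  have e3 : 6 * (z / s ^ 2) * (1 + 2 * (z / s ^ 2)) / (1 / s) ^ 3 * (-l) * u
      = -(2 * (3 * z * (1 + z) / s) * l * u) := by
    rw [hz]; field_simp; ring
  have e4 : 3 * (z / s ^ 2 / (1 / s)) ^ 3 * ((m - 3) * (z / s ^ 2) - 7) * (-l) ^ 2
      = (3 * (m - 3) * (z ^ 2 / s ^ 5) - 9 * (z / s ^ 3)) * l ^ 2 +
        ((1 - m * (z / s ^ 2)) * (3 * z * (1 + z) / s) * l ^ 2 +
        (6 * z * (1 + 2 * z) / s + 3 * z ^ 2 * (1 + z) / s ^ 3) * l ^ 2) := by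
    rw [hz]; field_simp; ring
  have e5 : 2 * (m + 1) / (m - 1) * (1 / s) * N = 2 * (m + 1) / ((m - 1) * s) * N := by
    (clear * - hs hm; field_simp)
  rw [e1, e2, e3, e4, e5]
  ring

theorem ef_eq {m c z s l u N E : ℝ} (hs : 0 < s) (hE : E = Real.exp (-(2 * l))) :
    ef m c (1 / s) (z / s ^ 2) (-l) u E N = dpE m z s l u c N := by
  unfold ef dpE
  rw [← hE]
  have e1 : z / s ^ 2 / (1 / s) ^ 2 = z := by (clear * - hs; field_simp)
  have e2 : 4 * E / (1 / s) ^ 2 = 4 * s ^ 2 * E := by (clear * - hs; field_simp)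
  have e3 : 2 * c * (1 / s) = 2 * c / s := by ring
  have e4 : 2 / (1 / s) ^ 2 = 2 * s ^ 2 := by field_simp
  rw [e1, e2, e3, e4]
  ring

theorem rho_eq {m y : ℝ} : rhof m y = dpR m y := by
  unfold rhof dpR; ring

end FNeg

open FNeg in
/-- quantitative form of the J-test in the region `l ≤ 0` -/
theorem fneg_quant {m z s l u c G N : ℝ} (hm : 15 ≤ m) (hz : 0 < z) (hs : 0 < s)
    (hs2 : s ^ 2 = 1 - z) (hl : l ≤ 0) (hl2 : l ^ 2 ≤ 87 / 500 * m) (hu : 0 < 1 + u)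
    (hus : u * s ≤ 1) (hu2 : 0 ≤ u → u ^ 2 ≤ 4 / 25 * (m * (z / s ^ 2)))
    (hu3 : -(m / 2 * (z / s ^ 2)) ≤ u) (hc1 : 1 - 1 / (2 * m) ≤ c) (hc2 : c ≤ 1)
    (hN : Real.log (1 + u) - u ≤ N)
    (hG : -(z * (1 + 2 * s - s ^ 2) / (s ^ 3 * (1 + s) ^ 2) * l ^ 2) ≤ G) :
    0 < dpR m (z / s ^ 2) + dpE m z s l u c N ∧
    dpE m z s l u c N ^ 2 + 1 / 100 * (dpR m (z / s ^ 2) * (9 / 5 * (u ^ 2 / (1 + u)) +
        (m + 3) * z * l ^ 2)) ≤
      dnT m z s l u G N * (dpR m (z / s ^ 2) + dpE m z s l u c N) := by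
  have hm1 : m - 1 ≠ 0 := by linarith only [hm]
  have hs1 : s ≤ 1 := by nlinarith only [hz, hs2]
  have hσ1 : 1 ≤ 1 / s := by rw [le_div_iff₀ hs]; linarith only [hs1]
  have hy : (1 / s) ^ 2 = 1 + z / s ^ 2 := by
    have : z = 1 - s ^ 2 := by linarith only [hs2]
    rw [this]; field_simp; ring
  have hy0 : 0 < z / s ^ 2 := by positivity
  have hus' : u ≤ 1 / s := by rw [le_div_iff₀ hs]; exact hus
  have hEe : Real.exp (-(2 * l)) = Real.exp (2 * (-l)) := by congr 1; ring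
  have hE := exp_taylor (a := -l) (by linarith only [hl])
  rw [← hEe] at hE
  have hcc := sco hσ1 hy
  have hccz : z / s ^ 2 * (1 / s) * (1 - 2 / (1 / s + 1) ^ 2)
      = z * (1 + 2 * s - s ^ 2) / (s ^ 3 * (1 + s) ^ 2) := by
    field_simp
    ring
  have hCr : -(z / s ^ 2 * (1 / s) * (1 - 2 / (1 / s + 1) ^ 2) * (-l) ^ 2) ≤ G := by
    rw [hccz]
    have : (-l) ^ 2 = l ^ 2 := by ring
    rw [this]; exact hG
  have h := FNeg.core (m := m) (c := c) (κ := 2 * (m + 1) / (m - 1)) (σ := 1 / s) (y := z / s ^ 2)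
    (a := -l) (u := u) (E := Real.exp (-(2 * l))) (Cr := G) (N := N)
    (cc := z / s ^ 2 * (1 / s) * (1 - 2 / (1 / s + 1) ^ 2))
    hm hσ1 hy hy0 (by linarith only [hl]) (by linarith only [hl2]) (by linarith only [hu]) hus'
    (fun h0 => by have := hu2 h0; linarith only [this]) (by linarith only [hu3]) hE hc1 hc2 rfl hcc hCr hN
  rw [Tf_eq hs hs2 hm1 rfl, ef_eq hs rfl, rho_eq] at h
  have e1 : z / s ^ 2 / (1 / s) ^ 2 = z := by field_simp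
  rw [e1] at h
  refine ⟨h.1, le_trans ?_ h.2⟩
  have hρ0 : 0 ≤ dpR m (z / s ^ 2) := by
    unfold dpR
    have : 0 ≤ m - 2 := by linarith only [hm]
    have : 0 ≤ m := by linarith only [hm]
    (clear l u c G N hs2 hl hl2 hu hus hu2 hu3 hc1 hc2 hN hG hm1 hs1 hσ1 hy hy0 hus' hEe hE hcc hccz hCr h e1 this; (clear * - hm hz hs this; positivity))
  have h3 : (m + 3) * z * l ^ 2 ≤ (m + 3) * z * ((-l) ^ 2 * (1 + 2 / 3 * (-l) + 1 / 3 * (-l) ^ 2)) := by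
    have : 0 < m + 3 := by linarith only [hm]
    apply mul_le_mul_of_nonneg_left _ (by positivity)
    have h5 : 0 ≤ (-l) ^ 2 * (2 / 3 * (-l) + 1 / 3 * (-l) ^ 2) := by
      have : 0 ≤ -l := by linarith only [hl]
      (clear * - this; positivity)
    linarith only [h5]
  have h4 := mul_le_mul_of_nonneg_left h3 hρ0
  linarith only [h4]

/-- the J-test in the region `l ≤ 0` -/
theorem fneg_region {m z s l u c G N : ℝ} (hm : 15 ≤ m) (hz : 0 < z) (hs : 0 < s)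
    (hs2 : s ^ 2 = 1 - z) (hl : l ≤ 0) (hl2 : l ^ 2 ≤ 87 / 500 * m) (hu : 0 < 1 + u)
    (hus : u * s ≤ 1) (hu2 : 0 ≤ u → u ^ 2 ≤ 4 / 25 * (m * (z / s ^ 2)))
    (hu3 : -(m / 2 * (z / s ^ 2)) ≤ u) (hc1 : 1 - 1 / (2 * m) ≤ c) (hc2 : c ≤ 1)
    (hN : Real.log (1 + u) - u ≤ N)
    (hG : -(z * (1 + 2 * s - s ^ 2) / (s ^ 3 * (1 + s) ^ 2) * l ^ 2) ≤ G) :
    0 < dpR m (z / s ^ 2) + dpE m z s l u c N ∧
    dpE m z s l u c N ^ 2 ≤ dnT m z s l u G N * (dpR m (z / s ^ 2) + dpE m z s l u c N) ∧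
    ((u ≠ 0 ∨ l ≠ 0) →
      dpE m z s l u c N ^ 2 < dnT m z s l u G N * (dpR m (z / s ^ 2) + dpE m z s l u c N)) := by
  obtain ⟨h1, h2⟩ := fneg_quant hm hz hs hs2 hl hl2 hu hus hu2 hu3 hc1 hc2 hN hG
  have hρ0 : 0 < dpR m (z / s ^ 2) := by
    unfold dpR
    have : 0 ≤ m - 2 := by linarith only [hm]
    have : 0 ≤ m := by linarith only [hm]
    (clear l u c G N hs2 hl hl2 hu hus hu2 hu3 hc1 hc2 hN hG h1 h2 this; positivity)
  have hm3 : 0 < m + 3 := by linarith only [hm]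
  have hW : 0 ≤ u ^ 2 / (1 + u) := by (clear * - hu; positivity)
  have hZ : 0 ≤ (m + 3) * z * l ^ 2 := by (clear * - hm hz; positivity)
  have h0 : 0 ≤ 1 / 100 * (dpR m (z / s ^ 2) * (9 / 5 * (u ^ 2 / (1 + u)) + (m + 3) * z * l ^ 2)) := by
    (clear * - hρ0 hu hm hz; positivity)
  refine ⟨h1, by linarith only [h2, h0], fun hne => ?_⟩
  have h3 : 0 < 1 / 100 * (dpR m (z / s ^ 2) * (9 / 5 * (u ^ 2 / (1 + u)) + (m + 3) * z * l ^ 2)) := by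
    have : 0 < 9 / 5 * (u ^ 2 / (1 + u)) + (m + 3) * z * l ^ 2 := by
      rcases hne with hne | hne
      · have : 0 < u ^ 2 / (1 + u) := by (clear * - hne hu; positivity)
        linarith only [hZ, this]
      · have : 0 < (m + 3) * z * l ^ 2 := by positivity
        linarith only [this, hW]
    (clear * - hρ0 this; positivity)
  linarith only [h2, h3]

end Vale.Agent.P237.AllN
end

section

/-!
# P237, block D, `l > 0`, `1 ≤ m z ≤ 9`, `u ≥ 0`: kernel checks, slabs 7 to 9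
-/

namespace Vale.Agent.P237.AllN

open PolyPos

set_option maxRecDepth 100000

/-- slab 7 -/
def fpuD7 : FpuD :=
  ⟨⟨1531, 999⟩, ⟨47, 9⟩, ⟨7, 0⟩, ⟨12, 0⟩, ⟨52, 0⟩, ⟨97, 99⟩, ⟨-9, 3⟩, ⟨91, 9⟩, ⟨43, 99⟩, ⟨161, 99⟩, ⟨3, 19⟩⟩

/-- box 7 -/
def fpuB7 : FpuB := ⟨3267, 3968, 13392, 121, 128, 16, 0, 6, 5⟩

/-- region 7 -/
def fpuLo7 : List Ex3 := FpuD.Lo ⟨27, 0⟩ ⟨31, 0⟩

theorem fpu_chk7NA : fpuB7.chk 512 12 fpuD7.xNA fpuLo7 (.leaf 0) = true := by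
  decide +kernel

theorem fpu_chk7NG : fpuB7.chk 512 12 fpuD7.xNG fpuLo7 (.leaf 0) = true := by
  (clear * -; decide +kernel)

/-- tree -/
def fpuT7G1 : PT3 :=
  .sx (.leaf 0) (.sx (.leaf 0) (.sz (.leaf 0) (.sy (.sx (.leaf 0) (.out 0)) (.leaf 0))))

theorem fpu_chk7G1 : fpuB7.chk 512 12 fpuD7.xG1 fpuLo7 fpuT7G1 = true := by
  (clear * -; decide +kernel)

/-- tree -/
def fpuT7G2 : PT3 :=
  .sx (.leaf 0) (.sy (.sy (.sz (.leaf 0) (.sy (.sz (.leaf 0) (.sz (.leaf 0) (.sx (.leaf 0)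
  (.out 0)))) (.sz (.leaf 0) (.sz (.leaf 0) (.sx (.leaf 0) (.sx (.leaf 0) (.out 0))))))) (.leaf
  0)) (.leaf 0))

theorem fpu_chk7G2 : fpuB7.chk 512 12 fpuD7.xG2 fpuLo7 fpuT7G2 = true := by
  (clear * -; decide +kernel)

theorem fpu_chk7G3 : fpuB7.chk 512 12 fpuD7.xG3 fpuLo7 (.leaf 0) = true := by
  (clear * -; decide +kernel)

/-- slab 8 -/
def fpuD8 : FpuD :=
  ⟨⟨1531, 999⟩, ⟨47, 9⟩, ⟨7, 0⟩, ⟨12, 0⟩, ⟨52, 0⟩, ⟨97, 99⟩, ⟨-9, 3⟩, ⟨91, 9⟩, ⟨43, 99⟩, ⟨103, 49⟩, ⟨119, 999⟩⟩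

/-- box 8 -/
def fpuB8 : FpuB := ⟨432, 527, 1674, 16, 17, 2, 0, 121, 100⟩

/-- region 8 -/
def fpuLo8 : List Ex3 := FpuD.Lo ⟨27, 0⟩ ⟨31, 0⟩

theorem fpu_chk8NA : fpuB8.chk 512 12 fpuD8.xNA fpuLo8 (.leaf 0) = true := by
  (clear * -; decide +kernel)

theorem fpu_chk8NG : fpuB8.chk 512 12 fpuD8.xNG fpuLo8 (.leaf 0) = true := by
  (clear * -; decide +kernel)

/-- tree -/
def fpuT8G1 : PT3 :=
  .sz (.leaf 0) (.sy (.sy (.sz (.leaf 0) (.sx (.leaf 0) (.sx (.leaf 0) (.sz (.leaf 0) (.sy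
  (.out 0) (.sy (.out 0) (.sx (.leaf 0) (.out 0)))))))) (.sz (.leaf 0) (.sx (.leaf 0) (.sx
  (.leaf 0) (.sz (.leaf 0) (.sy (.sy (.sx (.leaf 0) (.out 0)) (.sz (.leaf 0) (.sx (.leaf 0)
  (.out 0)))) (.sx (.leaf 0) (.out 0)))))))) (.sy (.sz (.leaf 0) (.sx (.leaf 0) (.sx (.leaf 0)
  (.sx (.leaf 0) (.sz (.leaf 0) (.sy (.sy (.out 0) (.sz (.leaf 0) (.sy (.out 0) (.sz (.leaf 0)
  (.sx (.leaf 0) (.out 0)))))) (.leaf 0))))))) (.leaf 0)))

theorem fpu_chk8G1 : fpuB8.chk 512 12 fpuD8.xG1 fpuLo8 fpuT8G1 = true := by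
  (clear * -; decide +kernel)

/-- tree -/
def fpuT8G2 : PT3 :=
  .sx (.leaf 0) (.sy (.sy (.sz (.leaf 0) (.sy (.sz (.leaf 0) (.sz (.leaf 0) (.sx (.leaf 0)
  (.out 0)))) (.sz (.leaf 0) (.sz (.leaf 0) (.sx (.leaf 0) (.sx (.leaf 0) (.out 0))))))) (.sz
  (.leaf 0) (.sy (.sz (.leaf 0) (.sz (.leaf 0) (.sx (.leaf 0) (.sx (.leaf 0) (.out 0))))) (.sz
  (.leaf 0) (.sz (.leaf 0) (.sx (.leaf 0) (.sx (.leaf 0) (.out 0)))))))) (.leaf 0))

theorem fpu_chk8G2 : fpuB8.chk 512 12 fpuD8.xG2 fpuLo8 fpuT8G2 = true := by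
  (clear * -; decide +kernel)

theorem fpu_chk8G3 : fpuB8.chk 512 12 fpuD8.xG3 fpuLo8 (.leaf 0) = true := by
  (clear * -; decide +kernel)

/-- slab 9 -/
def fpuD9 : FpuD :=
  ⟨⟨1531, 999⟩, ⟨47, 9⟩, ⟨7, 0⟩, ⟨12, 0⟩, ⟨52, 0⟩, ⟨97, 99⟩, ⟨-9, 3⟩, ⟨91, 9⟩, ⟨43, 99⟩, ⟨73, 49⟩, ⟨129, 999⟩⟩

/-- box 9 -/
def fpuB9 : FpuB := ⟨51, 62, 186, 17, 18, 2, 0, 123, 100⟩

/-- region 9 -/
def fpuLo9 : List Ex3 := FpuD.Lo ⟨27, 0⟩ ⟨31, 0⟩

theorem fpu_chk9NA : fpuB9.chk 512 12 fpuD9.xNA fpuLo9 (.leaf 0) = true := by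
  (clear * -; decide +kernel)

theorem fpu_chk9NG : fpuB9.chk 512 12 fpuD9.xNG fpuLo9 (.leaf 0) = true := by
  (clear * -; decide +kernel)

/-- tree -/
def fpuT9G1 : PT3 :=
  .sy (.sy (.sz (.leaf 0) (.sz (.leaf 0) (.sx (.leaf 0) (.sz (.leaf 0) (.sy (.sx (.leaf 0)
  (.out 0)) (.sx (.leaf 0) (.sx (.sy (.out 0) (.sz (.leaf 0) (.sy (.sz (.leaf 0) (.sx (.leaf 0)
  (.out 0))) (.sx (.leaf 0) (.out 0))))) (.out 0)))))))) (.sz (.leaf 0) (.sz (.leaf 0) (.sx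
  (.leaf 0) (.sy (.sz (.leaf 0) (.sx (.leaf 0) (.sx (.sz (.leaf 0) (.sy (.sy (.sz (.leaf 0)
  (.sx (.leaf 0) (.out 0))) (.sx (.leaf 0) (.out 0))) (.sz (.leaf 0) (.sy (.sx (.leaf 0) (.out
  0)) (.leaf 0))))) (.out 0)))) (.sz (.leaf 0) (.sx (.leaf 0) (.sx (.leaf 0) (.out 0)))))))))
  (.sy (.sz (.leaf 0) (.sz (.leaf 0) (.sx (.leaf 0) (.sx (.leaf 0) (.sy (.sy (.sx (.leaf 0)
  (.out 0)) (.sx (.leaf 0) (.sx (.sz (.leaf 0) (.sx (.leaf 0) (.out 0))) (.out 0)))) (.sx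
  (.leaf 0) (.sx (.leaf 0) (.out 0)))))))) (.sz (.leaf 0) (.sz (.leaf 0) (.sx (.leaf 0) (.sx
  (.leaf 0) (.sy (.sy (.sx (.leaf 0) (.sx (.leaf 0) (.sz (.leaf 0) (.sz (.leaf 0) (.sz (.leaf
  0) (.sy (.out 0) (.sy (.out 0) (.sz (.leaf 0) (.sx (.leaf 0) (.out 0)))))))))) (.sz (.leaf 0)
  (.sx (.leaf 0) (.sx (.leaf 0) (.sy (.sz (.leaf 0) (.sz (.leaf 0) (.sz (.leaf 0) (.sy (.sx
  (.leaf 0) (.out 0)) (.sx (.leaf 0) (.out 0)))))) (.sx (.leaf 0) (.out 0))))))) (.leaf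
  0)))))))

theorem fpu_chk9G1 : fpuB9.chk 512 12 fpuD9.xG1 fpuLo9 fpuT9G1 = true := by
  (clear * -; decide +kernel)

/-- tree -/
def fpuT9G2 : PT3 :=
  .sx (.leaf 0) (.sx (.leaf 0) (.sy (.sy (.sz (.leaf 0) (.sz (.leaf 0) (.sy (.out 0) (.sz (.sz
  (.leaf 0) (.sy (.out 0) (.sx (.leaf 0) (.out 0)))) (.sz (.sy (.out 0) (.sx (.leaf 0) (.out
  0))) (.sy (.out 0) (.sx (.sx (.leaf 0) (.out 0)) (.out 0)))))))) (.sz (.leaf 0) (.sz (.leaf
  0) (.sy (.sy (.sz (.leaf 0) (.sz (.sx (.leaf 0) (.out 0)) (.sx (.sx (.leaf 0) (.out 0)) (.out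
  0)))) (.sz (.leaf 0) (.sz (.sx (.leaf 0) (.out 0)) (.sx (.sx (.leaf 0) (.out 0)) (.out 0)))))
  (.sy (.sz (.leaf 0) (.sz (.sx (.leaf 0) (.out 0)) (.sx (.leaf 0) (.out 0)))) (.sz (.leaf 0)
  (.sz (.sx (.leaf 0) (.out 0)) (.sx (.leaf 0) (.out 0))))))))) (.sz (.leaf 0) (.sz (.leaf 0)
  (.sy (.sy (.sy (.sz (.leaf 0) (.sz (.leaf 0) (.sx (.leaf 0) (.out 0)))) (.sz (.leaf 0) (.sz
  (.leaf 0) (.sx (.leaf 0) (.sx (.leaf 0) (.out 0)))))) (.sy (.sz (.leaf 0) (.sz (.leaf 0) (.sx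
  (.leaf 0) (.sx (.leaf 0) (.out 0))))) (.leaf 0))) (.leaf 0))))))

theorem fpu_chk9G2 : fpuB9.chk 512 12 fpuD9.xG2 fpuLo9 fpuT9G2 = true := by
  (clear * -; decide +kernel)

theorem fpu_chk9G3 : fpuB9.chk 512 12 fpuD9.xG3 fpuLo9 (.leaf 0) = true := by
  (clear * -; decide +kernel)

end Vale.Agent.P237.AllN
end

section

/-!
# P237, block D, `l > 0`, `1 ≤ m z ≤ 9`, `u ≥ 0`: the polynomial conditions on the twelve slabs
-/

namespace Vale.Agent.P237.AllN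

open PolyPos

theorem fpu_ub {z u K U zM : ℝ} (hz : z ≤ zM) (hzM : zM < 1) (h : u ^ 2 * (1 - z) ≤ K)
    (hK : K ≤ U ^ 2 * (1 - zM)) (hU : 0 ≤ U) : u ≤ U := by
  have h1 : u ^ 2 * (1 - zM) ≤ u ^ 2 * (1 - z) :=
    mul_le_mul_of_nonneg_left (by linarith only [hz]) (sq_nonneg u)
  have h2 : u ^ 2 * (1 - zM) ≤ U ^ 2 * (1 - zM) := by linarith only [h, hK, h1]
  have h3 : u ^ 2 ≤ U ^ 2 := le_of_mul_le_mul_right h2 (by linarith)
  exact le_of_pow_le_pow_left₀ (n := 2) (by norm_num) hU h3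

theorem fpu_ok1 {z w u : ℝ} (hz0 : 0 ≤ z) (hmz : 27 * z ≤ w) (hwa : 1 ≤ w)
    (hwb : w ≤ 2) (hu : 0 ≤ u) (h1 : u ^ 2 * (1 - z) ≤ 4 / 25 * w) (h2 : u ^ 2 * (1 - z) ≤ 1) :
    FpuOK fpuD1 z w u := by
  have hU : u ≤ 59 / 100 := fpu_ub (z := z) (zM := 2 / 27) (by linarith only [hmz, hwb]) (by norm_num) (K := 8 / 25) (by linarith)
    (by norm_num) (by norm_num)
  have hLo : ∀ E ∈ fpuLo1, E.R z w u ≤ 0 := by
    apply FpuD.Lo'_R
    · simp only [Fr.R]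
      push_cast
      linarith only [hmz]
    · exact h1
    · exact h2
  have hb : fpuB1.ok = true := by decide
  have hm : fpuB1.mem z w u := by
    refine ⟨⟨?_, ?_⟩, ⟨?_, ?_⟩, ?_, ?_⟩ <;> simp only [fpuB1] <;> push_cast <;> linarith only [hU, hmz, hwb, hu, hwa, hz0]
  exact FpuOK.of (FpuB.sound hb hm hLo fpu_chk1NA) (FpuB.sound hb hm hLo fpu_chk1NG)
    (FpuB.sound hb hm hLo fpu_chk1G1) (FpuB.sound hb hm hLo fpu_chk1G2)
    (FpuB.sound hb hm hLo fpu_chk1G3)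

theorem fpu_ok2 {z w u : ℝ} (hz0 : 0 ≤ z) (hmz : 27 * z ≤ w) (hwa : 2 ≤ w)
    (hwb : w ≤ 3) (hu : 0 ≤ u) (h1 : u ^ 2 * (1 - z) ≤ 4 / 25 * w) (h2 : u ^ 2 * (1 - z) ≤ 1) :
    FpuOK fpuD2 z w u := by
  have hU : u ≤ 37 / 50 := fpu_ub (z := z) (zM := 1 / 9) (by linarith only [hwb, hmz]) (by norm_num) (K := 12 / 25) (by linarith)
    (by norm_num) (by norm_num)
  have hLo : ∀ E ∈ fpuLo2, E.R z w u ≤ 0 := by
    apply FpuD.Lo'_R
    · simp only [Fr.R]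
      push_cast
      linarith only [hmz]
    · exact h1
    · exact h2
  have hb : fpuB2.ok = true := by decide
  have hm : fpuB2.mem z w u := by
    refine ⟨⟨?_, ?_⟩, ⟨?_, ?_⟩, ?_, ?_⟩ <;> simp only [fpuB2] <;> push_cast <;> linarith only [hU, hmz, hwb, hu, hwa, hz0]
  exact FpuOK.of (FpuB.sound hb hm hLo fpu_chk2NA) (FpuB.sound hb hm hLo fpu_chk2NG)
    (FpuB.sound hb hm hLo fpu_chk2G1) (FpuB.sound hb hm hLo fpu_chk2G2)
    (FpuB.sound hb hm hLo fpu_chk2G3)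

theorem fpu_ok3 {z w u : ℝ} (hz0 : 0 ≤ z) (hmz : 27 * z ≤ w) (hwa : 3 ≤ w)
    (hwb : w ≤ 4) (hu : 0 ≤ u) (h1 : u ^ 2 * (1 - z) ≤ 4 / 25 * w) (h2 : u ^ 2 * (1 - z) ≤ 1) :
    FpuOK fpuD3 z w u := by
  have hU : u ≤ 87 / 100 := fpu_ub (z := z) (zM := 4 / 27) (by linarith only [hmz, hwb]) (by norm_num) (K := 16 / 25) (by linarith only [h1, hwb])
    (by norm_num) (by norm_num)
  have hLo : ∀ E ∈ fpuLo3, E.R z w u ≤ 0 := by
    apply FpuD.Lo'_R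
    · simp only [Fr.R]
      push_cast
      linarith only [hmz]
    · exact h1
    · exact h2
  have hb : fpuB3.ok = true := by decide
  have hm : fpuB3.mem z w u := by
    refine ⟨⟨?_, ?_⟩, ⟨?_, ?_⟩, ?_, ?_⟩ <;> simp only [fpuB3] <;> push_cast <;> linarith only [hU, hmz, hwb, hu, hwa, hz0]
  exact FpuOK.of (FpuB.sound hb hm hLo fpu_chk3NA) (FpuB.sound hb hm hLo fpu_chk3NG)
    (FpuB.sound hb hm hLo fpu_chk3G1) (FpuB.sound hb hm hLo fpu_chk3G2)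
    (FpuB.sound hb hm hLo fpu_chk3G3)

theorem fpu_ok4 {z w u : ℝ} (hz0 : 0 ≤ z) (hmz : 27 * z ≤ w) (hwa : 4 ≤ w)
    (hwb : w ≤ 5) (hu : 0 ≤ u) (h1 : u ^ 2 * (1 - z) ≤ 4 / 25 * w) (h2 : u ^ 2 * (1 - z) ≤ 1) :
    FpuOK fpuD4 z w u := by
  have hU : u ≤ 1 := fpu_ub (z := z) (zM := 5 / 27) (by linarith only [hwb, hmz]) (by norm_num) (K := 4 / 5) (by linarith)
    (by norm_num) (by norm_num)
  have hLo : ∀ E ∈ fpuLo4, E.R z w u ≤ 0 := by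
    apply FpuD.Lo'_R
    · simp only [Fr.R]
      push_cast
      linarith only [hmz]
    · exact h1
    · exact h2
  have hb : fpuB4.ok = true := by decide
  have hm : fpuB4.mem z w u := by
    refine ⟨⟨?_, ?_⟩, ⟨?_, ?_⟩, ?_, ?_⟩ <;> simp only [fpuB4] <;> push_cast <;> linarith only [hU, hmz, hwb, hu, hwa, hz0]
  exact FpuOK.of (FpuB.sound hb hm hLo fpu_chk4NA) (FpuB.sound hb hm hLo fpu_chk4NG)
    (FpuB.sound hb hm hLo fpu_chk4G1) (FpuB.sound hb hm hLo fpu_chk4G2)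
    (FpuB.sound hb hm hLo fpu_chk4G3)

theorem fpu_ok5 {z w u : ℝ} (hz0 : 0 ≤ z) (hmz : 27 * z ≤ w) (hwa : 5 ≤ w)
    (hwb : w ≤ 25 / 4) (hu : 0 ≤ u) (h1 : u ^ 2 * (1 - z) ≤ 4 / 25 * w) (h2 : u ^ 2 * (1 - z) ≤ 1) :
    FpuOK fpuD5 z w u := by
  have hU : u ≤ 23 / 20 := fpu_ub (z := z) (zM := 25 / 108) (by linarith only [hwb, hmz]) (by norm_num) (K := 1) (by linarith only [h1, hwb])
    (by norm_num) (by norm_num)
  have hLo : ∀ E ∈ fpuLo5, E.R z w u ≤ 0 := by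
    apply FpuD.Lo'_R
    · simp only [Fr.R]
      push_cast
      linarith only [hmz]
    · exact h1
    · exact h2
  have hb : fpuB5.ok = true := by decide
  have hm : fpuB5.mem z w u := by
    refine ⟨⟨?_, ?_⟩, ⟨?_, ?_⟩, ?_, ?_⟩ <;> simp only [fpuB5] <;> push_cast <;> linarith only [hU, hmz, hwb, hu, hwa, hz0]
  exact FpuOK.of (FpuB.sound hb hm hLo fpu_chk5NA) (FpuB.sound hb hm hLo fpu_chk5NG)
    (FpuB.sound hb hm hLo fpu_chk5G1) (FpuB.sound hb hm hLo fpu_chk5G2)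
    (FpuB.sound hb hm hLo fpu_chk5G3)

theorem fpu_ok6 {z w u : ℝ} (hz0 : 0 ≤ z) (hmz : 27 * z ≤ w) (hwa : 25 / 4 ≤ w)
    (hwb : w ≤ 121 / 16) (hu : 0 ≤ u) (h1 : u ^ 2 * (1 - z) ≤ 4 / 25 * w) (h2 : u ^ 2 * (1 - z) ≤ 1) :
    FpuOK fpuD6 z w u := by
  have hU : u ≤ 59 / 50 := fpu_ub (z := z) (zM := 121 / 432) (by linarith only [hwb, hmz]) (by norm_num) (K := 1) h2
    (by norm_num) (by norm_num)
  have hLo : ∀ E ∈ fpuLo6, E.R z w u ≤ 0 := by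
    apply FpuD.Lo'_R
    · simp only [Fr.R]
      push_cast
      linarith only [hmz]
    · exact h1
    · exact h2
  have hb : fpuB6.ok = true := by decide
  have hm : fpuB6.mem z w u := by
    refine ⟨⟨?_, ?_⟩, ⟨?_, ?_⟩, ?_, ?_⟩ <;> simp only [fpuB6] <;> push_cast <;> linarith only [hU, hmz, hwb, hu, hwa, hz0]
  exact FpuOK.of (FpuB.sound hb hm hLo fpu_chk6NA) (FpuB.sound hb hm hLo fpu_chk6NG)
    (FpuB.sound hb hm hLo fpu_chk6G1) (FpuB.sound hb hm hLo fpu_chk6G2)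
    (FpuB.sound hb hm hLo fpu_chk6G3)

theorem fpu_ok7 {z w u : ℝ} (hmz : 27 * z ≤ w) (hM : w ≤ 31 * z) (hwa : 121 / 16 ≤ w)
    (hwb : w ≤ 8) (hu : 0 ≤ u) (h1 : u ^ 2 * (1 - z) ≤ 4 / 25 * w) (h2 : u ^ 2 * (1 - z) ≤ 1) :
    FpuOK fpuD7 z w u := by
  have hU : u ≤ 6 / 5 := fpu_ub (z := z) (zM := 8 / 27) (by linarith only [hwb, hmz]) (by norm_num) (K := 1) h2
    (by norm_num) (by norm_num)
  have hLo : ∀ E ∈ fpuLo7, E.R z w u ≤ 0 := by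
    apply FpuD.Lo_R
    · simp only [Fr.R]
      push_cast
      linarith only [hmz]
    · exact h1
    · exact h2
    · simp only [Fr.R]
      push_cast
      linarith only [hM]
  have hb : fpuB7.ok = true := by decide
  have hm : fpuB7.mem z w u := by
    refine ⟨⟨?_, ?_⟩, ⟨?_, ?_⟩, ?_, ?_⟩ <;> simp only [fpuB7] <;> push_cast <;> linarith only [hM, hwa, hU, hmz, hwb, hu]
  exact FpuOK.of (FpuB.sound hb hm hLo fpu_chk7NA) (FpuB.sound hb hm hLo fpu_chk7NG)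
    (FpuB.sound hb hm hLo fpu_chk7G1) (FpuB.sound hb hm hLo fpu_chk7G2)
    (FpuB.sound hb hm hLo fpu_chk7G3)

theorem fpu_ok8 {z w u : ℝ} (hmz : 27 * z ≤ w) (hM : w ≤ 31 * z) (hwa : 8 ≤ w)
    (hwb : w ≤ 17 / 2) (hu : 0 ≤ u) (h1 : u ^ 2 * (1 - z) ≤ 4 / 25 * w) (h2 : u ^ 2 * (1 - z) ≤ 1) :
    FpuOK fpuD8 z w u := by
  have hU : u ≤ 121 / 100 := fpu_ub (z := z) (zM := 17 / 54) (by linarith only [hmz, hwb]) (by norm_num) (K := 1) h2
    (by norm_num) (by norm_num)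
  have hLo : ∀ E ∈ fpuLo8, E.R z w u ≤ 0 := by
    apply FpuD.Lo_R
    · simp only [Fr.R]
      push_cast
      linarith only [hmz]
    · exact h1
    · exact h2
    · simp only [Fr.R]
      push_cast
      linarith only [hM]
  have hb : fpuB8.ok = true := by decide
  have hm : fpuB8.mem z w u := by
    refine ⟨⟨?_, ?_⟩, ⟨?_, ?_⟩, ?_, ?_⟩ <;> simp only [fpuB8] <;> push_cast <;> linarith only [hM, hwa, hU, hmz, hwb, hu]
  exact FpuOK.of (FpuB.sound hb hm hLo fpu_chk8NA) (FpuB.sound hb hm hLo fpu_chk8NG)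
    (FpuB.sound hb hm hLo fpu_chk8G1) (FpuB.sound hb hm hLo fpu_chk8G2)
    (FpuB.sound hb hm hLo fpu_chk8G3)

theorem fpu_ok9 {z w u : ℝ} (hmz : 27 * z ≤ w) (hM : w ≤ 31 * z) (hwa : 17 / 2 ≤ w)
    (hwb : w ≤ 9) (hu : 0 ≤ u) (h1 : u ^ 2 * (1 - z) ≤ 4 / 25 * w) (h2 : u ^ 2 * (1 - z) ≤ 1) :
    FpuOK fpuD9 z w u := by
  have hU : u ≤ 123 / 100 := fpu_ub (z := z) (zM := 1 / 3) (by (clear * - hmz hwb; linarith only [hwb, hmz])) (by norm_num) (K := 1) h2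
    (by norm_num) (by norm_num)
  have hLo : ∀ E ∈ fpuLo9, E.R z w u ≤ 0 := by
    apply FpuD.Lo_R
    · simp only [Fr.R]
      push_cast
      linarith only [hmz]
    · exact h1
    · exact h2
    · simp only [Fr.R]
      push_cast
      linarith only [hM]
  have hb : fpuB9.ok = true := by decide
  have hm : fpuB9.mem z w u := by
    refine ⟨⟨?_, ?_⟩, ⟨?_, ?_⟩, ?_, ?_⟩ <;> simp only [fpuB9] <;> push_cast <;> linarith only [hM, hwa, hU, hmz, hwb, hu]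
  exact FpuOK.of (FpuB.sound hb hm hLo fpu_chk9NA) (FpuB.sound hb hm hLo fpu_chk9NG)
    (FpuB.sound hb hm hLo fpu_chk9G1) (FpuB.sound hb hm hLo fpu_chk9G2)
    (FpuB.sound hb hm hLo fpu_chk9G3)

theorem fpu_ok10 {z w u : ℝ} (hmz : 31 * z ≤ w) (hM : w ≤ 47 * z) (hwa : 121 / 16 ≤ w)
    (hwb : w ≤ 9) (hu : 0 ≤ u) (h1 : u ^ 2 * (1 - z) ≤ 4 / 25 * w) (h2 : u ^ 2 * (1 - z) ≤ 1) :
    FpuOK fpuD10 z w u := by
  have hU : u ≤ 119 / 100 := fpu_ub (z := z) (zM := 9 / 31) (by linarith only [hmz, hwb]) (by norm_num) (K := 1) h2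
    (by norm_num) (by norm_num)
  have hLo : ∀ E ∈ fpuLo10, E.R z w u ≤ 0 := by
    apply FpuD.Lo_R
    · simp only [Fr.R]
      push_cast
      linarith only [hmz]
    · exact h1
    · exact h2
    · simp only [Fr.R]
      push_cast
      linarith only [hM]
  have hb : fpuB10.ok = true := by decide
  have hm : fpuB10.mem z w u := by
    refine ⟨⟨?_, ?_⟩, ⟨?_, ?_⟩, ?_, ?_⟩ <;> simp only [fpuB10] <;> push_cast <;> linarith only [hM, hwa, hU, hmz, hwb, hu]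
  exact FpuOK.of (FpuB.sound hb hm hLo fpu_chk10NA) (FpuB.sound hb hm hLo fpu_chk10NG)
    (FpuB.sound hb hm hLo fpu_chk10G1) (FpuB.sound hb hm hLo fpu_chk10G2)
    (FpuB.sound hb hm hLo fpu_chk10G3)

theorem fpu_ok11 {z w u : ℝ} (hz0 : 0 ≤ z) (hmz : 48 * z ≤ w) (hwa : 25 / 4 ≤ w)
    (hwb : w ≤ 121 / 16) (hu : 0 ≤ u) (h1 : u ^ 2 * (1 - z) ≤ 4 / 25 * w) (h2 : u ^ 2 * (1 - z) ≤ 1) :
    FpuOK fpuD11 z w u := by
  have hU : u ≤ 109 / 100 := fpu_ub (z := z) (zM := 121 / 768) (by linarith only [hwb, hmz]) (by norm_num) (K := 1) h2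
    (by norm_num) (by norm_num)
  have hLo : ∀ E ∈ fpuLo11, E.R z w u ≤ 0 := by
    apply FpuD.Lo'_R
    · simp only [Fr.R]
      push_cast
      linarith only [hmz]
    · exact h1
    · exact h2
  have hb : fpuB11.ok = true := by decide
  have hm : fpuB11.mem z w u := by
    refine ⟨⟨?_, ?_⟩, ⟨?_, ?_⟩, ?_, ?_⟩ <;> simp only [fpuB11] <;> push_cast <;> linarith only [hU, hmz, hwb, hu, hwa, hz0]
  exact FpuOK.of (FpuB.sound hb hm hLo fpu_chk11NA) (FpuB.sound hb hm hLo fpu_chk11NG)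
    (FpuB.sound hb hm hLo fpu_chk11G1) (FpuB.sound hb hm hLo fpu_chk11G2)
    (FpuB.sound hb hm hLo fpu_chk11G3)

theorem fpu_ok12 {z w u : ℝ} (hz0 : 0 ≤ z) (hmz : 48 * z ≤ w) (hwa : 121 / 16 ≤ w)
    (hwb : w ≤ 9) (hu : 0 ≤ u) (h1 : u ^ 2 * (1 - z) ≤ 4 / 25 * w) (h2 : u ^ 2 * (1 - z) ≤ 1) :
    FpuOK fpuD12 z w u := by
  have hU : u ≤ 111 / 100 := fpu_ub (z := z) (zM := 3 / 16) (by (clear * - hmz hwb; linarith only [hwb, hmz])) (by norm_num) (K := 1) h2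
    (by norm_num) (by norm_num)
  have hLo : ∀ E ∈ fpuLo12, E.R z w u ≤ 0 := by
    apply FpuD.Lo'_R
    · simp only [Fr.R]
      push_cast
      linarith only [hmz]
    · exact h1
    · exact h2
  have hb : fpuB12.ok = true := by decide
  have hm : fpuB12.mem z w u := by
    refine ⟨⟨?_, ?_⟩, ⟨?_, ?_⟩, ?_, ?_⟩ <;> simp only [fpuB12] <;> push_cast <;> linarith only [hU, hmz, hwb, hu, hwa, hz0]
  exact FpuOK.of (FpuB.sound hb hm hLo fpu_chk12NA) (FpuB.sound hb hm hLo fpu_chk12NG)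
    (FpuB.sound hb hm hLo fpu_chk12G1) (FpuB.sound hb hm hLo fpu_chk12G2)
    (FpuB.sound hb hm hLo fpu_chk12G3)

end Vale.Agent.P237.AllN
end

section

/-!
# P237, block D, `l > 0`: lower bounds of the kernel part of `T`
-/

open Finset

namespace Vale.Agent.P237.AllN

open PolyPos

/-! ## range `l ≤ 11 / 25` -/

theorem ks_h_two_d {l : ℝ} (h0 : 0 ≤ l) (h1 : l ≤ 11 / 25) :
    3 * kpt (4 * l) + kct (4 * l) ≤ l ^ 3 * (128 / 3 - 209877 / 10000 * l + 3836 / 125 * l ^ 2) := by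
  have h := ks_polyL (A := 11) (D := 25) (q := padd (psm (1260 ^ 2) [-60000, 480000, -480000, 1280000, -629631, 920640])
    (padd (psm 90000 (ppow kAL 2)) (psm (-30000) (ppow kBH 2)))) (by norm_num) (by norm_num)
    h0 (by push_cast; linarith only [h1]) (by (clear * -; decide +kernel))
  have hE := ks_E_ge' 2 h0 (by linarith only [h1])
  have hB := ks_B_le' 2 h0 (by linarith)
  rw [ev1_padd, ev1_padd, ev1_psm, ev1_psm, ev1_psm, ev1_ppow, ev1_ppow] at h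
  simp only [ev1_cons, ev1_nil] at h
  rw [show -(2 * ((2 : ℕ) : ℝ) * l) = -(4 * l) by push_cast; ring] at hE
  rw [show 2 * ((2 : ℕ) : ℝ) * l = 4 * l by push_cast; ring] at hB
  generalize ev1 kAL l ^ 2 = A at *
  generalize ev1 kBH l ^ 2 = B at *
  push_cast at h
  simp only [kpt, kct]
  linarith only [h, hB, hE]

theorem ks_p_two_d {l : ℝ} (h0 : 0 ≤ l) (h1 : l ≤ 11 / 25) :
    l ^ 3 * (32 / 3 - 1067 / 100 * l + 6551 / 1000 * l ^ 2) ≤ kpt (4 * l) := by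
  have h := ks_polyL (A := 11) (D := 25) (q := padd (psm (1260 ^ 2) [3000, -12000, 24000, -32000, 32010, -19653])
    (psm (-3000) (ppow kAH 2))) (by norm_num) (by norm_num)
    h0 (by push_cast; linarith only [h1]) (by (clear * -; decide +kernel))
  have hE := ks_E_le' 2 h0 (by linarith only [h1])
  rw [ev1_padd, ev1_psm, ev1_psm, ev1_ppow] at h
  simp only [ev1_cons, ev1_nil] at h
  rw [show -(2 * ((2 : ℕ) : ℝ) * l) = -(4 * l) by push_cast; ring] at hE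
  generalize ev1 kAH l ^ 2 = A at *
  push_cast at h
  simp only [kpt]
  linarith only [h, hE]

theorem ks_e_two_d {l : ℝ} (h0 : 0 ≤ l) (h1 : l ≤ 11 / 25) :
    l * (-16 + 8299 / 200 * l - 1433 / 50 * l ^ 2) ≤ 6 * (Real.exp (-(4 * l)) - 1) + 8 * l := by
  have h := ks_polyL (A := 11) (D := 25) (q := padd (psm (1260 ^ 2) [-1200, 4800, -8299, 5732])
    (psm 1200 (ppow kAL 2))) (by norm_num) (by norm_num)
    h0 (by push_cast; linarith only [h1]) (by (clear * -; decide +kernel))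
  have hE := ks_E_ge' 2 h0 (by linarith only [h1])
  rw [ev1_padd, ev1_psm, ev1_psm, ev1_ppow] at h
  simp only [ev1_cons, ev1_nil] at h
  rw [show -(2 * ((2 : ℕ) : ℝ) * l) = -(4 * l) by push_cast; ring] at hE
  generalize ev1 kAL l ^ 2 = A at *
  push_cast at h
  linarith

theorem ks_h_three_d {l : ℝ} (h0 : 0 ≤ l) (h1 : l ≤ 11 / 25) :
    5 * kpt (6 * l) + kct (6 * l) ≤ l ^ 3 * (216 - 2089 / 10 * l + 15723 / 50 * l ^ 2) := by
  have h := ks_polyL (A := 11) (D := 25) (q := padd (psm (1260 ^ 3) [-200, 1800, -3600, 10800, -10445, 15723])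
    (padd (psm 250 (ppow kAL 3)) (psm (-50) (ppow kBH 3)))) (by norm_num) (by norm_num)
    h0 (by push_cast; linarith) (by (clear * -; decide +kernel))
  have hE := ks_E_ge' 3 h0 (by linarith only [h1])
  have hB := ks_B_le' 3 h0 (by linarith)
  rw [ev1_padd, ev1_padd, ev1_psm, ev1_psm, ev1_psm, ev1_ppow, ev1_ppow] at h
  simp only [ev1_cons, ev1_nil] at h
  rw [show -(2 * ((3 : ℕ) : ℝ) * l) = -(6 * l) by push_cast; ring] at hE
  rw [show 2 * ((3 : ℕ) : ℝ) * l = 6 * l by push_cast; ring] at hB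
  generalize ev1 kAL l ^ 3 = A at *
  generalize ev1 kBH l ^ 3 = B at *
  push_cast at h
  simp only [kpt, kct]
  linarith only [h, hB, hE]

theorem ks_p_three_d {l : ℝ} (h0 : 0 ≤ l) (h1 : l ≤ 11 / 25) :
    l ^ 3 * (36 - 5401 / 100 * l + 22167 / 500 * l ^ 2) ≤ kpt (6 * l) := by
  have h := ks_polyL (A := 11) (D := 25) (q := padd (psm (1260 ^ 3) [500, -3000, 9000, -18000, 27005, -22167])
    (psm (-500) (ppow kAH 3))) (by norm_num) (by norm_num)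
    h0 (by push_cast; linarith) (by (clear * -; decide +kernel))
  have hE := ks_E_le' 3 h0 (by linarith only [h1])
  rw [ev1_padd, ev1_psm, ev1_psm, ev1_ppow] at h
  simp only [ev1_cons, ev1_nil] at h
  rw [show -(2 * ((3 : ℕ) : ℝ) * l) = -(6 * l) by push_cast; ring] at hE
  generalize ev1 kAH l ^ 3 = A at *
  push_cast at h
  simp only [kpt]
  linarith

theorem ks_e_three_d {l : ℝ} (h0 : 0 ≤ l) (h1 : l ≤ 11 / 25) :
    l * (-36 + 69277 / 500 * l - 114001 / 1000 * l ^ 2) ≤ 10 * (Real.exp (-(6 * l)) - 1) + 24 * l := by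
  have h := ks_polyL (A := 11) (D := 25) (q := padd (psm (1260 ^ 3) [-10000, 60000, -138554, 114001])
    (psm 10000 (ppow kAL 3))) (by norm_num) (by norm_num)
    h0 (by push_cast; linarith) (by (clear * -; decide +kernel))
  have hE := ks_E_ge' 3 h0 (by linarith only [h1])
  rw [ev1_padd, ev1_psm, ev1_psm, ev1_ppow] at h
  simp only [ev1_cons, ev1_nil] at h
  rw [show -(2 * ((3 : ℕ) : ℝ) * l) = -(6 * l) by push_cast; ring] at hE
  generalize ev1 kAL l ^ 3 = A at *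
  push_cast at h
  linarith

theorem ks_h_four_d {l : ℝ} (h0 : 0 ≤ l) (h1 : l ≤ 11 / 25) :
    7 * kpt (8 * l) + kct (8 * l) ≤ l ^ 3 * (2048 / 3 - 196161 / 200 * l + 41231 / 25 * l ^ 2) := by
  have h := ks_polyL (A := 11) (D := 25) (q := padd (psm (1260 ^ 4) [-3600, 38400, -115200, 409600, -588483, 989544])
    (padd (psm 4200 (ppow kAL 4)) (psm (-600) (ppow kBH 4)))) (by norm_num) (by norm_num)
    h0 (by push_cast; linarith) (by (clear * -; decide +kernel))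
  have hE := ks_E_ge' 4 h0 (by linarith only [h1])
  have hB := ks_B_le' 4 h0 (by linarith)
  rw [ev1_padd, ev1_padd, ev1_psm, ev1_psm, ev1_psm, ev1_ppow, ev1_ppow] at h
  simp only [ev1_cons, ev1_nil] at h
  rw [show -(2 * ((4 : ℕ) : ℝ) * l) = -(8 * l) by push_cast; ring] at hE
  rw [show 2 * ((4 : ℕ) : ℝ) * l = 8 * l by push_cast; ring] at hB
  generalize ev1 kAL l ^ 4 = A at *
  generalize ev1 kBH l ^ 4 = B at *
  push_cast at h
  simp only [kpt, kct]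
  linarith [h, hB, hE]

theorem ks_p_four_d {l : ℝ} (h0 : 0 ≤ l) (h1 : l ≤ 11 / 25) :
    l ^ 3 * (256 / 3 - 17067 / 100 * l + 16817 / 100 * l ^ 2) ≤ kpt (8 * l) := by
  have h := ks_polyL (A := 11) (D := 25) (q := padd (psm (1260 ^ 4) [300, -2400, 9600, -25600, 51201, -50451])
    (psm (-300) (ppow kAH 4))) (by norm_num) (by norm_num)
    h0 (by push_cast; linarith only [h1]) (by (clear * -; decide +kernel))
  have hE := ks_E_le' 4 h0 (by linarith only [h1])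
  rw [ev1_padd, ev1_psm, ev1_psm, ev1_ppow] at h
  simp only [ev1_cons, ev1_nil] at h
  rw [show -(2 * ((4 : ℕ) : ℝ) * l) = -(8 * l) by push_cast; ring] at hE
  generalize ev1 kAH l ^ 4 = A at *
  push_cast at h
  simp only [kpt]
  linarith [h, hE]

theorem ks_e_four_d {l : ℝ} (h0 : 0 ≤ l) (h1 : l ≤ 11 / 25) :
    l * (-64 + 3061 / 10 * l - 27667 / 100 * l ^ 2) ≤ 14 * (Real.exp (-(8 * l)) - 1) + 48 * l := by
  have h := ks_polyL (A := 11) (D := 25) (q := padd (psm (1260 ^ 4) [-1400, 11200, -30610, 27667])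
    (psm 1400 (ppow kAL 4))) (by norm_num) (by norm_num)
    h0 (by push_cast; linarith) (by (clear * -; decide +kernel))
  have hE := ks_E_ge' 4 h0 (by linarith only [h1])
  rw [ev1_padd, ev1_psm, ev1_psm, ev1_ppow] at h
  simp only [ev1_cons, ev1_nil] at h
  rw [show -(2 * ((4 : ℕ) : ℝ) * l) = -(8 * l) by push_cast; ring] at hE
  generalize ev1 kAL l ^ 4 = A at *
  push_cast at h
  linarith only [h, hE]

theorem ks_h_five_d {l : ℝ} (h0 : 0 ≤ l) (h1 : l ≤ 11 / 25) :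
    9 * kpt (10 * l) + kct (10 * l) ≤ l ^ 3 * (5000 / 3 - 12743 / 4 * l + 60767 / 10 * l ^ 2) := by
  have h := ks_polyL (A := 11) (D := 25) (q := padd (psm (1260 ^ 5) [-480, 6000, -24000, 100000, -191145, 364602])
    (padd (psm 540 (ppow kAL 5)) (psm (-60) (ppow kBH 5)))) (by norm_num) (by norm_num)
    h0 (by push_cast; linarith) (by (clear * -; decide +kernel))
  have hE := ks_E_ge' 5 h0 (by linarith only [h1])
  have hB := ks_B_le' 5 h0 (by linarith)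
  rw [ev1_padd, ev1_padd, ev1_psm, ev1_psm, ev1_psm, ev1_ppow, ev1_ppow] at h
  simp only [ev1_cons, ev1_nil] at h
  rw [show -(2 * ((5 : ℕ) : ℝ) * l) = -(10 * l) by push_cast; ring] at hE
  rw [show 2 * ((5 : ℕ) : ℝ) * l = 10 * l by push_cast; ring] at hB
  generalize ev1 kAL l ^ 5 = A at *
  generalize ev1 kBH l ^ 5 = B at *
  push_cast at h
  simp only [kpt, kct]
  linarith

theorem ks_p_five_d {l : ℝ} (h0 : 0 ≤ l) (h1 : l ≤ 11 / 25) :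
    l ^ 3 * (500 / 3 - 41667 / 100 * l + 233073 / 500 * l ^ 2) ≤ kpt (10 * l) := by
  have h := ks_polyL (A := 11) (D := 25) (q := padd (psm (1260 ^ 5) [1500, -15000, 75000, -250000, 625005, -699219])
    (psm (-1500) (ppow kAH 5))) (by norm_num) (by norm_num)
    h0 (by push_cast; linarith only [h1]) (by (clear * -; decide +kernel))
  have hE := ks_E_le' 5 h0 (by linarith only [h1])
  rw [ev1_padd, ev1_psm, ev1_psm, ev1_ppow] at h
  simp only [ev1_cons, ev1_nil] at h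
  rw [show -(2 * ((5 : ℕ) : ℝ) * l) = -(10 * l) by push_cast; ring] at hE
  generalize ev1 kAH l ^ 5 = A at *
  push_cast at h
  simp only [kpt]
  linarith

theorem ks_e_five_d {l : ℝ} (h0 : 0 ≤ l) (h1 : l ≤ 11 / 25) :
    l * (-100 + 5477 / 10 * l - 26187 / 50 * l ^ 2) ≤ 18 * (Real.exp (-(10 * l)) - 1) + 80 * l := by
  have h := ks_polyL (A := 11) (D := 25) (q := padd (psm (1260 ^ 5) [-900, 9000, -27385, 26187])
    (psm 900 (ppow kAL 5))) (by norm_num) (by norm_num)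
    h0 (by push_cast; linarith only [h1]) (by (clear * -; decide +kernel))
  have hE := ks_E_ge' 5 h0 (by linarith only [h1])
  rw [ev1_padd, ev1_psm, ev1_psm, ev1_ppow] at h
  simp only [ev1_cons, ev1_nil] at h
  rw [show -(2 * ((5 : ℕ) : ℝ) * l) = -(10 * l) by push_cast; ring] at hE
  generalize ev1 kAL l ^ 5 = A at *
  push_cast at h
  linarith

theorem ks_h_six_d {l : ℝ} (h0 : 0 ≤ l) (h1 : l ≤ 11 / 25) :
    11 * kpt (12 * l) + kct (12 * l) ≤ l ^ 3 * (3456 - 207424 / 25 * l + 90632 / 5 * l ^ 2) := by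
  have h := ks_polyL (A := 11) (D := 25) (q := padd (psm (1260 ^ 6) [-250, 3600, -18000, 86400, -207424, 453160])
    (padd (psm 275 (ppow kAL 6)) (psm (-25) (ppow kBH 6)))) (by norm_num) (by norm_num)
    h0 (by push_cast; linarith) (by (clear * -; decide +kernel))
  have hE := ks_E_ge' 6 h0 (by linarith only [h1])
  have hB := ks_B_le' 6 h0 (by linarith)
  rw [ev1_padd, ev1_padd, ev1_psm, ev1_psm, ev1_psm, ev1_ppow, ev1_ppow] at h
  simp only [ev1_cons, ev1_nil] at h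
  rw [show -(2 * ((6 : ℕ) : ℝ) * l) = -(12 * l) by push_cast; ring] at hE
  rw [show 2 * ((6 : ℕ) : ℝ) * l = 12 * l by push_cast; ring] at hB
  generalize ev1 kAL l ^ 6 = A at *
  generalize ev1 kBH l ^ 6 = B at *
  push_cast at h
  simp only [kpt, kct]
  linarith

theorem ks_p_six_d {l : ℝ} (h0 : 0 ≤ l) (h1 : l ≤ 11 / 25) :
    l ^ 3 * (288 - 86401 / 100 * l + 265361 / 250 * l ^ 2) ≤ kpt (12 * l) := by
  have h := ks_polyL (A := 11) (D := 25) (q := padd (psm (1260 ^ 6) [500, -6000, 36000, -144000, 432005, -530722])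
    (psm (-500) (ppow kAH 6))) (by norm_num) (by norm_num)
    h0 (by push_cast; linarith only [h1]) (by (clear * -; decide +kernel))
  have hE := ks_E_le' 6 h0 (by linarith only [h1])
  rw [ev1_padd, ev1_psm, ev1_psm, ev1_ppow] at h
  simp only [ev1_cons, ev1_nil] at h
  rw [show -(2 * ((6 : ℕ) : ℝ) * l) = -(12 * l) by push_cast; ring] at hE
  generalize ev1 kAH l ^ 6 = A at *
  push_cast at h
  simp only [kpt]
  linarith

theorem ks_e_six_d {l : ℝ} (h0 : 0 ≤ l) (h1 : l ≤ 11 / 25) :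
    l * (-144 + 86387 / 100 * l - 21417 / 25 * l ^ 2) ≤ 22 * (Real.exp (-(12 * l)) - 1) + 120 * l := by
  have h := ks_polyL (A := 11) (D := 25) (q := padd (psm (1260 ^ 6) [-2200, 26400, -86387, 85668])
    (psm 2200 (ppow kAL 6))) (by norm_num) (by norm_num)
    h0 (by push_cast; linarith only [h1]) (by (clear * -; decide +kernel))
  have hE := ks_E_ge' 6 h0 (by linarith only [h1])
  rw [ev1_padd, ev1_psm, ev1_psm, ev1_ppow] at h
  simp only [ev1_cons, ev1_nil] at h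
  rw [show -(2 * ((6 : ℕ) : ℝ) * l) = -(12 * l) by push_cast; ring] at hE
  generalize ev1 kAL l ^ 6 = A at *
  push_cast at h
  linarith

/-- cubic remainder, `w = m z` -/
noncomputable def kD_d (w z l : ℝ) : ℝ :=
  3 / 16 * ((w + 5 * z) * (128 / 3 - 209877 / 10000 * l + 3836 / 125 * l ^ 2) - 6 * (32 / 3 - 1067 / 100 * l + 6551 / 1000 * l ^ 2)) +
  5 / 48 * z * ((w + 7 * z) * (216 - 2089 / 10 * l + 15723 / 50 * l ^ 2) - 20 * (36 - 5401 / 100 * l + 22167 / 500 * l ^ 2)) +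
  35 / 512 * z ^ 2 * ((w + 9 * z) * (2048 / 3 - 196161 / 200 * l + 41231 / 25 * l ^ 2) - 42 * (256 / 3 - 17067 / 100 * l + 16817 / 100 * l ^ 2)) +
  63 / 1280 * z ^ 3 * ((w + 11 * z) * (5000 / 3 - 12743 / 4 * l + 60767 / 10 * l ^ 2) - 72 * (500 / 3 - 41667 / 100 * l + 233073 / 500 * l ^ 2)) +
  77 / 2048 * z ^ 4 * ((w + 13 * z) * (3456 - 207424 / 25 * l + 90632 / 5 * l ^ 2) - 110 * (288 - 86401 / 100 * l + 265361 / 250 * l ^ 2))

theorem dpS0_ge_d {m z l : ℝ} (hm : 0 ≤ m) (hz : 0 ≤ z) (h0 : 0 ≤ l) (h1 : l ≤ 11 / 25) :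
    -(l ^ 3 * z * kD_d (m * z) z l) ≤ dpS0 m z l := by
  have a2 := ks_h_two_d h0 h1
  have b2 := ks_p_two_d h0 h1
  have a3 := ks_h_three_d h0 h1
  have b3 := ks_p_three_d h0 h1
  have a4 := ks_h_four_d h0 h1
  have b4 := ks_p_four_d h0 h1
  have a5 := ks_h_five_d h0 h1
  have b5 := ks_p_five_d h0 h1
  have a6 := ks_h_six_d h0 h1
  have b6 := ks_p_six_d h0 h1
  have c2 : 3 / 16 * z * (6 * (l ^ 3 * (32 / 3 - 1067 / 100 * l + 6551 / 1000 * l ^ 2)) - (m + 5) * z * (l ^ 3 * (128 / 3 - 209877 / 10000 * l + 3836 / 125 * l ^ 2))) ≤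
      3 / 16 * z * (3 * (2 - (m + 5) * z) * kpt (4 * l) - (m + 5) * z * kct (4 * l)) := by
    apply mul_le_mul_of_nonneg_left _ (by positivity)
    have d1 := mul_le_mul_of_nonneg_left a2 (by positivity : 0 ≤ (m + 5) * z)
    linarith only [b2, d1]
  have c3 : 5 / 48 * z ^ 2 * (20 * (l ^ 3 * (36 - 5401 / 100 * l + 22167 / 500 * l ^ 2)) - (m + 7) * z * (l ^ 3 * (216 - 2089 / 10 * l + 15723 / 50 * l ^ 2))) ≤
      5 / 48 * z ^ 2 * (5 * (4 - (m + 7) * z) * kpt (6 * l) - (m + 7) * z * kct (6 * l)) := by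
    apply mul_le_mul_of_nonneg_left _ (by (clear * -; (clear * -; positivity)))
    have d1 := mul_le_mul_of_nonneg_left a3 (by positivity : 0 ≤ (m + 7) * z)
    linarith only [b3, d1]
  have c4 : 35 / 512 * z ^ 3 * (42 * (l ^ 3 * (256 / 3 - 17067 / 100 * l + 16817 / 100 * l ^ 2)) - (m + 9) * z * (l ^ 3 * (2048 / 3 - 196161 / 200 * l + 41231 / 25 * l ^ 2))) ≤
      35 / 512 * z ^ 3 * (7 * (6 - (m + 9) * z) * kpt (8 * l) - (m + 9) * z * kct (8 * l)) := by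
    apply mul_le_mul_of_nonneg_left _ (by (clear * - hz; positivity))
    have d1 := mul_le_mul_of_nonneg_left a4 (by positivity : 0 ≤ (m + 9) * z)
    linarith only [b4, d1]
  have c5 : 63 / 1280 * z ^ 4 * (72 * (l ^ 3 * (500 / 3 - 41667 / 100 * l + 233073 / 500 * l ^ 2)) - (m + 11) * z * (l ^ 3 * (5000 / 3 - 12743 / 4 * l + 60767 / 10 * l ^ 2))) ≤
      63 / 1280 * z ^ 4 * (9 * (8 - (m + 11) * z) * kpt (10 * l) - (m + 11) * z * kct (10 * l)) := by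
    apply mul_le_mul_of_nonneg_left _ (by (clear * -; positivity))
    have d1 := mul_le_mul_of_nonneg_left a5 (by positivity : 0 ≤ (m + 11) * z)
    (clear * - b5 d1; linarith)
  have c6 : 77 / 2048 * z ^ 5 * (110 * (l ^ 3 * (288 - 86401 / 100 * l + 265361 / 250 * l ^ 2)) - (m + 13) * z * (l ^ 3 * (3456 - 207424 / 25 * l + 90632 / 5 * l ^ 2))) ≤
      77 / 2048 * z ^ 5 * (11 * (10 - (m + 13) * z) * kpt (12 * l) - (m + 13) * z * kct (12 * l)) := by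
    apply mul_le_mul_of_nonneg_left _ (by positivity)
    have d1 := mul_le_mul_of_nonneg_left a6 (by positivity : 0 ≤ (m + 13) * z)
    linarith only [b6, d1]
  simp only [kD_d, dpS0]
  linarith only [c6, c5, c4, c3, c2]

def exK1_d (W : Ex) : Ex :=
  Ex.X * (Ex.c ⟨192, 24⟩ + Ex.c ⟨246, 24⟩ * exZ + Ex.c ⟨653, 9⟩ * (exZ * exZ)) + Ex.c ⟨3, 0⟩ * (W - Ex.c ⟨3, 0⟩ * exZ) -
  Ex.c ⟨9, 0⟩ * (Ex.X * Ex.X) - Ex.X * Ex.X * Ex.X * Ex.X * Ex.X * Ex.Y * (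
    Ex.c ⟨3, 15⟩ * ((W + Ex.c ⟨5, 0⟩ * exZ) * (Ex.c ⟨128, 2⟩ + Ex.c ⟨-209877, 9999⟩ * Ex.Y + Ex.c ⟨3836, 124⟩ * (Ex.Y * Ex.Y)) - Ex.c ⟨6, 0⟩ * (Ex.c ⟨32, 2⟩ + Ex.c ⟨-1067, 99⟩ * Ex.Y + Ex.c ⟨6551, 999⟩ * (Ex.Y * Ex.Y))) +
    Ex.c ⟨5, 47⟩ * exZ * ((W + Ex.c ⟨7, 0⟩ * exZ) * (Ex.c ⟨216, 0⟩ + Ex.c ⟨-2089, 9⟩ * Ex.Y + Ex.c ⟨15723, 49⟩ * (Ex.Y * Ex.Y)) - Ex.c ⟨20, 0⟩ * (Ex.c ⟨36, 0⟩ + Ex.c ⟨-5401, 99⟩ * Ex.Y + Ex.c ⟨22167, 499⟩ * (Ex.Y * Ex.Y))) +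
    Ex.c ⟨35, 511⟩ * exZ * exZ * ((W + Ex.c ⟨9, 0⟩ * exZ) * (Ex.c ⟨2048, 2⟩ + Ex.c ⟨-196161, 199⟩ * Ex.Y + Ex.c ⟨41231, 24⟩ * (Ex.Y * Ex.Y)) - Ex.c ⟨42, 0⟩ * (Ex.c ⟨256, 2⟩ + Ex.c ⟨-17067, 99⟩ * Ex.Y + Ex.c ⟨16817, 99⟩ * (Ex.Y * Ex.Y))) +
    Ex.c ⟨63, 1279⟩ * exZ * exZ * exZ * ((W + Ex.c ⟨11, 0⟩ * exZ) * (Ex.c ⟨5000, 2⟩ + Ex.c ⟨-12743, 3⟩ * Ex.Y + Ex.c ⟨60767, 9⟩ * (Ex.Y * Ex.Y)) - Ex.c ⟨72, 0⟩ * (Ex.c ⟨500, 2⟩ + Ex.c ⟨-41667, 99⟩ * Ex.Y + Ex.c ⟨233073, 499⟩ * (Ex.Y * Ex.Y))) +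
    Ex.c ⟨77, 2047⟩ * exZ * exZ * exZ * exZ * ((W + Ex.c ⟨13, 0⟩ * exZ) * (Ex.c ⟨3456, 0⟩ + Ex.c ⟨-207424, 24⟩ * Ex.Y + Ex.c ⟨90632, 4⟩ * (Ex.Y * Ex.Y)) - Ex.c ⟨110, 0⟩ * (Ex.c ⟨288, 0⟩ + Ex.c ⟨-86401, 99⟩ * Ex.Y + Ex.c ⟨265361, 249⟩ * (Ex.Y * Ex.Y))))

theorem exK1_d_R (W : Ex) (s l : ℝ) : (exK1_d W).R s l =
    s * (192 / 25 + 246 / 25 * (1 - s ^ 2) + 653 / 10 * (1 - s ^ 2) ^ 2) +
      3 * (W.R s l - 3 * (1 - s ^ 2)) - 9 * s ^ 2 - s ^ 5 * l * kD_d (W.R s l) (1 - s ^ 2) l := by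
  simp only [exK1_d, exZ, Ex.R_sub, Ex.R_add, Ex.R_mul, Ex.R_X, Ex.R_c, Fr.R, Ex.R_Y, kD_d]
  push_cast
  ring

theorem exK1_d_0 : tchkE (2 ^ 1024) 40 4000 [[exK1_d (Ex.c ⟨121, 15⟩)]] (Ex.c ⟨0, 0⟩)
    (.leaf 0) 48 55 60 0 11 25 = true := by
  (clear * -; decide +kernel)

theorem exK1_d_1 : tchkE (2 ^ 1024) 40 4000 [[exK1_d (Ex.c ⟨9, 0⟩)]] (Ex.c ⟨0, 0⟩)
    (.leaf 0) 48 55 60 0 11 25 = true := by
  (clear * -; decide +kernel)

theorem kK1_d {m z s l : ℝ} (hm : 0 ≤ m) (hz0 : 0 ≤ z) (hzm : 4 / 25 ≤ z)  (hz : z ≤ 1 / 3) (hs : 0 < s)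
    (hsz : s ^ 2 = 1 - z) (h0 : 0 ≤ l) (h1 : l ≤ 11 / 25) (hw0 : 121 / 16 ≤ m * z) (hw1 : m * z ≤ 9) :
    -(z * (192 / 25 + 246 / 25 * z + 653 / 10 * z ^ 2) / (1 - z) ^ 2 * l ^ 2) ≤
      dpS0 m z l + (3 * (m - 3) * (z ^ 2 / s ^ 5) - 9 * (z / s ^ 3)) * l ^ 2 := by
  have hs1 : s ≤ 1 := by nlinarith only [hz0, hsz]
  have hs0 : 4 / 5 ≤ s := by nlinarith only [hz, hsz, hs]
  have hs1' : s ≤ 11 / 12 := by nlinarith only [hzm, hsz]
  have e0 : 0 ≤ (exK1_d (Ex.c ⟨121, 15⟩)).R s l := by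
    obtain ⟨i, hi⟩ := tchkE_sound (x := s) (y := l) (by simp [Ex.R_c, Fr.R]) _ _ _ _ _ _ _ (by norm_num) (by norm_num)
      (by norm_num) (by norm_num) exK1_d_0 (by push_cast; linarith only [hs0]) (by push_cast; linarith only [hs1'])
      (by push_cast; linarith only [h0]) (by push_cast; linarith only [h1])
    rcases i with _ | i
    · exact hi _ (by simp)
    · exfalso
      have := hi (Ex.c ⟨-1, 0⟩) (by simp only [Int.reduceNeg, List.getD_eq_getElem?_getD, List.length_cons, List.length_nil, zero_add, Order.lt_one_iff, Nat.add_eq_zero_iff, one_ne_zero, and_false, not_false_eq_true, getElem?_neg, Option.getD_none, List.mem_cons, List.not_mem_nil, or_false])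
      simp only [Int.reduceNeg, Ex.R_c, Fr.R, Int.cast_neg, Int.cast_one, CharP.cast_eq_zero, zero_add, div_one, Left.nonneg_neg_iff] at this
      linarith only [this]
  have e1 : 0 ≤ (exK1_d (Ex.c ⟨9, 0⟩)).R s l := by
    obtain ⟨i, hi⟩ := tchkE_sound (x := s) (y := l) (by simp [Ex.R_c, Fr.R]) _ _ _ _ _ _ _ (by norm_num) (by norm_num)
      (by norm_num) (by norm_num) exK1_d_1 (by push_cast; linarith only [hs0]) (by push_cast; linarith only [hs1'])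
      (by push_cast; linarith only [h0]) (by push_cast; linarith only [h1])
    rcases i with _ | i
    · exact hi _ (by simp)
    · exfalso
      have := hi (Ex.c ⟨-1, 0⟩) (by simp)
      simp only [Int.reduceNeg, Ex.R_c, Fr.R, Int.cast_neg, Int.cast_one, CharP.cast_eq_zero, zero_add, div_one, Left.nonneg_neg_iff] at this
      linarith only [this]
  rw [exK1_d_R] at e0 e1
  simp only [Ex.R_c, Fr.R] at e0 e1
  rw [hsz] at e0 e1
  rw [show (1 : ℝ) - (1 - z) = z by ring] at e0 e1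
  have hD := dpS0_ge_d hm hz0 h0 h1
  set w := m * z with hw
  have aff : 0 ≤ s * (192 / 25 + 246 / 25 * z + 653 / 10 * z ^ 2) + 3 * (w - 3 * z) - 9 * s ^ 2 -
      s ^ 5 * l * kD_d w z l := by
    have i1 := mul_nonneg (sub_nonneg.2 hw1) e0
    have i2 := mul_nonneg (sub_nonneg.2 hw0) e1
    push_cast at i1 i2
    have i3 : (9 - 121 / 16) * (s * (192 / 25 + 246 / 25 * z + 653 / 10 * z ^ 2) + 3 * (w - 3 * z) -
        9 * s ^ 2 - s ^ 5 * l * kD_d w z l) =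
        (9 - w) * (s * (192 / 25 + 246 / 25 * z + 653 / 10 * z ^ 2) + 3 * (121 / 16 - 3 * z) -
        9 * s ^ 2 - s ^ 5 * l * kD_d (121 / 16) z l) +
        (w - 121 / 16) * (s * (192 / 25 + 246 / 25 * z + 653 / 10 * z ^ 2) + 3 * (9 - 3 * z) -
        9 * s ^ 2 - s ^ 5 * l * kD_d (9) z l) := by
      simp only [kD_d]
      ring
    norm_num at i1 i2 i3 ⊢
    linarith only [hsz, i1, i2, i3]
  have h2 := mul_nonneg (div_nonneg (mul_nonneg hz0 (sq_nonneg l)) (pow_pos hs 5).le) aff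
  have h3 : z * l ^ 2 / s ^ 5 * (s * (192 / 25 + 246 / 25 * z + 653 / 10 * z ^ 2) + 3 * (w - 3 * z) - 9 * s ^ 2 -
      s ^ 5 * l * kD_d w z l) = z * (192 / 25 + 246 / 25 * z + 653 / 10 * z ^ 2) / (1 - z) ^ 2 * l ^ 2 +
      (3 * (m - 3) * (z ^ 2 / s ^ 5) - 9 * (z / s ^ 3)) * l ^ 2 - l ^ 3 * z * kD_d w z l := by
    rw [← hsz, hw]
    generalize kD_d (m * z) z l = K
    field_simp
    ring
  rw [h3] at h2
  linarith only [hD, h2]

/-- lower bound of `ksC / (s² z l)` -/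
noncomputable def kQ_d (z l : ℝ) : ℝ :=
  3 / 4 * (-16 + 8299 / 200 * l - 1433 / 50 * l ^ 2) + 5 / 8 * z * (-36 + 69277 / 500 * l - 114001 / 1000 * l ^ 2) + 35 / 64 * z ^ 2 * (-64 + 3061 / 10 * l - 27667 / 100 * l ^ 2) + 63 / 128 * z ^ 3 * (-100 + 5477 / 10 * l - 26187 / 50 * l ^ 2) + 231 / 512 * z ^ 4 * (-144 + 86387 / 100 * l - 21417 / 25 * l ^ 2)

theorem ksC_ge_d {z s l : ℝ} (hz : 0 ≤ z) (h0 : 0 ≤ l) (h1 : l ≤ 11 / 25) :
    s ^ 2 * z * l * kQ_d z l ≤ ksC z s l := by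
  have c2 := mul_le_mul_of_nonneg_left (ks_e_two_d h0 h1) (by (clear * - hz; positivity) : 0 ≤ s ^ 2 * (3 / 4 * z))
  have c3 := mul_le_mul_of_nonneg_left (ks_e_three_d h0 h1) (by positivity : 0 ≤ s ^ 2 * (5 / 8 * z ^ 2))
  have c4 := mul_le_mul_of_nonneg_left (ks_e_four_d h0 h1) (by positivity : 0 ≤ s ^ 2 * (35 / 64 * z ^ 3))
  have c5 := mul_le_mul_of_nonneg_left (ks_e_five_d h0 h1) (by positivity : 0 ≤ s ^ 2 * (63 / 128 * z ^ 4))
  have c6 := mul_le_mul_of_nonneg_left (ks_e_six_d h0 h1) (by positivity : 0 ≤ s ^ 2 * (231 / 512 * z ^ 5))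
  simp only [ksC, kQ_d]
  linarith

def exK2_d : Ex :=
  Ex.c ⟨2, 0⟩ * (Ex.X * Ex.X) * (Ex.c ⟨2, 0⟩ + Ex.c ⟨4, 0⟩ * Ex.X + Ex.c ⟨2, 0⟩ * (Ex.X * Ex.X) +
    Ex.X * Ex.X * Ex.X) - Ex.c ⟨6, 0⟩ * Ex.Y * ((Ex.c ⟨1, 0⟩ + Ex.X) * (Ex.c ⟨1, 0⟩ + Ex.X)) +
  Ex.X * Ex.X * Ex.X * Ex.X * Ex.X * ((Ex.c ⟨1, 0⟩ + Ex.X) * (Ex.c ⟨1, 0⟩ + Ex.X)) *
    (Ex.Y * (Ex.c ⟨3, 3⟩ * (Ex.c ⟨-16, 0⟩ + Ex.c ⟨8299, 199⟩ * Ex.Y + Ex.c ⟨-1433, 49⟩ * (Ex.Y * Ex.Y)) + Ex.c ⟨5, 7⟩ * exZ * (Ex.c ⟨-36, 0⟩ + Ex.c ⟨69277, 499⟩ * Ex.Y + Ex.c ⟨-114001, 999⟩ * (Ex.Y * Ex.Y)) + Ex.c ⟨35, 63⟩ * exZ * exZ * (Ex.c ⟨-64, 0⟩ + Ex.c ⟨3061, 9⟩ * Ex.Y + Ex.c ⟨-27667, 99⟩ * (Ex.Y * Ex.Y)) + Ex.c ⟨63, 127⟩ * exZ * exZ * exZ * (Ex.c ⟨-100, 0⟩ + Ex.c ⟨5477, 9⟩ * Ex.Y + Ex.c ⟨-26187, 49⟩ * (Ex.Y * Ex.Y)) + Ex.c ⟨231, 511⟩ * exZ * exZ * exZ * exZ * (Ex.c ⟨-144, 0⟩ + Ex.c ⟨86387, 99⟩ * Ex.Y + Ex.c ⟨-21417, 24⟩ * (Ex.Y * Ex.Y)))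 -
      Ex.c ⟨9, 1⟩ * (Ex.c ⟨1, 0⟩ - Ex.c ⟨4, 0⟩ * Ex.Y + Ex.c ⟨477, 99⟩ * (Ex.Y * Ex.Y)))

theorem exK2_d_R (s l : ℝ) : exK2_d.R s l =
    2 * s ^ 2 * (2 + 4 * s + 2 * s ^ 2 + s ^ 3) - 6 * l * (1 + s) ^ 2 +
      s ^ 5 * (1 + s) ^ 2 * (l * kQ_d (1 - s ^ 2) l - 9 / 2 * (1 - 4 * l + 477 / 100 * l ^ 2)) := by
  simp only [exK2_d, exZ, Ex.R_add, Ex.R_sub, Ex.R_mul, Ex.R_c, Ex.R_X, Ex.R_Y, Fr.R, kQ_d]
  push_cast
  ring

theorem exK2_d_chk : tchkE (2 ^ 1024) 40 4000 [[exK2_d]] (Ex.c ⟨0, 0⟩)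
    (.sx (.sy (.leaf 0) (.leaf 0)) (.leaf 0)) 4 5 5 0 11 25 = true := by
  (clear * -; decide +kernel)

theorem kK2_d {z s l : ℝ} (hz0 : 0 ≤ z) (hz : z ≤ 1 / 3) (hs : 0 < s)
    (hsz : s ^ 2 = 1 - z) (h0 : 0 ≤ l) (h1 : l ≤ 11 / 25) :
    9 / 2 * z * (1 - z) * (1 - 4 * l + 477 / 100 * l ^ 2) ≤
      4 / s - 4 * s / (1 + s) - 2 * s ^ 2 - 6 * (z / s ^ 3) * l + ksC z s l := by
  have hs1 : s ≤ 1 := by nlinarith only [hz0, hsz]
  have hs0 : 4 / 5 ≤ s := by nlinarith only [hz, hsz, hs]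
  have e0 : 0 ≤ exK2_d.R s l := by
    obtain ⟨i, hi⟩ := tchkE_sound (x := s) (y := l) (by simp [Ex.R_c, Fr.R]) _ _ _ _ _ _ _ (by norm_num) (by norm_num)
      (by norm_num) (by norm_num) exK2_d_chk (by push_cast; linarith only [hs0]) (by push_cast; linarith only [hs1])
      (by push_cast; linarith only [h0]) (by push_cast; linarith only [h1])
    rcases i with _ | i
    · exact hi _ (by simp)
    · exfalso
      have := hi (Ex.c ⟨-1, 0⟩) (by simp)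
      simp only [Int.reduceNeg, Ex.R_c, Fr.R, Int.cast_neg, Int.cast_one, CharP.cast_eq_zero, zero_add, div_one, Left.nonneg_neg_iff] at this
      linarith only [this]
  rw [exK2_d_R] at e0
  have hQ := ksC_ge_d (s := s) hz0 h0 h1
  have hz' : z = 1 - s ^ 2 := by linarith only [hsz]
  subst hz'
  have h2 := mul_nonneg (div_nonneg (sub_nonneg.2 hs1) (mul_pos (pow_pos hs 3) (by linarith only [hs] : 0 < 1 + s)).le) e0
  have h3 : (1 - s) / (s ^ 3 * (1 + s)) * (2 * s ^ 2 * (2 + 4 * s + 2 * s ^ 2 + s ^ 3) - 6 * l * (1 + s) ^ 2 +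
      s ^ 5 * (1 + s) ^ 2 * (l * kQ_d (1 - s ^ 2) l - 9 / 2 * (1 - 4 * l + 477 / 100 * l ^ 2))) =
      4 / s - 4 * s / (1 + s) - 2 * s ^ 2 - 6 * ((1 - s ^ 2) / s ^ 3) * l +
      s ^ 2 * (1 - s ^ 2) * l * kQ_d (1 - s ^ 2) l -
      9 / 2 * (1 - s ^ 2) * (1 - (1 - s ^ 2)) * (1 - 4 * l + 477 / 100 * l ^ 2) := by
    generalize kQ_d (1 - s ^ 2) l = K
    have : (1 : ℝ) + s ≠ 0 := by linarith only [hs]
    field_simp
    ring
  rw [h3] at h2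
  linarith only [h2, hQ]

/-- the whole kernel part -/
theorem kK_d {m z s l W : ℝ} (hm : 0 ≤ m) (hz0 : 0 ≤ z) (hzm : 4 / 25 ≤ z)  (hz : z ≤ 1 / 3) (hs : 0 < s)
    (hsz : s ^ 2 = 1 - z) (h0 : 0 ≤ l) (h1 : l ≤ 11 / 25) (hw0 : 121 / 16 ≤ m * z)
    (hw1 : m * z ≤ 9) (hW : 0 ≤ W) :
    -(z * (192 / 25 + 246 / 25 * z + 653 / 10 * z ^ 2) / (1 - z) ^ 2 * l ^ 2) +
      9 / 2 * z * (1 - z) * (1 - 4 * l + 477 / 100 * l ^ 2) * W ≤
      (3 * (m - 3) * (z ^ 2 / s ^ 5) - 9 * (z / s ^ 3)) * l ^ 2 +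
      (4 / s - 4 * s / (1 + s) - 2 * s ^ 2 - 6 * (z / s ^ 3) * l) * W + dpS m z s l W := by
  have a1 := kK1_d hm hz0 hzm hz hs hsz h0 h1 hw0 hw1
  have a2 := mul_le_mul_of_nonneg_right (kK2_d hz0 hz hs hsz h0 h1) hW
  rw [dpS_eq]
  linarith

end Vale.Agent.P237.AllN
end

section

/-!
# P237, block D, `l > 0`, `1 ≤ m z ≤ 9`, `u ≥ 0`: the pointwise test
-/

namespace Vale.Agent.P237.AllN

open PolyPos

theorem fpu_of_ok {d : FpuD} {m z s l u c G N w : ℝ} (hm : 27 ≤ m) (hz0 : 0 < z)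
    (hs0 : 0 < s) (hs : s ^ 2 = 1 - z) (hz : z ≤ 1 / 3) (hw : w = m * z) (hw1 : 1 ≤ w)
    (hl : 0 ≤ l) (hlL : l ≤ d.L.R) (hL : d.L.R ≤ 12 / 25) (hu : 0 ≤ u) (hu1 : u ≤ 5 / 4)
    (hC : 4 ≤ d.C.R)
    (hc0 : 1 - 1 / (2 * m) ≤ c) (hc : c ≤ 1) (hc2 : c ^ 2 ≤ (m + 1) / (m + 2))
    (hE : 1 - 2 * l + d.e.R * l ^ 2 ≤ Real.exp (-(2 * l)))
    (hK : -(z * d.g z / (1 - z) ^ 2 * l ^ 2) +
      9 / 2 * z * (1 - z) * (1 - 4 * l + d.C.R * l ^ 2) * (u ^ 2 / (1 + u)) ≤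
      (3 * (m - 3) * (z ^ 2 / s ^ 5) - 9 * (z / s ^ 3)) * l ^ 2 +
      (4 / s - 4 * s / (1 + s) - 2 * s ^ 2 - 6 * (z / s ^ 3) * l) * (u ^ 2 / (1 + u)) +
      dpS m z s l (u ^ 2 / (1 + u)))
    (hG : -(z * d.q z / (1 - z) ^ 2 * l ^ 2) ≤ G)
    (hN : Real.log (1 + u) - u ≤ N) (hl1 : 1 / 2 ≤ d.l1.R) (hl2 : 0 < d.l2.R)
    (h : FpuOK d z w u) :
    JTest (dpT m z s l u G N) (dpE m z s l u c N) (dpR m (z / s ^ 2)) u := by
  obtain ⟨h1, h2, h3, h4, h5⟩ := h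
  have hN' : -(u ^ 2 / (2 + 31 / 25 * u)) ≤ N := by
    have := log_E2 hu hu1
    linarith only [hN, this]
  exact fpu_core hm hz0 hs0 hs hz hw hw1 hl hlL hL hu hu1 hC hc0 hc hc2 hE hK hG hN' hl1 hl2
    h1 h2 h3 (fun _ => h4) (fun _ => h5)

/-- **(E1)**, `l ≤ 11/25` -/
theorem exp_E1e {l : ℝ} (hl : 0 ≤ l) (hl1 : l ≤ 11 / 25) :
    1 - 2 * l + 1522 / 1000 * l ^ 2 ≤ Real.exp (-(2 * l)) := by
  refine exp_quad hl hl1 (by norm_num) ?_
  refine exp_num (by norm_num) (by norm_num) (by norm_num) ?_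
  simp only [Finset.sum_range_succ, Finset.sum_range_zero, Nat.factorial]
  norm_num

/-- **region `0 ≤ l`, `1 ≤ m z ≤ 9`, `u ≥ 0`, `m ≥ 27`** -/
theorem fpu_region {m z s l u c G N : ℝ} (hm : 27 ≤ m) (hz0 : 0 < z) (hs0 : 0 < s)
    (hs : s ^ 2 = 1 - z) (hw1 : 1 ≤ m * z) (hw9 : m * z ≤ 9) (hl : 0 ≤ l)
    (hL : (l ≤ 2 / 5 ∧ m * z ≤ 121 / 16) ∨ (l ≤ 43 / 100 ∧ 121 / 16 ≤ m * z ∧ m ≤ 31) ∨
      (l ≤ 11 / 25 ∧ 121 / 16 ≤ m * z ∧ 31 ≤ m ∧ m ≤ 47) ∨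
      (l ≤ 19 / 40 ∧ 25 / 4 ≤ m * z ∧ 48 ≤ m))
    (hu : 0 ≤ u) (hu1 : u ^ 2 ≤ 4 / 25 * (m * (z / s ^ 2))) (hu2 : u * s ≤ 1)
    (hc0 : 1 - 1 / (2 * m) ≤ c) (hc : c ≤ 1) (hc2 : c ^ 2 ≤ (m + 1) / (m + 2))
    (hN : Real.log (1 + u) - u ≤ N)
    (hGa : l ≤ 2 / 5 → z ≤ 9 / 25 →
      -(z * (27 / 40 + 3 / 10 * z + 29 / 10 * z ^ 2) / (1 - z) ^ 2 * l ^ 2) ≤ G)
    (hGb : l ≤ 11 / 25 → z ≤ 1 / 3 →
      -(z * (97 / 100 - 9 / 4 * z + 91 / 10 * z ^ 2) / (1 - z) ^ 2 * l ^ 2) ≤ G)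
    (hGc : l ≤ 19 / 40 → z ≤ 9 / 40 →
      -(z * (143 / 200 + 1 / 2 * z + 3 * z ^ 2) / (1 - z) ^ 2 * l ^ 2) ≤ G) :
    JTest (dpT m z s l u G N) (dpE m z s l u c N) (dpR m (z / s ^ 2)) u := by
  have hmz : 27 * z ≤ m * z := mul_le_mul_of_nonneg_right hm hz0.le
  have hm0 : 0 ≤ m := by linarith only [hm]
  have hz3 : z ≤ 1 / 3 := by linarith only [hw9, hmz]
  have hz1 : 0 < 1 - z := by linarith only [hw9, hmz]
  have u1 : u ^ 2 * (1 - z) ≤ 4 / 25 * (m * z) := by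
    have e : 4 / 25 * (m * z) = 4 / 25 * (m * (z / s ^ 2)) * (1 - z) := by
      rw [← hs]
      (clear * - hs0 hz0 hm; field_simp)
    rw [e]
    exact mul_le_mul_of_nonneg_right hu1 hz1.le
  have u2 : u ^ 2 * (1 - z) ≤ 1 := by
    rw [← hs, ← mul_pow]
    exact pow_le_one₀ (by positivity) hu2
  have hu5 : u ≤ 5 / 4 := fpu_ub (z := z) (zM := 1 / 3) hz3 (by norm_num) (K := 1) u2
    (by norm_num) (by norm_num)
  have hW : 0 ≤ u ^ 2 / (1 + u) := by (clear * - hu; positivity)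
  rcases hL with ⟨h1, h2⟩ | ⟨h1, h2, h3⟩ | ⟨h1, h2, h3, h4⟩ | ⟨h1, h2, h3⟩
  · -- `l ≤ 2/5`
    have hE := exp_E1a hl h1
    have hK := kK_a hm0 hz0.le (by linarith only [hmz, hw9]) hs0 hs hl h1 hw1 hw9 hW
    have hG := hGa h1 (by linarith only [hw9, hmz])
    have key : ∀ d : FpuD, d.e = ⟨779, 499⟩ → d.C = ⟨5, 0⟩ → d.g0 = ⟨61, 9⟩ → d.g1 = ⟨5, 1⟩ →
        d.g2 = ⟨53, 0⟩ → d.q0 = ⟨27, 39⟩ → d.q1 = ⟨3, 9⟩ → d.q2 = ⟨29, 9⟩ → d.L = ⟨2, 4⟩ →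
        1 / 2 ≤ d.l1.R → 0 < d.l2.R → FpuOK d z (m * z) u →
        JTest (dpT m z s l u G N) (dpE m z s l u c N) (dpR m (z / s ^ 2)) u := by
      intro d a1 a2 a3 a4 a5 a6 a7 a8 a9 b1 b2 b3
      refine fpu_of_ok (d := d) hm hz0 hs0 hs hz3 rfl hw1 hl ?_ ?_ hu hu5 ?_ hc0 hc hc2 ?_ ?_ ?_
        hN b1 b2 b3
      · rw [a9]; simp only [Fr.R]; push_cast; linarith only [h1]
      · rw [a9]; simp only [Fr.R]; norm_num
      · rw [a2]; simp only [Fr.R]; norm_num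
      · rw [a1]; simp only [Fr.R]; push_cast
        linarith only [hE]
      · rw [FpuD.g, a2, a3, a4, a5]; simp only [Fr.R]; push_cast
        convert hK using 2 <;> ring
      · rw [FpuD.q, a6, a7, a8]; simp only [Fr.R]; push_cast
        convert hG using 2; ring
    rcases le_total (m * z) 2 with i1 | i1
    · exact key fpuD1 rfl rfl rfl rfl rfl rfl rfl rfl rfl
        (by simp only [fpuD1, Fr.R]; norm_num) (by simp only [fpuD1, Fr.R]; norm_num)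
        (fpu_ok1 hz0.le hmz hw1 i1 hu u1 u2)
    rcases le_total (m * z) 3 with i2 | i2
    · exact key fpuD2 rfl rfl rfl rfl rfl rfl rfl rfl rfl
        (by simp only [fpuD2, Fr.R]; norm_num) (by simp only [fpuD2, Fr.R]; norm_num)
        (fpu_ok2 hz0.le hmz i1 i2 hu u1 u2)
    rcases le_total (m * z) 4 with i3 | i3
    · exact key fpuD3 rfl rfl rfl rfl rfl rfl rfl rfl rfl
        (by simp only [fpuD3, Fr.R]; norm_num) (by simp only [fpuD3, Fr.R]; norm_num)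
        (fpu_ok3 hz0.le hmz i2 i3 hu u1 u2)
    rcases le_total (m * z) 5 with i4 | i4
    · exact key fpuD4 rfl rfl rfl rfl rfl rfl rfl rfl rfl
        (by simp only [fpuD4, Fr.R]; norm_num) (by simp only [fpuD4, Fr.R]; norm_num)
        (fpu_ok4 hz0.le hmz i3 i4 hu u1 u2)
    rcases le_total (m * z) (25 / 4) with i5 | i5
    · exact key fpuD5 rfl rfl rfl rfl rfl rfl rfl rfl rfl
        (by simp only [fpuD5, Fr.R]; norm_num) (by simp only [fpuD5, Fr.R]; norm_num)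
        (fpu_ok5 hz0.le hmz i4 i5 hu u1 u2)
    · exact key fpuD6 rfl rfl rfl rfl rfl rfl rfl rfl rfl
        (by simp only [fpuD6, Fr.R]; norm_num) (by simp only [fpuD6, Fr.R]; norm_num)
        (fpu_ok6 hz0.le hmz i5 h2 hu u1 u2)
  · -- `l ≤ 43/100`
    have hM : m * z ≤ 31 * z := mul_le_mul_of_nonneg_right h3 hz0.le
    have hE := exp_E1b hl h1
    have hK := kK_b hm0 hz0.le (by linarith only [hw9, hmz]) hs0 hs hl h1 (by linarith only [h2]) hw9 hW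
    have hG := hGb (by linarith only [h1]) hz3
    have key : ∀ d : FpuD, d.e = ⟨1531, 999⟩ → d.C = ⟨47, 9⟩ → d.g0 = ⟨7, 0⟩ → d.g1 = ⟨12, 0⟩ →
        d.g2 = ⟨52, 0⟩ → d.q0 = ⟨97, 99⟩ → d.q1 = ⟨-9, 3⟩ → d.q2 = ⟨91, 9⟩ → d.L = ⟨43, 99⟩ →
        1 / 2 ≤ d.l1.R → 0 < d.l2.R → FpuOK d z (m * z) u →
        JTest (dpT m z s l u G N) (dpE m z s l u c N) (dpR m (z / s ^ 2)) u := by
      intro d a1 a2 a3 a4 a5 a6 a7 a8 a9 b1 b2 b3
      refine fpu_of_ok (d := d) hm hz0 hs0 hs hz3 rfl hw1 hl ?_ ?_ hu hu5 ?_ hc0 hc hc2 ?_ ?_ ?_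
        hN b1 b2 b3
      · rw [a9]; simp only [Fr.R]; push_cast; linarith only [h1]
      · rw [a9]; simp only [Fr.R]; norm_num
      · rw [a2]; simp only [Fr.R]; norm_num
      · rw [a1]; simp only [Fr.R]; push_cast
        linarith only [hE]
      · rw [FpuD.g, a2, a3, a4, a5]; simp only [Fr.R]; push_cast
        convert hK using 2 <;> ring
      · rw [FpuD.q, a6, a7, a8]; simp only [Fr.R]; push_cast
        convert hG using 2; ring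
    rcases le_total (m * z) 8 with i1 | i1
    · exact key fpuD7 rfl rfl rfl rfl rfl rfl rfl rfl rfl
        (by simp only [fpuD7, Fr.R]; norm_num) (by simp only [fpuD7, Fr.R]; norm_num)
        (fpu_ok7 hmz hM h2 i1 hu u1 u2)
    rcases le_total (m * z) (17 / 2) with i2 | i2
    · exact key fpuD8 rfl rfl rfl rfl rfl rfl rfl rfl rfl
        (by simp only [fpuD8, Fr.R]; norm_num) (by simp only [fpuD8, Fr.R]; norm_num)
        (fpu_ok8 hmz hM i1 i2 hu u1 u2)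
    · exact key fpuD9 rfl rfl rfl rfl rfl rfl rfl rfl rfl
        (by simp only [fpuD9, Fr.R]; norm_num) (by simp only [fpuD9, Fr.R]; norm_num)
        (fpu_ok9 hmz hM i2 hw9 hu u1 u2)
  · -- `l ≤ 11/25`
    have hM : m * z ≤ 47 * z := mul_le_mul_of_nonneg_right h4 hz0.le
    have hm31 : 31 * z ≤ m * z := mul_le_mul_of_nonneg_right h3 hz0.le
    have hE := exp_E1e hl h1
    have hK := kK_d hm0 hz0.le (by linarith only [hM, h2]) hz3 hs0 hs hl h1 h2 hw9 hW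
    have hG := hGb h1 hz3
    refine fpu_of_ok (d := fpuD10) hm hz0 hs0 hs hz3 rfl hw1 hl ?_ ?_ hu hu5 ?_ hc0 hc hc2 ?_ ?_
      ?_ hN (by simp only [fpuD10, Fr.R]; norm_num) (by simp only [fpuD10, Fr.R]; norm_num)
      (fpu_ok10 hm31 hM h2 hw9 hu u1 u2)
    · simp only [fpuD10, Fr.R]; push_cast; linarith only [h1]
    · simp only [fpuD10, Fr.R]; norm_num
    · simp only [fpuD10, Fr.R]; norm_num
    · simp only [fpuD10, Fr.R]; push_cast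
      linarith only [hE]
    · simp only [FpuD.g, fpuD10, Fr.R]; push_cast
      convert hK using 2 <;> ring
    · simp only [FpuD.q, fpuD10, Fr.R]; push_cast
      convert hG using 2; ring
  · -- `l ≤ 19/40`
    have hm48 : 48 * z ≤ m * z := mul_le_mul_of_nonneg_right h3 hz0.le
    have hE := exp_E1c hl h1
    have hG := hGc h1 (by linarith only [hw9, hm48])
    rcases le_total (m * z) (121 / 16) with i1 | i1
    · have hK := kK_e hm0 hz0.le (by linarith only [hw9, hm48]) hs0 hs hl h1 h2 hw9 hW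
      refine fpu_of_ok (d := fpuD11) hm hz0 hs0 hs hz3 rfl hw1 hl ?_ ?_ hu hu5 ?_ hc0 hc hc2 ?_ ?_
        ?_ hN (by simp only [fpuD11, Fr.R]; norm_num) (by simp only [fpuD11, Fr.R]; norm_num)
        (fpu_ok11 hz0.le hm48 h2 i1 hu u1 u2)
      · simp only [fpuD11, Fr.R]; push_cast; linarith only [h1]
      · simp only [fpuD11, Fr.R]; norm_num
      · simp only [fpuD11, Fr.R]; norm_num
      · simp only [fpuD11, Fr.R]; push_cast
        linarith only [hE]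
      · simp only [FpuD.g, fpuD11, Fr.R]; push_cast
        convert hK using 2 <;> ring
      · simp only [FpuD.q, fpuD11, Fr.R]; push_cast
        convert hG using 2; ring
    · have hK := kK_c hm0 hz0.le (by linarith only [hw9, hm48]) hs0 hs hl h1 i1 hw9 hW
      refine fpu_of_ok (d := fpuD12) hm hz0 hs0 hs hz3 rfl hw1 hl ?_ ?_ hu hu5 ?_ hc0 hc hc2 ?_ ?_
        ?_ hN (by simp only [fpuD12, Fr.R]; norm_num) (by simp only [fpuD12, Fr.R]; norm_num)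
        (fpu_ok12 hz0.le hm48 i1 hw9 hu u1 u2)
      · simp only [fpuD12, Fr.R]; push_cast; linarith only [h1]
      · simp only [fpuD12, Fr.R]; norm_num
      · simp only [fpuD12, Fr.R]; norm_num
      · simp only [fpuD12, Fr.R]; push_cast
        linarith only [hE]
      · simp only [FpuD.g, fpuD12, Fr.R]; push_cast
        convert hK using 2 <;> ring
      · simp only [FpuD.q, fpuD12, Fr.R]; push_cast
        convert hG using 2; ring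

end Vale.Agent.P237.AllN
end
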