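import Vale.Agent.P237.Bd3.B11
import Vale.Agent.P237.Bd3.B4
import Vale.Agent.P237.Bd3.B17
import Vale.Agent.P237.Bd3.B2
import Vale.Agent.P237.Bd3.B20
import Vale.Agent.P237.Bd3.B3

set_option linter.all false

section

/-!
# P237, all dimensions: one more a priori step, m = 27, m = 28, m = 29, m = 30
-/

open MeasureTheory Metric Set Module Filter Topology Real

namespace Vale.Agent.P237.AllN

/-- nodes -/
def sqn27 : List (ℤ × ℤ × ℤ) :=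
    [(5419, 2343701, 8134468), (5522, 2344541, 8329683), (5606, 2345101, 8488007),
     (5676, 2345494, 8617126), (5734, 2345776, 8724724), (5774, 2345949, 8813878)]

/-- cells -/
def sqc27 : List (ℤ × ℤ) :=
    [(7514000, 10000000), (7536000, 9946000), (7572000, 9860000), (7633000, 9720000),
     (7735000, 9484000), (7905000, 9092000), (8386000, 8449000), (10000000, 6733000)]

theorem sqS27 : tStep (tAo 13 2347493) 15371256 5774 5292 sqn27 = true := by decide +kernel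

theorem sqC27 : tCells 27 2347491 2389779 (0, 1) (sqn27.map Prod.snd) 0 sqc27 = true := by
  decide +kernel

theorem sq27 {r τ τ' T : ℝ → ℝ} (hr : IsProf r) (h : IsTrans 27 r τ τ' T)
    (hN : (∫ y in (-1 : ℝ)..1, r y ^ (27 - 1)) ^ 27 * aInt 27 ^ (27 - 1) ≤
      aInt (27 - 1) ^ 27 * (∫ y in (-1 : ℝ)..1, r y ^ 27) ^ (27 - 1)) {x : ℝ}
    (hx : x ∈ Ioo (0 : ℝ) 1) (h0 : 121 / 16 ≤ ((27 : ℕ) : ℝ) * x ^ 2)
    (h1 : ((27 : ℕ) : ℝ) * x ^ 2 ≤ 9) : lf τ x ≤ 43 / 100 := by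
  have hτ := h.mem x hx
  have hx0 := hx.1
  have hA : ∀ n a : ℤ, (tAo 13 2347493) n a = true → 0 ≤ n → n ≤ 10000 →
      ∫ t in (0 : ℝ)..((n : ℝ) / 10000), sq t ^ 27 ≤ (a : ℝ) / lsD :=
    (fun n a h0 h1 h2 => tAo_sound (h := 13) (zh := 2347493) ls_hi27 h1 h2 h0)
  have hlt := ls_lt_of (m := 27) (n := 5774) hx0 (by norm_num) h1 (by norm_num)
  have hge := ls_ge_of (m := 27) (n := 5292) hx0 (by norm_num) h0 (by norm_num)
  exact ls_log_of hx0 hτ.1 (by norm_num) (ls_step (m := 27) (by norm_num) (z := 2347491) (z' := 2389779)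
    (by norm_num) ls_lo27 ls_hi26 hA (by simp [sqc27]) (n0 := 5292) (nend := 5774) (c := 15371256)
    (by norm_num) sqS27 sqC27 hr h hN hx hge hlt) (by rw [lsD_cast]; norm_num)

/-- nodes -/
def sqn28 : List (ℤ × ℤ × ℤ) :=
    [(5312, 2303316, 7988441), (5404, 2304123, 8165211), (5479, 2304673, 8306626),
     (5540, 2305059, 8421911), (5590, 2305338, 8515675), (5631, 2305544, 8592532),
     (5670, 2305723, 8655554)]

/-- cells -/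
def sqc28 : List (ℤ × ℤ) :=
    [(7553000, 10000000), (7567000, 9962000), (7589000, 9907000), (7624000, 9819000),
     (7683000, 9681000), (7784000, 9448000), (7945000, 9052000), (8325000, 8430000),
     (10000000, 7026000)]

theorem sqS28 : tStep (tAe 14) 15371256 5670 5197 sqn28 = true := by decide +kernel

theorem sqC28 : tCells 28 2307372 2347493 (0, 1) (sqn28.map Prod.snd) 0 sqc28 = true := by
  decide +kernel

theorem sq28 {r τ τ' T : ℝ → ℝ} (hr : IsProf r) (h : IsTrans 28 r τ τ' T)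
    (hN : (∫ y in (-1 : ℝ)..1, r y ^ (28 - 1)) ^ 28 * aInt 28 ^ (28 - 1) ≤
      aInt (28 - 1) ^ 28 * (∫ y in (-1 : ℝ)..1, r y ^ 28) ^ (28 - 1)) {x : ℝ}
    (hx : x ∈ Ioo (0 : ℝ) 1) (h0 : 121 / 16 ≤ ((28 : ℕ) : ℝ) * x ^ 2)
    (h1 : ((28 : ℕ) : ℝ) * x ^ 2 ≤ 9) : lf τ x ≤ 43 / 100 := by
  have hτ := h.mem x hx
  have hx0 := hx.1
  have hA : ∀ n a : ℤ, (tAe 14) n a = true → 0 ≤ n → n ≤ 10000 →
      ∫ t in (0 : ℝ)..((n : ℝ) / 10000), sq t ^ 28 ≤ (a : ℝ) / lsD :=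
    (fun n a h0 h1 h2 => tAe_sound (h := 14) h1 h2 h0)
  have hlt := ls_lt_of (m := 28) (n := 5670) hx0 (by norm_num) h1 (by norm_num)
  have hge := ls_ge_of (m := 28) (n := 5197) hx0 (by norm_num) h0 (by norm_num)
  exact ls_log_of hx0 hτ.1 (by norm_num) (ls_step (m := 28) (by norm_num) (z := 2307372) (z' := 2347493)
    (by norm_num) ls_lo28 ls_hi27 hA (by simp [sqc28]) (n0 := 5197) (nend := 5670) (c := 15371256)
    (by norm_num) sqS28 sqC28 hr h hN hx hge hlt) (by rw [lsD_cast]; norm_num)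

/-- nodes -/
def sqn29 : List (ℤ × ℤ × ℤ) :=
    [(5206, 2264990, 7848563), (5288, 2265754, 8002275), (5355, 2266286, 8128320),
     (5410, 2266669, 8231307), (5455, 2266949, 8315849), (5492, 2267159, 8385020),
     (5523, 2267321, 8441893), (5548, 2267444, 8489544), (5571, 2267551, 8527972)]

/-- cells -/
def sqc29 : List (ℤ × ℤ) :=
    [(7587000, 10000000), (7590000, 9991000), (7594000, 9979000), (7600000, 9963000),
     (7609000, 9938000), (7622000, 9902000), (7641000, 9849000), (7670000, 9773000),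
     (7717000, 9656000), (7798000, 9466000), (7929000, 9142000), (8163000, 8623000),
     (10000000, 7717000)]

theorem sqS29 : tStep (tAo 14 2269243) 15371256 5571 5106 sqn29 = true := by decide +kernel

theorem sqC29 : tCells 29 2269241 2307373 (0, 1) (sqn29.map Prod.snd) 0 sqc29 = true := by
  decide +kernel

theorem sq29 {r τ τ' T : ℝ → ℝ} (hr : IsProf r) (h : IsTrans 29 r τ τ' T)
    (hN : (∫ y in (-1 : ℝ)..1, r y ^ (29 - 1)) ^ 29 * aInt 29 ^ (29 - 1) ≤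
      aInt (29 - 1) ^ 29 * (∫ y in (-1 : ℝ)..1, r y ^ 29) ^ (29 - 1)) {x : ℝ}
    (hx : x ∈ Ioo (0 : ℝ) 1) (h0 : 121 / 16 ≤ ((29 : ℕ) : ℝ) * x ^ 2)
    (h1 : ((29 : ℕ) : ℝ) * x ^ 2 ≤ 9) : lf τ x ≤ 43 / 100 := by
  have hτ := h.mem x hx
  have hx0 := hx.1
  have hA : ∀ n a : ℤ, (tAo 14 2269243) n a = true → 0 ≤ n → n ≤ 10000 →
      ∫ t in (0 : ℝ)..((n : ℝ) / 10000), sq t ^ 29 ≤ (a : ℝ) / lsD :=
    (fun n a h0 h1 h2 => tAo_sound (h := 14) (zh := 2269243) ls_hi29 h1 h2 h0)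
  have hlt := ls_lt_of (m := 29) (n := 5571) hx0 (by norm_num) h1 (by norm_num)
  have hge := ls_ge_of (m := 29) (n := 5106) hx0 (by norm_num) h0 (by norm_num)
  exact ls_log_of hx0 hτ.1 (by norm_num) (ls_step (m := 29) (by norm_num) (z := 2269241) (z' := 2307373)
    (by norm_num) ls_lo29 ls_hi28 hA (by simp [sqc29]) (n0 := 5106) (nend := 5571) (c := 15371256)
    (by norm_num) sqS29 sqC29 hr h hN hx hge hlt) (by rw [lsD_cast]; norm_num)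

/-- nodes -/
def sqn30 : List (ℤ × ℤ × ℤ) :=
    [(5126, 2228615, 7716370), (5210, 2229410, 7879305), (5277, 2229950, 8008424),
     (5331, 2230331, 8111411), (5373, 2230596, 8194416), (5407, 2230794, 8258975),
     (5434, 2230940, 8311238), (5455, 2231048, 8352740), (5472, 2231131, 8385020),
     (5478, 2231160, 8411151)]

/-- cells -/
def sqc30 : List (ℤ × ℤ) :=
    [(7629000, 10000000), (7635000, 9980000), (7644000, 9955000), (7656000, 9918000),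
     (7673000, 9868000), (7697000, 9798000), (7732000, 9700000), (7786000, 9556000),
     (7872000, 9335000), (8004000, 8985000), (8244000, 8453000), (10000000, 7512000)]

theorem sqS30 : tStep (tAe 15) 15371256 5478 5020 sqn30 = true := by decide +kernel

theorem sqC30 : tCells 30 2232941 2269243 (0, 1) (sqn30.map Prod.snd) 0 sqc30 = true := by
  decide +kernel

theorem sq30 {r τ τ' T : ℝ → ℝ} (hr : IsProf r) (h : IsTrans 30 r τ τ' T)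
    (hN : (∫ y in (-1 : ℝ)..1, r y ^ (30 - 1)) ^ 30 * aInt 30 ^ (30 - 1) ≤
      aInt (30 - 1) ^ 30 * (∫ y in (-1 : ℝ)..1, r y ^ 30) ^ (30 - 1)) {x : ℝ}
    (hx : x ∈ Ioo (0 : ℝ) 1) (h0 : 121 / 16 ≤ ((30 : ℕ) : ℝ) * x ^ 2)
    (h1 : ((30 : ℕ) : ℝ) * x ^ 2 ≤ 9) : lf τ x ≤ 43 / 100 := by
  have hτ := h.mem x hx
  have hx0 := hx.1
  have hA : ∀ n a : ℤ, (tAe 15) n a = true → 0 ≤ n → n ≤ 10000 →
      ∫ t in (0 : ℝ)..((n : ℝ) / 10000), sq t ^ 30 ≤ (a : ℝ) / lsD :=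
    (fun n a h0 h1 h2 => tAe_sound (h := 15) h1 h2 h0)
  have hlt := ls_lt_of (m := 30) (n := 5478) hx0 (by norm_num) h1 (by norm_num)
  have hge := ls_ge_of (m := 30) (n := 5020) hx0 (by norm_num) h0 (by norm_num)
  exact ls_log_of hx0 hτ.1 (by norm_num) (ls_step (m := 30) (by norm_num) (z := 2232941) (z' := 2269243)
    (by norm_num) ls_lo30 ls_hi29 hA (by simp [sqc30]) (n0 := 5020) (nend := 5478) (c := 15371256)
    (by norm_num) sqS30 sqC30 hr h hN hx hge hlt) (by rw [lsD_cast]; norm_num)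

/-- `l ≤ 43/100` for `11/4 ≤ √m x ≤ 3`, `27 ≤ m ≤ 30` -/
theorem IsTrans.ap_last' {m : ℕ} (hm27 : 27 ≤ m) (hm30 : m ≤ 30) {r τ τ' T : ℝ → ℝ}
    (hr : IsProf r) (h : IsTrans m r τ τ' T)
    (hN : (∫ y in (-1 : ℝ)..1, r y ^ (m - 1)) ^ m * aInt m ^ (m - 1) ≤
      aInt (m - 1) ^ m * (∫ y in (-1 : ℝ)..1, r y ^ m) ^ (m - 1)) {x : ℝ}
    (hx : x ∈ Ioo (0 : ℝ) 1) (hq0 : 121 / 16 ≤ (m : ℝ) * x ^ 2)
    (hq : (m : ℝ) * x ^ 2 ≤ 9) : lf τ x ≤ 43 / 100 := by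
  interval_cases m
  · exact sq27 hr h hN hx hq0 hq
  · exact sq28 hr h hN hx hq0 hq
  · exact sq29 hr h hN hx hq0 hq
  · exact sq30 hr h hN hx hq0 hq

end Vale.Agent.P237.AllN
end

section

/-!
# P237, block D, `x ≥ 7/10`, `l > 0`: `T ≥ T₀`
-/

namespace Vale.Agent.P237.AllN

/-- `(2/5)·` etc: the bracket for `s ≥ 1/5` -/
theorem fxr_K {z s l : ℝ} (hz : 49 / 100 ≤ z) (hs : 1 / 5 ≤ s) (hsz : s ^ 2 = 1 - z) (hl : 0 < l)
    (hl1 : l ≤ 2 / 5) (hU : l ≤ s ^ 2 * (1 / 2 + 79 / 200 * s ^ 2)) :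
    0 ≤ 3 / 8 * (72 - 82 * s ^ 2) * (1 - s ^ 2) ^ 2 * (l / s ^ 2) ^ 2 * s * (1 + s) +
      (fxw z s l - 1 / 3 * s ^ 2 * (1 + s) - 1 / 5 -
        28 / 13 * ((1 + s) * (1 + 3 * s) / (1 + 6 * s + 6 * s ^ 2))) := by
  have hs0 : 0 < s := by (clear * - hs hl hl1; linarith)
  have hs1 := fxr_s_le hz hs0 hsz
  have hG := fxr_G hs hs1 hl hU
  have hw := fxr_w (by linarith only [hz]) hs0 hsz hl hl1
  unfold fxrG at hG
  have hD : 0 < 1 + 6 * s + 6 * s ^ 2 := by positivity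
  have h1 : 0 ≤ ((1 + s) * (3 / 8 * (72 - 82 * s ^ 2) * (1 - s ^ 2) ^ 2 * (l / s ^ 2) ^ 2 * s *
      (1 + s) + fxw z s l - 1 / 3 * s ^ 2 * (1 + s) - 1 / 5)) * (1 + 6 * s + 6 * s ^ 2) -
      28 / 13 * (1 + s) ^ 2 * (1 + 3 * s) := by
    refine hG.trans ?_
    have h2 := mul_le_mul_of_nonneg_right hw hD.le
    linarith only [h2]
  have e : ((1 + s) * (3 / 8 * (72 - 82 * s ^ 2) * (1 - s ^ 2) ^ 2 * (l / s ^ 2) ^ 2 * s *
      (1 + s) + fxw z s l - 1 / 3 * s ^ 2 * (1 + s) - 1 / 5)) * (1 + 6 * s + 6 * s ^ 2) -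
      28 / 13 * (1 + s) ^ 2 * (1 + 3 * s) = (1 + s) * (1 + 6 * s + 6 * s ^ 2) *
      (3 / 8 * (72 - 82 * s ^ 2) * (1 - s ^ 2) ^ 2 * (l / s ^ 2) ^ 2 * s * (1 + s) +
      (fxw z s l - 1 / 3 * s ^ 2 * (1 + s) - 1 / 5 -
        28 / 13 * ((1 + s) * (1 + 3 * s) / (1 + 6 * s + 6 * s ^ 2)))) := by
    field_simp
    ring
  rw [e] at h1
  exact nonneg_of_mul_nonneg_right h1 (by positivity)

theorem fxr_ql {m s l : ℝ} (hm : 27 ≤ m) (hs : 0 < s) (hs1 : s ≤ 5 / 7) :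
    (72 - 82 * s ^ 2) * (1 - s ^ 2) ^ 2 * (l / s ^ 2) ^ 2 / s ≤ fxq m s * l ^ 2 := by
  have h := mul_le_mul_of_nonneg_right (fxr_q0 hm hs hs1) (sq_nonneg l)
  refine le_trans (le_of_eq ?_) h
  (clear * - hs; field_simp)

/-- the tail bound near `x = 1` -/
theorem fxr_tail {m z s l u x : ℝ} (hm : 27 ≤ m) (hs : 0 < s) (hs1 : s ≤ 1 / 5)
    (hsz : s ^ 2 = 1 - z) (hl : 0 < l) (hx : 0 < x) (hxz : x ^ 2 = z)
    (hla : 1 / 4 * s ^ 2 ≤ l) (hlb : l ≤ 516 / 1000 * s ^ 2)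
    (htail : (1 + u) * (x * Real.exp l) ≤ (1 - x * Real.exp l) * ((m + 2) * (z / s ^ 2) + 1)) :
    1 + u ≤ (516 / 1000 - l / s ^ 2) * (m + 2) := by
  have hv : s ^ 2 ≤ 1 / 25 := by nlinarith only [hs1, hs]
  obtain ⟨v, hvd⟩ : ∃ v : ℝ, v = s ^ 2 := ⟨_, rfl⟩
  have hv0 : 0 < v := by rw [hvd]; positivity
  rw [← hvd] at hv hla hlb hsz htail ⊢
  have hz : z = 1 - v := by linarith only [hsz]
  -- lower bound of `x`
  have hx1 : 1 - v / 2 - 13 / 100 * v ^ 2 ≤ x := by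
    by_contra hlt
    push Not at hlt
    have h1 : x ^ 2 < (1 - v / 2 - 13 / 100 * v ^ 2) ^ 2 := by
      apply pow_lt_pow_left₀ hlt hx.le (by norm_num)
    have h2 : (1 - v / 2 - 13 / 100 * v ^ 2) ^ 2 ≤ 1 - v := by
      nlinarith only [hlb, hs, hs1, hl, mul_nonneg (mul_pos hv0 hv0).le (sub_nonneg.2 hv)]
    linarith only [hxz, hsz, h1, h2]
  -- upper bound of `e^{-l}`
  have he : 1 ≤ Real.exp l * (1 - l + l ^ 2 / 2) := by
    have h1 := Real.quadratic_le_exp_of_nonneg hl.le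
    have h2 : 0 ≤ 1 - l + l ^ 2 / 2 := by nlinarith only []
    have h3 := mul_le_mul_of_nonneg_right h1 h2
    have h4 : (1 + l + l ^ 2 / 2) * (1 - l + l ^ 2 / 2) = 1 + l ^ 4 / 4 := by ring
    have h5 : 0 ≤ l ^ 4 / 4 := by positivity
    linarith only [h3, h5]
  obtain ⟨h, hh⟩ : ∃ h : ℝ, h = 516 / 1000 * v - l := ⟨_, rfl⟩
  have hh0 : 0 ≤ h := by rw [hh]; linarith only [hlb]
  have hkey : 1 - l + l ^ 2 / 2 ≤ x * (1 + h) := by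
    have h1 : (1 - v / 2 - 13 / 100 * v ^ 2) * (1 + h) ≤ x * (1 + h) :=
      mul_le_mul_of_nonneg_right hx1 (by linarith only [hlb, hh])
    refine le_trans ?_ h1
    rw [hh]
    -- difference is `.016 v - v h/2 - .13 v² (1 + h) - l²/2`
    have hl2 : l ^ 2 ≤ 516 / 1000 * v * l := by nlinarith only [hl, hlb]
    have hhv : 516 / 1000 * v - l ≤ 266 / 1000 * v := by linarith only [hla]
    nlinarith only [hlb, hla, hv]
  have hτ0 : 0 < x * Real.exp l := by positivity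
  have h6 : 1 ≤ x * Real.exp l * (1 + h) := by
    have h7 := mul_le_mul_of_nonneg_left hkey (Real.exp_pos l).le
    have : Real.exp l * (x * (1 + h)) = x * Real.exp l * (1 + h) := by ring
    linarith only [he, h7]
  have h8 : 1 - x * Real.exp l ≤ x * Real.exp l * h := by linarith only [h6]
  have hB : 0 ≤ (m + 2) * (z / v) + 1 := by
    have : 0 < z := by rw [hz]; linarith only [hv]
    have : 0 < m + 2 := by linarith only [hm]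
    (clear s u x hs hs1 hx hxz htail hla hvd hx1 he h hh hh0 hkey hτ0 h6 h8 this; positivity)
  have h9 : (1 + u) * (x * Real.exp l) ≤ x * Real.exp l * (h * ((m + 2) * (z / v) + 1)) := by
    refine htail.trans ?_
    have := mul_le_mul_of_nonneg_right h8 hB
    linarith only [this]
  have h10 : 1 + u ≤ h * ((m + 2) * (z / v) + 1) := by
    have h11 : x * Real.exp l * (1 + u) ≤ x * Real.exp l * (h * ((m + 2) * (z / v) + 1)) := by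
      linarith only [h9]
    exact le_of_mul_le_mul_left h11 hτ0
  refine h10.trans ?_
  have e : h * ((m + 2) * (z / v) + 1) = h / v * ((m + 2) * z + v) := by
    (clear * - hv0; field_simp)
  rw [e]
  have e2 : h / v = 516 / 1000 - l / v := by
    rw [hh]
    (clear * - hv0; field_simp)
  rw [← e2]
  apply mul_le_mul_of_nonneg_left _ (by (clear * - hh0 hv0; positivity))
  rw [hz]
  nlinarith only [hl, hlb, hm]

theorem fxr_pos_big {m z s l u W : ℝ} (hm : 27 ≤ m) (hz : 49 / 100 ≤ z) (h5 : 1 / 5 ≤ s)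
    (hsz : s ^ 2 = 1 - z) (hl : 0 < l) (hl1 : l ≤ 2 / 5)
    (hU : l ≤ s ^ 2 * (1 / 2 + 79 / 200 * s ^ 2)) (hu : 0 ≤ u) (hus : u * s ≤ 1)
    (hW0 : 0 ≤ W) (hWu : W * (1 + u) = u ^ 2) :
    0 ≤ 3 / 8 * (fxq m s * l ^ 2) + (W / s) *
      (fxw z s l - 1 / 3 * s ^ 2 * (1 + s) - 1 / 5 -
        28 / 13 * ((1 + s) * (1 + 3 * s) / (1 + 6 * s + 6 * s ^ 2))) := by
  have hs : 0 < s := by linarith only [h5]
  have hs1 := fxr_s_le hz hs hsz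
  have hql := fxr_ql (l := l) hm hs hs1
  have hK := fxr_K hz h5 hsz hl hl1 hU
  obtain ⟨K, hKd⟩ : ∃ K : ℝ, K = fxw z s l - 1 / 3 * s ^ 2 * (1 + s) - 1 / 5 -
    28 / 13 * ((1 + s) * (1 + 3 * s) / (1 + 6 * s + 6 * s ^ 2)) := ⟨_, rfl⟩
  rw [← hKd] at hK ⊢
  have hq0 : 0 ≤ fxq m s * l ^ 2 := mul_nonneg (fxr_q_pos hm hs hs1).le (sq_nonneg l)
  rcases le_total 0 K with h0 | h0
  · have : 0 ≤ W / s * K := mul_nonneg (div_nonneg hW0 hs.le) h0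
    linarith only [hq0, this]
  · -- `W ≤ 1/(s(1+s))`
    have hW1 : W * (s * (1 + s)) ≤ 1 := by
      have h1 : u ^ 2 * (s * (1 + s)) ≤ 1 + u := by
        have : u ^ 2 * (s * (1 + s)) = u * (u * s) + (u * s) ^ 2 := by ring
        rw [this]
        have h2 : (u * s) ^ 2 ≤ 1 := pow_le_one₀ (by (clear * - hu h5; positivity)) hus
        have h3 : u * (u * s) ≤ u * 1 := mul_le_mul_of_nonneg_left hus hu
        linarith only [h2, h3]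
      have h2 : W * (s * (1 + s)) * (1 + u) ≤ 1 * (1 + u) := by
        calc W * (s * (1 + s)) * (1 + u) = u ^ 2 * (s * (1 + s)) := by rw [← hWu]; ring
          _ ≤ 1 * (1 + u) := by linarith only [h1]
      exact le_of_mul_le_mul_right h2 (by linarith only [hu])
    have h3 : (1 / (s ^ 2 * (1 + s))) * K ≤ W / s * K := by
      apply mul_le_mul_of_nonpos_right _ h0
      rw [div_le_div_iff₀ hs (by positivity)]
      have h4 := mul_le_mul_of_nonneg_left hW1 hs.le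
      calc W * (s ^ 2 * (1 + s)) = s * (W * (s * (1 + s))) := by ring
        _ ≤ s * 1 := h4
        _ = 1 * s := by ring
    have h4 : 0 ≤ (1 / (s ^ 2 * (1 + s))) * (3 / 8 * (72 - 82 * s ^ 2) * (1 - s ^ 2) ^ 2 *
        (l / s ^ 2) ^ 2 * s * (1 + s) + K) := mul_nonneg (by positivity) hK
    have e : (1 / (s ^ 2 * (1 + s))) * (3 / 8 * (72 - 82 * s ^ 2) * (1 - s ^ 2) ^ 2 *
        (l / s ^ 2) ^ 2 * s * (1 + s) + K) = 3 / 8 * ((72 - 82 * s ^ 2) * (1 - s ^ 2) ^ 2 *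
        (l / s ^ 2) ^ 2 / s) + (1 / (s ^ 2 * (1 + s))) * K := by
      (clear * - h5; field_simp)
    rw [e] at h4
    linarith only [hql, h3, h4]

theorem fxr_tail_q {t lam W : ℝ} (ht0 : 0 ≤ t) (h6 : 151 / 100 ≤ 6 * lam)
    (hu1 : W ≤ (516 / 1000 - lam) * (29 + t) - 1) :
    (6 * lam - 151 / 100) * W ≤ (237 / 10 + 103 / 100 * t) * lam ^ 2 := by
  have h7 : 0 ≤ 6 * lam - 151 / 100 := by linarith only [h6]
  have h8 : (6 * lam - 151 / 100) * W ≤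
      (6 * lam - 151 / 100) * ((516 / 1000 - lam) * (29 + t) - 1) :=
    mul_le_mul_of_nonneg_left hu1 h7
  have ha : 0 ≤ 703 / 100 * lam ^ 2 - 4606 / 1000 * lam + 77916 / 100000 := by
    linarith only [sq_nonneg (lam - 2303 / 7030)]
  have hb : 0 ≤ 1977 / 10 * lam ^ 2 - 127574 / 1000 * lam + 2108564 / 100000 := by
    nlinarith only [sq_nonneg (lam - 63787 / 197700)]
  have e : (237 / 10 + 103 / 100 * t) * lam ^ 2 -
      (6 * lam - 151 / 100) * ((516 / 1000 - lam) * (29 + t) - 1) =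
      (1977 / 10 * lam ^ 2 - 127574 / 1000 * lam + 2108564 / 100000) +
      t * (703 / 100 * lam ^ 2 - 4606 / 1000 * lam + 77916 / 100000) := by ring
  have h9 := mul_nonneg ht0 ha
  (clear * - h8 hb h9; linarith)

theorem fxr_ql2 {m s l : ℝ} (hm : 27 ≤ m) (hs : 0 < s) (hs1 : s ≤ 1 / 5) :
    (237 / 10 + 103 / 100 * (m - 27)) * (l / s ^ 2) ^ 2 ≤ 3 / 8 * (fxq m s * l ^ 2) * s := by
  obtain ⟨t, ht⟩ : ∃ t : ℝ, t = m - 27 := ⟨_, rfl⟩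
  have ht0 : 0 ≤ t := by linarith only [hm, ht]
  have e : fxq m s * l ^ 2 * s = (1 - s ^ 2) ^ 2 * (l / s ^ 2) ^ 2 *
      ((72 - 82 * s ^ 2 + 3 * t) + 3 / 25 * t ^ 2 * s ^ 3) := by
    unfold fxq
    rw [← ht]
    field_simp
  have e2 : 3 / 8 * (fxq m s * l ^ 2) * s = 3 / 8 * (fxq m s * l ^ 2 * s) := by ring
  rw [e2, e, ← ht]
  have h1 : s ^ 2 ≤ 1 / 25 := by nlinarith only [hs1, hs]
  have h2 : (24 / 25) ^ 2 ≤ (1 - s ^ 2) ^ 2 := by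
    apply pow_le_pow_left₀ (by norm_num)
    linarith only [h1]
  have h3 : 6872 / 100 + 3 * t ≤ (72 - 82 * s ^ 2 + 3 * t) + 3 / 25 * t ^ 2 * s ^ 3 := by
    have : 0 ≤ 3 / 25 * t ^ 2 * s ^ 3 := by (clear * - hs; positivity)
    linarith only [h1, this]
  have h4 : (24 / 25) ^ 2 * (6872 / 100 + 3 * t) ≤ (1 - s ^ 2) ^ 2 *
      ((72 - 82 * s ^ 2 + 3 * t) + 3 / 25 * t ^ 2 * s ^ 3) :=
    mul_le_mul h2 h3 (by (clear * - ht0; positivity)) (sq_nonneg _)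
  have h5 := mul_le_mul_of_nonneg_right h4 (sq_nonneg (l / s ^ 2))
  have h6 : 0 ≤ (l / s ^ 2) ^ 2 := sq_nonneg _
  have h7 : 0 ≤ t * (l / s ^ 2) ^ 2 := mul_nonneg ht0 h6
  have e3 : 3 / 8 * ((1 - s ^ 2) ^ 2 * (l / s ^ 2) ^ 2 *
      ((72 - 82 * s ^ 2 + 3 * t) + 3 / 25 * t ^ 2 * s ^ 3)) = 3 / 8 * ((1 - s ^ 2) ^ 2 *
      ((72 - 82 * s ^ 2 + 3 * t) + 3 / 25 * t ^ 2 * s ^ 3) * (l / s ^ 2) ^ 2) := by ring
  rw [e3]
  linarith only [h5, h6, h7]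

theorem fxr_pos_small {m z s l u W x : ℝ} (hm : 27 ≤ m) (hz : 49 / 100 ≤ z) (hs : 0 < s)
    (h5 : s ≤ 1 / 5)
    (hsz : s ^ 2 = 1 - z) (hl : 0 < l) (hl1 : l ≤ 2 / 5)
    (hU : l ≤ s ^ 2 * (1 / 2 + 79 / 200 * s ^ 2))
    (hx : 0 < x) (hxz : x ^ 2 = z)
    (htail : (1 + u) * (x * Real.exp l) ≤ (1 - x * Real.exp l) * ((m + 2) * (z / s ^ 2) + 1))
    (hW0 : 0 ≤ W) (hWle : W ≤ u) :
    0 ≤ 3 / 8 * (fxq m s * l ^ 2) + (W / s) *
      (fxw z s l - 1 / 3 * s ^ 2 * (1 + s) - 1 / 5 -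
        28 / 13 * ((1 + s) * (1 + 3 * s) / (1 + 6 * s + 6 * s ^ 2))) := by
  have hs1 := fxr_s_le hz hs hsz
  have hw := fxr_wsmall (by linarith only [hz]) hs h5 hsz hl hl1 hU
  have hf1 : (1 + s) * (1 + 3 * s) / (1 + 6 * s + 6 * s ^ 2) ≤ 1 := by
    rw [div_le_one (by positivity)]
    nlinarith only [hs]
  have hs3 : 1 / 3 * s ^ 2 * (1 + s) ≤ 16 / 1000 := by
    have h1 : s ^ 2 ≤ 1 / 25 := by nlinarith only [h5, hs]
    nlinarith only [h1, h5]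
  have hK : 151 / 100 - 6 * (l / s ^ 2) ≤
      fxw z s l - 1 / 3 * s ^ 2 * (1 + s) - 1 / 5 -
        28 / 13 * ((1 + s) * (1 + 3 * s) / (1 + 6 * s + 6 * s ^ 2)) := by linarith only [hw, hf1, hs3]
  have hWs : 0 ≤ W / s := div_nonneg hW0 hs.le
  have h1 := mul_le_mul_of_nonneg_left hK hWs
  refine le_trans ?_ (add_le_add_right h1 _)
  rcases le_total (6 * (l / s ^ 2)) (151 / 100) with h6 | h6
  · have : 0 ≤ W / s * (151 / 100 - 6 * (l / s ^ 2)) := mul_nonneg hWs (by linarith only [h6])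
    have hq0 : 0 ≤ fxq m s * l ^ 2 := mul_nonneg (fxr_q_pos hm hs hs1).le (sq_nonneg l)
    linarith only [this, hq0]
  · have hs2 : 0 < s ^ 2 := by positivity
    have hls : l = l / s ^ 2 * s ^ 2 := by field_simp
    have hla : 1 / 4 * s ^ 2 ≤ l := by
      have h7 : 1 / 4 ≤ l / s ^ 2 := by linarith only [h6]
      have := mul_le_mul_of_nonneg_right h7 hs2.le
      linarith only [hls, this]
    have hlb : l ≤ 516 / 1000 * s ^ 2 := by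
      refine hU.trans ?_
      have h1 : s ^ 2 ≤ 1 / 25 := by nlinarith only [h5, hs]
      linarith only [mul_nonneg (sq_nonneg (1 * s : ℝ)) (sub_nonneg.2 h1), mul_nonneg (sq_nonneg (1 * s : ℝ)) (sq_nonneg (1 * s : ℝ))]
    have htl := fxr_tail hm hs h5 hsz hl hx hxz hla hlb htail
    have hq2 := fxr_ql2 (l := l) hm hs h5
    have hu1 : W ≤ (516 / 1000 - l / s ^ 2) * (29 + (m - 27)) - 1 := by
      rw [show (29 : ℝ) + (m - 27) = m + 2 by ring]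
      linarith only [hWle, htl]
    have h9 := fxr_tail_q (by linarith only [hm]) h6 hu1
    have h10 : 0 ≤ (3 / 8 * (fxq m s * l ^ 2) * s + W * (151 / 100 - 6 * (l / s ^ 2))) / s :=
      div_nonneg (by linarith only [hq2, h9]) hs.le
    have e3 : (3 / 8 * (fxq m s * l ^ 2) * s + W * (151 / 100 - 6 * (l / s ^ 2))) / s =
        3 / 8 * (fxq m s * l ^ 2) + W / s * (151 / 100 - 6 * (l / s ^ 2)) := by
      rw [add_div, mul_div_assoc, div_self hs.ne', mul_one]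
      ring
    rw [e3] at h10
    exact h10

theorem fxr_Tpos {m z s l u G N x : ℝ} (hm : 27 ≤ m) (hz : 49 / 100 ≤ z) (hs : 0 < s)
    (hsz : s ^ 2 = 1 - z) (hl : 0 < l) (hl1 : l ≤ 2 / 5)
    (hU : l ≤ s ^ 2 * (1 / 2 + 79 / 200 * s ^ 2)) (hu : 0 ≤ u) (hus : u * s ≤ 1)
    (hx : 0 < x) (hxz : x ^ 2 = z)
    (htail : (1 + u) * (x * Real.exp l) ≤ (1 - x * Real.exp l) * ((m + 2) * (z / s ^ 2) + 1))
    (hN : Real.log (1 + u) - u ≤ N) (hG : -(5 * (z / s ^ 3) * l ^ 2) ≤ G) :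
    fxq m s / 8 * l ^ 2 + 1 / 5 * (u ^ 2 / (1 + u) / s) ≤ dpT m z s l u G N := by
  have hs1 := fxr_s_le hz hs hsz
  have hT := fxr_T_ge hm hz hs hsz hl hl1 hU hN hG (fxr_phi_nonneg (by linarith only [hu]))
  have hcr := fxr_cross hm hs hs1 hl.le hu
  have hz' : z = 1 - s ^ 2 := by linarith only [hsz]
  rw [← hz'] at hcr
  refine le_trans ?_ hT
  obtain ⟨W, hW⟩ : ∃ W : ℝ, W = u ^ 2 / (1 + u) := ⟨_, rfl⟩
  have hW0 : 0 ≤ W := by rw [hW]; (clear * - hu; positivity)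
  have hWu : W * (1 + u) = u ^ 2 := by rw [hW]; field_simp
  have hWle : W ≤ u := by
    rw [hW, div_le_iff₀ (by linarith only [hu])]
    linarith only [hu]
  -- `s² u²/3 ≤ s(1+s) W/3`
  have hsu : s ^ 2 / 3 * u ^ 2 ≤ 1 / 3 * s ^ 2 * (1 + s) * (W / s) := by
    have e : 1 / 3 * s ^ 2 * (1 + s) * (W / s) = 1 / 3 * (s * ((1 + s) * W)) := by
      field_simp
    rw [e, ← hWu]
    have h1 : s * (1 + u) ≤ 1 + s := by linarith only [hus]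
    have h2 := mul_le_mul_of_nonneg_right h1 (mul_nonneg hs.le hW0)
    linarith only [h2]
  have hφ := fxr_phis hu hs hus
  rw [← hW] at hφ ⊢
  have key : 0 ≤ 3 / 8 * (fxq m s * l ^ 2) + (W / s) *
      (fxw z s l - 1 / 3 * s ^ 2 * (1 + s) - 1 / 5 -
        28 / 13 * ((1 + s) * (1 + 3 * s) / (1 + 6 * s + 6 * s ^ 2))) := by
    rcases le_total (1 / 5) s with h5 | h5
    · exact fxr_pos_big hm hz h5 hsz hl hl1 hU hu hus hW0 hWu
    · exact fxr_pos_small hm hz hs h5 hsz hl hl1 hU hx hxz htail hW0 hWle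
  obtain ⟨f, hf⟩ : ∃ f : ℝ, f = (1 + s) * (1 + 3 * s) / (1 + 6 * s + 6 * s ^ 2) := ⟨_, rfl⟩
  rw [← hf] at hφ key
  have hφs : (u - Real.log (1 + u)) / s ≤ f * (W / s) := by
    rw [← mul_div_assoc]
    exact div_le_div_of_nonneg_right hφ hs.le
  linarith only [hφs, key, hsu, hcr]

theorem fxr_Tneg {m z s l u G N : ℝ} (hm : 27 ≤ m) (hz : 49 / 100 ≤ z) (hs : 0 < s)
    (hsz : s ^ 2 = 1 - z) (hl : 0 < l) (hl1 : l ≤ 2 / 5)
    (hU : l ≤ s ^ 2 * (1 / 2 + 79 / 200 * s ^ 2)) (hτ : z * Real.exp (2 * l) ≤ 1)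
    (hu1 : 0 < 1 + u) (hu : u ≤ 0)
    (hN : Real.log (1 + u) - u ≤ N) (hG : -(5 * (z / s ^ 3) * l ^ 2) ≤ G) :
    fxq m s / 8 * l ^ 2 + 1 / 9 * (u ^ 2 / (1 + u) / s) ≤ dpT m z s l u G N := by
  have hs1 := fxr_s_le hz hs hsz
  have hT := fxr_T_ge hm hz hs hsz hl hl1 hU hN hG (fxr_phi_nonneg hu1)
  refine le_trans ?_ hT
  obtain ⟨W, hW⟩ : ∃ W : ℝ, W = u ^ 2 / (1 + u) := ⟨_, rfl⟩
  have hW0 : 0 ≤ W := by rw [hW]; (clear * - hu1; positivity)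
  have hcr : 6 / 25 * (m + 3) * z * (u * l) ≤ 0 := by
    have h1 : u * l ≤ 0 := mul_nonpos_of_nonpos_of_nonneg hu hl.le
    have h2 : 0 ≤ 6 / 25 * (m + 3) * z := by
      have : 0 ≤ m + 3 := by linarith only [hm]
      have : 0 ≤ z := by linarith only [hz]
      positivity
    exact mul_nonpos_of_nonneg_of_nonpos h2 h1
  have hs2 : 0 < s ^ 2 := by positivity
  have hWs : 0 ≤ W / s := div_nonneg hW0 hs.le
  have hq0 : 0 ≤ fxq m s * l ^ 2 := mul_nonneg (fxr_q_pos hm hs hs1).le (sq_nonneg l)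
  -- `q l² s ≥ 30.16 · .2399 λ²`
  have hql : ∀ a : ℝ, 0 ≤ a → a ≤ l / s ^ 2 → 7235 / 1000 * a ^ 2 / s ≤ fxq m s * l ^ 2 := by
    intro a ha ha1
    refine le_trans ?_ (fxr_ql (l := l) hm hs hs1)
    apply div_le_div_of_nonneg_right _ hs.le
    have h1 : s ^ 2 ≤ 51 / 100 := by linarith only [hz, hsz]
    have h2 : 3018 / 100 ≤ 72 - 82 * s ^ 2 := by linarith only [hz, hsz]
    have h3 : (49 / 100) ^ 2 ≤ (1 - s ^ 2) ^ 2 := by
      apply pow_le_pow_left₀ (by norm_num)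
      linarith only [hz, hsz]
    have h4 : a ^ 2 ≤ (l / s ^ 2) ^ 2 := pow_le_pow_left₀ ha ha1 2
    calc 7235 / 1000 * a ^ 2 ≤ (3018 / 100 * (49 / 100) ^ 2) * a ^ 2 := by
          apply mul_le_mul_of_nonneg_right _ (sq_nonneg a)
          norm_num
      _ ≤ ((72 - 82 * s ^ 2) * (1 - s ^ 2) ^ 2) * (l / s ^ 2) ^ 2 := by
          apply mul_le_mul _ h4 (sq_nonneg a) (by (clear * - h2 h3; positivity))
          exact mul_le_mul h2 h3 (by positivity) (by linarith only [hz, hsz])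
  rw [← hW]
  rcases le_total (l / s ^ 2) (7 / 20) with ha | ha
  · have hw := fxr_wa hz hs hsz hl hl1 ha
    have hφ := fxr_phi2 hu1 hu
    rw [← hW] at hφ
    have h1 : (u - Real.log (1 + u)) / s ≤ 1 / 2 * (W / s) := by
      rw [← mul_div_assoc]
      exact div_le_div_of_nonneg_right hφ hs.le
    have h2 := mul_le_mul_of_nonneg_right hw hWs
    linarith only [hcr, hWs, hq0, h1, h2]
  · rcases le_total (l / s ^ 2) (1 / 2) with hb | hb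
    · have hw := fxr_wb hz hs hsz hl hl1 ha hb
      have hφ := fxr_phi4 hu1 hu
      rw [← hW] at hφ
      have h1 : (u - Real.log (1 + u)) / s ≤ 1 / 4 * (W / s) + 1 / 10 * (1 / s) := by
        have : 1 / 4 * (W / s) + 1 / 10 * (1 / s) = (1 / 4 * W + 1 / 10) / s := by ring
        rw [this]
        exact div_le_div_of_nonneg_right hφ hs.le
      have h2 := mul_le_mul_of_nonneg_right hw hWs
      have h3 := hql (7 / 20) (by norm_num) ha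
      have h4 : 7235 / 1000 * (7 / 20) ^ 2 / s = 88628750 / 100000000 * (1 / s) := by
        ring
      rw [h4] at h3
      have h5 : 0 < 1 / s := by positivity
      (clear * - hcr hWs h1 h2 h3 h5; linarith)
    · have hw := fxr_w3 hz hs hsz hl hl1 hτ
      have hφ := fxr_phi10 hu1 hu
      rw [← hW] at hφ
      have h1 : (u - Real.log (1 + u)) / s ≤ 1 / 10 * (W / s) + 3 / 5 * (1 / s) := by
        have : 1 / 10 * (W / s) + 3 / 5 * (1 / s) = (1 / 10 * W + 3 / 5) / s := by ring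
        rw [this]
        exact div_le_div_of_nonneg_right hφ hs.le
      have h2 := mul_le_mul_of_nonneg_right hw hWs
      have h3 := hql (1 / 2) (by norm_num) hb
      have h4 : 7235 / 1000 * (1 / 2) ^ 2 / s = 180875 / 100000 * (1 / s) := by
        ring
      rw [h4] at h3
      have h5 : 0 < 1 / s := by positivity
      linarith only [hcr, hWs, h1, h2, h3, h5]

end Vale.Agent.P237.AllN
end

section

/-!
# P237, block D, `x ≥ 7/10`, `l > 0`: the test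
-/

namespace Vale.Agent.P237.AllN

open PolyPos

/-- `ρ` from below -/
theorem fxr_rho {m y : ℝ} :
    (2 + 135 * y + 675 * y ^ 2) / 10 + (m - 27) * ((5 * y + 52 * y ^ 2) / 10) ≤ dpR m y := by
  unfold dpR
  have h1 : 0 ≤ (m - 27) ^ 2 * y ^ 2 := by positivity
  linarith

private def cX2 : Ex := Ex.X * Ex.X

/-- `(4/5) ρ₂₇ s⁴ - 5(1+s)s²(11/5-2s³)² - 8 s⁴` -/
private def chA : Ex :=
  fxk 2 24 * (fxk 2 0 * (cX2 * cX2) + fxk 135 0 * (fxZ * cX2) + fxk 675 0 * (fxZ * fxZ)) -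
  fxk 5 0 * ((fxk 1 0 + Ex.X) * cX2 * ((fxk 11 4 - fxk 2 0 * (cX2 * Ex.X)) *
    (fxk 11 4 - fxk 2 0 * (cX2 * Ex.X)))) - fxk 8 0 * (cX2 * cX2)

private theorem chkA : Ex.nn (2 ^ 512) 60 4000 0 5 7 0 1 1 chA = true := by
  (clear * -; decide +kernel)

theorem fxr_tA {s : ℝ} (hs : 0 ≤ s) (hs1 : s ≤ 5 / 7) :
    5 * (1 + s) * s ^ 2 * (11 / 5 - 2 * s ^ 3) ^ 2 + 8 * s ^ 4 ≤
      4 / 5 * ((2 * s ^ 4 + 135 * (1 - s ^ 2) * s ^ 2 + 675 * (1 - s ^ 2) ^ 2) / 10) := by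
  have h := Ex.nn_closed (x := s) (y := 0) (by norm_num) (by norm_num) (by norm_num)
    (by norm_num) chkA (by push_cast; linarith only [hs]) (by push_cast; linarith only [hs1]) (by norm_num)
    (by norm_num)
  simp only [chA, cX2, fxk, fxZ, Ex.R_add, Ex.R_sub, Ex.R_mul, Ex.R_c, Ex.R_X, Fr.R] at h
  push_cast at h
  linarith only [h]

/-- `ρ₂₇ s⁴/10 - ...` -/
private def chB : Ex :=
  fxk 1 99 * (fxk 2 0 * (cX2 * cX2) + fxk 135 0 * (fxZ * cX2) + fxk 675 0 * (fxZ * fxZ)) -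
  fxk 11 4 * cX2 + fxk 2 0 * (cX2 * cX2 * Ex.X) -
  fxk 71 99 * (cX2 * cX2 * (fxk 2 0 * Ex.X - fxk 2 0 * cX2 + fxk 36 4 * (fxZ * Ex.X)))

private theorem chkB : Ex.nn (2 ^ 512) 60 4000 0 5 7 0 1 1 chB = true := by
  (clear * -; decide +kernel)

theorem fxr_tB {s : ℝ} (hs : 0 ≤ s) (hs1 : s ≤ 5 / 7) :
    11 / 5 * s ^ 2 - 2 * s ^ 5 + 71 / 100 * s ^ 4 * (2 * s - 2 * s ^ 2 +
      36 / 5 * ((1 - s ^ 2) * s)) ≤
      (2 * s ^ 4 + 135 * (1 - s ^ 2) * s ^ 2 + 675 * (1 - s ^ 2) ^ 2) / 100 := by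
  have h := Ex.nn_closed (x := s) (y := 0) (by norm_num) (by norm_num) (by norm_num)
    (by norm_num) chkB (by push_cast; linarith only [hs]) (by push_cast; linarith only [hs1]) (by norm_num)
    (by norm_num)
  simp only [chB, cX2, fxk, fxZ, Ex.R_add, Ex.R_sub, Ex.R_mul, Ex.R_c, Ex.R_X, Fr.R] at h
  push_cast at h
  linarith only [h]

/-- `4/5 ρ₂₇ s⁴ - 38 s³ - 8 s⁴` -/
private def chC : Ex :=
  fxk 2 24 * (fxk 2 0 * (cX2 * cX2) + fxk 135 0 * (fxZ * cX2) + fxk 675 0 * (fxZ * fxZ)) -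
  fxk 38 0 * (cX2 * Ex.X) - fxk 1 0 * (cX2 * cX2)

private theorem chkC : Ex.nn (2 ^ 512) 60 4000 0 5 7 0 1 1 chC = true := by
  (clear * -; decide +kernel)

theorem fxr_tC {s : ℝ} (hs : 0 ≤ s) (hs1 : s ≤ 5 / 7) :
    38 * s ^ 3 + s ^ 4 ≤
      4 / 5 * ((2 * s ^ 4 + 135 * (1 - s ^ 2) * s ^ 2 + 675 * (1 - s ^ 2) ^ 2) / 10) := by
  have h := Ex.nn_closed (x := s) (y := 0) (by norm_num) (by norm_num) (by norm_num)
    (by norm_num) chkC (by push_cast; linarith only [hs]) (by push_cast; linarith only [hs1]) (by norm_num)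
    (by norm_num)
  simp only [chC, cX2, fxk, fxZ, Ex.R_add, Ex.R_sub, Ex.R_mul, Ex.R_c, Ex.R_X, Fr.R] at h
  push_cast at h
  linarith only [h]

/-- `z²(72-82s²) - s³(2-2s+7.2z)²` -/
private def chD : Ex :=
  fxZ * fxZ * (fxk 72 0 - fxk 82 0 * cX2) -
  cX2 * Ex.X * ((fxk 2 0 - fxk 2 0 * Ex.X + fxk 36 4 * fxZ) *
    (fxk 2 0 - fxk 2 0 * Ex.X + fxk 36 4 * fxZ))

private theorem chkD : Ex.nn (2 ^ 512) 60 4000 0 5 7 0 1 1 chD = true := by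
  (clear * -; decide +kernel)

theorem fxr_tD {s : ℝ} (hs : 0 ≤ s) (hs1 : s ≤ 5 / 7) :
    s ^ 3 * (2 - 2 * s + 36 / 5 * (1 - s ^ 2)) ^ 2 ≤ (1 - s ^ 2) ^ 2 * (72 - 82 * s ^ 2) := by
  have h := Ex.nn_closed (x := s) (y := 0) (by norm_num) (by norm_num) (by norm_num)
    (by norm_num) chkD (by push_cast; linarith only [hs]) (by push_cast; linarith only [hs1]) (by norm_num)
    (by norm_num)
  simp only [chD, cX2, fxk, fxZ, Ex.R_add, Ex.R_sub, Ex.R_mul, Ex.R_c, Ex.R_X, Fr.R] at h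
  push_cast at h
  linarith only [h]

/-- `B₁² ≤ q` -/
theorem fxr_B1 {m s : ℝ} (hm : 27 ≤ m) (hs : 0 < s) (hs1 : s ≤ 5 / 7) :
    (2 / s - 2 + 6 / 25 * (m + 3) * ((1 - s ^ 2) / s)) ^ 2 ≤ fxq m s := by
  obtain ⟨t, ht⟩ : ∃ t : ℝ, t = m - 27 := ⟨_, rfl⟩
  have ht0 : 0 ≤ t := by (clear * - hm ht; linarith)
  have hm' : m = 27 + t := by linarith only [ht]
  have hD := fxr_tD hs.le hs1
  have hs2 : s ^ 2 ≤ 25 / 49 := by nlinarith only [hs1, hs]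
  have hs3 : s ^ 3 ≤ 125 / 343 := by
    have := pow_le_pow_left₀ hs.le hs1 3
    norm_num at this
    exact this
  have hz0 : 0 < 1 - s ^ 2 := by linarith only [hs2]
  have h1 : 0 ≤ 3 * (1 - s ^ 2) - 12 / 25 * s ^ 3 * (2 - 2 * s + 36 / 5 * (1 - s ^ 2)) := by
    have h2 : 12 / 25 * s ^ 3 * (2 - 2 * s + 36 / 5 * (1 - s ^ 2)) ≤
        12 / 25 * (125 / 343) * (2 - 2 * s + 36 / 5 * (1 - s ^ 2)) := by
      apply mul_le_mul_of_nonneg_right _ (by linarith only [hs1, hz0])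
      linarith only [hs3]
    linarith only [h2, hz0, hs2, hs]
  have e : fxq m s - (2 / s - 2 + 6 / 25 * (m + 3) * ((1 - s ^ 2) / s)) ^ 2 =
      1 / s ^ 5 * (((1 - s ^ 2) ^ 2 * (72 - 82 * s ^ 2) -
        s ^ 3 * (2 - 2 * s + 36 / 5 * (1 - s ^ 2)) ^ 2) +
        t * ((1 - s ^ 2) * (3 * (1 - s ^ 2) -
          12 / 25 * s ^ 3 * (2 - 2 * s + 36 / 5 * (1 - s ^ 2)))) +
        t ^ 2 * ((3 / 25 - 36 / 625) * ((1 - s ^ 2) ^ 2 * s ^ 3))) := by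
    unfold fxq
    rw [hm']
    field_simp
    ring
  have h3 : 0 ≤ 1 / s ^ 5 * (((1 - s ^ 2) ^ 2 * (72 - 82 * s ^ 2) -
        s ^ 3 * (2 - 2 * s + 36 / 5 * (1 - s ^ 2)) ^ 2) +
        t * ((1 - s ^ 2) * (3 * (1 - s ^ 2) -
          12 / 25 * s ^ 3 * (2 - 2 * s + 36 / 5 * (1 - s ^ 2)))) +
        t ^ 2 * ((3 / 25 - 36 / 625) * ((1 - s ^ 2) ^ 2 * s ^ 3))) := by
    have h4 : 0 ≤ (1 - s ^ 2) ^ 2 * (72 - 82 * s ^ 2) -
        s ^ 3 * (2 - 2 * s + 36 / 5 * (1 - s ^ 2)) ^ 2 := by linarith only [hD]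
    have h5 : (0 : ℝ) ≤ 3 / 25 - 36 / 625 := by norm_num
    have h6 := mul_nonneg hz0.le h1
    (clear * - hs hD ht0 hz0 h1; positivity)
  linarith only [e, h3]

theorem fxr_q30 {m s : ℝ} (hm : 27 ≤ m) (hs : 0 < s) (hs1 : s ≤ 5 / 7) : 30 ≤ fxq m s := by
  refine le_trans ?_ (fxr_B1 hm hs hs1)
  have hs2 : s ^ 2 ≤ 25 / 49 := by nlinarith
  have h1 : 1 ≤ 1 / s * (5 / 7) := by
    rw [one_div, inv_mul_eq_div, one_le_div hs]
    exact hs1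
  have h2 : 24 / 35 ≤ (1 - s ^ 2) / s := by
    rw [le_div_iff₀ hs]
    nlinarith only [hs2]
  have h3 : 72 / 10 * (24 / 35) ≤ 6 / 25 * (m + 3) * ((1 - s ^ 2) / s) := by
    apply mul_le_mul _ h2 (by norm_num) (by linarith only [hm])
    linarith only [hm]
  have h4 : 4 / 5 + 72 / 10 * (24 / 35) ≤ 2 / s - 2 + 6 / 25 * (m + 3) * ((1 - s ^ 2) / s) := by
    have : 2 / s = 2 * (1 / s) := by ring
    linarith only [h1, h3, this]
  have h5 := pow_le_pow_left₀ (by norm_num) h4 2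
  refine le_trans ?_ h5
  norm_num

/-- `2 (m+3) z ≤ q` -/
theorem fxr_q2 {m s : ℝ} (hm : 27 ≤ m) (hs : 0 < s) (hs1 : s ≤ 5 / 7) :
    2 * (m + 3) * (1 - s ^ 2) ≤ fxq m s := by
  obtain ⟨t, ht⟩ : ∃ t : ℝ, t = m - 27 := ⟨_, rfl⟩
  have ht0 : 0 ≤ t := by linarith only [hm, ht]
  have hm' : m = 27 + t := by linarith only [ht]
  have hs2 : s ^ 2 ≤ 25 / 49 := by nlinarith only [hs1, hs]
  have hs5 : s ^ 5 ≤ 3125 / 16807 := by
    have := pow_le_pow_left₀ hs.le hs1 5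
    norm_num at this
    exact this
  have hz0 : 0 < 1 - s ^ 2 := by linarith only [hs2]
  have e : fxq m s - 2 * (m + 3) * (1 - s ^ 2) =
      (1 - s ^ 2) / s ^ 5 * (((1 - s ^ 2) * (72 - 82 * s ^ 2) - 60 * s ^ 5) +
        t * (3 * (1 - s ^ 2) - 2 * s ^ 5) + t ^ 2 * (3 / 25 * (1 - s ^ 2) * s ^ 3)) := by
    unfold fxq
    rw [hm']
    field_simp
    ring
  have h3 : 0 ≤ (1 - s ^ 2) / s ^ 5 * (((1 - s ^ 2) * (72 - 82 * s ^ 2) - 60 * s ^ 5) +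
        t * (3 * (1 - s ^ 2) - 2 * s ^ 5) + t ^ 2 * (3 / 25 * (1 - s ^ 2) * s ^ 3)) := by
    have h4 : 0 ≤ (1 - s ^ 2) * (72 - 82 * s ^ 2) - 60 * s ^ 5 := by nlinarith only [hs1, hs5, hs]
    have h5 : 0 ≤ 3 * (1 - s ^ 2) - 2 * s ^ 5 := by linarith only [hs2, hs5]
    (clear * - hz0 hs h4 ht0 h5; positivity)
  linarith only [h3, e]

end Vale.Agent.P237.AllN
end

section

/-!
# P237, block D, `x ≥ 7/10`, `l > 0`: the bounds of `e - T` and of `e`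
-/

namespace Vale.Agent.P237.AllN

theorem fxr_psi {t : ℝ} (ht : 0 ≤ t) : Real.exp (-t) - 1 + t ≤ t ^ 2 / 2 := by
  have h1 := Real.quadratic_le_exp_of_nonneg ht
  have h2 : 0 < 1 - t + t ^ 2 / 2 := by nlinarith only []
  have h3 := mul_le_mul_of_nonneg_right h1 h2.le
  have h4 : (1 + t + t ^ 2 / 2) * (1 - t + t ^ 2 / 2) = 1 + t ^ 4 / 4 := by ring
  have h5 : 0 ≤ t ^ 4 / 4 := by (clear * -; positivity)
  have h6 : 1 ≤ Real.exp t * (1 - t + t ^ 2 / 2) := by linarith only [h3, h5]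
  have h7 : Real.exp (-t) * 1 ≤ Real.exp (-t) * (Real.exp t * (1 - t + t ^ 2 / 2)) :=
    mul_le_mul_of_nonneg_left h6 (Real.exp_pos _).le
  have h8 : Real.exp (-t) * (Real.exp t * (1 - t + t ^ 2 / 2)) = 1 - t + t ^ 2 / 2 := by
    rw [← mul_assoc, ← Real.exp_add, neg_add_cancel, Real.exp_zero, one_mul]
  (clear * - h7 h8; linarith)

/-- upper bound of `e - T` -/
theorem fxr_eT {m z s l u c G N : ℝ} (hm : 27 ≤ m) (hz : 49 / 100 ≤ z) (hs : 0 < s)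
    (hsz : s ^ 2 = 1 - z) (hl : 0 < l) (hl1 : l ≤ 2 / 5)
    (hU : l ≤ s ^ 2 * (1 / 2 + 79 / 200 * s ^ 2)) (hτ : z * Real.exp (2 * l) ≤ 1)
    (hu1 : 0 < 1 + u) (hc2 : c ≤ 1) (hN : Real.log (1 + u) - u ≤ N)
    (hG : -(5 * (z / s ^ 3) * l ^ 2) ≤ G) :
    dpE m z s l u c N - dpT m z s l u G N ≤
      (2 * (m + 1) / (m - 1) - 2 * c) * ((u - Real.log (1 + u)) / s) +
      (2 * c / s - 2 * s ^ 2 + 2 * (1 - c)) * u +
      (2 * c / s - 2 + 2 * (1 - c) * (1 - m * (z / s ^ 2))) * l +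
      6 / 25 * (m + 3) * z * (u * l) := by
  have hs1 := fxr_s_le hz hs hsz
  have hA := fxr_A hm hz hs hsz hl hl1 hU
  have hz0 : 0 < z := by linarith only [hz]
  have hC := kK3 hz0 hs hsz hτ
  have h1s : 1 + s ≠ 0 := by positivity
  obtain ⟨W, hW⟩ : ∃ W : ℝ, W = u ^ 2 / (1 + u) := ⟨_, rfl⟩
  have hW0 : 0 ≤ W := by rw [hW]; (clear * - hu1; positivity)
  have e3 : 2 * (m + 1) / ((m - 1) * s) * N = 2 * (m + 1) / (m - 1) * (N / s) := by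
    rw [div_mul_div_comm, div_mul_eq_mul_div]
  have e : dpE m z s l u c N - dpT m z s l u G N = (m + 3) * z *
      (Real.exp (-(2 * l)) - 1 + 2 * l) - ((m + 3) * z * (Real.exp (-(2 * l)) - 1 + 2 * l) +
      (3 * (m - 3) * (z ^ 2 / s ^ 5) - 9 * (z / s ^ 3)) * l ^ 2 + dpS0 m z l +
      3 / 25 * (m + 3) * z * (m * (z / s ^ 2) - 3) * l ^ 2) - G -
      (4 / s - 4 * s / (1 + s) - 2 * s ^ 2 - 6 * (z / s ^ 3) * l + ksC z s l) * W -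
      (2 * (m + 1) / (m - 1) - 2 * c) * (N / s) +
      (2 * c / s - 2 * s ^ 2 + 2 * (1 - c)) * u +
      (2 * c / s - 2 + 2 * (1 - c) * (1 - m * (z / s ^ 2))) * l +
      6 / 25 * (m + 3) * z * (u * l) := by
    unfold dpT dpE
    rw [dpS_eq, e3, ← hW]
    ring
  have h1 : (m + 3) * z * (Real.exp (-(2 * l)) - 1 + 2 * l) ≤ fxq m s * l ^ 2 := by
    have h2 := fxr_psi (t := 2 * l) (by linarith only [hl])
    have h3 : 0 ≤ (m + 3) * z := by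
      have : 0 ≤ m + 3 := by linarith only [hm]
      positivity
    have h4 := mul_le_mul_of_nonneg_left h2 h3
    have h5 := mul_le_mul_of_nonneg_right (fxr_q2 hm hs hs1) (sq_nonneg l)
    rw [show 1 - s ^ 2 = z by linarith only [hsz]] at h5
    linarith only [h4, h5]
  have h2 := mul_nonneg hC hW0
  have h3 : -((2 * (m + 1) / (m - 1) - 2 * c) * ((u - Real.log (1 + u)) / s)) ≤
      (2 * (m + 1) / (m - 1) - 2 * c) * (N / s) := by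
    have hκ : 2 ≤ 2 * (m + 1) / (m - 1) := by
      rw [le_div_iff₀ (by linarith only [hm])]
      linarith only []
    have h4 : -((u - Real.log (1 + u)) / s) ≤ N / s := by
      rw [← neg_div, div_le_div_iff_of_pos_right hs]
      linarith only [hN]
    have h5 := mul_le_mul_of_nonneg_left h4 (by linarith only [hc2, hκ] : 0 ≤ 2 * (m + 1) / (m - 1) - 2 * c)
    linarith only [h5]
  rw [e]
  linarith only [hG, hA, h1, h2, h3]

theorem fxr_kc {m c : ℝ} (hm : 27 ≤ m) (hc1 : 1 - 1 / (2 * m) ≤ c) :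
    2 * (m + 1) / (m - 1) - 2 * c ≤ 1 / 5 := by
  have h1 : 2 * (m + 1) / (m - 1) ≤ 28 / 13 := by
    rw [div_le_iff₀ (by linarith only [hm])]
    linarith only [hm]
  have h2 : 1 / (2 * m) ≤ 1 / 54 := by
    apply one_div_le_one_div_of_le (by norm_num)
    linarith only [hm]
  linarith

theorem fxr_kc0 {m c : ℝ} (hm : 27 ≤ m) (hc2 : c ≤ 1) :
    0 ≤ 2 * (m + 1) / (m - 1) - 2 * c := by
  have hκ : 2 ≤ 2 * (m + 1) / (m - 1) := by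
    rw [le_div_iff₀ (by linarith)]
    linarith only []
  linarith only [hc2, hκ]

theorem fxr_is {s : ℝ} (hs : 0 < s) (hs1 : s ≤ 5 / 7) : 7 / 5 ≤ 1 / s := by
  rw [le_div_iff₀ hs]
  linarith

/-- bounds of `r = 2c/s - 2 + 2(1-c)(1-my)` -/
theorem fxr_rr {m s c y : ℝ} (hm : 27 ≤ m) (hs : 0 < s) (hs1 : s ≤ 5 / 7) (hy : 0 ≤ y)
    (hc1 : 1 - 1 / (2 * m) ≤ c) (hc2 : c ≤ 1) :
    -y ≤ 2 * c / s - 2 + 2 * (1 - c) * (1 - m * y) ∧
      2 * c / s - 2 + 2 * (1 - c) * (1 - m * y) ≤ 2 / s - 2 := by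
  have hi := fxr_is hs hs1
  obtain ⟨i, hid⟩ : ∃ i : ℝ, i = 1 / s := ⟨_, rfl⟩
  rw [← hid] at hi
  have e1 : 2 * c / s = 2 * c * i := by rw [hid]; ring
  have e2 : 2 / s = 2 * i := by rw [hid]; ring
  rw [e1, e2]
  have h2 : 1 / (2 * m) ≤ 1 / 54 := by
    apply one_div_le_one_div_of_le (by norm_num)
    linarith only [hm]
  have hc0 : 0 ≤ c := by linarith only [hc1, h2]
  have h3 : (1 - c) * (2 * m) ≤ 1 := by
    have h4 : 1 - c ≤ 1 / (2 * m) := by linarith only [hc1]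
    rwa [le_div_iff₀ (by linarith only [hm])] at h4
  have h4 := mul_le_mul_of_nonneg_right h3 hy
  have h5 : 0 ≤ (1 - c) * (i - 1) := mul_nonneg (by linarith only [hc2]) (by linarith only [hi])
  have h6 : 0 ≤ c * (i - 1) := mul_nonneg hc0 (by linarith only [hi])
  have h7 : 0 ≤ (1 - c) * (m * y) := mul_nonneg (by linarith only [hc2]) (mul_nonneg (by linarith only [hm]) hy)
  constructor
  · linarith only [h4, h6]
  · linarith only [h5, h7]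

/-- bounds of the coefficient of `u` -/
theorem fxr_cu {m s c : ℝ} (hm : 27 ≤ m) (hs : 0 < s) (hs1 : s ≤ 5 / 7)
    (hc1 : 1 - 1 / (2 * m) ≤ c) (hc2 : c ≤ 1) :
    0 ≤ 2 * c / s - 2 * s ^ 2 + 2 * (1 - c) ∧
      2 * c / s - 2 * s ^ 2 + 2 * (1 - c) ≤ 2 / s - 2 * s ^ 2 := by
  have hi := fxr_is hs hs1
  obtain ⟨i, hid⟩ : ∃ i : ℝ, i = 1 / s := ⟨_, rfl⟩
  rw [← hid] at hi
  have e1 : 2 * c / s = 2 * c * i := by rw [hid]; ring
  have e2 : 2 / s = 2 * i := by rw [hid]; ring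
  rw [e1, e2]
  have h2 : 1 / (2 * m) ≤ 1 / 54 := by
    apply one_div_le_one_div_of_le (by norm_num)
    linarith only [hm]
  have hc0 : 53 / 54 ≤ c := by linarith only [hc1, h2]
  have h5 : 0 ≤ (1 - c) * (i - 1) := mul_nonneg (by linarith only [hc2]) (by linarith only [hi])
  have h6 : 53 / 54 * (7 / 5) ≤ c * i := mul_le_mul hc0 hi (by norm_num) (by linarith only [hc1, h2])
  have hs2 : s ^ 2 ≤ 25 / 49 := by nlinarith only [hs1, hs]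
  constructor
  · linarith only [hc2, h6, hs2]
  · linarith only [h5]

/-- `e` from below -/
theorem fxr_e_ge {m z s l u c N : ℝ} (hm : 27 ≤ m) (hz : 49 / 100 ≤ z) (hs : 0 < s)
    (hsz : s ^ 2 = 1 - z) (hl : 0 < l) (hc1 : 1 - 1 / (2 * m) ≤ c) (hc2 : c ≤ 1)
    (hN : Real.log (1 + u) - u ≤ N) :
    4 * s ^ 2 * Real.exp (-(2 * l)) * (u ^ 2 / (1 + u)) + 2 * c / s * Real.log (1 + u) -
      2 * s ^ 2 * u + 2 * (1 - c) * u - z / s ^ 2 * l ≤ dpE m z s l u c N := by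
  have hs1 := fxr_s_le hz hs hsz
  have hz0 : 0 < z := by linarith only [hz]
  have hy : 0 ≤ z / s ^ 2 := by (clear * - hz hs; positivity)
  have h2 : 1 / (2 * m) ≤ 1 / 54 := by
    apply one_div_le_one_div_of_le (by norm_num)
    linarith only [hm]
  have hr := mul_le_mul_of_nonneg_right (fxr_rr hm hs hs1 hy hc1 hc2).1 hl.le
  have h3 : 0 ≤ 2 * c / s := div_nonneg (by linarith only [hc1, h2]) hs.le
  have h4 := mul_le_mul_of_nonneg_left hN h3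
  have h5 : 0 ≤ (m + 3) * z * (Real.exp (-(2 * l)) - 1 + 2 * l) := by
    have h6 : 0 ≤ Real.exp (-(2 * l)) - 1 + 2 * l := by
      have := Real.add_one_le_exp (-(2 * l))
      linarith only [this]
    have : 0 ≤ m + 3 := by linarith only [hm]
    (clear * - hm hz h6; positivity)
  unfold dpE
  linarith only [hr, h4, h5]

end Vale.Agent.P237.AllN
end

section

/-!
# P237, block D, `x ≥ 7/10`, `l > 0`: the region theorem
-/

namespace Vale.Agent.P237.AllN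

open PolyPos

theorem fxr_cs {a b α β X Y : ℝ} (hα : 0 ≤ α) (hβ : 0 ≤ β) (hX : 0 ≤ X) (hY : 0 ≤ Y)
    (h1 : a ^ 2 ≤ α * X) (h2 : b ^ 2 ≤ β * Y) : (a + b) ^ 2 ≤ (α + β) * (X + Y) := by
  have h3 : 2 * (a * b) ≤ α * Y + β * X := by
    by_contra hlt
    push Not at hlt
    have h4 := pow_lt_pow_left₀ hlt (by positivity) two_ne_zero
    have h5 : (2 * (a * b)) ^ 2 = 4 * (a ^ 2 * b ^ 2) := by ring
    have h6 : a ^ 2 * b ^ 2 ≤ α * X * (β * Y) :=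
      mul_le_mul h1 h2 (sq_nonneg b) (by (clear * - hα hX; positivity))
    have h7 : 4 * (α * X * (β * Y)) ≤ (α * Y + β * X) ^ 2 := by
      nlinarith only [sq_nonneg (α * Y - β * X)]
    linarith only [h4, h6, h7]
  linarith

/-- `ρ s⁴` from below -/
theorem fxr_rhoS {m z s : ℝ} (hs : 0 < s) :
    ((2 * s ^ 4 + 135 * z * s ^ 2 + 675 * z ^ 2) / 10 +
      (m - 27) * ((5 * z * s ^ 2 + 52 * z ^ 2) / 10)) ≤ dpR m (z / s ^ 2) * s ^ 4 := by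
  have h := mul_le_mul_of_nonneg_right (fxr_rho (m := m) (y := z / s ^ 2))
    (by positivity : 0 ≤ s ^ 4)
  refine le_trans (le_of_eq ?_) h
  field_simp

theorem fxr_div {a b s : ℝ} (hs : 0 < s) (h : a * s ^ 4 ≤ b * s ^ 4) : a ≤ b :=
  le_of_mul_le_mul_right h (by positivity)

theorem fxr_l71 {s l : ℝ} (hs : 0 < s) (hs1 : s ≤ 5 / 7)
    (hU : l ≤ s ^ 2 * (1 / 2 + 79 / 200 * s ^ 2)) : l ≤ 71 / 100 * s ^ 2 := by
  have h2 : s ^ 2 ≤ 25 / 49 := by nlinarith only [hs1, hs]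
  have h3 : 0 ≤ s ^ 2 := sq_nonneg s
  nlinarith only [hU, h2]

/-- `A = 11/(5s) - 2s²` -/
noncomputable def fxA (s : ℝ) : ℝ := 11 / (5 * s) - 2 * s ^ 2

/-- `B = 2/s - 2 + (6/25)(m+3) z/s` -/
noncomputable def fxB (m z s : ℝ) : ℝ := 2 / s - 2 + 6 / 25 * (m + 3) * (z / s)

theorem fxA_nn {s : ℝ} (hs : 0 < s) (hs1 : s ≤ 5 / 7) : 0 ≤ fxA s := by
  have hi := fxr_is hs hs1
  have hs2 : s ^ 2 ≤ 25 / 49 := by nlinarith only [hs1, hs]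
  have : 11 / (5 * s) = 11 / 5 * (1 / s) := by
    (clear * - hs; field_simp)
  rw [fxA, this]
  (clear * - hs hs1 hi hs2; linarith)

theorem fxB_nn {m z s : ℝ} (hm : 27 ≤ m) (hz : 0 ≤ z) (hs : 0 < s) (hs1 : s ≤ 5 / 7) :
    0 ≤ fxB m z s := by
  have hi := fxr_is hs hs1
  have h1 : 2 / s = 2 * (1 / s) := by ring
  have h2 : 0 ≤ 6 / 25 * (m + 3) * (z / s) := by
    have : 0 ≤ m + 3 := by linarith only [hm]
    positivity
  rw [fxB, h1]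
  linarith only [hi, h2]

theorem fxr_rho1 {m z s : ℝ} (hm : 27 ≤ m) (hz : 0 ≤ z) (hs : 0 < s) :
    (2 * s ^ 4 + 135 * z * s ^ 2 + 675 * z ^ 2) / 10 ≤ dpR m (z / s ^ 2) * s ^ 4 := by
  have hρS := fxr_rhoS (m := m) (z := z) hs
  have hm27 : 0 ≤ m - 27 := by linarith only [hm]
  have : 0 ≤ (m - 27) * ((5 * z * s ^ 2 + 52 * z ^ 2) / 10) := by positivity
  linarith

theorem fxr_rho0 {m z s : ℝ} (hm : 27 ≤ m) (hz : 0 ≤ z) (hs : 0 < s) :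
    0 < dpR m (z / s ^ 2) := by
  have h1 : 0 < dpR m (z / s ^ 2) * s ^ 4 :=
    lt_of_lt_of_le (by positivity) (fxr_rho1 hm hz hs)
  exact pos_of_mul_pos_left h1 (by positivity)

/-- `e - T ≤ A u + B l` -/
theorem fxr_pP {m z s l u c : ℝ} (hm : 27 ≤ m) (hz : 0 < z) (hs : 0 < s) (hs1 : s ≤ 5 / 7)
    (hl : 0 < l) (hu : 0 ≤ u) (hus : u * s ≤ 1)
    (hc1 : 1 - 1 / (2 * m) ≤ c) (hc2 : c ≤ 1) :
    (2 * (m + 1) / (m - 1) - 2 * c) * ((u - Real.log (1 + u)) / s) +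
      (2 * c / s - 2 * s ^ 2 + 2 * (1 - c)) * u +
      (2 * c / s - 2 + 2 * (1 - c) * (1 - m * (z / s ^ 2))) * l +
      6 / 25 * (m + 3) * z * (u * l) ≤ fxA s * u + fxB m z s * l := by
  have hy : 0 ≤ z / s ^ 2 := by positivity
  have h1 := fxr_kc hm hc1
  have h2 := fxr_kc0 hm hc2
  have h3 : (u - Real.log (1 + u)) / s ≤ u / s := by
    apply div_le_div_of_nonneg_right _ hs.le
    have := Real.log_nonneg (by linarith only [hu] : (1 : ℝ) ≤ 1 + u)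
    linarith only [this]
  have h4 : (2 * (m + 1) / (m - 1) - 2 * c) * ((u - Real.log (1 + u)) / s) ≤ 1 / 5 * (u / s) :=
    mul_le_mul h1 h3 (div_nonneg (fxr_phi_nonneg (by linarith only [hu])) hs.le) (by norm_num)
  have h5 := mul_le_mul_of_nonneg_right (fxr_cu hm hs hs1 hc1 hc2).2 hu
  have h6 := mul_le_mul_of_nonneg_right (fxr_rr hm hs hs1 hy hc1 hc2).2 hl.le
  have h7 : 6 / 25 * (m + 3) * z * (u * l) ≤ 6 / 25 * (m + 3) * z * (1 / s * l) := by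
    apply mul_le_mul_of_nonneg_left _ (by
      have : 0 ≤ m + 3 := by linarith only [hm]
      positivity)
    apply mul_le_mul_of_nonneg_right _ hl.le
    rw [le_div_iff₀ hs]
    exact hus
  have e : fxA s * u + fxB m z s * l = 1 / 5 * (u / s) + (2 / s - 2 * s ^ 2) * u +
      (2 / s - 2) * l + 6 / 25 * (m + 3) * z * (1 / s * l) := by
    rw [fxA, fxB]
    field_simp
    ring
  rw [e]
  linarith only [h4, h5, h6, h7]

theorem fxr_pPr {m z s l u : ℝ} (hm : 27 ≤ m) (hz : 49 / 100 ≤ z) (hs : 0 < s)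
    (hsz : s ^ 2 = 1 - z) (hl71 : l ≤ 71 / 100 * s ^ 2) (hus : u * s ≤ 1) :
    fxA s * u + fxB m z s * l ≤ 1 / 10 * dpR m (z / s ^ 2) := by
  have hs1 := fxr_s_le hz hs hsz
  have hz' : z = 1 - s ^ 2 := by linarith only [hsz]
  have hz0 : 0 < z := by linarith only [hz]
  have hρS := fxr_rhoS (m := m) (z := z) hs
  have hm27 : 0 ≤ m - 27 := by linarith only [hm]
  have h1 : fxA s * u ≤ fxA s * (1 / s) := by
    apply mul_le_mul_of_nonneg_left _ (fxA_nn hs hs1)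
    rw [le_div_iff₀ hs]
    exact hus
  have h2 : fxB m z s * l ≤ fxB m z s * (71 / 100 * s ^ 2) :=
    mul_le_mul_of_nonneg_left hl71 (fxB_nn hm hz0.le hs hs1)
  refine (add_le_add h1 h2).trans (fxr_div hs ?_)
  have e : (fxA s * (1 / s) + fxB m z s * (71 / 100 * s ^ 2)) * s ^ 4 =
      (11 / 5 * s ^ 2 - 2 * s ^ 5 +
      71 / 100 * s ^ 4 * (2 * s - 2 * s ^ 2 + 36 / 5 * (z * s))) +
      (m - 27) * (426 / 2500 * (z * s ^ 5)) := by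
    rw [fxA, fxB]
    field_simp
    ring
  rw [e]
  have h3 := fxr_tB hs.le hs1
  rw [← hz'] at h3
  have h4 : (m - 27) * (426 / 2500 * (z * s ^ 5)) ≤
      (m - 27) * ((5 * z * s ^ 2 + 52 * z ^ 2) / 100) := by
    apply mul_le_mul_of_nonneg_left _ hm27
    have hs5 : s ^ 5 ≤ 3125 / 16807 := by
      have := pow_le_pow_left₀ hs.le hs1 5
      norm_num at this
      exact this
    have h5 := mul_le_mul_of_nonneg_left hs5 hz0.le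
    have h6 : 0 ≤ z * s ^ 2 := by positivity
    have h7 : 49 / 100 * z ≤ z ^ 2 := by nlinarith only [hz]
    linarith only [h5, h6, h7, hz0]
  linarith only [h3, h4, hρS]

theorem fxr_pP2 {m z s l u : ℝ} (hm : 27 ≤ m) (hz : 49 / 100 ≤ z) (hs : 0 < s)
    (hsz : s ^ 2 = 1 - z) (hu : 0 ≤ u) (hus : u * s ≤ 1) :
    (fxA s * u + fxB m z s * l) ^ 2 ≤ 4 / 5 * (dpR m (z / s ^ 2) *
      (fxq m s / 8 * l ^ 2 + 1 / 5 * (u ^ 2 / (1 + u) / s))) := by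
  have hs1 := fxr_s_le hz hs hsz
  have hz' : z = 1 - s ^ 2 := by linarith only [hsz]
  have hz0 : 0 < z := by linarith only [hz]
  have hq30 := fxr_q30 hm hs hs1
  have hB := fxr_B1 hm hs hs1
  rw [← hz'] at hB
  have hq8 : 0 ≤ fxq m s / 8 * l ^ 2 := by
    have : 0 < fxq m s := by linarith only [hq30]
    (clear * - hq30; positivity)
  have hWs : u ^ 2 / (5 * (1 + s)) ≤ 1 / 5 * (u ^ 2 / (1 + u) / s) := by
    rw [div_div, ← mul_div_assoc, one_div, inv_mul_eq_div, div_div]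
    apply div_le_div_of_nonneg_left (sq_nonneg u) (by positivity)
    linarith only [hus]
  have h1 : (fxA s * u + fxB m z s * l) ^ 2 ≤ (5 * (1 + s) * fxA s ^ 2 + 8) *
      (u ^ 2 / (5 * (1 + s)) + fxq m s / 8 * l ^ 2) := by
    apply fxr_cs (by positivity) (by norm_num) (by (clear * - hs; positivity)) hq8
    · refine le_of_eq ?_
      (clear * - hs; field_simp)
    · have := mul_le_mul_of_nonneg_right hB (sq_nonneg l)
      rw [mul_pow, fxB]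
      linarith only [this]
  have h2 : 5 * (1 + s) * fxA s ^ 2 + 8 ≤ 4 / 5 * dpR m (z / s ^ 2) := by
    refine fxr_div hs ?_
    have e : (5 * (1 + s) * fxA s ^ 2 + 8) * s ^ 4 =
        5 * (1 + s) * s ^ 2 * (11 / 5 - 2 * s ^ 3) ^ 2 + 8 * s ^ 4 := by
      rw [fxA]
      field_simp
    rw [e]
    have h3 := fxr_tA hs.le hs1
    have h4 := fxr_rho1 hm hz0.le hs
    rw [← hz'] at h3
    linarith only [h3, h4]
  have h3 : (5 * (1 + s) * fxA s ^ 2 + 8) *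
      (u ^ 2 / (5 * (1 + s)) + fxq m s / 8 * l ^ 2) ≤ 4 / 5 * dpR m (z / s ^ 2) *
      (fxq m s / 8 * l ^ 2 + 1 / 5 * (u ^ 2 / (1 + u) / s)) := by
    apply mul_le_mul h2 (by linarith only [hWs]) (by (clear * - hs hq30; positivity))
    have := fxr_rho0 hm hz0.le hs
    positivity
  linarith only [h1, h3]

theorem fxr_pE {m z s l u c N : ℝ} (hm : 27 ≤ m) (hz : 49 / 100 ≤ z) (hs : 0 < s)
    (hsz : s ^ 2 = 1 - z) (hl : 0 < l) (hu : 0 ≤ u) (hus : u * s ≤ 1)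
    (hc1 : 1 - 1 / (2 * m) ≤ c) (hc2 : c ≤ 1) (hN : Real.log (1 + u) - u ≤ N) :
    -(z / s ^ 2 * l) ≤ dpE m z s l u c N := by
  have hs1 := fxr_s_le hz hs hsz
  have hs2 : s ^ 2 ≤ 25 / 49 := by linarith only [hz, hsz]
  refine le_trans ?_ (fxr_e_ge hm hz hs hsz hl hc1 hc2 hN)
  have h1 : 0 ≤ 4 * s ^ 2 * Real.exp (-(2 * l)) * (u ^ 2 / (1 + u)) := by (clear * - hs hu; positivity)
  have h2 : 0 ≤ 2 * (1 - c) * u := mul_nonneg (by linarith only [hc2]) hu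
  have h3 : 2 * s ^ 2 * u ≤ 2 * c / s * Real.log (1 + u) := by
    have h4 := Real.le_log_one_add_of_nonneg hu
    have h5 : 1 / (2 * m) ≤ 1 / 54 := by
      apply one_div_le_one_div_of_le (by norm_num)
      linarith only [hm]
    have h6 : 53 / 54 ≤ c := by linarith only [hc1, h5]
    have h7 : 53 / 27 / s * (2 * u / (u + 2)) ≤ 2 * c / s * Real.log (1 + u) := by
      apply mul_le_mul _ h4 (by (clear * - hu; positivity)) (by
        have : 0 ≤ c := by linarith only [hc1, h5]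
        positivity)
      apply div_le_div_of_nonneg_right _ hs.le
      linarith only [hc1, h5]
    refine le_trans ?_ h7
    rw [div_mul_div_comm, le_div_iff₀ (by positivity)]
    have h8 : s ^ 2 * s * (u + 2) ≤ 25 / 49 * (1 + 10 / 7) := by
      have h9 : s * (u + 2) ≤ 1 + 10 / 7 := by linarith only [hus, hs1]
      have : s ^ 2 * s * (u + 2) = s ^ 2 * (s * (u + 2)) := by ring
      rw [this]
      exact mul_le_mul hs2 h9 (by positivity) (by norm_num)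
    have h10 := mul_le_mul_of_nonneg_left h8 hu
    linarith only [h10, hu]
  linarith only [h1, h2, h3]

theorem fxr_yl {m z s l : ℝ} (hm : 27 ≤ m) (hz : 0 ≤ z) (hs : 0 < s) (hs1 : s ≤ 5 / 7)
    (hl71 : l ≤ 71 / 100 * s ^ 2) :
    z / s ^ 2 * l ≤ 1 / 10 * dpR m (z / s ^ 2) := by
  refine fxr_div hs ?_
  have hρ1 := fxr_rho1 hm hz hs
  have hs2 : s ^ 2 ≤ 25 / 49 := by nlinarith only [hs1, hs]
  have h1 : z / s ^ 2 * l * s ^ 4 = z * s ^ 2 * l := by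
    (clear * - hs; field_simp)
  rw [h1]
  have h2 : z * s ^ 2 * l ≤ z * s ^ 2 * (71 / 100 * s ^ 2) :=
    mul_le_mul_of_nonneg_left hl71 (by positivity)
  have h3 : z * s ^ 2 * (71 / 100 * s ^ 2) ≤ 135 * z * s ^ 2 / 100 := by
    have h4 : 0 ≤ z * s ^ 2 := by positivity
    have h5 := mul_le_mul_of_nonneg_left hs2 h4
    linarith only [h5, h4]
  have : 0 ≤ 2 * s ^ 4 + 675 * z ^ 2 := by positivity
  linarith only [this, h2, h3, hρ1]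

theorem fxr_yl2 {m z s l w : ℝ} (hm : 27 ≤ m) (hz : 0 ≤ z) (hs : 0 < s) (hs1 : s ≤ 5 / 7)
    (hw : 0 ≤ w) :
    (z / s ^ 2 * l) ^ 2 ≤ 4 / 5 * (dpR m (z / s ^ 2) * (fxq m s / 8 * l ^ 2 + w)) := by
  have hρ1 := fxr_rho1 hm hz hs
  have hρ0 := fxr_rho0 hm hz hs
  have hq30 := fxr_q30 hm hs hs1
  have h1 : 675 / 10 * (z / s ^ 2) ^ 2 ≤ dpR m (z / s ^ 2) := by
    refine fxr_div hs ?_
    have e : 675 / 10 * (z / s ^ 2) ^ 2 * s ^ 4 = 675 / 10 * z ^ 2 := by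
      field_simp
    rw [e]
    have : 0 ≤ 2 * s ^ 4 + 135 * z * s ^ 2 := by (clear * - hs hz; positivity)
    linarith only [this, hρ1]
  have h2 : 30 / 8 * l ^ 2 ≤ fxq m s / 8 * l ^ 2 + w := by
    have h3 : 30 / 8 * l ^ 2 ≤ fxq m s / 8 * l ^ 2 :=
      mul_le_mul_of_nonneg_right (by linarith only [hq30]) (sq_nonneg l)
    linarith only [h3, hw]
  have h3 := mul_le_mul h1 h2 (by (clear * -; positivity)) hρ0.le
  have h4 : 0 ≤ (z / s ^ 2) ^ 2 * l ^ 2 := by (clear * -; positivity)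
  rw [mul_pow]
  linarith only [h4, h3]

/-- `u ≥ 0` -/
theorem fxr_pos {m z s l u c G N x : ℝ} (hm : 27 ≤ m) (hz : 49 / 100 ≤ z) (hs : 0 < s)
    (hsz : s ^ 2 = 1 - z) (hl : 0 < l) (hl1 : l ≤ 2 / 5)
    (hU : l ≤ s ^ 2 * (1 / 2 + 79 / 200 * s ^ 2)) (hτ : z * Real.exp (2 * l) ≤ 1)
    (hu : 0 ≤ u) (hus : u * s ≤ 1) (hx : 0 < x) (hxz : x ^ 2 = z)
    (htail : (1 + u) * (x * Real.exp l) ≤ (1 - x * Real.exp l) * ((m + 2) * (z / s ^ 2) + 1))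
    (hc1 : 1 - 1 / (2 * m) ≤ c) (hc2 : c ≤ 1)
    (hN : Real.log (1 + u) - u ≤ N) (hG : -(5 * (z / s ^ 3) * l ^ 2) ≤ G) :
    JTest (dpT m z s l u G N) (dpE m z s l u c N) (dpR m (z / s ^ 2)) u := by
  have hs1 := fxr_s_le hz hs hsz
  have hz0 : 0 < z := by linarith only [hz]
  have hT := fxr_Tpos hm hz hs hsz hl hl1 hU hu hus hx hxz htail hN hG
  have heT := fxr_eT (c := c) hm hz hs hsz hl hl1 hU hτ (by linarith only [hu]) hc2 hN hG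
  have hl71 := fxr_l71 hs hs1 hU
  have hW0 : 0 ≤ u ^ 2 / (1 + u) := by (clear * - hu; positivity)
  have hWs0 : 0 ≤ 1 / 5 * (u ^ 2 / (1 + u) / s) := by (clear * - hu hs; positivity)
  have hq8 : 0 < fxq m s / 8 * l ^ 2 := by
    have : 0 < fxq m s := fxr_q_pos hm hs hs1
    positivity
  have hT0 : 0 < fxq m s / 8 * l ^ 2 + 1 / 5 * (u ^ 2 / (1 + u) / s) := by
    linarith only [hWs0, hq8]
  have hA0 := fxA_nn hs hs1
  have hB0 := fxB_nn hm hz0.le hs hs1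
  exact JTest.of_theta (T0 := fxq m s / 8 * l ^ 2 + 1 / 5 * (u ^ 2 / (1 + u) / s))
    (P := fxA s * u + fxB m z s * l) (E := z / s ^ 2 * l) (θ := 1 / 10) (θ1 := 4 / 5) hT hT0.le
    (fun _ => hT0) (fxr_rho0 hm hz0.le hs) (by norm_num) (by norm_num)
    (heT.trans (fxr_pP hm hz0 hs hs1 hl hu hus hc1 hc2)) (by (clear * - hA0 hu hB0 hl; positivity))
    (fxr_pPr hm hz hs hsz hl71 hus) (fxr_pP2 hm hz hs hsz hu hus)
    (fxr_pE hm hz hs hsz hl hu hus hc1 hc2 hN) (by positivity)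
    (fxr_yl hm hz0.le hs hs1 hl71) (fxr_yl2 hm hz0.le hs hs1 hWs0)

end Vale.Agent.P237.AllN
end

section

/-!
# P237, block D, `x ≥ 7/10`, `l > 0`: `u ≤ 0` and the region theorem
-/

namespace Vale.Agent.P237.AllN

open PolyPos

/-- `R₀ - 54(1-s)s² - 71/5 s⁵(1-s)`, `R₀ = 2s⁴+135zs²+675z²` over 10 -/
private def chF : Ex :=
  fxk 1 9 * (fxk 2 0 * (Ex.X * Ex.X * (Ex.X * Ex.X)) + fxk 135 0 * (fxZ * (Ex.X * Ex.X)) +
    fxk 675 0 * (fxZ * fxZ)) -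
  fxk 54 0 * ((fxk 1 0 - Ex.X) * (Ex.X * Ex.X)) -
  fxk 71 4 * (Ex.X * Ex.X * (Ex.X * Ex.X) * Ex.X * (fxk 1 0 - Ex.X))

private theorem chkF : Ex.nn (2 ^ 512) 60 4000 0 5 7 0 1 1 chF = true := by
  decide +kernel

theorem fxr_tF {s : ℝ} (hs : 0 ≤ s) (hs1 : s ≤ 5 / 7) :
    54 * ((1 - s) * s ^ 2) + 71 / 5 * (s ^ 5 * (1 - s)) ≤
      (2 * s ^ 4 + 135 * (1 - s ^ 2) * s ^ 2 + 675 * (1 - s ^ 2) ^ 2) / 10 := by
  have h := Ex.nn_closed (x := s) (y := 0) (by norm_num) (by norm_num) (by norm_num)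
    (by norm_num) chkF (by push_cast; linarith only [hs]) (by push_cast; linarith only [hs1]) (by norm_num)
    (by norm_num)
  simp only [chF, fxk, fxZ, Ex.R_add, Ex.R_sub, Ex.R_mul, Ex.R_c, Ex.R_X, Fr.R] at h
  push_cast at h
  linarith only [h]

/-- `2/s - 2` squared is at most `q` -/
theorem fxr_b2 {m s : ℝ} (hm : 27 ≤ m) (hs : 0 < s) (hs1 : s ≤ 5 / 7) :
    (2 / s - 2) ^ 2 ≤ fxq m s := by
  have hi := fxr_is hs hs1
  have h1 : 0 ≤ 2 / s - 2 := by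
    have : 2 / s = 2 * (1 / s) := by ring
    linarith only [hi, this]
  have hs2 : s ^ 2 ≤ 25 / 49 := by nlinarith only [hs1, hs]
  have h2 : 0 ≤ 6 / 25 * (m + 3) * ((1 - s ^ 2) / s) := by
    have : 0 ≤ m + 3 := by linarith only [hm]
    have : 0 ≤ 1 - s ^ 2 := by linarith only [hs2]
    positivity
  have h3 : (2 / s - 2) ^ 2 ≤ (2 / s - 2 + 6 / 25 * (m + 3) * ((1 - s ^ 2) / s)) ^ 2 :=
    pow_le_pow_left₀ h1 (by linarith only [h2]) 2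
  exact h3.trans (fxr_B1 hm hs hs1)

/-- `8 y² ≤ q` -/
theorem fxr_y2q {m z s : ℝ} (hm : 27 ≤ m) (hs : 0 < s) (hs1 : s ≤ 5 / 7) (hsz : s ^ 2 = 1 - z) :
    8 * (z / s ^ 2) ^ 2 ≤ fxq m s := by
  refine le_trans ?_ (fxr_q0 hm hs hs1)
  have hs2 : s ^ 2 ≤ 25 / 49 := by nlinarith only [hs1, hs]
  rw [show 1 - s ^ 2 = z by linarith only [hsz], div_pow, ← mul_div_assoc,
    div_le_div_iff₀ (by positivity) (by positivity)]
  have h1 : 8 * s ≤ 72 - 82 * s ^ 2 := by linarith only [hs1, hs2]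
  have h2 := mul_le_mul_of_nonneg_right h1 (by positivity : 0 ≤ z ^ 2 * s ^ 4)
  linarith only [h2]

/-- `-log(1+u) ≤ m (1/s - 1)` -/
theorem fxr_Lm {m s u : ℝ} (hm : 27 ≤ m) (hs : 0 < s)
    (hlog : m * Real.log s ≤ Real.log (1 + u)) : -Real.log (1 + u) ≤ m * (1 / s - 1) := by
  have h1 := Real.one_sub_inv_le_log_of_pos hs
  rw [← one_div] at h1
  have h2 := mul_le_mul_of_nonneg_left h1 (by linarith : 0 ≤ m)
  linarith

theorem fxr_nP {m z s l u c : ℝ} (hm : 27 ≤ m) (hz : 0 < z) (hs : 0 < s) (hs1 : s ≤ 5 / 7)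
    (hl : 0 < l) (hu1 : 0 < 1 + u) (hu : u ≤ 0)
    (hc1 : 1 - 1 / (2 * m) ≤ c) (hc2 : c ≤ 1) :
    (2 * (m + 1) / (m - 1) - 2 * c) * ((u - Real.log (1 + u)) / s) +
      (2 * c / s - 2 * s ^ 2 + 2 * (1 - c)) * u +
      (2 * c / s - 2 + 2 * (1 - c) * (1 - m * (z / s ^ 2))) * l +
      6 / 25 * (m + 3) * z * (u * l) ≤
      1 / 5 * (-Real.log (1 + u) / s) + (2 / s - 2) * l := by
  have hy : 0 ≤ z / s ^ 2 := by positivity
  have h1 := fxr_kc hm hc1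
  have h2 := fxr_kc0 hm hc2
  have h3 : (u - Real.log (1 + u)) / s ≤ -Real.log (1 + u) / s := by
    apply div_le_div_of_nonneg_right _ hs.le
    (clear * - hu; linarith)
  have h4 : (2 * (m + 1) / (m - 1) - 2 * c) * ((u - Real.log (1 + u)) / s) ≤
      1 / 5 * (-Real.log (1 + u) / s) :=
    mul_le_mul h1 h3 (div_nonneg (fxr_phi_nonneg hu1) hs.le) (by norm_num)
  have h5 : (2 * c / s - 2 * s ^ 2 + 2 * (1 - c)) * u ≤ 0 :=
    mul_nonpos_of_nonneg_of_nonpos (fxr_cu hm hs hs1 hc1 hc2).1 hu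
  have h6 := mul_le_mul_of_nonneg_right (fxr_rr hm hs hs1 hy hc1 hc2).2 hl.le
  have h7 : 6 / 25 * (m + 3) * z * (u * l) ≤ 0 := by
    apply mul_nonpos_of_nonneg_of_nonpos
    · have : 0 ≤ m + 3 := by linarith only [hm]
      positivity
    · exact mul_nonpos_of_nonpos_of_nonneg hu hl.le
  linarith only [h4, h5, h6, h7]

theorem fxr_nPr {m z s l L : ℝ} (hm : 27 ≤ m) (hz : 49 / 100 ≤ z) (hs : 0 < s)
    (hsz : s ^ 2 = 1 - z) (hl71 : l ≤ 71 / 100 * s ^ 2) (hL : L ≤ m * (1 / s - 1)) :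
    1 / 5 * (L / s) + (2 / s - 2) * l ≤ 1 / 10 * dpR m (z / s ^ 2) := by
  have hs1 := fxr_s_le hz hs hsz
  have hz' : z = 1 - s ^ 2 := by linarith only [hsz]
  have hz0 : 0 < z := by linarith only [hz]
  have hρS := fxr_rhoS (m := m) (z := z) hs
  have hm27 : 0 ≤ m - 27 := by linarith only [hm]
  have hi := fxr_is hs hs1
  have h0 : 0 ≤ 2 / s - 2 := by
    have : 2 / s = 2 * (1 / s) := by ring
    linarith only [hi, this]
  have h1 : L / s ≤ m * (1 / s - 1) / s := div_le_div_of_nonneg_right hL hs.le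
  have h2 : (2 / s - 2) * l ≤ (2 / s - 2) * (71 / 100 * s ^ 2) :=
    mul_le_mul_of_nonneg_left hl71 h0
  have h3 : 1 / 5 * (L / s) + (2 / s - 2) * l ≤ 1 / 5 * (m * (1 / s - 1) / s) +
      (2 / s - 2) * (71 / 100 * s ^ 2) := by linarith only [h1, h2]
  refine h3.trans (fxr_div hs ?_)
  have e : (1 / 5 * (m * (1 / s - 1) / s) + (2 / s - 2) * (71 / 100 * s ^ 2)) * s ^ 4 =
      (27 / 5 * ((1 - s) * s ^ 2) + 71 / 50 * (s ^ 5 * (1 - s))) +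
      (m - 27) * (1 / 5 * ((1 - s) * s ^ 2)) := by
    field_simp
    ring
  rw [e]
  have h4 := fxr_tF hs.le hs1
  rw [← hz'] at h4
  have h5 : (m - 27) * (1 / 5 * ((1 - s) * s ^ 2)) ≤
      (m - 27) * ((5 * z * s ^ 2 + 52 * z ^ 2) / 100) := by
    apply mul_le_mul_of_nonneg_left _ hm27
    have h6 : (1 - s) * s ^ 2 ≤ z * (25 / 49) := by
      have h7 : 1 - s ≤ z := by nlinarith only [hs, hsz, hs1]
      have h8 : s ^ 2 ≤ 25 / 49 := by linarith only [hsz, hz]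
      exact mul_le_mul h7 h8 (sq_nonneg s) hz0.le
    have h9 : 49 / 100 * z ≤ z ^ 2 := by nlinarith only [hz]
    have h10 : 0 ≤ z * s ^ 2 := by positivity
    linarith only [h6, h9, h10, hz0]
  linarith only [h4, h5, hρS]

theorem fxr_nP2 {m z s l W L : ℝ} (hm : 27 ≤ m) (hz : 49 / 100 ≤ z) (hs : 0 < s)
    (hsz : s ^ 2 = 1 - z) (hL : L ^ 2 ≤ W) :
    (1 / 5 * (L / s) + (2 / s - 2) * l) ^ 2 ≤ 4 / 5 * (dpR m (z / s ^ 2) *
      (fxq m s / 8 * l ^ 2 + 1 / 9 * (W / s))) := by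
  have hs1 := fxr_s_le hz hs hsz
  have hz' : z = 1 - s ^ 2 := by linarith only [hsz]
  have hz0 : 0 < z := by linarith only [hz]
  have hW0 : 0 ≤ W := (sq_nonneg L).trans hL
  have hq8 : 0 ≤ fxq m s / 8 * l ^ 2 := by
    have := fxr_q_pos hm hs hs1
    (clear * - this; positivity)
  have h1 : (1 / 5 * (L / s) + (2 / s - 2) * l) ^ 2 ≤ (9 / (25 * s) + 8) *
      (1 / 9 * (W / s) + fxq m s / 8 * l ^ 2) := by
    apply fxr_cs (by positivity) (by norm_num) (by positivity) hq8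
    · have e : 9 / (25 * s) * (1 / 9 * (W / s)) = W * (1 / (25 * s ^ 2)) := by
        (clear * - hs; field_simp)
      have e2 : (1 / 5 * (L / s)) ^ 2 = L ^ 2 * (1 / (25 * s ^ 2)) := by
        field_simp
        ring
      rw [e, e2]
      exact mul_le_mul_of_nonneg_right hL (by positivity)
    · have := mul_le_mul_of_nonneg_right (fxr_b2 hm hs hs1) (sq_nonneg l)
      rw [mul_pow]
      linarith only [this]
  have h2 : 9 / (25 * s) + 8 ≤ 4 / 5 * dpR m (z / s ^ 2) := by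
    refine fxr_div hs ?_
    have e : (9 / (25 * s) + 8) * s ^ 4 = 9 / 25 * s ^ 3 + 8 * s ^ 4 := by
      (clear * - hs; field_simp)
    rw [e]
    have h3 := fxr_tC hs.le hs1
    have h4 := fxr_rho1 hm hz0.le hs
    rw [← hz'] at h3
    have h5 : 0 ≤ s ^ 3 := by positivity
    have h6 : s ^ 4 ≤ 5 / 7 * s ^ 3 := by
      have := mul_le_mul_of_nonneg_right hs1 h5
      linarith only [this]
    linarith only [h3, h4, h5, h6]
  have h3 : (9 / (25 * s) + 8) * (1 / 9 * (W / s) + fxq m s / 8 * l ^ 2) ≤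
      4 / 5 * dpR m (z / s ^ 2) * (fxq m s / 8 * l ^ 2 + 1 / 9 * (W / s)) := by
    apply mul_le_mul h2 (by linarith only []) (by (clear * - hW0 hs hq8; positivity))
    have := fxr_rho0 hm hz0.le hs
    positivity
  linarith only [h1, h3]

/-- the two lower bounds of `e` for `u ≤ 0` -/
theorem fxr_nE {m z s l u c N : ℝ} (hm : 27 ≤ m) (hz : 49 / 100 ≤ z) (hs : 0 < s)
    (hsz : s ^ 2 = 1 - z) (hl : 0 < l) (hτ : z * Real.exp (2 * l) ≤ 1)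
    (hu1 : 0 < 1 + u) (hu : u ≤ 0)
    (hc1 : 1 - 1 / (2 * m) ≤ c) (hc2 : c ≤ 1) (hN : Real.log (1 + u) - u ≤ N) :
    -(min (41 / 20 * (-Real.log (1 + u) / s)) (2627 / 10000 / (s ^ 4 * z)) + z / s ^ 2 * l) ≤
      dpE m z s l u c N := by
  have hs1 := fxr_s_le hz hs hsz
  have hz0 : 0 < z := by linarith only [hz]
  refine le_trans ?_ (fxr_e_ge hm hz hs hsz hl hc1 hc2 hN)
  obtain ⟨L, hL⟩ : ∃ L : ℝ, L = -Real.log (1 + u) := ⟨_, rfl⟩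
  have hlu := Real.log_le_sub_one_of_pos hu1
  have hLu : -u ≤ L := by linarith only [hL, hlu]
  have hL0 : 0 ≤ L := by linarith only [hu, hL, hlu]
  have hL2 : L ^ 2 ≤ u ^ 2 / (1 + u) := by
    rw [hL, neg_sq]
    exact fxr_logsq hu1 hu
  have hlog : Real.log (1 + u) = -L := by rw [hL]; ring
  rw [← hL, hlog]
  have he : z ≤ Real.exp (-(2 * l)) := by
    rw [Real.exp_neg, ← one_div, le_div_iff₀ (Real.exp_pos _)]
    exact hτ
  have h1 : 4 * s ^ 2 * z * L ^ 2 ≤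
      4 * s ^ 2 * Real.exp (-(2 * l)) * (u ^ 2 / (1 + u)) := by
    apply mul_le_mul _ hL2 (sq_nonneg L) (by positivity)
    exact mul_le_mul_of_nonneg_left he (by positivity)
  have h2 : 1 / (2 * m) ≤ 1 / 54 := by
    apply one_div_le_one_div_of_le (by norm_num)
    linarith only [hm]
  have h3 : -(1 / 27 * L) ≤ 2 * (1 - c) * u := by
    have h4 : 2 * (1 - c) * (-u) ≤ 1 / 27 * L :=
      mul_le_mul (by linarith only [hc1, h2]) hLu (by linarith only [hu]) (by norm_num)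
    (clear * - h4; linarith)
  have h5 : 0 ≤ -(2 * s ^ 2 * u) := by
    have : 0 ≤ 2 * s ^ 2 * (-u) := mul_nonneg (by positivity) (by linarith only [hu])
    linarith only [this]
  have h6 : 2 * c / s * L ≤ 2 / s * L := by
    apply mul_le_mul_of_nonneg_right _ hL0
    apply div_le_div_of_nonneg_right _ hs.le
    linarith only [hc2]
  have h7 : 2 / s * L + 1 / 27 * L ≤ 41 / 20 * (L / s) := by
    have hi := fxr_is hs hs1
    have e : 41 / 20 * (L / s) - (2 / s * L + 1 / 27 * L) = L * (1 / 20 * (1 / s) - 1 / 27) := by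
      ring
    have : 0 ≤ L * (1 / 20 * (1 / s) - 1 / 27) := mul_nonneg hL0 (by linarith only [hi])
    linarith only [e, this]
  -- lower bound
  have h8 : 4 * s ^ 2 * z * L ^ 2 - 41 / 20 * (L / s) - z / s ^ 2 * l ≤
      4 * s ^ 2 * Real.exp (-(2 * l)) * (u ^ 2 / (1 + u)) + 2 * c / s * -L -
      2 * s ^ 2 * u + 2 * (1 - c) * u - z / s ^ 2 * l := by
    linarith only [h1, h3, h5, h6, h7]
  refine le_trans ?_ h8
  rcases min_choice (41 / 20 * (L / s)) (2627 / 10000 / (s ^ 4 * z)) with h | h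
  · rw [h]
    have : 0 ≤ 4 * s ^ 2 * z * L ^ 2 := by (clear * - hs hz; positivity)
    linarith only [this]
  · rw [h]
    have h9 : 0 ≤ 4 * s ^ 2 * z * L ^ 2 - 41 / 20 * (L / s) + 2627 / 10000 / (s ^ 4 * z) := by
      have e : 4 * s ^ 2 * z * L ^ 2 - 41 / 20 * (L / s) + 2627 / 10000 / (s ^ 4 * z) =
          ((2 * s ^ 3 * z * L - 41 / 80) ^ 2 + (2627 / 10000 - 1681 / 6400)) / (s ^ 4 * z) := by
        field_simp
        ring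
      rw [e]
      have : (0 : ℝ) ≤ 2627 / 10000 - 1681 / 6400 := by norm_num
      (clear * - hs hz; positivity)
    linarith only [h9]

theorem fxr_nEr {m z s l : ℝ} (hm : 27 ≤ m) (hz : 49 / 100 ≤ z) (hs : 0 < s)
    (hsz : s ^ 2 = 1 - z) (hl71 : l ≤ 71 / 100 * s ^ 2) :
    2627 / 10000 / (s ^ 4 * z) + z / s ^ 2 * l ≤ 1 / 10 * dpR m (z / s ^ 2) := by
  have hs1 := fxr_s_le hz hs hsz
  have hz0 : 0 < z := by linarith
  refine fxr_div hs ?_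
  have hρ1 := fxr_rho1 hm hz0.le hs
  have hs2 : s ^ 2 ≤ 25 / 49 := by linarith only [hsz, hz]
  have h1 : (2627 / 10000 / (s ^ 4 * z) + z / s ^ 2 * l) * s ^ 4 =
      2627 / 10000 / z + z * s ^ 2 * l := by
    (clear * - hs hz; field_simp)
  rw [h1]
  have h2 : z * s ^ 2 * l ≤ z * s ^ 2 * (71 / 100 * s ^ 2) :=
    mul_le_mul_of_nonneg_left hl71 (by positivity)
  have h3 : z * s ^ 2 * (71 / 100 * s ^ 2) ≤ 135 * z * s ^ 2 / 100 := by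
    have h4 : 0 ≤ z * s ^ 2 := by positivity
    have h5 := mul_le_mul_of_nonneg_left hs2 h4
    linarith only [h4, h5]
  have h4 : 2627 / 10000 / z ≤ 675 * z ^ 2 / 100 := by
    rw [div_le_iff₀ hz0]
    have h5 : (49 / 100) ^ 3 ≤ z ^ 3 := pow_le_pow_left₀ (by norm_num) hz 3
    have e : 675 * z ^ 2 / 100 * z = 675 / 100 * z ^ 3 := by ring
    rw [e]
    have h6 : (2627 / 10000 : ℝ) ≤ 675 / 100 * (49 / 100) ^ 3 := by norm_num
    linarith only [h5]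
  have : 0 ≤ 2 * s ^ 4 := by positivity
  linarith only [this, h2, h3, h4, hρ1]

theorem fxr_nE2 {m z s l W L : ℝ} (hm : 27 ≤ m) (hz : 49 / 100 ≤ z) (hs : 0 < s)
    (hsz : s ^ 2 = 1 - z) (hL : L ^ 2 ≤ W) :
    (41 / 20 * (L / s) + z / s ^ 2 * l) ^ 2 ≤ 4 / 5 * (dpR m (z / s ^ 2) *
      (fxq m s / 8 * l ^ 2 + 1 / 9 * (W / s))) := by
  have hs1 := fxr_s_le hz hs hsz
  have hz' : z = 1 - s ^ 2 := by linarith only [hsz]
  have hz0 : 0 < z := by linarith only [hz]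
  have hW0 : 0 ≤ W := (sq_nonneg L).trans hL
  have hq8 : 0 ≤ fxq m s / 8 * l ^ 2 := by
    have := fxr_q_pos hm hs hs1
    (clear * - this; positivity)
  have h1 : (41 / 20 * (L / s) + z / s ^ 2 * l) ^ 2 ≤ (38 / s + 1) *
      (1 / 9 * (W / s) + fxq m s / 8 * l ^ 2) := by
    apply fxr_cs (by positivity) (by norm_num) (by positivity) hq8
    · have e : 38 / s * (1 / 9 * (W / s)) = W * (38 / (9 * s ^ 2)) := by
        field_simp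
      have e2 : (41 / 20 * (L / s)) ^ 2 = L ^ 2 * (1681 / 400 / s ^ 2) := by
        field_simp
        ring
      rw [e, e2]
      apply mul_le_mul hL _ (by positivity) hW0
      rw [div_div, div_le_div_iff₀ (by positivity) (by positivity)]
      have : 0 < s ^ 2 := by positivity
      linarith only [this]
    · have := mul_le_mul_of_nonneg_right (fxr_y2q hm hs hs1 hsz) (sq_nonneg l)
      rw [mul_pow]
      linarith only [this]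
  have h2 : 38 / s + 1 ≤ 4 / 5 * dpR m (z / s ^ 2) := by
    refine fxr_div hs ?_
    have e : (38 / s + 1) * s ^ 4 = 38 * s ^ 3 + s ^ 4 := by
      field_simp
    rw [e]
    have h3 := fxr_tC hs.le hs1
    have h4 := fxr_rho1 hm hz0.le hs
    rw [← hz'] at h3
    linarith only [h3, h4]
  have h3 : (38 / s + 1) * (1 / 9 * (W / s) + fxq m s / 8 * l ^ 2) ≤
      4 / 5 * dpR m (z / s ^ 2) * (fxq m s / 8 * l ^ 2 + 1 / 9 * (W / s)) := by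
    apply mul_le_mul h2 (by linarith only []) (by (clear * - hW0 hs hq8; positivity))
    have := fxr_rho0 hm hz0.le hs
    positivity
  linarith only [h1, h3]

/-- `u ≤ 0` -/
theorem fxr_neg {m z s l u c G N : ℝ} (hm : 27 ≤ m) (hz : 49 / 100 ≤ z) (hs : 0 < s)
    (hsz : s ^ 2 = 1 - z) (hl : 0 < l) (hl1 : l ≤ 2 / 5)
    (hU : l ≤ s ^ 2 * (1 / 2 + 79 / 200 * s ^ 2)) (hτ : z * Real.exp (2 * l) ≤ 1)
    (hu1 : 0 < 1 + u) (hu : u ≤ 0) (hlog : m * Real.log s ≤ Real.log (1 + u))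
    (hc1 : 1 - 1 / (2 * m) ≤ c) (hc2 : c ≤ 1)
    (hN : Real.log (1 + u) - u ≤ N) (hG : -(5 * (z / s ^ 3) * l ^ 2) ≤ G) :
    JTest (dpT m z s l u G N) (dpE m z s l u c N) (dpR m (z / s ^ 2)) u := by
  have hs1 := fxr_s_le hz hs hsz
  have hz0 : 0 < z := by linarith only [hz]
  have hT := fxr_Tneg hm hz hs hsz hl hl1 hU hτ hu1 hu hN hG
  have heT := fxr_eT (c := c) hm hz hs hsz hl hl1 hU hτ hu1 hc2 hN hG
  have hl71 := fxr_l71 hs hs1 hU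
  have hW0 : 0 ≤ u ^ 2 / (1 + u) := by (clear * - hu1; positivity)
  have hWs0 : 0 ≤ 1 / 9 * (u ^ 2 / (1 + u) / s) := by (clear * - hu1 hs; positivity)
  have hq8 : 0 < fxq m s / 8 * l ^ 2 := by
    have : 0 < fxq m s := fxr_q_pos hm hs hs1
    positivity
  have hT0 : 0 < fxq m s / 8 * l ^ 2 + 1 / 9 * (u ^ 2 / (1 + u) / s) := by
    linarith only [hWs0, hq8]
  obtain ⟨L, hL⟩ : ∃ L : ℝ, L = -Real.log (1 + u) := ⟨_, rfl⟩
  have hL0 : 0 ≤ L := by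
    have hlu := Real.log_le_sub_one_of_pos hu1
    linarith only [hu, hL, hlu]
  have hL2 : L ^ 2 ≤ u ^ 2 / (1 + u) := by
    rw [hL, neg_sq]
    exact fxr_logsq hu1 hu
  have hLm : L ≤ m * (1 / s - 1) := hL ▸ fxr_Lm hm hs hlog
  have hP := heT.trans (fxr_nP hm hz0 hs hs1 hl hu1 hu hc1 hc2)
  have hE := fxr_nE hm hz hs hsz hl hτ hu1 hu hc1 hc2 hN
  rw [← hL] at hP hE
  have h2s : 0 ≤ 2 / s - 2 := by
    have hi := fxr_is hs hs1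
    have : 2 / s = 2 * (1 / s) := by ring
    linarith only [hi, this]
  have hm1 : min (41 / 20 * (L / s)) (2627 / 10000 / (s ^ 4 * z)) ≤ 41 / 20 * (L / s) :=
    min_le_left _ _
  have hm2 : min (41 / 20 * (L / s)) (2627 / 10000 / (s ^ 4 * z)) ≤
    2627 / 10000 / (s ^ 4 * z) := min_le_right _ _
  have hm0 : 0 ≤ min (41 / 20 * (L / s)) (2627 / 10000 / (s ^ 4 * z)) :=
    le_min (by (clear * - hL0 hs; positivity)) (by positivity)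
  have hyl : 0 ≤ z / s ^ 2 * l := by positivity
  refine JTest.of_theta (T0 := fxq m s / 8 * l ^ 2 + 1 / 9 * (u ^ 2 / (1 + u) / s))
    (P := 1 / 5 * (L / s) + (2 / s - 2) * l)
    (E := min (41 / 20 * (L / s)) (2627 / 10000 / (s ^ 4 * z)) + z / s ^ 2 * l)
    (θ := 1 / 10) (θ1 := 4 / 5) hT hT0.le
    (fun _ => hT0) (fxr_rho0 hm hz0.le hs) (by norm_num) (by norm_num)
    hP ?_ (fxr_nPr hm hz hs hsz hl71 hLm) (fxr_nP2 hm hz hs hsz hL2) hE ?_ ?_ ?_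
  · (clear * - hL0 hs h2s hl; positivity)
  · exact add_nonneg hm0 hyl
  · refine le_trans ?_ (fxr_nEr hm hz hs hsz hl71)
    linarith only [hm2]
  · refine le_trans ?_ (fxr_nE2 hm hz hs hsz hL2)
    exact pow_le_pow_left₀ (add_nonneg hm0 hyl) (by linarith only [hm1]) 2

/-- **the region `x ≥ 7/10`, `l > 0`** -/
theorem fxr_region {m z s l u c G N x : ℝ} (hm : 27 ≤ m) (hz : 49 / 100 ≤ z) (hs : 0 < s)
    (hsz : s ^ 2 = 1 - z) (hl : 0 < l) (hτ : z * Real.exp (2 * l) ≤ 1)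
    (hu1 : 0 < 1 + u) (hus : u * s ≤ 1) (hlog : m * Real.log s ≤ Real.log (1 + u))
    (hx : 0 < x) (hxz : x ^ 2 = z)
    (htail : (1 + u) * (x * Real.exp l) ≤ (1 - x * Real.exp l) * ((m + 2) * (z / s ^ 2) + 1))
    (hc1 : 1 - 1 / (2 * m) ≤ c) (hc2 : c ≤ 1)
    (hN : Real.log (1 + u) - u ≤ N) (hG : -(5 * (z / s ^ 3) * l ^ 2) ≤ G) :
    JTest (dpT m z s l u G N) (dpE m z s l u c N) (dpR m (z / s ^ 2)) u := by
  have hs1 := fxr_s_le hz hs hsz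
  have hU := fxr_lam1 hz hsz hτ
  have hl1 : l ≤ 2 / 5 := by
    have h1 := fxr_l71 hs hs1 hU
    have h2 : s ^ 2 ≤ 25 / 49 := by linarith only [hsz, hz]
    linarith only [hz, hsz, h1]
  rcases le_total 0 u with hu | hu
  · exact fxr_pos hm hz hs hsz hl hl1 hU hτ hu hus hx hxz htail hc1 hc2 hN hG
  · exact fxr_neg hm hz hs hsz hl hl1 hU hτ hu1 hu hlog hc1 hc2 hN hG

end Vale.Agent.P237.AllN
end

section

/-!
# P237, block D, `X ≥ 3`, `u ≤ 0`: polynomial expressions for the lower bound of `T(l, 0)`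

Variables `X = θ = z e^{2l}`, `Y = E = e^{-2l}`, `z = θ E`.
-/

namespace Vale.Agent.P237.AllN

open PolyPos

/-- `z = θ E` -/
def xsZ : Ex := Ex.X * Ex.Y

def xsD : Ex := Ex.c ⟨1, 0⟩ - Ex.Y

def xsS2 : Ex := Ex.c ⟨1, 0⟩ - xsZ

def xsE2 : Ex := Ex.Y * Ex.Y

def xsE3 : Ex := xsE2 * Ex.Y

def xsE4 : Ex := xsE3 * Ex.Y

def xsE5 : Ex := xsE4 * Ex.Y

def xsE6 : Ex := xsE5 * Ex.Y

def xsZ2 : Ex := xsZ * xsZ

def xsZ3 : Ex := xsZ2 * xsZ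

def xsZ4 : Ex := xsZ3 * xsZ

def xsZ5 : Ex := xsZ4 * xsZ

def xsT2 : Ex := Ex.X * Ex.X

def xsT3 : Ex := xsT2 * Ex.X

def xsT4 : Ex := xsT3 * Ex.X

def xsT5 : Ex := xsT4 * Ex.X

def xsQd : Ex := Ex.c ⟨3, 0⟩ * (Ex.c ⟨1, 0⟩ + Ex.Y) * (Ex.c ⟨1, 0⟩ + Ex.c ⟨8, 0⟩ * Ex.Y + xsE2)

def xsNn : Ex := Ex.c ⟨11, 0⟩ + Ex.c ⟨38, 0⟩ * Ex.Y + Ex.c ⟨11, 0⟩ * xsE2

def xsP43 : Ex := Ex.c ⟨4, 0⟩ - Ex.c ⟨3, 0⟩ * xsZ

def xsP41 : Ex := Ex.c ⟨4, 0⟩ - xsZ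

def xsR16 : Ex := Ex.c ⟨16, 0⟩ - Ex.c ⟨12, 0⟩ * xsZ + xsZ2

def xsB3 : Ex := Ex.c ⟨4, 0⟩ - Ex.c ⟨2, 0⟩ * xsZ - Ex.c ⟨3, 0⟩ * Ex.X + xsZ * Ex.X

def xsRB : Ex := xsR16 * xsB3

def xsQ2 : Ex := xsQd * xsQd

def xsDN : Ex := xsD * xsNn

def xsDNQ : Ex := xsDN * xsQd

def xsDN2 : Ex := xsDN * xsDN

def xsDn1s : Ex := xsP43 * xsS2 * xsRB

def xsDn1 : Ex := xsDn1s * xsS2

def xsKA2 : Ex := Ex.Y * (Ex.c ⟨9, 15⟩ * xsZ * (xsE2 - Ex.c ⟨1, 0⟩))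

def xsKB2 : Ex := Ex.c ⟨3, 15⟩ * (Ex.X - Ex.Y * xsZ)

def xsKC2 : Ex := Ex.Y * (Ex.c ⟨3, 3⟩ * xsZ)

def xsKA3 : Ex := Ex.Y * (Ex.c ⟨25, 47⟩ * xsZ2 * (xsE3 - Ex.c ⟨1, 0⟩))

def xsKB3 : Ex := Ex.c ⟨5, 47⟩ * (xsT2 - Ex.Y * xsZ2)

def xsKC3 : Ex := Ex.Y * (Ex.c ⟨5, 7⟩ * xsZ2)

def xsKA4 : Ex := Ex.Y * (Ex.c ⟨245, 511⟩ * xsZ3 * (xsE4 - Ex.c ⟨1, 0⟩))

def xsKB4 : Ex := Ex.c ⟨35, 511⟩ * (xsT3 - Ex.Y * xsZ3)

def xsKC4 : Ex := Ex.Y * (Ex.c ⟨35, 63⟩ * xsZ3)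

def xsKA5 : Ex := Ex.Y * (Ex.c ⟨567, 1279⟩ * xsZ4 * (xsE5 - Ex.c ⟨1, 0⟩))

def xsKB5 : Ex := Ex.c ⟨63, 1279⟩ * (xsT4 - Ex.Y * xsZ4)

def xsKC5 : Ex := Ex.Y * (Ex.c ⟨63, 127⟩ * xsZ4)

def xsKA6 : Ex := Ex.Y * (Ex.c ⟨847, 2047⟩ * xsZ5 * (xsE6 - Ex.c ⟨1, 0⟩))

def xsKB6 : Ex := Ex.c ⟨77, 2047⟩ * (xsT5 - Ex.Y * xsZ5)

def xsKC6 : Ex := Ex.Y * (Ex.c ⟨231, 511⟩ * xsZ5)

def xsF0wk : Ex := xsKA2 + xsKA3 + xsKA4 + xsKA5 + xsKA6 - (xsKB2 + xsKB3 + xsKB4 + xsKB5 + xsKB6)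

def xsF0ck : Ex := xsKA2 * (Ex.c ⟨5, 0⟩ * xsZ - Ex.c ⟨2, 0⟩) + xsKA3 * (Ex.c ⟨7, 0⟩ * xsZ - Ex.c ⟨4, 0⟩) + xsKA4 * (Ex.c ⟨9, 0⟩ * xsZ - Ex.c ⟨6, 0⟩) + xsKA5 * (Ex.c ⟨11, 0⟩ * xsZ - Ex.c ⟨8, 0⟩) + xsKA6 * (Ex.c ⟨13, 0⟩ * xsZ - Ex.c ⟨10, 0⟩) -
  (xsKB2 * (Ex.c ⟨5, 0⟩ * xsZ) + xsKB3 * (Ex.c ⟨7, 0⟩ * xsZ) + xsKB4 * (Ex.c ⟨9, 0⟩ * xsZ) + xsKB5 * (Ex.c ⟨11, 0⟩ * xsZ) + xsKB6 * (Ex.c ⟨13, 0⟩ * xsZ))

def xsF1wk : Ex := xsKC2 * Ex.c ⟨2, 0⟩ + xsKC3 * Ex.c ⟨3, 0⟩ + xsKC4 * Ex.c ⟨4, 0⟩ + xsKC5 * Ex.c ⟨5, 0⟩ + xsKC6 * Ex.c ⟨6, 0⟩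

def xsF1ck : Ex := xsKC2 * (Ex.c ⟨10, 0⟩ * xsZ - Ex.c ⟨3, 0⟩) + xsKC3 * (Ex.c ⟨21, 0⟩ * xsZ - Ex.c ⟨10, 0⟩) + xsKC4 * (Ex.c ⟨36, 0⟩ * xsZ - Ex.c ⟨21, 0⟩) + xsKC5 * (Ex.c ⟨55, 0⟩ * xsZ - Ex.c ⟨36, 0⟩) + xsKC6 * (Ex.c ⟨78, 0⟩ * xsZ - Ex.c ⟨55, 0⟩)

def xsF2wk : Ex := xsKC2 * Ex.c ⟨1, 0⟩ + xsKC3 * Ex.c ⟨3, 0⟩ + xsKC4 * Ex.c ⟨6, 0⟩ + xsKC5 * Ex.c ⟨10, 0⟩ + xsKC6 * Ex.c ⟨15, 0⟩

def xsF2ck : Ex := xsKC2 * Ex.c ⟨1, 0⟩ * (Ex.c ⟨5, 0⟩ * xsZ - Ex.c ⟨3, 0⟩) + xsKC3 * Ex.c ⟨3, 0⟩ * (Ex.c ⟨7, 0⟩ * xsZ - Ex.c ⟨5, 0⟩) + xsKC4 * Ex.c ⟨6, 0⟩ * (Ex.c ⟨9, 0⟩ * xsZ - Ex.c ⟨7, 0⟩) + xsKC5 * Ex.c ⟨10, 0⟩ * (Ex.c ⟨11, 0⟩ * xsZ - Ex.c ⟨9, 0⟩) + xsKC6 * Ex.c ⟨15, 0⟩ * (Ex.c ⟨13, 0⟩ * xsZ - Ex.c ⟨11, 0⟩)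

def xsF0w (o : Fr) : Ex := (xsF0wk - Ex.c o * xsD * Ex.Y) * (xsQ2 * xsDn1)

def xsF0c (o : Fr) : Ex := (xsF0ck - Ex.c o * xsD * Ex.Y * (Ex.c ⟨3, 0⟩ * xsZ)) * (xsQ2 * xsDn1) -
  xsP43 * xsP43 * xsP41 * (Ex.X * xsD) * (xsS2 * xsS2) * xsQ2 * Ex.Y

def xsF1w (o : Fr) : Ex := (xsF1wk + Ex.c o * Ex.Y) * xsDn1 * xsDNQ

def xsF1c (o : Fr) : Ex := ((xsF1ck + Ex.c o * Ex.Y * (Ex.c ⟨3, 0⟩ * xsZ)) * xsDn1 +
  xsZ * xsP43 * xsP43 * xsS2 * xsB3 * Ex.Y) * xsDNQ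

def xsAA : Ex := Ex.c ⟨3, 3⟩ * xsZ * xsP41 * xsRB

def xsPot : Ex := Ex.c ⟨3, 99⟩ * xsP43 * xsS2 * xsRB

def xsF2w : Ex := (xsAA * Ex.Y + xsPot * Ex.Y * (Ex.c ⟨3, 0⟩ * xsZ - Ex.c ⟨3, 0⟩ * xsS2) - xsF2wk * xsDn1) * xsDN2

def xsF2c : Ex := (Ex.c ⟨0, 0⟩ - xsAA * Ex.Y * Ex.c ⟨3, 0⟩ - xsPot * Ex.Y * (Ex.c ⟨9, 0⟩ * xsZ * xsS2) - xsF2ck * xsDn1) * xsDN2

def xsP0 (o : Fr) : Ex := xsF0c o + xsF1c o + xsF2c

def xsP1 (o : Fr) : Ex := xsF0w o + xsF1w o + xsF2w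

def xsP2 : Ex := xsPot * xsDN2

def xsU0 : Ex := Ex.c ⟨2, 0⟩ * Ex.X * xsDn1

def xsV0 : Ex := (Ex.c ⟨1, 0⟩ - Ex.X) * xsDn1s

def xsG : Ex := Ex.c ⟨3, 24⟩ * xsDNQ

def xsX0 : Ex := Ex.c ⟨3, 0⟩ * xsZ * (xsU0 - (xsZ + Ex.c ⟨1, 0⟩) * xsV0)

def xsX1 : Ex := xsU0 - (xsZ + Ex.c ⟨1, 0⟩) * xsV0 - Ex.c ⟨3, 0⟩ * xsZ * xsV0

def xsR0 (o : Fr) : Ex := Ex.c ⟨2, 0⟩ * Ex.X * xsP0 o + xsG * Ex.Y * xsX0

def xsR1 (o : Fr) : Ex := Ex.c ⟨2, 0⟩ * Ex.X * xsP1 o + xsG * Ex.Y * xsX1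

def xsR2 : Ex := Ex.c ⟨2, 0⟩ * Ex.X * xsP2 - xsG * xsV0

/-- `ω = 27 z + w` -/
def xsFa (p0 p1 p2 : Ex) : List Ex :=
  [p0 + Ex.c ⟨27, 0⟩ * xsZ * p1 + Ex.c ⟨729, 0⟩ * xsZ2 * (Ex.Y * p2),
    p1 + Ex.c ⟨54, 0⟩ * xsZ * (Ex.Y * p2), p2]

/-- `ω = 9 + w` -/
def xsFc (p0 p1 p2 : Ex) : List Ex :=
  [p0 + Ex.c ⟨9, 0⟩ * p1 + Ex.c ⟨81, 0⟩ * (Ex.Y * p2), p1 + Ex.c ⟨18, 0⟩ * (Ex.Y * p2), p2]

/-- `ω = c/E + w` -/
def xsFb (c c2 cc : Fr) (p0 p1 p2 : Ex) : List Ex :=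
  [Ex.Y * p0 + Ex.c c * p1 + Ex.c cc * p2, p1 + Ex.c c2 * p2, p2]

def xsFam (o c c2 cc : Fr) : List (List Ex) :=
  [xsFb c c2 cc (xsP0 o) (xsP1 o) xsP2, xsFc (xsP0 o) (xsP1 o) xsP2,
    xsFb c c2 cc (xsR0 o) (xsR1 o) xsR2, xsFa (xsP0 o) (xsP1 o) xsP2,
    xsFa (xsR0 o) (xsR1 o) xsR2]

/-- region `za ≤ z ≤ zb` -/
def xsLo (za zb : Fr) : Ex := (xsZ - Ex.c za) * (xsZ - Ex.c zb)

end Vale.Agent.P237.AllN
end

section

/-!
# P237, block D, `X ≥ 3`, `u ≤ 0`: `T(l, 0)` in the variables `θ, E`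
-/

namespace Vale.Agent.P237.AllN

open PolyPos

/-- the kernel sum in the variables `θ, E` -/
theorem xs_kern {m z s l θ E : ℝ} (hE : E = Real.exp (-(2 * l))) (hz : z = θ * E) :
    E * dpS m z s l 0 =
      (xsF0wk.R θ E * (m * z) + xsF0ck.R θ E) +
      (xsF1wk.R θ E * (m * z) + xsF1ck.R θ E) * (2 * l) -
      (xsF2wk.R θ E * (m * z) + xsF2ck.R θ E) * (2 * l) ^ 2 := by
  have hE0 : E ≠ 0 := by rw [hE]; exact (Real.exp_pos _).ne'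
  have e2 : Real.exp (-(2 * 2 * l)) = E ^ 2 := by
    rw [hE, ← Real.exp_nat_mul]; congr 1; push_cast; ring
  have e3 : Real.exp (-(2 * 3 * l)) = E ^ 3 := by
    rw [hE, ← Real.exp_nat_mul]; congr 1; push_cast; ring
  have e4 : Real.exp (-(2 * 4 * l)) = E ^ 4 := by
    rw [hE, ← Real.exp_nat_mul]; congr 1; push_cast; ring
  have e5 : Real.exp (-(2 * 5 * l)) = E ^ 5 := by
    rw [hE, ← Real.exp_nat_mul]; congr 1; push_cast; ring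
  have e6 : Real.exp (-(2 * 6 * l)) = E ^ 6 := by
    rw [hE, ← Real.exp_nat_mul]; congr 1; push_cast; ring
  have f2 : Real.exp (2 * 2 * l) = (E ^ 2)⁻¹ := by
    rw [← e2, ← Real.exp_neg]; congr 1; ring
  have f3 : Real.exp (2 * 3 * l) = (E ^ 3)⁻¹ := by
    rw [← e3, ← Real.exp_neg]; congr 1; ring
  have f4 : Real.exp (2 * 4 * l) = (E ^ 4)⁻¹ := by
    rw [← e4, ← Real.exp_neg]; congr 1; ring
  have f5 : Real.exp (2 * 5 * l) = (E ^ 5)⁻¹ := by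
    rw [← e5, ← Real.exp_neg]; congr 1; ring
  have f6 : Real.exp (2 * 6 * l) = (E ^ 6)⁻¹ := by
    rw [← e6, ← Real.exp_neg]; congr 1; ring
  unfold dpS dpK
  rw [e2, e3, e4, e5, e6, f2, f3, f4, f5, f6]
  clear e2 e3 e4 e5 e6 f2 f3 f4 f5 f6 hE
  simp only [xsF0wk, xsF0ck, xsF1wk, xsF1ck, xsF2wk, xsF2ck, xsKA2, xsKA3, xsKA4, xsKA5, xsKA6,
    xsKB2, xsKB3, xsKB4, xsKB5, xsKB6, xsKC2, xsKC3, xsKC4, xsKC5, xsKC6, xsZ2, xsZ3, xsZ4, xsZ5,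
    xsT2, xsT3, xsT4, xsT5, xsE2, xsE3, xsE4, xsE5, xsE6, xsZ,
    Ex.R_add, Ex.R_sub, Ex.R_mul, Ex.R_c, Ex.R_X, Ex.R_Y, Fr.R]
  subst hz
  push_cast
  field_simp
  ring

end Vale.Agent.P237.AllN
end

section

/-!
# P237, block D, `X ≥ 3`, `u ≤ 0`: bounds of the correction
-/

namespace Vale.Agent.P237.AllN

open PolyPos

theorem xs_G1 {s v : ℝ} (hs : 0 < s) (hv : 0 ≤ v) :
    -(s * (s ^ 2 - v ^ 2) / ((1 + s) * (s ^ 2 + v ^ 2 + 2 * s * v ^ 2))) ≤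
      v / (1 + v) - s / (1 + s) := by
  have e : v / (1 + v) - s / (1 + s) -
      -(s * (s ^ 2 - v ^ 2) / ((1 + s) * (s ^ 2 + v ^ 2 + 2 * s * v ^ 2))) =
      v * (s - v) ^ 2 / ((1 + v) * (s ^ 2 + v ^ 2 + 2 * s * v ^ 2)) := by
    have h1 : (1 + v) ≠ 0 := by (clear * - hv; positivity)
    have h2 : (1 + s) ≠ 0 := by positivity
    have h3 : s ^ 2 + v ^ 2 + 2 * s * v ^ 2 ≠ 0 := by positivity
    field_simp
    ring
  have : 0 ≤ v * (s - v) ^ 2 / ((1 + v) * (s ^ 2 + v ^ 2 + 2 * s * v ^ 2)) := by (clear * - hv hs; positivity)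
  linarith

theorem xs_G2 {z s h Y B : ℝ} (hs : 0 < s) (hh0 : 0 ≤ h) (hB : 0 < B)
    (hY : 0 < Y) (key : 2 * (1 + s) * B ≤ (4 - z) * Y) :
    2 * (s * h / ((1 + s) * Y)) ≤ h * (s * (4 - z)) / ((1 + s) ^ 2 * B) := by
  rw [← mul_div_assoc, div_le_div_iff₀ (by positivity) (by (clear * - hs hB; positivity))]
  have h1 := mul_le_mul_of_nonneg_left key (by positivity : 0 ≤ s * h * (1 + s))
  calc 2 * (s * h) * ((1 + s) ^ 2 * B) = s * h * (1 + s) * (2 * (1 + s) * B) := by ring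
    _ ≤ s * h * (1 + s) * ((4 - z) * Y) := h1
    _ = h * (s * (4 - z)) * ((1 + s) * Y) := by ring

theorem xs_G3 {z s : ℝ} (hz : 0 < z) (hz1 : z ≤ 49 / 100) (hs : 0 < s)
    (hsz : s ^ 2 = 1 - z) (hsl2 : s * (4 - z) ≤ 4 - 3 * z) :
    z / (s * (1 + s) ^ 2) ≤ z * (4 - 3 * z) / ((1 - z) * (16 - 12 * z + z ^ 2)) := by
  have h1z : (0 : ℝ) < 1 - z := by linarith only [hz1]
  have hR : 0 < 16 - 12 * z + z ^ 2 := by nlinarith only [hz1]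
  rw [div_le_div_iff₀ (by positivity) (by (clear * - h1z hR; positivity))]
  have e : (4 - 3 * z) * (s * (1 + s) ^ 2) - (1 - z) * (16 - 12 * z + z ^ 2) =
      s * ((2 - z) * ((4 - 3 * z) - s * (4 - z))) +
        (s ^ 2 - (1 - z)) * (s * (4 - 3 * z) + 16 - 12 * z + z ^ 2) +
        (s ^ 2 * (2 * (4 - 3 * z) + (2 - z) * (4 - z)) - (1 - z) * (2 * (4 - 3 * z) + (2 - z) * (4 - z)) +
        (s ^ 2 - (1 - z)) * (-(16 - 12 * z + z ^ 2))) := by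
    ring
  have h2 : 0 ≤ s * ((2 - z) * ((4 - 3 * z) - s * (4 - z))) :=
    mul_nonneg hs.le (mul_nonneg (by linarith only [hz1]) (by linarith only [hsl2]))
  rw [hsz] at e
  have h3 : (1 - z) * (16 - 12 * z + z ^ 2) ≤ (4 - 3 * z) * (s * (1 + s) ^ 2) := by linarith only [e, h2]
  have h4 := mul_le_mul_of_nonneg_left h3 hz.le
  linarith only [h4]

/-- lower bound of the correction, `q = e^{2l}`, `v = √(1-θ)` -/
theorem xs_G {z s v q lam : ℝ} (hz : 0 < z) (hz1 : z ≤ 49 / 100) (hs : 0 < s)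
    (hsz : s ^ 2 = 1 - z) (hv : 0 ≤ v) (hvq : v ^ 2 = 1 - z * q) (hq : 1 ≤ q)
    (hlam : lam ≤ q - 1) :
    -((4 - 3 * z) * (4 - z) * (z * q - z) / ((16 - 12 * z + z ^ 2) *
        (4 - 2 * z - 3 * (z * q) + z * (z * q)))) +
      z * (4 - 3 * z) / ((1 - z) * (16 - 12 * z + z ^ 2)) * lam ≤
    2 * (v / (1 + v) - s / (1 + s)) + z / (s * (1 + s) ^ 2) * lam := by
  have hsl : s ≤ 1 - z / 2 := by
    apply le_of_sq_le_sq _ (by linarith only [hz1])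
    rw [hsz]
    linarith only [sq_nonneg z]
  have hsl2 : s * (4 - z) ≤ 4 - 3 * z := by
    apply le_of_sq_le_sq _ (by linarith only [hz1])
    rw [mul_pow, hsz]
    have := pow_pos hz 3
    linear_combination this
  have hzq1 : z * q ≤ 1 := by nlinarith only [hvq]
  have hzz : z * z ≤ z * (z * q) := mul_le_mul_of_nonneg_left (by nlinarith only [hz, hq]) hz.le
  obtain ⟨h, hh⟩ : ∃ h, h = z * q - z := ⟨_, rfl⟩
  have hh0 : 0 ≤ h := by rw [hh]; nlinarith only [hz, hq]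
  have hh1 : h = s ^ 2 - v ^ 2 := by rw [hvq, hsz, hh]; ring
  have hR : 0 < 16 - 12 * z + z ^ 2 := by nlinarith only [hz1]
  obtain ⟨B, hBd⟩ : ∃ B, B = 4 - 2 * z - 3 * (z * q) + z * (z * q) := ⟨_, rfl⟩
  have hB : 0 < B := by
    rw [hBd]
    nlinarith only [hz1, hvq]
  have hBh : B = s ^ 2 * (4 - z) - h * (3 - z) := by
    rw [hBd, hsz, hh]; ring
  have hY : 0 < s ^ 2 + v ^ 2 + 2 * s * v ^ 2 := by (clear * - hs; positivity)
  have a1 := xs_G1 hs hv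
  rw [← hh1] at a1
  have key : 2 * (1 + s) * B ≤ (4 - z) * (s ^ 2 + v ^ 2 + 2 * s * v ^ 2) := by
    have e : (4 - z) * (s ^ 2 + v ^ 2 + 2 * s * v ^ 2) - 2 * (1 + s) * B =
        h * (2 - z - 2 * s) := by
      rw [hBh, hh1]; ring
    have := mul_nonneg hh0 (by linarith only [hsl] : 0 ≤ 2 - z - 2 * s)
    linarith only [e, this]
  have a2 := xs_G2 hs hh0 hB hY key
  have a3 := xs_G3 hz hz1 hs hsz hsl2
  have h1z : (0 : ℝ) < 1 - z := by linarith only [hz1]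
  have a4 : 0 ≤ (q - 1) * (s ^ 2 * (4 - z) / B) - lam := by
    have h1 : 1 ≤ s ^ 2 * (4 - z) / B := by
      rw [le_div_iff₀ hB, hBh]
      have := mul_nonneg hh0 (by linarith only [hz1] : (0 : ℝ) ≤ 3 - z)
      linarith only [this]
    have h2 := mul_le_mul_of_nonneg_left h1 (by linarith only [hq] : 0 ≤ q - 1)
    linarith only [hlam, h2]
  have a5 := mul_le_mul_of_nonneg_right a3 a4
  have e1 : z * (q - 1) = h := by rw [hh]; ring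
  have e2 : z / (s * (1 + s) ^ 2) * ((q - 1) * (s ^ 2 * (4 - z) / B)) =
      h * (s * (4 - z)) / ((1 + s) ^ 2 * B) := by
    rw [← e1]
    (clear * - hB hs hz; field_simp)
  have e3 : z * (4 - 3 * z) / ((1 - z) * (16 - 12 * z + z ^ 2)) *
      ((q - 1) * (s ^ 2 * (4 - z) / B)) =
      (4 - 3 * z) * (4 - z) * h / ((16 - 12 * z + z ^ 2) * B) := by
    rw [hsz, ← e1]
    (clear * - h1z hB hz; field_simp)
  rw [mul_sub (z / (s * (1 + s) ^ 2)) ((q - 1) * (s ^ 2 * (4 - z) / B)) lam,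
    mul_sub (z * (4 - 3 * z) / ((1 - z) * (16 - 12 * z + z ^ 2)))
      ((q - 1) * (s ^ 2 * (4 - z) / B)) lam, e3, e2] at a5
  rw [← hh, ← hBd]
  linarith only [a1, a2, a5]

end Vale.Agent.P237.AllN
end

section

/-!
# P237, block D, `X ≥ 3`, `u ≤ 0`: the certificate polynomials and the bound of `T(l, 0)`
-/

namespace Vale.Agent.P237.AllN

open PolyPos

/-- the P-certificate as a combination of the coefficients -/
theorem xs_idP (θ E ω : ℝ) (o : Fr) :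
    (xsP0 o).R θ E + (xsP1 o).R θ E * ω + E * xsP2.R θ E * ω ^ 2 =
      xsQ2.R θ E * (xsDn1.R θ E * (xsF0wk.R θ E * ω + xsF0ck.R θ E -
          o.R * (1 - E) * E * (ω + 3 * (θ * E))) -
        xsP43.R θ E ^ 2 * xsP41.R θ E * (θ * (1 - E)) * xsS2.R θ E ^ 2 * E) +
      xsDNQ.R θ E * (xsDn1.R θ E * (xsF1wk.R θ E * ω + xsF1ck.R θ E +
          o.R * E * (ω + 3 * (θ * E))) +
        θ * E * xsP43.R θ E ^ 2 * xsS2.R θ E * xsB3.R θ E * E) +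
      xsDN2.R θ E * (3 / 4 * (θ * E) * xsP41.R θ E * xsRB.R θ E * (E * (ω - 3)) +
        3 / 100 * xsP43.R θ E * xsS2.R θ E * xsRB.R θ E * (E * (ω + 3 * (θ * E)) *
          (ω - 3 * xsS2.R θ E)) -
        xsDn1.R θ E * (xsF2wk.R θ E * ω + xsF2ck.R θ E)) := by
  simp only [xsP0, xsP1, xsP2, xsF0w, xsF0c, xsF1w, xsF1c, xsF2w, xsF2c, xsAA, xsPot, xsZ, xsD,
    Ex.R_add, Ex.R_sub, Ex.R_mul, Ex.R_c, Ex.R_X, Ex.R_Y]
  generalize xsQ2.R θ E = Q2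
  generalize xsDn1.R θ E = Dn1
  generalize xsDNQ.R θ E = DNQ
  generalize xsDN2.R θ E = DN2
  generalize xsF0wk.R θ E = a0
  generalize xsF0ck.R θ E = b0
  generalize xsF1wk.R θ E = a1
  generalize xsF1ck.R θ E = b1
  generalize xsF2wk.R θ E = a2
  generalize xsF2ck.R θ E = b2
  generalize xsP43.R θ E = P43
  generalize xsP41.R θ E = P41
  generalize xsB3.R θ E = B3
  generalize xsRB.R θ E = RB
  generalize xsS2.R θ E = S2
  simp only [Fr.R]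
  push_cast
  ring

/-- the R-certificate -/
theorem xs_idR (θ E ω : ℝ) (o : Fr) :
    (xsR0 o).R θ E + (xsR1 o).R θ E * ω + E * xsR2.R θ E * ω ^ 2 =
      2 * θ * ((xsP0 o).R θ E + (xsP1 o).R θ E * ω + E * xsP2.R θ E * ω ^ 2) +
      3 / 25 * xsDNQ.R θ E * E * (ω + 3 * (θ * E)) *
        (2 * θ * xsDn1.R θ E - (ω + θ * E + 1) * (1 - θ) * xsDn1s.R θ E) := by
  simp only [xsR0, xsR1, xsR2, xsU0, xsV0, xsG, xsX0, xsX1, xsZ,
    Ex.R_add, Ex.R_sub, Ex.R_mul, Ex.R_c, Ex.R_X, Ex.R_Y]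
  generalize xsDn1.R θ E = Dn1
  generalize xsDn1s.R θ E = Dn1s
  generalize xsDNQ.R θ E = DNQ
  generalize (xsP0 o).R θ E = P0
  generalize (xsP1 o).R θ E = P1
  generalize xsP2.R θ E = P2
  simp only [Fr.R]
  push_cast
  ring

/-- `ω = 27 z + w` -/
theorem xs_famA {θ E ω : ℝ} {p0 p1 p2 : Ex} (hE : 0 ≤ E) (hw : 27 * (θ * E) ≤ ω)
    (h : ∀ e ∈ xsFa p0 p1 p2, 0 ≤ e.R θ E) :
    0 ≤ p0.R θ E + p1.R θ E * ω + E * p2.R θ E * ω ^ 2 := by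
  simp only [xsFa, List.mem_cons, List.not_mem_nil, or_false, forall_eq_or_imp, forall_eq,
    Ex.R_add, Ex.R_sub, Ex.R_mul, Ex.R_c, Ex.R_X, Ex.R_Y, xsZ, xsZ2, Fr.R] at h
  obtain ⟨h0, h1, h2⟩ := h
  push_cast at h0 h1
  have hw' : 0 ≤ ω - 27 * (θ * E) := by linarith
  have h3 := mul_nonneg h1 hw'
  have h4 := mul_nonneg (mul_nonneg hE h2) (sq_nonneg (ω - 27 * (θ * E)))
  linear_combination h0 + h3 + h4

/-- `ω = 9 + w` -/
theorem xs_famC {θ E ω : ℝ} {p0 p1 p2 : Ex} (hE : 0 ≤ E) (hw : 9 ≤ ω)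
    (h : ∀ e ∈ xsFc p0 p1 p2, 0 ≤ e.R θ E) :
    0 ≤ p0.R θ E + p1.R θ E * ω + E * p2.R θ E * ω ^ 2 := by
  simp only [xsFc, List.mem_cons, List.not_mem_nil, or_false, forall_eq_or_imp, forall_eq,
    Ex.R_add, Ex.R_sub, Ex.R_mul, Ex.R_c, Ex.R_X, Ex.R_Y, xsZ, xsZ2, Fr.R] at h
  obtain ⟨h0, h1, h2⟩ := h
  push_cast at h0 h1
  have hw' : 0 ≤ ω - 9 := by linarith
  have h3 := mul_nonneg h1 hw'
  have h4 := mul_nonneg (mul_nonneg hE h2) (sq_nonneg (ω - 9))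
  linear_combination h0 + h3 + h4

/-- `ω = c/E + w` -/
theorem xs_famB {θ E ω : ℝ} {p0 p1 p2 : Ex} {c c2 cc : Fr} (hE : 0 < E) (hw : c.R ≤ ω * E)
    (hc2 : c2.R = 2 * c.R) (hcc : cc.R = c.R ^ 2)
    (h : ∀ e ∈ xsFb c c2 cc p0 p1 p2, 0 ≤ e.R θ E) :
    0 ≤ p0.R θ E + p1.R θ E * ω + E * p2.R θ E * ω ^ 2 := by
  simp only [xsFb, List.mem_cons, List.not_mem_nil, or_false, forall_eq_or_imp, forall_eq,
    Ex.R_add, Ex.R_sub, Ex.R_mul, Ex.R_c, Ex.R_X, Ex.R_Y, xsZ, xsZ2] at h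
  obtain ⟨h0, h1, h2⟩ := h
  rw [hc2] at h1
  rw [hcc] at h0
  have hw' : 0 ≤ ω * E - c.R := by linarith
  have h3 := mul_nonneg h1 hw'
  have h4 := mul_nonneg h2 (sq_nonneg (ω * E - c.R))
  have h5 : 0 ≤ E * (p0.R θ E + p1.R θ E * ω + E * p2.R θ E * ω ^ 2) := by
    linear_combination h0 + h3 + h4
  exact nonneg_of_mul_nonneg_right h5 hE

end Vale.Agent.P237.AllN
end

section

/-!
# P237, block D, `X ≥ 3`, `u ≤ 0`: signs of the coefficients of `l` and `l²`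
-/

set_option linter.all false

namespace Vale.Agent.P237.AllN

open PolyPos

/-- constant coefficient in `w = ω - 9` of the comparison of the `l²` terms, `X = z` -/
def xsH0 : Ex := Ex.c ⟨18, 3⟩ * Ex.X * (Ex.c ⟨4, 0⟩ - Ex.X) +
  Ex.c ⟨3, 99⟩ * (Ex.c ⟨9, 0⟩ + Ex.c ⟨3, 0⟩ * Ex.X) * (Ex.c ⟨6, 0⟩ + Ex.c ⟨3, 0⟩ * Ex.X) *
    ((Ex.c ⟨1, 0⟩ - Ex.X) * (Ex.c ⟨4, 0⟩ - Ex.c ⟨3, 0⟩ * Ex.X)) -
  (Ex.c ⟨1, 0⟩ - Ex.X) * (Ex.c ⟨1, 0⟩ - Ex.X) * (Ex.c ⟨4, 0⟩ - Ex.c ⟨3, 0⟩ * Ex.X) *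
    (Ex.X * (Ex.c ⟨3, 3⟩ * (Ex.c ⟨6, 0⟩ + Ex.c ⟨5, 0⟩ * Ex.X) +
      Ex.X * (Ex.c ⟨15, 7⟩ * (Ex.c ⟨4, 0⟩ + Ex.c ⟨7, 0⟩ * Ex.X) +
      Ex.X * (Ex.c ⟨105, 31⟩ * (Ex.c ⟨2, 0⟩ + Ex.c ⟨9, 0⟩ * Ex.X) +
      Ex.X * (Ex.c ⟨315, 63⟩ * (Ex.c ⟨11, 0⟩ * Ex.X) +
      Ex.X * (Ex.c ⟨3465, 511⟩ * (Ex.c ⟨13, 0⟩ * Ex.X - Ex.c ⟨2, 0⟩)))))))

/-- coefficient of `w` -/
def xsH1 : Ex := Ex.c ⟨3, 3⟩ * Ex.X * (Ex.c ⟨4, 0⟩ - Ex.X) +
  Ex.c ⟨3, 99⟩ * (Ex.c ⟨15, 0⟩ + Ex.c ⟨6, 0⟩ * Ex.X) *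
    ((Ex.c ⟨1, 0⟩ - Ex.X) * (Ex.c ⟨4, 0⟩ - Ex.c ⟨3, 0⟩ * Ex.X)) -
  (Ex.c ⟨1, 0⟩ - Ex.X) * (Ex.c ⟨1, 0⟩ - Ex.X) * (Ex.c ⟨4, 0⟩ - Ex.c ⟨3, 0⟩ * Ex.X) *
    (Ex.X * (Ex.c ⟨3, 3⟩ + Ex.X * (Ex.c ⟨15, 7⟩ + Ex.X * (Ex.c ⟨105, 31⟩ +
      Ex.X * (Ex.c ⟨315, 63⟩ + Ex.X * Ex.c ⟨3465, 511⟩)))))

theorem xs_chkH : tchkE (2 ^ 512) 32 1000 [[xsH0, xsH1]] (Ex.c ⟨0, 0⟩)
    (.leaf 0) 0 49 100 0 1 1 = true := by
  decide +kernel

theorem xs_H {z w : ℝ} (hz : 0 ≤ z) (hz1 : z ≤ 49 / 100) (hw : 0 ≤ w) :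
    (1 - z) ^ 2 * (4 - 3 * z) * (3 / 4 * z * (w + 6 + 5 * z) + 15 / 8 * z ^ 2 * (w + 4 + 7 * z) +
      105 / 32 * z ^ 3 * (w + 2 + 9 * z) + 315 / 64 * z ^ 4 * (w + 11 * z) +
      3465 / 512 * z ^ 5 * (w - 2 + 13 * z)) ≤
    3 / 4 * z * (4 - z) * (w + 6) +
      3 / 100 * (w + 9 + 3 * z) * (w + 9 - 3 * (1 - z)) * (1 - z) * (4 - 3 * z) := by
  obtain ⟨i, hi⟩ := tchkE_sound (x := z) (y := 0) (by simp [Ex.R_c, Fr.R]) _ _ _ _ _ _ _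
    (by norm_num) (by norm_num) (by norm_num) (by norm_num) xs_chkH
    (by push_cast; linarith only [hz]) (by push_cast; linarith) (by norm_num) (by norm_num)
  match i, hi with
  | 0, hi =>
    have h0 := hi xsH0 (by simp only [Int.reduceNeg, List.getD_eq_getElem?_getD, List.length_cons, List.length_nil, zero_add, Order.lt_one_iff, getElem?_pos, List.getElem_cons_zero, Option.getD_some, List.mem_cons, List.not_mem_nil, or_false, true_or])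
    have h1 := hi xsH1 (by simp)
    simp only [xsH0, xsH1, Ex.R_add, Ex.R_sub, Ex.R_mul, Ex.R_c, Ex.R_X, Fr.R] at h0 h1
    push_cast at h0 h1
    have h3 := mul_nonneg h1 hw
    have h4 : 0 ≤ 3 / 100 * w ^ 2 * ((1 - z) * (4 - 3 * z)) :=
      mul_nonneg (by (clear * -; positivity)) (mul_nonneg (by linarith only [hz1]) (by linarith only [hz1]))
    linear_combination h0 + h3 + h4
  | i + 1, hi =>
    have h0 := hi (Ex.c ⟨-1, 0⟩) (by simp)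
    simp only [Int.reduceNeg, Ex.R_c, Fr.R, Int.cast_neg, Int.cast_one, CharP.cast_eq_zero, zero_add, div_one, Left.nonneg_neg_iff] at h0
    norm_num at h0

/-- the coefficient of `l` is nonnegative -/
theorem xs_K1 {θ E ω : ℝ} (hE : 0 ≤ E) (hz : 0 ≤ θ * E) (hz1 : θ * E ≤ 49 / 100) (hw : 9 ≤ ω) :
    0 ≤ xsF1wk.R θ E * ω + xsF1ck.R θ E := by
  obtain ⟨z, hzz⟩ : ∃ z, z = θ * E := ⟨_, rfl⟩
  have e : xsF1wk.R θ E * ω + xsF1ck.R θ E = E * z * (3 / 4 * (2 * ω + 10 * z - 3) +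
      5 / 8 * z * (3 * ω + 21 * z - 10) + 35 / 64 * z ^ 2 * (4 * ω + 36 * z - 21) +
      63 / 128 * z ^ 3 * (5 * ω + 55 * z - 36) + 231 / 512 * z ^ 4 * (6 * ω + 78 * z - 55)) := by
    simp only [xsF1wk, xsF1ck, xsKC2, xsKC3, xsKC4, xsKC5, xsKC6, xsZ2, xsZ3, xsZ4, xsZ5, xsZ,
      Ex.R_add, Ex.R_sub, Ex.R_mul, Ex.R_c, Ex.R_X, Ex.R_Y, Fr.R, hzz]
    push_cast
    ring
  rw [← hzz] at hz hz1
  rw [e]
  apply mul_nonneg (mul_nonneg hE hz)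
  have h1 : 0 ≤ 5 / 8 * z * (3 * ω + 21 * z - 10) := mul_nonneg (by (clear * - hz; positivity)) (by linarith only [hw, hz])
  have h2 : 0 ≤ 35 / 64 * z ^ 2 * (4 * ω + 36 * z - 21) := mul_nonneg (by (clear * -; positivity)) (by linarith only [hw, hz])
  have h3 : 0 ≤ 63 / 128 * z ^ 3 * (5 * ω + 55 * z - 36) := mul_nonneg (by (clear * - hz; positivity)) (by linarith only [hw, hz])
  have h4 : 0 ≤ 231 / 512 * z ^ 4 * (6 * ω + 78 * z - 54) :=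
    mul_nonneg (by (clear * -; positivity)) (by linarith only [hw, hz])
  have h5 : z ^ 4 ≤ 1 := pow_le_one₀ hz (by linarith only [hz1])
  linarith only [hw, hz, h1, h2, h3, h4, h5]

/-- the coefficient of `l²` is nonnegative -/
theorem xs_K2 {θ E ω : ℝ} (hE : 0 ≤ E) (hz : 0 ≤ θ * E) (hz1 : θ * E ≤ 49 / 100) (hw : 9 ≤ ω) :
    xsF2wk.R θ E * ω + xsF2ck.R θ E ≤
      E * (3 / 4 * (θ * E) * (ω - 3) * (4 - θ * E) / ((1 - θ * E) ^ 2 * (4 - 3 * (θ * E)))) +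
      E * (3 / 100 * (ω + 3 * (θ * E)) * (ω / (1 - θ * E) - 3)) := by
  obtain ⟨z, hzz⟩ : ∃ z, z = θ * E := ⟨_, rfl⟩
  have e : xsF2wk.R θ E * ω + xsF2ck.R θ E = E * (3 / 4 * z * ((ω - 9) + 6 + 5 * z) +
      15 / 8 * z ^ 2 * ((ω - 9) + 4 + 7 * z) +
      105 / 32 * z ^ 3 * ((ω - 9) + 2 + 9 * z) + 315 / 64 * z ^ 4 * ((ω - 9) + 11 * z) +
      3465 / 512 * z ^ 5 * ((ω - 9) - 2 + 13 * z)) := by
    simp only [xsF2wk, xsF2ck, xsKC2, xsKC3, xsKC4, xsKC5, xsKC6, xsZ2, xsZ3, xsZ4, xsZ5, xsZ,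
      Ex.R_add, Ex.R_sub, Ex.R_mul, Ex.R_c, Ex.R_X, Ex.R_Y, Fr.R, hzz]
    push_cast
    ring
  rw [← hzz] at hz hz1 ⊢
  have h := xs_H hz hz1 (by linarith only [hw] : 0 ≤ ω - 9)
  rw [e, ← mul_add]
  apply mul_le_mul_of_nonneg_left _ hE
  have h1z : 0 < 1 - z := by linarith only [hz1]
  have h43 : 0 < 4 - 3 * z := by linarith only [h1z]
  have hD : 0 < (1 - z) ^ 2 * (4 - 3 * z) := by (clear * - h1z h43; positivity)
  have e2 : 3 / 4 * z * (ω - 3) * (4 - z) / ((1 - z) ^ 2 * (4 - 3 * z)) +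
      3 / 100 * (ω + 3 * z) * (ω / (1 - z) - 3) =
      (3 / 4 * z * (4 - z) * ((ω - 9) + 6) +
      3 / 100 * ((ω - 9) + 9 + 3 * z) * ((ω - 9) + 9 - 3 * (1 - z)) * (1 - z) * (4 - 3 * z)) /
      ((1 - z) ^ 2 * (4 - 3 * z)) := by
    field_simp
    ring
  rw [e2, le_div_iff₀ hD, mul_comm]
  exact h

end Vale.Agent.P237.AllN
end

section

/-!
# P237, block D, `X ≥ 3`, `u ≤ 0`: kernel checks for the lower bound of `T(l, 0)`
-/

namespace Vale.Agent.P237.AllN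

open PolyPos

/-- all `z ≤ 49/100`, `E ≥ 1/2`, `σ = 1/2` -/
theorem xs_chkE : tchkE (2 ^ 512) 32 1000 (xsFam ⟨1, 1⟩ ⟨33, 9⟩ ⟨33, 4⟩ ⟨1089, 99⟩) (Ex.c ⟨0, 0⟩)
    (.leaf 1) 0 1 1 1 2 2 = true := by
  decide +kernel

/-- tree of zone 1 -/
def xsTr1 : PT :=
    (.sx (.leaf 0) (.sx (.leaf 0) (.sy (.sx (.leaf 0) (.sy (.leaf 0) (.sx (.leaf 2) (.sy
    (.leaf 2) .out)))) .out)))

/-- zone 1: `0 ≤ z ≤ 17/100`, `σ = 1/2`, `c = 33/10` -/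
theorem xs_chk1 : tchkE (2 ^ 512) 32 1000 (xsFam ⟨1, 1⟩ ⟨33, 9⟩ ⟨33, 4⟩ ⟨1089, 99⟩)
    (xsZ - Ex.c ⟨17, 99⟩) xsTr1 0 1 1 0 1 2 = true := by
  decide +kernel

/-- tree of zone 2 -/
def xsTr2 : PT :=
    (.sx (.leaf 0) (.sx (.leaf 0) (.sy (.sx (.leaf 0) (.sy .out (.sx (.leaf 0) (.sy (.leaf 0)
    (.sx (.leaf 2) (.sy (.leaf 2) (.sx (.leaf 2) (.sy (.leaf 2) (.sx (.sy (.leaf 2) (.sx
    (.leaf 2) (.sy (.leaf 2) .out))) (.sy (.leaf 2) .out)))))))))) (.sx (.sy (.leaf 0) .out)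
    (.sy (.sx (.sy (.sx (.leaf 0) (.sy (.leaf 2) .out)) .out) (.sy (.sx (.sy (.sx (.leaf 2)
    (.sy (.leaf 2) .out)) .out) .out) .out)) .out)))))

/-- zone 2: `17/100 ≤ z ≤ 6/25`, `σ = 3/8`, `c = 33/10` -/
theorem xs_chk2 : tchkE (2 ^ 512) 32 1000 (xsFam ⟨5, 7⟩ ⟨33, 9⟩ ⟨33, 4⟩ ⟨1089, 99⟩)
    (xsLo ⟨17, 99⟩ ⟨6, 24⟩) xsTr2 0 1 1 0 1 2 = true := by
  decide +kernel

/-- tree of zone 3 -/
def xsTr3 : PT :=
    (.sx (.leaf 0) (.sx (.leaf 0) (.sy (.leaf 2) (.sx (.leaf 0) (.sy (.sx (.leaf 2) (.sy (.sx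
    (.leaf 2) (.sy (.sx (.leaf 2) (.sy (.leaf 2) (.sx (.leaf 2) (.sy (.sx (.leaf 2) (.sy
    (.leaf 2) (.sx (.leaf 2) (.sy (.leaf 2) (.sx (.sy (.leaf 2) (.sx (.leaf 2) .out)) (.sy
    (.sx (.leaf 2) (.sy (.leaf 2) (.sx (.leaf 2) (.sy (.leaf 2) .out)))) .out)))))) (.sx (.sy
    (.sx (.leaf 2) (.sy (.leaf 2) .out)) .out) .out))))) .out)) .out)) .out)))))

/-- zone 3: `6/25 ≤ z ≤ 34/125`, `σ = 7/25`, `c = 33/10` -/
theorem xs_chk3 : tchkE (2 ^ 768) 32 1000 (xsFam ⟨18, 24⟩ ⟨33, 9⟩ ⟨33, 4⟩ ⟨1089, 99⟩)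
    (xsLo ⟨6, 24⟩ ⟨34, 124⟩) xsTr3 0 1 1 0 1 2 = true := by
  decide +kernel

/-- tree of zone 4 -/
def xsTr4 : PT :=
    (.sx .out (.sx (.leaf 0) (.sy .out (.sx (.leaf 0) (.sy (.sx (.leaf 2) (.sy (.leaf 2) (.sx
    (.leaf 2) (.sy (.sx (.leaf 2) (.sy (.sx (.sy (.leaf 2) .out) .out) .out)) .out))))
    .out)))))

/-- zone 4: `34/125 ≤ z ≤ 31/100`, `σ = 8/25`, `c = 177/50` -/
theorem xs_chk4 : tchkE (2 ^ 512) 32 1000 (xsFam ⟨17, 24⟩ ⟨177, 49⟩ ⟨177, 24⟩ ⟨31329, 2499⟩)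
    (xsLo ⟨34, 124⟩ ⟨31, 99⟩) xsTr4 0 1 1 0 1 2 = true := by
  decide +kernel

/-- tree of zone 5 -/
def xsTr5 : PT :=
    (.sx .out (.sx (.leaf 0) (.sy .out (.sx (.leaf 0) (.sy (.sx (.leaf 0) (.sy (.leaf 2) (.sx
    (.leaf 2) (.sy (.leaf 2) (.sx (.leaf 2) .out))))) (.leaf 4))))))

/-- zone 5: `31/100 ≤ z ≤ 67/200`, `σ = 1/4`, `c = 177/50` -/
theorem xs_chk5 : tchkE (2 ^ 512) 32 1000 (xsFam ⟨3, 3⟩ ⟨177, 49⟩ ⟨177, 24⟩ ⟨31329, 2499⟩)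
    (xsLo ⟨31, 99⟩ ⟨67, 199⟩) xsTr5 0 1 1 0 1 2 = true := by
  decide +kernel

/-- tree of zone 6 -/
def xsTr6 : PT :=
    (.sx .out (.sx (.leaf 0) (.sy .out (.sx (.leaf 0) (.sy (.sx (.leaf 0) (.sy .out (.sx
    (.leaf 2) (.sy (.leaf 2) (.sx (.leaf 2) (.sy (.leaf 2) (.sx (.leaf 2) (.sy (.sx (.leaf 2)
    (.sy (.leaf 2) (.leaf 4))) (.leaf 4))))))))) (.leaf 4))))))

/-- zone 6: `67/200 ≤ z ≤ 49/100`, `σ = 49/200`, `c = 177/50` -/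
theorem xs_chk6 : tchkE (2 ^ 512) 32 1000 (xsFam ⟨151, 199⟩ ⟨177, 49⟩ ⟨177, 24⟩ ⟨31329, 2499⟩)
    (xsLo ⟨67, 199⟩ ⟨49, 99⟩) xsTr6 0 1 1 0 1 2 = true := by
  decide +kernel

end Vale.Agent.P237.AllN
end
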