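import Vale.Agent.P237.Bd3.B16
import Vale.Agent.P237.Bd3.B8
import Vale.Agent.P237.Bd3.B3
import Vale.Agent.P237.Bd3.B7
import Vale.Agent.P237.Bd3.B12
import Vale.Agent.P237.Bd3.B13
import Vale.Agent.P237.Bd3.B19
import Vale.Agent.P237.Bd3.B21
import Vale.Agent.P237.Bd3.B20

set_option linter.all false

section

/-!
# P237, all dimensions: bridge for the Fisher route, part 5: constraint term and null potentials
-/

open MeasureTheory Metric Set Module Filter Topology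

namespace Vale.Agent.P237.AllN

/-- `N = m (e^{(l+log(1+u))/m} - 1) - l - u` -/
noncomputable def jN (m l u : ℝ) : ℝ := m * (Real.exp ((l + Real.log (1 + u)) / m) - 1) - l - u

section

variable {m : ℕ} {r τ τ' T : ℝ → ℝ} {x : ℝ}

theorem rpow_tau'_exp (h : IsTrans m r τ τ' T) (hx : x ∈ Ioo (0 : ℝ) 1) :
    τ' x ^ (1 / (m : ℝ)) = Real.exp ((lf τ x + Real.log (1 + uf τ τ' x)) / m) := by
  have hu := uf_pos h hx
  rw [rpow_tau' h hx, Real.rpow_def_of_pos hu, ← Real.exp_add]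
  congr 1
  ring

/-- the potential of the constraint term -/
noncomputable def cnΨ (m : ℕ) (τ : ℝ → ℝ) (κ x : ℝ) : ℝ := κ * (x * sq x ^ (m - 1) * lf τ x)

noncomputable def cnΨ' (m : ℕ) (τ τ' : ℝ → ℝ) (κ x : ℝ) : ℝ :=
  κ * (sq x ^ (m - 1) * ((1 - ((m : ℝ) - 1) * (x ^ 2 / sq x ^ 2)) * lf τ x + uf τ τ' x))

theorem cnΨ_der (hm : 2 ≤ m) (h : IsTrans m r τ τ' T) (κ : ℝ) (hx : x ∈ Ioo (0 : ℝ) 1) :
    HasDerivAt (cnΨ m τ κ) (cnΨ' m τ τ' κ x) x := by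
  have h1 := xs_der (m - 1) hx
  have hl := lf_hasDerivAt h hx
  have hx0 := hx.1.ne'
  have e := (h1.mul hl).const_mul κ
  refine e.congr_deriv ?_
  unfold cnΨ'
  have : ((m - 1 : ℕ) : ℝ) = (m : ℝ) - 1 := by
    rw [Nat.cast_sub (by omega)]; simp
  rw [this]
  field_simp

/-- identity of the constraint term, multiplier `κ m` -/
theorem cn_id (hm : 2 ≤ m) (h : IsTrans m r τ τ' T) (κ : ℝ) (hx : x ∈ Ioo (0 : ℝ) 1) :
    κ * m * (sq x ^ (m - 1) * τ' x ^ (1 / (m : ℝ)) - sq x ^ (m - 1)) =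
    sq x ^ m * (κ / sq x * jN m (lf τ x) (uf τ τ' x) +
      κ * ((m : ℝ) - 1) * (x ^ 2 / sq x ^ 3) * lf τ x) + cnΨ' m τ τ' κ x := by
  rw [rpow_tau'_exp h hx]
  unfold cnΨ' jN
  have hs := sqx_pos hx
  have hpow : sq x ^ m = sq x ^ (m - 1) * sq x := by
    obtain ⟨n, rfl⟩ := Nat.exists_eq_add_of_le' (show 1 ≤ m by omega)
    rw [Nat.add_sub_cancel, pow_succ]
  rw [hpow]
  field_simp
  ring

theorem bdd_tendsto_zero {f : ℝ → ℝ} {K : ℝ} {k : ℕ}
    (hf : ∀ x ∈ Ioo (0 : ℝ) 1, |f x| ≤ K * (|x| * sq x ^ k)) : Tendsto f (𝓝[>] 0) (𝓝 0) := by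
  have hc : Continuous fun x : ℝ => K * (|x| * sq x ^ k) :=
    continuous_const.mul (continuous_abs.mul (br_sq_cont.pow k))
  have ht := hc.tendsto 0
  rw [abs_zero, zero_mul, mul_zero] at ht
  refine squeeze_zero_norm' ?_ (ht.mono_left nhdsWithin_le_nhds)
  filter_upwards [Ioo_mem_nhdsGT (zero_lt_one' ℝ)] with x hx
  rw [Real.norm_eq_abs]
  exact hf x hx

theorem bdd_tendsto_one {f : ℝ → ℝ} {K : ℝ} {k : ℕ} (hk : k ≠ 0)
    (hf : ∀ x ∈ Ioo (0 : ℝ) 1, |f x| ≤ K * (|x| * sq x ^ k)) : Tendsto f (𝓝[<] 1) (𝓝 0) := by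
  have hc : Continuous fun x : ℝ => K * (|x| * sq x ^ k) :=
    continuous_const.mul (continuous_abs.mul (br_sq_cont.pow k))
  have ht := hc.tendsto 1
  rw [br_sq_one, zero_pow hk, mul_zero, mul_zero] at ht
  refine squeeze_zero_norm' ?_ (ht.mono_left nhdsWithin_le_nhds)
  filter_upwards [Ioo_mem_nhdsLT (zero_lt_one' ℝ)] with x hx
  rw [Real.norm_eq_abs]
  exact hf x hx

theorem cnΨ_bdd (hm : 2 ≤ m) (hr : IsProf r) (h : IsTrans m r τ τ' T) (κ : ℝ) :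
    ∃ K : ℝ, ∀ x ∈ Ioo (0 : ℝ) 1, |cnΨ m τ κ x| ≤ K * (|x| * sq x ^ (m - 1)) := by
  obtain ⟨C, hC, hb⟩ := lf_bdd (by omega) hr h
  refine ⟨|κ| * C, fun x hx => ?_⟩
  have hs := sqx_pos hx
  unfold cnΨ
  rw [abs_mul, abs_mul, abs_mul, abs_of_pos (pow_pos hs _)]
  have h1 : |x| * sq x ^ (m - 1) * |lf τ x| ≤ |x| * sq x ^ (m - 1) * C :=
    mul_le_mul_of_nonneg_left (hb x hx) (by positivity)
  calc |κ| * (|x| * sq x ^ (m - 1) * |lf τ x|) ≤ |κ| * (|x| * sq x ^ (m - 1) * C) :=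
        mul_le_mul_of_nonneg_left h1 (abs_nonneg _)
    _ = _ := by ring

/-! ### null potentials `Q(x) l²`, different for `l > 0` and `l ≤ 0` -/

/-- switch -/
noncomputable def sw (l a b : ℝ) : ℝ := if 0 < l then a else b

theorem sw_pos {l a b : ℝ} (h : 0 < l) : sw l a b = a := if_pos h

theorem sw_neg {l a b : ℝ} (h : l ≤ 0) : sw l a b = b := if_neg (not_lt.2 h)

theorem sw_abs_le {l a b : ℝ} : |sw l a b| ≤ |a| + |b| := by
  unfold sw
  split_ifs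
  · linarith [abs_nonneg b]
  · linarith [abs_nonneg a]

/-- continuity of a switched function -/
theorem sw_cont {s : Set ℝ} {l f g : ℝ → ℝ} (hl : ContinuousOn l s) (hf : ContinuousOn f s)
    (hg : ContinuousOn g s) (h0 : ∀ x ∈ s, l x = 0 → f x = g x) :
    ContinuousOn (fun x => sw (l x) (f x) (g x)) s := by
  rw [continuousOn_iff_continuous_domRestrict] at *
  have h1 : Continuous (fun x : s => if l x.1 ≤ 0 then g x.1 else f x.1) := by
    refine Continuous.if_le hg hf hl continuous_const ?_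
    rintro ⟨x, hx⟩ h2
    exact (h0 x hx h2).symm
  refine h1.congr fun x => ?_
  show (if l x.1 ≤ 0 then g x.1 else f x.1) = sw (l x.1) (f x.1) (g x.1)
  unfold sw
  by_cases h2 : 0 < l x.1
  · rw [if_pos h2, if_neg (not_le.2 h2)]
  · rw [if_neg h2, if_pos (not_lt.1 h2)]

/-- derivative of `Q(x) l²` with a switch at `l = 0` -/
theorem sw_der {l f g f' g' : ℝ → ℝ} {l' x : ℝ} (hl : HasDerivAt l l' x)
    (hf : HasDerivAt f (f' x) x) (hg : HasDerivAt g (g' x) x) :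
    HasDerivAt (fun x => sw (l x) (f x) (g x) * l x ^ 2)
      (sw (l x) (f' x) (g' x) * l x ^ 2 + 2 * sw (l x) (f x) (g x) * l x * l') x := by
  rcases lt_trichotomy (l x) 0 with h | h | h
  · have e : HasDerivAt (fun x => g x * l x ^ 2) (g' x * l x ^ 2 + 2 * g x * l x * l') x := by
      refine (hg.mul (hl.pow 2)).congr_deriv ?_
      simp only [Pi.pow_apply]
      push_cast
      ring
    rw [sw_neg h.le, sw_neg h.le]
    refine e.congr_of_eventuallyEq ?_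
    filter_upwards [hl.continuousAt.eventually (Iio_mem_nhds h)] with y hy
    rw [sw_neg (le_of_lt hy)]
  · -- at `l x = 0`
    rw [h]
    have e : sw 0 (f' x) (g' x) * (0 : ℝ) ^ 2 + 2 * sw 0 (f x) (g x) * 0 * l' = 0 := by ring
    rw [e]
    -- `|F y| ≤ (|f y| + |g y|) l(y)²`
    have hB : HasDerivAt (fun y => l y ^ 2) 0 x := by
      refine (hl.pow 2).congr_deriv ?_
      rw [h]
      simp
    have hO : (fun y => l y ^ 2) =o[𝓝 x] fun y => y - x := by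
      have := hB.isLittleO
      rw [h] at this
      simpa using this
    have hbd : (fun y => sw (l y) (f y) (g y)) =O[𝓝 x] fun _ => (1 : ℝ) := by
      have h1 : (fun y => |f y| + |g y|) =O[𝓝 x] fun _ => (1 : ℝ) :=
        (hf.continuousAt.abs.add hg.continuousAt.abs).isBigO_one ℝ
      refine Asymptotics.IsBigO.trans ?_ h1
      refine Asymptotics.isBigO_of_le _ fun y => ?_
      rw [Real.norm_eq_abs, Real.norm_eq_abs]
      exact sw_abs_le.trans (le_abs_self _)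
    have h2 := hbd.mul_isLittleO hO
    simp only [one_mul] at h2
    rw [hasDerivAt_iff_isLittleO]
    refine h2.congr_left fun y => ?_
    rw [h]
    simp
  · have e : HasDerivAt (fun x => f x * l x ^ 2) (f' x * l x ^ 2 + 2 * f x * l x * l') x := by
      refine (hf.mul (hl.pow 2)).congr_deriv ?_
      simp only [Pi.pow_apply]
      push_cast
      ring
    rw [sw_pos h, sw_pos h]
    refine e.congr_of_eventuallyEq ?_
    filter_upwards [hl.continuousAt.eventually (Ioi_mem_nhds h)] with y hy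
    rw [sw_pos (mem_Ioi.1 hy)]

/-- potential `x s^m Q(x) l²` and its derivative -/
noncomputable def nuΨ (m : ℕ) (τ Qp Qm : ℝ → ℝ) (x : ℝ) : ℝ :=
  x * sq x ^ m * (sw (lf τ x) (Qp x) (Qm x) * lf τ x ^ 2)

noncomputable def nuT (m : ℝ) (x s l u q xq' : ℝ) : ℝ :=
  (1 - m * (x ^ 2 / s ^ 2)) * q * l ^ 2 + xq' * l ^ 2 + 2 * q * l * u

theorem nuΨ_der (h : IsTrans m r τ τ' T) {Qp Qp' Qm Qm' : ℝ → ℝ}
    (hx : x ∈ Ioo (0 : ℝ) 1) (hp : HasDerivAt Qp (Qp' x) x) (hq : HasDerivAt Qm (Qm' x) x) :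
    HasDerivAt (nuΨ m τ Qp Qm) (sq x ^ m * nuT m x (sq x) (lf τ x) (uf τ τ' x)
      (sw (lf τ x) (Qp x) (Qm x)) (x * sw (lf τ x) (Qp' x) (Qm' x))) x := by
  have h1 := xs_der m hx
  have h2 := sw_der (lf_hasDerivAt h hx) hp hq
  refine (h1.mul h2).congr_deriv ?_
  unfold nuT
  have hx0 := hx.1.ne'
  have hs := sqx_pos hx
  field_simp
  ring

theorem nuΨ_bdd (hm : 4 ≤ m) (hr : IsProf r) (h : IsTrans m r τ τ' T) {Qp Qm : ℝ → ℝ} {K1 K2 : ℝ}
    (hp : ∀ x ∈ Ioo (0 : ℝ) 1, |Qp x| * sq x ^ 3 ≤ K1)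
    (hq : ∀ x ∈ Ioo (0 : ℝ) 1, |Qm x| * sq x ^ 3 ≤ K2) :
    ∃ K : ℝ, ∀ x ∈ Ioo (0 : ℝ) 1, |nuΨ m τ Qp Qm x| ≤ K * (|x| * sq x ^ (m - 3)) := by
  obtain ⟨C, hC, hb⟩ := lf_bdd (by omega) hr h
  refine ⟨(K1 + K2) * C ^ 2, fun x hx => ?_⟩
  have hs := sqx_pos hx
  have e : |nuΨ m τ Qp Qm x| =
      (|sw (lf τ x) (Qp x) (Qm x)| * sq x ^ 3) * lf τ x ^ 2 * (|x| * sq x ^ (m - 3)) := by
    unfold nuΨ
    obtain ⟨n, rfl⟩ := Nat.exists_eq_add_of_le' hm
    have e2 : n + 4 - 3 = n + 1 := rfl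
    rw [e2, abs_mul, abs_mul, abs_mul, abs_of_nonneg (sq_nonneg (lf τ x)),
      abs_of_pos (pow_pos hs _), show sq x ^ (n + 4) = sq x ^ (n + 1) * sq x ^ 3 by ring]
    ring
  rw [e]
  apply mul_le_mul_of_nonneg_right _ (by positivity)
  have h1 : |sw (lf τ x) (Qp x) (Qm x)| * sq x ^ 3 ≤ K1 + K2 := by
    calc _ ≤ (|Qp x| + |Qm x|) * sq x ^ 3 :=
          mul_le_mul_of_nonneg_right sw_abs_le (by positivity)
      _ ≤ K1 + K2 := by rw [add_mul]; exact add_le_add (hp x hx) (hq x hx)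
  have h2 : lf τ x ^ 2 ≤ C ^ 2 := by
    rw [← sq_abs]
    exact pow_le_pow_left₀ (abs_nonneg _) (hb x hx) 2
  have h3 : 0 ≤ K1 + K2 := (by positivity : 0 ≤ |sw (lf τ x) (Qp x) (Qm x)| * sq x ^ 3).trans h1
  exact mul_le_mul h1 h2 (sq_nonneg _) h3

end

end Vale.Agent.P237.AllN
end

section

/-!
# P237, all dimensions: bridge for the Fisher route, part 6: the J-test gives the two values
-/

open MeasureTheory Metric Set Module Filter Topology

namespace Vale.Agent.P237.AllN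

/-- Fisher part of the functional, `a = e^{-2l}` -/
noncomputable def jT (m x s l u : ℝ) : ℝ :=
  (m + 3) * x ^ 2 * (Real.exp (-(2 * l)) - 1) +
    4 * s ^ 2 * Real.exp (-(2 * l)) * (u ^ 2 / (1 + u))

/-- `e₁` with the null function `q(x) l`, `xq' = x q'(x)`, `κ₁ = 2c` -/
noncomputable def jE (m κ₁ x s l u q xq' : ℝ) : ℝ :=
  jT m x s l u + (κ₁ / s * jN m l u + κ₁ * (m - 1) * (x ^ 2 / s ^ 3) * l) +
    ((1 - m * (x ^ 2 / s ^ 2)) * (q * l) + xq' * l + q * u)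

section

variable {m : ℕ} {r τ τ' T : ℝ → ℝ}

theorem jN_cont (h : IsTrans m r τ τ' T) :
    ContinuousOn (fun x => jN m (lf τ x) (uf τ τ' x)) (Ioo 0 1) := by
  have hl := lf_cont h
  have hu := uf_cont h
  have hlog : ContinuousOn (fun x => Real.log (1 + uf τ τ' x)) (Ioo 0 1) :=
    (continuousOn_const.add hu).log fun x hx => (uf_pos h hx).ne'
  unfold jN
  exact ((continuousOn_const.mul ((Real.continuous_exp.comp_continuousOn
    ((hl.add hlog).div_const _)).sub continuousOn_const)).sub hl).sub hu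

theorem W_cont (h : IsTrans m r τ τ' T) :
    ContinuousOn (fun x => uf τ τ' x ^ 2 / (1 + uf τ τ' x)) (Ioo 0 1) :=
  ((uf_cont h).pow 2).div (continuousOn_const.add (uf_cont h)) fun x hx => (uf_pos h hx).ne'

theorem jT_cont (h : IsTrans m r τ τ' T) :
    ContinuousOn (fun x => jT m x (sq x) (lf τ x) (uf τ τ' x)) (Ioo 0 1) := by
  have hl := lf_cont h
  have hW := W_cont h
  have hs : ContinuousOn sq (Ioo (0 : ℝ) 1) := br_sq_cont.continuousOn
  have hid : ContinuousOn (fun x : ℝ => x) (Ioo (0 : ℝ) 1) := continuousOn_id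
  have ha : ContinuousOn (fun x => Real.exp (-(2 * lf τ x))) (Ioo 0 1) :=
    Real.continuous_exp.comp_continuousOn (continuousOn_const.mul hl).neg
  unfold jT
  exact ((continuousOn_const.mul (hid.pow 2)).mul (ha.sub continuousOn_const)).add
    (((continuousOn_const.mul (hs.pow 2)).mul ha).mul hW)

theorem inv_s_cont (k : ℕ) : ContinuousOn (fun x : ℝ => x ^ 2 / sq x ^ k) (Ioo (0 : ℝ) 1) :=
  (continuousOn_id.pow 2).div (br_sq_cont.continuousOn.pow k) fun y hy => sq_ne y hy k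

theorem cn_cont (h : IsTrans m r τ τ' T) (κ : ℝ) :
    ContinuousOn (fun x => κ / sq x * jN m (lf τ x) (uf τ τ' x) +
      κ * ((m : ℝ) - 1) * (x ^ 2 / sq x ^ 3) * lf τ x) (Ioo 0 1) := by
  have hs : ContinuousOn sq (Ioo (0 : ℝ) 1) := br_sq_cont.continuousOn
  exact ((continuousOn_const.div hs fun x hx => (sqx_pos hx).ne').mul (jN_cont h)).add
    ((continuousOn_const.mul (inv_s_cont 3)).mul (lf_cont h))

theorem jE_cont (h : IsTrans m r τ τ' T) (κ₁ : ℝ) {q q' : ℝ → ℝ}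
    (hq : ∀ x ∈ Ioo (0 : ℝ) 1, HasDerivAt q (q' x) x) (hq' : ContinuousOn q' (Ioo 0 1)) :
    ContinuousOn (fun x => jE m κ₁ x (sq x) (lf τ x) (uf τ τ' x) (q x) (x * q' x)) (Ioo 0 1) := by
  have hqc : ContinuousOn q (Ioo 0 1) := fun x hx => (hq x hx).continuousAt.continuousWithinAt
  have hid : ContinuousOn (fun x : ℝ => x) (Ioo (0 : ℝ) 1) := continuousOn_id
  have hl := lf_cont h
  have hu := uf_cont h
  unfold jE
  exact ((jT_cont h).add (cn_cont h κ₁)).add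
    ((((continuousOn_const.sub (continuousOn_const.mul (inv_s_cont 2))).mul (hqc.mul hl)).add
      ((hid.mul hq').mul hl)).add (hqc.mul hu))

theorem nuT_cont (h : IsTrans m r τ τ' T) {Qp Qp' Qm Qm' : ℝ → ℝ}
    (hp : ∀ x ∈ Ioo (0 : ℝ) 1, HasDerivAt Qp (Qp' x) x) (hp' : ContinuousOn Qp' (Ioo 0 1))
    (hq : ∀ x ∈ Ioo (0 : ℝ) 1, HasDerivAt Qm (Qm' x) x) (hq' : ContinuousOn Qm' (Ioo 0 1)) :
    ContinuousOn (fun x => nuT m x (sq x) (lf τ x) (uf τ τ' x)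
      (sw (lf τ x) (Qp x) (Qm x)) (x * sw (lf τ x) (Qp' x) (Qm' x))) (Ioo 0 1) := by
  have hpc : ContinuousOn Qp (Ioo 0 1) := fun x hx => (hp x hx).continuousAt.continuousWithinAt
  have hqc : ContinuousOn Qm (Ioo 0 1) := fun x hx => (hq x hx).continuousAt.continuousWithinAt
  have hl := lf_cont h
  have hu := uf_cont h
  have hid : ContinuousOn (fun x : ℝ => x) (Ioo (0 : ℝ) 1) := continuousOn_id
  have e : ∀ x, nuT m x (sq x) (lf τ x) (uf τ τ' x)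
      (sw (lf τ x) (Qp x) (Qm x)) (x * sw (lf τ x) (Qp' x) (Qm' x)) =
      (1 - (m : ℝ) * (x ^ 2 / sq x ^ 2)) * (sw (lf τ x) (Qp x * lf τ x) (Qm x * lf τ x)) * lf τ x +
      x * (sw (lf τ x) (Qp' x * lf τ x) (Qm' x * lf τ x)) * lf τ x +
      2 * (sw (lf τ x) (Qp x * lf τ x) (Qm x * lf τ x)) * uf τ τ' x := by
    intro x
    unfold nuT sw
    split_ifs <;> ring
  have c1 : ContinuousOn (fun x => sw (lf τ x) (Qp x * lf τ x) (Qm x * lf τ x)) (Ioo 0 1) :=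
    sw_cont hl (hpc.mul hl) (hqc.mul hl) fun x _ h0 => by rw [h0, mul_zero, mul_zero]
  have c2 : ContinuousOn (fun x => sw (lf τ x) (Qp' x * lf τ x) (Qm' x * lf τ x)) (Ioo 0 1) :=
    sw_cont hl (hp'.mul hl) (hq'.mul hl) fun x _ h0 => by rw [h0, mul_zero, mul_zero]
  refine (((((continuousOn_const.sub (continuousOn_const.mul (inv_s_cont 2))).mul c1).mul hl).add
    ((hid.mul c2).mul hl)).add ((continuousOn_const.mul c1).mul hu)).congr fun x _ => e x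

/-- integrability of a function bounded by `C/s` after multiplication by `s^m` -/
theorem ii_of_int {k : ℝ → ℝ} {C : ℝ} (hk : ContinuousOn k (Ioo 0 1))
    (hb : ∀ x ∈ Ioo (0 : ℝ) 1, |k x| * sq x ^ (m + 1) ≤ C) :
    IntervalIntegrable (fun x => k x * sq x ^ m) volume 0 1 := by
  have hint : IntervalIntegrable (fun x : ℝ => (1 - x) ^ (-(1 / 2) : ℝ)) volume 0 1 := by
    have h0 : IntervalIntegrable (fun x : ℝ => x ^ (-(1 / 2) : ℝ)) volume 0 1 :=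
      intervalIntegral.intervalIntegrable_rpow' (by norm_num)
    have h1 := (h0.comp_sub_left 1).symm
    simpa only [one_div, sub_self, sub_zero] using h1
  rw [intervalIntegrable_iff_integrableOn_Ioo_of_le zero_le_one] at hint ⊢
  refine Integrable.mono' (hint.const_mul C)
    ((hk.mul (br_sq_cont.pow m).continuousOn).aestronglyMeasurable measurableSet_Ioo) ?_
  refine (ae_restrict_mem measurableSet_Ioo).mono fun x hx => ?_
  have hs := sqx_pos hx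
  have hxs := sqx_sq hx
  have hC : 0 ≤ C := le_trans (by (clear * - hs; positivity)) (hb x hx)
  have h1 : 0 < 1 - x := by linarith only [hx.2]
  -- `1/s ≤ (1-x)^(-1/2)`
  have h2 : 1 / sq x ≤ (1 - x) ^ (-(1 / 2) : ℝ) := by
    rw [Real.rpow_neg h1.le, ← Real.sqrt_eq_rpow, ← one_div]
    apply one_div_le_one_div_of_le (Real.sqrt_pos.2 h1)
    unfold sq
    apply Real.sqrt_le_sqrt
    nlinarith only [h1, hx.1]
  rw [Real.norm_eq_abs, abs_mul, abs_of_pos (pow_pos hs m)]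
  have h3 : |k x| * sq x ^ m ≤ C * (1 / sq x) := by
    rw [mul_one_div, le_div_iff₀ hs]
    have := hb x hx
    rw [pow_succ] at this
    linarith only [this]
  exact h3.trans (mul_le_mul_of_nonneg_left h2 hC)

/-- **the J-test gives the two values** -/
theorem values_of_jtest (hm : 4 ≤ m) {A : ℝ → ℝ → ℝ} (hA : Kern2 A) (hr : IsProf r)
    (hT : IsTrans m r τ τ' T)
    (hN : (∫ y in (-1 : ℝ)..1, r y ^ (m - 1)) ^ m * aInt m ^ (m - 1) ≤
      aInt (m - 1) ^ m * (∫ y in (-1 : ℝ)..1, r y ^ m) ^ (m - 1))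
    {c c' p p' ΨK ΨK' TK : ℝ → ℝ} (hK : FPair m τ τ' c c' p p' ΨK ΨK' TK)
    (hTK : ContinuousOn TK (Ioo 0 1))
    (hle : ∀ x ∈ Ioo (0 : ℝ) 1, ∀ b ∈ Icc (-1 : ℝ) 1, c x + p x * b ≤ A (τ x) b)
    {κ κ₁ : ℝ} (hκ₁ : 0 ≤ κ₁) (hκ : κ₁ ≤ κ)
    {Qp Qp' Qm Qm' : ℝ → ℝ} {K1 K2 K3 : ℝ}
    (hQp : ∀ x ∈ Ioo (0 : ℝ) 1, HasDerivAt Qp (Qp' x) x) (hQp' : ContinuousOn Qp' (Ioo 0 1))
    (hQm : ∀ x ∈ Ioo (0 : ℝ) 1, HasDerivAt Qm (Qm' x) x) (hQm' : ContinuousOn Qm' (Ioo 0 1))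
    (hQpb : ∀ x ∈ Ioo (0 : ℝ) 1, |Qp x| * sq x ^ 3 ≤ K1)
    (hQmb : ∀ x ∈ Ioo (0 : ℝ) 1, |Qm x| * sq x ^ 3 ≤ K2)
    {q q' : ℝ → ℝ}
    (hq : ∀ x ∈ Ioo (0 : ℝ) 1, HasDerivAt q (q' x) x) (hq' : ContinuousOn q' (Ioo 0 1))
    (hqb : ∀ x ∈ Ioo (0 : ℝ) 1, |q x| * sq x ^ 3 ≤ K3)
    {ρ : ℝ → ℝ} (hρ : ContinuousOn ρ (Ioo 0 1))
    (hρi : IntervalIntegrable (fun x => ρ x * sq x ^ m) volume 0 1)
    (hρ1 : ∫ x in (0 : ℝ)..1, ρ x * sq x ^ m = ∫ x in (0 : ℝ)..1, sq x ^ m)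
    (hJ : ∀ x ∈ Ioo (0 : ℝ) 1,
      0 < ρ x + jE m κ₁ x (sq x) (lf τ x) (uf τ τ' x) (q x) (x * q' x) ∧
      jE m κ₁ x (sq x) (lf τ x) (uf τ τ' x) (q x) (x * q' x) ^ 2 ≤
        (TK x + jT m x (sq x) (lf τ x) (uf τ τ' x) +
          (κ / sq x * jN m (lf τ x) (uf τ τ' x) +
            κ * ((m : ℝ) - 1) * (x ^ 2 / sq x ^ 3) * lf τ x) +
          nuT m x (sq x) (lf τ x) (uf τ τ' x) (sw (lf τ x) (Qp x) (Qm x))
            (x * sw (lf τ x) (Qp' x) (Qm' x))) *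
        (ρ x + jE m κ₁ x (sq x) (lf τ x) (uf τ τ' x) (q x) (x * q' x)) ∧
      (uf τ τ' x ≠ 0 →
        jE m κ₁ x (sq x) (lf τ x) (uf τ τ' x) (q x) (x * q' x) ^ 2 <
        (TK x + jT m x (sq x) (lf τ x) (uf τ τ' x) +
          (κ / sq x * jN m (lf τ x) (uf τ τ' x) +
            κ * ((m : ℝ) - 1) * (x ^ 2 / sq x ^ 3) * lf τ x) +
          nuT m x (sq x) (lf τ x) (uf τ τ' x) (sw (lf τ x) (Qp x) (Qm x))
            (x * sw (lf τ x) (Qp' x) (Qm' x))) *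
        (ρ x + jE m κ₁ x (sq x) (lf τ x) (uf τ τ' x) (q x) (x * q' x)))) :
    (∃ k : ℝ, ∀ y ∈ Ioo (-1 : ℝ) 1, r y = k * Real.sqrt (1 - y ^ 2)) ∨
    ∃ v w : ℝ, AdmGe m A r v ∧ FisGe m r w ∧ 0 < w ∧
      (1 : ℝ) * ((∫ y in (-1 : ℝ)..1, r y ^ m) / w - 1) * (∫ y in (-1 : ℝ)..1, r y ^ m) < v := by
  by_cases hu : ∀ x ∈ Ioo (0 : ℝ) 1, uf τ τ' x = 0
  · exact Or.inl (ball_of_u_zero (by omega) hr hT hu)
  right
  push Not at hu
  obtain ⟨x1, hx1, hux1⟩ := hu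
  have hm1 : 1 ≤ m := by omega
  have hm0 : (0 : ℝ) < m := by exact_mod_cast (by omega : 0 < m)
  set E : ℝ → ℝ := fun x => jE m κ₁ x (sq x) (lf τ x) (uf τ τ' x) (q x) (x * q' x) with hE
  set TT : ℝ → ℝ := fun x => TK x + jT m x (sq x) (lf τ x) (uf τ τ' x) +
          (κ / sq x * jN m (lf τ x) (uf τ τ' x) +
            κ * ((m : ℝ) - 1) * (x ^ 2 / sq x ^ 3) * lf τ x) +
          nuT m x (sq x) (lf τ x) (uf τ τ' x) (sw (lf τ x) (Qp x) (Qm x))
            (x * sw (lf τ x) (Qp' x) (Qm' x)) with hTT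
  have hsm : ContinuousOn (fun x => sq x ^ m) (Ioo (0 : ℝ) 1) := (br_sq_cont.pow m).continuousOn
  have hEc : ContinuousOn E (Ioo 0 1) := jE_cont hT κ₁ hq hq'
  have hTTc : ContinuousOn TT (Ioo 0 1) :=
    ((hTK.add (jT_cont hT)).add (cn_cont hT κ)).add (nuT_cont hT hQp hQp' hQm hQm')
  have hqc : ContinuousOn q (Ioo 0 1) := fun x hx => (hq x hx).continuousAt.continuousWithinAt
  -- the potential of `e₁`
  have hqψ : ∀ x ∈ Ioo (0 : ℝ) 1, HasDerivAt (fun x => x * sq x ^ m * (q x * lf τ x))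
      (sq x ^ m * ((1 - (m : ℝ) * (x ^ 2 / sq x ^ 2)) * (q x * lf τ x) + x * q' x * lf τ x +
        q x * uf τ τ' x)) x := by
    intro x hx
    have hl := lf_hasDerivAt hT hx
    have hx0 := hx.1.ne'
    refine (null_der m hx ((hq x hx).mul hl)).congr_deriv ?_
    simp only [Pi.mul_apply]
    field_simp
    ring
  obtain ⟨Cl, hCl, hlb⟩ := lf_bdd hm1 hr hT
  have hqlb : ∀ x ∈ Ioo (0 : ℝ) 1, |q x * lf τ x| * sq x ^ 3 ≤ K3 * Cl := by
    intro x hx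
    have hs := sqx_pos hx
    rw [abs_mul, mul_right_comm]
    exact mul_le_mul (hqb x hx) (hlb x hx) (abs_nonneg _)
      ((by (clear * - hs; positivity) : 0 ≤ |q x| * sq x ^ 3).trans (hqb x hx))
  have hqΨb : ∀ x ∈ Ioo (0 : ℝ) 1, |x * sq x ^ m * (q x * lf τ x)| ≤
      K3 * Cl * (|x| * sq x ^ (m - 3)) := by
    intro x hx
    have hs := sqx_pos hx
    obtain ⟨n, rfl⟩ := Nat.exists_eq_add_of_le' (show 3 ≤ m by omega)
    rw [Nat.add_sub_cancel, abs_mul, abs_mul, abs_of_pos (pow_pos hs _),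
      show |x| * sq x ^ (n + 3) * |q x * lf τ x| =
        (|q x * lf τ x| * sq x ^ 3) * (|x| * sq x ^ n) by ring]
    exact mul_le_mul_of_nonneg_right (hqlb x hx) (by (clear * - hs; positivity))
  obtain ⟨Kc, hKc⟩ := cnΨ_bdd (by omega) hr hT κ
  obtain ⟨Kc1, hKc1⟩ := cnΨ_bdd (by omega) hr hT κ₁
  obtain ⟨Kn, hKn⟩ := nuΨ_bdd hm hr hT hQpb hQmb
  -- limits of `jΨ`
  have hjb : ∀ x ∈ Ioo (0 : ℝ) 1, |jΨ m τ x| ≤ (2 * Real.exp (2 * Cl) + 1) * (|x| * sq x ^ m) := by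
    intro x hx
    have hs := sqx_pos hx
    have hs2 : sq x ^ 2 ≤ 1 := pow_le_one₀ hs.le (br_sq_le_one x)
    unfold jΨ
    rw [abs_mul, abs_mul, abs_of_pos (pow_pos hs m), mul_comm]
    apply mul_le_mul_of_nonneg_right _ (by (clear * - hs; positivity))
    refine (abs_sub _ _).trans (add_le_add ?_ ?_)
    · rw [abs_of_pos (by (clear * - hs; positivity))]
      have h1 : Real.exp (-(2 * lf τ x)) ≤ Real.exp (2 * Cl) := by
        apply Real.exp_le_exp.2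
        have := (abs_le.1 (hlb x hx)).1
        linarith only [this]
      have := mul_le_mul hs2 h1 (Real.exp_pos _).le zero_le_one
      linarith only [this]
    · rw [abs_of_pos (pow_pos hs 2)]
      exact hs2
  obtain ⟨Ck, hCk⟩ := hK.int
  have hkc : ContinuousOn (fun x => ((m : ℝ) + 1) * c x + (τ x * c' x + p' x) / τ' x)
      (Ioo 0 1) :=
    (continuousOn_const.mul fun x hx => (hK.dc x hx).continuousAt.continuousWithinAt).add
      ((((tau_cont hT).mul hK.cc).add hK.cp).div hT.cont fun x hx => (hT.pos x hx).ne')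
  refine values_of_cert (m := m) (by omega) hA hr hT hN hK.dc hK.cc hK.dp hK.cp hle hK.c0 hK.p0
    hK.c1 (q := jq τ) (q' := jq' τ τ') (fun x hx => jq_der hT hx) (jq'_cont hT)
    (jq_tendsto_zero hm1 hr hT) (jq_bdd hm1 hr hT)
    (k := fun x => ((m : ℝ) + 1) * c x + (τ x * c' x + p' x) / τ' x) (j := jF m τ τ')
    (fun _ _ => rfl) (fun _ _ => rfl) (ii_of_int hkc hCk) (jF_ii hm1 hr hT)
    (μ := κ * m) (μ₁ := κ₁ * m) (by (clear * - hκ₁ hm; positivity)) (mul_le_mul_of_nonneg_right hκ hm0.le)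
    (x₀ := 0) (W := fun x => sq x ^ m * TT x) (e := fun x => sq x ^ m * E x)
    (ρ := fun x => ρ x * sq x ^ m)
    (Ψ := fun x => ΨK x + jΨ m τ x + cnΨ m τ κ x - nuΨ m τ Qp Qm x)
    (Ψ' := fun x => ΨK' x + jΨ' m τ τ' x + cnΨ' m τ τ' κ x -
      sq x ^ m * nuT m x (sq x) (lf τ x) (uf τ τ' x)
      (sw (lf τ x) (Qp x) (Qm x)) (x * sw (lf τ x) (Qp' x) (Qm' x)))
    (Ψ₁ := fun x => jΨ m τ x + cnΨ m τ κ₁ x - x * sq x ^ m * (q x * lf τ x))
    (Ψ₁' := fun x => jΨ' m τ τ' x + cnΨ' m τ τ' κ₁ x - sq x ^ m *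
      ((1 - (m : ℝ) * (x ^ 2 / sq x ^ 2)) * (q x * lf τ x) + x * q' x * lf τ x +
        q x * uf τ τ' x))
    (hρ.mul hsm) hρi hρ1 ?_ ?_ ?_ ?_ ?_ ?_ ?_ ?_ ?_ ?_ ?_ ?_ ?_
  · intro x hx
    exact ((((hK.dΨ x hx).add (jΨ_der hT hx)).add (cnΨ_der (by omega) hT κ hx)).sub
      (nuΨ_der hT hx (hQp x hx) (hQm x hx))).continuousAt.continuousWithinAt
  · intro x hx _
    exact (((hK.dΨ x hx).add (jΨ_der hT hx)).add (cnΨ_der (by omega) hT κ hx)).sub
      (nuΨ_der hT hx (hQp x hx) (hQm x hx))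
  · simpa only [add_zero, sub_self] using     ((hK.Ψ0.add (bdd_tendsto_zero hjb)).add (bdd_tendsto_zero hKc)).sub (bdd_tendsto_zero hKn)
  · simpa using ((hK.Ψ1.add (bdd_tendsto_one (by omega) hjb)).add
      (bdd_tendsto_one (by omega) hKc)).sub (bdd_tendsto_one (by omega) hKn)
  · intro x hx
    exact (((jΨ_der hT hx).add (cnΨ_der (by omega) hT κ₁ hx)).sub
      (hqψ x hx)).continuousAt.continuousWithinAt
  · intro x hx _
    exact ((jΨ_der hT hx).add (cnΨ_der (by omega) hT κ₁ hx)).sub (hqψ x hx)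
  · simpa only [add_zero, sub_self] using     ((bdd_tendsto_zero hjb).add (bdd_tendsto_zero hKc1)).sub (bdd_tendsto_zero hqΨb)
  · simpa only [add_zero, sub_self] using     ((bdd_tendsto_one (by omega) hjb).add (bdd_tendsto_one (by omega) hKc1)).sub (bdd_tendsto_one (by omega) hqΨb)
  · intro x hx
    have h1 := (hJ x hx).1
    have hs := pow_pos (sqx_pos hx) m
    have : ρ x * sq x ^ m + sq x ^ m * E x = sq x ^ m * (ρ x + E x) := by ring
    rw [this]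
    exact mul_pos hs h1
  · intro x hx _
    have h1 := (hJ x hx).2.1
    have hs := pow_pos (sqx_pos hx) m
    have e1 : (sq x ^ m * E x) ^ 2 = (sq x ^ m) ^ 2 * E x ^ 2 := by ring
    have e2 : sq x ^ m * TT x * (ρ x * sq x ^ m + sq x ^ m * E x) =
        (sq x ^ m) ^ 2 * (TT x * (ρ x + E x)) := by ring
    rw [e1, e2]
    exact mul_le_mul_of_nonneg_left h1 (by (clear * - hs; positivity))
  · refine ⟨x1, hx1, (hsm.mul hTTc).continuousAt (isOpen_Ioo.mem_nhds hx1),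
      (hsm.mul hEc).continuousAt (isOpen_Ioo.mem_nhds hx1), ?_⟩
    have h1 := (hJ x1 hx1).2.2 hux1
    have hs := pow_pos (sqx_pos hx1) m
    have e1 : (sq x1 ^ m * E x1) ^ 2 = (sq x1 ^ m) ^ 2 * E x1 ^ 2 := by ring
    have e2 : sq x1 ^ m * TT x1 * (ρ x1 * sq x1 ^ m + sq x1 ^ m * E x1) =
        (sq x1 ^ m) ^ 2 * (TT x1 * (ρ x1 + E x1)) := by ring
    rw [e1, e2]
    exact mul_lt_mul_of_pos_left h1 (by (clear * - hs; positivity))
  · intro x hx _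
    have h1 := hK.id x hx
    have h2 := jF_identity hT hx
    have h3 := cn_id (by omega) hT κ hx
    apply le_of_eq
    simp only [hTT]
    unfold jT
    rw [show ((((m : ℝ) + 1) * c x + (τ x * c' x + p' x) / τ' x) + jF m τ τ' x - 1) * sq x ^ m =
      (((m : ℝ) + 1) * c x + (τ x * c' x + p' x) / τ' x) * sq x ^ m +
      (jF m τ τ' x - 1) * sq x ^ m by ring, h1, h2, h3]
    ring
  · intro x hx _
    have h2 := jF_identity hT hx
    have h3 := cn_id (by omega) hT κ₁ hx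
    simp only [hE]
    unfold jE jT
    rw [h2, h3]
    ring

end

end Vale.Agent.P237.AllN
end

section

/-!
# P237: window facts, uniform in `m` (constants `a_m`, bounds for `u` and `l`)
-/

open MeasureTheory Set Finset

namespace Vale.Agent.P237.AllN

open Alm

/-! ### the constants `a_m = ∫₀¹ (1-t²)^{m/2}` and `c_m = a_m/a_{m-1}` -/

/-- log-convexity of the Wallis integrals -/
theorem fin_logconv (n : ℕ) : Slope.J (n + 1) 0 ^ 2 ≤ Slope.J n 0 * Slope.J (n + 2) 0 := by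
  have h0 := Slope.J_pos n le_rfl (by positivity : (0 : ℝ) < Real.pi / 2)
  set L := Slope.J (n + 1) 0 / Slope.J n 0 with hL
  have ii : ∀ k : ℕ, IntervalIntegrable (fun t : ℝ => Real.cos t ^ k) volume 0 (Real.pi / 2) :=
    fun k => (by fun_prop : Continuous fun t : ℝ => Real.cos t ^ k).intervalIntegrable _ _
  have h1 : 0 ≤ ∫ t in (0 : ℝ)..(Real.pi / 2), Real.cos t ^ n * (Real.cos t - L) ^ 2 := by
    apply intervalIntegral.integral_nonneg (by positivity)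
    intro t ht
    exact mul_nonneg (pow_nonneg (Real.cos_nonneg_of_mem_Icc ⟨by linarith only [ht.1, Real.pi_pos],
      ht.2⟩) n) (sq_nonneg _)
  have h2 : (∫ t in (0 : ℝ)..(Real.pi / 2), Real.cos t ^ n * (Real.cos t - L) ^ 2) =
      Slope.J (n + 2) 0 - 2 * L * Slope.J (n + 1) 0 + L ^ 2 * Slope.J n 0 := by
    unfold Slope.J
    rw [← intervalIntegral.integral_const_mul, ← intervalIntegral.integral_const_mul,
      ← intervalIntegral.integral_sub (ii _) ((ii _).const_mul _),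
      ← intervalIntegral.integral_add ((ii _).sub ((ii _).const_mul _)) ((ii _).const_mul _)]
    apply intervalIntegral.integral_congr
    intro t _
    simp only
    ring
  rw [h2] at h1
  have h3 : L * Slope.J n 0 = Slope.J (n + 1) 0 := by
    rw [hL]
    field_simp
  linarith only [mul_eq_zero_of_left (sub_eq_zero.2 h3) (L * Slope.J n 0 - (Slope.J (n + 1) 0)), mul_nonneg (le_of_lt (sub_pos.2 h0)) (sub_nonneg.2 h1)]

theorem fin_wallis (m : ℕ) : Slope.am m * Slope.am (m + 1) = Real.pi / (2 * ((m : ℝ) + 2)) := by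
  have h := Slope.J_wallis (m + 1)
  rw [Slope.am_eq, Slope.am_eq, h]
  push_cast
  ring_nf

theorem fin_am_anti (m : ℕ) : Slope.am (m + 1) ≤ Slope.am m := by
  rw [Slope.am_eq, Slope.am_eq]
  exact Slope.J_anti (m + 1)

/-- `π/(2(m+2)) ≤ a_m²` -/
theorem fin_am_sq_ge (m : ℕ) : Real.pi / (2 * ((m : ℝ) + 2)) ≤ Slope.am m ^ 2 := by
  have h := Slope.J_sq_ge (m + 1)
  rw [← Slope.am_eq] at h
  push_cast at h
  have e : (m : ℝ) + 1 + 1 = (m : ℝ) + 2 := by ring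
  rwa [e] at h

/-- `a_m² ≤ π/(2(m+1))` -/
theorem fin_am_sq_le (m : ℕ) : Slope.am m ^ 2 ≤ Real.pi / (2 * ((m : ℝ) + 1)) := by
  have h := Slope.J_sq_le m
  rwa [← Slope.am_eq] at h

theorem fin_am_succ_sq_le (m : ℕ) :
    ((m : ℝ) + 3) * Slope.am (m + 1) ^ 2 ≤ ((m : ℝ) + 2) * Slope.am m ^ 2 := by
  have h := fin_logconv (m + 1)
  have h2 := Slope.J_zero_rec (m + 1)
  rw [← Slope.am_eq, ← Slope.am_eq] at h
  rw [← Slope.am_eq, ← Slope.am_eq] at h2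
  push_cast at h2
  have e : Slope.am (m + 2) * ((m : ℝ) + 3) = ((m : ℝ) + 2) * Slope.am m := by
    rw [pin_am_rec]
    field_simp
  have e2 : Slope.J (m + 1 + 2) 0 = Slope.am (m + 2) := by rw [Slope.am_eq]
  rw [e2] at h
  have hm : (0 : ℝ) < (m : ℝ) + 3 := by (clear * -; positivity)
  calc ((m : ℝ) + 3) * Slope.am (m + 1) ^ 2 ≤ ((m : ℝ) + 3) * (Slope.am m * Slope.am (m + 2)) :=
        mul_le_mul_of_nonneg_left h hm.le
    _ = ((m : ℝ) + 2) * Slope.am m ^ 2 := by linear_combination Slope.am m * e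

theorem fin_am_sq_le_succ (m : ℕ) :
    ((m : ℝ) + 1) * Slope.am m ^ 2 ≤ ((m : ℝ) + 2) * Slope.am (m + 1) ^ 2 := by
  have h := fin_logconv m
  have h2 := Slope.J_zero_rec m
  have e1 : Slope.J (m + 2) 0 = Slope.am (m + 1) := by rw [Slope.am_eq]
  rw [← Slope.am_eq, e1] at h
  rw [e1] at h2
  have hm : (0 : ℝ) < (m : ℝ) + 2 := by positivity
  have e : ((m : ℝ) + 1) * Slope.J m 0 = ((m : ℝ) + 2) * Slope.am (m + 1) := by
    rw [h2]
    (clear * -; field_simp)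
  have hm1 : (0 : ℝ) < (m : ℝ) + 1 := by (clear * -; positivity)
  calc ((m : ℝ) + 1) * Slope.am m ^ 2 ≤ ((m : ℝ) + 1) * (Slope.J m 0 * Slope.am (m + 1)) :=
        mul_le_mul_of_nonneg_left h hm1.le
    _ = ((m : ℝ) + 2) * Slope.am (m + 1) ^ 2 := by linear_combination Slope.am (m + 1) * e

/-- `c_m = a_m/a_{m-1}` -/
noncomputable def fc (m : ℕ) : ℝ := Slope.am m / Slope.am (m - 1)

theorem fc_pos (m : ℕ) : 0 < fc m := div_pos (Slope.am_pos m) (Slope.am_pos _)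

theorem fc_le_one {m : ℕ} (hm : 1 ≤ m) : fc m ≤ 1 := by
  obtain ⟨k, rfl⟩ : ∃ k, m = k + 1 := ⟨m - 1, by omega⟩
  unfold fc
  rw [Nat.add_sub_cancel, div_le_one (Slope.am_pos k)]
  exact fin_am_anti k

/-- `m/(m+1) ≤ c_m²` -/
theorem fc_sq_ge {m : ℕ} (hm : 1 ≤ m) : (m : ℝ) / ((m : ℝ) + 1) ≤ fc m ^ 2 := by
  obtain ⟨k, rfl⟩ : ∃ k, m = k + 1 := ⟨m - 1, by omega⟩
  unfold fc
  have hA := Slope.am_pos k
  rw [Nat.add_sub_cancel, div_pow, div_le_div_iff₀ (by positivity) (by positivity)]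
  have h := fin_am_sq_le_succ k
  push_cast
  linarith only [h]

/-- `c_m² ≤ (m+1)/(m+2)` -/
theorem fc_sq_le {m : ℕ} (hm : 1 ≤ m) : fc m ^ 2 ≤ ((m : ℝ) + 1) / ((m : ℝ) + 2) := by
  obtain ⟨k, rfl⟩ : ∃ k, m = k + 1 := ⟨m - 1, by omega⟩
  unfold fc
  have hA := Slope.am_pos k
  rw [Nat.add_sub_cancel, div_pow, div_le_div_iff₀ (by positivity) (by positivity)]
  have h := fin_am_succ_sq_le k
  push_cast
  linarith only [h]

/-- `1 - 1/(2m) ≤ c_m` -/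
theorem fc_ge {m : ℕ} (hm : 1 ≤ m) : 1 - 1 / (2 * (m : ℝ)) ≤ fc m := by
  have h := fc_sq_ge hm
  have hp := fc_pos m
  have hm' : (1 : ℝ) ≤ m := by exact_mod_cast hm
  have h1 : (1 - 1 / (2 * (m : ℝ))) ^ 2 ≤ (m : ℝ) / ((m : ℝ) + 1) := by
    rw [le_div_iff₀ (by positivity)]
    have e : (1 - 1 / (2 * (m : ℝ))) ^ 2 * ((m : ℝ) + 1) =
        (m : ℝ) - (3 * m - 1) / (4 * (m : ℝ) ^ 2) := by
      field_simp
      ring
    rw [e]
    have : 0 ≤ (3 * (m : ℝ) - 1) / (4 * (m : ℝ) ^ 2) := by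
      apply div_nonneg <;> nlinarith only [hm']
    linarith only [this]
  exact le_of_sq_le_sq (h1.trans h) hp.le

/-- `a_m² = c_m π/(2(m+1))` -/
theorem fc_mul {m : ℕ} (hm : 1 ≤ m) :
    Slope.am m ^ 2 = fc m * (Real.pi / (2 * ((m : ℝ) + 1))) := by
  obtain ⟨k, rfl⟩ : ∃ k, m = k + 1 := ⟨m - 1, by omega⟩
  unfold fc
  have hA := Slope.am_pos k
  have h := fin_wallis k
  rw [Nat.add_sub_cancel]
  push_cast
  have e : (k : ℝ) + 1 + 1 = (k : ℝ) + 2 := by ring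
  rw [e, ← h]
  field_simp

/-- `(m+1) a_m ≤ √(π(m+1)/2)` -/
theorem fin_am_mul_sq_le (m : ℕ) :
    (((m : ℝ) + 1) * Slope.am m) ^ 2 ≤ Real.pi * ((m : ℝ) + 1) / 2 := by
  have h := fin_am_sq_le m
  have hm : (0 : ℝ) < (m : ℝ) + 1 := by positivity
  rw [le_div_iff₀ (by positivity)] at h
  rw [mul_pow, le_div_iff₀ (by norm_num)]
  nlinarith only [h]

/-! ### bounds for `u` -/

section

variable {m : ℕ} {r τ τ' T : ℝ → ℝ} {x : ℝ}

/-- `k² ≤ m/(2π)` for the slope constant `k = m/(2(m+1)a_m)` -/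
theorem fin_k_sq {m : ℕ} (hm : 1 ≤ m) :
    ((m : ℝ) / (2 * ((m : ℝ) + 1) * Slope.am m)) ^ 2 ≤ (m : ℝ) / (2 * Real.pi) := by
  have hA := Slope.am_pos m
  have hm' : (1 : ℝ) ≤ m := by exact_mod_cast hm
  have hpi := Real.pi_pos
  have h1 := fc_mul hm
  have h2 := fc_sq_ge hm
  have hc := fc_pos m
  have h3 : (m : ℝ) / ((m : ℝ) + 1) ≤ fc m := by
    have h4 := fc_le_one hm
    nlinarith only [h2, hc, h4]
  rw [div_pow, div_le_div_iff₀ (by positivity) (by positivity), mul_pow, mul_pow, h1]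
  rw [div_le_iff₀ (by positivity)] at h3
  have e : (m : ℝ) * (2 ^ 2 * ((m : ℝ) + 1) ^ 2 * (fc m * (Real.pi / (2 * ((m : ℝ) + 1))))) =
      2 * Real.pi * m * (fc m * ((m : ℝ) + 1)) := by
    field_simp
  rw [e]
  have h5 := mul_le_mul_of_nonneg_left h3 (by positivity : 0 ≤ 2 * Real.pi * (m : ℝ))
  linarith only [h5]

/-- `u² s² ≤ (m/(2π)) x²` for `u ≥ 0` -/
theorem IsTrans.fin_u_sq (hm : 3 ≤ m) (hr : IsProf r) (h : IsTrans m r τ τ' T)
    (hx : x ∈ Ioo (0 : ℝ) 1) (hu : 0 ≤ uf τ τ' x) :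
    uf τ τ' x ^ 2 * sq x ^ 2 ≤ (m : ℝ) / (2 * Real.pi) * x ^ 2 := by
  have h1 := h.pin_h4 hm hr hx
  have hs := sl_sq_pos (mem_neg hx)
  have h2 := fin_k_sq (m := m) (by omega)
  have h3 : (uf τ τ' x * sq x) ^ 2 ≤
      ((m : ℝ) / (2 * ((m : ℝ) + 1) * Slope.am m) * x) ^ 2 :=
    pow_le_pow_left₀ (by (clear * - hu hs; positivity)) h1 2
  rw [mul_pow, mul_pow] at h3
  exact h3.trans (mul_le_mul_of_nonneg_right h2 (sq_nonneg x))

/-- `u² ≤ (4/25) m y` for `u ≥ 0`, `y = x²/s²` -/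
theorem IsTrans.fin_u_sq' (hm : 3 ≤ m) (hr : IsProf r) (h : IsTrans m r τ τ' T)
    (hx : x ∈ Ioo (0 : ℝ) 1) (hu : 0 ≤ uf τ τ' x) :
    uf τ τ' x ^ 2 ≤ 4 / 25 * ((m : ℝ) * (x ^ 2 / sq x ^ 2)) := by
  have h1 := h.fin_u_sq hm hr hx hu
  have hs := sl_sq_pos (mem_neg hx)
  have hm' : (0 : ℝ) ≤ m := Nat.cast_nonneg m
  have hpi := Real.pi_gt_d6
  have h2 : (m : ℝ) / (2 * Real.pi) ≤ 4 / 25 * m := by
    rw [div_le_iff₀ (by positivity)]
    nlinarith only [hpi]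
  have h3 := h1.trans (mul_le_mul_of_nonneg_right h2 (sq_nonneg x))
  have e : 4 / 25 * ((m : ℝ) * (x ^ 2 / sq x ^ 2)) = 4 / 25 * m * x ^ 2 / sq x ^ 2 := by ring
  rw [e, le_div_iff₀ (by positivity)]
  exact h3

/-- `u ≤ 1/s` -/
theorem IsTrans.fin_u_inv (hr : IsProf r) (h : IsTrans m r τ τ' T)
    (hx : x ∈ Ioo (0 : ℝ) 1) : uf τ τ' x ≤ 1 / sq x := by
  rw [le_div_iff₀ (sl_sq_pos (mem_neg hx))]
  exact h.pin_slope_one hr hx

/-- `u ≥ s^m - 1` -/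
theorem IsTrans.fin_u_ge (hr : IsProf r) (h : IsTrans m r τ τ' T)
    (hx : x ∈ Ioo (0 : ℝ) 1) : sq x ^ m - 1 ≤ uf τ τ' x := by
  have := h.pin_h3 hr hx
  linarith

theorem fin_bern : ∀ (m : ℕ), 2 ≤ m → ∀ {s : ℝ}, 0 ≤ s → s ≤ 1 →
    1 - (m : ℝ) / 2 * (1 - s ^ 2) ≤ s ^ m
  | 0, h, _, _, _ => absurd h (by norm_num)
  | 1, h, _, _, _ => absurd h (by norm_num)
  | 2, _, s, _, _ => by norm_num
  | 3, _, s, h0, h1 => by
      norm_num
      linarith only [mul_nonneg (sq_nonneg (1 - s)) (by linarith : 0 ≤ 1 + 2 * s)]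
  | n + 4, _, s, h0, h1 => by
      have ih := fin_bern (n + 2) (by omega) h0 h1
      have e : s ^ (n + 4) = s ^ 2 * s ^ (n + 2) := by ring
      rw [e]
      have h2 := mul_le_mul_of_nonneg_left ih (sq_nonneg s)
      have h3 : 0 ≤ ((n : ℝ) + 2) / 2 * (1 - s ^ 2) ^ 2 := by (clear * -; positivity)
      push_cast at h2 ⊢
      linarith only [h2, h3]

/-- `-(m/2) x² ≤ u` -/
theorem IsTrans.fin_u_ge' (hm : 2 ≤ m) (hr : IsProf r) (h : IsTrans m r τ τ' T)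
    (hx : x ∈ Ioo (0 : ℝ) 1) : -((m : ℝ) / 2 * x ^ 2) ≤ uf τ τ' x := by
  have h1 := h.fin_u_ge hr hx
  have h2 := fin_bern m hm (sl_sq_nonneg x) (pin_sq_le_one x)
  have h3 := pin_sq_sq (Ioo_subset_Icc_self hx)
  rw [h3] at h2
  linarith only [h2, h1]

/-- `-(m/2) y ≤ u`, `y = x²/s²` -/
theorem IsTrans.fin_u_ge_y (hm : 2 ≤ m) (hr : IsProf r) (h : IsTrans m r τ τ' T)
    (hx : x ∈ Ioo (0 : ℝ) 1) : -((m : ℝ) / 2 * (x ^ 2 / sq x ^ 2)) ≤ uf τ τ' x := by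
  have h1 := h.fin_u_ge' hm hr hx
  have hs := sl_sq_pos (mem_neg hx)
  have h3 := pin_sq_le_one x
  have h4 : x ^ 2 ≤ x ^ 2 / sq x ^ 2 := by
    rw [le_div_iff₀ (by positivity)]
    have : sq x ^ 2 ≤ 1 := by nlinarith only [h3, hs]
    linarith only [mul_nonneg (sq_nonneg (x : ℝ)) (sub_nonneg.2 this)]
  have h5 : (m : ℝ) / 2 * x ^ 2 ≤ (m : ℝ) / 2 * (x ^ 2 / sq x ^ 2) :=
    mul_le_mul_of_nonneg_left h4 (by positivity)
  linarith only [h1, h5]

/-- tail bound, `(1+u) τ ≤ (1-τ)((m+2) y + 1)` -/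
theorem IsTrans.fin_tail (hm : 1 ≤ m) (hr : IsProf r) (h : IsTrans m r τ τ' T)
    (hx : x ∈ Ioo (0 : ℝ) 1) :
    (1 + uf τ τ' x) * τ x ≤ (1 - τ x) * (((m : ℝ) + 2) * (x ^ 2 / sq x ^ 2) + 1) := by
  have h1 := h.pin_h5 hm hr hx
  rw [pin_exp h hx] at h1
  have hs := sl_sq_pos (mem_neg hx)
  have e1 := pin_sq_sq (Ioo_subset_Icc_self hx)
  set t := sq x with ht
  have hD : 0 < ((m : ℝ) + 2) - ((m : ℝ) + 1) * t ^ 2 := by
    rw [e1]
    have : 0 ≤ ((m : ℝ) + 1) * x ^ 2 := by (clear * - hm; positivity)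
    linarith only [this]
  have e2 : ((m : ℝ) + 2) * (x ^ 2 / t ^ 2) + 1 =
      (((m : ℝ) + 2) - ((m : ℝ) + 1) * t ^ 2) / t ^ 2 := by
    field_simp
    rw [e1]
    ring
  rw [e2, mul_div_assoc', le_div_iff₀ (by positivity)]
  have h2 : (1 + uf τ τ' x) * t ^ 2 / (((m : ℝ) + 2) - ((m : ℝ) + 1) * t ^ 2) * τ x ≤ 1 - τ x := by
    linarith only [h1]
  rw [div_mul_eq_mul_div, div_le_iff₀ hD] at h2
  linarith only [h2]

/-! ### lower bound for `l` -/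

theorem fin_J_le (m : ℕ) {φ : ℝ} (h0 : 0 ≤ φ) (h1 : φ ≤ Real.pi / 2) :
    Slope.J m φ ≤ Real.cos φ ^ m * Slope.J m 0 := by
  have hc : 0 ≤ Real.cos φ := Real.cos_nonneg_of_mem_Icc ⟨by linarith [Real.pi_pos], h1⟩
  have hsn : 0 ≤ Real.sin φ := Real.sin_nonneg_of_nonneg_of_le_pi h0 (by linarith only [h0, h1])
  have ii : ∀ a b : ℝ, IntervalIntegrable (fun t : ℝ => Real.cos t ^ m) volume a b :=
    fun a b => (by fun_prop : Continuous fun t : ℝ => Real.cos t ^ m).intervalIntegrable _ _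
  have e1 : Slope.J m φ = ∫ v in (0 : ℝ)..(Real.pi / 2 - φ), Real.cos (v + φ) ^ m := by
    rw [intervalIntegral.integral_comp_add_right (fun t => Real.cos t ^ m)]
    unfold Slope.J
    congr 1 <;> ring
  have h2 : (∫ v in (0 : ℝ)..(Real.pi / 2 - φ), Real.cos (v + φ) ^ m) ≤
      ∫ v in (0 : ℝ)..(Real.pi / 2 - φ), Real.cos φ ^ m * Real.cos v ^ m := by
    apply intervalIntegral.integral_mono_on (by linarith only [h1])
    · exact (by fun_prop : Continuous fun t : ℝ => Real.cos (t + φ) ^ m).intervalIntegrable _ _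
    · exact (ii _ _).const_mul _
    · intro v hv
      rw [← mul_pow]
      apply pow_le_pow_left₀
      · exact Real.cos_nonneg_of_mem_Icc ⟨by linarith only [h0, h1, hv.1], by linarith only [hv.2]⟩
      · rw [Real.cos_add]
        have : 0 ≤ Real.sin v := Real.sin_nonneg_of_nonneg_of_le_pi hv.1
          (by linarith only [h0, h1, hv.2])
        linarith only [mul_nonneg (sub_nonneg.2 this) (sub_nonneg.2 hsn)]
  have h3 : (∫ v in (0 : ℝ)..(Real.pi / 2 - φ), Real.cos v ^ m) ≤ Slope.J m 0 := by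
    unfold Slope.J
    rw [← intervalIntegral.integral_add_adjacent_intervals (ii 0 (Real.pi / 2 - φ))
      (ii (Real.pi / 2 - φ) (Real.pi / 2))]
    have : 0 ≤ ∫ v in (Real.pi / 2 - φ)..(Real.pi / 2), Real.cos v ^ m := by
      apply intervalIntegral.integral_nonneg (by linarith only [h0])
      intro v hv
      exact pow_nonneg (Real.cos_nonneg_of_mem_Icc ⟨by linarith only [h0, h1, hv.1], hv.2⟩) m
    linarith only [this]
  rw [e1]
  refine h2.trans ?_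
  rw [intervalIntegral.integral_const_mul]
  exact mul_le_mul_of_nonneg_left h3 (pow_nonneg hc m)

theorem fin_Gf_le (m : ℕ) {φ : ℝ} (h0 : 0 ≤ φ) (h1 : φ < Real.pi / 2) :
    Slope.Gf m φ ≤ Real.cos φ := by
  have hc : 0 < Real.cos φ := Real.cos_pos_of_mem_Ioo ⟨by linarith [Real.pi_pos], h1⟩
  have h2 := Slope.Gf_pow m h0 h1
  have h3 := fin_J_le (m + 1) h0 h1.le
  have hJ := Slope.J_pos (m + 1) le_rfl (by positivity : (0 : ℝ) < Real.pi / 2)
  have h4 : Slope.Gf m φ ^ (m + 1) ≤ Real.cos φ ^ (m + 1) := by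
    rw [h2, div_le_iff₀ hJ]
    exact h3
  exact le_of_pow_le_pow_left₀ (by omega) hc.le h4

theorem fin_Gf_lin (m : ℕ) {φ : ℝ} (h0 : 0 ≤ φ) (h1 : φ < Real.pi / 2) :
    Real.sin φ / (((m : ℝ) + 1) * Slope.am m) ≤ 1 - Slope.Gf m φ := by
  have hA := Slope.am_pos m
  have hder : ∀ t, 0 ≤ t → t < Real.pi / 2 →
      HasDerivAt (fun t => 1 - Slope.Gf m t - Real.sin t / (((m : ℝ) + 1) * Slope.am m))
        (Slope.Cf m t - Real.cos t / (((m : ℝ) + 1) * Slope.am m)) t := by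
    intro t ht0 ht1
    refine (((Slope.hasDerivAt_Gf m ht0 ht1).const_sub 1).sub
      ((Real.hasDerivAt_sin t).div_const _)).congr_deriv ?_
    ring
  have hmono : MonotoneOn (fun t => 1 - Slope.Gf m t - Real.sin t / (((m : ℝ) + 1) * Slope.am m))
      (Icc 0 φ) := by
    apply monotoneOn_of_deriv_nonneg (convex_Icc 0 φ)
    · intro t ht
      exact (hder t ht.1 (ht.2.trans_lt h1)).continuousAt.continuousWithinAt
    · intro t ht
      rw [interior_Icc] at ht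
      exact (hder t ht.1.le (ht.2.trans h1)).differentiableAt.differentiableWithinAt
    · intro t ht
      rw [interior_Icc] at ht
      have ht1 : t < Real.pi / 2 := ht.2.trans h1
      rw [(hder t ht.1.le ht1).deriv, sub_nonneg]
      have hG := Slope.Gf_pos m ht.1.le ht1
      have hJ := Slope.J_pos (m + 1) ht.1.le ht1
      have hJ0 := Slope.J_pos (m + 1) le_rfl (by positivity : (0 : ℝ) < Real.pi / 2)
      have hc : 0 < Real.cos t := Real.cos_pos_of_mem_Ioo ⟨by linarith only [h0, h1, ht.1], ht1⟩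
      have hp := Slope.Gf_pow m ht.1.le ht1
      have hle := fin_Gf_le m ht.1.le ht1
      rw [eq_div_iff hJ0.ne'] at hp
      have hle2 : Slope.Gf m t ^ m ≤ Real.cos t ^ m := pow_le_pow_left₀ hG.le hle m
      unfold Slope.Cf
      rw [Slope.am_eq, div_le_iff₀ (by (clear * - hJ0; positivity))]
      rw [← hp]
      have e : 1 / ((m : ℝ) + 1) * (Real.cos t ^ (m + 1) / (Slope.Gf m t ^ (m + 1) *
          Slope.J (m + 1) 0)) * Slope.Gf m t * (((m : ℝ) + 1) * Slope.J (m + 1) 0) =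
          Real.cos t * (Real.cos t ^ m / Slope.Gf m t ^ m) := by
        field_simp
        rw [pow_succ, pow_succ]
        ring
      rw [e]
      have h5 : 1 ≤ Real.cos t ^ m / Slope.Gf m t ^ m := by
        rw [one_le_div (by positivity)]
        exact hle2
      nlinarith only [hc, h5]
  have h2 := hmono ⟨le_rfl, h0⟩ ⟨h0, le_rfl⟩ h0
  simp only [Slope.Gf_zero, Real.sin_zero, zero_div, sub_self] at h2
  linarith only [h2]

/-- `x ≤ (m+1) a_m τ` -/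
theorem IsTrans.fin_tau_ge (hr : IsProf r) (h : IsTrans m r τ τ' T) (hx : x ∈ Ioo (0 : ℝ) 1) :
    x ≤ ((m : ℝ) + 1) * Slope.am m * τ x := by
  have hτ := h.mem x hx
  have hA := Slope.am_pos m
  have h1 := h.pin_cone hr hx
  rw [pin_am] at h1
  have hsin : Real.sin (Real.arcsin x) = x := Real.sin_arcsin (by linarith [hx.1]) hx.2.le
  have hφ0 : 0 ≤ Real.arcsin x := Real.arcsin_nonneg.2 hx.1.le
  have hφ1 : Real.arcsin x < Real.pi / 2 := Real.arcsin_lt_pi_div_two.2 hx.2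
  have h2 : (∫ t in x..1, sq t ^ m) = Slope.J (m + 1) (Real.arcsin x) := by
    have h3 := Slope.integral_sqrt_pow m (α := Real.arcsin x) (β := Real.pi / 2) hφ0 hφ1.le le_rfl
    rw [hsin, Real.sin_pi_div_two] at h3
    unfold Slope.J sq
    exact h3
  rw [h2] at h1
  have hp := Slope.Gf_pow m hφ0 hφ1
  have hG := Slope.Gf_pos m hφ0 hφ1
  rw [← Slope.am_eq, eq_div_iff hA.ne'] at hp
  rw [← hp] at h1
  have h4 := le_of_mul_le_mul_right h1 hA
  have h5 : 1 - τ x ≤ Slope.Gf m (Real.arcsin x) :=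
    le_of_pow_le_pow_left₀ (by omega) hG.le h4
  have h6 := fin_Gf_lin m hφ0 hφ1
  rw [hsin, div_le_iff₀ (by (clear * - hA; positivity))] at h6
  linarith only [mul_le_mul_of_nonneg_right (by linarith : 1 - Slope.Gf m (Real.arcsin x) ≤ τ x) (by positivity : 0 ≤ ((m : ℝ) + 1) * Slope.am m), h6]

/-- `l ≥ -log((m+1)a_m)` -/
theorem IsTrans.fin_l_ge (hr : IsProf r) (h : IsTrans m r τ τ' T) (hx : x ∈ Ioo (0 : ℝ) 1) :
    -Real.log (((m : ℝ) + 1) * Slope.am m) ≤ lf τ x := by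
  have hτ := h.mem x hx
  have hA := Slope.am_pos m
  have h1 := h.fin_tau_ge hr hx
  unfold lf
  rw [← Real.log_inv]
  apply Real.log_le_log (by (clear * - hA; positivity))
  rw [le_div_iff₀ hx.1, inv_mul_le_iff₀ (by (clear * - hA; positivity))]
  exact h1

/-- `-l ≤ ½ log(π(m+1)/2)` -/
theorem IsTrans.fin_l_ge' (hr : IsProf r) (h : IsTrans m r τ τ' T) (hx : x ∈ Ioo (0 : ℝ) 1) :
    -lf τ x ≤ 1 / 2 * Real.log (Real.pi * ((m : ℝ) + 1) / 2) := by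
  have h1 := h.fin_l_ge hr hx
  have hA := Slope.am_pos m
  have h2 := fin_am_mul_sq_le m
  have h3 := Real.log_le_log (by (clear * - hA; positivity)) h2
  rw [Real.log_pow] at h3
  push_cast at h3
  linarith only [h1, h3]

theorem fin_log8pi : 1 / 2 * Real.log (8 * Real.pi) ≤ 1.6125 := by
  have h1 := pin_exp_ge 1.6125 (by norm_num)
  have h2 := Real.pi_lt_d6
  have h3 : Real.log (8 * Real.pi) ≤ 2 * 1.6125 := by
    rw [Real.log_le_iff_le_exp (by positivity)]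
    have e : Real.exp (2 * 1.6125) = Real.exp 1.6125 ^ 2 := by
      rw [← Real.exp_nat_mul]
      norm_num
    rw [e]
    norm_num at h1
    have h4 : (5.0133 : ℝ) ≤ Real.exp 1.6125 := by
      norm_num
      linarith only [h1]
    nlinarith only [h2, h1]
  linarith only [h3]

/-- for `m ≥ 15` and `l ≤ 0`: `l² ≤ (87/500) m` -/
theorem IsTrans.fin_l_sq (hm : 15 ≤ m) (hr : IsProf r) (h : IsTrans m r τ τ' T)
    (hx : x ∈ Ioo (0 : ℝ) 1) (hl : lf τ x ≤ 0) : lf τ x ^ 2 ≤ 87 / 500 * m := by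
  have h1 := h.fin_l_ge' hr hx
  have hm' : (15 : ℝ) ≤ m := by exact_mod_cast hm
  have h2 : Real.log (Real.pi * ((m : ℝ) + 1) / 2) =
      Real.log (8 * Real.pi) + 2 * Real.log (Real.sqrt (((m : ℝ) + 1) / 16)) := by
    rw [Real.log_sqrt (by positivity), ← mul_div_assoc, mul_div_cancel_left₀ _ two_ne_zero,
      ← Real.log_mul (by positivity) (by positivity)]
    congr 1
    ring
  have h3 := Real.log_le_sub_one_of_pos (Real.sqrt_pos.2 (by positivity : 0 < ((m : ℝ) + 1) / 16))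
  have h4 := fin_log8pi
  set q := Real.sqrt (m : ℝ) with hq
  have hq0 : 0 ≤ q := Real.sqrt_nonneg _
  have hqq : q ^ 2 = m := Real.sq_sqrt (by positivity)
  have h5 : Real.sqrt (((m : ℝ) + 1) / 16) ≤ 0.2582 * q := by
    rw [Real.sqrt_le_left (by positivity)]
    rw [mul_pow, hqq]
    norm_num
    linarith only [hm']
  have h6 : 3.8729 ≤ q := by
    apply Real.le_sqrt_of_sq_le
    norm_num
    linarith only [hm']
  have h7 : -lf τ x ≤ 0.4171 * q := by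
    rw [h2] at h1
    norm_num at h4 ⊢
    linarith only [h1, h3, h5, h6, h4]
  have h8 : lf τ x ^ 2 ≤ (0.4171 * q) ^ 2 := by
    rw [← neg_sq]
    exact pow_le_pow_left₀ (by linarith only [hl]) h7 2
  rw [mul_pow, hqq] at h8
  norm_num at h8 ⊢
  linarith only [h8]

end

end Vale.Agent.P237.AllN
end

section

/-!
# P237, all dimensions: bridge for the Fisher route, part 7: `OneDF m 1` from the pointwise test
-/

open MeasureTheory Metric Set Module Filter Topology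

namespace Vale.Agent.P237.AllN

/-- the correction `G = 2(g₀(τ) - g₀(x) + z l/(s(1+s)²))` -/
noncomputable def jG (τ : ℝ → ℝ) (x : ℝ) : ℝ :=
  2 * (bg (τ x) - bg x + x ^ 2 / (sq x * (1 + sq x) ^ 2) * lf τ x)

/-- `W = u²/(1+u)` along a transport -/
noncomputable def jW (τ τ' : ℝ → ℝ) (x : ℝ) : ℝ := uf τ τ' x ^ 2 / (1 + uf τ τ' x)

/-- the pointwise test at `x` along a transport -/
def JTestAt (m : ℕ) (τ τ' : ℝ → ℝ) (x : ℝ) : Prop :=
  (0 < lf τ x → JTest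
    (dpT m (x ^ 2) (sq x) (lf τ x) (uf τ τ' x) (jG τ x) (jN m (lf τ x) (uf τ τ' x)))
    (dpE m (x ^ 2) (sq x) (lf τ x) (uf τ τ' x) (fc m) (jN m (lf τ x) (uf τ τ' x)))
    (dpR m (x ^ 2 / sq x ^ 2)) (uf τ τ' x)) ∧
  (lf τ x ≤ 0 → JTest
    (dmT m (x ^ 2) (sq x) (lf τ x) (uf τ τ' x) (jG τ x) (jN m (lf τ x) (uf τ τ' x)))
    (dpE m (x ^ 2) (sq x) (lf τ x) (uf τ τ' x) (fc m) (jN m (lf τ x) (uf τ τ' x)))
    (dpR m (x ^ 2 / sq x ^ 2)) (uf τ τ' x))

/-- the pair of block D: log lines for `l ≤ 0`, convex hybrid for `l > 0` -/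
def FKPair (m : ℕ) (τ τ' : ℝ → ℝ) : Prop :=
  ∃ c c' p p' ΨK ΨK' : ℝ → ℝ,
    FPair m τ τ' c c' p p' ΨK ΨK' (fun x =>
      flT m x (sq x) (lf τ x) (uf τ τ' x) (bg (τ x)) (bg x) +
      sw (lf τ x) (dpS m (x ^ 2) (sq x) (lf τ x) (jW τ τ' x)) 0) ∧
    ∀ x ∈ Ioo (0 : ℝ) 1, ∀ b ∈ Icc (-1 : ℝ) 1, c x + p x * b ≤
      (kF (τ x) b + (bφ m b - bφ m (τ x))) + (bφ m b - bφ m (τ x))

section

variable {m : ℕ} {r τ τ' T : ℝ → ℝ}

/-- derivative of `3 x² (1+x²)/s` -/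
theorem fb_hQm_der {x : ℝ} (hx : x ∈ Ioo (0 : ℝ) 1) :
    HasDerivAt (fun x => 3 * (x ^ 2 * (1 + x ^ 2) / sq x))
      (3 * (x * (2 + 3 * x ^ 2 - 3 * x ^ 4) / sq x ^ 3)) x := by
  have hs := sqx_pos hx
  have hxs := sqx_sq hx
  have h1 := sqx_der hx
  have h2 := (((hasDerivAt_pow 2 x).mul ((hasDerivAt_pow 2 x).const_add 1)).div h1 hs.ne').const_mul 3
  refine h2.congr_deriv ?_
  simp only [Pi.mul_apply]
  have e : sq x ^ 2 = 1 - x ^ 2 := by rw [hxs]; ring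
  field_simp
  rw [e]
  ring

theorem fb_hQm_cont : ContinuousOn (fun x : ℝ => 3 * (x * (2 + 3 * x ^ 2 - 3 * x ^ 4) / sq x ^ 3))
    (Ioo 0 1) := by
  refine continuousOn_const.mul (ContinuousOn.div ?_ (br_sq_cont.pow 3).continuousOn
    fun x hx => sq_ne x hx 3)
  fun_prop

/-- derivative of `2c/s - 2s² + 2(1-c)` -/
theorem fb_hq_der (c : ℝ) {x : ℝ} (hx : x ∈ Ioo (0 : ℝ) 1) :
    HasDerivAt (fun x => 2 * c / sq x - 2 * sq x ^ 2 + 2 * (1 - c))
      (2 * c * (x / sq x ^ 3) + 4 * x) x := by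
  have hs := sqx_pos hx
  have h1 := sqx_der hx
  have h2 := (((hasDerivAt_const x (2 * c)).div h1 hs.ne').sub ((h1.pow 2).const_mul 2)).add_const
    (2 * (1 - c))
  refine h2.congr_deriv ?_
  field_simp
  ring

theorem fb_hq_cont (c : ℝ) : ContinuousOn (fun x : ℝ => 2 * c * (x / sq x ^ 3) + 4 * x)
    (Ioo 0 1) := by
  refine (continuousOn_const.mul (continuousOn_id.div (br_sq_cont.pow 3).continuousOn
    fun x hx => sq_ne x hx 3)).add ?_
  fun_prop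

/-- `dpK` at `l = 0` vanishes -/
theorem fb_dpK_zero (M z s W k κz : ℝ) : dpK M z s 0 W k κz = 0 := by
  unfold dpK
  simp only [mul_zero, neg_zero, Real.exp_zero, sub_self, add_zero, ne_eq, OfNat.ofNat_ne_zero, not_false_eq_true, zero_pow]

theorem fb_dpS_zero (M z s W : ℝ) : dpS M z s 0 W = 0 := by
  unfold dpS
  simp only [fb_dpK_zero, add_zero]

theorem bg_tau_cont (h : IsTrans m r τ τ' T) : ContinuousOn (fun x => bg (τ x)) (Ioo 0 1) :=
  bg_cont.comp_continuousOn (tau_cont h)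

theorem flT_cont (h : IsTrans m r τ τ' T) :
    ContinuousOn (fun x => flT m x (sq x) (lf τ x) (uf τ τ' x) (bg (τ x)) (bg x)) (Ioo 0 1) := by
  have hl := lf_cont h
  have hW := W_cont h
  have hs : ContinuousOn sq (Ioo (0 : ℝ) 1) := br_sq_cont.continuousOn
  have hid : ContinuousOn (fun x : ℝ => x) (Ioo (0 : ℝ) 1) := continuousOn_id
  have hs0 : ∀ x ∈ Ioo (0 : ℝ) 1, sq x ≠ 0 := fun x hx => (sqx_pos hx).ne'
  have hs1 : ∀ x ∈ Ioo (0 : ℝ) 1, 1 + sq x ≠ 0 := fun x hx => by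
    have := sqx_pos hx
    (clear * - this; positivity)
  have h1s : ContinuousOn (fun x => 1 + sq x) (Ioo (0 : ℝ) 1) := continuousOn_const.add hs
  have c1 : ContinuousOn (fun x => 4 / sq x - 4 * (sq x / (1 + sq x)) -
      6 * (x ^ 2 / sq x ^ 3) * lf τ x - 2 * sq x ^ 2) (Ioo 0 1) :=
    (((continuousOn_const.div hs hs0).sub (continuousOn_const.mul (hs.div h1s hs1))).sub
      ((continuousOn_const.mul (inv_s_cont 3)).mul hl)).sub (continuousOn_const.mul (hs.pow 2))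
  have c2 : ContinuousOn (fun x => bg (τ x) - bg x) (Ioo 0 1) :=
    (bg_tau_cont h).sub bg_cont.continuousOn
  have c3 : ContinuousOn (fun x : ℝ => 2 * ((m : ℝ) + 3) * x ^ 2 +
      2 * (x ^ 2 / (sq x * (1 + sq x) ^ 2)) - 2 * ((m : ℝ) + 1) * (x ^ 2 / sq x ^ 3))
      (Ioo 0 1) :=
    ((continuousOn_const.mul (hid.pow 2)).add (continuousOn_const.mul ((hid.pow 2).div
      (hs.mul (h1s.pow 2)) fun x hx => mul_ne_zero (hs0 x hx) (pow_ne_zero 2 (hs1 x hx))))).sub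
      (continuousOn_const.mul (inv_s_cont 3))
  have c4 : ContinuousOn (fun x : ℝ => 3 * ((m : ℝ) - 3) * (x ^ 4 / sq x ^ 5) -
      9 * (x ^ 2 / sq x ^ 3)) (Ioo 0 1) :=
    (continuousOn_const.mul ((hid.pow 4).div (hs.pow 5) fun x hx => sq_ne x hx 5)).sub
      (continuousOn_const.mul (inv_s_cont 3))
  exact (((c1.mul hW).add (continuousOn_const.mul c2)).add (c3.mul hl)).add (c4.mul (hl.pow 2))

theorem fb_dpS_cont (h : IsTrans m r τ τ' T) :
    ContinuousOn (fun x => dpS m (x ^ 2) (sq x) (lf τ x) (jW τ τ' x)) (Ioo 0 1) := by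
  have hl := lf_cont h
  have hW : ContinuousOn (jW τ τ') (Ioo 0 1) := W_cont h
  have hs : ContinuousOn sq (Ioo (0 : ℝ) 1) := br_sq_cont.continuousOn
  have hid : ContinuousOn (fun x : ℝ => x) (Ioo (0 : ℝ) 1) := continuousOn_id
  have hK : ∀ (k : ℝ) {κz : ℝ → ℝ}, ContinuousOn κz (Ioo 0 1) →
      ContinuousOn (fun x => dpK m (x ^ 2) (sq x) (lf τ x) (jW τ τ' x) k (κz x)) (Ioo 0 1) := by
    intro k κz hκ
    unfold dpK
    (clear * - hκ hl hs hW; fun_prop)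
  unfold dpS
  have hz : ∀ n : ℕ, ContinuousOn (fun x : ℝ => (x ^ 2) ^ n) (Ioo 0 1) := fun n => by fun_prop
  exact ((((hK 2 (by fun_prop)).add (hK 3 (continuousOn_const.mul (hz 2)))).add
    (hK 4 (continuousOn_const.mul (hz 3)))).add (hK 5 (continuousOn_const.mul (hz 4)))).add
    (hK 6 (continuousOn_const.mul (hz 5)))

theorem fk_cont (h : IsTrans m r τ τ' T) :
    ContinuousOn (fun x => flT m x (sq x) (lf τ x) (uf τ τ' x) (bg (τ x)) (bg x) +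
      sw (lf τ x) (dpS m (x ^ 2) (sq x) (lf τ x) (jW τ τ' x)) 0) (Ioo 0 1) :=
  (flT_cont h).add (sw_cont (lf_cont h) (fb_dpS_cont h) continuousOn_const fun x _ h0 => by
    rw [h0, fb_dpS_zero])

/-- the functional in the closed forms of the region files -/
theorem fb_tt_pos {M x s l u gτ gx G S : ℝ} (hx : x ^ 2 = 1 - s ^ 2) (hs : 0 < s)
    (hM : M - 1 ≠ 0) (hG : G = 2 * (gτ - gx + x ^ 2 / (s * (1 + s) ^ 2) * l))
    (hS : S = dpS M (x ^ 2) s l (u ^ 2 / (1 + u))) {N : ℝ} :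
    flT M x s l u gτ gx + S + jT M x s l u +
        (2 * (M + 1) / (M - 1) / s * N +
          2 * (M + 1) / (M - 1) * (M - 1) * (x ^ 2 / s ^ 3) * l) +
        nuT M x s l u (-(3 / 25 * (M + 3) * x ^ 2)) (x * (-(3 / 25 * (M + 3) * (2 * x)))) =
      dpT M (x ^ 2) s l u G N := by
  subst hG hS
  unfold flT jT nuT dpT
  rw [show x ^ 4 = (x ^ 2) ^ 2 by ring,
    show x * (-(3 / 25 * (M + 3) * (2 * x))) = -(3 / 25 * (M + 3) * (2 * x ^ 2)) by ring, hx]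
  have h1s : 1 + s ≠ 0 := by positivity
  field_simp
  ring

theorem fb_tt_neg {M x s l u gτ gx G : ℝ} (hx : x ^ 2 = 1 - s ^ 2) (hs : 0 < s)
    (hM : M - 1 ≠ 0) (hG : G = 2 * (gτ - gx + x ^ 2 / (s * (1 + s) ^ 2) * l)) {N : ℝ} :
    flT M x s l u gτ gx + 0 + jT M x s l u +
        (2 * (M + 1) / (M - 1) / s * N +
          2 * (M + 1) / (M - 1) * (M - 1) * (x ^ 2 / s ^ 3) * l) +
        nuT M x s l u (3 * (x ^ 2 * (1 + x ^ 2) / s))
          (x * (3 * (x * (2 + 3 * x ^ 2 - 3 * x ^ 4) / s ^ 3))) =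
      dmT M (x ^ 2) s l u G N := by
  subst hG
  unfold flT jT nuT dmT
  rw [show x ^ 4 = (x ^ 2) ^ 2 by ring,
    show x * (3 * (x * (2 + 3 * x ^ 2 - 3 * (x ^ 2) ^ 2) / s ^ 3)) =
      3 * (x ^ 2 * (2 + 3 * x ^ 2 - 3 * (x ^ 2) ^ 2) / s ^ 3) by ring, hx]
  have h1s : 1 + s ≠ 0 := by (clear * - hs; positivity)
  field_simp
  ring

theorem fb_ee_eq {M x s l u c : ℝ} (hx : x ^ 2 = 1 - s ^ 2) (hs : 0 < s) :
    jE M (2 * c) x s l u (2 * c / s - 2 * s ^ 2 + 2 * (1 - c))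
      (x * (2 * c * (x / s ^ 3) + 4 * x)) = dpE M (x ^ 2) s l u c (jN M l u) := by
  unfold jE jT dpE
  rw [show x * (2 * c * (x / s ^ 3) + 4 * x) = 2 * c * (x ^ 2 / s ^ 3) + 4 * x ^ 2 by ring, hx]
  field_simp
  ring

theorem fb_ae_ioc_ioo : ∀ᵐ x : ℝ, x ∈ Set.uIoc (0 : ℝ) 1 → x ∈ Ioo (0 : ℝ) 1 := by
  have h1 : ∀ᵐ x : ℝ, x ≠ 1 := compl_mem_ae_iff.2 (measure_singleton 1)
  filter_upwards [h1] with x hx hx1
  rw [Set.uIoc_of_le zero_le_one] at hx1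
  exact ⟨hx1.1, lt_of_le_of_ne hx1.2 hx⟩

theorem dpR_rhoF (hm : 4 ≤ m) {x : ℝ} (hx : x ∈ Ioo (0 : ℝ) 1) :
    rhoF m x = dpR m (x ^ 2 / sq x ^ 2) * sq x ^ m := by
  rw [rhoF_eq hm hx]
  unfold dpR
  ring

/-- **the values from the pointwise test** -/
theorem values_of_test (hm : 4 ≤ m) (hr : IsProf r) (hT : IsTrans m r τ τ' T)
    (hN : (∫ y in (-1 : ℝ)..1, r y ^ (m - 1)) ^ m * aInt m ^ (m - 1) ≤
      aInt (m - 1) ^ m * (∫ y in (-1 : ℝ)..1, r y ^ m) ^ (m - 1))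
    (hK : FKPair m τ τ') (hJ : ∀ x ∈ Ioo (0 : ℝ) 1, JTestAt m τ τ' x) :
    (∃ k : ℝ, ∀ y ∈ Ioo (-1 : ℝ) 1, r y = k * Real.sqrt (1 - y ^ 2)) ∨
    ∃ v w : ℝ, AdmGe m (fun a b => (kF a b + (bφ m b - bφ m a)) + (bφ m b - bφ m a)) r v ∧
      FisGe m r w ∧ 0 < w ∧
      (1 : ℝ) * ((∫ y in (-1 : ℝ)..1, r y ^ m) / w - 1) * (∫ y in (-1 : ℝ)..1, r y ^ m) < v := by
  obtain ⟨c, c', p, p', ΨK, ΨK', hK, hle⟩ := hK
  have hm0 : (4 : ℝ) ≤ m := by exact_mod_cast hm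
  have hc0 := (fc_pos m).le
  have hc1 := fc_le_one (m := m) (by omega)
  have hκ : 2 * fc m ≤ 2 * ((m : ℝ) + 1) / (m - 1) := by
    rw [le_div_iff₀ (by linarith only [hm0])]
    nlinarith only [hc0, hc1]
  refine values_of_jtest (m := m) hm (A := fun a b => (kF a b + (bφ m b - bφ m a)) +
      (bφ m b - bφ m a)) ((kF_kern2.addφ m).addφ m) hr hT hN hK (fk_cont hT) hle
    (κ := 2 * ((m : ℝ) + 1) / (m - 1)) (κ₁ := 2 * fc m) (by (clear * - hc0; positivity)) hκ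
    (Qp := fun x => -(3 / 25 * ((m : ℝ) + 3) * x ^ 2))
    (Qp' := fun x => -(3 / 25 * ((m : ℝ) + 3) * (2 * x)))
    (Qm := fun x => 3 * (x ^ 2 * (1 + x ^ 2) / sq x))
    (Qm' := fun x => 3 * (x * (2 + 3 * x ^ 2 - 3 * x ^ 4) / sq x ^ 3))
    (K1 := 3 / 25 * ((m : ℝ) + 3)) (K2 := 6) (K3 := 10) ?_ ?_ (fun x hx => fb_hQm_der hx) fb_hQm_cont
    ?_ ?_ (q := fun x => 2 * fc m / sq x - 2 * sq x ^ 2 + 2 * (1 - fc m))
    (q' := fun x => 2 * fc m * (x / sq x ^ 3) + 4 * x) (fun x hx => fb_hq_der _ hx) (fb_hq_cont _) ?_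
    (ρ := fun x => dpR m (x ^ 2 / sq x ^ 2)) ?_ ?_ ?_ ?_
  · intro x _
    refine ((hasDerivAt_pow 2 x).const_mul (3 / 25 * ((m : ℝ) + 3))).neg.congr_deriv ?_
    simp only [Nat.cast_ofNat, Nat.add_one_sub_one, pow_one]
  · fun_prop
  · intro x hx
    have hs := sqx_pos hx
    have h1 : sq x ^ 3 ≤ 1 := pow_le_one₀ hs.le (br_sq_le_one x)
    have h2 : x ^ 2 ≤ 1 := pow_le_one₀ hx.1.le hx.2.le
    rw [abs_neg, abs_of_nonneg (by (clear * - hm; positivity))]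
    calc 3 / 25 * ((m : ℝ) + 3) * x ^ 2 * sq x ^ 3 ≤ 3 / 25 * ((m : ℝ) + 3) * 1 * 1 := by (clear * - h2 hm h1 hs; gcongr)
      _ = _ := by ring
  · intro x hx
    have hs := sqx_pos hx
    have h1 : sq x ^ 2 ≤ 1 := pow_le_one₀ hs.le (br_sq_le_one x)
    have h2 : x ^ 2 ≤ 1 := pow_le_one₀ hx.1.le hx.2.le
    rw [abs_of_nonneg (by (clear * - hs; positivity))]
    have e : 3 * (x ^ 2 * (1 + x ^ 2) / sq x) * sq x ^ 3 = 3 * (x ^ 2 * (1 + x ^ 2) * sq x ^ 2) := by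
      (clear * - hs; field_simp)
    rw [e]
    calc 3 * (x ^ 2 * (1 + x ^ 2) * sq x ^ 2) ≤ 3 * (1 * (1 + 1) * 1) := by (clear * - h2 h1 hs; gcongr)
      _ = 6 := by norm_num
  · intro x hx
    have hs := sqx_pos hx
    have hs1 := br_sq_le_one x
    have h2 : sq x ^ 2 ≤ 1 := pow_le_one₀ hs.le hs1
    have h3 : sq x ^ 3 ≤ 1 := pow_le_one₀ hs.le hs1
    have h5 : sq x ^ 5 ≤ 1 := pow_le_one₀ hs.le hs1
    have e : (2 * fc m / sq x - 2 * sq x ^ 2 + 2 * (1 - fc m)) * sq x ^ 3 =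
        2 * fc m * sq x ^ 2 - 2 * sq x ^ 5 + 2 * (1 - fc m) * sq x ^ 3 := by
      (clear * - hs; field_simp)
    have e2 : |2 * fc m / sq x - 2 * sq x ^ 2 + 2 * (1 - fc m)| * sq x ^ 3 =
        |(2 * fc m / sq x - 2 * sq x ^ 2 + 2 * (1 - fc m)) * sq x ^ 3| := by
      rw [abs_mul, abs_of_pos (pow_pos hs 3)]
    rw [e2, e, abs_le]
    have k2 : 0 ≤ sq x ^ 2 := by positivity
    have k3 : 0 ≤ sq x ^ 3 := by positivity
    have k5 : 0 ≤ sq x ^ 5 := by positivity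
    constructor
    · nlinarith only [h5, hc0, hc1, k3]
    · (by_contra nlg; linarith only [nlg, mul_nonneg (sub_nonneg.2 h2) (sub_nonneg.2 hc0), mul_nonneg (sub_nonneg.2 hc1) (sub_nonneg.2 h3), mul_nonneg (le_of_lt (sub_pos.2 (not_le.1 nlg))) (sub_nonneg.2 k3), mul_nonneg (le_of_lt (sub_pos.2 (not_le.1 nlg))) (sub_nonneg.2 h3), mul_nonneg (sq_nonneg (sq x : ℝ)) (sub_nonneg.2 k3)])
  · unfold dpR
    have := inv_s_cont 2
    fun_prop
  · refine ((rhoF_cont m).intervalIntegrable 0 1).congr_ae ?_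
    rw [Filter.EventuallyEq, ae_restrict_iff' measurableSet_uIoc]
    filter_upwards [fb_ae_ioc_ioo] with x hx hx1
    exact dpR_rhoF hm (hx hx1)
  · rw [← rhoF_int hm]
    refine intervalIntegral.integral_congr_ae ?_
    filter_upwards [fb_ae_ioc_ioo] with x hx hx1
    exact (dpR_rhoF hm (hx hx1)).symm
  · intro x hx
    have hs := sqx_pos hx
    have hxs := sqx_sq hx
    have hM : (m : ℝ) - 1 ≠ 0 := by
      have : (0 : ℝ) < m - 1 := by linarith only [hm0]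
      exact this.ne'
    obtain ⟨h1, h2⟩ := hJ x hx
    rw [fb_ee_eq hxs hs]
    rcases lt_or_ge 0 (lf τ x) with hl | hl
    · rw [sw_pos hl, sw_pos hl, sw_pos hl, fb_tt_pos (u := uf τ τ' x) (G := jG τ x)
        (S := dpS m (x ^ 2) (sq x) (lf τ x) (jW τ τ' x)) (gτ := bg (τ x)) (gx := bg x)
        hxs hs hM rfl rfl]
      exact h1 hl
    · rw [sw_neg hl, sw_neg hl, sw_neg hl, fb_tt_neg (u := uf τ τ' x) (G := jG τ x)
        (gτ := bg (τ x)) (gx := bg x) hxs hs hM rfl]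
      exact h2 hl

/-- **`OneDF m 1` from the pointwise test** (block D) -/
theorem oneDF_of_test {m : ℕ} (hm : 4 ≤ m)
    (hK : ∀ r τ τ' T : ℝ → ℝ, IsProf r → IsTrans m r τ τ' T → FKPair m τ τ')
    (hJ : ∀ r τ τ' T : ℝ → ℝ, IsProf r → IsTrans m r τ τ' T →
      (∫ y in (-1 : ℝ)..1, r y ^ (m - 1)) ^ m * aInt m ^ (m - 1) ≤
        aInt (m - 1) ^ m * (∫ y in (-1 : ℝ)..1, r y ^ m) ^ (m - 1) →
      ∀ x ∈ Ioo (0 : ℝ) 1, JTestAt m τ τ' x) : OneDF m 1 := by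
  refine oneDF_of_values zero_le_one ((kF_kern2.addφ m).addφ m) (ball_value_kF hm)
    fun r hr hN => ?_
  obtain ⟨τ, τ', T, hT⟩ := exists_trans (m := m) (by omega) hr
  exact values_of_test hm hr hT hN (hK r τ τ' T hr hT) (hJ r τ τ' T hr hT hN)

end

end Vale.Agent.P237.AllN
end

section

/-!
# P237, all dimensions: bridge for the Fisher route, part 8: the pair of block D and the final
form of the bridge
-/

open MeasureTheory Metric Set Module Filter Topology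

namespace Vale.Agent.P237.AllN

/-- one power: the two closed forms agree -/
theorem hkT_dpK {k M x s l w κz : ℝ} (hk : k ≠ 0) (hs : s ^ 2 = 1 - x ^ 2) :
    κz * hkT k M x s l w = dpK M (x ^ 2) s l w k κz := by
  unfold hkT dpK
  rw [hs]
  field_simp
  ring

theorem hybT_dpS {M x s l w : ℝ} (hs : s ^ 2 = 1 - x ^ 2) :
    hybT M x s l w = sw l (dpS M (x ^ 2) s l w) 0 := by
  rcases lt_or_ge 0 l with hl | hl
  · rw [hybT_pos hl, sw_pos hl]
    unfold dpS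
    rw [← hkT_dpK (κz := 3 / 4 * x ^ 2) (by norm_num : (2 : ℝ) ≠ 0) hs,
      ← hkT_dpK (κz := 5 / 8 * (x ^ 2) ^ 2) (by norm_num : (3 : ℝ) ≠ 0) hs,
      ← hkT_dpK (κz := 35 / 64 * (x ^ 2) ^ 3) (by norm_num : (4 : ℝ) ≠ 0) hs,
      ← hkT_dpK (κz := 63 / 128 * (x ^ 2) ^ 4) (by norm_num : (5 : ℝ) ≠ 0) hs,
      ← hkT_dpK (κz := 231 / 512 * (x ^ 2) ^ 5) (by norm_num : (6 : ℝ) ≠ 0) hs]
    ring
  · rw [hybT_nonpos hl, sw_neg hl]

/-- **the pair of block D** -/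
theorem fkPair {m : ℕ} {r τ τ' T : ℝ → ℝ} (hm : 4 ≤ m) (hr : IsProf r)
    (h : IsTrans m r τ τ' T) : FKPair m τ τ' := by
  obtain ⟨c', p', Ψ, Ψ', hP⟩ := hyb_pair hm hr h
  refine ⟨_, c', _, p', Ψ, Ψ', ?_, fun x hx b hb => hyb_line_le h hx hb⟩
  exact { hP with
    id := fun x hx => by
      have h1 := hP.id x hx
      have h2 := sqx_sq hx
      rw [hybT_dpS (by rw [h2]; ring)] at h1
      exact h1 }

/-- **block D: `OneDF m 1` from the pointwise test** -/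
theorem oneDF_of_test' {m : ℕ} (hm : 4 ≤ m)
    (hJ : ∀ r τ τ' T : ℝ → ℝ, IsProf r → IsTrans m r τ τ' T →
      (∫ y in (-1 : ℝ)..1, r y ^ (m - 1)) ^ m * aInt m ^ (m - 1) ≤
        aInt (m - 1) ^ m * (∫ y in (-1 : ℝ)..1, r y ^ m) ^ (m - 1) →
      ∀ x ∈ Ioo (0 : ℝ) 1, JTestAt m τ τ' x) : OneDF m 1 :=
  oneDF_of_test hm (fun _ _ _ _ hr hT => fkPair hm hr hT) hJ

end Vale.Agent.P237.AllN
end

section

/-!
# P237, block D: facts at a point, in the real variables of the regions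

`z = x²`, `s = √(1-x²)`, `l = log(τ/x)`, `u = xτ'/τ - 1`, `c = a_m/a_{m-1}`,
`N = m (e^{(l+log(1+u))/m} - 1) - l - u`, `G = 2(g₀(τ) - g₀(x) + z l/(s(1+s)²))`.
-/

open Set

namespace Vale.Agent.P237.AllN

open Alm

/-! ### bounds for `N` -/

theorem fa_N_ge {M l u : ℝ} (hM : 0 < M) : Real.log (1 + u) - u ≤ jN M l u := by
  unfold jN
  have h := Real.add_one_le_exp ((l + Real.log (1 + u)) / M)
  have h2 := mul_le_mul_of_nonneg_left h hM.le
  have h3 : M * ((l + Real.log (1 + u)) / M + 1) = l + Real.log (1 + u) + M := by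
    field_simp
  rw [h3] at h2
  linarith

theorem fa_N_ge2 {M l u : ℝ} (hM : 0 < M) (h0 : 0 ≤ l + Real.log (1 + u)) :
    Real.log (1 + u) - u + (l + Real.log (1 + u)) ^ 2 / (2 * M) ≤ jN M l u := by
  unfold jN
  have h := Real.quadratic_le_exp_of_nonneg (x := (l + Real.log (1 + u)) / M) (by positivity)
  have h2 := mul_le_mul_of_nonneg_left h hM.le
  have h3 : M * (1 + (l + Real.log (1 + u)) / M + ((l + Real.log (1 + u)) / M) ^ 2 / 2) =
      M + (l + Real.log (1 + u)) + (l + Real.log (1 + u)) ^ 2 / (2 * M) := by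
    field_simp
  rw [h3] at h2
  linarith only [h2]

/-! ### the package of facts -/

/-- facts at a point of a transport, real variables (everything but the `l`-steps) -/
structure FFacts (m : ℕ) (z s l u c : ℝ) : Prop where
  z0 : 0 < z
  z1 : z < 1
  s0 : 0 < s
  s1 : s < 1
  hs : s ^ 2 = 1 - z
  u0 : 0 < 1 + u
  us : u * s ≤ 1
  uw : 0 ≤ u → u ^ 2 ≤ 4 / 25 * (m * (z / s ^ 2))
  ul : -(m / 2 * (z / s ^ 2)) ≤ u
  lneg : l ≤ 0 → l ^ 2 ≤ 87 / 500 * m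
  le : z * Real.exp (2 * l) < 1
  c0 : 1 - 1 / (2 * (m : ℝ)) ≤ c
  c1 : c ≤ 1
  c2 : c ^ 2 ≤ ((m : ℝ) + 1) / ((m : ℝ) + 2)
  sm : m * Real.log s ≤ Real.log (1 + u)

variable {m : ℕ} {r τ τ' T : ℝ → ℝ} {x : ℝ}

theorem IsTrans.fa_exp (h : IsTrans m r τ τ' T) (hx : x ∈ Ioo (0 : ℝ) 1) :
    x * Real.exp (lf τ x) < 1 := by
  rw [← tau_eq_exp h hx]
  exact (h.mem x hx).2

theorem IsTrans.ffacts (hm : 15 ≤ m) (hr : IsProf r) (h : IsTrans m r τ τ' T)
    (hx : x ∈ Ioo (0 : ℝ) 1) :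
    FFacts m (x ^ 2) (sq x) (lf τ x) (uf τ τ' x) (fc m) := by
  have hx0 := hx.1
  have hs0 := sl_sq_pos (mem_neg hx)
  have hs2 := pin_sq_sq (Ioo_subset_Icc_self hx)
  have hz0 : 0 < x ^ 2 := by positivity
  refine ⟨hz0, by (by_contra nlg; linarith only [nlg, mul_pos (sub_pos.2 hx.2) (sub_pos.2 hx.2), mul_pos (sub_pos.2 hx0) (sub_pos.2 hx.2), mul_nonneg (sub_nonneg.2 (not_lt.1 nlg)) (le_of_lt (sub_pos.2 hx.2)), mul_nonneg (sub_nonneg.2 (not_lt.1 nlg)) (le_of_lt (sub_pos.2 hx0))]), hs0, by (by_contra nlg; linarith only [nlg, mul_pos (sub_pos.2 hs0) (sub_pos.2 hz0), mul_eq_zero_of_left (sub_eq_zero.2 hs2) (sq x - (0)), mul_nonneg (sub_nonneg.2 (not_lt.1 nlg)) (le_of_lt (sub_pos.2 hs0)), mul_nonneg (sq_nonneg (sq x : ℝ)) (sub_nonneg.2 (not_lt.1 nlg))]), hs2, uf_pos h hx, ?_,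
    fun hu => h.fin_u_sq' (by omega) hr hx hu, h.fin_u_ge_y (by omega) hr hx,
    fun hl => h.fin_l_sq hm hr hx hl, ?_, fc_ge (by omega), fc_le_one (by omega),
    fc_sq_le (by omega), ?_⟩
  · have := h.fin_u_inv hr hx
    rwa [le_div_iff₀ hs0] at this
  · have h1 := h.fa_exp hx
    have h2 : x ^ 2 * Real.exp (2 * lf τ x) = (x * Real.exp (lf τ x)) ^ 2 := by
      rw [mul_pow, ← Real.exp_nat_mul]
      push_cast
      rfl
    rw [h2]
    have h3 : 0 ≤ x * Real.exp (lf τ x) := by positivity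
    exact pow_lt_one₀ h3 h1 two_ne_zero
  · have h1 := h.fin_u_ge hr hx
    rw [← Real.log_pow]
    exact Real.log_le_log (by positivity) (by linarith)

theorem IsTrans.jG_eq (h : IsTrans m r τ τ' T) (hx : x ∈ Ioo (0 : ℝ) 1) :
    jG τ x = 2 * (bg (x * Real.exp (lf τ x)) - bg x +
      x ^ 2 / (sq x * (1 + sq x) ^ 2) * lf τ x) := by
  unfold jG
  rw [← tau_eq_exp h hx]

end Vale.Agent.P237.AllN
end

section

/-!
# P237, all dimensions: integrated slope bounds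

For the transport `τ` of a profile, `l = log(τ/x)` satisfies `l' = u/x` and `u ≤ 1/s`,
`u ≤ k x/s`.  Integrating from `x₃` to `x`:
`l(x) ≤ l(x₃) + log((x/(1+s))/(x₃/(1+s₃)))` and `l(x) ≤ l(x₃) + k (arcsin x - arcsin x₃)`.
-/

open MeasureTheory Metric Set Module Filter Topology

namespace Vale.Agent.P237.AllN

open Alm

variable {m : ℕ} {r τ τ' T : ℝ → ℝ} {x x3 : ℝ}

/-- derivative of `log (x/(1+s))` -/
theorem apx_hasDerivAt {x : ℝ} (hx : x ∈ Ioo (0 : ℝ) 1) :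
    HasDerivAt (fun t => Real.log (t / (1 + sq t))) (1 / (x * sq x)) x := by
  have hs := sqx_pos hx
  have hd := sqx_der hx
  have hx0 := hx.1
  have e1 : HasDerivAt (fun t => 1 + sq t) (-x / sq x) x := by
    simpa using hd.const_add 1
  have h1s : (1 + sq x) ≠ 0 := by positivity
  have e2 := ((hasDerivAt_id x).div e1 h1s).log (div_pos hx0 (by positivity)).ne'
  refine e2.congr_deriv ?_
  simp only [id, Pi.div_apply]
  have hxs := sqx_sq hx
  field_simp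
  linear_combination hxs

/-- derivative of `arcsin` in terms of `sq` -/
theorem apx_arcsin {x : ℝ} (hx : x ∈ Ioo (0 : ℝ) 1) :
    HasDerivAt Real.arcsin (1 / sq x) x := by
  have := Real.hasDerivAt_arcsin (x := x) (by linarith [hx.1]) (by linarith [hx.2])
  exact this

/-- monotone comparison -/
theorem apx_mono {f g f' g' : ℝ → ℝ} {a b : ℝ} (hab : a ≤ b)
    (hf : ∀ t ∈ Icc a b, HasDerivAt f (f' t) t) (hg : ∀ t ∈ Icc a b, HasDerivAt g (g' t) t)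
    (h : ∀ t ∈ Icc a b, f' t ≤ g' t) : f b - f a ≤ g b - g a := by
  have hm : MonotoneOn (fun t => g t - f t) (Icc a b) := by
    apply monotoneOn_of_deriv_nonneg (convex_Icc a b)
    · intro t ht
      exact ((hg t ht).sub (hf t ht)).continuousAt.continuousWithinAt
    · intro t ht
      rw [interior_Icc] at ht
      have ht' : t ∈ Icc a b := ⟨ht.1.le, ht.2.le⟩
      exact ((hg t ht').sub (hf t ht')).differentiableAt.differentiableWithinAt
    · intro t ht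
      rw [interior_Icc] at ht
      have ht' : t ∈ Icc a b := ⟨ht.1.le, ht.2.le⟩
      have := ((hg t ht').sub (hf t ht')).deriv
      have e : deriv (fun t => g t - f t) t = g' t - f' t := this
      rw [e]
      linarith [h t ht']
  have := hm ⟨le_rfl, hab⟩ ⟨hab, le_rfl⟩ hab
  linarith

/-- integrated slope bound, `u s ≤ 1` -/
theorem IsTrans.apx_log (hr : IsProf r) (h : IsTrans m r τ τ' T)
    (hx3 : 0 < x3) (h3x : x3 ≤ x) (hx1 : x < 1) :
    lf τ x ≤ lf τ x3 + (Real.log (x / (1 + sq x)) - Real.log (x3 / (1 + sq x3))) := by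
  have := apx_mono (f := lf τ) (g := fun t => Real.log (t / (1 + sq t)))
    (f' := fun t => uf τ τ' t / t) (g' := fun t => 1 / (t * sq t)) h3x
    (fun t ht => lf_hasDerivAt h ⟨by linarith [ht.1], by linarith [ht.2]⟩)
    (fun t ht => apx_hasDerivAt ⟨by linarith [ht.1], by linarith [ht.2]⟩)
    (fun t ht => by
      have ht' : t ∈ Ioo (0 : ℝ) 1 := ⟨by linarith [ht.1], by linarith [ht.2]⟩
      have h1 := h.pin_slope_one hr ht'
      have hs := sqx_pos ht'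
      have h0 := ht'.1
      rw [div_le_div_iff₀ h0 (by positivity)]
      nlinarith)
  linarith

/-- integrated slope bound, `u s ≤ k x` -/
theorem IsTrans.apx_arc (hm : 3 ≤ m) (hr : IsProf r) (h : IsTrans m r τ τ' T)
    (hx3 : 0 < x3) (h3x : x3 ≤ x) (hx1 : x < 1) :
    lf τ x ≤ lf τ x3 + (m : ℝ) / (2 * ((m : ℝ) + 1) * Slope.am m) *
      (Real.arcsin x - Real.arcsin x3) := by
  set k := (m : ℝ) / (2 * ((m : ℝ) + 1) * Slope.am m) with hk
  have := apx_mono (f := lf τ) (g := fun t => k * Real.arcsin t)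
    (f' := fun t => uf τ τ' t / t) (g' := fun t => k * (1 / sq t)) h3x
    (fun t ht => lf_hasDerivAt h ⟨by linarith [ht.1], by linarith [ht.2]⟩)
    (fun t ht => (apx_arcsin ⟨by linarith [ht.1], by linarith [ht.2]⟩).const_mul k)
    (fun t ht => by
      have ht' : t ∈ Ioo (0 : ℝ) 1 := ⟨by linarith [ht.1], by linarith [ht.2]⟩
      have h1 := h.pin_h4 hm hr ht'
      rw [← hk] at h1
      have hs := sqx_pos ht'
      have h0 := ht'.1
      rw [mul_one_div, div_le_div_iff₀ h0 hs]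
      exact h1)
  linarith

/-- the two bounds combined with a bound at `x₃` -/
theorem IsTrans.apx_log_of (hr : IsProf r) (h : IsTrans m r τ τ' T) {c : ℝ}
    (hx3 : 0 < x3) (h3x : x3 ≤ x) (hx1 : x < 1) (hc : lf τ x3 ≤ c) :
    lf τ x ≤ c + Real.log (x / (1 + sq x) * ((1 + sq x3) / x3)) := by
  have h1 := h.apx_log hr hx3 h3x hx1
  have hx : x ∈ Ioo (0 : ℝ) 1 := ⟨by linarith, hx1⟩
  have hx3' : x3 ∈ Ioo (0 : ℝ) 1 := ⟨hx3, by linarith⟩
  have hs := sqx_pos hx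
  have hs3 := sqx_pos hx3'
  have hx0 := hx.1
  have e : Real.log (x / (1 + sq x)) - Real.log (x3 / (1 + sq x3)) =
      Real.log (x / (1 + sq x) * ((1 + sq x3) / x3)) := by
    rw [← Real.log_div (by positivity) (by positivity)]
    congr 1
    field_simp
  rw [e] at h1
  linarith

/-- exponential form -/
theorem IsTrans.apx_exp_of (hr : IsProf r) (h : IsTrans m r τ τ' T) {c : ℝ}
    (hx3 : 0 < x3) (h3x : x3 ≤ x) (hx1 : x < 1) (hc : lf τ x3 ≤ c) :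
    τ x ≤ Real.exp c * (x ^ 2 / (1 + sq x)) * ((1 + sq x3) / x3) := by
  have h1 := h.apx_log_of hr hx3 h3x hx1 hc
  have hx : x ∈ Ioo (0 : ℝ) 1 := ⟨by linarith, hx1⟩
  have hx3' : x3 ∈ Ioo (0 : ℝ) 1 := ⟨hx3, by linarith⟩
  have hs := sqx_pos hx
  have hs3 := sqx_pos hx3'
  have hx0 := hx.1
  have h2 := Real.exp_le_exp.2 h1
  rw [exp_lf h hx, Real.exp_add, Real.exp_log (by positivity)] at h2
  rw [div_le_iff₀ hx0] at h2
  refine h2.trans (le_of_eq ?_)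
  ring

end Vale.Agent.P237.AllN
end

section

/-!
# P237: reduction of the a priori bound to a one-parameter inequality
-/

open MeasureTheory Metric Set Module Filter Topology

namespace Vale.Agent.P237.AllN

open Alm

/-- `C_m = a_{m-1}^m / a_m^{m-1}` -/
noncomputable def aprC (m : ℕ) : ℝ := Slope.am (m - 1) ^ m / Slope.am m ^ (m - 1)

theorem aprC_pos (m : ℕ) : 0 < aprC m :=
  div_pos (pow_pos (Slope.am_pos _) _) (pow_pos (Slope.am_pos _) _)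

theorem geo_zero {n : ℕ} (hn : 1 ≤ n) : geo n 0 = 1 := by
  obtain ⟨k, rfl⟩ : ∃ k, n = k + 1 := ⟨n - 1, by omega⟩
  unfold geo
  rw [Finset.sum_range_succ']
  simp

/-- The reduction, on the level of numbers. -/
theorem apr_red {m : ℕ} (hm : 1 ≤ m) {ω κ t P R : ℝ} (hω0 : 0 ≤ ω) (hω1 : ω ≤ 1)
    (ht0 : 0 ≤ t) (ht1 : t ≤ 1) (hκ : 0 ≤ κ)
    (h1 : κ * (geo m ω / m) ^ m * Slope.am m ^ (m - 1) ≤
      Slope.am (m - 1) ^ m * (geo (m + 1) ω / ((m : ℝ) + 1)) ^ (m - 1))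
    (h2 : t * geo (m + 1) (1 - (1 - ω) * t) = geo (m + 1) ω * P)
    (hR : 0 ≤ R) (hPR : P ≤ R)
    (H : ∀ b θ : ℝ, 0 < b → 0 ≤ θ → θ ≤ 1 → θ ^ (m + 1) = 1 - P * (1 - Real.exp (-b)) →
      ((m : ℝ) + 1) * (1 - θ) ≤ R * aplW ((m : ℝ) / ((m : ℝ) + 1)) b)
    (H' : ∀ θ : ℝ, 0 ≤ θ → θ ≤ 1 → θ ^ (m + 1) = 1 - P →
      ((m : ℝ) + 1) * (1 - θ) ≤ R * Real.exp ((m : ℝ) / ((m : ℝ) + 1))) :
    κ * t ≤ aprC m * R := by
  have hm0 : (0 : ℝ) < m := by exact_mod_cast hm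
  have hm1 : (0 : ℝ) < (m : ℝ) + 1 := by positivity
  have hA := Slope.am_pos m
  have hA1 := Slope.am_pos (m - 1)
  have hgm : 0 < geo m ω := geo_pos (by omega) hω0
  have hgn : 0 < geo (m + 1) ω := geo_pos (by omega) hω0
  set gm := geo m ω / m with hgmd
  set gn := geo (m + 1) ω / ((m : ℝ) + 1) with hgnd
  have hgm0 : 0 < gm := by (clear * - hgm hm; positivity)
  have hgn0 : 0 < gn := by (clear * - hgn hm; positivity)
  have hpow : gn ^ m = gn ^ (m - 1) * gn := by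
    conv_lhs => rw [show m = (m - 1) + 1 by omega, pow_succ]
  -- `κ ≤ C gn^(m-1)/gm^m`
  have hκC : κ * gm ^ m ≤ aprC m * gn ^ (m - 1) := by
    unfold aprC
    rw [div_mul_eq_mul_div, le_div_iff₀ (by positivity)]
    exact h1
  have hC := aprC_pos m
  -- the ratio
  have key : ∀ K : ℝ, 0 ≤ K → t ≤ K * (gm / gn) ^ m * gn → κ * t ≤ aprC m * K := by
    intro K hK0 hK
    have e1 : gn ^ m * (gm / gn) ^ m = gm ^ m := by
      rw [← mul_pow]
      congr 1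
      (clear * - hgn0 hgm0; field_simp)
    have h3 : κ * t ≤ κ * (K * (gm / gn) ^ m * gn) := mul_le_mul_of_nonneg_left hK hκ
    refine h3.trans ?_
    have h4 : κ * (K * (gm / gn) ^ m * gn) * gn ^ (m - 1) = K * (κ * gm ^ m) := by
      calc κ * (K * (gm / gn) ^ m * gn) * gn ^ (m - 1)
          = K * κ * ((gn ^ (m - 1) * gn) * (gm / gn) ^ m) := by ring
        _ = K * (κ * gm ^ m) := by rw [← hpow, e1]; ring
    have h5 : 0 < gn ^ (m - 1) := by (clear * - hgn hm; positivity)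
    refine le_of_mul_le_mul_right ?_ h5
    rw [h4]
    calc K * (κ * gm ^ m) ≤ K * (aprC m * gn ^ (m - 1)) := mul_le_mul_of_nonneg_left hκC hK0
      _ = aprC m * K * gn ^ (m - 1) := by ring
  apply key R hR
  set θ := 1 - (1 - ω) * t with hθ
  have hθ0 : 0 ≤ θ := by
    have : (1 - ω) * t ≤ 1 * 1 := mul_le_mul (by linarith only [hω0]) ht1 ht0 (by norm_num)
    rw [hθ]; linarith only [this]
  have hθ1 : θ ≤ 1 := by
    have : 0 ≤ (1 - ω) * t := mul_nonneg (by linarith only [hω1]) ht0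
    rw [hθ]; linarith only [this]
  -- `1 - θ^(m+1) = (1 - ω^(m+1)) P`
  have hmass : θ ^ (m + 1) = 1 - (1 - ω ^ (m + 1)) * P := by
    have e1 := geo_mul (m + 1) θ
    have e2 := geo_mul (m + 1) ω
    have e3 : 1 - θ = (1 - ω) * t := by rw [hθ]; ring
    rw [e3] at e1
    have : (t * geo (m + 1) θ) * (1 - ω) = (1 - ω ^ (m + 1)) * P := by
      rw [h2, ← e2]; ring
    linarith only [e1, this]
  rcases hω1.eq_or_lt with hw | hw
  · -- `ω = 1`
    have e1 : geo (m + 1) θ = (m : ℝ) + 1 := by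
      have : θ = 1 := by rw [hθ, hw]; ring
      rw [this, geo_one]; push_cast; ring
    have e2 : geo (m + 1) ω = (m : ℝ) + 1 := by rw [hw, geo_one]; push_cast; ring
    have e3 : geo m ω = m := by rw [hw, geo_one]
    have hgm1 : gm = 1 := by rw [hgmd, e3]; exact div_self hm0.ne'
    have hgn1 : gn = 1 := by rw [hgnd, e2]; exact div_self hm1.ne'
    rw [e1, e2] at h2
    have : t = P := by
      have := mul_comm ((m : ℝ) + 1) P
      rw [this] at h2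
      exact mul_right_cancel₀ hm1.ne' h2
    rw [hgm1, hgn1, this]
    simpa only [ne_eq, one_ne_zero, not_false_eq_true, div_self, one_pow, mul_one, ge_iff_le] using hPR
  · have h1w : 0 < 1 - ω := by linarith only [hw]
    have ht : t = (1 - θ) / (1 - ω) := by
      rw [eq_div_iff h1w.ne', hθ]; ring
    rcases hω0.eq_or_lt with hw0 | hw0
    · -- `ω = 0`
      have e2 : geo (m + 1) ω = 1 := by rw [← hw0]; exact geo_zero (by omega)
      have e3 : geo m ω = 1 := by rw [← hw0]; exact geo_zero hm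
      have hth : θ ^ (m + 1) = 1 - P := by
        rw [hmass, ← hw0]; simp
      have h6 := H' θ hθ0 hθ1 hth
      have h7 : gm / gn = ((m : ℝ) + 1) / m := by
        rw [hgmd, hgnd, e2, e3]; field_simp
      have h8 : Real.exp ((m : ℝ) / ((m : ℝ) + 1)) ≤ (((m : ℝ) + 1) / m) ^ m := by
        have h9 : Real.exp (1 / ((m : ℝ) + 1)) ≤ ((m : ℝ) + 1) / m := by
          have h10 : (m : ℝ) / ((m : ℝ) + 1) ≤ Real.exp (-(1 / ((m : ℝ) + 1))) := by
            have := Real.add_one_le_exp (-(1 / ((m : ℝ) + 1)))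
            refine le_trans (le_of_eq ?_) this
            field_simp
            ring
          rw [Real.exp_neg, le_inv_comm₀ (by positivity) (Real.exp_pos _)] at h10
          rwa [inv_div] at h10
        have h11 := pow_le_pow_left₀ (Real.exp_pos _).le h9 m
        rw [← Real.exp_nat_mul] at h11
        refine le_trans (le_of_eq ?_) h11
        congr 1
        ring
      rw [h7, hgnd, e2, ht]
      have e5 : (1 - θ) / (1 - ω) = ((m : ℝ) + 1) * (1 - θ) * (1 / ((m : ℝ) + 1)) := by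
        rw [← hw0]; field_simp; simp
      rw [e5]
      apply mul_le_mul_of_nonneg_right _ (by positivity)
      exact h6.trans (mul_le_mul_of_nonneg_left h8 hR)
    · -- `0 < ω < 1`
      set b := -(((m : ℝ) + 1) * Real.log ω) with hb
      have hlog : Real.log ω < 0 := Real.log_neg hw0 hw
      have hb0 : 0 < b := by
        rw [hb]
        have := mul_pos_of_neg_of_neg (neg_neg_of_pos hm1) hlog
        linarith only [this]
      have hexp : Real.exp (-b) = ω ^ (m + 1) := by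
        have : -b = ((m + 1 : ℕ) : ℝ) * Real.log ω := by rw [hb]; push_cast; ring
        rw [this, Real.exp_nat_mul, Real.exp_log hw0]
      set p := (m : ℝ) / ((m : ℝ) + 1) with hp
      have hp0 : 0 < p := by positivity
      have hp1 : p ≤ 1 := by rw [hp, div_le_one hm1]; linarith only []
      have hexp2 : Real.exp (-(p * b)) = ω ^ m := by
        have : -(p * b) = (m : ℝ) * Real.log ω := by rw [hb, hp]; (clear * - hm; field_simp)
        rw [this, Real.exp_nat_mul, Real.exp_log hw0]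
      have hth : θ ^ (m + 1) = 1 - P * (1 - Real.exp (-b)) := by
        rw [hmass, hexp]; ring
      have h6 := H b θ hb0 hθ0 hθ1 hth
      have hJ := apl_jensen hp0 hp1 hb0
      rw [hexp, hexp2] at hJ
      have hσ : 0 < 1 - ω ^ (m + 1) := by
        have := pow_lt_one₀ hw0.le hw (n := m + 1) (by omega)
        linarith only [this]
      have hσm : 0 < 1 - ω ^ m := by
        have := pow_lt_one₀ hw0.le hw (n := m) (by omega)
        linarith only [this]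
      have e6 : geo (m + 1) ω = (1 - ω ^ (m + 1)) / (1 - ω) := by
        rw [eq_div_iff h1w.ne']; exact geo_mul _ _
      have e7 : geo m ω = (1 - ω ^ m) / (1 - ω) := by
        rw [eq_div_iff h1w.ne']; exact geo_mul _ _
      have e8 : gn / gm = p * (1 - ω ^ (m + 1)) / (1 - ω ^ m) := by
        rw [hgmd, hgnd, e6, e7, hp]; (clear * - hw hσm hm hσ; field_simp)
      rw [← e8] at hJ
      set h := 1 - b / (Real.exp b - 1) with hh
      have h12 : Real.exp (p * h) ≤ (gm / gn) ^ m := by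
        have h13 : Real.exp ((1 - p) * h) ≤ gm / gn := by
          rw [Real.exp_neg, le_inv_comm₀ (by (clear * - hgn hm hgm; positivity)) (Real.exp_pos _), inv_div] at hJ
          exact hJ
        have h14 := pow_le_pow_left₀ (Real.exp_pos _).le h13 m
        rw [← Real.exp_nat_mul] at h14
        refine le_trans (le_of_eq ?_) h14
        congr 1
        rw [hp]; field_simp; ring
      have e9 : gn = (1 - ω ^ (m + 1)) / (((m : ℝ) + 1) * (1 - ω)) := by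
        rw [hgnd, e6]; (clear * - hm hw hσ; field_simp)
      have h15 : ((m : ℝ) + 1) * (1 - θ) ≤ R * ((1 - ω ^ (m + 1)) * (gm / gn) ^ m) := by
        refine h6.trans ?_
        apply mul_le_mul_of_nonneg_left _ hR
        unfold aplW
        rw [hexp]
        exact mul_le_mul_of_nonneg_left h12 hσ.le
      rw [ht, div_le_iff₀ h1w]
      have e10 : R * (gm / gn) ^ m * gn * (1 - ω) =
          R * ((1 - ω ^ (m + 1)) * (gm / gn) ^ m) / ((m : ℝ) + 1) := by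
        have : gn * (1 - ω) = (1 - ω ^ (m + 1)) / ((m : ℝ) + 1) := by
          rw [e9]; (clear * - hw hm hσ; field_simp)
        calc R * (gm / gn) ^ m * gn * (1 - ω) = R * (gm / gn) ^ m * (gn * (1 - ω)) := by ring
          _ = _ := by rw [this]; ring
      rw [e10, le_div_iff₀ hm1]
      linarith only [h15]

end Vale.Agent.P237.AllN
end

section

/-!
# P237: the one-cell a priori bound
-/

open MeasureTheory Metric Set Module Filter Topology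

namespace Vale.Agent.P237.AllN

open Alm

theorem apc_log_one_add_le {y : ℝ} (hy : 0 ≤ y) :
    Real.log (1 + y) ≤ y * (2 + y) / (2 * (1 + y)) := by
  have h1 : (0 : ℝ) < 1 + y := by (clear * - hy; linarith)
  have key : MonotoneOn (fun t : ℝ => t * (2 + t) / (2 * (1 + t)) - Real.log (1 + t)) (Ici 0) := by
    have hd : ∀ t ∈ Ici (0 : ℝ), HasDerivAt
        (fun t : ℝ => t * (2 + t) / (2 * (1 + t)) - Real.log (1 + t))
        (((1 * (2 + t) + t * 1) * (2 * (1 + t)) - t * (2 + t) * (2 * 1)) / (2 * (1 + t)) ^ 2 -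
          1 / (1 + t)) t := by
      intro t ht
      have ht' : (0 : ℝ) < 1 + t := by linarith [mem_Ici.1 ht]
      have a1 : HasDerivAt (fun t : ℝ => t * (2 + t)) (1 * (2 + t) + t * 1) t :=
        (hasDerivAt_id t).mul ((hasDerivAt_id t).const_add 2)
      have a2 : HasDerivAt (fun t : ℝ => 2 * (1 + t)) (2 * 1) t :=
        ((hasDerivAt_id t).const_add 1).const_mul 2
      have a3 : HasDerivAt (fun t : ℝ => Real.log (1 + t)) (1 / (1 + t)) t :=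
        ((hasDerivAt_id t).const_add 1).log ht'.ne'
      exact (a1.div a2 (by positivity)).sub a3
    apply monotoneOn_of_deriv_nonneg (convex_Ici 0)
    · intro t ht
      exact (hd t ht).continuousAt.continuousWithinAt
    · intro t ht
      rw [interior_Ici] at ht
      exact (hd t (mem_Ici.2 (le_of_lt ht))).differentiableAt.differentiableWithinAt
    · intro t ht
      rw [interior_Ici] at ht
      rw [(hd t (mem_Ici.2 (le_of_lt ht))).deriv]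
      have ht' : (0 : ℝ) < 1 + t := by linarith [mem_Ioi.1 ht]
      have : ((1 * (2 + t) + t * 1) * (2 * (1 + t)) - t * (2 + t) * (2 * 1)) / (2 * (1 + t)) ^ 2 -
          1 / (1 + t) = t ^ 2 / (2 * (1 + t) ^ 2) := by
        field_simp
        ring
      rw [this]
      (clear * - ht'; positivity)
  have := key (mem_Ici.2 le_rfl) (mem_Ici.2 hy) hy
  simp only [add_zero, Real.log_one, zero_mul, zero_div, sub_zero] at this
  linarith only [this]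

/-- `C_m e^{1/(m+1)} ≤ √(π e/(2m))` -/
theorem aprC_le {m : ℕ} (hm : 2 ≤ m) :
    aprC m * Real.exp (1 / ((m : ℝ) + 1)) ≤ √(Real.pi / 2) * Real.exp (1 / 2) / √(m : ℝ) := by
  have hm0 : (0 : ℝ) < m := by exact_mod_cast (by omega : 0 < m)
  have hm2 : (2 : ℝ) ≤ m := by exact_mod_cast hm
  have hA := Slope.am_pos m
  have hA1 := Slope.am_pos (m - 1)
  have hf := fc_pos m
  have hpi := Real.pi_pos
  set L := Real.log (1 + 1 / (m : ℝ)) with hL
  have hL' : L = Real.log ((m : ℝ) + 1) - Real.log m := by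
    rw [hL, ← Real.log_div (by positivity) hm0.ne']
    congr 1
    field_simp
  -- log of the square identity
  have e1 : 2 * Real.log (Slope.am m) = Real.log (fc m) + (Real.log (Real.pi / 2) -
      Real.log ((m : ℝ) + 1)) := by
    have := congrArg Real.log (fc_mul (m := m) (by omega))
    rw [Real.log_pow, Real.log_mul hf.ne' (by positivity)] at this
    push_cast at this
    rw [this]
    congr 1
    rw [← Real.log_div (by positivity) (by positivity)]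
    congr 1
    field_simp
  have e2 : Real.log (fc m) = Real.log (Slope.am m) - Real.log (Slope.am (m - 1)) := by
    unfold fc
    exact Real.log_div hA.ne' hA1.ne'
  have e3 : Real.log (aprC m) = (m : ℝ) * Real.log (Slope.am (m - 1)) -
      ((m : ℝ) - 1) * Real.log (Slope.am m) := by
    unfold aprC
    rw [Real.log_div (by (clear * - hA1; positivity)) (by positivity), Real.log_pow, Real.log_pow,
      Nat.cast_sub (by omega)]
    push_cast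
    ring
  have h4 : -L ≤ 2 * Real.log (fc m) := by
    have h5 := fc_sq_ge (m := m) (by omega)
    have h6 := Real.log_le_log (by positivity) h5
    rw [Real.log_pow, Real.log_div hm0.ne' (by positivity)] at h6
    push_cast at h6
    rw [hL']
    linarith only [h6]
  have h7 : ((m : ℝ) - 3 / 2) * L ≤ 1 - 2 / ((m : ℝ) + 1) := by
    have h8 := apc_log_one_add_le (y := 1 / (m : ℝ)) (by positivity)
    rw [← hL] at h8
    have h9 : (0 : ℝ) ≤ (m : ℝ) - 3 / 2 := by linarith only [hm2]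
    refine (mul_le_mul_of_nonneg_left h8 h9).trans ?_
    have e : 1 / (m : ℝ) * (2 + 1 / (m : ℝ)) / (2 * (1 + 1 / (m : ℝ))) =
        (2 * (m : ℝ) + 1) / (2 * m * ((m : ℝ) + 1)) := by
      (clear * - hm; field_simp)
    rw [e]
    have e' : 1 - 2 / ((m : ℝ) + 1) - ((m : ℝ) - 3 / 2) * ((2 * (m : ℝ) + 1) /
        (2 * m * ((m : ℝ) + 1))) = (3 / 2) / (2 * m * ((m : ℝ) + 1)) := by
      field_simp
      ring
    have : (0 : ℝ) ≤ (3 / 2) / (2 * m * ((m : ℝ) + 1)) := by positivity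
    linarith only [e', this]
  have h10 : Real.log (aprC m) + 1 / ((m : ℝ) + 1) ≤
      1 / 2 * Real.log (Real.pi / 2) + 1 / 2 - 1 / 2 * Real.log m := by
    have h11 : Real.log (aprC m) = 1 / 2 * (Real.log (Real.pi / 2) - Real.log ((m : ℝ) + 1)) -
        ((m : ℝ) - 1 / 2) * Real.log (fc m) := by
      rw [e3]
      linear_combination (1 / 2 : ℝ) * e1 + (m : ℝ) * e2
    have h12 : -(((m : ℝ) - 1 / 2) * Real.log (fc m)) ≤ ((m : ℝ) - 1 / 2) * (L / 2) := by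
      have := mul_le_mul_of_nonneg_left (show -Real.log (fc m) ≤ L / 2 by linarith only [h4])
        (show (0 : ℝ) ≤ (m : ℝ) - 1 / 2 by linarith only [hm2])
      linarith only [this]
    have h13 : 1 / ((m : ℝ) + 1) = 1 / 2 * (2 / ((m : ℝ) + 1)) := by ring
    rw [h11, h13]
    have : Real.log ((m : ℝ) + 1) = L + Real.log m := by rw [hL']; ring
    rw [this]
    linarith only [h7, h12]
  have hC := aprC_pos m
  have h14 := Real.exp_le_exp.2 h10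
  rw [Real.exp_add, Real.exp_log hC] at h14
  refine h14.trans (le_of_eq ?_)
  rw [Real.exp_sub, Real.exp_add]
  have s1 : Real.exp (1 / 2 * Real.log (Real.pi / 2)) = √(Real.pi / 2) := by
    rw [Real.sqrt_eq_rpow, Real.rpow_def_of_pos (by positivity)]
    congr 1
    ring
  have s2 : Real.exp (1 / 2 * Real.log m) = √(m : ℝ) := by
    rw [Real.sqrt_eq_rpow, Real.rpow_def_of_pos hm0]
    congr 1
    ring
  rw [s1, s2]

theorem aplW_pos {p b : ℝ} (hb : 0 < b) : 0 < aplW p b := by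
  unfold aplW
  have : Real.exp (-b) < 1 := Real.exp_lt_one_iff.2 (by linarith only [hb])
  exact mul_pos (by linarith only [this]) (Real.exp_pos _)

theorem aplW_le_exp {p b : ℝ} (hp : 0 ≤ p) (hb : 0 < b) : aplW p b ≤ Real.exp p := by
  unfold aplW
  have h1 : 1 - Real.exp (-b) ≤ 1 := by linarith [Real.exp_pos (-b)]
  have h2 : 0 < Real.exp b - 1 := by
    have := Real.add_one_lt_exp hb.ne'
    linarith only [hb, this]
  have h3 : Real.exp (p * (1 - b / (Real.exp b - 1))) ≤ Real.exp p := by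
    apply Real.exp_le_exp.2
    have : 0 ≤ b / (Real.exp b - 1) := by positivity
    nlinarith only [hp, this]
  have h4 : 0 ≤ 1 - Real.exp (-b) := by
    have : Real.exp (-b) < 1 := Real.exp_lt_one_iff.2 (by linarith)
    linarith
  calc _ ≤ 1 * Real.exp p := mul_le_mul h1 h3 (Real.exp_pos _).le zero_le_one
    _ = Real.exp p := one_mul _

theorem aplW_one_le {q b : ℝ} (hq0 : 0 ≤ q) (hb : 0 < b) :
    aplW 1 b ≤ aplW (1 - q) b * Real.exp q := by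
  unfold aplW
  have h2 : 0 < Real.exp b - 1 := by
    have := Real.add_one_lt_exp hb.ne'
    linarith
  have h4 : 0 ≤ 1 - Real.exp (-b) := by
    have : Real.exp (-b) < 1 := Real.exp_lt_one_iff.2 (by linarith)
    linarith
  rw [mul_assoc, ← Real.exp_add]
  apply mul_le_mul_of_nonneg_left _ h4
  apply Real.exp_le_exp.2
  have : 0 ≤ b / (Real.exp b - 1) := by positivity
  linarith only [mul_nonneg (sub_nonneg.2 hq0) (sub_nonneg.2 this)]

/-- The one-cell bound, on the level of numbers. -/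
theorem apr_cell {m : ℕ} (hm : 2 ≤ m) {ω κ t P b₁ : ℝ} (hω0 : 0 ≤ ω) (hω1 : ω ≤ 1)
    (ht0 : 0 ≤ t) (ht1 : t ≤ 1) (hκ : 0 ≤ κ)
    (h1 : κ * (geo m ω / m) ^ m * Slope.am m ^ (m - 1) ≤
      Slope.am (m - 1) ^ m * (geo (m + 1) ω / ((m : ℝ) + 1)) ^ (m - 1))
    (h2 : t * geo (m + 1) (1 - (1 - ω) * t) = geo (m + 1) ω * P)
    (hP0 : 0 ≤ P) (hP1 : P ≤ 1) (hb : Real.exp 1 ≤ b₁) (hbn : b₁ ≤ (m : ℝ) + 1)
    (hβ : (1 - b₁ / ((m : ℝ) + 1)) ^ (m + 1) ≤ 1 - P) :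
    κ * t ≤ √(Real.pi / 2) * Real.exp (1 / 2) / √(m : ℝ) * (b₁ / aplW 1 b₁) := by
  have hm0 : (0 : ℝ) < m := by exact_mod_cast (by omega : 0 < m)
  have hm1 : (0 : ℝ) < (m : ℝ) + 1 := by positivity
  have hb0 : 0 < b₁ := (Real.exp_pos 1).trans_le hb
  set p := (m : ℝ) / ((m : ℝ) + 1) with hp
  have hp0 : 0 ≤ p := by positivity
  have hp1 : p ≤ 1 := by rw [hp, div_le_one hm1]; linarith only []
  have hW := aplW_pos (p := p) hb0
  have hW1 := aplW_pos (p := 1) hb0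
  have hbase : 0 ≤ 1 - b₁ / ((m : ℝ) + 1) := by
    rw [sub_nonneg, div_le_one hm1]; exact hbn
  have hR : 0 ≤ b₁ / aplW p b₁ := by (clear * - hb0 hW; positivity)
  have hWe : aplW p b₁ ≤ b₁ := by
    refine (aplW_le_exp hp0 hb0).trans ((Real.exp_le_exp.2 hp1).trans hb)
  -- `(m+1)(1-θ) ≤ b₁` as soon as `1 - P ≤ θ^(m+1)`
  have hcap : ∀ θ : ℝ, 0 ≤ θ → 1 - P ≤ θ ^ (m + 1) → ((m : ℝ) + 1) * (1 - θ) ≤ b₁ := by
    intro θ hθ0 hθ
    have h3 : 1 - b₁ / ((m : ℝ) + 1) ≤ θ := by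
      by_contra hc
      push Not at hc
      have := pow_lt_pow_left₀ hc hθ0 (n := m + 1) (by omega)
      linarith only [hβ, hθ, this]
    have h4 : ((m : ℝ) + 1) * (1 - θ) ≤ ((m : ℝ) + 1) * (b₁ / ((m : ℝ) + 1)) :=
      mul_le_mul_of_nonneg_left (by linarith only [h3]) hm1.le
    rwa [mul_div_cancel₀ _ hm1.ne'] at h4
  have hred := apr_red (m := m) (by omega) hω0 hω1 ht0 ht1 hκ h1 h2 hR
    (P := P) (hP1.trans (by rw [one_le_div hW]; exact hWe)) ?_ ?_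
  · -- conclusion
    refine hred.trans ?_
    have h5 := aplW_one_le (q := 1 / ((m : ℝ) + 1)) (by positivity) hb0
    have e1 : 1 - 1 / ((m : ℝ) + 1) = p := by rw [hp]; field_simp; ring
    rw [e1] at h5
    have h6 : b₁ / aplW p b₁ ≤ Real.exp (1 / ((m : ℝ) + 1)) * (b₁ / aplW 1 b₁) := by
      rw [mul_div_assoc', div_le_div_iff₀ hW hW1]
      calc b₁ * aplW 1 b₁ ≤ b₁ * (aplW p b₁ * Real.exp (1 / ((m : ℝ) + 1))) :=
            mul_le_mul_of_nonneg_left h5 hb0.le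
        _ = _ := by ring
    calc aprC m * (b₁ / aplW p b₁) ≤
          aprC m * (Real.exp (1 / ((m : ℝ) + 1)) * (b₁ / aplW 1 b₁)) :=
          mul_le_mul_of_nonneg_left h6 (aprC_pos m).le
      _ = aprC m * Real.exp (1 / ((m : ℝ) + 1)) * (b₁ / aplW 1 b₁) := by ring
      _ ≤ _ := mul_le_mul_of_nonneg_right (aprC_le hm) (by (clear * - hb0 hW1; positivity))
  · intro b θ hb' hθ0 hθ1 hθ
    have hσ : 0 < 1 - Real.exp (-b) := by
      have : Real.exp (-b) < 1 := Real.exp_lt_one_iff.2 (by linarith only [hb'])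
      linarith only [this]
    rcases le_total b b₁ with hbb | hbb
    · have h7 : Real.exp (-b) ≤ θ ^ (m + 1) := by
        rw [hθ]
        have : P * (1 - Real.exp (-b)) ≤ 1 * (1 - Real.exp (-b)) :=
          mul_le_mul_of_nonneg_right hP1 hσ.le
        linarith only [this]
      have hθp : 0 < θ := by
        rcases hθ0.eq_or_lt with h0 | h0
        · rw [← h0, zero_pow (by omega)] at h7
          exact absurd h7 (not_le.2 (Real.exp_pos _))
        · exact h0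
      have h8 := Real.log_le_log (Real.exp_pos _) h7
      rw [Real.log_exp, Real.log_pow] at h8
      push_cast at h8
      have h9 : Real.log θ ≤ θ - 1 := Real.log_le_sub_one_of_pos hθp
      have h10 : ((m : ℝ) + 1) * (1 - θ) ≤ b := by nlinarith only [h8, h9]
      refine h10.trans ?_
      rw [div_mul_eq_mul_div, le_div_iff₀ hW]
      exact aplW_div hp0 hp1 hb' hbb
    · have h11 : 1 - P ≤ θ ^ (m + 1) := by
        rw [hθ]
        have : P * (1 - Real.exp (-b)) ≤ P * 1 :=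
          mul_le_mul_of_nonneg_left (by linarith only [Real.exp_pos (-b)]) hP0
        linarith only [this]
      refine (hcap θ hθ0 h11).trans ?_
      rw [div_mul_eq_mul_div, le_div_iff₀ hW]
      exact mul_le_mul_of_nonneg_left (aplW_mono hp0 hb0 hbb) hb0.le
  · intro θ hθ0 hθ1 hθ
    refine (hcap θ hθ0 hθ.ge).trans ?_
    rw [div_mul_eq_mul_div, le_div_iff₀ hW]
    exact mul_le_mul_of_nonneg_left (aplW_le_exp hp0 hb0) hb0.le

end Vale.Agent.P237.AllN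
end

section

/-!
# P237: a priori bound, central part (comparison with the truncated cylinder)
-/

open MeasureTheory Metric Set Module Filter Topology

namespace Vale.Agent.P237.AllN

open Alm

variable {m : ℕ} {r τ τ' T : ℝ → ℝ} {x : ℝ}

/-- `e^{-v} ≤ 1 - v + v²/2 - v³/6 + v⁴/24` -/
theorem apd_exp_neg_le {v : ℝ} (hv : 0 ≤ v) :
    Real.exp (-v) ≤ 1 - v + v ^ 2 / 2 - v ^ 3 / 6 + v ^ 4 / 24 := by
  have hd : ∀ t : ℝ, HasDerivAt
      (fun t : ℝ => (1 - t + t ^ 2 / 2 - t ^ 3 / 6 + t ^ 4 / 24) * Real.exp t)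
      (((-1 + t - t ^ 2 / 2 + t ^ 3 / 6) * Real.exp t) +
        (1 - t + t ^ 2 / 2 - t ^ 3 / 6 + t ^ 4 / 24) * Real.exp t) t := by
    intro t
    have a1 : HasDerivAt (fun t : ℝ => 1 - t + t ^ 2 / 2 - t ^ 3 / 6 + t ^ 4 / 24)
        (-1 + t - t ^ 2 / 2 + t ^ 3 / 6) t := by
      have b1 := ((hasDerivAt_id t).const_sub 1)
      have b2 := ((hasDerivAt_id t).pow 2).div_const 2
      have b3 := ((hasDerivAt_id t).pow 3).div_const 6
      have b4 := ((hasDerivAt_id t).pow 4).div_const 24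
      have b5 := ((b1.add b2).sub b3).add b4
      refine b5.congr_deriv ?_
      simp only [id]
      norm_num
      ring
    exact a1.mul (Real.hasDerivAt_exp t)
  have key : MonotoneOn
      (fun t : ℝ => (1 - t + t ^ 2 / 2 - t ^ 3 / 6 + t ^ 4 / 24) * Real.exp t) (Ici 0) := by
    apply monotoneOn_of_deriv_nonneg (convex_Ici 0)
    · intro t _
      exact (hd t).continuousAt.continuousWithinAt
    · intro t _
      exact (hd t).differentiableAt.differentiableWithinAt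
    · intro t _
      rw [(hd t).deriv]
      have e : (((-1 + t - t ^ 2 / 2 + t ^ 3 / 6) * Real.exp t) +
        (1 - t + t ^ 2 / 2 - t ^ 3 / 6 + t ^ 4 / 24) * Real.exp t) = t ^ 4 / 24 * Real.exp t := by
        ring
      rw [e]
      (clear * -; positivity)
  have h1 := key (mem_Ici.2 le_rfl) (mem_Ici.2 hv) hv
  simp only [Real.exp_zero] at h1
  rw [Real.exp_neg, inv_le_iff_one_le_mul₀ (Real.exp_pos v)]
  norm_num at h1
  linarith only [h1]

/-- `sq t ^ m ≤ e^{-m t²/2}` -/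
theorem apd_sq_le (m : ℕ) {t : ℝ} (ht : t ∈ Icc (0 : ℝ) 1) :
    sq t ^ m ≤ Real.exp (-((m : ℝ) * t ^ 2 / 2)) := by
  have h1 : sq t ≤ Real.exp (-(t ^ 2 / 2)) := by
    apply le_of_sq_le_sq _ (Real.exp_pos _).le
    rw [pin_sq_sq ht, ← Real.exp_nat_mul]
    have := Real.add_one_le_exp (((2 : ℕ) : ℝ) * -(t ^ 2 / 2))
    push_cast at this ⊢
    linarith only [this]
  have h2 := pow_le_pow_left₀ (cn_sq_nonneg t) h1 m
  rw [← Real.exp_nat_mul] at h2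
  refine h2.trans (le_of_eq ?_)
  congr 1
  ring

/-- `M(w) = 1 - w/6 + w²/40 - w³/336 + w⁴/3456` -/
noncomputable def apM (w : ℝ) : ℝ := 1 - w / 6 + w ^ 2 / 40 - w ^ 3 / 336 + w ^ 4 / 3456

/-- `∫₀ˣ s^m ≤ x M(m x²)` -/
theorem apd_int_le (m : ℕ) (hx0 : 0 ≤ x) (hx1 : x ≤ 1) :
    (∫ t in (0 : ℝ)..x, sq t ^ m) ≤ x * apM ((m : ℝ) * x ^ 2) := by
  have hm : (0 : ℝ) ≤ m := Nat.cast_nonneg m
  have h := pin_P_le (m := m) (x := x) 5
    (fun i => match i with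
      | 0 => 1
      | 1 => -((m : ℝ) / 2)
      | 2 => (m : ℝ) ^ 2 / 8
      | 3 => -((m : ℝ) ^ 3 / 48)
      | 4 => (m : ℝ) ^ 4 / 384
      | _ => 0) hx0 (fun t ht => by
      refine (apd_sq_le m ⟨ht.1, ht.2.trans hx1⟩).trans ?_
      refine (apd_exp_neg_le (by (clear * -; positivity))).trans (le_of_eq ?_)
      simp only [Finset.sum_range_succ, Finset.sum_range_zero]
      ring)
  refine h.trans (le_of_eq ?_)
  congr 1
  unfold apM
  simp only [Finset.sum_range_succ, Finset.sum_range_zero]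
  push_cast
  ring

/-- `(a_{m-1}/a_m)^m ≤ √e` -/
theorem apd_fc_pow (hm : 1 ≤ m) : (1 / fc m) ^ m ≤ Real.exp (1 / 2) := by
  have hm0 : (0 : ℝ) < m := by exact_mod_cast hm
  have hf := fc_pos m
  have h1 := fc_sq_ge hm
  have h2 : 1 / fc m ≤ Real.exp (1 / (2 * (m : ℝ))) := by
    apply le_of_sq_le_sq _ (Real.exp_pos _).le
    rw [div_pow, one_pow, ← Real.exp_nat_mul]
    have h3 : 1 / fc m ^ 2 ≤ 1 + 1 / (m : ℝ) := by
      rw [div_le_iff₀ (by positivity)]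
      have e : (m : ℝ) / ((m : ℝ) + 1) * (1 + 1 / (m : ℝ)) = 1 := by field_simp
      calc (1 : ℝ) = (m : ℝ) / ((m : ℝ) + 1) * (1 + 1 / (m : ℝ)) := e.symm
        _ ≤ fc m ^ 2 * (1 + 1 / (m : ℝ)) := mul_le_mul_of_nonneg_right h1 (by positivity)
        _ = _ := by ring
    have h4 := Real.add_one_le_exp (((2 : ℕ) : ℝ) * (1 / (2 * (m : ℝ))))
    have e2 : ((2 : ℕ) : ℝ) * (1 / (2 * (m : ℝ))) = 1 / (m : ℝ) := by
      push_cast
      field_simp
    rw [e2] at h4 ⊢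
    linarith only [h3, h4]
  have h5 := pow_le_pow_left₀ (by positivity) h2 m
  rw [← Real.exp_nat_mul] at h5
  refine h5.trans (le_of_eq ?_)
  congr 1
  field_simp

/-- limit of `apl_cyl` -/
theorem apd_cyl_inf {p P : ℝ} (hp : 48 / 49 ≤ p) (hp1 : p ≤ 1) (hP0 : 0 ≤ P) (hP : P ≤ 87 / 100) :
    -Real.log (1 - P) ≤ P * Real.exp p := by
  have h1 : Tendsto (fun b : ℝ => -Real.log (1 - P * (1 - Real.exp (-b)))) atTop
      (𝓝 (-Real.log (1 - P * (1 - 0)))) := by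
    have h2 : Tendsto (fun b : ℝ => Real.exp (-b)) atTop (𝓝 0) :=
      Real.tendsto_exp_neg_atTop_nhds_zero
    have h3 : Tendsto (fun b : ℝ => 1 - P * (1 - Real.exp (-b))) atTop (𝓝 (1 - P * (1 - 0))) :=
      ((h2.const_sub 1).const_mul P).const_sub 1
    exact ((Real.continuousAt_log (by norm_num; linarith only [hP])).tendsto.comp h3).neg
  rw [sub_zero, mul_one] at h1
  refine le_of_tendsto h1 ?_
  filter_upwards [eventually_gt_atTop 0] with b hb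
  exact (apl_cyl hp hp1 hP0 hP hb).trans
    (mul_le_mul_of_nonneg_left (aplW_le_exp (by linarith only [hp]) hb) hP0)

/-- **central bound** -/
theorem IsTrans.apr_center (hm : 48 ≤ m) (hr : IsProf r) (h : IsTrans m r τ τ' T)
    (hN : (∫ y in (-1 : ℝ)..1, r y ^ (m - 1)) ^ m * aInt m ^ (m - 1) ≤
      aInt (m - 1) ^ m * (∫ y in (-1 : ℝ)..1, r y ^ m) ^ (m - 1))
    (hx : x ∈ Ioo (0 : ℝ) 1) (hP : (∫ t in (0 : ℝ)..x, sq t ^ m) ≤ 87 / 100 * Slope.am m) :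
    τ x ≤ Real.exp (1 / 2) * (x * apM ((m : ℝ) * x ^ 2)) := by
  have hm0 : (0 : ℝ) < m := by exact_mod_cast (by omega : 0 < m)
  have hm48 : (48 : ℝ) ≤ m := by exact_mod_cast hm
  have hm1 : (0 : ℝ) < (m : ℝ) + 1 := by positivity
  have hA := Slope.am_pos m
  have hA1 := Slope.am_pos (m - 1)
  obtain ⟨ω, κ, hω0, hω1, hκτ, hκ1, e1, e2⟩ := h.trunc (by omega) hr hN hx
  have hτ := h.mem x hx
  have hκ0 : 0 < κ := hτ.1.trans_le hκτ
  set I := ∫ t in (0 : ℝ)..x, sq t ^ m with hI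
  have hI0 : 0 < I := pin_P_pos m hx
  set P := I / Slope.am m with hPd
  have hP0 : 0 ≤ P := by (clear * - hI0 hA; positivity)
  have hP87 : P ≤ 87 / 100 := by rw [hPd, div_le_iff₀ hA]; exact hP
  set t := τ x / κ with ht
  have ht0 : 0 ≤ t := by have := hτ.1; (clear * - this hκ0; positivity)
  have ht1 : t ≤ 1 := (div_le_one hκ0).2 hκτ
  set p := (m : ℝ) / ((m : ℝ) + 1) with hp
  have hp48 : 48 / 49 ≤ p := by rw [hp, div_le_div_iff₀ (by norm_num) hm1]; linarith only [hm48]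
  have hp1 : p ≤ 1 := by rw [hp, div_le_one hm1]; linarith only []
  have hlog : ∀ θ : ℝ, 0 < θ → ((m : ℝ) + 1) * (1 - θ) ≤ -Real.log (θ ^ (m + 1)) := by
    intro θ hθ
    rw [Real.log_pow]
    push_cast
    have := Real.log_le_sub_one_of_pos hθ
    nlinarith only [this]
  have h2 : t * geo (m + 1) (1 - (1 - ω) * t) = geo (m + 1) ω * P := by
    rw [pin_am] at e2
    have e5 : geo (m + 1) ω * P = geo (m + 1) ω * I / Slope.am m := by rw [hPd]; ring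
    rw [e5, eq_div_iff hA.ne']
    exact e2
  have hred := apr_red (m := m) (by omega) hω0 hω1 ht0 ht1 hκ0.le (by
      have := e1
      rw [pin_am, pin_am] at this
      exact this) h2 hP0 le_rfl ?_ ?_
  · have e3 : κ * t = τ x := by rw [ht]; (clear * - hκ0; field_simp)
    rw [e3] at hred
    refine hred.trans ?_
    have e4 : aprC m * P = (1 / fc m) ^ m * I := by
      unfold aprC fc
      rw [hPd, one_div_div, div_pow]
      have e6 : Slope.am m ^ m = Slope.am m ^ (m - 1) * Slope.am m :=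
        (pow_sub_one_mul (by omega) _).symm
      have e7 := (pow_pos hA1 m).ne'
      have e8 := (pow_pos hA (m - 1)).ne'
      rw [e6]
      (clear * - hA hI0 e8 e7; field_simp)
    rw [e4]
    have h5 := apd_int_le (x := x) m hx.1.le hx.2.le
    calc (1 / fc m) ^ m * I ≤ Real.exp (1 / 2) * I :=
          mul_le_mul_of_nonneg_right (apd_fc_pow (by omega)) hI0.le
      _ ≤ _ := mul_le_mul_of_nonneg_left h5 (Real.exp_pos _).le
  · intro b θ hb hθ0 hθ1 hθ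
    have hσ : 0 < 1 - Real.exp (-b) := by
      have : Real.exp (-b) < 1 := Real.exp_lt_one_iff.2 (by linarith only [hb])
      linarith only [this]
    have h6 : 0 < θ ^ (m + 1) := by
      rw [hθ]
      have : P * (1 - Real.exp (-b)) ≤ 87 / 100 * 1 :=
        mul_le_mul hP87 (by linarith only [Real.exp_pos (-b)]) hσ.le (by norm_num)
      linarith only [this]
    have hθp : 0 < θ := by
      rcases hθ0.eq_or_lt with h0 | h0
      · rw [← h0, zero_pow (by omega)] at h6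
        exact absurd h6 (lt_irrefl _)
      · exact h0
    have h7 := hlog θ hθp
    rw [hθ] at h7
    exact h7.trans (apl_cyl hp48 hp1 hP0 hP87 hb)
  · intro θ hθ0 hθ1 hθ
    have h6 : 0 < θ ^ (m + 1) := by rw [hθ]; linarith only [hP87]
    have hθp : 0 < θ := by
      rcases hθ0.eq_or_lt with h0 | h0
      · rw [← h0, zero_pow (by omega)] at h6
        exact absurd h6 (lt_irrefl _)
      · exact h0
    have h7 := hlog θ hθp
    rw [hθ] at h7
    exact h7.trans (apd_cyl_inf hp48 hp1 hP0 hP87)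

/-- the mass condition of the central bound holds for `√m x ≤ 36/25` -/
theorem apd_mass (hm : 48 ≤ m) (hx : x ∈ Ioo (0 : ℝ) 1) (hX : (m : ℝ) * x ^ 2 ≤ (36 / 25) ^ 2) :
    (∫ t in (0 : ℝ)..x, sq t ^ m) ≤ 87 / 100 * Slope.am m := by
  have hm48 : (48 : ℝ) ≤ m := by exact_mod_cast hm
  have hm0 : (0 : ℝ) < m := by linarith only [hm48]
  have hs := Real.sqrt_pos.2 hm0
  have hs2 := Real.sq_sqrt hm0.le
  set x' := (36 / 25) / √(m : ℝ) with hx'
  have hx'0 : 0 < x' := by positivity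
  have hx'2 : (m : ℝ) * x' ^ 2 = (36 / 25) ^ 2 := by
    rw [hx', div_pow, hs2]
    field_simp
  have hxx : x ≤ x' := by
    apply le_of_sq_le_sq _ hx'0.le
    have : (m : ℝ) * x ^ 2 ≤ (m : ℝ) * x' ^ 2 := by rw [hx'2]; exact hX
    exact le_of_mul_le_mul_left this hm0
  have hx'1 : x' ≤ 1 := by
    apply le_of_sq_le_sq _ zero_le_one
    have : (m : ℝ) * x' ^ 2 ≤ m * 1 ^ 2 := by rw [hx'2]; norm_num; linarith only [hm48]
    exact le_of_mul_le_mul_left this hm0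
  have h1 : (∫ t in (0 : ℝ)..x, sq t ^ m) ≤ ∫ t in (0 : ℝ)..x', sq t ^ m := by
    rw [← intervalIntegral.integral_add_adjacent_intervals (sl_sq_ii m 0 x) (sl_sq_ii m x x')]
    have : 0 ≤ ∫ t in x..x', sq t ^ m := intervalIntegral.integral_nonneg hxx fun t _ =>
      pow_nonneg (cn_sq_nonneg t) m
    linarith only [this]
  refine h1.trans ((apd_int_le m hx'0.le hx'1).trans ?_)
  rw [hx'2]
  have hA := Slope.am_pos m
  have h2 := fin_am_sq_ge m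
  have hpi := Real.pi_gt_d4
  apply le_of_sq_le_sq _ (by (clear * - hA; positivity))
  have h3 : x' ^ 2 = (36 / 25) ^ 2 / m := by
    rw [eq_div_iff hm0.ne']
    linarith only [hx'2]
  have h4 : apM ((36 / 25) ^ 2) ≤ 7408 / 10000 := by
    unfold apM
    norm_num
  have h5 : 0 ≤ apM ((36 / 25) ^ 2) := by
    unfold apM
    norm_num
  have h6 : apM ((36 / 25) ^ 2) ^ 2 ≤ (7408 / 10000) ^ 2 := pow_le_pow_left₀ h5 h4 2
  rw [mul_pow, mul_pow, h3]
  have h7 : (36 / 25 : ℝ) ^ 2 / m * apM ((36 / 25) ^ 2) ^ 2 ≤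
      (36 / 25 : ℝ) ^ 2 / m * (7408 / 10000) ^ 2 := mul_le_mul_of_nonneg_left h6 (by positivity)
  have h8 : (87 / 100 : ℝ) ^ 2 * (Real.pi / (2 * ((m : ℝ) + 2))) ≤
      (87 / 100) ^ 2 * Slope.am m ^ 2 := mul_le_mul_of_nonneg_left h2 (by positivity)
  refine h7.trans (le_trans ?_ h8)
  rw [div_mul_eq_mul_div, mul_div_assoc', div_le_div_iff₀ hm0 (by positivity)]
  nlinarith only [hm48, hpi]

end Vale.Agent.P237.AllN
end

section

/-!
# P237: the a priori steps of the transport for `m ≥ 48`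

With `X = √m x`: `l ≤ 1/2` for `X ≤ 4/5`, `l ≤ 2/5` for `4/5 ≤ X ≤ 5/2`, `l ≤ 43/100` for
`5/2 ≤ X ≤ 11/4`, `l ≤ 19/40` for `11/4 ≤ X ≤ 3`.
-/

open MeasureTheory Metric Set Module Filter Topology

namespace Vale.Agent.P237.AllN

open Alm

variable {m : ℕ} {r τ τ' T : ℝ → ℝ} {x : ℝ}

theorem ape_exp_tenth : Real.exp (1 / 10) ≤ 110518 / 100000 := by
  have h := Real.exp_bound' (x := 1 / 10) (by norm_num) (by norm_num) (n := 4) (by norm_num)
  simp only [Finset.sum_range_succ, Finset.sum_range_zero, Nat.factorial] at h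
  norm_num at h
  linarith only [h]

theorem ape_lf_le (h : IsTrans m r τ τ' T) (hx : x ∈ Ioo (0 : ℝ) 1) {c : ℝ}
    (hc : τ x ≤ x * Real.exp c) : lf τ x ≤ c := by
  have h1 := (h.mem x hx).1
  have h2 := hx.1
  unfold lf
  rw [Real.log_le_iff_le_exp (by positivity), div_le_iff₀ h2]
  linarith only [hc]

theorem apM_le {w : ℝ} (h0 : 0 ≤ w) (h1 : w ≤ 10) : apM w ≤ 1 - w / 6 + w ^ 2 / 40 := by
  unfold apM
  have : 0 ≤ w ^ 3 * (1 / 336 - w / 3456) := mul_nonneg (by positivity) (by linarith only [h1])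
  linarith

theorem apM_le_one {w : ℝ} (h0 : 0 ≤ w) (h1 : w ≤ 6) : apM w ≤ 1 := by
  have := apM_le h0 (by linarith only [h1])
  linarith [mul_nonneg (sub_nonneg.2 this) (sub_nonneg.2 h1), mul_nonneg (sub_nonneg.2 h0) (sub_nonneg.2 h1), mul_nonneg (sub_nonneg.2 h0) (sub_nonneg.2 this), mul_nonneg (sub_nonneg.2 h0) (sub_nonneg.2 h0)]

theorem apM_le_two {w : ℝ} (h0 : (4 / 5) ^ 2 ≤ w) (h1 : w ≤ (36 / 25) ^ 2) :
    apM w ≤ 9036 / 10000 := by
  norm_num at h0 h1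
  have := apM_le (w := w) (by linarith only [h0]) (by linarith only [h1])
  nlinarith only [h0, this, h1]

/-- **step 1** -/
theorem IsTrans.apr_step1 (hm : 48 ≤ m) (hr : IsProf r) (h : IsTrans m r τ τ' T)
    (hN : (∫ y in (-1 : ℝ)..1, r y ^ (m - 1)) ^ m * aInt m ^ (m - 1) ≤
      aInt (m - 1) ^ m * (∫ y in (-1 : ℝ)..1, r y ^ m) ^ (m - 1))
    (hx : x ∈ Ioo (0 : ℝ) 1) (hX : (m : ℝ) * x ^ 2 ≤ (36 / 25) ^ 2) :
    lf τ x ≤ 1 / 2 := by
  have h1 := h.apr_center hm hr hN hx (apd_mass hm hx hX)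
  have h2 := apM_le_one (w := (m : ℝ) * x ^ 2) (by (clear * - hm; positivity)) (by norm_num at hX; linarith only [hX])
  refine ape_lf_le h hx (h1.trans ?_)
  have h3 := Real.exp_pos (1 / 2)
  have h4 := hx.1
  calc _ ≤ Real.exp (1 / 2) * (x * 1) := by gcongr
    _ = _ := by ring

/-- **step 2**, `4/5 ≤ X ≤ 36/25` -/
theorem IsTrans.apr_step2a (hm : 48 ≤ m) (hr : IsProf r) (h : IsTrans m r τ τ' T)
    (hN : (∫ y in (-1 : ℝ)..1, r y ^ (m - 1)) ^ m * aInt m ^ (m - 1) ≤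
      aInt (m - 1) ^ m * (∫ y in (-1 : ℝ)..1, r y ^ m) ^ (m - 1))
    (hx : x ∈ Ioo (0 : ℝ) 1) (hX0 : (4 / 5) ^ 2 ≤ (m : ℝ) * x ^ 2)
    (hX : (m : ℝ) * x ^ 2 ≤ (36 / 25) ^ 2) :
    lf τ x ≤ 2 / 5 := by
  have h1 := h.apr_center hm hr hN hx (apd_mass hm hx hX)
  have h2 := apM_le_two hX0 hX
  refine ape_lf_le h hx (h1.trans ?_)
  have h3 := Real.exp_pos (2 / 5)
  have h4 := hx.1
  have e1 : Real.exp (1 / 2) = Real.exp (2 / 5) * Real.exp (1 / 10) := by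
    rw [← Real.exp_add]
    (clear * -; norm_num)
  rw [e1]
  calc Real.exp (2 / 5) * Real.exp (1 / 10) * (x * apM ((m : ℝ) * x ^ 2)) ≤
        Real.exp (2 / 5) * Real.exp (1 / 10) * (x * (9036 / 10000)) := by gcongr
    _ ≤ Real.exp (2 / 5) * (110518 / 100000) * (x * (9036 / 10000)) := by
        have := ape_exp_tenth
        gcongr
    _ = Real.exp (2 / 5) * x * (110518 / 100000 * (9036 / 10000)) := by ring
    _ ≤ Real.exp (2 / 5) * x * 1 := by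
        apply mul_le_mul_of_nonneg_left (by norm_num)
        positivity
    _ = _ := by ring

/-- the value at `X = 36/25` -/
theorem IsTrans.apr_step2b (hm : 48 ≤ m) (hr : IsProf r) (h : IsTrans m r τ τ' T)
    (hN : (∫ y in (-1 : ℝ)..1, r y ^ (m - 1)) ^ m * aInt m ^ (m - 1) ≤
      aInt (m - 1) ^ m * (∫ y in (-1 : ℝ)..1, r y ^ m) ^ (m - 1))
    (hx : x ∈ Ioo (0 : ℝ) 1) (hX : (m : ℝ) * x ^ 2 = (36 / 25) ^ 2) :
    lf τ x ≤ 1 / 5 := by
  have h1 := h.apr_center hm hr hN hx (apd_mass hm hx hX.le)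
  have h2 : apM ((m : ℝ) * x ^ 2) ≤ 740710 / 1000000 := by
    rw [hX]
    unfold apM
    norm_num
  refine ape_lf_le h hx (h1.trans ?_)
  have h3 := Real.exp_pos (1 / 5)
  have h4 := hx.1
  have e1 : Real.exp (1 / 2) = Real.exp (1 / 5) * Real.exp (1 / 10) ^ 3 := by
    rw [← Real.exp_nat_mul, ← Real.exp_add]
    norm_num
  rw [e1]
  calc Real.exp (1 / 5) * Real.exp (1 / 10) ^ 3 * (x * apM ((m : ℝ) * x ^ 2)) ≤
        Real.exp (1 / 5) * Real.exp (1 / 10) ^ 3 * (x * (740710 / 1000000)) := by gcongr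
    _ ≤ Real.exp (1 / 5) * (110518 / 100000) ^ 3 * (x * (740710 / 1000000)) := by
        have := ape_exp_tenth
        (clear * - this h4; gcongr)
    _ = Real.exp (1 / 5) * x * ((110518 / 100000) ^ 3 * (740710 / 1000000)) := by ring
    _ ≤ Real.exp (1 / 5) * x * 1 := by
        apply mul_le_mul_of_nonneg_left (by norm_num)
        positivity
    _ = _ := by ring

/-- **step 2**, `36/25 ≤ X ≤ 19/10` -/
theorem IsTrans.apr_step2c (hm : 48 ≤ m) (hr : IsProf r) (h : IsTrans m r τ τ' T)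
    (hN : (∫ y in (-1 : ℝ)..1, r y ^ (m - 1)) ^ m * aInt m ^ (m - 1) ≤
      aInt (m - 1) ^ m * (∫ y in (-1 : ℝ)..1, r y ^ m) ^ (m - 1))
    (hx : x ∈ Ioo (0 : ℝ) 1) (hX0 : (36 / 25) ^ 2 ≤ (m : ℝ) * x ^ 2)
    (hX : (m : ℝ) * x ^ 2 ≤ (19 / 10) ^ 2) :
    lf τ x ≤ 2 / 5 := by
  have hm48 : (48 : ℝ) ≤ m := by exact_mod_cast hm
  have hm0 : (0 : ℝ) < m := by linarith only [hm48]
  have hs := Real.sqrt_pos.2 hm0
  have hs2 := Real.sq_sqrt hm0.le
  have hx0 := hx.1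
  set y := (36 / 25) / √(m : ℝ) with hy
  have hy0 : 0 < y := by positivity
  have hy2 : (m : ℝ) * y ^ 2 = (36 / 25) ^ 2 := by
    rw [hy, div_pow, hs2]
    field_simp
  have hyx : y ≤ x := by
    apply le_of_sq_le_sq _ hx0.le
    have : (m : ℝ) * y ^ 2 ≤ (m : ℝ) * x ^ 2 := by rw [hy2]; exact hX0
    exact le_of_mul_le_mul_left this hm0
  have hyI : y ∈ Ioo (0 : ℝ) 1 := ⟨hy0, hyx.trans_lt hx.2⟩
  have h1 := h.apr_step2b hm hr hN hyI hy2
  have h2 := h.apx_arc (by omega) hr hy0 hyx hx.2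
  have hk := fin_k_sq (m := m) (by omega)
  set k := (m : ℝ) / (2 * ((m : ℝ) + 1) * Slope.am m) with hkd
  have hA := Slope.am_pos m
  have hk0 : 0 < k := by (clear * - hm hA; positivity)
  have hx2 : x ^ 2 ≤ (19 / 10) ^ 2 / 48 := by
    rw [le_div_iff₀ (by norm_num)]
    linarith only [mul_nonneg (sq_nonneg (1 * x : ℝ)) (sub_nonneg.2 hm48), hX]
  have hsq : ∀ t ∈ Icc y x, 96 / 100 ≤ sq t := by
    intro t ht
    have ht0 : 0 ≤ t := hy0.le.trans ht.1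
    apply le_of_sq_le_sq _ (cn_sq_nonneg t)
    rw [pin_sq_sq ⟨ht0, ht.2.trans hx.2.le⟩]
    have : t ^ 2 ≤ x ^ 2 := pow_le_pow_left₀ ht0 ht.2 2
    norm_num at hx2 ⊢
    linarith only [this, hx2]
  have h3 : Real.arcsin x - Real.arcsin y ≤ 100 / 96 * x - 100 / 96 * y := by
    refine apx_mono (f := Real.arcsin) (g := fun t => 100 / 96 * t)
      (f' := fun t => 1 / sq t) (g' := fun _ => 100 / 96) hyx
      (fun t ht => apx_arcsin ⟨by linarith only [hy0, ht.1], by linarith only [ht.2, hx.2]⟩)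
      (fun t ht => by simpa only [id_eq, mul_one] using (hasDerivAt_id t).const_mul (100 / 96 : ℝ))
      (fun t ht => ?_)
    have h4 := hsq t ht
    rw [div_le_div_iff₀ (by linarith only [h4]) (by norm_num)]
    linarith only [h4]
  have h5 : k * (x - y) ≤ 192 / 1000 := by
    apply le_of_sq_le_sq _ (by norm_num)
    rw [mul_pow]
    have hpi := Real.pi_gt_d2
    have hxy : (m : ℝ) * (x - y) ^ 2 ≤ (46 / 100) ^ 2 := by
      have e1 : √(m : ℝ) * x ≤ 19 / 10 := by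
        apply le_of_sq_le_sq _ (by norm_num)
        rw [mul_pow, hs2]
        exact hX
      have e2 : √(m : ℝ) * y = 36 / 25 := by
        rw [hy]
        field_simp
      have e3 : (m : ℝ) * (x - y) ^ 2 = (√(m : ℝ) * x - √(m : ℝ) * y) ^ 2 := by
        rw [← mul_sub, mul_pow, hs2]
      rw [e3, e2]
      apply pow_le_pow_left₀ _ (by linarith only [e1])
      rw [← e2, ← mul_sub]
      exact mul_nonneg hs.le (by linarith only [hyx])
    calc k ^ 2 * (x - y) ^ 2 ≤ (m : ℝ) / (2 * Real.pi) * (x - y) ^ 2 :=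
          mul_le_mul_of_nonneg_right hk (sq_nonneg _)
      _ = (m : ℝ) * (x - y) ^ 2 / (2 * Real.pi) := by ring
      _ ≤ (46 / 100) ^ 2 / (2 * Real.pi) := by (clear * - hxy; gcongr)
      _ ≤ (192 / 1000) ^ 2 := by
          rw [div_le_iff₀ (by positivity)]
          linarith only [hpi]
  have h6 : k * (Real.arcsin x - Real.arcsin y) ≤ k * (100 / 96 * x - 100 / 96 * y) :=
    mul_le_mul_of_nonneg_left h3 hk0.le
  have e : k * (100 / 96 * x - 100 / 96 * y) = 100 / 96 * (k * (x - y)) := by ring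
  rw [e] at h6
  linarith only [h1, h2, h5, h6]

/-- lower bound for the tail from the one-cell inequality -/
theorem ape_tail {θ : ℝ} (hθ : 0 ≤ θ) (hx : x ∈ Ioo (0 : ℝ) 1)
    (hβ : θ * (Real.sqrt (Real.pi / (2 * (m + 1))) * ((m + 2) * (x ^ 2 / (1 - x ^ 2)) + 1)) ≤
      x * sq x ^ m) :
    θ ≤ 1 - (∫ t in (0 : ℝ)..x, sq t ^ m) / Slope.am m := by
  have hx0 := hx.1
  have hx1 : 0 < 1 - x ^ 2 := by
    have : x ^ 2 < 1 := by nlinarith only [hx0, hx.2]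
    linarith only [this]
  have hA := Slope.am_pos m
  have hm0 : (0 : ℝ) ≤ m := Nat.cast_nonneg m
  have h1 : Slope.am m ≤ Real.sqrt (Real.pi / (2 * (m + 1))) :=
    Real.le_sqrt_of_sq_le (fin_am_sq_le m)
  have h2 := pin_tail m hx
  have h3 := pin_split m x
  rw [pin_am] at h3
  have hs := pin_sq_sq (t := x) ⟨hx.1.le, hx.2.le⟩
  have e1 : ((m : ℝ) + 2) * (x ^ 2 / (1 - x ^ 2)) + 1 =
      (((m : ℝ) + 1) * x ^ 2 + 1) / (1 - x ^ 2) := by
    field_simp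
    ring
  rw [e1] at hβ
  set D := ((m : ℝ) + 1) * x ^ 2 + 1 with hD
  have hD0 : 0 < D := by (clear * - hx0; positivity)
  have e2 : sq x ^ (m + 2) = sq x ^ m * (1 - x ^ 2) := by rw [pow_add, hs]
  rw [e2] at h2
  have h4 : θ * Real.sqrt (Real.pi / (2 * (m + 1))) * D ≤
      D * ∫ t in x..1, sq t ^ m := by
    have h5 := mul_le_mul_of_nonneg_right hβ hx1.le
    have e3 : θ * (Real.sqrt (Real.pi / (2 * (m + 1))) * (D / (1 - x ^ 2))) * (1 - x ^ 2) =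
        θ * Real.sqrt (Real.pi / (2 * (m + 1))) * D := by
      (clear * - hx1 hD0; field_simp)
    rw [e3] at h5
    linarith only [h5, h2]
  have h6 : θ * Real.sqrt (Real.pi / (2 * (m + 1))) ≤ ∫ t in x..1, sq t ^ m := by
    have : D * (θ * Real.sqrt (Real.pi / (2 * (m + 1)))) ≤ D * ∫ t in x..1, sq t ^ m := by
      linarith only [h4]
    exact le_of_mul_le_mul_left this hD0
  have h7 : θ * Slope.am m ≤ θ * Real.sqrt (Real.pi / (2 * (m + 1))) :=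
    mul_le_mul_of_nonneg_left h1 hθ
  have h8 : (∫ t in (0 : ℝ)..x, sq t ^ m) / Slope.am m ≤ 1 - θ := by
    rw [div_le_iff₀ hA]
    linarith only [h3, h6, h7]
  linarith only [h8]

/-- one-cell step: the abstract form -/
theorem IsTrans.apr_onecell (hm : 48 ≤ m) (hr : IsProf r) (h : IsTrans m r τ τ' T)
    (hN : (∫ y in (-1 : ℝ)..1, r y ^ (m - 1)) ^ m * aInt m ^ (m - 1) ≤
      aInt (m - 1) ^ m * (∫ y in (-1 : ℝ)..1, r y ^ m) ^ (m - 1))
    (hx : x ∈ Ioo (0 : ℝ) 1) {b B : ℝ} (hb : Real.exp 1 ≤ b) (hbn : b ≤ (m : ℝ) + 1)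
    (hα : √(Real.pi / 2) * Real.exp (1 / 2 - B) * b ≤ √(m : ℝ) * x * aplW 1 b)
    (hβ : (1 - b / (m + 1)) ^ (m + 1) *
      (Real.sqrt (Real.pi / (2 * (m + 1))) * ((m + 2) * (x ^ 2 / (1 - x ^ 2)) + 1)) ≤
      x * sq x ^ m) : lf τ x ≤ B := by
  have hm0 : (0 : ℝ) < m := by exact_mod_cast (by omega : 0 < m)
  have hm1 : (0 : ℝ) < (m : ℝ) + 1 := by positivity
  have hs := Real.sqrt_pos.2 hm0
  have hA := Slope.am_pos m
  have hb0 : 0 < b := (Real.exp_pos 1).trans_le hb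
  have hW := aplW_pos (p := 1) hb0
  obtain ⟨ω, κ, hω0, hω1, hκτ, hκ1, e1, e2⟩ := h.trunc (by omega) hr hN hx
  have hτ := h.mem x hx
  have hκ0 : 0 < κ := hτ.1.trans_le hκτ
  set I := ∫ t in (0 : ℝ)..x, sq t ^ m with hI
  have hI0 : 0 < I := pin_P_pos m hx
  have hIA : I ≤ Slope.am m := by
    have h3 := pin_split m x
    rw [pin_am] at h3
    have : 0 ≤ ∫ t in x..1, sq t ^ m := intervalIntegral.integral_nonneg hx.2.le fun t _ =>
      pow_nonneg (cn_sq_nonneg t) m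
    linarith only [h3, this]
  have hP0 : 0 ≤ I / Slope.am m := by (clear * - hI0 hA; positivity)
  have hP1 : I / Slope.am m ≤ 1 := (div_le_one hA).2 hIA
  have ht0 : 0 ≤ τ x / κ := by have := hτ.1; (clear * - this hκ0; positivity)
  have ht1 : τ x / κ ≤ 1 := (div_le_one hκ0).2 hκτ
  have h2 : τ x / κ * geo (m + 1) (1 - (1 - ω) * (τ x / κ)) =
      geo (m + 1) ω * (I / Slope.am m) := by
    rw [pin_am] at e2
    have e5 : geo (m + 1) ω * (I / Slope.am m) = geo (m + 1) ω * I / Slope.am m := by ring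
    rw [e5, eq_div_iff hA.ne']
    exact e2
  have hbase : 0 ≤ 1 - b / ((m : ℝ) + 1) := by
    rw [sub_nonneg, div_le_one hm1]; exact hbn
  have h3 := apr_cell (m := m) (by omega) hω0 hω1 ht0 ht1 hκ0.le (by
      have := e1
      rw [pin_am, pin_am] at this
      exact this) h2 hP0 hP1 hb hbn (ape_tail (pow_nonneg hbase _) hx hβ)
  have e3 : κ * (τ x / κ) = τ x := by (clear * - hκ0; field_simp)
  rw [e3] at h3
  refine ape_lf_le h hx (h3.trans ?_)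
  have e4 : Real.exp (1 / 2 - B) = Real.exp (1 / 2) / Real.exp B := Real.exp_sub _ _
  rw [e4] at hα
  have hE := Real.exp_pos B
  have h5 : √(Real.pi / 2) * Real.exp (1 / 2) * b ≤ √(m : ℝ) * x * aplW 1 b * Real.exp B := by
    have e6 : √(Real.pi / 2) * (Real.exp (1 / 2) / Real.exp B) * b =
        √(Real.pi / 2) * Real.exp (1 / 2) * b / Real.exp B := by ring
    rw [e6, div_le_iff₀ hE] at hα
    exact hα
  rw [div_mul_div_comm, div_le_iff₀ (by positivity)]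
  calc √(Real.pi / 2) * Real.exp (1 / 2) * b ≤ √(m : ℝ) * x * aplW 1 b * Real.exp B := h5
    _ = _ := by ring

theorem ape_X (hx : x ∈ Ioo (0 : ℝ) 1) {a : ℝ} (ha : 0 ≤ a) :
    (a ^ 2 ≤ (m : ℝ) * x ^ 2 → a ≤ √(m : ℝ) * x) ∧
      ((m : ℝ) * x ^ 2 ≤ a ^ 2 → √(m : ℝ) * x ≤ a) := by
  have hm0 : (0 : ℝ) ≤ m := Nat.cast_nonneg m
  have e : (√(m : ℝ) * x) ^ 2 = (m : ℝ) * x ^ 2 := by rw [mul_pow, Real.sq_sqrt hm0]
  constructor
  · intro h
    apply le_of_sq_le_sq _ (mul_nonneg (Real.sqrt_nonneg _) hx.1.le)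
    rw [e]
    exact h
  · intro h
    apply le_of_sq_le_sq _ ha
    rw [e]
    exact h

theorem IsTrans.apr_step2d (hm : 48 ≤ m) (hr : IsProf r) (h : IsTrans m r τ τ' T)
    (hN : (∫ y in (-1 : ℝ)..1, r y ^ (m - 1)) ^ m * aInt m ^ (m - 1) ≤
      aInt (m - 1) ^ m * (∫ y in (-1 : ℝ)..1, r y ^ m) ^ (m - 1))
    (hx : x ∈ Ioo (0 : ℝ) 1) (hX0 : (19 / 10) ^ 2 ≤ (m : ℝ) * x ^ 2)
    (hX : (m : ℝ) * x ^ 2 ≤ (5 / 2) ^ 2) :
    lf τ x ≤ 2 / 5 := by
  have hm48 : (48 : ℝ) ≤ m := by exact_mod_cast hm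
  have h0 := (ape_X (m := m) hx (by norm_num)).1 hX0
  have h1 := (ape_X (m := m) hx (by norm_num)).2 hX
  have he := Real.exp_one_lt_d9
  exact h.apr_onecell hm hr hN hx (by norm_num at he ⊢; linarith only [h0, he]) (by linarith only [hm48, h1])
    (apl_alpha1 h0 h1) (apl_beta1 hm hx.1 h0 h1)

/-- **step 3** -/
theorem IsTrans.apr_step3 (hm : 48 ≤ m) (hr : IsProf r) (h : IsTrans m r τ τ' T)
    (hN : (∫ y in (-1 : ℝ)..1, r y ^ (m - 1)) ^ m * aInt m ^ (m - 1) ≤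
      aInt (m - 1) ^ m * (∫ y in (-1 : ℝ)..1, r y ^ m) ^ (m - 1))
    (hx : x ∈ Ioo (0 : ℝ) 1) (hX0 : (5 / 2) ^ 2 ≤ (m : ℝ) * x ^ 2)
    (hX : (m : ℝ) * x ^ 2 ≤ (11 / 4) ^ 2) :
    lf τ x ≤ 43 / 100 := by
  have hm48 : (48 : ℝ) ≤ m := by exact_mod_cast hm
  have h0 := (ape_X (m := m) hx (by norm_num)).1 hX0
  have h1 := (ape_X (m := m) hx (by norm_num)).2 hX
  have he := Real.exp_one_lt_d9
  exact h.apr_onecell hm hr hN hx (by norm_num at he ⊢; (clear * - h0 he; linarith)) (by linarith only [hm48, h1])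
    (apl_alpha2 h0 h1) (apl_beta2 hm hx.1 h0 h1)

/-- **step 4** -/
theorem IsTrans.apr_step4 (hm : 48 ≤ m) (hr : IsProf r) (h : IsTrans m r τ τ' T)
    (hN : (∫ y in (-1 : ℝ)..1, r y ^ (m - 1)) ^ m * aInt m ^ (m - 1) ≤
      aInt (m - 1) ^ m * (∫ y in (-1 : ℝ)..1, r y ^ m) ^ (m - 1))
    (hx : x ∈ Ioo (0 : ℝ) 1) (hX0 : (11 / 4) ^ 2 ≤ (m : ℝ) * x ^ 2)
    (hX : (m : ℝ) * x ^ 2 ≤ 3 ^ 2) :
    lf τ x ≤ 19 / 40 := by
  have hm48 : (48 : ℝ) ≤ m := by exact_mod_cast hm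
  have h0 := (ape_X (m := m) hx (by norm_num)).1 hX0
  have h1 := (ape_X (m := m) hx (by norm_num)).2 hX
  have he := Real.exp_one_lt_d9
  exact h.apr_onecell hm hr hN hx (by norm_num at he ⊢; linarith only [he, h0]) (by linarith only [hm48, h1])
    (apl_alpha3 h0 h1) (apl_beta3 hm hx.1 h0 h1)

/-- **step 2** -/
theorem IsTrans.apr_step2 (hm : 48 ≤ m) (hr : IsProf r) (h : IsTrans m r τ τ' T)
    (hN : (∫ y in (-1 : ℝ)..1, r y ^ (m - 1)) ^ m * aInt m ^ (m - 1) ≤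
      aInt (m - 1) ^ m * (∫ y in (-1 : ℝ)..1, r y ^ m) ^ (m - 1))
    (hx : x ∈ Ioo (0 : ℝ) 1) (hX0 : (4 / 5) ^ 2 ≤ (m : ℝ) * x ^ 2)
    (hX : (m : ℝ) * x ^ 2 ≤ (5 / 2) ^ 2) :
    lf τ x ≤ 2 / 5 := by
  rcases le_total ((m : ℝ) * x ^ 2) ((36 / 25) ^ 2) with h1 | h1
  · exact h.apr_step2a hm hr hN hx hX0 h1
  rcases le_total ((m : ℝ) * x ^ 2) ((19 / 10) ^ 2) with h2 | h2
  · exact h.apr_step2c hm hr hN hx h1 h2
  · exact h.apr_step2d hm hr hN hx h2 hX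

end Vale.Agent.P237.AllN
end

section

/-!
# P237, all dimensions: the a priori box for `27 ≤ m ≤ 47`
-/

open MeasureTheory Metric Set Module Filter Topology Real

namespace Vale.Agent.P237.AllN

/-- **A priori steps**, `27 ≤ m ≤ 47`, in terms of `q = m x²`. -/
theorem IsTrans.apBox3 {m : ℕ} (hm27 : 27 ≤ m) (hm47 : m ≤ 47) {r τ τ' T : ℝ → ℝ} (hr : IsProf r)
    (h : IsTrans m r τ τ' T)
    (hN : (∫ y in (-1 : ℝ)..1, r y ^ (m - 1)) ^ m * aInt m ^ (m - 1) ≤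
      aInt (m - 1) ^ m * (∫ y in (-1 : ℝ)..1, r y ^ m) ^ (m - 1))
    {x : ℝ} (hx : x ∈ Ioo (0 : ℝ) 1) : ApBox3 ((m : ℝ) * x ^ 2) (lf τ x) := by
  interval_cases m
  · exact steps27 hr h hN hx
  · exact steps28 hr h hN hx
  · exact steps29 hr h hN hx
  · exact steps30 hr h hN hx
  · exact steps31 hr h hN hx
  · exact steps32 hr h hN hx
  · exact steps33 hr h hN hx
  · exact steps34 hr h hN hx
  · exact steps35 hr h hN hx
  · exact steps36 hr h hN hx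
  · exact steps37 hr h hN hx
  · exact steps38 hr h hN hx
  · exact steps39 hr h hN hx
  · exact steps40 hr h hN hx
  · exact steps41 hr h hN hx
  · exact steps42 hr h hN hx
  · exact steps43 hr h hN hx
  · exact steps44 hr h hN hx
  · exact steps45 hr h hN hx
  · exact steps46 hr h hN hx
  · exact steps47 hr h hN hx

section
variable {m : ℕ} {r τ τ' T : ℝ → ℝ} {x : ℝ}

/-- `l ≤ 1/2` for `√m x ≤ 4/5` -/
theorem IsTrans.ap_half (hm27 : 27 ≤ m) (hm47 : m ≤ 47) (hr : IsProf r)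
    (h : IsTrans m r τ τ' T)
    (hN : (∫ y in (-1 : ℝ)..1, r y ^ (m - 1)) ^ m * aInt m ^ (m - 1) ≤
      aInt (m - 1) ^ m * (∫ y in (-1 : ℝ)..1, r y ^ m) ^ (m - 1))
    (hx : x ∈ Ioo (0 : ℝ) 1) (hq : (m : ℝ) * x ^ 2 ≤ 16 / 25) : lf τ x ≤ 1 / 2 :=
  (h.apBox3 hm27 hm47 hr hN hx).1 hq

/-- `l ≤ 2/5` for `4/5 ≤ √m x ≤ 11/4` -/
theorem IsTrans.ap_twofifth (hm27 : 27 ≤ m) (hm47 : m ≤ 47) (hr : IsProf r)
    (h : IsTrans m r τ τ' T)
    (hN : (∫ y in (-1 : ℝ)..1, r y ^ (m - 1)) ^ m * aInt m ^ (m - 1) ≤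
      aInt (m - 1) ^ m * (∫ y in (-1 : ℝ)..1, r y ^ m) ^ (m - 1))
    (hx : x ∈ Ioo (0 : ℝ) 1) (hq0 : 16 / 25 ≤ (m : ℝ) * x ^ 2)
    (hq : (m : ℝ) * x ^ 2 ≤ 121 / 16) : lf τ x ≤ 2 / 5 :=
  (h.apBox3 hm27 hm47 hr hN hx).2.1 hq0 hq

/-- `l ≤ 11/25` for `11/4 ≤ √m x ≤ 3` -/
theorem IsTrans.ap_last (hm27 : 27 ≤ m) (hm47 : m ≤ 47) (hr : IsProf r)
    (h : IsTrans m r τ τ' T)
    (hN : (∫ y in (-1 : ℝ)..1, r y ^ (m - 1)) ^ m * aInt m ^ (m - 1) ≤
      aInt (m - 1) ^ m * (∫ y in (-1 : ℝ)..1, r y ^ m) ^ (m - 1))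
    (hx : x ∈ Ioo (0 : ℝ) 1) (hq0 : 121 / 16 ≤ (m : ℝ) * x ^ 2)
    (hq : (m : ℝ) * x ^ 2 ≤ 9) : lf τ x ≤ 11 / 25 :=
  (h.apBox3 hm27 hm47 hr hN hx).2.2 hq0 hq

end

end Vale.Agent.P237.AllN
end

section

/-!
# P237, block D: the a-priori bounds for `l` in one form, `m ≥ 27`

`q = m x²`: `l ≤ 1/2` (`q ≤ 16/25`), `l ≤ 2/5` (`16/25 ≤ q ≤ 25/4`), `l ≤ 2/5` (`m ≤ 47`) resp.
`43/100` (`25/4 ≤ q ≤ 121/16`), `l ≤ 11/25` (`m ≤ 47`) resp. `19/40` (`121/16 ≤ q ≤ 9`), and for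
`9 ≤ q` the integrated slope bound from `x₃ = 3/√m`.
-/

open Set

namespace Vale.Agent.P237.AllN

open Alm

/-- the `l`-steps at a point, `q = m z`, for `q ≤ 9` -/
structure FSteps (m : ℕ) (q l : ℝ) : Prop where
  st1 : q ≤ 16 / 25 → l ≤ 1 / 2
  st2 : 16 / 25 ≤ q → q ≤ 25 / 4 → l ≤ 2 / 5
  st3 : 25 / 4 ≤ q → q ≤ 121 / 16 → l ≤ 43 / 100
  st3' : m ≤ 47 → 25 / 4 ≤ q → q ≤ 121 / 16 → l ≤ 2 / 5
  st4 : 121 / 16 ≤ q → q ≤ 9 → l ≤ 19 / 40
  st4' : m ≤ 47 → 121 / 16 ≤ q → q ≤ 9 → l ≤ 11 / 25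

variable {m : ℕ} {r τ τ' T : ℝ → ℝ} {x : ℝ}

theorem IsTrans.fsteps (hm : 27 ≤ m) (hr : IsProf r) (h : IsTrans m r τ τ' T)
    (hN : (∫ y in (-1 : ℝ)..1, r y ^ (m - 1)) ^ m * aInt m ^ (m - 1) ≤
      aInt (m - 1) ^ m * (∫ y in (-1 : ℝ)..1, r y ^ m) ^ (m - 1))
    (hx : x ∈ Ioo (0 : ℝ) 1) : FSteps m ((m : ℝ) * x ^ 2) (lf τ x) := by
  rcases le_or_gt m 47 with h47 | h47
  · have a1 := fun hq => h.ap_half (by omega) h47 hr hN hx hq
    have a2 := fun hq0 hq => h.ap_twofifth (by omega) h47 hr hN hx hq0 hq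
    have a3 := fun hq0 hq => h.ap_last (by omega) h47 hr hN hx hq0 hq
    refine ⟨a1, fun h1 h2 => a2 h1 (by linarith only [h2]), fun h1 h2 => ?_, fun _ h1 h2 => ?_,
      fun h1 h2 => ?_, fun _ h1 h2 => a3 h1 h2⟩
    · have := a2 (by linarith only [h1]) h2
      linarith
    · exact a2 (by linarith only [h1]) h2
    · have := a3 h1 h2
      linarith
  · refine ⟨fun hq => h.apr_step1 (by omega) hr hN hx ?_,
      fun h1 h2 => h.apr_step2 (by omega) hr hN hx ?_ ?_,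
      fun h1 h2 => h.apr_step3 (by omega) hr hN hx ?_ ?_, fun h0 => by omega,
      fun h1 h2 => h.apr_step4 (by omega) hr hN hx ?_ ?_, fun h0 => by omega⟩
    all_goals norm_num at *
    all_goals linarith

/-- the point `x₃ = 3/√m` -/
theorem fb_x3 (hm : 27 ≤ m) : 0 < 3 / Real.sqrt m ∧ 3 / Real.sqrt m < 1 ∧
    (m : ℝ) * (3 / Real.sqrt m) ^ 2 = 9 := by
  have hm' : (27 : ℝ) ≤ m := by exact_mod_cast hm
  have hm0 : (0 : ℝ) < m := by linarith
  have hs : 0 < Real.sqrt m := Real.sqrt_pos.2 hm0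
  refine ⟨by positivity, ?_, ?_⟩
  · rw [div_lt_one hs, Real.lt_sqrt (by norm_num)]
    linarith
  · rw [div_pow, Real.sq_sqrt hm0.le]
    field_simp
    norm_num

/-- **the bound for `9 ≤ m x²`**, squared exponential form: for `c = 19/40`, and for `c = 11/25`
if `m ≤ 47` -/
theorem IsTrans.fa_l3 (hm : 27 ≤ m) (hr : IsProf r) (h : IsTrans m r τ τ' T)
    (hN : (∫ y in (-1 : ℝ)..1, r y ^ (m - 1)) ^ m * aInt m ^ (m - 1) ≤
      aInt (m - 1) ^ m * (∫ y in (-1 : ℝ)..1, r y ^ m) ^ (m - 1))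
    (hx : x ∈ Ioo (0 : ℝ) 1) (hX : 9 ≤ (m : ℝ) * x ^ 2) {c : ℝ}
    (hc : c = 19 / 40 ∨ (m ≤ 47 ∧ c = 11 / 25)) :
    Real.exp (2 * (lf τ x - c)) * (9 * (1 + sq x) ^ 2) ≤
      m * x ^ 2 * (1 + Real.sqrt (1 - 9 / m)) ^ 2 := by
  have hm' : (27 : ℝ) ≤ m := by exact_mod_cast hm
  have hm0 : (0 : ℝ) < m := by linarith
  obtain ⟨h30, h31, h39⟩ := fb_x3 hm
  set x3 := 3 / Real.sqrt m with hx3
  have hx3' : x3 ∈ Ioo (0 : ℝ) 1 := ⟨h30, h31⟩
  have h3x : x3 ≤ x := by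
    have : x3 ^ 2 ≤ x ^ 2 := by
      have : (m : ℝ) * x3 ^ 2 ≤ m * x ^ 2 := by linarith
      exact le_of_mul_le_mul_left this hm0
    exact le_of_sq_le_sq this hx.1.le
  have st := h.fsteps hm hr hN hx3'
  have hc3 : lf τ x3 ≤ c := by
    rcases hc with rfl | ⟨h47, rfl⟩
    · exact st.st4 (by rw [h39]; norm_num) h39.le
    · exact st.st4' h47 (by rw [h39]; norm_num) h39.le
  have h1 := h.apx_log_of hr h30 h3x hx.2 hc3
  have hs := sqx_pos hx
  have hs3 := sqx_pos hx3'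
  have hx0 := hx.1
  have hsq3 : sq x3 = Real.sqrt (1 - 9 / m) := by
    unfold sq
    congr 1
    have : x3 ^ 2 = 9 / m := by
      rw [eq_div_iff hm0.ne']; linarith
    rw [this]
  have h2 : Real.exp (lf τ x - c) ≤ x / (1 + sq x) * ((1 + sq x3) / x3) := by
    have := Real.exp_le_exp.2 (by linarith : lf τ x - c ≤
      Real.log (x / (1 + sq x) * ((1 + sq x3) / x3)))
    rwa [Real.exp_log (by positivity)] at this
  have h3 : Real.exp (2 * (lf τ x - c)) = Real.exp (lf τ x - c) ^ 2 := by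
    rw [← Real.exp_nat_mul]
    push_cast
    rfl
  rw [h3]
  have h4 := pow_le_pow_left₀ (Real.exp_pos _).le h2 2
  have h5 : (x / (1 + sq x) * ((1 + sq x3) / x3)) ^ 2 * (9 * (1 + sq x) ^ 2) =
      m * x ^ 2 * (1 + sq x3) ^ 2 := by
    have e : (9 : ℝ) = m * x3 ^ 2 := h39.symm
    rw [e]
    field_simp
  have h6 := mul_le_mul_of_nonneg_right h4 (by positivity : 0 ≤ 9 * (1 + sq x) ^ 2)
  rw [h5] at h6
  rw [← hsq3]
  exact h6

end Vale.Agent.P237.AllN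
end

section

/-!
# P237, block D: the tail bound in the variables `z`, `E = e^{-2l}`

`1 + u ≤ ((m+1)z + 1)/(2z) · (E - z)/s²`.
-/

open Set

namespace Vale.Agent.P237.AllN

open Alm

variable {m : ℕ} {r τ τ' T : ℝ → ℝ} {x : ℝ}

/-- tail bound, `τ = x e^l` -/
theorem IsTrans.fx_tail0 (hm : 1 ≤ m) (hr : IsProf r) (h : IsTrans m r τ τ' T)
    (hx : x ∈ Ioo (0 : ℝ) 1) :
    (1 + uf τ τ' x) * (x * Real.exp (lf τ x)) ≤
      (1 - x * Real.exp (lf τ x)) * (((m : ℝ) + 2) * (x ^ 2 / sq x ^ 2) + 1) := by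
  rw [← tau_eq_exp h hx]
  exact h.fin_tail hm hr hx

/-- tail bound, real variables -/
theorem fxt_core {m x s l u : ℝ} (hm : 0 ≤ m) (hx : 0 < x) (hs : 0 < s) (hsx : s ^ 2 = 1 - x ^ 2)
    (ht1 : x * Real.exp l < 1)
    (ht : (1 + u) * (x * Real.exp l) ≤ (1 - x * Real.exp l) * ((m + 2) * (x ^ 2 / s ^ 2) + 1)) :
    1 + u ≤ ((m + 1) * x ^ 2 + 1) / (2 * x ^ 2) *
      ((Real.exp (-(2 * l)) - x ^ 2) / s ^ 2) := by
  set t := x * Real.exp l with htt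
  have ht0 : 0 < t := by positivity
  have hE : Real.exp (-(2 * l)) = x ^ 2 / t ^ 2 := by
    rw [htt, mul_pow, ← Real.exp_nat_mul, Real.exp_neg]
    have := (Real.exp_pos (2 * l)).ne'
    push_cast
    field_simp
  have e1 : (m + 2) * (x ^ 2 / s ^ 2) + 1 = ((m + 1) * x ^ 2 + 1) / s ^ 2 := by
    field_simp
    rw [hsx]; ring
  rw [e1] at ht
  rw [hE]
  have h1 : 1 + u ≤ (1 - t) / t * (((m + 1) * x ^ 2 + 1) / s ^ 2) := by
    rw [div_mul_eq_mul_div, le_div_iff₀ ht0]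
    exact ht
  refine h1.trans ?_
  have h2 : (1 - t) / t ≤ (1 - t ^ 2) / (2 * t ^ 2) := by
    rw [div_le_div_iff₀ ht0 (by positivity)]
    linarith only [mul_nonneg ht0.le (mul_nonneg (sub_nonneg.2 ht1.le) (sub_nonneg.2 ht1.le))]
  have h3 : 0 ≤ ((m + 1) * x ^ 2 + 1) / s ^ 2 := by positivity
  refine (mul_le_mul_of_nonneg_right h2 h3).trans (le_of_eq ?_)
  field_simp

/-- **tail bound** in the variables `z`, `E` -/
theorem IsTrans.fx_tail (hm : 1 ≤ m) (hr : IsProf r) (h : IsTrans m r τ τ' T)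
    (hx : x ∈ Ioo (0 : ℝ) 1) :
    1 + uf τ τ' x ≤ (((m : ℝ) + 1) * x ^ 2 + 1) / (2 * x ^ 2) *
      ((Real.exp (-(2 * lf τ x)) - x ^ 2) / sq x ^ 2) :=
  fxt_core (Nat.cast_nonneg m) hx.1 (sl_sq_pos (mem_neg hx))
    (pin_sq_sq (Ioo_subset_Icc_self hx)) (h.fa_exp hx) (h.fx_tail0 hm hr hx)

end Vale.Agent.P237.AllN
end

section

/-!
# P237, block D: the a-priori box for `√m x ≥ 3` as ONE inequality (lemma (c) of 844's note)

`m z e^{-2l} ≥ 33/10`, and `≥ 354/100` if `m ≤ 47` or `z ≥ 34/125`.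
-/

open Set

namespace Vale.Agent.P237.AllN

open Alm

theorem fxc_exp_le {x : ℝ} (h0 : 0 ≤ x) (h1 : x ≤ 1) :
    Real.exp x ≤ 1 + x + x ^ 2 / 2 + x ^ 3 / 6 + x ^ 4 / 24 + x ^ 5 / 120 + 7 * x ^ 6 / 4320 := by
  have h := Real.exp_bound' h0 h1 (n := 6) (by norm_num)
  simp only [Finset.sum_range_succ, Finset.sum_range_zero, Nat.factorial] at h
  norm_num at h
  linarith only [h]

theorem fxc_exp95 : Real.exp (19 / 20) ≤ 25858 / 10000 := by
  have h1 : Real.exp (19 / 40 : ℝ) ≤ 160803 / 100000 := by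
    have := fxc_exp_le (x := 19 / 40) (by norm_num) (by norm_num)
    refine this.trans ?_
    norm_num
  have e : Real.exp (19 / 20 : ℝ) = Real.exp (19 / 40) ^ 2 := by
    rw [← Real.exp_nat_mul]; norm_num
  rw [e]
  calc Real.exp (19 / 40 : ℝ) ^ 2 ≤ (160803 / 100000) ^ 2 :=
        pow_le_pow_left₀ (Real.exp_pos _).le h1 2
    _ ≤ _ := by norm_num

theorem fxc_exp88 : Real.exp (22 / 25) ≤ 24110 / 10000 := by
  have h1 : Real.exp (11 / 25 : ℝ) ≤ 155272 / 100000 := by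
    have := fxc_exp_le (x := 11 / 25) (by norm_num) (by norm_num)
    refine this.trans ?_
    norm_num
  have e : Real.exp (22 / 25 : ℝ) = Real.exp (11 / 25) ^ 2 := by
    rw [← Real.exp_nat_mul]; norm_num
  rw [e]
  calc Real.exp (11 / 25 : ℝ) ^ 2 ≤ (155272 / 100000) ^ 2 :=
        pow_le_pow_left₀ (Real.exp_pos _).le h1 2
    _ ≤ _ := by norm_num

/-- real-variable core: `E ≥ z`, cap inequality with `κ = 9 e^{-2c}`, `B < κ/λ²` -/
theorem fxc_core {m z s s3 E κ B lam : ℝ} (hm : 27 ≤ m) (hz : 0 < z) (hs : 0 < s)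
    (hs3 : 0 ≤ s3) (hzE : z ≤ E)
    (hcap : κ * (1 + s) ^ 2 ≤ m * z * E * (1 + s3) ^ 2)
    (hB : 0 < B) (hlam : B * lam ^ 2 ≤ κ)
    (hkey : m * z ^ 2 < B → 1 + s3 ≤ lam * (1 + s)) : B ≤ m * z * E := by
  by_contra hlt
  push Not at hlt
  have hm0 : 0 < m := by linarith only [hm]
  have h1 : m * z ^ 2 < B := by
    have : m * z * z ≤ m * z * E := mul_le_mul_of_nonneg_left hzE (by positivity)
    linarith
  have h2 := hkey h1
  have h3 : (1 + s3) ^ 2 ≤ lam ^ 2 * (1 + s) ^ 2 := by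
    rw [← mul_pow]
    exact pow_le_pow_left₀ (by (clear * - hs3; positivity)) h2 2
  have h4 : 0 < (1 + s3) ^ 2 := by positivity
  have h5 : m * z * E * (1 + s3) ^ 2 < B * (1 + s3) ^ 2 := mul_lt_mul_of_pos_right hlt h4
  have h6 : B * (1 + s3) ^ 2 ≤ B * (lam ^ 2 * (1 + s) ^ 2) := mul_le_mul_of_nonneg_left h3 hB.le
  have h7 : B * lam ^ 2 * (1 + s) ^ 2 ≤ κ * (1 + s) ^ 2 :=
    mul_le_mul_of_nonneg_right hlam (by positivity)
  linarith

/-- `m ≥ 48` -/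
theorem fxc_key48 {m z s s3 : ℝ} (hm : 48 ≤ m) (hz : 0 < z) (hs : 0 < s) (hsz : s ^ 2 = 1 - z)
    (hs3 : s3 ^ 2 = 1 - 9 / m) (h : m * z ^ 2 < 33 / 10) :
    1 + s3 ≤ 10269 / 10000 * (1 + s) := by
  have hm0 : 0 < m := by linarith only [hm]
  have h9 : 30 / 11 * z ^ 2 ≤ 9 / m := by
    rw [le_div_iff₀ hm0]
    linarith only [h]
  have hz2 : z ^ 2 ≤ 33 / 480 := by linarith only [mul_nonneg (sq_nonneg (1 * z : ℝ)) (sub_nonneg.2 hm), h]
  have hz1 : z ≤ 2623 / 10000 := by nlinarith only [h, hm]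
  have hs1 : s ≤ 1 := by nlinarith only [hsz, hz]
  have hs0 : 858 / 1000 ≤ s := by nlinarith only [hsz, hz1, hs]
  have hz' : z = 1 - s ^ 2 := by linarith only [hsz]
  have hp : 0 ≤ (10269 / 10000 * (1 + s) - 1) ^ 2 - 1 + 30 / 11 * (1 - s ^ 2) ^ 2 := by
    nlinarith only [hs0, sq_nonneg ((s - 895 / 1000) * (s + 1))]
  have h4 : s3 ^ 2 ≤ (10269 / 10000 * (1 + s) - 1) ^ 2 := by
    rw [hs3]
    rw [← hz'] at hp
    linarith only [h9, hp]
  have h5 : s3 ≤ 10269 / 10000 * (1 + s) - 1 := by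
    apply le_of_sq_le_sq h4
    linarith only [hs0]
  linarith only [h5]

/-- `27 ≤ m ≤ 47` -/
theorem fxc_key47 {m z s s3 : ℝ} (hm : 27 ≤ m) (hm47 : m ≤ 47) (hz : 0 < z) (hs : 0 < s)
    (hsz : s ^ 2 = 1 - z) (hs3 : s3 ^ 2 = 1 - 9 / m) (h : m * z ^ 2 < 354 / 100) :
    1 + s3 ≤ 102685 / 100000 * (1 + s) := by
  have hm0 : 0 < m := by linarith only [hm]
  have hz2 : z ^ 2 ≤ 354 / 2700 := by linarith only [mul_nonneg (sq_nonneg (1 * z : ℝ)) (sub_nonneg.2 hm), h]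
  have hz1 : z ≤ 3622 / 10000 := by nlinarith only [hz2]
  have hs1 : s ≤ 1 := by nlinarith only [hsz, hz]
  have hs0 : 798 / 1000 ≤ s := by nlinarith only [hsz, hz1, hz2, hs]
  have hz' : z = 1 - s ^ 2 := by linarith only [hsz]
  rcases le_total s (8497 / 10000) with h8 | h8
  · have h9 : 900 / 354 * z ^ 2 ≤ 9 / m := by
      rw [le_div_iff₀ hm0]
      nlinarith only [h]
    have hp : 0 ≤ (102685 / 100000 * (1 + s) - 1) ^ 2 - 1 + 900 / 354 * (1 - s ^ 2) ^ 2 := by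
      nlinarith only [hs0, h8, sq_nonneg (s - 8497 / 10000)]
    have h4 : s3 ^ 2 ≤ (102685 / 100000 * (1 + s) - 1) ^ 2 := by
      rw [hs3]
      rw [← hz'] at hp
      linarith
    have h5 : s3 ≤ 102685 / 100000 * (1 + s) - 1 := by
      apply le_of_sq_le_sq h4
      linarith only [hs0]
    linarith only [h5]
  · have h9 : (9 : ℝ) / 47 ≤ 9 / m := by
      apply div_le_div_of_nonneg_left (by norm_num) hm0 hm47
    have h5 : s3 ≤ 899173 / 1000000 := by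
      apply le_of_sq_le_sq _ (by norm_num)
      rw [hs3]
      norm_num at h9 ⊢
      linarith only [h9]
    linarith only [h5, h8]

/-- **(c), real variables**: `cap` is the conclusion of `IsTrans.fa_l3` -/
theorem fxc_main48 {m z s l : ℝ} (hm : 48 ≤ m) (hz : 0 < z) (hs : 0 < s)
    (hsz : s ^ 2 = 1 - z) (hzE : z * Real.exp (2 * l) ≤ 1)
    (hcap : Real.exp (2 * (l - 19 / 40)) * (9 * (1 + s) ^ 2) ≤
      m * z * (1 + Real.sqrt (1 - 9 / m)) ^ 2) :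
    33 / 10 ≤ m * z * Real.exp (-(2 * l)) := by
  have hm0 : 0 < m := by linarith only [hm]
  have h9m : 9 / m ≤ 1 := by rw [div_le_one hm0]; linarith only [hm]
  have hE : 0 < Real.exp (2 * l) := Real.exp_pos _
  have hEE : Real.exp (-(2 * l)) * Real.exp (2 * l) = 1 := by
    rw [← Real.exp_add]; norm_num
  have hE' : 0 < Real.exp (-(2 * l)) := Real.exp_pos _
  refine fxc_core (s := s) (s3 := Real.sqrt (1 - 9 / m)) (κ := 9 * Real.exp (-(19 / 20)))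
    (lam := 10269 / 10000) (by linarith only [hm]) hz hs (Real.sqrt_nonneg _) ?_ ?_ (by norm_num) ?_
    fun h => fxc_key48 hm hz hs hsz (Real.sq_sqrt (by linarith only [h9m])) h
  · have := mul_le_mul_of_nonneg_right hzE hE'.le
    linarith only [mul_eq_zero_of_left (sub_eq_zero.2 hEE) (z - (0)), this]
  · have h1 : Real.exp (2 * (l - 19 / 40)) = Real.exp (2 * l) * Real.exp (-(19 / 20)) := by
      rw [← Real.exp_add]; ring_nf
    rw [h1] at hcap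
    have h2 := mul_le_mul_of_nonneg_left hcap hE'.le
    have e1 : Real.exp (-(2 * l)) * (Real.exp (2 * l) * Real.exp (-(19 / 20)) *
        (9 * (1 + s) ^ 2)) = 9 * Real.exp (-(19 / 20)) * (1 + s) ^ 2 := by
      linear_combination (Real.exp (-(19 / 20)) * (9 * (1 + s) ^ 2)) * hEE
    rw [e1] at h2
    linarith only [h2]
  · rw [Real.exp_neg]
    have h1 := fxc_exp95
    have h0 : 0 < Real.exp (19 / 20) := Real.exp_pos _
    rw [← div_eq_mul_inv, le_div_iff₀ h0]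
    linarith

theorem fxc_main47 {m z s l : ℝ} (hm : 27 ≤ m) (hm47 : m ≤ 47) (hz : 0 < z) (hs : 0 < s)
    (hsz : s ^ 2 = 1 - z) (hzE : z * Real.exp (2 * l) ≤ 1)
    (hcap : Real.exp (2 * (l - 11 / 25)) * (9 * (1 + s) ^ 2) ≤
      m * z * (1 + Real.sqrt (1 - 9 / m)) ^ 2) :
    354 / 100 ≤ m * z * Real.exp (-(2 * l)) := by
  have hm0 : 0 < m := by linarith only [hm]
  have h9m : 9 / m ≤ 1 := by rw [div_le_one hm0]; linarith only [hm]
  have hE : 0 < Real.exp (2 * l) := Real.exp_pos _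
  have hEE : Real.exp (-(2 * l)) * Real.exp (2 * l) = 1 := by
    rw [← Real.exp_add]; norm_num
  have hE' : 0 < Real.exp (-(2 * l)) := Real.exp_pos _
  refine fxc_core (s := s) (s3 := Real.sqrt (1 - 9 / m)) (κ := 9 * Real.exp (-(22 / 25)))
    (lam := 102685 / 100000) (by linarith only [hm]) hz hs (Real.sqrt_nonneg _) ?_ ?_ (by norm_num) ?_
    fun h => fxc_key47 hm hm47 hz hs hsz (Real.sq_sqrt (by linarith only [h9m])) h
  · have := mul_le_mul_of_nonneg_right hzE hE'.le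
    nlinarith only [this, hz, hEE]
  · have h1 : Real.exp (2 * (l - 11 / 25)) = Real.exp (2 * l) * Real.exp (-(22 / 25)) := by
      rw [← Real.exp_add]; ring_nf
    rw [h1] at hcap
    have h2 := mul_le_mul_of_nonneg_left hcap hE'.le
    have e1 : Real.exp (-(2 * l)) * (Real.exp (2 * l) * Real.exp (-(22 / 25)) *
        (9 * (1 + s) ^ 2)) = 9 * Real.exp (-(22 / 25)) * (1 + s) ^ 2 := by
      linear_combination (Real.exp (-(22 / 25)) * (9 * (1 + s) ^ 2)) * hEE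
    rw [e1] at h2
    linarith only [h2]
  · rw [Real.exp_neg]
    have h1 := fxc_exp88
    have h0 : 0 < Real.exp (22 / 25) := Real.exp_pos _
    rw [← div_eq_mul_inv, le_div_iff₀ h0]
    linarith only [h1]

variable {m : ℕ} {r τ τ' T : ℝ → ℝ} {x : ℝ}

/-- **(c)**: `m z e^{-2l} ≥ 33/10`, and `≥ 354/100` if `m ≤ 47` or `34/125 ≤ z` -/
theorem IsTrans.fx_cap (hm : 27 ≤ m) (hr : IsProf r) (h : IsTrans m r τ τ' T)
    (hN : (∫ y in (-1 : ℝ)..1, r y ^ (m - 1)) ^ m * aInt m ^ (m - 1) ≤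
      aInt (m - 1) ^ m * (∫ y in (-1 : ℝ)..1, r y ^ m) ^ (m - 1))
    (hx : x ∈ Ioo (0 : ℝ) 1) (hX : 9 ≤ (m : ℝ) * x ^ 2) :
    33 / 10 ≤ m * x ^ 2 * Real.exp (-(2 * lf τ x)) ∧
    (m ≤ 47 → 354 / 100 ≤ m * x ^ 2 * Real.exp (-(2 * lf τ x))) ∧
    (34 / 125 ≤ x ^ 2 → 354 / 100 ≤ m * x ^ 2 * Real.exp (-(2 * lf τ x))) := by
  have F := h.ffacts (by omega) hr hx
  have hm' : (27 : ℝ) ≤ m := by exact_mod_cast hm
  have hm0 : (0 : ℝ) < m := by linarith only [hm']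
  have A : m ≤ 47 → 354 / 100 ≤ m * x ^ 2 * Real.exp (-(2 * lf τ x)) := fun h47 =>
    fxc_main47 hm' (by exact_mod_cast h47) F.z0 F.s0 F.hs F.le.le
      (h.fa_l3 hm hr hN hx hX (Or.inr ⟨h47, rfl⟩))
  rcases le_or_gt m 47 with h47 | h47
  · have := A h47
    exact ⟨by linarith, A, fun _ => this⟩
  · have h48 : (48 : ℝ) ≤ m := by exact_mod_cast h47
    refine ⟨fxc_main48 h48 F.z0 F.s0 F.hs F.le.le (h.fa_l3 hm hr hN hx hX (Or.inl rfl)), A,
      fun hz => ?_⟩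
    have hE' : 0 < Real.exp (-(2 * lf τ x)) := Real.exp_pos _
    have hEE : Real.exp (-(2 * lf τ x)) * Real.exp (2 * lf τ x) = 1 := by
      rw [← Real.exp_add]; norm_num
    have hzE : x ^ 2 ≤ Real.exp (-(2 * lf τ x)) := by
      have := mul_le_mul_of_nonneg_right F.le.le hE'.le
      linarith only [mul_eq_zero_of_left (sub_eq_zero.2 hEE) (0 - (0 - x ^ 2)), this]
    have h1 : (m : ℝ) * x ^ 2 * x ^ 2 ≤ m * x ^ 2 * Real.exp (-(2 * lf τ x)) :=
      mul_le_mul_of_nonneg_left hzE (by positivity)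
    have h2 : 34 / 125 * (34 / 125) ≤ x ^ 2 * x ^ 2 := mul_le_mul hz hz (by norm_num) (by (clear * - hz; positivity))
    nlinarith only [h48, h1, h2]

end Vale.Agent.P237.AllN
end

section

/-!
# P237, block D, region `X ≥ 3`, `u ≥ 0`, `z ≤ 1/5`, `l ≥ 1/2`
-/

namespace Vale.Agent.P237.AllN

open PolyPos

namespace FXu

theorem hom_R (c1 c0 : Ex3) (t E Z : ℝ) : (hom c1 c0).R t E Z =
    C2.R t E Z * (NE.R t E Z * NE.R t E Z) + c1.R t E Z * (NE.R t E Z * DE.R t E Z) +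
      c0.R t E Z * (DE.R t E Z * DE.R t E Z) := rfl

theorem mono_R (c1 : Ex3) (t E Z : ℝ) : (mono c1).R t E Z = c1.R t E Z + 19 / 10 * C2.R t E Z := by
  have : (mono c1).R t E Z = c1.R t E Z + Fr.R ⟨19, 9⟩ * C2.R t E Z := rfl
  rw [this]
  norm_num [Fr.R]

theorem NE_R (t E Z : ℝ) : NE.R t E Z = (1 - E) * (11 + 38 * E + 11 * E ^ 2) := by
  simp only [NE, E2, Ex3.R_add, Ex3.R_sub, Ex3.R_mul, Ex3.R_c, Ex3.R_Y, Fr.R]
  push_cast
  ring

theorem DE_R (t E Z : ℝ) : DE.R t E Z = 3 * (1 + E) * (1 + 8 * E + E ^ 2) := by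
  simp only [DE, E2, Ex3.R_add, Ex3.R_mul, Ex3.R_c, Ex3.R_Y, Fr.R]
  push_cast
  ring

/-- lifting from the lower bound of `λ` -/
theorem lift {c2 c1 c0 N D lam : ℝ} (hD : 0 < D) (hlam : N / D ≤ lam) (hN : 19 / 20 * D ≤ N)
    (h2 : 0 ≤ c2) (h1 : 0 ≤ c1 + 19 / 10 * c2)
    (h : 0 ≤ c2 * (N * N) + c1 * (N * D) + c0 * (D * D)) : 0 ≤ c2 * lam ^ 2 + c1 * lam + c0 := by
  set a := N / D with ha
  have hN' : N = a * D := by rw [ha]; (clear * - hD; field_simp)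
  have ha1 : 19 / 20 ≤ a := by rw [ha, le_div_iff₀ hD]; exact hN
  have h3 : 0 ≤ c2 * a ^ 2 + c1 * a + c0 := by
    have e : c2 * (N * N) + c1 * (N * D) + c0 * (D * D) = (c2 * a ^ 2 + c1 * a + c0) * D ^ 2 := by
      rw [hN']; ring
    rw [e] at h
    exact nonneg_of_mul_nonneg_left h (by positivity)
  have h4 : 0 ≤ (lam - a) * (c1 + c2 * (lam + a)) := by
    apply mul_nonneg (by linarith only [hlam])
    have := mul_nonneg h2 (by linarith only [hlam, ha1] : 0 ≤ lam + a - 19 / 10)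
    linarith only [h1, this]
  linarith only [h3, h4]

/-- the facts about `λ = 2l ≥ 1` -/
theorem lam_facts {l E : ℝ} (hE : E = Real.exp (-(2 * l))) (hl : 1 / 2 ≤ l) :
    0 < E ∧ E ≤ 46 / 125 ∧
      (1 - E) * (11 + 38 * E + 11 * E ^ 2) / (3 * (1 + E) * (1 + 8 * E + E ^ 2)) ≤ 2 * l ∧
      19 / 20 * (3 * (1 + E) * (1 + 8 * E + E ^ 2)) ≤ (1 - E) * (11 + 38 * E + 11 * E ^ 2) := by
  have hE0 : 0 < E := by rw [hE]; exact Real.exp_pos _
  have hE1 : E ≤ 46 / 125 := by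
    rw [hE]
    have h1 : Real.exp (-(2 * l)) ≤ Real.exp (-1) := Real.exp_le_exp.2 (by linarith only [hl])
    refine h1.trans ?_
    rw [Real.exp_neg, inv_le_comm₀ (Real.exp_pos 1) (by norm_num)]
    have := Real.exp_one_gt_d9
    norm_num
    linarith only [this]
  refine ⟨hE0, hE1, ?_, ?_⟩
  · have h := fv_log_ge (E := E) ⟨hE0, by linarith only [hE1]⟩
    have h2 : -Real.log E = 2 * l := by rw [hE, Real.log_exp]; ring
    rw [h2] at h
    exact h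
  · nlinarith only [hE0, hE1]

/-- using a check with a single family -/
theorem use_chk {F0 : List Ex3} {Lo : List Ex3} {t : PT3} {A B : ℤ} {D : ℕ} {A' B' : ℤ} {D' : ℕ}
    {A'' B'' : ℤ} {D'' : ℕ} {x y z : ℝ}
    (h : tchk3 (2 ^ 1024) 40 4000 [F0] Lo t A B D A' B' D' A'' B'' D'' = true)
    (hLo : ∀ E ∈ Lo, E.R x y z ≤ 0) (hD : 0 < D) (hD' : 0 < D') (hD'' : 0 < D'')
    (hA : A < B) (hA' : A' < B') (hA'' : A'' < B'')
    (h0 : (A : ℝ) ≤ D * x) (h1 : (D : ℝ) * x ≤ B) (h2 : (A' : ℝ) ≤ D' * y) (h3 : (D' : ℝ) * y ≤ B')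
    (h4 : (A'' : ℝ) ≤ D'' * z) (h5 : (D'' : ℝ) * z ≤ B'') : ∀ E ∈ F0, 0 ≤ E.R x y z := by
  obtain ⟨G, hG, h6⟩ := tchk3_sound hLo t A B D A' B' D' A'' B'' D'' hD hD' hD'' hA hA' hA'' h
    h0 h1 h2 h3 h4 h5
  rw [List.mem_singleton] at hG
  rw [← hG]
  exact h6

theorem G1_R (b : Ex3) (t E Z : ℝ) : (G1 b).R t E Z = C1.R t E Z - b.R t E Z := rfl

theorem z1_R (t E Z : ℝ) : z1.R t E Z = t * E := rfl

theorem rr_R (t E Z : ℝ) : rr.R t E Z = 10 / 33 * Z * E := by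
  simp only [rr, qq, Ex3.R_mul, Ex3.R_c, Ex3.R_Y, Ex3.R_Z, Fr.R]
  push_cast
  ring

theorem R13_R (t E Z : ℝ) : R13.R t E Z = 10 / 33 * Z * E * (1 + 3 * (t * E) * (10 / 33 * Z * E)) := by
  simp only [R13, Ex3.R_add, Ex3.R_mul, Ex3.R_c, z1_R, rr_R, Fr.R]
  push_cast
  ring

theorem G0_R (τ : Fr) (t E Z : ℝ) : (G0 τ).R t E Z = C0.R t E Z -
    (10 / 33 * Z * E) ^ 2 * (13 / 20 + 11 / 10 * (t * E)) - τ.R * (10 / 33 * Z * E) := by
  simp only [G0, K2, Ex3.R_add, Ex3.R_sub, Ex3.R_mul, Ex3.R_c, z1_R, rr_R]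
  simp only [show ∀ (n : ℤ) (d : ℕ), Fr.R ⟨n, d⟩ = (n : ℝ) / ((d : ℝ) + 1) from fun _ _ => rfl]
  push_cast
  ring

theorem H1_R (b : Ex3) (t E Z : ℝ) : (H1 b).R t E Z = C1.R t E Z - R13.R t E Z - b.R t E Z -
    3 / 5 * (t * E) * (10 / 33 * Z * E) ^ 2 := by
  simp only [H1, Ex3.R_sub, Ex3.R_mul, Ex3.R_c, z1_R, rr_R]
  simp only [show ∀ (n : ℤ) (d : ℕ), Fr.R ⟨n, d⟩ = (n : ℝ) / ((d : ℝ) + 1) from fun _ _ => rfl]
  push_cast
  ring

theorem H0_R (p : Fr) (t E Z : ℝ) : (H0 p).R t E Z = C0.R t E Z - R13.R t E Z * (E - 1) -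
    (10 / 33 * Z * E) ^ 2 * (3 / 50 + 18 / 5 * (t * E)) + p.R * (10 / 33 * Z * E) := by
  simp only [H0, Ex3.R_add, Ex3.R_sub, Ex3.R_mul, Ex3.R_c, z1_R, rr_R, Ex3.R_Y]
  simp only [show ∀ (n : ℤ) (d : ℕ), Fr.R ⟨n, d⟩ = (n : ℝ) / ((d : ℝ) + 1) from fun _ _ => rfl]
  push_cast
  ring

theorem bU_R (t E Z : ℝ) : bU.R t E Z = 3 / 25 * (R13.R t E Z *
    (1 + t * E / 2 + 23 / 50 * (t * E) ^ 2)) := by
  simp only [bU, Ub, z2, Ex3.R_add, Ex3.R_mul, Ex3.R_c, z1_R]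
  simp only [show ∀ (n : ℤ) (d : ℕ), Fr.R ⟨n, d⟩ = (n : ℝ) / ((d : ℝ) + 1) from fun _ _ => rfl]
  push_cast
  ring

theorem rU_R (t E Z : ℝ) : rU.R t E Z = 25 / 34 * (1 - t) * (1 + (1 + t * E) * (10 / 33 * Z * E)) -
    10 / 33 * Z * E := by
  simp only [rU, Ex3.R_add, Ex3.R_sub, Ex3.R_mul, Ex3.R_c, z1_R, rr_R, Ex3.R_X]
  simp only [show ∀ (n : ℤ) (d : ℕ), Fr.R ⟨n, d⟩ = (n : ℝ) / ((d : ℝ) + 1) from fun _ _ => rfl]
  push_cast
  ring

theorem bT_R (t E Z : ℝ) : bT.R t E Z = 3 / 25 * ((1 + 3 * (t * E) * (10 / 33 * Z * E)) *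
    rU.R t E Z) := by
  simp only [bT, Ex3.R_add, Ex3.R_mul, Ex3.R_c, z1_R, rr_R]
  simp only [show ∀ (n : ℤ) (d : ℕ), Fr.R ⟨n, d⟩ = (n : ℝ) / ((d : ℝ) + 1) from fun _ _ => rfl]
  push_cast
  ring

/-- the two inequalities of `fin2` from the checks, general form -/
theorem from_chk {m z l t E Z r V b τ0 p : ℝ} {τf pf : Fr} {be : Ex3}
    (hE : E = Real.exp (-(2 * l))) (hl : 1 / 2 ≤ l) (ht : t * E = z) (hr : r * (m * z) = 1)
    (hrZ : 10 / 33 * Z * E = r) (hb : be.R t E Z = b) (hbV : (m * z) ^ 2 * b = 3 / 25 * ((m + 3) * z) * V)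
    (hτ : τf.R = τ0) (hp : pf.R = p)
    (hg : 0 ≤ (hom (G1 be) (G0 τf)).R t E Z) (hh : 0 ≤ (hom (H1 be) (H0 pf)).R t E Z)
    (h2 : 0 ≤ C2.R t E Z) (hg1 : 0 ≤ (mono (G1 be)).R t E Z) (hh1 : 0 ≤ (mono (H1 be)).R t E Z) :
    3 / 25 * ((m + 3) * z) * (V * (2 * l)) + (13 / 20 + 11 / 10 * z) + τ0 * (m * z) ≤
      (m * z) ^ 2 * (c2r z r * (2 * l) ^ 2 + c1r z r * (2 * l) + c0r t E z r (10 / 33 * Z)) ∧
    (m + 3) * z * (E - 1 + 2 * l) + 3 / 25 * ((m + 3) * z) * (V * (2 * l)) +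
      (3 / 50 + 18 / 5 * z) + 3 / 5 * z * (2 * l) - p * (m * z) ≤
      (m * z) ^ 2 * (c2r z r * (2 * l) ^ 2 + c1r z r * (2 * l) + c0r t E z r (10 / 33 * Z)) := by
  obtain ⟨hE0, hE1, hlam, hND⟩ := lam_facts hE hl
  have hD : 0 < 3 * (1 + E) * (1 + 8 * E + E ^ 2) := by (clear * - hE0; positivity)
  rw [mono_R] at hg1 hh1
  rw [hom_R, NE_R, DE_R] at hg hh
  have k1 := lift hD hlam hND h2 hg1 hg
  have k2 := lift hD hlam hND h2 hh1 hh
  rw [C2_R, G1_R, G0_R, C1_R, C0_R, hb, hrZ, ht, hτ] at k1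
  rw [C2_R, H1_R, H0_R, C1_R, C0_R, R13_R, hb, hrZ, ht, hp] at k2
  have e1 : (m * z) ^ 2 * r = m * z := by linear_combination (m * z) * hr
  have e2 : (m * z) ^ 2 * r ^ 2 = 1 := by linear_combination (r * (m * z) + 1) * hr
  have e3 : (m * z) ^ 2 * (r * (1 + 3 * z * r)) = (m + 3) * z := by
    linear_combination e1 + 3 * z * e2
  have hw2 : 0 ≤ (m * z) ^ 2 := sq_nonneg _
  have k1' := mul_nonneg hw2 k1
  have k2' := mul_nonneg hw2 k2
  constructor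
  · have e : (m * z) ^ 2 * (c2r z r * (2 * l) ^ 2 + (c1r z r - b) * (2 * l) +
        (c0r t E z r (10 / 33 * Z) - r ^ 2 * (13 / 20 + 11 / 10 * z) - τ0 * r)) =
        (m * z) ^ 2 * (c2r z r * (2 * l) ^ 2 + c1r z r * (2 * l) + c0r t E z r (10 / 33 * Z)) -
        (3 / 25 * ((m + 3) * z) * (V * (2 * l)) + (13 / 20 + 11 / 10 * z) + τ0 * (m * z)) := by
      linear_combination (-(2 * l)) * hbV - (13 / 20 + 11 / 10 * z) * e2 - τ0 * e1
    rw [e] at k1'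
    linarith only [k1']
  · have e : (m * z) ^ 2 * (c2r z r * (2 * l) ^ 2 + (c1r z r - r * (1 + 3 * z * r) - b -
        3 / 5 * z * r ^ 2) * (2 * l) +
        (c0r t E z r (10 / 33 * Z) - r * (1 + 3 * z * r) * (E - 1) -
          r ^ 2 * (3 / 50 + 18 / 5 * z) + p * r)) =
        (m * z) ^ 2 * (c2r z r * (2 * l) ^ 2 + c1r z r * (2 * l) + c0r t E z r (10 / 33 * Z)) -
        ((m + 3) * z * (E - 1 + 2 * l) + 3 / 25 * ((m + 3) * z) * (V * (2 * l)) +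
          (3 / 50 + 18 / 5 * z) + 3 / 5 * z * (2 * l) - p * (m * z)) := by
      linear_combination (-(2 * l)) * hbV - (E - 1 + 2 * l) * e3 - (3 / 50 + 18 / 5 * z +
        3 / 5 * z * (2 * l)) * e2 + p * e1
    rw [e] at k2'
    linarith only [k2']

theorem rho_simple {m z s : ℝ} (hm : 45 ≤ m) (hz : 0 < z) (hs : 0 < s)
    (hsz : s ^ 2 = 1 - z) (hw : 9 ≤ m * z) {w0 : ℝ} (hw0 : w0 ≤ m * z) :
    (1 / 2 + 1 / 10 * w0) * (m * z) ≤ dpR m (z / s ^ 2) := by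
  refine le_trans ?_ (rho_ge hm hz hs hsz)
  set w := m * z with hwd
  have h1 : 0 ≤ w * z := by positivity
  have h2 : 0 ≤ w * z ^ 2 := by positivity
  have h3 : 0 ≤ (w - w0) * w := mul_nonneg (by linarith only [hw0]) (by linarith only [hw])
  have h4 : 0 ≤ z * (w - 2 * z - 1) := by
    have hz1 : z < 1 := by linarith only [mul_pos (sub_pos.2 hs) (sub_pos.2 hs), hsz]
    exact mul_nonneg hz.le (by linarith)
  have h5 : 0 ≤ w * (z * (w - 2 * z - 1)) := mul_nonneg (by linarith only [hw]) h4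
  have h6 : 0 ≤ w * z * (z * (w - 2 * z - 1)) := mul_nonneg h1 h4
  have h7 : 0 ≤ w * z * (w - 9) := mul_nonneg h1 (by linarith)
  have h8 : 0 ≤ w * z ^ 2 * (w - 9) := mul_nonneg h2 (by linarith)
  have hz1 : z < 1 := by nlinarith only [hsz, hs]
  have h9 : 0 ≤ w * z ^ 2 * (1 - z) := mul_nonneg h2 (by linarith only [hz1])
  linarith

theorem Ub_ge {z s u : ℝ} (hz : 0 < z) (hz5 : z ≤ 1 / 5) (hs : 0 < s) (hsz : s ^ 2 = 1 - z)
    (hus : u * s ≤ 1) : u ≤ 1 + z / 2 + 23 / 50 * z ^ 2 := by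
  have h1 : 1 ≤ (1 + z / 2 + 23 / 50 * z ^ 2) * s := by
    have h2 : (1 : ℝ) ^ 2 ≤ ((1 + z / 2 + 23 / 50 * z ^ 2) * s) ^ 2 := by
      rw [mul_pow, hsz]
      have a := sub_nonneg.2 hz5
      nlinarith only [a, pow_pos hz 4]
    exact le_of_sq_le_sq h2 (by positivity)
  by_contra h
  push Not at h
  have := mul_lt_mul_of_pos_right h hs
  linarith only [this, h1, hus]

/-- the variables of the checks -/
structure Ctx (m z l t E Z r : ℝ) : Prop where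
  hE : E = Real.exp (-(2 * l))
  ht : t = z * Real.exp (2 * l)
  htE : t * E = z
  hE0 : 0 < E
  hE1 : E ≤ 46 / 125
  ht0 : 0 < t
  hr : r * (m * z) = 1
  hr0 : 0 < r
  hrZ : 10 / 33 * Z * E = r
  hqZ : r * Real.exp (2 * l) = 10 / 33 * Z
  hZ0 : 0 ≤ Z
  hZ1 : Z ≤ 1
  hR : (m * z) ^ 2 * (r * (1 + 3 * z * r)) = (m + 3) * z

theorem ctx {m z l : ℝ} (hz : 0 < z) (hw : 9 ≤ m * z) (hl : 1 / 2 ≤ l)
    (hcap : 33 / 10 ≤ m * z * Real.exp (-(2 * l))) : ∃ t E Z r, Ctx m z l t E Z r := by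
  have hw0 : 0 < m * z := by linarith only [hw]
  obtain ⟨hE0, hE1, -, -⟩ := lam_facts (l := l) rfl hl
  have hB0 : 0 < Real.exp (2 * l) := Real.exp_pos _
  have hBE : Real.exp (2 * l) * Real.exp (-(2 * l)) = 1 := by rw [← Real.exp_add]; norm_num
  have hr : 1 / (m * z) * (m * z) = 1 := div_mul_cancel₀ 1 hw0.ne'
  have hr0 : 0 < 1 / (m * z) := by positivity
  refine ⟨z * Real.exp (2 * l), Real.exp (-(2 * l)), 33 / 10 * (Real.exp (2 * l) * (1 / (m * z))),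
    1 / (m * z), ?_⟩
  generalize 1 / (m * z) = r at *
  generalize hB : Real.exp (2 * l) = B at *
  refine ⟨rfl, by rw [hB], ?_, hE0, hE1, by positivity, hr, hr0, ?_, ?_, by positivity, ?_, ?_⟩
  · linear_combination z * hBE
  · linear_combination r * hBE
  · rw [hB]; ring
  · have h1 := mul_le_mul_of_nonneg_left hcap (by positivity : 0 ≤ B * r)
    have h2 : B * r * (m * z * Real.exp (-(2 * l))) = 1 := by
      linear_combination (r * (m * z)) * hBE + hr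
    linarith only [h1, h2]
  · linear_combination (m * z + 3 * z * (r * (m * z) + 1)) * hr

variable {m z s l u c G N t E Z r : ℝ}

theorem Ctx.out1 (C : Ctx m z l t E Z r) (hz5 : z ≤ 1 / 5) :
    ∀ Ee ∈ [out1], Ee.R t E Z ≤ 0 := by
  have : FXu.out1.R t E Z = t * E - 1 / 5 := by
    simp only [FXu.out1, Ex3.R_sub, Ex3.R_c, z1_R, Fr.R]
    norm_num
  intro Ee hEe
  rw [List.mem_singleton] at hEe
  rw [hEe, this, C.htE]
  linarith only [hz5]

theorem Ctx.w_ge (C : Ctx m z l t E Z r) (hcap : 33 / 10 ≤ m * z * Real.exp (-(2 * l)))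
    {w0 : ℝ} (h : w0 * E ≤ 33 / 10) : w0 ≤ m * z := by
  by_contra h'
  push Not at h'
  have := mul_lt_mul_of_pos_right h' C.hE0
  rw [← C.hE] at hcap
  (clear * - hcap h this; linarith)

theorem Ctx.bU_eq (C : Ctx m z l t E Z r) :
    bU.R t E Z = 3 / 25 * (r * (1 + 3 * z * r) * (1 + z / 2 + 23 / 50 * z ^ 2)) ∧
    (m * z) ^ 2 * (3 / 25 * (r * (1 + 3 * z * r) * (1 + z / 2 + 23 / 50 * z ^ 2))) =
        3 / 25 * ((m + 3) * z) * (1 + z / 2 + 23 / 50 * z ^ 2) := by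
  constructor
  · rw [bU_R, R13_R, C.hrZ, C.htE]
  · linear_combination (3 / 25 * (1 + z / 2 + 23 / 50 * z ^ 2)) * C.hR

theorem Ctx.rU_eq (C : Ctx m z l t E Z r) :
    rU.R t E Z = r * (25 / 34 * (1 - t) * (m * z + (1 + z)) - 1) := by
  rw [rU_R, C.hrZ, C.htE]
  linear_combination (-(25 / 34 * (1 - t))) * C.hr

theorem Ctx.bT_eq (C : Ctx m z l t E Z r) :
    bT.R t E Z = 3 / 25 * ((1 + 3 * z * r) *
        (r * (25 / 34 * (1 - t) * (m * z + (1 + z)) - 1))) ∧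
    (m * z) ^ 2 * (3 / 25 * ((1 + 3 * z * r) *
        (r * (25 / 34 * (1 - t) * (m * z + (1 + z)) - 1)))) =
        3 / 25 * ((m + 3) * z) * (25 / 34 * (1 - t) * (m * z + (1 + z)) - 1) := by
  constructor
  · rw [bT_R, C.rU_eq, C.hrZ, C.htE]
  · linear_combination (3 / 25 * (25 / 34 * (1 - t) * (m * z + (1 + z)) - 1)) * C.hR

theorem Ctx.chkm (C : Ctx m z l t E Z r) (hz5 : z ≤ 1 / 5) (h1 : t ≤ 1) :
    ∀ Ee ∈ [C2, mono (G1 bU), mono (H1 bU)], 0 ≤ Ee.R t E Z :=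
  use_chk chk_m (C.out1 hz5) (by norm_num)
      (by norm_num) (by norm_num) (by norm_num) (by norm_num) (by norm_num)
      (by push_cast; linarith only [C.ht0])
      (by push_cast; linarith only [h1]) (by push_cast; linarith only [C.hE0]) (by push_cast; linarith only [C.hE1])
      (by push_cast; linarith only [C.hZ0]) (by push_cast; linarith only [C.hZ1])

theorem Ctx.mb (C : Ctx m z l t E Z r) (hz5 : z ≤ 1 / 5) (h0 : 17 / 20 ≤ t) (h1 : t ≤ 1)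
    (h2 : E ≤ 3 / 10) :
    ∀ Ee ∈ [C2, mono (G1 bT), mono (H1 bT)], 0 ≤ Ee.R t E Z :=
  use_chk chk_mb (C.out1 hz5) (by norm_num)
      (by norm_num) (by norm_num) (by norm_num) (by norm_num) (by norm_num)
      (by push_cast; linarith only [h0])
      (by push_cast; linarith only [h1]) (by push_cast; linarith only [C.hE0]) (by push_cast; linarith only [h2])
      (by push_cast; linarith only [C.hZ0]) (by push_cast; linarith only [C.hZ1])

theorem Ctx.a (C : Ctx m z l t E Z r) (hz5 : z ≤ 1 / 5) (h1 : t ≤ 17 / 20) (h2 : E ≤ 3 / 10) :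
    ∀ Ee ∈ [hom (G1 bU) (G0 ⟨1, 3⟩), hom (H1 bU) (H0 ⟨47, 99⟩)], 0 ≤ Ee.R t E Z :=
  use_chk chk_a (C.out1 hz5) (by norm_num)
      (by norm_num) (by norm_num) (by norm_num) (by norm_num) (by norm_num)
      (by push_cast; linarith only [C.ht0])
      (by push_cast; linarith only [h1]) (by push_cast; linarith only [C.hE0]) (by push_cast; linarith only [h2])
      (by push_cast; linarith only [C.hZ0]) (by push_cast; linarith only [C.hZ1])

theorem Ctx.b (C : Ctx m z l t E Z r) (hz5 : z ≤ 1 / 5) (h1 : t ≤ 17 / 20) (h2 : 3 / 10 ≤ E) :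
    ∀ Ee ∈ [hom (G1 bU) (G0 ⟨3, 19⟩), hom (H1 bU) (H0 ⟨27, 99⟩)], 0 ≤ Ee.R t E Z :=
  use_chk chk_b (C.out1 hz5) (by norm_num)
      (by norm_num) (by norm_num) (by norm_num) (by norm_num) (by norm_num)
      (by push_cast; linarith only [C.ht0])
      (by push_cast; linarith only [h1]) (by push_cast; linarith) (by push_cast; linarith only [C.hE1])
      (by push_cast; linarith only [C.hZ0]) (by push_cast; linarith only [C.hZ1])

theorem Ctx.chkc (C : Ctx m z l t E Z r) (hz5 : z ≤ 1 / 5) (h0 : 17 / 20 ≤ t) (h1 : t ≤ 1)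
    (h2 : E ≤ 3 / 10) (hV : 0 ≤ 25 / 34 * (1 - t) * (m * z + (1 + z)) - 1) :
    ∀ Ee ∈ [hom (G1 bT) (G0 ⟨1, 3⟩), hom (H1 bT) (H0 ⟨47, 99⟩)], 0 ≤ Ee.R t E Z := by
  have hz'' : out2.R t E Z ≤ 0 := by
    have : out2.R t E Z = 0 - rU.R t E Z := by
      simp only [out2, Ex3.R_sub, Ex3.R_c, Fr.R]
      norm_num
    rw [this, C.rU_eq]
    have := mul_nonneg C.hr0.le hV
    linarith only [this]
  have hLo2 : ∀ Ee ∈ [FXu.out1, out2], Ee.R t E Z ≤ 0 := by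
    intro Ee hEe
    rcases List.mem_cons.1 hEe with h | h
    · exact C.out1 hz5 Ee (by rw [h]; simp)
    · rw [List.mem_singleton] at h
      rw [h]
      exact hz''
  exact use_chk chk_c hLo2 (by norm_num)
      (by norm_num) (by norm_num) (by norm_num) (by norm_num) (by norm_num)
      (by push_cast; linarith only [h0])
      (by push_cast; linarith only [h1]) (by push_cast; linarith only [C.hE0]) (by push_cast; linarith only [h2])
      (by push_cast; linarith only [C.hZ0]) (by push_cast; linarith only [C.hZ1])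

theorem Ctx.A (C : Ctx m z l t E Z r) (hz : 0 < z) (hz5 : z ≤ 1 / 5) (hs : 0 < s)
    (hsz : s ^ 2 = 1 - z) (hw : 9 ≤ m * z) (hl : 1 / 2 ≤ l)
    (hG : -(2 * (z * Real.exp (2 * l) - z) / (s * (1 + s))) + 2 * z * l / (s * (1 + s) ^ 2) ≤ G) :
    (m * z) ^ 2 * (c2r z r * (2 * l) ^ 2 + c1r z r * (2 * l) + c0r t E z r (10 / 33 * Z)) ≤
      Apart m z s l G := by
  have hA := A_ge hz hz5 hs hsz hw C.hr (by linarith only [hl]) hG
  rw [C.hqZ, ← C.hE, ← C.ht] at hA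
  exact hA

/-- the tail bound -/
theorem Ctx.V (C : Ctx m z l t E Z r) (hz : 0 < z) (hz5 : z ≤ 1 / 5) (hs : 0 < s)
    (hsz : s ^ 2 = 1 - z) (hw : 9 ≤ m * z) (h0 : 17 / 20 ≤ t) (h1 : t ≤ 1)
    (htail : 1 + u ≤ ((m + 1) * z + 1) / (2 * z) * ((Real.exp (-(2 * l)) - z) / s ^ 2)) :
    u ≤ 25 / 34 * (1 - t) * (m * z + (1 + z)) - 1 := by
  have ht0 := C.ht0
  have e1 : ((m + 1) * z + 1) / (2 * z) * ((E - z) / s ^ 2) =
      (m * z + (1 + z)) * (1 - t) / (2 * t * s ^ 2) := by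
    have hE0 := C.hE0
    have hz' : z = t * E := C.htE.symm
    have e2 : (E - z) / z = (1 - t) / t := by
      rw [hz']
      field_simp
    calc ((m + 1) * z + 1) / (2 * z) * ((E - z) / s ^ 2) =
        (m * z + (1 + z)) * ((E - z) / z) / (2 * s ^ 2) := by field_simp; ring
      _ = _ := by rw [e2]; field_simp
  rw [← C.hE, e1] at htail
  have h3 : (m * z + (1 + z)) * (1 - t) / (2 * t * s ^ 2) ≤
      25 / 34 * (1 - t) * (m * z + (1 + z)) := by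
    rw [div_le_iff₀ (by (clear * - h0 hs; positivity))]
    have h4 : 34 / 25 ≤ 2 * t * s ^ 2 := by
      rw [hsz]
      nlinarith only [hz5, h0]
    have h5 : 0 ≤ (1 - t) * (m * z + (1 + z)) := mul_nonneg (by linarith only [h1]) (by linarith only [hz, hw])
    have := mul_le_mul_of_nonneg_left h4 h5
    linarith only [this]
  linarith only [htail, h3]

/-- **region `X ≥ 3`, `u ≥ 0`, `z ≤ 1/5`, `l ≥ 1/2`** -/
theorem region2 (hz : 0 < z) (hz5 : z ≤ 1 / 5)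
    (hs : 0 < s) (hsz : s ^ 2 = 1 - z) (hw : 9 ≤ m * z) (hl : 1 / 2 ≤ l)
    (hT : z * Real.exp (2 * l) ≤ 1) (hcap : 33 / 10 ≤ m * z * Real.exp (-(2 * l)))
    (hu : 0 ≤ u) (hus : u * s ≤ 1)
    (htail : 1 + u ≤ ((m + 1) * z + 1) / (2 * z) * ((Real.exp (-(2 * l)) - z) / s ^ 2))
    (hc1 : 1 - 1 / (2 * m) ≤ c) (hc2 : c ≤ 1) (hN : Real.log (1 + u) - u ≤ N)
    (hG : -(2 * (z * Real.exp (2 * l) - z) / (s * (1 + s))) + 2 * z * l / (s * (1 + s) ^ 2) ≤ G) :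
    JTest (dpT m z s l u G N) (dpE m z s l u c N) (dpR m (z / s ^ 2)) u := by
  have hm : 45 ≤ m := by
    by_contra h
    push Not at h
    have := mul_lt_mul_of_pos_right h hz
    linarith only [hz5, hw, this]
  obtain ⟨t, E, Z, r, C⟩ := ctx hz hw hl hcap
  have hA := C.A hz hz5 hs hsz hw hl hG
  have hT' : t ≤ 1 := by rw [C.ht]; exact hT
  have hEe := C.hE
  rcases le_or_gt t (17 / 20) with h1 | h1
  · -- `t ≤ 17/20`: `u ≤ 1/s`
    have hm' := C.chkm hz5 hT'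
    have hV := Ub_ge hz hz5 hs hsz hus
    obtain ⟨hb, hbV⟩ := C.bU_eq
    rcases le_or_gt E (3 / 10) with h2 | h2
    · have hc := C.a hz5 h1 h2
      obtain ⟨f1, f2⟩ := from_chk (τf := ⟨1, 3⟩) (pf := ⟨47, 99⟩) (τ0 := 1 / 4) (p := 47 / 100)
        hEe hl C.htE C.hr C.hrZ hb hbV
        (by norm_num [Fr.R]) (by norm_num [Fr.R]) (hc _ (by simp)) (hc _ (by simp))
        (hm' _ (by simp)) (hm' _ (by simp)) (hm' _ (by simp))
      rw [hEe] at f2
      have h3 : (11 : ℝ) ≤ m * z := C.w_ge hcap (by linarith only [h2])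
      have h4 := rho_simple hm hz hs hsz hw h3
      exact fin2 (θ := 3 / 10) (θ1 := 14 / 25) (kr := 8 / 5) hm hz hz5 hs hsz hw hl hT hu hus hc1
        hc2 hN hV (hEe ▸ hA) (hEe ▸ f1) f2 (by norm_num) (by norm_num) (by norm_num)
        (by linarith only [h4]) (by norm_num) (by norm_num) (by norm_num) (by norm_num)
    · have hc := C.b hz5 h1 h2.le
      obtain ⟨f1, f2⟩ := from_chk (τf := ⟨3, 19⟩) (pf := ⟨27, 99⟩) (τ0 := 3 / 20) (p := 27 / 100)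
        hEe hl C.htE C.hr C.hrZ hb hbV
        (by norm_num [Fr.R]) (by norm_num [Fr.R]) (hc _ (by simp)) (hc _ (by simp))
        (hm' _ (by simp)) (hm' _ (by simp)) (hm' _ (by simp))
      rw [hEe] at f2
      have h4 := rho_simple hm hz hs hsz hw hw
      exact fin2 (θ := 1 / 5) (θ1 := 2 / 5) (kr := 7 / 5) hm hz hz5 hs hsz hw hl hT hu hus hc1
        hc2 hN hV (hEe ▸ hA) (hEe ▸ f1) f2 (by norm_num) (by norm_num) (by norm_num)
        (by linarith only [h4]) (by norm_num) (by norm_num) (by norm_num) (by norm_num)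
  · -- `t ≥ 17/20`: tail bound
    have hE2 : E ≤ 3 / 10 := by
      by_contra h
      push Not at h
      have h3 : 17 / 20 * (3 / 10) < t * E := mul_lt_mul h1 h.le (by norm_num) C.ht0.le
      rw [C.htE] at h3
      linarith only [hz5, h3]
    have hV := C.V hz hz5 hs hsz hw h1.le hT' htail
    obtain ⟨hb, hbV⟩ := C.bT_eq
    have hm' := C.mb hz5 h1.le hT' hE2
    have hc := C.chkc hz5 h1.le hT' hE2 (hu.trans hV)
    obtain ⟨f1, f2⟩ := from_chk (τf := ⟨1, 3⟩) (pf := ⟨47, 99⟩) (τ0 := 1 / 4) (p := 47 / 100)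
      hEe hl C.htE C.hr C.hrZ hb hbV
      (by norm_num [Fr.R]) (by norm_num [Fr.R]) (hc _ (by simp)) (hc _ (by simp))
      (hm' _ (by simp)) (hm' _ (by simp)) (hm' _ (by simp))
    rw [hEe] at f2
    have h3 : (11 : ℝ) ≤ m * z := C.w_ge hcap (by linarith only [hE2])
    have h4 := rho_simple hm hz hs hsz hw h3
    exact fin2 (θ := 3 / 10) (θ1 := 14 / 25) (kr := 8 / 5) hm hz hz5 hs hsz hw hl hT hu hus hc1
      hc2 hN hV (hEe ▸ hA) (hEe ▸ f1) f2 (by norm_num) (by norm_num) (by norm_num)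
      (by linarith only [h4]) (by norm_num) (by norm_num) (by norm_num) (by norm_num)

end FXu

end Vale.Agent.P237.AllN
end

section

/-!
# P237, block D, region `X ≥ 3`, `u ≥ 0`, `z ≤ 1/5`, `l ≤ 1/2`: the kernel-checked inequalities
-/

namespace Vale.Agent.P237.AllN

open PolyPos

namespace FXu

/-! `X = l`, `Y = z`, `Z = r` -/

def iz2 : Ex3 := Ex3.Y * Ex3.Y
def iz3 : Ex3 := iz2 * Ex3.Y
def iz4 : Ex3 := iz2 * iz2
def iz5 : Ex3 := iz4 * Ex3.Y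
def ir2 : Ex3 := Ex3.Z * Ex3.Z
/-- `(w + k z) r²` -/
def iwk (k : ℤ) : Ex3 := Ex3.Z * (Ex3.c ⟨1, 0⟩ + Ex3.c ⟨k, 0⟩ * Ex3.Y * Ex3.Z)
/-- quadratic in `l` -/
def iq (a b c : Fr) : Ex3 := Ex3.c a + Ex3.c b * Ex3.X + Ex3.c c * (Ex3.X * Ex3.X)
def iT5 : Ex3 := Ex3.c ⟨1, 0⟩ + Ex3.c ⟨5, 1⟩ * Ex3.Y + Ex3.c ⟨35, 7⟩ * iz2 + Ex3.c ⟨105, 15⟩ * iz3 +
  Ex3.c ⟨1155, 127⟩ * iz4

def ikB : Ex3 := iwk 3 * iq ⟨4, 2⟩ ⟨-81, 124⟩ ⟨97, 499⟩ +
  Ex3.c ⟨3, 15⟩ * Ex3.Y * (iwk 5 * iq ⟨128, 2⟩ ⟨-21, 0⟩ ⟨617, 19⟩ - Ex3.c ⟨6, 0⟩ * ir2 * iq ⟨32, 2⟩ ⟨-1067, 99⟩ ⟨317, 49⟩) +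
  Ex3.c ⟨5, 47⟩ * iz2 * (iwk 7 * iq ⟨216, 0⟩ ⟨-1049, 4⟩ ⟨637, 1⟩ - Ex3.c ⟨20, 0⟩ * ir2 * iq ⟨36, 0⟩ ⟨-54, 0⟩ ⟨212, 4⟩) +
  Ex3.c ⟨35, 511⟩ * iz3 * (iwk 9 * iq ⟨2048, 2⟩ ⟨-989, 0⟩ ⟨1695, 0⟩ - Ex3.c ⟨42, 0⟩ * ir2 * iq ⟨256, 2⟩ ⟨-1707, 9⟩ ⟨797, 4⟩) +
  Ex3.c ⟨63, 1279⟩ * iz4 * (iwk 11 * iq ⟨5000, 2⟩ ⟨-3230, 0⟩ ⟨6397, 0⟩ - Ex3.c ⟨72, 0⟩ * ir2 * iq ⟨500, 2⟩ ⟨-4167, 9⟩ ⟨2192, 4⟩) +
  Ex3.c ⟨77, 2047⟩ * iz5 * (iwk 13 * iq ⟨3456, 0⟩ ⟨-8456, 0⟩ ⟨19775, 0⟩ - Ex3.c ⟨110, 0⟩ * ir2 * iq ⟨288, 0⟩ ⟨-864, 0⟩ ⟨9919, 9⟩)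

def iA : Ex3 := Ex3.c ⟨2, 0⟩ * iwk 3 - Ex3.X * ikB + Ex3.c ⟨3, 0⟩ * Ex3.Y * (Ex3.Z - Ex3.c ⟨3, 0⟩ * ir2) * iT5 -
  Ex3.Y * (Ex3.c ⟨3, 3⟩ + Ex3.c ⟨21, 4⟩ * Ex3.Y) * ir2 +
  Ex3.c ⟨3, 24⟩ * (Ex3.c ⟨1, 0⟩ + Ex3.c ⟨3, 0⟩ * Ex3.Y * Ex3.Z) *
    (Ex3.c ⟨1, 0⟩ + Ex3.Y + iz2 - Ex3.c ⟨3, 0⟩ * Ex3.Z) - Ex3.c ⟨7, 9⟩ * Ex3.Z - Ex3.c ⟨3, 24⟩

theorem chk_iA : Ex3.nn (2 ^ 1024) 40 4000 0 1 2 0 1 5 0 1 9 iA = true := by decide +kernel

/-! `X = u`, `Y = z`, `Z = r` -/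

def jh : Ex3 := Ex3.c ⟨2, 0⟩ + Ex3.c ⟨31, 24⟩ * Ex3.X
def jU : Ex3 := Ex3.c ⟨1, 0⟩ + Ex3.c ⟨1, 1⟩ * Ex3.Y + Ex3.c ⟨23, 49⟩ * (Ex3.Y * Ex3.Y)
def j1u : Ex3 := Ex3.c ⟨1, 0⟩ + Ex3.X
def jz : Ex3 := Ex3.c ⟨1, 0⟩ - Ex3.Y
def ja : Ex3 := (Ex3.c ⟨9, 99⟩ + Ex3.c ⟨7, 9⟩ * Ex3.Z) * j1u +
  Ex3.c ⟨1471, 249⟩ * jz * (Ex3.X * Ex3.X) * (Ex3.Z * Ex3.Z)
def jg : Ex3 := Ex3.c ⟨4, 0⟩ * jz * jh - Ex3.c ⟨23, 10⟩ * jU * j1u - Ex3.c ⟨1, 4⟩ * j1u * jh
def jb : Ex3 := Ex3.c ⟨3, 24⟩ * (Ex3.c ⟨1, 0⟩ + Ex3.c ⟨3, 0⟩ * Ex3.Y * Ex3.Z) * j1u +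
  Ex3.c ⟨4, 0⟩ * jz * Ex3.X * Ex3.Z
def jT : Ex3 := ja * jg - jb * jb * jh

theorem chk_jT : Ex3.nn (2 ^ 1024) 40 4000 0 28 25 0 1 5 0 1 9 jT = true := by (clear * -; decide +kernel)

/-- sign of `e` -/
def je : Ex3 := Ex3.c ⟨3678, 2499⟩ * jz * Ex3.X * jh + Ex3.c ⟨2, 0⟩ * Ex3.Y * j1u * jh -
  Ex3.c ⟨2, 0⟩ * jU * Ex3.X * j1u

theorem chk_je : Ex3.nn (2 ^ 1024) 40 4000 0 28 25 0 1 5 0 1 9 je = true := by (clear * -; decide +kernel)

/-- `B r` -/
def kB : Ex3 := (Ex3.c ⟨1, 0⟩ + Ex3.c ⟨4, 0⟩ * Ex3.Y + Ex3.c ⟨23, 24⟩ * (Ex3.Y * Ex3.Y)) * Ex3.Z +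
  Ex3.c ⟨3, 24⟩ * (Ex3.c ⟨1, 0⟩ + Ex3.c ⟨3, 0⟩ * Ex3.Y * Ex3.Z) * jU
/-- `A r` -/
def kA : Ex3 := Ex3.c ⟨3, 49⟩ * (Ex3.c ⟨1, 0⟩ + Ex3.c ⟨3, 0⟩ * Ex3.Y * Ex3.Z) +
  (Ex3.c ⟨3, 0⟩ * Ex3.Y + Ex3.c ⟨23, 24⟩ * (Ex3.Y * Ex3.Y) + Ex3.c ⟨1, 19⟩) * Ex3.Z
/-- `ρ r²` -/
def kρ : Ex3 := Ex3.c ⟨1, 4⟩ * (Ex3.Z * Ex3.Z) + Ex3.c ⟨1, 1⟩ * Ex3.Z * (Ex3.c ⟨1, 0⟩ + Ex3.Y + Ex3.Y * Ex3.Y) +
  Ex3.c ⟨1, 9⟩ * (Ex3.c ⟨1, 0⟩ - Ex3.c ⟨2, 0⟩ * Ex3.Y * Ex3.Z) *
    (Ex3.c ⟨1, 0⟩ + Ex3.c ⟨2, 0⟩ * Ex3.Y + Ex3.c ⟨3, 0⟩ * (Ex3.Y * Ex3.Y))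
def kJ1 : Ex3 := Ex3.c ⟨7, 9⟩ * kρ - Ex3.c ⟨100, 2⟩ * (kB * Ex3.Z) * (kB * Ex3.Z) - Ex3.c ⟨5, 0⟩ * kA * kA
def kJ2 : Ex3 := Ex3.c ⟨1, 4⟩ * kρ - Ex3.Z * (Ex3.c ⟨1, 1⟩ * kB + jU * kA)

theorem chk_J1 : Ex3.nn (2 ^ 1024) 40 4000 0 1 1 0 1 5 0 1 9 kJ1 = true := by (clear * -; decide +kernel)

theorem chk_J2 : Ex3.nn (2 ^ 1024) 40 4000 0 1 1 0 1 5 0 1 9 kJ2 = true := by (clear * -; decide +kernel)

theorem chk_G : Ex.nn (2 ^ 512) 40 4000 894 1000 1000 0 1 2 (fgE ⟨3, 3⟩ ⟨27, 9⟩ ⟨-153, 19⟩) = true := by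
  (clear * -; decide +kernel)

end FXu

end Vale.Agent.P237.AllN
end

section

/-!
# P237, block D, region `X ≥ 3`, `u ≥ 0`, `z ≤ 1/5`: the part `l ≤ 1/2` and the theorem `fxu_region`
-/

namespace Vale.Agent.P237.AllN

open PolyPos

namespace FXu

/-- the bracket of the `(l, 0)`-part, `l ≤ 1/2` -/
noncomputable def brk (l z w : ℝ) : ℝ :=
  2 * (w + 3 * z) - l * ((w + 3 * z) * (4 / 3 - 81 / 125 * l + 97 / 500 * l ^ 2) +
    3 / 16 * z * ((w + 5 * z) * (128 / 3 - 21 * l + 617 / 20 * l ^ 2) - 6 * (32 / 3 - 1067 / 100 * l + 317 / 50 * l ^ 2)) +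
    5 / 48 * z ^ 2 * ((w + 7 * z) * (216 - 1049 / 5 * l + 637 / 2 * l ^ 2) - 20 * (36 - 54 * l + 212 / 5 * l ^ 2)) +
    35 / 512 * z ^ 3 * ((w + 9 * z) * (2048 / 3 - 989 * l + 1695 * l ^ 2) - 42 * (256 / 3 - 1707 / 10 * l + 797 / 5 * l ^ 2)) +
    63 / 1280 * z ^ 4 * ((w + 11 * z) * (5000 / 3 - 3230 * l + 6397 * l ^ 2) - 72 * (500 / 3 - 4167 / 10 * l + 2192 / 5 * l ^ 2)) +
    77 / 2048 * z ^ 5 * ((w + 13 * z) * (3456 - 8456 * l + 19775 * l ^ 2) - 110 * (288 - 864 * l + 9919 / 10 * l ^ 2))) +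
  3 * z * (w - 3) * (1 + 5 / 2 * z + 35 / 8 * z ^ 2 + 105 / 16 * z ^ 3 + 1155 / 128 * z ^ 4) -
  z * (3 / 4 + 21 / 5 * z) + 3 / 25 * (w + 3 * z) * (w * (1 + z + z ^ 2) - 3) - 7 / 10 * w -
  3 / 25 * w ^ 2

theorem iwk_R (k : ℤ) (l z r : ℝ) : (iwk k).R l z r = r * (1 + k * z * r) := by
  simp only [iwk, Ex3.R_mul, Ex3.R_Z, Ex3.R_add, Ex3.R_c, Fr.R, Ex3.R_Y]
  push_cast
  ring

theorem iq_R (a b c : Fr) (l z r : ℝ) : (iq a b c).R l z r = a.R + b.R * l + c.R * (l * l) := rfl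

theorem iA_R {l z w r : ℝ} (hr : r * w = 1) : w ^ 2 * iA.R l z r = brk l z w := by
  have hw : w ≠ 0 := by rintro rfl; simp at hr
  have hr' : r = 1 / w := by field_simp; exact hr
  subst hr'
  simp only [iA, ikB, ir2, iz2, iz3, iz4, iz5, iT5, Ex3.R_sub, Ex3.R_add, Ex3.R_mul, Ex3.R_c, iwk_R, Ex3.R_X, iq_R, Ex3.R_Y, Ex3.R_Z, brk]
  simp only [show ∀ (n : ℤ) (d : ℕ), Fr.R ⟨n, d⟩ = (n : ℝ) / ((d : ℝ) + 1) from fun _ _ => rfl]
  push_cast
  field_simp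
  ring

theorem brk_nonneg {l z w : ℝ} (hz : 0 < z) (hz5 : z ≤ 1 / 5) (hw : 9 ≤ w) (hl0 : 0 ≤ l)
    (hl1 : l ≤ 1 / 2) : 0 ≤ brk l z w := by
  have hw0 : 0 < w := by linarith only [hw]
  have hr : 1 / w * w = 1 := div_mul_cancel₀ 1 hw0.ne'
  have hr0 : 0 < 1 / w := by (clear * - hw; positivity)
  have hr9 : 1 / w ≤ 1 / 9 := one_div_le_one_div_of_le (by norm_num) hw
  rw [← iA_R hr]
  apply mul_nonneg (sq_nonneg w)
  exact Ex3.nn_closed (by norm_num) (by norm_num) (by norm_num) (by norm_num) (by norm_num)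
    (by norm_num) chk_iA (by push_cast; linarith only [hl0]) (by push_cast; linarith only [hl1])
    (by push_cast; linarith only [hz]) (by push_cast; linarith only [hz5]) (by push_cast; linarith only [hr0])
    (by push_cast; linarith only [hr9])

/-- lower bound of the `(l, 0)`-part of `T` for `l ≤ 1/2` -/
theorem A1_ge {m z s l G : ℝ} (hm : 0 ≤ m) (hz : 0 < z) (hz5 : z ≤ 1 / 5) (hs : 0 < s)
    (hsz : s ^ 2 = 1 - z) (hw : 9 ≤ m * z) (hl0 : 0 ≤ l) (hl1 : l ≤ 1 / 2)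
    (hG : -(z * (3 / 4 + 21 / 5 * z) * l ^ 2) ≤ G) :
    (7 / 10 * (m * z) + 3 / 25 * (m * z) ^ 2) * l ^ 2 ≤ Apart m z s l G := by
  have h1 := A_aux (l := l) hz hz5 hs hsz hw
  have h2 := dpS0_ge' hm hz.le hl0 hl1
  have h3 := mul_nonneg (brk_nonneg hz hz5 hw hl0 hl1) (sq_nonneg l)
  have e : brk l z (m * z) * l ^ 2 = l ^ 2 * (2 * (m + 3) * z) - l ^ 3 * z * kB' m z l +
      (3 * z * (m * z - 3) * (1 + 5 / 2 * z + 35 / 8 * z ^ 2 + 105 / 16 * z ^ 3 +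
        1155 / 128 * z ^ 4) * l ^ 2 + 3 / 25 * (m * z + 3 * z) * (m * z * (1 + z + z ^ 2) - 3) *
          l ^ 2) - z * (3 / 4 + 21 / 5 * z) * l ^ 2 -
      (7 / 10 * (m * z) + 3 / 25 * (m * z) ^ 2) * l ^ 2 := by
    simp only [brk, kB']
    ring
  rw [e] at h3
  simp only [Apart]
  linarith only [hG, h1, h2, h3]

theorem Ub_s {z s : ℝ} (hz : 0 < z) (hz5 : z ≤ 1 / 5) (hs : 0 < s) (hsz : s ^ 2 = 1 - z) :
    1 / s ≤ 1 + 1 / 2 * z + 23 / 50 * (z * z) := by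
  have h1 : 1 ≤ (1 + 1 / 2 * z + 23 / 50 * (z * z)) * s := by
    have h2 : (1 : ℝ) ^ 2 ≤ ((1 + 1 / 2 * z + 23 / 50 * (z * z)) * s) ^ 2 := by
      rw [mul_pow, hsz]
      have a := sub_nonneg.2 hz5
      nlinarith only [a, pow_pos hz 4]
    exact le_of_sq_le_sq h2 (by positivity)
  rw [div_le_iff₀ hs]
  exact h1

/-- the box of the checks in `(u, z, r)` -/
structure Box (u z r : ℝ) : Prop where
  hu : 0 ≤ u
  hu1 : u ≤ 28 / 25
  hz : 0 < z
  hz5 : z ≤ 1 / 5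
  hr : 0 < r
  hr9 : r ≤ 1 / 9

theorem Box.nn {u z r : ℝ} (B : Box u z r) {e : Ex3}
    (h : Ex3.nn (2 ^ 1024) 40 4000 0 28 25 0 1 5 0 1 9 e = true) : 0 ≤ e.R u z r := by
  have := B.hu
  have := B.hu1
  have := B.hz
  have := B.hz5
  have := B.hr
  have := B.hr9
  exact Ex3.nn_closed (by norm_num) (by norm_num) (by norm_num) (by norm_num) (by norm_num)
    (by norm_num) h (by push_cast; linarith) (by push_cast; (clear e h this; linarith))
    (by push_cast; (clear e h this; linarith)) (by push_cast; (clear e h this; linarith)) (by push_cast; linarith)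
    (by push_cast; linarith only [this])

theorem Box.quad {u z r : ℝ} (B : Box u z r) (L : ℝ) :
    0 ≤ ((9 / 100 + 7 / 10 * r) * (1 + u) + 1471 / 250 * (1 - z) * u ^ 2 * r ^ 2) *
        (2 + 31 / 25 * u) * L ^ 2 -
      2 * (3 / 25 * (1 + 3 * z * r) * (1 + u) + 4 * (1 - z) * u * r) * (2 + 31 / 25 * u) * L * u +
      (4 * (1 - z) * (2 + 31 / 25 * u) - 23 / 11 * (1 + 1 / 2 * z + 23 / 50 * (z * z)) * (1 + u) -
        1 / 5 * (1 + u) * (2 + 31 / 25 * u)) * u ^ 2 := by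
  have h := B.nn chk_jT
  have e : jT.R u z r = ((9 / 100 + 7 / 10 * r) * (1 + u) + 1471 / 250 * (1 - z) * u ^ 2 * r ^ 2) *
      (4 * (1 - z) * (2 + 31 / 25 * u) - 23 / 11 * (1 + 1 / 2 * z + 23 / 50 * (z * z)) * (1 + u) -
        1 / 5 * (1 + u) * (2 + 31 / 25 * u)) -
      (3 / 25 * (1 + 3 * z * r) * (1 + u) + 4 * (1 - z) * u * r) ^ 2 * (2 + 31 / 25 * u) := by
    simp only [jT, ja, jg, jb, jh, jU, j1u, jz, Ex3.R_add, Ex3.R_sub, Ex3.R_mul, Ex3.R_c,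
      Ex3.R_X, Ex3.R_Y, Ex3.R_Z]
    simp only [show ∀ (n : ℤ) (d : ℕ), Fr.R ⟨n, d⟩ = (n : ℝ) / ((d : ℝ) + 1) from fun _ _ => rfl]
    push_cast
    ring
  rw [e] at h
  have hu := B.hu
  have hr := B.hr
  have hz1 : 0 ≤ 1 - z := by linarith only [B.hz5]
  have ha : 0 < (9 / 100 + 7 / 10 * r) * (1 + u) + 1471 / 250 * (1 - z) * u ^ 2 * r ^ 2 := by
    have h1 : 0 < (9 / 100 + 7 / 10 * r) * (1 + u) := by (clear * - hr hu; positivity)
    have h2 : 0 ≤ 1471 / 250 * (1 - z) * u ^ 2 * r ^ 2 := by (clear * - hz1 hr; positivity)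
    (clear * - h1 h2; linarith only [h2, h1])
  have hh : 0 < 2 + 31 / 25 * u := by positivity
  generalize (9 / 100 + 7 / 10 * r) * (1 + u) + 1471 / 250 * (1 - z) * u ^ 2 * r ^ 2 = a at *
  generalize 4 * (1 - z) * (2 + 31 / 25 * u) - 23 / 11 * (1 + 1 / 2 * z + 23 / 50 * (z * z)) *
    (1 + u) - 1 / 5 * (1 + u) * (2 + 31 / 25 * u) = g at *
  generalize 3 / 25 * (1 + 3 * z * r) * (1 + u) + 4 * (1 - z) * u * r = b at *
  generalize 2 + 31 / 25 * u = H at *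
  have h1 : 0 ≤ H * (a * L - b * u) ^ 2 + (a * g - b ^ 2 * H) * u ^ 2 := by (clear * - hh h; positivity)
  have e2 : H * (a * L - b * u) ^ 2 + (a * g - b ^ 2 * H) * u ^ 2 =
      a * (a * H * L ^ 2 - 2 * b * H * L * u + g * u ^ 2) := by ring
  rw [e2] at h1
  exact nonneg_of_mul_nonneg_right h1 ha

theorem box_of {z s u w : ℝ} (hz : 0 < z) (hz5 : z ≤ 1 / 5) (hs : 0 < s) (hsz : s ^ 2 = 1 - z)
    (hu : 0 ≤ u) (hus : u * s ≤ 1) (hw : 9 ≤ w) : Box u z (1 / w) :=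
  ⟨hu, u_le hz hz5 hs hsz hu hus, hz, hz5, by positivity,
    one_div_le_one_div_of_le (by norm_num) hw⟩

/-- the quadratic form in the variables `l`, `u` -/
theorem quad_w {z s u w : ℝ} (hz : 0 < z) (hz5 : z ≤ 1 / 5) (hs : 0 < s) (hsz : s ^ 2 = 1 - z)
    (hu : 0 ≤ u) (hus : u * s ≤ 1) (hw : 9 ≤ w) (l : ℝ) :
    3 / 100 * w ^ 2 * l ^ 2 + 1 / 5 * u ^ 2 ≤ (7 / 10 * w + 3 / 25 * w ^ 2) * l ^ 2 +
      4 * (1 - z) * (1 - 2 * l + 1471 / 1000 * l ^ 2) * (u ^ 2 / (1 + u)) -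
      6 / 25 * (w + 3 * z) * (u * l) -
      23 / 11 * (1 + 1 / 2 * z + 23 / 50 * (z * z)) * (u ^ 2 / (2 + 31 / 25 * u)) := by
  have h := (box_of hz hz5 hs hsz hu hus hw).quad (w * l)
  have hw0 : 0 < w := by linarith only [hw]
  have e : (7 / 10 * w + 3 / 25 * w ^ 2) * l ^ 2 +
      4 * (1 - z) * (1 - 2 * l + 1471 / 1000 * l ^ 2) * (u ^ 2 / (1 + u)) -
      6 / 25 * (w + 3 * z) * (u * l) -
      23 / 11 * (1 + 1 / 2 * z + 23 / 50 * (z * z)) * (u ^ 2 / (2 + 31 / 25 * u)) -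
      (3 / 100 * w ^ 2 * l ^ 2 + 1 / 5 * u ^ 2) =
      (((9 / 100 + 7 / 10 * (1 / w)) * (1 + u) + 1471 / 250 * (1 - z) * u ^ 2 * (1 / w) ^ 2) *
        (2 + 31 / 25 * u) * (w * l) ^ 2 -
      2 * (3 / 25 * (1 + 3 * z * (1 / w)) * (1 + u) + 4 * (1 - z) * u * (1 / w)) *
        (2 + 31 / 25 * u) * (w * l) * u +
      (4 * (1 - z) * (2 + 31 / 25 * u) - 23 / 11 * (1 + 1 / 2 * z + 23 / 50 * (z * z)) * (1 + u) -
        1 / 5 * (1 + u) * (2 + 31 / 25 * u)) * u ^ 2) / ((1 + u) * (2 + 31 / 25 * u)) := by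
    have h1 : 1 + u ≠ 0 := by positivity
    have h2 : 2 + 31 / 25 * u ≠ 0 := by (clear * - hu; positivity)
    rw [eq_div_iff (mul_ne_zero h1 h2)]
    have e1 : u ^ 2 / (1 + u) * (1 + u) = u ^ 2 := div_mul_cancel₀ _ h1
    have e2 : u ^ 2 / (2 + 31 / 25 * u) * (2 + 31 / 25 * u) = u ^ 2 := div_mul_cancel₀ _ h2
    have e3 : 1 / w * w = 1 := div_mul_cancel₀ _ hw0.ne'
    generalize u ^ 2 / (1 + u) = X at *
    generalize u ^ 2 / (2 + 31 / 25 * u) = Y at *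
    generalize 1 / w = r at *
    have e4 : r * w ^ 2 = w := by linear_combination w * e3
    have e5 : r ^ 2 * w ^ 2 = 1 := by linear_combination (r * w + 1) * e3
    linear_combination (4 * (1 - z) * (1 - 2 * l + 1471 / 1000 * l ^ 2) * (2 + 31 / 25 * u)) * e1 -
      (23 / 11 * (1 + 1 / 2 * z + 23 / 50 * (z * z)) * (1 + u)) * e2 -
      (7 / 10 * l ^ 2 * (1 + u) * (2 + 31 / 25 * u)) * e4 -
      (1471 / 250 * (1 - z) * u ^ 2 * l ^ 2 * (2 + 31 / 25 * u)) * e5 +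
      (2 * (3 / 25 * 3 * z * (1 + u) + 4 * (1 - z) * u) * (2 + 31 / 25 * u) * l * u) * e3
  have hd : 0 < (1 + u) * (2 + 31 / 25 * u) := by (clear * - hu; positivity)
  have := div_nonneg h hd.le
  rw [← e] at this
  linarith only [this]

theorem T1_ge {m z s l u G N : ℝ} (hm : 45 ≤ m) (hz : 0 < z) (hz5 : z ≤ 1 / 5) (hs : 0 < s)
    (hsz : s ^ 2 = 1 - z) (hw : 9 ≤ m * z) (hl0 : 0 ≤ l) (hl1 : l ≤ 1 / 2)
    (hT : z * Real.exp (2 * l) ≤ 1) (hu : 0 ≤ u) (hus : u * s ≤ 1)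
    (hN : Real.log (1 + u) - u ≤ N)
    (hA : (7 / 10 * (m * z) + 3 / 25 * (m * z) ^ 2) * l ^ 2 ≤ Apart m z s l G) :
    3 / 100 * (m * z) ^ 2 * l ^ 2 + 1 / 5 * u ^ 2 ≤ dpT m z s l u G N := by
  have hφ := phi_E2 hz hz5 hs hsz hu hus
  have h1 := red_T hm hz hs hsz hT hu hN hφ hA
  have h2 := quad_w hz hz5 hs hsz hu hus hw l
  have h3 : 4 * (1 - z) * (1 - 2 * l + 1471 / 1000 * l ^ 2) * (u ^ 2 / (1 + u)) ≤
      4 * s ^ 2 * Real.exp (-(2 * l)) * (u ^ 2 / (1 + u)) := by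
    apply mul_le_mul_of_nonneg_right _ (W_nn hu)
    rw [hsz]
    exact mul_le_mul_of_nonneg_left (exp_E1d hl0 hl1) (by linarith only [hz5])
  have h4 : 23 / 11 / s * (u ^ 2 / (2 + 31 / 25 * u)) ≤
      23 / 11 * (1 + 1 / 2 * z + 23 / 50 * (z * z)) * (u ^ 2 / (2 + 31 / 25 * u)) := by
    apply mul_le_mul_of_nonneg_right _ (by (clear * - hu; positivity))
    have := Ub_s hz hz5 hs hsz
    rw [show 23 / 11 / s = 23 / 11 * (1 / s) by ring]
    exact mul_le_mul_of_nonneg_left this (by norm_num)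
  have e : 6 / 25 * ((m + 3) * z) * (u * l) = 6 / 25 * (m * z + 3 * z) * (u * l) := by ring
  rw [e] at h1
  linarith only [h1, h2, h3, h4]

theorem phi_lin {z s u : ℝ} (hz : 0 < z) (hz5 : z ≤ 1 / 5) (hs : 0 < s) (hsz : s ^ 2 = 1 - z)
    (hu : 0 ≤ u) (hus : u * s ≤ 1) :
    1 / 8 / s * (u ^ 2 / (2 + 31 / 25 * u)) ≤ u / 20 := by
  obtain ⟨h1, h2⟩ := s_facts hz hz5 hs hsz
  have e : 1 / 8 / s * (u ^ 2 / (2 + 31 / 25 * u)) = u * u / (8 * (s * (2 + 31 / 25 * u))) := by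
    field_simp
  rw [e, div_le_div_iff₀ (by positivity) (by norm_num)]
  have h3 : 20 * u ≤ 8 * (s * (2 + 31 / 25 * u)) := by
    have h4 : (20 - 8 * (31 / 25 * s)) * (u * s) ≤ (20 - 8 * (31 / 25 * s)) * 1 :=
      mul_le_mul_of_nonneg_left hus (by linarith only [h2])
    have h5 : 20 - 8 * (31 / 25 * s) ≤ 16 * s * s := by nlinarith only [h1]
    have h6 : (20 - 8 * (31 / 25 * s)) * u * s ≤ 16 * s * s := by linarith only [hz5, hsz, h1, h4]
    have h7 : (20 - 8 * (31 / 25 * s)) * u ≤ 16 * s := le_of_mul_le_mul_right h6 hs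
    linarith only [h7]
  have := mul_le_mul_of_nonneg_left h3 hu
  linarith only [this]

theorem psi_le {l : ℝ} (hl0 : 0 ≤ l) : Real.exp (-(2 * l)) - 1 + 2 * l ≤ 2 * l ^ 2 := by
  have h1 : Real.exp (-(2 * l)) * Real.exp (2 * l) = 1 := by rw [← Real.exp_add]; norm_num
  have h2 : 1 + 2 * l + 2 * l ^ 2 ≤ Real.exp (2 * l) := by
    have := Real.quadratic_le_exp_of_nonneg (x := 2 * l) (by linarith)
    linarith only [this]
  have h3 := mul_le_mul_of_nonneg_left h2 (Real.exp_pos (-(2 * l))).le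
  rw [h1] at h3
  have h4 : 0 < 1 + 2 * l + 2 * l ^ 2 := by positivity
  have h5 : Real.exp (-(2 * l)) * (1 + 2 * l + 2 * l ^ 2) ≤
      (1 - 2 * l + 2 * l ^ 2) * (1 + 2 * l + 2 * l ^ 2) := by
    have : 0 ≤ 4 * l ^ 4 := by positivity
    linarith only [h3, this]
  have := le_of_mul_le_mul_right h5 h4
  linarith

theorem psi_nn (l : ℝ) : 0 ≤ Real.exp (-(2 * l)) - 1 + 2 * l := by
  have := Real.add_one_le_exp (-(2 * l))
  linarith

/-- upper bound of `e - T` -/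
theorem P1_le {m z s l u c G N : ℝ} (hm : 45 ≤ m) (hz : 0 < z) (hz5 : z ≤ 1 / 5) (hs : 0 < s)
    (hsz : s ^ 2 = 1 - z) (hw : 9 ≤ m * z) (hl0 : 0 ≤ l) (hl1 : l ≤ 1 / 2)
    (hT : z * Real.exp (2 * l) ≤ 1) (hu : 0 ≤ u) (hus : u * s ≤ 1)
    (hc1 : 1 - 1 / (2 * m) ≤ c) (hc2 : c ≤ 1) (hN : Real.log (1 + u) - u ≤ N)
    (hA : (7 / 10 * (m * z) + 3 / 25 * (m * z) ^ 2) * l ^ 2 ≤ Apart m z s l G) :
    dpE m z s l u c N - dpT m z s l u G N ≤
      (1 + 4 * z + 23 / 25 * z ^ 2 + 3 / 25 * (m * z + 3 * z) * (1 + 1 / 2 * z + 23 / 50 * (z * z))) * l +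
      (3 / 50 * (m * z + 3 * z) + (3 * z + 23 / 25 * z ^ 2) + 1 / 20) * u := by
  have hφ := phi_E2 hz hz5 hs hsz hu hus
  have h1 := red_P hm hz hs hsz hl0 hT hu hc1 hc2 hN hφ hA
  have hU := Ub_s hz hz5 hs hsz
  have hu2 : u ≤ 1 + 1 / 2 * z + 23 / 50 * (z * z) := by
    refine le_trans ?_ hU
    rw [le_div_iff₀ hs]
    exact hus
  have h2 := phi_lin hz hz5 hs hsz hu hus
  have e : (m + 3) * z = m * z + 3 * z := by ring
  rw [e] at h1
  have h3 : (m * z + 3 * z) * (Real.exp (-(2 * l)) - 1 + 2 * l) ≤ (m * z + 3 * z) * (2 * l ^ 2) :=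
    mul_le_mul_of_nonneg_left (psi_le hl0) (by linarith only [hz, hw])
  clear hA
  generalize m * z = w at *
  have h4 : (w + 3 * z) * (2 * l ^ 2) - (7 / 10 * w + 3 / 25 * w ^ 2) * l ^ 2 ≤
      (1 + 3 * z) * l := by
    have h5 : (13 / 10 * w + 6 * z - 3 / 25 * w ^ 2) ≤ 2 + 6 * z := by nlinarith only [hw]
    have h6 := mul_le_mul_of_nonneg_right h5 (sq_nonneg l)
    have h7 : (2 + 6 * z) * l * l ≤ (2 + 6 * z) * l * (1 / 2) :=
      mul_le_mul_of_nonneg_left hl1 (by (clear * - hz hl0; positivity))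
    linarith only [h7, h6]
  have h8 : (2 / s - 2) * l ≤ (z + 23 / 25 * z ^ 2) * l := by
    apply mul_le_mul_of_nonneg_right _ hl0
    rw [show 2 / s = 2 * (1 / s) by ring]
    linarith only [hU]
  have h9 : (2 / s - 2 * s ^ 2) * u ≤ (3 * z + 23 / 25 * z ^ 2) * u := by
    apply mul_le_mul_of_nonneg_right _ hu
    rw [show 2 / s = 2 * (1 / s) by ring, hsz]
    linarith only [hU]
  have h10 : 3 / 25 * (w + 3 * z) * (u * l) ≤
      3 / 25 * (w + 3 * z) * ((1 + 1 / 2 * z + 23 / 50 * (z * z)) * l) := by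
    apply mul_le_mul_of_nonneg_left _ (by (clear * - hw hz; positivity))
    exact mul_le_mul_of_nonneg_right hu2 hl0
  have h11 : 3 / 25 * (w + 3 * z) * (u * l) ≤ 3 / 25 * (w + 3 * z) * (u * (1 / 2)) := by
    apply mul_le_mul_of_nonneg_left _ (by positivity)
    exact mul_le_mul_of_nonneg_left hl1 hu
  linarith only [h2, h1, h3, h4, h8, h9, h10, h11]

/-- lower bound of `e` -/
theorem E1_ge {m z s l u c N : ℝ} (hm : 45 ≤ m) (hz : 0 < z) (hz5 : z ≤ 1 / 5) (hs : 0 < s)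
    (hsz : s ^ 2 = 1 - z) (hw : 9 ≤ m * z) (hl0 : 0 ≤ l) (hl1 : l ≤ 1 / 2)
    (hu : 0 ≤ u) (hus : u * s ≤ 1)
    (hc1 : 1 - 1 / (2 * m) ≤ c) (hc2 : c ≤ 1) (hN : Real.log (1 + u) - u ≤ N) :
    -(1 / 4 * l) ≤ dpE m z s l u c N := by
  have hφ := phi_E2 hz hz5 hs hsz hu hus
  have h1 := red_E hm hz hs hsz hl0 hu hc1 hc2 hN hφ
  have h2 : 0 ≤ (m + 3) * z * (Real.exp (-(2 * l)) - 1 + 2 * l) :=
    mul_nonneg (by positivity) (psi_nn l)
  have h3 : z / s ^ 2 * l ≤ 1 / 4 * l := by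
    apply mul_le_mul_of_nonneg_right _ hl0
    rw [div_le_iff₀ (by positivity), hsz]
    linarith only [hz5]
  have h4 : 4 * (1 - z) * (3678 / 10000) * (u ^ 2 / (1 + u)) ≤
      4 * s ^ 2 * Real.exp (-(2 * l)) * (u ^ 2 / (1 + u)) := by
    apply mul_le_mul_of_nonneg_right _ (W_nn hu)
    rw [hsz]
    apply mul_le_mul_of_nonneg_left _ (by linarith only [hz5])
    have g1 : Real.exp (-1) ≤ Real.exp (-(2 * l)) := Real.exp_le_exp.2 (by linarith only [hl1])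
    have g2 : 3678 / 10000 ≤ Real.exp (-1) := by
      rw [Real.exp_neg, le_inv_comm₀ (by norm_num) (Real.exp_pos 1)]
      have := Real.exp_one_lt_d9
      norm_num
      linarith only [this]
    linarith only [g1, g2]
  have h5 : 2 / s * (u ^ 2 / (2 + 31 / 25 * u)) ≤
      2 * (1 + 1 / 2 * z + 23 / 50 * (z * z)) * (u ^ 2 / (2 + 31 / 25 * u)) := by
    apply mul_le_mul_of_nonneg_right _ (by (clear * - hu; positivity))
    have := Ub_s hz hz5 hs hsz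
    rw [show 2 / s = 2 * (1 / s) by ring]
    exact mul_le_mul_of_nonneg_left this (by norm_num)
  have h6 : 0 ≤ 4 * (1 - z) * (3678 / 10000) * (u ^ 2 / (1 + u)) -
      2 * (1 + 1 / 2 * z + 23 / 50 * (z * z)) * (u ^ 2 / (2 + 31 / 25 * u)) + 2 * z * u := by
    have h := (box_of hz hz5 hs hsz hu hus hw).nn chk_je
    have e : je.R u z (1 / (m * z)) = 4 * (1 - z) * (3678 / 10000) * u * (2 + 31 / 25 * u) +
        2 * z * (1 + u) * (2 + 31 / 25 * u) -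
        2 * (1 + 1 / 2 * z + 23 / 50 * (z * z)) * u * (1 + u) := by
      simp only [je, jh, jU, j1u, jz, Ex3.R_add, Ex3.R_sub, Ex3.R_mul, Ex3.R_c, Ex3.R_X, Ex3.R_Y]
      simp only [show ∀ (n : ℤ) (d : ℕ), Fr.R ⟨n, d⟩ = (n : ℝ) / ((d : ℝ) + 1) from fun _ _ => rfl]
      push_cast
      ring
    rw [e] at h
    have e2 : 4 * (1 - z) * (3678 / 10000) * (u ^ 2 / (1 + u)) -
      2 * (1 + 1 / 2 * z + 23 / 50 * (z * z)) * (u ^ 2 / (2 + 31 / 25 * u)) + 2 * z * u =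
      u * (4 * (1 - z) * (3678 / 10000) * u * (2 + 31 / 25 * u) +
        2 * z * (1 + u) * (2 + 31 / 25 * u) -
        2 * (1 + 1 / 2 * z + 23 / 50 * (z * z)) * u * (1 + u)) / ((1 + u) * (2 + 31 / 25 * u)) := by
      field_simp
      ring
    rw [e2]
    exact div_nonneg (mul_nonneg hu h) (by (clear * - hu; positivity))
  linarith only [h6, h5, h4, h3, h2, h1]

theorem kρ_R (u z r : ℝ) : kρ.R u z r = 1 / 5 * r ^ 2 + 1 / 2 * r * (1 + z + z ^ 2) +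
    1 / 10 * (1 - 2 * z * r) * (1 + 2 * z + 3 * z ^ 2) := by
  simp only [kρ, Ex3.R_add, Ex3.R_sub, Ex3.R_mul, Ex3.R_c, Ex3.R_Y, Ex3.R_Z]
  simp only [show ∀ (n : ℤ) (d : ℕ), Fr.R ⟨n, d⟩ = (n : ℝ) / ((d : ℝ) + 1) from fun _ _ => rfl]
  push_cast
  ring

theorem kB_R (u z r : ℝ) : kB.R u z r = (1 + 4 * z + 23 / 25 * z ^ 2) * r +
    3 / 25 * (1 + 3 * z * r) * (1 + 1 / 2 * z + 23 / 50 * (z * z)) := by
  simp only [kB, jU, Ex3.R_add, Ex3.R_mul, Ex3.R_c, Ex3.R_Y, Ex3.R_Z]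
  simp only [show ∀ (n : ℤ) (d : ℕ), Fr.R ⟨n, d⟩ = (n : ℝ) / ((d : ℝ) + 1) from fun _ _ => rfl]
  push_cast
  ring

theorem kA_R (u z r : ℝ) : kA.R u z r = 3 / 50 * (1 + 3 * z * r) +
    (3 * z + 23 / 25 * z ^ 2 + 1 / 20) * r := by
  simp only [kA, Ex3.R_add, Ex3.R_mul, Ex3.R_c, Ex3.R_Y, Ex3.R_Z]
  simp only [show ∀ (n : ℤ) (d : ℕ), Fr.R ⟨n, d⟩ = (n : ℝ) / ((d : ℝ) + 1) from fun _ _ => rfl]
  push_cast
  ring

/-- the two final inequalities -/
theorem J_ineq {z w : ℝ} (hz : 0 < z) (hz5 : z ≤ 1 / 5) (hw : 9 ≤ w) :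
    100 / 3 * ((1 + 4 * z + 23 / 25 * z ^ 2 +
      3 / 25 * (w + 3 * z) * (1 + 1 / 2 * z + 23 / 50 * (z * z))) ^ 2 / w ^ 2) +
      5 * (3 / 50 * (w + 3 * z) + (3 * z + 23 / 25 * z ^ 2) + 1 / 20) ^ 2 ≤
      7 / 10 * (1 / 5 + 1 / 2 * (w * (1 + z + z ^ 2)) +
        1 / 10 * (w ^ 2 - 2 * z * w) * (1 + 2 * z + 3 * z ^ 2)) ∧
    1 / 2 * (1 + 4 * z + 23 / 25 * z ^ 2 +
      3 / 25 * (w + 3 * z) * (1 + 1 / 2 * z + 23 / 50 * (z * z))) +
      (1 + 1 / 2 * z + 23 / 50 * (z * z)) *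
        (3 / 50 * (w + 3 * z) + (3 * z + 23 / 25 * z ^ 2) + 1 / 20) ≤
      1 / 5 * (1 / 5 + 1 / 2 * (w * (1 + z + z ^ 2)) +
        1 / 10 * (w ^ 2 - 2 * z * w) * (1 + 2 * z + 3 * z ^ 2)) := by
  have hw0 : 0 < w := by linarith only [hw]
  have B : Box 0 z (1 / w) := ⟨le_rfl, by norm_num, hz, hz5, by positivity,
    one_div_le_one_div_of_le (by norm_num) hw⟩
  have h1 : 0 ≤ kJ1.R 0 z (1 / w) := by
    have a1 := B.hr
    have a2 := B.hr9
    exact Ex3.nn_closed (by norm_num) (by norm_num) (by norm_num) (by norm_num) (by norm_num)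
      (by norm_num) chk_J1 (by push_cast; linarith only []) (by push_cast; linarith only [])
      (by push_cast; linarith only [hz]) (by push_cast; linarith only [hz5]) (by push_cast; linarith only [a1])
      (by push_cast; linarith only [a2])
  have h2 : 0 ≤ kJ2.R 0 z (1 / w) := by
    have a1 := B.hr
    have a2 := B.hr9
    exact Ex3.nn_closed (by norm_num) (by norm_num) (by norm_num) (by norm_num) (by norm_num)
      (by norm_num) chk_J2 (by push_cast; linarith only []) (by push_cast; linarith only [])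
      (by push_cast; linarith only [hz]) (by push_cast; linarith only [hz5]) (by push_cast; linarith only [a1])
      (by push_cast; linarith only [a2])
  have e1 : kJ1.R 0 z (1 / w) = 7 / 10 * kρ.R 0 z (1 / w) - 100 / 3 * (kB.R 0 z (1 / w) * (1 / w)) *
      (kB.R 0 z (1 / w) * (1 / w)) - 5 * kA.R 0 z (1 / w) * kA.R 0 z (1 / w) := by
    simp only [kJ1, Ex3.R_sub, Ex3.R_mul, Ex3.R_c, Ex3.R_Z]
    simp only [show ∀ (n : ℤ) (d : ℕ), Fr.R ⟨n, d⟩ = (n : ℝ) / ((d : ℝ) + 1) from fun _ _ => rfl]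
    push_cast
    ring
  have e2 : kJ2.R 0 z (1 / w) = 1 / 5 * kρ.R 0 z (1 / w) - 1 / w * (1 / 2 * kB.R 0 z (1 / w) +
      (1 + 1 / 2 * z + 23 / 50 * (z * z)) * kA.R 0 z (1 / w)) := by
    simp only [kJ2, jU, Ex3.R_add, Ex3.R_sub, Ex3.R_mul, Ex3.R_c, Ex3.R_Y, Ex3.R_Z]
    simp only [show ∀ (n : ℤ) (d : ℕ), Fr.R ⟨n, d⟩ = (n : ℝ) / ((d : ℝ) + 1) from fun _ _ => rfl]
    push_cast
    ring
  rw [e1, kρ_R, kB_R, kA_R] at h1
  rw [e2, kρ_R, kB_R, kA_R] at h2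
  have hw2 : 0 < w ^ 2 := by positivity
  constructor
  · have h3 := mul_nonneg hw2.le h1
    rw [← sub_nonneg]
    refine le_trans h3 (le_of_eq ?_)
    field_simp
    ring
  · have h3 := mul_nonneg hw2.le h2
    rw [← sub_nonneg]
    refine le_trans h3 (le_of_eq ?_)
    field_simp
    ring

theorem cauchy1 {w l u A B R : ℝ} (hw : 0 < w) (h : 100 / 3 * (B ^ 2 / w ^ 2) + 5 * A ^ 2 ≤ R) :
    (B * l + A * u) ^ 2 ≤ R * (3 / 100 * w ^ 2 * l ^ 2 + 1 / 5 * u ^ 2) := by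
  have h1 : 0 ≤ 3 / 100 * w ^ 2 * l ^ 2 + 1 / 5 * u ^ 2 := by positivity
  refine le_trans ?_ (mul_le_mul_of_nonneg_right h h1)
  have e : (100 / 3 * (B ^ 2 / w ^ 2) + 5 * A ^ 2) * (3 / 100 * w ^ 2 * l ^ 2 + 1 / 5 * u ^ 2) =
      (B * l + A * u) ^ 2 + 20 / 3 * (B * u / w - 3 / 20 * (A * w * l)) ^ 2 := by
    field_simp
    ring
  rw [e]
  have : 0 ≤ 20 / 3 * (B * u / w - 3 / 20 * (A * w * l)) ^ 2 := by (clear * -; positivity)
  linarith only [this]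

/-- **region `X ≥ 3`, `u ≥ 0`, `z ≤ 1/5`, `l ≤ 1/2`** -/
theorem region1 {m z s l u c G N : ℝ} (hm : 45 ≤ m) (hz : 0 < z) (hz5 : z ≤ 1 / 5) (hs : 0 < s)
    (hsz : s ^ 2 = 1 - z) (hw : 9 ≤ m * z) (hl0 : 0 ≤ l) (hl1 : l ≤ 1 / 2)
    (hT : z * Real.exp (2 * l) ≤ 1) (hu : 0 ≤ u) (hus : u * s ≤ 1)
    (hc1 : 1 - 1 / (2 * m) ≤ c) (hc2 : c ≤ 1) (hN : Real.log (1 + u) - u ≤ N)
    (hG : -(z * (3 / 4 + 21 / 5 * z) * l ^ 2) ≤ G) :
    JTest (dpT m z s l u G N) (dpE m z s l u c N) (dpR m (z / s ^ 2)) u := by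
  have hA := A1_ge (by linarith only [hm]) hz hz5 hs hsz hw hl0 hl1 hG
  have hT0 := T1_ge hm hz hz5 hs hsz hw hl0 hl1 hT hu hus hN hA
  have hP := P1_le hm hz hz5 hs hsz hw hl0 hl1 hT hu hus hc1 hc2 hN hA
  have hE := E1_ge hm hz hz5 hs hsz hw hl0 hl1 hu hus hc1 hc2 hN
  have hρ := rho_ge hm hz hs hsz
  obtain ⟨j1, j2⟩ := J_ineq hz hz5 hw
  have hu2 : u ≤ 1 + 1 / 2 * z + 23 / 50 * (z * z) := by
    refine le_trans ?_ (Ub_s hz hz5 hs hsz)
    rw [le_div_iff₀ hs]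
    exact hus
  have hρ2 : 12 ≤ dpR m (z / s ^ 2) := by
    have := rho_simple hm hz hs hsz hw hw
    linarith only [hw, this]
  clear hA hG hT hus hc1 hc2 hN
  generalize dpT m z s l u G N = T at *
  generalize dpE m z s l u c N = e at *
  generalize dpR m (z / s ^ 2) = ρ at *
  generalize m * z = w at *
  have hw0 : 0 < w := by linarith only [hw]
  have hA0 : 0 ≤ 3 / 50 * (w + 3 * z) + (3 * z + 23 / 25 * z ^ 2) + 1 / 20 := by positivity
  have hB0 : 0 ≤ 1 + 4 * z + 23 / 25 * z ^ 2 +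
      3 / 25 * (w + 3 * z) * (1 + 1 / 2 * z + 23 / 50 * (z * z)) := by positivity
  generalize 3 / 50 * (w + 3 * z) + (3 * z + 23 / 25 * z ^ 2) + 1 / 20 = A at *
  generalize 1 + 4 * z + 23 / 25 * z ^ 2 +
      3 / 25 * (w + 3 * z) * (1 + 1 / 2 * z + 23 / 50 * (z * z)) = B at *
  have hT00 : 0 ≤ 3 / 100 * w ^ 2 * l ^ 2 + 1 / 5 * u ^ 2 := by (clear * - hw; positivity)
  refine JTest.of_theta (T0 := 3 / 100 * w ^ 2 * l ^ 2 + 1 / 5 * u ^ 2) (P := B * l + A * u)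
    (E := 1 / 4 * l) (θ := 1 / 5) (θ1 := 7 / 10) hT0 hT00 ?_ (by linarith only [hρ2]) (by norm_num)
    (by norm_num) hP (by (clear * - hB0 hl0 hA0 hu; positivity)) ?_ ?_ hE (by positivity) (by linarith only [hl1, hρ2]) ?_
  · intro h0
    have : 0 < u ^ 2 := by positivity
    have : 0 ≤ 3 / 100 * w ^ 2 * l ^ 2 := by (clear * - hw; positivity)
    (clear m z s c G N hm hz hz5 hs hsz hl0 hl1 hu2 T e hE ρ hρ2 hT0 hρ hw0 A hA0 B hB0 j1 j2 hP hT00; linarith)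
  · have g1 : B * l ≤ B * (1 / 2) := mul_le_mul_of_nonneg_left hl1 hB0
    have g2 := mul_le_mul_of_nonneg_left hu2 hA0
    linarith only [hρ, j2, g1, g2]
  · have g := cauchy1 (l := l) (u := u) hw0 (j1.trans (mul_le_mul_of_nonneg_left hρ (by norm_num)))
    linarith only [g]
  · have g1 : 12 * (3 / 100 * w ^ 2 * l ^ 2 + 1 / 5 * u ^ 2) ≤
        ρ * (3 / 100 * w ^ 2 * l ^ 2 + 1 / 5 * u ^ 2) := mul_le_mul_of_nonneg_right hρ2 hT00
    have g2 : 81 * l ^ 2 ≤ w ^ 2 * l ^ 2 := by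
      apply mul_le_mul_of_nonneg_right _ (sq_nonneg l)
      nlinarith only [hw]
    have g3 : 0 ≤ u ^ 2 := sq_nonneg u
    have g4 : 0 ≤ l ^ 2 := sq_nonneg l
    linarith only [hT00, g1, g2, g3]

/-- lower bound of `G` for `l ≤ 1/2`, `x² ≤ 1/5` -/
theorem G_small {x l : ℝ} (hx : x ^ 2 ≤ 1 / 5) (hl0 : 0 ≤ l) (hl1 : l ≤ 1 / 2) :
    -(x ^ 2 * (3 / 4 + 21 / 5 * x ^ 2) * l ^ 2) ≤
      2 * (bg (x * Real.exp l) - bg x + x ^ 2 / (sq x * (1 + sq x) ^ 2) * l) := by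
  have h := fg_of_check (x := x) (l := l) (by norm_num) (by norm_num) (by norm_num) (by norm_num)
    chk_G (by linarith only [hx]) (by push_cast; linarith only [hx]) (by norm_num) hl0 (by push_cast; linarith only [hl1])
    (by linarith only [hl1]) (by
      simp only [Fr.R]
      push_cast
      nlinarith only [hx])
  simp only [Fr.R] at h
  push_cast at h
  refine le_trans ?_ h
  apply neg_le_neg
  apply mul_le_mul_of_nonneg_right _ (sq_nonneg l)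
  have h0 := sq_nonneg x
  generalize x ^ 2 = z at *
  rw [div_le_iff₀ (by nlinarith only [hx])]
  have h3 : 0 ≤ z ^ 3 := pow_nonneg h0 3
  nlinarith only []

/-- lower bound of `G`, all `l` with `x e^l ≤ 1` -/
theorem G_all {x l : ℝ} (hx0 : 0 < x) (hx : x < 1) (hl0 : 0 ≤ l) (hT : x * Real.exp l ≤ 1) :
    -(2 * (x ^ 2 * Real.exp (2 * l) - x ^ 2) / (sq x * (1 + sq x))) +
        2 * x ^ 2 * l / (sq x * (1 + sq x) ^ 2) ≤
      2 * (bg (x * Real.exp l) - bg x + x ^ 2 / (sq x * (1 + sq x) ^ 2) * l) := by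
  have he : Real.exp (2 * l) = Real.exp l ^ 2 := by rw [← Real.exp_nat_mul]; norm_num
  have he1 : 1 ≤ Real.exp l := Real.one_le_exp hl0
  have hs2 : sq x ^ 2 = 1 - x ^ 2 := by
    rw [sq, Real.sq_sqrt]
    nlinarith only [hx, hx0]
  have hs0 : 0 < sq x := by
    rw [sq]
    apply Real.sqrt_pos.2
    (by_contra nlg; linarith [mul_pos (sub_pos.2 hx) (sub_pos.2 hx0), mul_pos (sub_pos.2 hx) (sub_pos.2 hx), mul_nonneg (sub_nonneg.2 (not_lt.1 nlg)) (le_of_lt (sub_pos.2 hx0)), mul_nonneg (sub_nonneg.2 (not_lt.1 nlg)) (le_of_lt (sub_pos.2 hx))])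
  have hT2 : (x * Real.exp l) ^ 2 ≤ 1 ^ 2 := pow_le_pow_left₀ (by positivity) hT 2
  have hS2 : sq (x * Real.exp l) ^ 2 = 1 - (x * Real.exp l) ^ 2 := by
    rw [sq, Real.sq_sqrt]
    linarith
  have hS0 : 0 ≤ sq (x * Real.exp l) := by
    rw [sq]
    exact Real.sqrt_nonneg _
  rw [he]
  simp only [bg]
  have hx2 : x ^ 2 = 1 - sq x ^ 2 := by linarith
  have hxe : x ^ 2 * Real.exp l ^ 2 = 1 - sq (x * Real.exp l) ^ 2 := by
    rw [hS2]; ring
  rw [hxe]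
  have hle : 1 - sq x ^ 2 ≤ 1 - sq (x * Real.exp l) ^ 2 := by
    rw [← hxe, ← hx2]
    have : 1 ≤ Real.exp l ^ 2 := one_le_pow₀ he1
    nlinarith only [this]
  generalize sq (x * Real.exp l) = S at *
  generalize sq x = s at *
  have key : -((1 - S ^ 2 - (1 - s ^ 2)) / (s * (1 + s))) ≤ S / (1 + S) - s / (1 + s) := by
    have e : S / (1 + S) - s / (1 + s) = -((s - S) / ((1 + S) * (1 + s))) := by
      field_simp
      ring
    rw [e]
    apply neg_le_neg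
    rw [div_le_div_iff₀ (by positivity) (by positivity)]
    have hsS : 0 ≤ s - S := by
      by_contra h
      push Not at h
      have h1 : s < S := by linarith only [h]
      have := mul_pos hs0 hs0
      linarith only [mul_pos (sub_pos.2 h) (sub_pos.2 hs0), mul_pos (sub_pos.2 h) (sub_pos.2 h), hle]
    have h1 : s * (1 + s) ≤ (s + S) * ((1 + S) * (1 + s)) := by
      have : s ≤ (s + S) * (1 + S) := by nlinarith only [hS0, hs0]
      (by_contra nlg; linarith only [nlg, mul_nonneg (sub_nonneg.2 hsS) (sub_nonneg.2 this), mul_nonneg (sub_nonneg.2 hle) (sub_nonneg.2 this), mul_eq_zero_of_left (sub_eq_zero.2 hxe) ((s + S) * (1 + S) - (s)), mul_nonneg (sub_nonneg.2 hS0) (sub_nonneg.2 this), mul_nonneg (sub_nonneg.2 hT2) (sub_nonneg.2 this), mul_pos (sub_pos.2 (not_le.1 nlg)) (sub_pos.2 hs0)])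
    have h2 := mul_le_mul_of_nonneg_left h1 hsS
    linarith only [h2]
  have e1 : 2 * (1 - S ^ 2 - x ^ 2) / (s * (1 + s)) = 2 * ((1 - S ^ 2 - (1 - s ^ 2)) / (s * (1 + s))) := by
    rw [hx2]; ring
  have e2 : 2 * x ^ 2 * l / (s * (1 + s) ^ 2) = 2 * (x ^ 2 / (s * (1 + s) ^ 2) * l) := by ring
  rw [e1, e2]
  linarith only [key]

/-- **the region `X ≥ 3`, `u ≥ 0`, `z ≤ 1/5`, `l > 0`** (`hG1`: see `G_small`, `hG2`: see `G_all`) -/
theorem fxu_region {m z s l u c G N : ℝ} (hm : 45 ≤ m) (hz : 0 < z) (hz5 : z ≤ 1 / 5)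
    (hs : 0 < s) (hsz : s ^ 2 = 1 - z) (hw : 9 ≤ m * z) (hl : 0 ≤ l)
    (hT : z * Real.exp (2 * l) ≤ 1) (hcap : 33 / 10 ≤ m * z * Real.exp (-(2 * l)))
    (hu : 0 ≤ u) (hus : u * s ≤ 1)
    (htail : 1 + u ≤ ((m + 1) * z + 1) / (2 * z) * ((Real.exp (-(2 * l)) - z) / s ^ 2))
    (hc1 : 1 - 1 / (2 * m) ≤ c) (hc2 : c ≤ 1) (hN : Real.log (1 + u) - u ≤ N)
    (hG1 : l ≤ 1 / 2 → -(z * (3 / 4 + 21 / 5 * z) * l ^ 2) ≤ G)
    (hG2 : -(2 * (z * Real.exp (2 * l) - z) / (s * (1 + s))) + 2 * z * l / (s * (1 + s) ^ 2) ≤ G) :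
    JTest (dpT m z s l u G N) (dpE m z s l u c N) (dpR m (z / s ^ 2)) u := by
  rcases le_total l (1 / 2) with h | h
  · exact region1 hm hz hz5 hs hsz hw hl h hT hu hus hc1 hc2 hN (hG1 h)
  · exact region2 hz hz5 hs hsz hw h hT hcap hu hus htail hc1 hc2 hN hG2

end FXu

end Vale.Agent.P237.AllN
end

section

/-!
# P237, block D, `X ≥ 3`, `u ≥ 0`, `1/5 ≤ z ≤ 49/100`: bounds of `e₀`, the `λ²` coefficient
-/

namespace Vale.Agent.P237.AllN.Fxq

open PolyPos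

/-! ## the `λ²` coefficient, times `s⁵` -/

noncomputable def xS1 : Ex := xz * (xk 3 4 + xz * (xk 15 8 + xz * (xk 105 32 + xz * (xk 315 64 +
  xz * xk 3465 512))))
noncomputable def xS2 : Ex := xz * (xk 3 4 * (xk 5 1 * xz - xk 3 1) + xz * (
  xk 15 8 * (xk 7 1 * xz - xk 5 1) + xz * (xk 105 32 * (xk 9 1 * xz - xk 7 1) + xz * (
  xk 315 64 * (xk 11 1 * xz - xk 9 1) + xz * (xk 3465 512 * (xk 13 1 * xz - xk 11 1))))))

noncomputable def S1R (z : ℝ) : ℝ := z * (3 / 4 + z * (15 / 8 + z * (105 / 32 + z * (315 / 64 +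
  z * (3465 / 512)))))
noncomputable def S2R (z : ℝ) : ℝ := z * (3 / 4 * (5 * z - 3) + z * (15 / 8 * (7 * z - 5) +
  z * (105 / 32 * (9 * z - 7) + z * (315 / 64 * (11 * z - 9) + z * (3465 / 512 * (13 * z - 11))))))

noncomputable def c2a : Ex := (xk 0 1 - xk 9 4 * xz) - xk 27 100 * (xz * xs5) - xs5 * xS2
noncomputable def c2b : Ex := xk 3 4 * xz + xk 9 100 * ((xz - Ex.X * Ex.X) * xs3) - xs5 * xS1
noncomputable def c2c : Ex := xk 3 100 * xs3

theorem xS1_R (s E : ℝ) : xS1.R s E = S1R (1 - s ^ 2) := by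
  unfold xS1 S1R
  simp only [Ex.R_add, Ex.R_mul, xz_R]
  simp (discharger := norm_num) only [xk_R]
  push_cast
  ring
theorem xS2_R (s E : ℝ) : xS2.R s E = S2R (1 - s ^ 2) := by
  unfold xS2 S2R
  simp only [Ex.R_add, Ex.R_sub, Ex.R_mul, xz_R]
  simp (discharger := norm_num) only [xk_R]
  push_cast
  ring

theorem kc2_27 : tchkE (2 ^ 1024) 40 4000 [[q0 c2a c2b c2c (xk 27 1 * xz),
    q1 c2b c2c (xk 27 1 * xz)]] (xk 0 1) (.leaf 0) 357 409 500 10 37 50 = true := by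
  decide +kernel
theorem kc2_9 : tchkE (2 ^ 1024) 40 4000 [[q0 c2a c2b c2c (xk 9 1), q1 c2b c2c (xk 9 1)]]
    (xk 0 1) (.leaf 0) 408 448 500 10 37 50 = true := by
  decide +kernel

/-! ## upper bound of `e₀` -/

noncomputable def xUN : Ex := (xk 1 1 - Ex.Y * Ex.Y) * (xk 1 1 + Ex.Y * (xk 28 1 + Ex.Y))
noncomputable def xUD : Ex := xk 12 1 * (Ex.Y * (xk 1 1 + Ex.Y * (xk 3 1 + Ex.Y)))
noncomputable def vUD (E : ℝ) : ℝ := 12 * E * (1 + 3 * E + E ^ 2)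
/-- upper bound of `-log E` -/
noncomputable def vU (E : ℝ) : ℝ := (1 - E ^ 2) * (1 + 28 * E + E ^ 2) / vUD E

theorem vUD_pos {E : ℝ} (hE : 0 < E) : 0 < vUD E := by unfold vUD; positivity
theorem xUD_R (s E : ℝ) : xUD.R s E = vUD E := by
  unfold xUD vUD
  simp only [Ex.R_add, Ex.R_mul, Ex.R_Y]
  simp (discharger := norm_num) only [xk_R]
  push_cast
  ring
theorem xUN_R {E : ℝ} (hE : 0 < E) (s : ℝ) : xUN.R s E = vUD E * vU E := by
  unfold xUN vU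
  simp only [Ex.R_add, Ex.R_sub, Ex.R_mul, Ex.R_Y]
  simp (discharger := norm_num) only [xk_R]
  have := (vUD_pos hE).ne'
  push_cast
  field_simp
  ring

noncomputable def eUc (tp : Ex) : Ex := tp * ((xk 1 1 + Ex.X) * xUD)
noncomputable def eUb (tp : Ex) : Ex :=
  tp * ((xk 5 1 * (Ex.X * Ex.X) - xk 2 1 * xz) * ((xk 1 1 + Ex.X) * xUD)) -
  xk 10 1 * (xk 1 1 - tp) * (((Ex.Y - xk 1 1) * xUD + xUN) * (xp Ex.X 4 * (xk 1 1 + Ex.X)))
noncomputable def eUa (tp : Ex) : Ex :=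
  xk 2 1 * tp * (xp Ex.X 4 * ((xk 1 1 + Ex.X) * xUD)) -
  xk 10 1 * (xk 1 1 - tp) * (xk 3 1 * xz * (((Ex.Y - xk 1 1) * xUD + xUN) *
    (xp Ex.X 4 * (xk 1 1 + Ex.X))) +
    xk 1 29 * (xz * xUN * (Ex.X * Ex.X * (xk 1 1 + Ex.X))) + xk 4 1 * (xs5 * Ex.Y * xUD) +
    (xk 2 1 - xk 2 1 * xs3) * (Ex.X * Ex.X * ((xk 1 1 + Ex.X) * xUD)))

theorem eUc_R {s E : ℝ} (hs : 0 < s) (tp : Ex) :
    (eUc tp).R s E = 10 * s ^ 4 * (1 + s) * vUD E * (tp.R s E / (10 * s ^ 4)) := by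
  unfold eUc
  simp only [Ex.R_add, Ex.R_mul, Ex.R_X, xUD_R]
  simp (discharger := norm_num) only [xk_R]
  generalize tp.R s E = t
  push_cast
  field_simp

theorem eUb_R {s E : ℝ} (hs : 0 < s) (hE : 0 < E) (tp : Ex) :
    (eUb tp).R s E = 10 * s ^ 4 * (1 + s) * vUD E * (tp.R s E * (5 / s ^ 2 -
      2 * (1 - s ^ 2) / s ^ 4) / 10 - (1 - tp.R s E) * (E - 1 + vU E)) := by
  unfold eUb
  simp only [Ex.R_add, Ex.R_sub, Ex.R_mul, Ex.R_X, Ex.R_Y, xUD_R, xUN_R hE, xz_R, xp_R]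
  simp (discharger := norm_num) only [xk_R]
  generalize tp.R s E = t
  generalize vUD E = D
  generalize vU E = U
  push_cast
  field_simp

theorem eUa_R {s E : ℝ} (hs : 0 < s) (hE : 0 < E) (tp : Ex) :
    (eUa tp).R s E = 10 * s ^ 4 * (1 + s) * vUD E * (tp.R s E / 5 - (1 - tp.R s E) *
      (3 * (1 - s ^ 2) * (E - 1 + vU E) + 1 / 29 * ((1 - s ^ 2) / s ^ 2) * vU E +
        4 * s ^ 2 * E * (1 / (s * (1 + s))) + (2 / s - 2 * s ^ 2) * (1 / s))) := by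
  unfold eUa
  simp only [Ex.R_add, Ex.R_sub, Ex.R_mul, Ex.R_X, Ex.R_Y, xUD_R, xUN_R hE, xz_R, xp_R, xs5_R,
    xs3_R]
  simp (discharger := norm_num) only [xk_R]
  generalize tp.R s E = t
  generalize vUD E = D
  generalize vU E = U
  push_cast
  field_simp
  ring

noncomputable def famU (tp W : Ex) : List Ex :=
  [q0 (eUa tp) (eUb tp) (eUc tp) W, q1 (eUb tp) (eUc tp) W]
noncomputable def famV (tp C : Ex) : List Ex :=
  [p0 (eUa tp) (eUb tp) (eUc tp) C, p1 (eUb tp) (eUc tp) C]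

theorem kcU1 : tchkE (2 ^ 1024) 40 4000 [famU (xk 1 5) (xk 27 1 * xz), famV (xk 1 5) (xk 354 100)]
    (xz - Ex.Y) (.sy (.leaf 1) (.leaf 0)) 357 409 500 10 37 50 = true := by
  decide +kernel
theorem kcU2 : tchkE (2 ^ 1024) 40 4000 [famU (xk 1 5) (xk 9 1), famV (xk 1 5) (xk 354 100)]
    (xz - Ex.Y) (.sy (.leaf 1) (.leaf 0)) 408 426 500 10 37 50 = true := by
  decide +kernel
theorem kcU3 : tchkE (2 ^ 1024) 40 4000 [famU (xk 3 13) (xk 9 1), famV (xk 3 13) (xk 33 10)]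
    (xz - Ex.Y) (.sy (.leaf 1) (.leaf 0)) 426 448 500 10 37 50 = true := by
  decide +kernel

/-! ## lower bound of `e₀` -/

noncomputable def eLa : Ex :=
  (xk 9 1 + xk 3 1 * xz) * (((Ex.Y - xk 1 1) * xD + xN) * (xs3 * xsg)) -
  xk 1 2 * (((xk 1 1 - Ex.X) * (xk 1 1 - Ex.X) * Ex.X + xk 1 27 * (Ex.X * Ex.X)) * (xN * xsg))
noncomputable def eLb : Ex :=
  (xk 53 27 * ((xk 6 1 * Ex.X + xk 3 1) * (Ex.X * Ex.X)) - xk 2 1 * (xp Ex.X 4 * xsg)) * xD

theorem kcL : tchkE (2 ^ 1024) 40 4000 [[eLa, eLa + eLb]]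
    (xz - Ex.Y) (.leaf 0) 357 448 500 10 37 50 = true := by
  decide +kernel

theorem eLa_R {s E : ℝ} (hs : 0 < s) (hE : 0 < E) : eLa.R s E = s ^ 3 * vsg s * vD E *
    ((9 + 3 * (1 - s ^ 2)) * (E - 1 + vL E) - ((1 / s - 1) ^ 2 + 1 / (27 * s)) / 2 * vL E) := by
  unfold eLa
  simp only [Ex.R_add, Ex.R_sub, Ex.R_mul, Ex.R_X, Ex.R_Y, xD_R, xN_R, xz_R, xs3_R, xsg_R]
  simp (discharger := norm_num) only [xk_R]
  have hN : vN E = vD E * vL E := by
    unfold vL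
    have := (vD_pos hE).ne'
    field_simp
  rw [hN]
  generalize vsg s = G
  generalize vD E = D
  generalize vL E = L
  push_cast
  field_simp

theorem eLb_R {s E : ℝ} (hs : 0 < s) : eLb.R s E = s ^ 3 * vsg s * vD E *
    (1 / s * (53 / 27 * ((6 * s + 3) / vsg s) - 2 * s ^ 2)) := by
  unfold eLb
  simp only [Ex.R_add, Ex.R_sub, Ex.R_mul, Ex.R_X, xD_R, xp_R, xsg_R]
  simp (discharger := norm_num) only [xk_R]
  have : vsg s ≠ 0 := by unfold vsg; positivity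
  generalize vsg s = G at *
  push_cast
  field_simp

end Vale.Agent.P237.AllN.Fxq
end
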