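import Vale.Agent.P237.Bd3.B18
import Vale.Agent.P237.Bd3.B9
import Vale.Agent.P237.Bd3.B14
import Vale.Agent.P237.Bd3.B7
import Vale.Agent.P237.Bd3.B19
import Vale.Agent.P237.Bd3.B12
import Vale.Agent.P237.Bd3.B13
import Vale.Agent.P237.Bd3.B4
import Vale.Agent.P237.Bd3.B21
import Vale.Agent.P237.Bd3.B20
import Vale.Agent.P237.Bd3.B6
import Vale.Agent.P237.Bd3.B3
import Vale.Agent.P237.Bd3.B5

set_option linter.all false

section

/-!
# P237, plain certificate (m ≥ 5): the pointwise inequality and `OneD`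
-/

open Set

namespace Vale.Agent.P237.AllN

open PolyPos

/-- the check of one piece of the region `x > x₀`, `u ≤ 0` -/
def Dat.RMok (D : Dat) (rb : Ex) (e0 e1 : ℤ) : Prop :=
  (∃ t, D.kRM rb D.P.m 0 D.S0 e0 e1 t = true) ∨
  (D.P.m = 5 ∧ 664 < D.S0 ∧ (∃ t, D.kRM rb 5 0 664 e0 e1 t = true) ∧
    ∃ t, D.kRM rb 4 664 D.S0 e0 e1 t = true)

/-- all the checks -/
structure Dat.Chk (D : Dat) : Prop where
  lp : ∃ t, D.kLP t = true
  lm : ∃ t, D.kLM t = true
  rmT : D.RMok D.rbT 250 1000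
  rmG : D.RMok D.rbG 6 250
  rmC : D.RMok D.rbC 0 6
  rp1 : ∃ t, D.kRP1 t = true
  rp2 : ∃ t, D.kRP2 t = true
  rs : ∃ t, D.kRS t = true

theorem point_L {D : Dat} {lamL : ℝ} (hn : D.Num lamL) (hρ : RhoOK D) (hc : D.Chk)
    {x l u lam : ℝ} (hin : PcIn D.P.m D.k.R lamL x l u lam)
    (hxx : x ^ 2 < 3 / ((D.P.m : ℝ) + 2)) :
    D.P.eps.R * (u ^ 2 / (1 + u)) ≤
      TR D.P.m x (sq x) l u 0 (1 + D.P.k1.R * lam) (Real.exp (l / D.P.m))
        ((1 + u) ^ (1 / (D.P.m : ℝ))) (bg (x * Real.exp l)) (bg x) 0 0 +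
      pcNL D.P.m D.P.a1.R D.P.a2.R D.P.a3.R (3 / ((D.P.m : ℝ) + 2)) (x ^ 2) (x ^ 2 / sq x ^ 2)
        (l - lam) u lam := by
  rcases le_total 0 u with hu | hu
  · obtain ⟨t, ht⟩ := hc.lp
    exact point_LP hn hρ ht hin hxx hu
  · obtain ⟨t, ht⟩ := hc.lm
    exact point_LM hn hρ ht hin hxx hu

theorem point_RMp {D : Dat} {lamL : ℝ} (hn : D.Num lamL) (hρ : RhoOK D)
    {rb : Ex} {e0 e1 : ℤ} (he01 : e0 < e1) (hc : D.RMok rb e0 e1)
    {x l u lam : ℝ} (hin : PcIn D.P.m D.k.R lamL x l u lam)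
    (hxx : 3 / ((D.P.m : ℝ) + 2) < x ^ 2) (hu : u ≤ 0) (hS : 1000 * sq x ≤ D.S0)
    (hel : (e0 : ℝ) ≤ 1000 * (1 + u)) (her : 1000 * (1 + u) ≤ e1)
    (hpm : pmf D.P.m u * (1 + u) ≤ rb.R (sq x) (1 + u) * u ^ 2)
    (hrb0 : 0 ≤ rb.R (sq x) (1 + u)) :
    D.P.eps.R * (u ^ 2 / (1 + u)) ≤
      TR D.P.m x (sq x) l u 0 (1 + D.P.k1.R * lam) (Real.exp (l / D.P.m))
        ((1 + u) ^ (1 / (D.P.m : ℝ))) (bg (x * Real.exp l)) (bg x) 0 0 +
      pcNR D.P.m D.P.a4.R (3 / ((D.P.m : ℝ) + 2)) (x ^ 2) (x ^ 2 / sq x ^ 2) (l - lam) u := by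
  obtain ⟨hs, hs1, hsx⟩ := pc_sq_facts hin.hx
  rcases hc with ⟨t, ht⟩ | ⟨h5, hS5, ⟨t1, ht1⟩, ⟨t2, ht2⟩⟩
  · exact point_RM hn hρ (by have := hn.S0pos; omega) he01 ht hin hxx hu
      (by push_cast; positivity) (by push_cast; exact hS) hel her hin.Es hpm hrb0
  · rcases le_total (1000 * sq x) 664 with h | h
    · exact point_RM hn hρ (by norm_num) he01 ht1 hin hxx hu
        (by push_cast; positivity) (by push_cast; exact h) hel her (by rw [← h5]; exact hin.Es)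
        hpm hrb0
    · exact point_RM hn hρ (by omega) he01 ht2 hin hxx hu
        (by push_cast; exact h) (by push_cast; exact hS) hel her
        (hin.E4 h5 (by nlinarith only [hsx, h])) hpm hrb0

theorem point_R {D : Dat} {lamL : ℝ} (hn : D.Num lamL) (hρ : RhoOK D) (hc : D.Chk)
    (hm14 : D.P.m ≤ 14) {x l u lam : ℝ} (hin : PcIn D.P.m D.k.R lamL x l u lam)
    (hxx : 3 / ((D.P.m : ℝ) + 2) < x ^ 2) :
    D.P.eps.R * (u ^ 2 / (1 + u)) ≤
      TR D.P.m x (sq x) l u 0 (1 + D.P.k1.R * lam) (Real.exp (l / D.P.m))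
        ((1 + u) ^ (1 / (D.P.m : ℝ))) (bg (x * Real.exp l)) (bg x) 0 0 +
      pcNR D.P.m D.P.a4.R (3 / ((D.P.m : ℝ) + 2)) (x ^ 2) (x ^ 2 / sq x ^ 2) (l - lam) u := by
  obtain ⟨hs, hs1, hsx⟩ := pc_sq_facts hin.hx
  have hu1 := hin.hu
  have hS : 1000 * sq x ≤ D.S0 := by
    have h1 : sq x ^ 2 ≤ ((D.S0 : ℝ) / 1000) ^ 2 := by rw [hsx]; linarith only [hn.s0, hxx]
    have := le_of_sq_le_sq h1 (by (clear * -; positivity))
    linarith only [this]
  rcases le_total 0 u with hu | hu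
  · rcases le_total (1000 * sq x) 200 with h | h
    · obtain ⟨t, ht⟩ := hc.rs
      exact point_RS hn hρ hm14 ht hin hxx hu h
    · rcases le_total (7 * (1 + u)) 20 with h2 | h2
      · obtain ⟨t, ht⟩ := hc.rp1
        exact point_RP1 hn hρ hm14 ht hin hxx hu h hS h2
      · obtain ⟨t, ht⟩ := hc.rp2
        exact point_RP2 hn hρ hm14 ht hin hxx hu h hS h2
  · rcases le_total (1 / 4) (1 + u) with h | h
    · have hpm : pmf D.P.m u * (1 + u) ≤ D.rbT.R (sq x) (1 + u) * u ^ 2 := by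
        refine (hρ.b u hu1 hu).trans_eq ?_
        simp only [Dat.rbT, Ex.R_add, Ex.R_sub, Ex.R_mul, Ex.R_c, Ex.R_Y, Fr.R1]
        ring
      refine point_RMp hn hρ (by norm_num) hc.rmT hin hxx hu hS (by push_cast; linarith only [h])
        (by push_cast; linarith only [hu]) hpm ?_
      rcases hu.eq_or_lt with h0 | h0
      · simp only [Dat.rbT, Ex.R_add, Ex.R_sub, Ex.R_mul, Ex.R_c, Ex.R_Y, Fr.R1, h0]
        simpa only [add_zero, sub_self, mul_zero, sub_zero] using hn.r0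
      · have h1 : 0 ≤ pmf D.P.m u * (1 + u) := mul_nonneg (hρ.nn u hu1) hu1.le
        have h2 : 0 < u ^ 2 := by
          have := h0.ne
          positivity
        exact nonneg_of_mul_nonneg_left (h1.trans hpm) h2
    · have h0 : u < 0 := by linarith only [h]
      have h2 : 0 < u ^ 2 := by
        have := h0.ne
        positivity
      rcases le_total (3 / 500) (1 + u) with h3 | h3
      · have hpm : pmf D.P.m u * (1 + u) ≤ D.rbG.R (sq x) (1 + u) * u ^ 2 := by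
          refine (hρ.c u h3 h).trans_eq ?_
          simp only [Dat.rbG, Ex.R_add, Ex.R_mul, Ex.R_c, Ex.R_Y]
        refine point_RMp hn hρ (by norm_num) hc.rmG hin hxx hu hS (by push_cast; linarith only [h3])
          (by push_cast; linarith only [h]) hpm ?_
        have h1 : 0 ≤ pmf D.P.m u * (1 + u) := mul_nonneg (hρ.nn u hu1) hu1.le
        exact nonneg_of_mul_nonneg_left (h1.trans hpm) h2
      · have hpm : pmf D.P.m u * (1 + u) ≤ D.rbC.R (sq x) (1 + u) * u ^ 2 := by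
          have h4 := mul_le_mul_of_nonneg_right (hρ.d u hu1 hu) hu1.le
          refine h4.trans_eq ?_
          simp only [Dat.rbC, Ex.R_mul, Ex.R_c, Ex.R_Y, Pm.c1_R]
          ring
        refine point_RMp hn hρ (by norm_num) hc.rmC hin hxx hu hS (by push_cast; linarith only [hu1])
          (by push_cast; linarith only [h3]) hpm ?_
        have h1 : 0 ≤ pmf D.P.m u * (1 + u) := mul_nonneg (hρ.nn u hu1) hu1.le
        exact nonneg_of_mul_nonneg_left (h1.trans hpm) h2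

/-- the inputs for a given dimension -/
def InOK (m : ℕ) (k lamL : ℝ) : Prop :=
  ∀ r τ τ' T : ℝ → ℝ, IsProf r → IsTrans m r τ τ' T →
    (∫ y in (-1 : ℝ)..1, r y ^ (m - 1)) ^ m * aInt m ^ (m - 1) ≤
      aInt (m - 1) ^ m * (∫ y in (-1 : ℝ)..1, r y ^ m) ^ (m - 1) →
    ∀ x₀ : ℝ, x₀ ∈ Ioo (0 : ℝ) 1 → x₀ ^ 2 = 3 / ((m : ℝ) + 2) →
    ∀ x ∈ Ioo (0 : ℝ) 1, PcIn m k lamL x (lf τ x) (uf τ τ' x) (lf τ x₀)

/-- **`OneD` from the certificate.** -/
theorem oneD_of_dat {D : Dat} {lamL : ℝ} (hn : D.Num lamL) (hρ : RhoOK D) (hc : D.Chk)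
    (hm14 : D.P.m ≤ 14) (heps : 0 < D.P.eps.R) (hin : InOK D.P.m D.k.R lamL) : OneD D.P.m := by
  have hm5 := hn.m5
  have hm5r : (5 : ℝ) ≤ D.P.m := by exact_mod_cast hm5
  refine oneD_of_cert (by omega) kA_kern2 (fun x hx b hb => kA_line_ball hx hb) ?_
  intro r τ τ' T hr hT hN
  set x₀ := Real.sqrt (3 / ((D.P.m : ℝ) + 2)) with hx0def
  have hpos : 0 < 3 / ((D.P.m : ℝ) + 2) := by positivity
  have hlt1 : 3 / ((D.P.m : ℝ) + 2) < 1 := by
    rw [div_lt_one (by positivity)]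
    linarith only [hm5r]
  have hx0sq : x₀ ^ 2 = 3 / ((D.P.m : ℝ) + 2) := Real.sq_sqrt hpos.le
  have hx0 : x₀ ∈ Ioo (0 : ℝ) 1 := by
    refine ⟨Real.sqrt_pos.2 hpos, ?_⟩
    have h0 : 0 ≤ x₀ := Real.sqrt_nonneg _
    nlinarith only [hx0sq, hlt1]
  have hIn := hin r τ τ' T hr hT hN x₀ hx0 hx0sq
  have hd2 : ∀ (c : ℝ), ∀ x ∈ Ioo (0 : ℝ) 1, HasDerivAt (fun x : ℝ => c * x ^ 2) (c * (2 * x)) x := by
    intro c x _
    simpa only [Nat.cast_ofNat, Nat.add_one_sub_one, pow_one] using (hasDerivAt_pow 2 x).const_mul c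
  have hc2 : ∀ (c : ℝ), ContinuousOn (fun x : ℝ => c * x ^ 2) (Icc 0 1) := fun c => by fun_prop
  have hd0 : ∀ x ∈ Ioo (0 : ℝ) 1, HasDerivAt (fun _ : ℝ => (0 : ℝ)) 0 x :=
    fun x _ => hasDerivAt_const x 0
  refine cert_pole (by omega) kA_kern2 hr hT hN (XPair.zero _ _ _) ?_ (μ := 1 + D.P.k1.R * lf τ x₀) ?_ hx0
    D.P.a1.R D.P.a4.R (hd2 D.P.a2.R) (hc2 _) hd0 continuousOn_const (hd2 D.P.a3.R) (hc2 _)
    hd0 continuousOn_const hd0 continuousOn_const heps ?_ ?_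
  · intro x hx b hb
    have h1 := hT.kA_plain_le_all (by omega) (by omega) hr hN hx hb
    have e : Real.log (τ x / x) = lf τ x := rfl
    rw [e, kAc_bc0 hx, kAp_bM0, ← tau_eq_exp hT hx] at h1
    simpa using h1
  · have h1 := (hIn x₀ hx0).lamlo
    have h2 := mul_le_mul_of_nonneg_left h1 hn.k1pos
    linarith only [h2, hn.mu0]
  · intro x hx hxx
    have hxx2 : x ^ 2 < 3 / ((D.P.m : ℝ) + 2) := by
      rw [← hx0sq]
      exact pow_lt_pow_left₀ hxx hx.1.le two_ne_zero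
    have h1 := point_L hn hρ hc (hIn x hx) hxx2
    rw [← tau_eq_exp hT hx] at h1
    refine h1.trans (le_of_eq ?_)
    unfold brT pcNL
    rw [hx0sq]
    ring
  · intro x hx hxx
    have hxx2 : 3 / ((D.P.m : ℝ) + 2) < x ^ 2 := by
      rw [← hx0sq]
      exact pow_lt_pow_left₀ hxx hx0.1.le two_ne_zero
    have h1 := point_R hn hρ hc hm14 (hIn x hx) hxx2
    rw [← tau_eq_exp hT hx] at h1
    refine h1.trans (le_of_eq ?_)
    unfold brT pcNR
    rw [hx0sq]
    ring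

end Vale.Agent.P237.AllN
end

section

/-!
# P237, plain certificate (m ≥ 5): the inputs
-/

open Set

namespace Vale.Agent.P237.AllN

theorem inOK_of {m : ℕ} (h5 : 5 ≤ m) (h22 : m ≤ 22) {k lamL : ℝ}
    (hk : ∀ r τ τ' T : ℝ → ℝ, IsProf r → IsTrans m r τ τ' T → ∀ x ∈ Ioo (0 : ℝ) 1,
      uf τ τ' x * sq x ≤ k * x)
    (hlam : ∀ r τ τ' T : ℝ → ℝ, IsProf r → IsTrans m r τ τ' T → ∀ x ∈ Ioo (0 : ℝ) 1,
      x ^ 2 = 3 / ((m : ℝ) + 2) → lamL ≤ lf τ x) : InOK m k lamL := by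
  intro r τ τ' T hr hT hN x₀ hx0 hx0sq x hx
  refine
    { hx := hx
      hu := ?_
      tau1 := ?_
      sgn := ?_
      Es := ?_
      E4 := ?_
      uk := hk r τ τ' T hr hT x hx
      tail := ?_
      llo := ?_
      lamlo := hlam r τ τ' T hr hT x₀ hx0 hx0sq
      lamhi := ?_ }
  · exact uf_pos hT hx
  · exact (pin_le_one hT hx).le
  · exact hT.log_le_lstar (by omega) h22 hr hN hx
  · exact hT.pin_h3 hr hx
  · intro hm hx2
    subst hm
    exact IsTrans.pin_h3_five hr hT hx hx2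
  · have h := IsTrans.pin_h5 (by omega) hr hT hx
    rwa [mul_div_assoc] at h
  · have h := IsTrans.pin_h6 h5 hr hT hx
    linarith only [h]
  · rw [← hx0sq]
    exact hT.log_le_lstar (by omega) h22 hr hN hx0

end Vale.Agent.P237.AllN
end

section

/-!
# The seven bounds of `PcRho` for `5 ≤ m ≤ 10`: kernel checks
-/

namespace Vale.Agent.P237.AllN.PcRho
open PolyPos

/-! ### `m = 5` -/

theorem pc_5 : PW 5 [z0 5, z1 5, -cT 5 * MM 5] (NN 5) =
    [5658000, 11316000, 16974000, 22632000, 28290000, -89484000, -57258000, -25032000, 7194000,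
    39420000, 29994000, 20568000, 11142000, 1716000, -7710000, -6168000, -4626000, -3084000,
    -1542000] := by
  decide +kernel

theorem okC_5 : OkC 5 :=
  okC_of (B := 19) (D := 17) (by norm_num) (by (clear * -; decide +kernel)) (by rw [pc_5]; decide +kernel)

theorem pneg_5 : PW 5 [z0 5, z1 5, z2 5] (NN 5) =
    [5040000, 10080000, 15120000, 20160000, 25200000, -90720000, -56640000, -22560000, 11520000,
    45600000, 34320000, 23040000, 11760000, 480000, -10800000, -8640000, -6480000, -4320000,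
    -2160000] := by
  (clear * -; decide +kernel)

theorem okNeg_5 : OkNeg 5 :=
  okNeg_of (by norm_num) (by rw [pneg_5]; (clear * -; decide +kernel))

theorem p9_5 : PW 5 [(al9 5 + be9 5) * MM 5, be9 5 * MM 5] (NN 5) =
    [1077000, 2154000, 3231000, 4308000, 5385000, -91374000, -38133000, 15108000, 68349000,
    121590000, 97272000, 72954000, 48636000, 24318000] := by
  (clear * -; decide +kernel)

theorem ok9_5 : Ok9 5 :=
  okLine_of (A := 15) (T := 26) (B := 26) (D := 42) (A' := 169) (B' := 210) (D' := 273)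
    (by norm_num) (by (clear * -; decide +kernel)) (by rw [p9_5]; decide +kernel)
    (by rw [p9_5]; decide +kernel)

theorem p10_5 : PW 5 [(al10 5 + be10 5) * MM 5, be10 5 * MM 5] (NN 5) =
    [1191000, 2382000, 3573000, 4764000, 5955000, -92112000, -40179000, 11754000, 63687000,
    115620000, 92496000, 69372000, 46248000, 23124000] := by
  (clear * -; decide +kernel)

theorem ok10_5 : Ok10 5 :=
  okLine_of (A := 95) (T := 168) (B := 168) (D := 266) (A' := 156) (B' := 190) (D' := 247)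
    (by norm_num) (by (clear * -; decide +kernel)) (by rw [p10_5]; decide +kernel)
    (by rw [p10_5]; decide +kernel)

theorem pn3_5 : PV 5 [z0 5, z1 5, z1 5 + z2 5, q3T 5 * MM 5] (NN 5) =
    [-7320000, -14640000, -21960000, -29280000, 113400000, 70920000, 28440000, -14040000,
    -56520000, -99000000, -66840000, -34680000, -2520000, 29640000, 61800000, 46200000,
    30600000, 15000000, -600000, -16200000, -12960000, -9720000, -6480000, -3240000] := by
  (clear * -; decide +kernel)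

theorem okN3_5 : OkN3 5 :=
  okN3_of (A := 47) (D := 58) (by norm_num) (by (clear * -; decide +kernel)) (by rw [pn3_5]; (clear * -; decide +kernel))

theorem pn1_5 : PV 5 [NN 5 - q4T 5 * MM 5, q4T 5 * MM 5] (NN 5) =
    [0, 0, 0, 0, 150000000, 83220000, 16440000, -50340000, -117120000, -183900000, -147120000,
    -110340000, -73560000, -36780000] := by
  (clear * -; decide +kernel)

theorem okN1_5 : OkN1 5 :=
  okN1_of (B := 137) (D := 169) (by norm_num) (by (clear * -; decide +kernel)) (by rw [pn1_5]; decide +kernel)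

theorem pn0_5 : PV 5 [z0 5, NN 5 - z0 5] (NN 5) =
    [0, 0, 0, 0, 150000000, 102000000, 54000000, 6000000, -42000000, -90000000, -72000000,
    -54000000, -36000000, -18000000] := by
  (clear * -; decide +kernel)

theorem okN0_5 : OkN0 5 :=
  okN0_of (by norm_num) (by rw [pn0_5]; (clear * -; decide +kernel))

/-! ### `m = 6` -/

theorem pc_6 : PW 6 [z0 6, z1 6, -cT 6 * MM 6] (NN 6) =
    [10452480, 20904960, 31357440, 41809920, 52262400, 62714880, -193042560, -137760000,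
    -82477440, -27194880, 28087680, 83370240, 66727680, 50085120, 33442560, 16800000, 157440,
    -16485120, -13737600, -10990080, -8242560, -5495040, -2747520] := by
  (clear * -; decide +kernel)

theorem okC_6 : OkC 6 :=
  okC_of (B := 57) (D := 52) (by norm_num) (by (clear * -; decide +kernel)) (by rw [pc_6]; (clear * -; decide +kernel))

theorem pneg_6 : PW 6 [z0 6, z1 6, z2 6] (NN 6) =
    [9350000, 18700000, 28050000, 37400000, 46750000, 56100000, -196350000, -137760000, -79170000,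
    -20580000, 38010000, 96600000, 76650000, 56700000, 36750000, 16800000, -3150000,
    -23100000, -19250000, -15400000, -11550000, -7700000, -3850000] := by
  (clear * -; decide +kernel)

theorem okNeg_6 : OkNeg 6 :=
  okNeg_of (by norm_num) (by rw [pneg_6]; (clear * -; decide +kernel))

theorem p9_6 : PW 6 [(al9 6 + be9 6) * MM 6, be9 6 * MM 6] (NN 6) =
    [2073600, 4147200, 6220800, 8294400, 10368000, 12441600, -204612480, -110626560, -16640640,
    77345280, 171331200, 265317120, 221097600, 176878080, 132658560, 88439040, 44219520] := by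
  (clear * -; decide +kernel)

theorem ok9_6 : Ok9 6 :=
  okLine_of (A := 175) (T := 282) (B := 282) (D := 420) (A' := 47) (B' := 56) (D' := 70)
    (by norm_num) (by (clear * -; decide +kernel)) (by rw [p9_6]; (clear * -; decide +kernel))
    (by rw [p9_6]; decide +kernel)

theorem p10_6 : PW 6 [(al10 6 + be10 6) * MM 6, be10 6 * MM 6] (NN 6) =
    [2280960, 4561920, 6842880, 9123840, 11404800, 13685760, -205815168, -114276096, -22737024,
    68802048, 160341120, 251880192, 209900160, 167920128, 125940096, 83960064, 41980032] := by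
  (clear * -; decide +kernel)

theorem ok10_6 : Ok10 6 :=
  okLine_of (A := 235) (T := 384) (B := 384) (D := 564) (A' := 160) (B' := 188) (D' := 235)
    (by norm_num) (by (clear * -; decide +kernel)) (by rw [p10_6]; decide +kernel)
    (by rw [p10_6]; decide +kernel)

theorem pn3_6 : PV 6 [z0 6, z1 6, z1 6 + z2 6, q3T 6 * MM 6] (NN 6) =
    [-11794960, -23589920, -35384880, -47179840, -58974800, 240270240, 166240080, 92209920,
    18179760, -55850400, -129880560, -203910720, -148890480, -93870240, -38850000, 16170240,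
    71190480, 126210720, 99680560, 73150400, 46620240, 20090080, -6440080, -32970240,
    -27475200, -21980160, -16485120, -10990080, -5495040] := by
  (clear * -; decide +kernel)

theorem okN3_6 : OkN3 6 :=
  okN3_of (A := 26) (D := 31) (by norm_num) (by (clear * -; decide +kernel)) (by rw [pn3_6]; decide +kernel)

theorem pn1_6 : PV 6 [NN 6 - q4T 6 * MM 6, q4T 6 * MM 6] (NN 6) =
    [0, 0, 0, 0, 0, 311040000, 198236160, 85432320, -27371520, -140175360, -252979200, -365783040,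
    -304819200, -243855360, -182891520, -121927680, -60963840] := by
  (clear * -; decide +kernel)

theorem okN1_6 : OkN1 6 :=
  okN1_of (B := 68) (D := 81) (by norm_num) (by (clear * -; decide +kernel)) (by rw [pn1_6]; decide +kernel)

theorem pn0_6 : PV 6 [z0 6, NN 6 - z0 6] (NN 6) =
    [0, 0, 0, 0, 0, 311040000, 228960000, 146880000, 64800000, -17280000, -99360000, -181440000,
    -151200000, -120960000, -90720000, -60480000, -30240000] := by
  (clear * -; decide +kernel)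

theorem okN0_6 : OkN0 6 :=
  okN0_of (by norm_num) (by rw [pn0_6]; (clear * -; decide +kernel))

/-! ### `m = 7` -/

theorem pc_7 : PW 7 [z0 7, z1 7, -cT 7 * MM 7] (NN 7) =
    [17386488, 34772976, 52159464, 69545952, 86932440, 104318928, 121705416, -367254048,
    -279973512, -192692976, -105412440, -18131904, 69148632, 156429168, 129628632, 102828096,
    76027560, 49227024, 22426488, -4374048, -31174584, -26721072, -22267560, -17814048,
    -13360536, -8907024, -4453512] := by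
  (clear * -; decide +kernel)

theorem okC_7 : OkC 7 :=
  okC_of (B := 40) (D := 37) (by norm_num) (by (clear * -; decide +kernel)) (by rw [pc_7]; decide +kernel)

theorem pneg_7 : PW 7 [z0 7, z1 7, z2 7] (NN 7) =
    [15600000, 31200000, 46800000, 62400000, 78000000, 93600000, 109200000, -374400000,
    -281760000, -189120000, -96480000, -3840000, 88800000, 181440000, 149280000, 117120000,
    84960000, 52800000, 20640000, -11520000, -43680000, -37440000, -31200000, -24960000,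
    -18720000, -12480000, -6240000] := by
  (clear * -; decide +kernel)

theorem okNeg_7 : OkNeg 7 :=
  okNeg_of (by norm_num) (by rw [pneg_7]; (clear * -; decide +kernel))

theorem p9_7 : PW 7 [(al9 7 + be9 7) * MM 7, be9 7 * MM 7] (NN 7) =
    [3547992, 7095984, 10643976, 14191968, 17739960, 21287952, 24835944, -399910560, -248417064,
    -96923568, 54569928, 206063424, 357556920, 509050416, 436328928, 363607440, 290885952,
    218164464, 145442976, 72721488] := by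
  (clear * -; decide +kernel)

theorem ok9_7 : Ok9 7 :=
  okLine_of (A := 192) (T := 289) (B := 289) (D := 408) (A' := 17) (B' := 20) (D' := 24)
    (by norm_num) (by (clear * -; decide +kernel)) (by rw [p9_7]; decide +kernel)
    (by rw [p9_7]; decide +kernel)

theorem p10_7 : PW 7 [(al10 7 + be10 7) * MM 7, be10 7 * MM 7] (NN 7) =
    [3901968, 7803936, 11705904, 15607872, 19509840, 23411808, 27313776, -401540496, -254154768,
    -106769040, 40616688, 188002416, 335388144, 482773872, 413806176, 344838480, 275870784,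
    206903088, 137935392, 68967696] := by
  (clear * -; decide +kernel)

theorem ok10_7 : Ok10 7 :=
  okLine_of (A := 200) (T := 306) (B := 306) (D := 425) (A' := 108) (B' := 125) (D' := 150)
    (by norm_num) (by (clear * -; decide +kernel)) (by rw [p10_7]; (clear * -; decide +kernel))
    (by rw [p10_7]; decide +kernel)

theorem pn3_7 : PV 7 [z0 7, z1 7, z1 7 + z2 7, q3T 7 * MM 7] (NN 7) =
    [-17756400, -35512800, -53269200, -71025600, -88782000, -106538400, 451945200, 333610800,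
    215276400, 96942000, -21392400, -139726800, -258061200, -376395600, -289494000,
    -202592400, -115690800, -28789200, 58112400, 145014000, 231915600, 190141200, 148366800,
    106592400, 64818000, 23043600, -18730800, -60505200, -51861600, -43218000, -34574400,
    -25930800, -17287200, -8643600] := by
  (clear * -; decide +kernel)

theorem okN3_7 : OkN3 7 :=
  okN3_of (A := 37) (D := 43) (by norm_num) (by (clear * -; decide +kernel)) (by rw [pn3_7]; decide +kernel)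

theorem pn1_7 : PV 7 [NN 7 - q4T 7 * MM 7, q4T 7 * MM 7] (NN 7) =
    [0, 0, 0, 0, 0, 0, 576240000, 399910560, 223581120, 47251680, -129077760, -305407200,
    -481736640, -658066080, -564056640, -470047200, -376037760, -282028320, -188018880,
    -94009440] := by
  (clear * -; decide +kernel)

theorem okN1_7 : OkN1 7 :=
  okN1_of (B := 68) (D := 79) (by norm_num) (by (clear * -; decide +kernel)) (by rw [pn1_7]; (clear * -; decide +kernel))

theorem pn0_7 : PV 7 [z0 7, NN 7 - z0 7] (NN 7) =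
    [0, 0, 0, 0, 0, 0, 576240000, 446880000, 317520000, 188160000, 58800000, -70560000,
    -199920000, -329280000, -282240000, -235200000, -188160000, -141120000, -94080000,
    -47040000] := by
  (clear * -; decide +kernel)

theorem okN0_7 : OkN0 7 :=
  okN0_of (by norm_num) (by rw [pn0_7]; (clear * -; decide +kernel))

/-! ### `m = 8` -/

theorem pc_8 : PW 8 [z0 8, z1 8, -cT 8 * MM 8] (NN 8) =
    [26890752, 53781504, 80672256, 107563008, 134453760, 161344512, 188235264, 215126016,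
    -638346240, -508778496, -379210752, -249643008, -120075264, 9492480, 139060224, 268627968,
    228340224, 188052480, 147764736, 107476992, 67189248, 26901504, -13386240, -53673984,
    -46964736, -40255488, -33546240, -26836992, -20127744, -13418496, -6709248] := by
  (clear * -; decide +kernel)

theorem okC_8 : OkC 8 :=
  okC_of (B := 15) (D := 14) (by norm_num) (by (clear * -; decide +kernel)) (by rw [pc_8]; (clear * -; decide +kernel))

theorem pneg_8 : PW 8 [z0 8, z1 8, z2 8] (NN 8) =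
    [24150000, 48300000, 72450000, 96600000, 120750000, 144900000, 169050000, 193200000,
    -652050000, -514260000, -376470000, -238680000, -100890000, 36900000, 174690000,
    312480000, 263970000, 215460000, 166950000, 118440000, 69930000, 21420000, -27090000,
    -75600000, -66150000, -56700000, -47250000, -37800000, -28350000, -18900000, -9450000] := by
  (clear * -; decide +kernel)

theorem okNeg_8 : OkNeg 8 :=
  okNeg_of (by norm_num) (by rw [pneg_8]; (clear * -; decide +kernel))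

theorem p9_8 : PW 8 [(al9 8 + be9 8) * MM 8, be9 8 * MM 8] (NN 8) =
    [5603328, 11206656, 16809984, 22413312, 28016640, 33619968, 39223296, 44826624, -709558272,
    -480903168, -252248064, -23592960, 205062144, 433717248, 662372352, 891027456, 779649024,
    668270592, 556892160, 445513728, 334135296, 222756864, 111378432] := by
  (clear * -; decide +kernel)

theorem ok9_8 : Ok9 8 :=
  okLine_of (A := 230) (T := 323) (B := 323) (D := 437) (A' := 119) (B' := 138) (D' := 161)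
    (by norm_num) (by (clear * -; decide +kernel)) (by rw [p9_8]; decide +kernel)
    (by rw [p9_8]; decide +kernel)

theorem p10_8 : PW 8 [(al10 8 + be10 8) * MM 8, be10 8 * MM 8] (NN 8) =
    [6156288, 12312576, 18468864, 24625152, 30781440, 36937728, 43094016, 49250304, -711536640,
    -489283584, -267030528, -44777472, 177475584, 399728640, 621981696, 844234752, 738705408,
    633176064, 527646720, 422117376, 316588032, 211058688, 105529344] := by
  (clear * -; decide +kernel)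

theorem ok10_8 : Ok10 8 :=
  okLine_of (A := 40) (T := 57) (B := 57) (D := 76) (A' := 21) (B' := 24) (D' := 28)
    (by norm_num) (by (clear * -; decide +kernel)) (by rw [p10_8]; decide +kernel)
    (by rw [p10_8]; decide +kernel)

theorem pn3_8 : PV 8 [z0 8, z1 8, z1 8 + z2 8, q3T 8 * MM 8] (NN 8) =
    [-25593360, -51186720, -76780080, -102373440, -127966800, -153560160, -179153520, 778293120,
    601456560, 424620000, 247783440, 70946880, -105889680, -282726240, -459562800, -636399360,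
    -508169520, -379939680, -251709840, -123480000, 4749840, 132979680, 261209520, 389439360,
    328102800, 266766240, 205429680, 144093120, 82756560, 21420000, -39916560, -101253120,
    -88596480, -75939840, -63283200, -50626560, -37969920, -25313280, -12656640] := by
  (clear * -; decide +kernel)

theorem okN3_8 : OkN3 8 :=
  okN3_of (A := 57) (D := 65) (by norm_num) (by (clear * -; decide +kernel)) (by rw [pn3_8]; decide +kernel)

theorem pn1_8 : PV 8 [NN 8 - q4T 8 * MM 8, q4T 8 * MM 8] (NN 8) =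
    [0, 0, 0, 0, 0, 0, 0, 983040000, 723025920, 463011840, 202997760, -57016320, -317030400,
    -577044480, -837058560, -1097072640, -959938560, -822804480, -685670400, -548536320,
    -411402240, -274268160, -137134080] := by
  (clear * -; decide +kernel)

theorem okN1_8 : OkN1 8 :=
  okN1_of (B := 107) (D := 122) (by norm_num) (by (clear * -; decide +kernel)) (by rw [pn1_8]; decide +kernel)

theorem pn0_8 : PV 8 [z0 8, NN 8 - z0 8] (NN 8) =
    [0, 0, 0, 0, 0, 0, 0, 983040000, 791040000, 599040000, 407040000, 215040000, 23040000,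
    -168960000, -360960000, -552960000, -483840000, -414720000, -345600000, -276480000,
    -207360000, -138240000, -69120000] := by
  (clear * -; decide +kernel)

theorem okN0_8 : OkN0 8 :=
  okN0_of (by norm_num) (by rw [pn0_8]; (clear * -; decide +kernel))

/-! ### `m = 9` -/

theorem pc_9 : PW 9 [z0 9, z1 9, -cT 9 * MM 9] (NN 9) =
    [39284712, 78569424, 117854136, 157138848, 196423560, 235708272, 274992984, 314277696,
    353562408, -1037251728, -853425864, -669600000, -485774136, -301948272, -118122408,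
    65703456, 249529320, 433355184, 375529320, 317703456, 259877592, 202051728, 144225864,
    86400000, 28574136, -29251728, -87077592, -77402304, -67727016, -58051728, -48376440,
    -38701152, -29025864, -19350576, -9675288] := by
  (clear * -; decide +kernel)

theorem okC_9 : OkC 9 :=
  okC_of (B := 17) (D := 16) (by norm_num) (by (clear * -; decide +kernel)) (by rw [pc_9]; (clear * -; decide +kernel))

theorem pneg_9 : PW 9 [z0 9, z1 9, z2 9] (NN 9) =
    [35360000, 70720000, 106080000, 141440000, 176800000, 212160000, 247520000, 282880000,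
    318240000, -1060800000, -865200000, -669600000, -474000000, -278400000, -82800000,
    112800000, 308400000, 504000000, 434400000, 364800000, 295200000, 225600000, 156000000,
    86400000, 16800000, -52800000, -122400000, -108800000, -95200000, -81600000, -68000000,
    -54400000, -40800000, -27200000, -13600000] := by
  (clear * -; decide +kernel)

theorem okNeg_9 : OkNeg 9 :=
  okNeg_of (by norm_num) (by rw [pneg_9]; (clear * -; decide +kernel))

theorem p9_9 : PW 9 [(al9 9 + be9 9) * MM 9, be9 9 * MM 9] (NN 9) =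
    [8328096, 16656192, 24984288, 33312384, 41640480, 49968576, 58296672, 66624768, 74952864,
    -1171339704, -842992272, -514644840, -186297408, 142050024, 470397456, 798744888,
    1127092320, 1455439752, 1293724224, 1132008696, 970293168, 808577640, 646862112,
    485146584, 323431056, 161715528] := by
  (clear * -; decide +kernel)

theorem ok9_9 : Ok9 9 :=
  okLine_of (A := 85) (T := 117) (B := 117) (D := 153) (A' := 195) (B' := 221) (D' := 255)
    (by norm_num) (by (clear * -; decide +kernel)) (by rw [p9_9]; decide +kernel)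
    (by rw [p9_9]; (clear * -; decide +kernel))

theorem p10_9 : PW 9 [(al10 9 + be10 9) * MM 9, be10 9 * MM 9] (NN 9) =
    [9150408, 18300816, 27451224, 36601632, 45752040, 54902448, 64052856, 73203264, 82353672,
    -1173351744, -854417160, -535482576, -216547992, 102386592, 421321176, 740255760,
    1059190344, 1378124928, 1224999936, 1071874944, 918749952, 765624960, 612499968,
    459374976, 306249984, 153124992] := by
  (clear * -; decide +kernel)

theorem ok10_9 : Ok10 9 :=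
  okLine_of (A := 110) (T := 153) (B := 153) (D := 198) (A' := 255) (B' := 286) (D' := 330)
    (by norm_num) (by (clear * -; decide +kernel)) (by rw [p10_9]; (clear * -; decide +kernel))
    (by rw [p10_9]; decide +kernel)

theorem pn3_9 : PV 9 [z0 9, z1 9, z1 9 + z2 9, q3T 9 * MM 9] (NN 9) =
    [-35354080, -70708160, -106062240, -141416320, -176770400, -212124480, -247478560, -282832640,
    1256453280, 1004109600, 751765920, 499422240, 247078560, -5265120, -257608800, -509952480,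
    -762296160, -1014639840, -833164320, -651688800, -470213280, -288737760, -107262240,
    74213280, 255688800, 437164320, 618639840, 532056160, 445472480, 358888800, 272305120,
    185721440, 99137760, 12554080, -74029600, -160613280, -142767360, -124921440, -107075520,
    -89229600, -71383680, -53537760, -35691840, -17845920] := by
  (clear * -; decide +kernel)

theorem okN3_9 : OkN3 9 :=
  okN3_of (A := 105) (D := 118) (by norm_num) (by (clear * -; decide +kernel)) (by rw [pn3_9]; decide +kernel)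

theorem pn1_9 : PV 9 [NN 9 - q4T 9 * MM 9, q4T 9 * MM 9] (NN 9) =
    [0, 0, 0, 0, 0, 0, 0, 0, 1574640000, 1207923840, 841207680, 474491520, 107775360, -258940800,
    -625656960, -992373120, -1359089280, -1725805440, -1534049280, -1342293120, -1150536960,
    -958780800, -767024640, -575268480, -383512320, -191756160] := by
  (clear * -; decide +kernel)

theorem okN1_9 : OkN1 9 :=
  okN1_of (B := 89) (D := 100) (by norm_num) (by (clear * -; decide +kernel)) (by rw [pn1_9]; decide +kernel)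

theorem pn0_9 : PV 9 [z0 9, NN 9 - z0 9] (NN 9) =
    [0, 0, 0, 0, 0, 0, 0, 0, 1574640000, 1302480000, 1030320000, 758160000, 486000000, 213840000,
    -58320000, -330480000, -602640000, -874800000, -777600000, -680400000, -583200000,
    -486000000, -388800000, -291600000, -194400000, -97200000] := by
  (clear * -; decide +kernel)

theorem okN0_9 : OkN0 9 :=
  okN0_of (by norm_num) (by rw [pn0_9]; (clear * -; decide +kernel))

/-! ### `m = 10` -/

theorem pc_10 : PW 10 [z0 10, z1 10, -cT 10 * MM 10] (NN 10) =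
    [54984000, 109968000, 164952000, 219936000, 274920000, 329904000, 384888000, 439872000,
    494856000, 549840000, -1598712000, -1347264000, -1095816000, -844368000, -592920000,
    -341472000, -90024000, 161424000, 412872000, 664320000, 584472000, 504624000, 424776000,
    344928000, 265080000, 185232000, 105384000, 25536000, -54312000, -134160000, -120744000,
    -107328000, -93912000, -80496000, -67080000, -53664000, -40248000, -26832000, -13416000] := by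
  (clear * -; decide +kernel)

theorem okC_10 : OkC 10 :=
  okC_of (B := 19) (D := 18) (by norm_num) (by (clear * -; decide +kernel)) (by rw [pc_10]; decide +kernel)

theorem pneg_10 : PW 10 [z0 10, z1 10, z2 10] (NN 10) =
    [49590000, 99180000, 148770000, 198360000, 247950000, 297540000, 347130000, 396720000,
    446310000, 495900000, -1636470000, -1368840000, -1101210000, -833580000, -565950000,
    -298320000, -30690000, 236940000, 504570000, 772200000, 676170000, 580140000, 484110000,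
    388080000, 292050000, 196020000, 99990000, 3960000, -92070000, -188100000, -169290000,
    -150480000, -131670000, -112860000, -94050000, -75240000, -56430000, -37620000, -18810000] := by
  (clear * -; decide +kernel)

theorem okNeg_10 : OkNeg 10 :=
  okNeg_of (by norm_num) (by rw [pneg_10]; (clear * -; decide +kernel))

theorem p9_10 : PW 10 [(al9 10 + be9 10) * MM 10, be9 10 * MM 10] (NN 10) =
    [11832000, 23664000, 35496000, 47328000, 59160000, 70992000, 82824000, 94656000, 106488000,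
    118320000, -1828224000, -1374768000, -921312000, -467856000, -14400000, 439056000,
    892512000, 1345968000, 1799424000, 2252880000, 2027592000, 1802304000, 1577016000,
    1351728000, 1126440000, 901152000, 675864000, 450576000, 225288000] := by
  (clear * -; decide +kernel)

theorem ok9_10 : Ok9 10 :=
  okLine_of (A := 49) (T := 66) (B := 66) (D := 84) (A' := 44) (B' := 49) (D' := 56)
    (by norm_num) (by (clear * -; decide +kernel)) (by rw [p9_10]; (clear * -; decide +kernel))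
    (by rw [p9_10]; decide +kernel)

theorem p10_10 : PW 10 [(al10 10 + be10 10) * MM 10, be10 10 * MM 10] (NN 10) =
    [12960000, 25920000, 38880000, 51840000, 64800000, 77760000, 90720000, 103680000, 116640000,
    129600000, -1830192000, -1389984000, -949776000, -509568000, -69360000, 370848000,
    811056000, 1251264000, 1691472000, 2131680000, 1918512000, 1705344000, 1492176000,
    1279008000, 1065840000, 852672000, 639504000, 426336000, 213168000] := by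
  (clear * -; decide +kernel)

theorem ok10_10 : Ok10 10 :=
  okLine_of (A := 119) (T := 162) (B := 162) (D := 204) (A' := 108) (B' := 119) (D' := 136)
    (by norm_num) (by (clear * -; decide +kernel)) (by rw [p10_10]; (clear * -; decide +kernel))
    (by rw [p10_10]; (clear * -; decide +kernel))

theorem pn3_10 : PV 10 [z0 10, z1 10, z1 10 + z2 10, q3T 10 * MM 10] (NN 10) =
    [-47370000, -94740000, -142110000, -189480000, -236850000, -284220000, -331590000, -378960000,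
    -426330000, 1926300000, 1579770000, 1233240000, 886710000, 540180000, 193650000,
    -152880000, -499410000, -845940000, -1192470000, -1539000000, -1291590000, -1044180000,
    -796770000, -549360000, -301950000, -54540000, 192870000, 440280000, 687690000, 935100000,
    817350000, 699600000, 581850000, 464100000, 346350000, 228600000, 110850000, -6900000,
    -124650000, -242400000, -218160000, -193920000, -169680000, -145440000, -121200000,
    -96960000, -72720000, -48480000, -24240000] := by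
  (clear * -; decide +kernel)

theorem okN3_10 : OkN3 10 :=
  okN3_of (A := 9) (D := 10) (by norm_num) (by (clear * -; decide +kernel)) (by rw [pn3_10]; decide +kernel)

theorem pn1_10 : PV 10 [NN 10 - q4T 10 * MM 10, q4T 10 * MM 10] (NN 10) =
    [0, 0, 0, 0, 0, 0, 0, 0, 0, 2400000000, 1900560000, 1401120000, 901680000, 402240000,
    -97200000, -596640000, -1096080000, -1595520000, -2094960000, -2594400000, -2334960000,
    -2075520000, -1816080000, -1556640000, -1297200000, -1037760000, -778320000, -518880000,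
    -259440000] := by
  (clear * -; decide +kernel)

theorem okN1_10 : OkN1 10 :=
  okN1_of (B := 226) (D := 251) (by norm_num) (by (clear * -; decide +kernel)) (by rw [pn1_10]; decide +kernel)

theorem pn0_10 : PV 10 [z0 10, NN 10 - z0 10] (NN 10) =
    [0, 0, 0, 0, 0, 0, 0, 0, 0, 2400000000, 2028000000, 1656000000, 1284000000, 912000000,
    540000000, 168000000, -204000000, -576000000, -948000000, -1320000000, -1188000000,
    -1056000000, -924000000, -792000000, -660000000, -528000000, -396000000, -264000000,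
    -132000000] := by
  (clear * -; decide +kernel)

theorem okN0_10 : OkN0 10 :=
  okN0_of (by norm_num) (by rw [pn0_10]; (clear * -; decide +kernel))

end Vale.Agent.P237.AllN.PcRho
end

section

/-!
# The seven bounds of `PcRho` for `5 ≤ m ≤ 15`
-/

namespace Vale.Agent.P237.AllN.PcRho

theorem okC {m : ℕ} (h5 : 5 ≤ m) (h15 : m ≤ 15) : OkC m := by
  interval_cases m
  exacts [okC_5, okC_6, okC_7, okC_8, okC_9, okC_10, okC_11, okC_12, okC_13, okC_14,
    okC_15]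

theorem okNeg {m : ℕ} (h5 : 5 ≤ m) (h15 : m ≤ 15) : OkNeg m := by
  interval_cases m
  exacts [okNeg_5, okNeg_6, okNeg_7, okNeg_8, okNeg_9, okNeg_10, okNeg_11, okNeg_12, okNeg_13,
    okNeg_14,
    okNeg_15]

theorem ok9 {m : ℕ} (h5 : 5 ≤ m) (h15 : m ≤ 15) : Ok9 m := by
  interval_cases m
  exacts [ok9_5, ok9_6, ok9_7, ok9_8, ok9_9, ok9_10, ok9_11, ok9_12, ok9_13, ok9_14,
    ok9_15]

theorem ok10 {m : ℕ} (h5 : 5 ≤ m) (h15 : m ≤ 15) : Ok10 m := by
  interval_cases m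
  exacts [ok10_5, ok10_6, ok10_7, ok10_8, ok10_9, ok10_10, ok10_11, ok10_12, ok10_13, ok10_14,
    ok10_15]

theorem okN3 {m : ℕ} (h5 : 5 ≤ m) (h15 : m ≤ 15) : OkN3 m := by
  interval_cases m
  exacts [okN3_5, okN3_6, okN3_7, okN3_8, okN3_9, okN3_10, okN3_11, okN3_12, okN3_13, okN3_14,
    okN3_15]

theorem okN1 {m : ℕ} (h5 : 5 ≤ m) (h15 : m ≤ 15) : OkN1 m := by
  interval_cases m
  exacts [okN1_5, okN1_6, okN1_7, okN1_8, okN1_9, okN1_10, okN1_11, okN1_12, okN1_13, okN1_14,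
    okN1_15]

theorem okN0 {m : ℕ} (h5 : 5 ≤ m) (h15 : m ≤ 15) : OkN0 m := by
  interval_cases m
  exacts [okN0_5, okN0_6, okN0_7, okN0_8, okN0_9, okN0_10, okN0_11, okN0_12, okN0_13, okN0_14,
    okN0_15]

end Vale.Agent.P237.AllN.PcRho
end

section

/-!
# P237, plain certificate (m ≥ 5): the bounds of `ρ`
-/

open Set

namespace Vale.Agent.P237.AllN

open PolyPos

theorem r0_R {D : Dat} (h : 0 < D.P.m) : D.r0.R = PcRho.r0 D.P.m := by
  have h1 : ((2 * D.P.m - 1 : ℕ) : ℝ) + 1 = 2 * D.P.m := by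
    have : 2 * D.P.m - 1 + 1 = 2 * D.P.m := by omega
    exact_mod_cast this
  have h2 : (D.P.m : ℝ) ≠ 0 := by exact_mod_cast h.ne'
  simp only [Dat.r0, Fr.R, h1, PcRho.r0]
  push_cast
  field_simp

theorem r1_R {D : Dat} (h : 0 < D.P.m) : D.r1.R = PcRho.r1 D.P.m := by
  have h1 : ((6 * D.P.m ^ 2 - 1 : ℕ) : ℝ) + 1 = 6 * (D.P.m : ℝ) ^ 2 := by
    have : 6 * D.P.m ^ 2 - 1 + 1 = 6 * D.P.m ^ 2 :=
      Nat.sub_add_cancel (Nat.succ_le_of_lt (by positivity))
    exact_mod_cast this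
  have h2 : (D.P.m : ℝ) ≠ 0 := by exact_mod_cast h.ne'
  simp only [Dat.r1, Fr.R, h1, PcRho.r1]
  push_cast
  (clear * - h2; field_simp)

theorem r2_R {D : Dat} (h : 0 < D.P.m) : D.r2.R = PcRho.r2 D.P.m := by
  have h1 : ((24 * D.P.m ^ 3 - 1 : ℕ) : ℝ) + 1 = 24 * (D.P.m : ℝ) ^ 3 := by
    have : 24 * D.P.m ^ 3 - 1 + 1 = 24 * D.P.m ^ 3 :=
      Nat.sub_add_cancel (Nat.succ_le_of_lt (by positivity))
    exact_mod_cast this
  have h2 : (D.P.m : ℝ) ≠ 0 := by exact_mod_cast h.ne'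
  simp only [Dat.r2, Fr.R, h1, PcRho.r2]
  push_cast
  field_simp

theorem rhoOK {D : Dat} (h5 : 5 ≤ D.P.m) (h15 : D.P.m ≤ 15)
    (hc : D.cp.R = (PcRho.cT D.P.m : ℝ) / 10000)
    (hU : 3 * D.k.R ^ 2 ≤ ((PcRho.UT D.P.m : ℝ) / 1000) ^ 2 * ((D.P.m : ℝ) - 1))
    (hU0 : 0 ≤ PcRho.UT D.P.m)
    (hg : (D.g0.R = (PcRho.al9 D.P.m : ℝ) / 10000 ∧ D.g1.R = (PcRho.be9 D.P.m : ℝ) / 10000) ∨
      (D.g0.R = (PcRho.al10 D.P.m : ℝ) / 10000 ∧ D.g1.R = (PcRho.be10 D.P.m : ℝ) / 10000))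
    (h3 : D.q3.R = (PcRho.q3T D.P.m : ℝ) / 10000)
    (h4 : D.q4.R = (PcRho.q4T D.P.m : ℝ) / 10000) : RhoOK D := by
  have hm0 : 0 < D.P.m := by omega
  have hm : (D.P.m : ℝ) ≠ 0 := by exact_mod_cast hm0.ne'
  have hw : ∀ u : ℝ, 0 < 1 + u → 0 < (1 + u) ^ (1 / (D.P.m : ℝ)) ∧
      ((1 + u) ^ (1 / (D.P.m : ℝ))) ^ D.P.m = 1 + u := by
    intro u hu
    refine ⟨Real.rpow_pos_of_pos hu _, ?_⟩
    rw [← Real.rpow_natCast, ← Real.rpow_mul hu.le, one_div_mul_cancel hm, Real.rpow_one]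
  have cv : ∀ {u R : ℝ}, 0 < 1 + u → pmf D.P.m u ≤ R * (u ^ 2 / (1 + u)) →
      pmf D.P.m u * (1 + u) ≤ R * u ^ 2 := by
    intro u R hu h
    rwa [← mul_div_assoc, le_div_iff₀ hu] at h
  refine ⟨?_, ?_, ?_, ?_, ?_, ?_, ?_, ?_⟩
  · intro u hu
    obtain ⟨h1, h2⟩ := hw u hu
    have h3 := one_add_mul_le_pow (a := (1 + u) ^ (1 / (D.P.m : ℝ)) - 1) (by linarith only [h1]) D.P.m
    rw [add_sub_cancel, h2] at h3
    unfold pmf
    linarith only [h3]
  · intro u h0 h1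
    have hu : 0 < 1 + u := by linarith only [h0]
    obtain ⟨w1, w2⟩ := hw u hu
    have hm1 : (0 : ℝ) < D.P.m - 1 := by
      have : (5 : ℝ) ≤ D.P.m := by exact_mod_cast h5
      linarith only [this]
    have h2 : u ^ 2 ≤ ((PcRho.UT D.P.m : ℝ) / 1000) ^ 2 :=
      le_of_mul_le_mul_right (h1.trans hU) hm1
    have h3 : u ≤ (PcRho.UT D.P.m : ℝ) / 1000 := le_of_sq_le_sq h2 (by
      have : (0 : ℝ) ≤ PcRho.UT D.P.m := by exact_mod_cast hU0
      (clear * - hU0; positivity))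
    have := cv hu (PcRho.okC h5 h15 u _ w1 w2 h0 h3)
    rw [r0_R hm0, r1_R hm0, hc]
    refine this.trans_eq ?_
    ring
  · intro u hu h0
    obtain ⟨w1, w2⟩ := hw u hu
    have := cv hu (PcRho.okNeg h5 h15 u _ w1 w2 h0)
    rw [r0_R hm0, r1_R hm0, r2_R hm0]
    refine this.trans_eq ?_
    ring
  · intro u h0 h1
    have hu : 0 < 1 + u := by linarith only [h0]
    obtain ⟨w1, w2⟩ := hw u hu
    rcases hg with ⟨g0, g1⟩ | ⟨g0, g1⟩
    · rw [g0, g1]
      exact cv hu (PcRho.ok9 h5 h15 u _ w1 w2 h0 h1)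
    · rw [g0, g1]
      exact cv hu (PcRho.ok10 h5 h15 u _ w1 w2 h0 h1)
  · intro u hu h0
    obtain ⟨w1, w2⟩ := hw u hu
    exact PcRho.pm_le (by omega) w1 w2
  · intro u h0 n hn hn1
    have hu : 0 < 1 + u := by linarith only [h0]
    obtain ⟨w1, w2⟩ := hw u hu
    have hne := hu.ne'
    have hnu : u / (1 + u) = n := by
      rw [div_eq_iff hne]
      exact hn.symm
    have := cv hu (PcRho.okN3 h5 h15 u _ w1 w2 h0 (by rw [hnu]; exact hn1))
    rw [r0_R hm0, r1_R hm0, r2_R hm0, h3]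
    rw [hnu] at this
    refine this.trans_eq ?_
    ring
  · intro u h0 h1
    have hu : 0 < 1 + u := by linarith only [h1]
    obtain ⟨w1, w2⟩ := hw u hu
    have hne := hu.ne'
    have := cv hu (PcRho.okN1 h5 h15 u _ w1 w2 (by rw [le_div_iff₀ hu]; exact h1))
    have h5' := mul_le_mul_of_nonneg_right this hu.le
    rw [h4]
    refine (le_of_eq ?_).trans (h5'.trans_eq ?_)
    · ring
    · (clear * - hne; field_simp)
  · intro u h0
    have hu : 0 < 1 + u := by linarith only [h0]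
    obtain ⟨w1, w2⟩ := hw u hu
    have hne := hu.ne'
    have := cv hu (PcRho.okN0 h5 h15 u _ w1 w2 h0)
    have h5' := mul_le_mul_of_nonneg_right this hu.le
    rw [r0_R hm0]
    refine (le_of_eq ?_).trans (h5'.trans_eq ?_)
    · ring
    · field_simp
      ring

end Vale.Agent.P237.AllN
end

section

/-!
# P237, plain certificate: `OneD 5`
-/

open Set

namespace Vale.Agent.P237.AllN

open PolyPos

theorem num5 : D5.Num (-569 / 1000) := by
  refine ⟨?_, ?_, ?_, ?_, ?_, ?_, ?_, ?_, ?_, ?_, ?_, ?_, ?_, ?_, ?_, ?_, ?_, ?_, ?_, ?_⟩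
  · norm_num [D5]
  · norm_num [D5, Fr.R, Dat.r0]
  · norm_num [D5, Fr.R, Dat.r0]
  · norm_num [D5, Fr.R, Dat.r0]
  · norm_num [D5, Fr.R, Dat.r0]
  · norm_num [D5, Fr.R, Dat.r0]
  · norm_num [D5, Fr.R, Dat.r0]
  · norm_num [D5, Fr.R, Dat.r0]
  · norm_num [D5, Fr.R, Dat.r0]
  · norm_num [D5, Fr.R, Dat.r0]
  · norm_num [D5, Fr.R, Dat.r0]
  · have h := pcn_log_ge (q := 5192 / 6125) (a := 3 / 7) (by norm_num) (by norm_num) (by
      norm_num [Finset.sum_range_succ, Nat.factorial])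
    simp only [D5, Fr.R]
    norm_num at h ⊢
    linarith
  · have h := pcn_log_ge (q := 763004 / 900375) (a := 3 / 7) (by norm_num) (by norm_num) (by
      norm_num [Finset.sum_range_succ, Nat.factorial])
    simp only [D5, Fr.R]
    norm_num at h ⊢
    linarith
  · norm_num [D5]
  · norm_num [D5]
  · norm_num [D5, Fr.R, Dat.r0]
  · norm_num [D5, Fr.R, Dat.r0]
  · norm_num [D5]
  · norm_num [D5]
  · norm_num [D5]

theorem UT_w5 : PcRho.UT 5 = 743 := rfl
theorem al10_w5 : PcRho.al10 5 = 397 := rfl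
theorem be10_w5 : PcRho.be10 5 = 7708 := rfl
theorem cT_w5 : PcRho.cT 5 = 514 := rfl
theorem q3T_w5 : PcRho.q3T 5 = 1080 := rfl
theorem q4T_w5 : PcRho.q4T 5 = 12260 := rfl

theorem rho5 : RhoOK D5 := by
  refine rhoOK (by norm_num [D5]) (by norm_num [D5]) ?_ ?_ ?_ (Or.inr ⟨by norm_num [D5, Fr.R, al10_w5], by norm_num [D5, Fr.R, be10_w5]⟩) ?_ ?_ <;>
    norm_num [D5, Fr.R, cT_w5, UT_w5, q3T_w5, q4T_w5]

theorem chk5 : D5.Chk where
  lp := ⟨_, chk5_LP⟩
  lm := ⟨_, chk5_LM⟩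
  rmT := (Or.inr ⟨rfl, by norm_num [D5], ⟨_, chk5_RMT0⟩, ⟨_, chk5_RMT1⟩⟩)
  rmG := (Or.inr ⟨rfl, by norm_num [D5], ⟨_, chk5_RMt0⟩, ⟨_, chk5_RMt1⟩⟩)
  rmC := (Or.inr ⟨rfl, by norm_num [D5], ⟨_, chk5_RMc0⟩, ⟨_, chk5_RMc1⟩⟩)
  rp1 := ⟨_, chk5_RP1⟩
  rp2 := ⟨_, chk5_RP2⟩
  rs := ⟨_, chk5_RS⟩

theorem D5_m : D5.P.m = 5 := rfl

theorem inOK5 : InOK D5.P.m D5.k.R (-569 / 1000) := by
  rw [D5_m]
  refine inOK_of (by norm_num) (by norm_num) ?_ ?_
  · intro r τ τ' T hr hT x hx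
    have h := IsTrans.pin_h4_five hr hT hx
    refine h.trans (mul_le_mul_of_nonneg_right ?_ hx.1.le)
    norm_num [D5, Fr.R]
  · intro r τ τ' T hr hT x hx hx2
    have h := IsTrans.pin_h7_five hr hT hx (by rw [hx2]; norm_num)
    refine le_trans ?_ h
    norm_num

/-- **`OneD 5`** -/
theorem oneD_5 : OneD 5 := by
  have h := oneD_of_dat num5 rho5 chk5 (by rw [D5_m]; norm_num) (by norm_num [D5, Fr.R]) inOK5
  rwa [D5_m] at h

end Vale.Agent.P237.AllN
end

section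

/-!
# P237, plain certificate: `OneD 6`
-/

open Set

namespace Vale.Agent.P237.AllN

open PolyPos

theorem num6 : D6.Num (-644 / 1000) := by
  refine ⟨?_, ?_, ?_, ?_, ?_, ?_, ?_, ?_, ?_, ?_, ?_, ?_, ?_, ?_, ?_, ?_, ?_, ?_, ?_, ?_⟩
  · norm_num [D6]
  · norm_num [D6, Fr.R, Dat.r0]
  · norm_num [D6, Fr.R, Dat.r0]
  · norm_num [D6, Fr.R, Dat.r0]
  · norm_num [D6, Fr.R, Dat.r0]
  · norm_num [D6, Fr.R, Dat.r0]
  · norm_num [D6, Fr.R, Dat.r0]
  · norm_num [D6, Fr.R, Dat.r0]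
  · norm_num [D6, Fr.R, Dat.r0]
  · norm_num [D6, Fr.R, Dat.r0]
  · norm_num [D6, Fr.R, Dat.r0]
  · have h := pcn_log_ge (q := 157 / 160) (a := 3 / 8) (by norm_num) (by norm_num) (by
      norm_num [Finset.sum_range_succ, Nat.factorial])
    simp only [D6, Fr.R]
    norm_num at h ⊢
    linarith
  · have h := pcn_log_ge (q := 12055 / 12288) (a := 3 / 8) (by norm_num) (by norm_num) (by
      norm_num [Finset.sum_range_succ, Nat.factorial])
    simp only [D6, Fr.R]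
    norm_num at h ⊢
    linarith
  · norm_num [D6]
  · norm_num [D6]
  · norm_num [D6, Fr.R, Dat.r0]
  · norm_num [D6, Fr.R, Dat.r0]
  · norm_num [D6]
  · norm_num [D6]
  · norm_num [D6]

theorem UT_w6 : PcRho.UT 6 = 734 := rfl
theorem al9_w6 : PcRho.al9 6 = 400 := rfl
theorem be9_w6 : PcRho.be9 6 = 8530 := rfl
theorem cT_w6 : PcRho.cT 6 = 530 := rfl
theorem q3T_w6 : PcRho.q3T 6 = 1060 := rfl
theorem q4T_w6 : PcRho.q4T 6 = 11760 := rfl

theorem rho6 : RhoOK D6 := by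
  refine rhoOK (by norm_num [D6]) (by norm_num [D6]) ?_ ?_ ?_ (Or.inl ⟨by norm_num [D6, Fr.R, al9_w6], by norm_num [D6, Fr.R, be9_w6]⟩) ?_ ?_ <;>
    norm_num [D6, Fr.R, cT_w6, UT_w6, q3T_w6, q4T_w6]

theorem chk6 : D6.Chk where
  lp := ⟨_, chk6_LP⟩
  lm := ⟨_, chk6_LM⟩
  rmT := (Or.inl ⟨_, chk6_RMT0⟩)
  rmG := (Or.inl ⟨_, chk6_RMt0⟩)
  rmC := (Or.inl ⟨_, chk6_RMc0⟩)
  rp1 := ⟨_, chk6_RP1⟩
  rp2 := ⟨_, chk6_RP2⟩
  rs := ⟨_, chk6_RS⟩

theorem D6_m : D6.P.m = 6 := rfl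

theorem inOK6 : InOK D6.P.m D6.k.R (-644 / 1000) := by
  rw [D6_m]
  refine inOK_of (by norm_num) (by norm_num) ?_ ?_
  · intro r τ τ' T hr hT x hx
    have h := IsTrans.pin_h4_six hr hT hx
    refine h.trans (mul_le_mul_of_nonneg_right ?_ hx.1.le)
    norm_num [D6, Fr.R]
  · intro r τ τ' T hr hT x hx hx2
    have h := IsTrans.pin_h7_six hr hT hx (by rw [hx2]; norm_num)
    refine le_trans ?_ h
    norm_num

/-- **`OneD 6`** -/
theorem oneD_6 : OneD 6 := by
  have h := oneD_of_dat num6 rho6 chk6 (by rw [D6_m]; norm_num) (by norm_num [D6, Fr.R]) inOK6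
  rwa [D6_m] at h

end Vale.Agent.P237.AllN
end

section

/-!
# P237, plain certificate: kernel checks for `m = 10`
-/

namespace Vale.Agent.P237.AllN

open PolyPos

/-- data of the certificate, `m = 10` -/
def D10 : Dat := ⟨⟨10, ⟨5, 7⟩, ⟨161, 499⟩, ⟨427, 999⟩, ⟨6, 4⟩, ⟨133, 999⟩, ⟨2, 4⟩, ⟨7, 999⟩, ⟨1, 999⟩, ⟨1, 999⟩⟩,
  ⟨1231, 999⟩, ⟨559, 9999⟩, ⟨101, 999⟩, ⟨1081, 999⟩, ⟨283, 499⟩, ⟨339, 999⟩, ⟨493, 9999⟩, ⟨9387, 9999⟩, 5, 500, 1422, 867, 1231, 2 ^ 1024, 40⟩

theorem chk10_LP :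
    D10.kLP (.leaf 0) = true := by
  decide +kernel

theorem chk10_LM :
    D10.kLM (.sx (.leaf 0) (.sy (.leaf 0) (.sx (.leaf 0) (.sy (.leaf 0) .out)))) = true := by
  decide +kernel

theorem chk10_RMT0 :
    D10.kRM D10.rbT 10 0 867 250 1000 (.leaf 0) = true := by
  decide +kernel

theorem chk10_RMt0 :
    D10.kRM D10.rbG 10 0 867 6 250 (.sx (.leaf 0) (.leaf 0)) = true := by
  decide +kernel

theorem chk10_RMc0 :
    D10.kRM D10.rbC 10 0 867 0 6 (.sx (.leaf 0) (.leaf 0)) = true := by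
  decide +kernel

theorem chk10_RP1 :
    D10.kRP1 (.sx (.leaf 0) (.sy (.sx (.leaf 0) (.sy (.sx (.sy .out (.leaf 0)) (.sy .out
    (.sx (.leaf 0) .out))) (.leaf 0))) (.leaf 0))) = true := by
  decide +kernel

theorem chk10_RP2 :
    D10.kRP2 (.sx (.sy (.sx (.sy .out (.leaf 0)) .out) (.leaf 0)) (.sy .out (.sx (.leaf 0)
    .out))) = true := by
  decide +kernel

theorem chk10_RS :
    D10.kRS (.leaf 1) = true := by
  decide +kernel

end Vale.Agent.P237.AllN
end

section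

/-!
# P237, plain certificate: `OneD 10`
-/

open Set

namespace Vale.Agent.P237.AllN

open PolyPos

theorem num10 : D10.Num (-868 / 1000) := by
  refine ⟨?_, ?_, ?_, ?_, ?_, ?_, ?_, ?_, ?_, ?_, ?_, ?_, ?_, ?_, ?_, ?_, ?_, ?_, ?_, ?_⟩
  · norm_num [D10]
  · norm_num [D10, Fr.R, Dat.r0]
  · norm_num [D10, Fr.R, Dat.r0]
  · norm_num [D10, Fr.R, Dat.r0]
  · norm_num [D10, Fr.R, Dat.r0]
  · norm_num [D10, Fr.R, Dat.r0]
  · norm_num [D10, Fr.R, Dat.r0]
  · norm_num [D10, Fr.R, Dat.r0]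
  · norm_num [D10, Fr.R, Dat.r0]
  · norm_num [D10, Fr.R, Dat.r0]
  · norm_num [D10, Fr.R, Dat.r0]
  · have h := pcn_log_ge (q := 5547 / 4000) (a := 3 / 12) (by norm_num) (by norm_num) (by
      norm_num [Finset.sum_range_succ, Nat.factorial])
    simp only [D10, Fr.R]
    norm_num at h ⊢
    linarith
  · have h := pcn_log_ge (q := 177459 / 128000) (a := 3 / 12) (by norm_num) (by norm_num) (by
      norm_num [Finset.sum_range_succ, Nat.factorial])
    simp only [D10, Fr.R]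
    norm_num at h ⊢
    linarith
  · norm_num [D10]
  · norm_num [D10]
  · norm_num [D10, Fr.R, Dat.r0]
  · norm_num [D10, Fr.R, Dat.r0]
  · norm_num [D10]
  · norm_num [D10]
  · norm_num [D10]

theorem UT_w10 : PcRho.UT 10 = 717 := rfl
theorem al9_w10 : PcRho.al9 10 = 493 := rfl
theorem be9_w10 : PcRho.be9 10 = 9387 := rfl
theorem cT_w10 : PcRho.cT 10 = 559 := rfl
theorem q3T_w10 : PcRho.q3T 10 = 1010 := rfl
theorem q4T_w10 : PcRho.q4T 10 = 10810 := rfl

theorem rho10 : RhoOK D10 := by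
  refine rhoOK (by norm_num [D10]) (by norm_num [D10]) ?_ ?_ ?_ (Or.inl ⟨by norm_num [D10, Fr.R, al9_w10], by norm_num [D10, Fr.R, be9_w10]⟩) ?_ ?_ <;>
    norm_num [D10, Fr.R, cT_w10, UT_w10, q3T_w10, q4T_w10]

theorem chk10 : D10.Chk where
  lp := ⟨_, chk10_LP⟩
  lm := ⟨_, chk10_LM⟩
  rmT := (Or.inl ⟨_, chk10_RMT0⟩)
  rmG := (Or.inl ⟨_, chk10_RMt0⟩)
  rmC := (Or.inl ⟨_, chk10_RMc0⟩)
  rp1 := ⟨_, chk10_RP1⟩
  rp2 := ⟨_, chk10_RP2⟩
  rs := ⟨_, chk10_RS⟩

theorem D10_m : D10.P.m = 10 := rfl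

theorem inOK10 : InOK D10.P.m D10.k.R (-868 / 1000) := by
  rw [D10_m]
  refine inOK_of (by norm_num) (by norm_num) ?_ ?_
  · intro r τ τ' T hr hT x hx
    have h := IsTrans.pin_h4_ten hr hT hx
    refine h.trans (mul_le_mul_of_nonneg_right ?_ hx.1.le)
    norm_num [D10, Fr.R]
  · intro r τ τ' T hr hT x hx hx2
    have h := IsTrans.pin_h7_ten hr hT hx (by rw [hx2]; norm_num)
    refine le_trans ?_ h
    norm_num

/-- **`OneD 10`** -/
theorem oneD_10 : OneD 10 := by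
  have h := oneD_of_dat num10 rho10 chk10 (by rw [D10_m]; norm_num) (by norm_num [D10, Fr.R]) inOK10
  rwa [D10_m] at h

end Vale.Agent.P237.AllN
end

section

/-!
# P237, plain certificate: `OneD 11`
-/

open Set

namespace Vale.Agent.P237.AllN

open PolyPos

theorem num11 : D11.Num (-912 / 1000) := by
  refine ⟨?_, ?_, ?_, ?_, ?_, ?_, ?_, ?_, ?_, ?_, ?_, ?_, ?_, ?_, ?_, ?_, ?_, ?_, ?_, ?_⟩
  · norm_num [D11]
  · norm_num [D11, Fr.R, Dat.r0]
  · norm_num [D11, Fr.R, Dat.r0]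
  · norm_num [D11, Fr.R, Dat.r0]
  · norm_num [D11, Fr.R, Dat.r0]
  · norm_num [D11, Fr.R, Dat.r0]
  · norm_num [D11, Fr.R, Dat.r0]
  · norm_num [D11, Fr.R, Dat.r0]
  · norm_num [D11, Fr.R, Dat.r0]
  · norm_num [D11, Fr.R, Dat.r0]
  · norm_num [D11, Fr.R, Dat.r0]
  · have h := pcn_log_ge (q := 248 / 169) (a := 3 / 13) (by norm_num) (by norm_num) (by
      norm_num [Finset.sum_range_succ, Nat.factorial])
    simp only [D11, Fr.R]
    norm_num at h ⊢
    linarith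
  · have h := pcn_log_ge (q := 125680 / 85683) (a := 3 / 13) (by norm_num) (by norm_num) (by
      norm_num [Finset.sum_range_succ, Nat.factorial])
    simp only [D11, Fr.R]
    norm_num at h ⊢
    linarith
  · norm_num [D11]
  · norm_num [D11]
  · norm_num [D11, Fr.R, Dat.r0]
  · norm_num [D11, Fr.R, Dat.r0]
  · norm_num [D11]
  · norm_num [D11]
  · norm_num [D11]

theorem UT_w11 : PcRho.UT 11 = 710 := rfl
theorem al9_w11 : PcRho.al9 11 = 507 := rfl
theorem be9_w11 : PcRho.be9 11 = 9504 := rfl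
theorem cT_w11 : PcRho.cT 11 = 564 := rfl
theorem q3T_w11 : PcRho.q3T 11 = 1000 := rfl
theorem q4T_w11 : PcRho.q4T 11 = 10680 := rfl

theorem rho11 : RhoOK D11 := by
  refine rhoOK (by norm_num [D11]) (by norm_num [D11]) ?_ ?_ ?_ (Or.inl ⟨by norm_num [D11, Fr.R, al9_w11], by norm_num [D11, Fr.R, be9_w11]⟩) ?_ ?_ <;>
    norm_num [D11, Fr.R, cT_w11, UT_w11, q3T_w11, q4T_w11]

theorem chk11 : D11.Chk where
  lp := ⟨_, chk11_LP⟩
  lm := ⟨_, chk11_LM⟩
  rmT := (Or.inl ⟨_, chk11_RMT0⟩)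
  rmG := (Or.inl ⟨_, chk11_RMt0⟩)
  rmC := (Or.inl ⟨_, chk11_RMc0⟩)
  rp1 := ⟨_, chk11_RP1⟩
  rp2 := ⟨_, chk11_RP2⟩
  rs := ⟨_, chk11_RS⟩

theorem D11_m : D11.P.m = 11 := rfl

theorem inOK11 : InOK D11.P.m D11.k.R (-912 / 1000) := by
  rw [D11_m]
  refine inOK_of (by norm_num) (by norm_num) ?_ ?_
  · intro r τ τ' T hr hT x hx
    have h := IsTrans.pin_h4_eleven hr hT hx
    refine h.trans (mul_le_mul_of_nonneg_right ?_ hx.1.le)
    norm_num [D11, Fr.R]
  · intro r τ τ' T hr hT x hx hx2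
    have h := IsTrans.pin_h7_eleven hr hT hx (by rw [hx2]; norm_num)
    refine le_trans ?_ h
    norm_num

/-- **`OneD 11`** -/
theorem oneD_11 : OneD 11 := by
  have h := oneD_of_dat num11 rho11 chk11 (by rw [D11_m]; norm_num) (by norm_num [D11, Fr.R]) inOK11
  rwa [D11_m] at h

end Vale.Agent.P237.AllN
end

section

/-!
# P237, plain certificate: `OneD 12`
-/

open Set

namespace Vale.Agent.P237.AllN

open PolyPos

theorem num12 : D12.Num (-950 / 1000) := by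
  refine ⟨?_, ?_, ?_, ?_, ?_, ?_, ?_, ?_, ?_, ?_, ?_, ?_, ?_, ?_, ?_, ?_, ?_, ?_, ?_, ?_⟩
  · norm_num [D12]
  · norm_num [D12, Fr.R, Dat.r0]
  · norm_num [D12, Fr.R, Dat.r0]
  · norm_num [D12, Fr.R, Dat.r0]
  · norm_num [D12, Fr.R, Dat.r0]
  · norm_num [D12, Fr.R, Dat.r0]
  · norm_num [D12, Fr.R, Dat.r0]
  · norm_num [D12, Fr.R, Dat.r0]
  · norm_num [D12, Fr.R, Dat.r0]
  · norm_num [D12, Fr.R, Dat.r0]
  · norm_num [D12, Fr.R, Dat.r0]
  · have h := pcn_log_ge (q := 37763 / 24500) (a := 3 / 14) (by norm_num) (by norm_num) (by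
      norm_num [Finset.sum_range_succ, Nat.factorial])
    simp only [D12, Fr.R]
    norm_num at h ⊢
    linarith
  · have h := pcn_log_ge (q := 44403601 / 28812000) (a := 3 / 14) (by norm_num) (by norm_num) (by
      norm_num [Finset.sum_range_succ, Nat.factorial])
    simp only [D12, Fr.R]
    norm_num at h ⊢
    linarith
  · norm_num [D12]
  · norm_num [D12]
  · norm_num [D12, Fr.R, Dat.r0]
  · norm_num [D12, Fr.R, Dat.r0]
  · norm_num [D12]
  · norm_num [D12]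
  · norm_num [D12]

theorem UT_w12 : PcRho.UT 12 = 725 := rfl
theorem al9_w12 : PcRho.al9 12 = 519 := rfl
theorem be9_w12 : PcRho.be9 12 = 9602 := rfl
theorem cT_w12 : PcRho.cT 12 = 563 := rfl
theorem q3T_w12 : PcRho.q3T 12 = 1000 := rfl
theorem q4T_w12 : PcRho.q4T 12 = 10580 := rfl

theorem rho12 : RhoOK D12 := by
  refine rhoOK (by norm_num [D12]) (by norm_num [D12]) ?_ ?_ ?_ (Or.inl ⟨by norm_num [D12, Fr.R, al9_w12], by norm_num [D12, Fr.R, be9_w12]⟩) ?_ ?_ <;>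
    norm_num [D12, Fr.R, cT_w12, UT_w12, q3T_w12, q4T_w12]

theorem chk12 : D12.Chk where
  lp := ⟨_, chk12_LP⟩
  lm := ⟨_, chk12_LM⟩
  rmT := (Or.inl ⟨_, chk12_RMT0⟩)
  rmG := (Or.inl ⟨_, chk12_RMt0⟩)
  rmC := (Or.inl ⟨_, chk12_RMc0⟩)
  rp1 := ⟨_, chk12_RP1⟩
  rp2 := ⟨_, chk12_RP2⟩
  rs := ⟨_, chk12_RS⟩

theorem D12_m : D12.P.m = 12 := rfl

theorem inOK12 : InOK D12.P.m D12.k.R (-950 / 1000) := by
  rw [D12_m]
  refine inOK_of (by norm_num) (by norm_num) ?_ ?_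
  · intro r τ τ' T hr hT x hx
    have h := IsTrans.pin_h4_twelve hr hT hx
    refine h.trans (mul_le_mul_of_nonneg_right ?_ hx.1.le)
    norm_num [D12, Fr.R]
  · intro r τ τ' T hr hT x hx hx2
    have h := IsTrans.pin_h7_twelve hr hT hx (by rw [hx2]; norm_num)
    refine le_trans ?_ h
    norm_num

/-- **`OneD 12`** -/
theorem oneD_12 : OneD 12 := by
  have h := oneD_of_dat num12 rho12 chk12 (by rw [D12_m]; norm_num) (by norm_num [D12, Fr.R]) inOK12
  rwa [D12_m] at h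

end Vale.Agent.P237.AllN
end

section

/-!
# P237, plain certificate: `OneD 14`
-/

open Set

namespace Vale.Agent.P237.AllN

open PolyPos

theorem num14 : D14.Num (-1023 / 1000) := by
  refine ⟨?_, ?_, ?_, ?_, ?_, ?_, ?_, ?_, ?_, ?_, ?_, ?_, ?_, ?_, ?_, ?_, ?_, ?_, ?_, ?_⟩
  · norm_num [D14]
  · norm_num [D14, Fr.R, Dat.r0]
  · norm_num [D14, Fr.R, Dat.r0]
  · norm_num [D14, Fr.R, Dat.r0]
  · norm_num [D14, Fr.R, Dat.r0]
  · norm_num [D14, Fr.R, Dat.r0]
  · norm_num [D14, Fr.R, Dat.r0]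
  · norm_num [D14, Fr.R, Dat.r0]
  · norm_num [D14, Fr.R, Dat.r0]
  · norm_num [D14, Fr.R, Dat.r0]
  · norm_num [D14, Fr.R, Dat.r0]
  · have h := pcn_log_ge (q := 214357 / 128000) (a := 3 / 16) (by norm_num) (by norm_num) (by
      norm_num [Finset.sum_range_succ, Nat.factorial])
    simp only [D14, Fr.R]
    norm_num at h ⊢
    linarith
  · have h := pcn_log_ge (q := 32919523 / 19660800) (a := 3 / 16) (by norm_num) (by norm_num) (by
      norm_num [Finset.sum_range_succ, Nat.factorial])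
    simp only [D14, Fr.R]
    norm_num at h ⊢
    linarith
  · norm_num [D14]
  · norm_num [D14]
  · norm_num [D14, Fr.R, Dat.r0]
  · norm_num [D14, Fr.R, Dat.r0]
  · norm_num [D14]
  · norm_num [D14]
  · norm_num [D14]

theorem UT_w14 : PcRho.UT 14 = 731 := rfl
theorem al9_w14 : PcRho.al9 14 = 538 := rfl
theorem be9_w14 : PcRho.be9 14 = 9756 := rfl
theorem cT_w14 : PcRho.cT 14 = 565 := rfl
theorem q3T_w14 : PcRho.q3T 14 = 1000 := rfl
theorem q4T_w14 : PcRho.q4T 14 = 10410 := rfl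

theorem rho14 : RhoOK D14 := by
  refine rhoOK (by norm_num [D14]) (by norm_num [D14]) ?_ ?_ ?_ (Or.inl ⟨by norm_num [D14, Fr.R, al9_w14], by norm_num [D14, Fr.R, be9_w14]⟩) ?_ ?_ <;>
    norm_num [D14, Fr.R, cT_w14, UT_w14, q3T_w14, q4T_w14]

theorem chk14 : D14.Chk where
  lp := ⟨_, chk14_LP⟩
  lm := ⟨_, chk14_LM⟩
  rmT := (Or.inl ⟨_, chk14_RMT0⟩)
  rmG := (Or.inl ⟨_, chk14_RMt0⟩)
  rmC := (Or.inl ⟨_, chk14_RMc0⟩)
  rp1 := ⟨_, chk14_RP1⟩
  rp2 := ⟨_, chk14_RP2⟩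
  rs := ⟨_, chk14_RS⟩

theorem D14_m : D14.P.m = 14 := rfl

theorem inOK14 : InOK D14.P.m D14.k.R (-1023 / 1000) := by
  rw [D14_m]
  refine inOK_of (by norm_num) (by norm_num) ?_ ?_
  · intro r τ τ' T hr hT x hx
    have h := IsTrans.pin_h4_fourteen hr hT hx
    refine h.trans (mul_le_mul_of_nonneg_right ?_ hx.1.le)
    norm_num [D14, Fr.R]
  · intro r τ τ' T hr hT x hx hx2
    have h := IsTrans.pin_h7_fourteen hr hT hx (by rw [hx2]; norm_num)
    refine le_trans ?_ h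
    norm_num

/-- **`OneD 14`** -/
theorem oneD_14 : OneD 14 := by
  have h := oneD_of_dat num14 rho14 chk14 (by rw [D14_m]) (by norm_num [D14, Fr.R]) inOK14
  rwa [D14_m] at h

end Vale.Agent.P237.AllN
end

section

/-!
# P237, block D, region `0 ≤ l`, `1 ≤ √m x ≤ 3`, `u ≤ 0`, `m ≥ 27`
-/

namespace Vale.Agent.P237.AllN

open Real

/-! ## the function `φ(u) = u - log(1+u)`, `-1 < u ≤ 0` -/

theorem fpn_phi_nonneg {u : ℝ} (hu : 0 < 1 + u) : 0 ≤ u - log (1 + u) := by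
  have := log_le_sub_one_of_pos hu
  linarith only [this]

/-- `φ ≤ W (3 + u)/6` -/
theorem fpn_phi_le {u : ℝ} (hu : 0 < 1 + u) (hu0 : u ≤ 0) :
    u - log (1 + u) ≤ u ^ 2 / (1 + u) * ((3 + u) / 6) := by
  have hd : ∀ t : ℝ, 0 < 1 + t → HasDerivAt
      (fun t : ℝ => log (1 + t) - t + t ^ 2 / (1 + t) * ((3 + t) / 6))
      (t ^ 3 / (3 * (1 + t) ^ 2)) t := by
    intro t ht
    have e1 : HasDerivAt (fun t : ℝ => 1 + t) 1 t := by
      simpa only [id_eq] using (hasDerivAt_id t).const_add 1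
    have e2 := e1.log ht.ne'
    have e3 := ((hasDerivAt_pow 2 t).div e1 ht.ne').mul
      (((hasDerivAt_id t).const_add 3).div_const 6)
    refine ((e2.sub (hasDerivAt_id t)).add e3).congr_deriv ?_
    simp only [id, Pi.div_apply]
    push_cast
    field_simp
    ring
  have hmem : ∀ t ∈ Set.Icc u 0, 0 < 1 + t := fun t ht => by linarith only [hu, ht.1]
  have hanti : AntitoneOn (fun t : ℝ => log (1 + t) - t + t ^ 2 / (1 + t) * ((3 + t) / 6))
      (Set.Icc u 0) := by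
    apply antitoneOn_of_deriv_nonpos (convex_Icc u 0)
    · intro t ht
      exact (hd t (hmem t ht)).continuousAt.continuousWithinAt
    · intro t ht
      rw [interior_Icc] at ht
      exact (hd t (hmem t ⟨ht.1.le, ht.2.le⟩)).differentiableAt.differentiableWithinAt
    · intro t ht
      rw [interior_Icc] at ht
      have h1 := hmem t ⟨ht.1.le, ht.2.le⟩
      rw [(hd t h1).deriv]
      apply div_nonpos_of_nonpos_of_nonneg _ (by positivity)
      exact Odd.pow_nonpos (by decide) ht.2.le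
  have h := hanti ⟨le_rfl, hu0⟩ ⟨hu0, le_rfl⟩ hu0
  simp only at h
  norm_num at h
  linarith only [h]

/-- `φ² ≤ W` -/
theorem fpn_phi_sq {u : ℝ} (hu : 0 < 1 + u) (hu0 : u ≤ 0) :
    (u - log (1 + u)) ^ 2 ≤ u ^ 2 / (1 + u) := by
  set r := √(1 + u) with hr
  have hr0 : 0 < r := Real.sqrt_pos.2 hu
  have hr2 : r ^ 2 = 1 + u := Real.sq_sqrt hu.le
  have hr1 : r ≤ 1 := by nlinarith only [hu0, hr2]
  -- `-2 log r ≤ 1/r - r`
  have hd : ∀ t : ℝ, 0 < t → HasDerivAt (fun t : ℝ => t - 1 / t - 2 * log t)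
      ((1 - 1 / t) ^ 2) t := by
    intro t ht
    have e1 := ((hasDerivAt_id t).sub ((hasDerivAt_const t (1 : ℝ)).div (hasDerivAt_id t) ht.ne')).sub
      ((hasDerivAt_log ht.ne').const_mul 2)
    refine e1.congr_deriv ?_
    simp only [id]
    field_simp
    ring
  have hmono : MonotoneOn (fun t : ℝ => t - 1 / t - 2 * log t) (Set.Icc r 1) := by
    have hmem : ∀ t ∈ Set.Icc r 1, 0 < t := fun t ht => hr0.trans_le ht.1
    apply monotoneOn_of_deriv_nonneg (convex_Icc r 1)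
    · intro t ht
      exact (hd t (hmem t ht)).continuousAt.continuousWithinAt
    · intro t ht
      rw [interior_Icc] at ht
      exact (hd t (hmem t ⟨ht.1.le, ht.2.le⟩)).differentiableAt.differentiableWithinAt
    · intro t ht
      rw [interior_Icc] at ht
      rw [(hd t (hmem t ⟨ht.1.le, ht.2.le⟩)).deriv]
      (clear * -; positivity)
  have h := hmono ⟨le_rfl, hr1⟩ ⟨hr1, le_rfl⟩ hr1
  simp only at h
  norm_num at h
  have hlog : log (1 + u) = 2 * log r := by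
    rw [← hr2, log_pow]
    norm_num
  have h0 := fpn_phi_nonneg hu
  have h1 : u - log (1 + u) ≤ -u / r := by
    rw [hlog]
    have e : -u / r = r⁻¹ - r := by
      have : -u = 1 - r ^ 2 := by linarith only [hr2]
      rw [this]
      (clear * - hr0; field_simp)
    rw [e]
    linarith only [hu0, h]
  have h2 := pow_le_pow_left₀ h0 h1 2
  refine h2.trans (le_of_eq ?_)
  rw [div_pow, hr2]
  ring

/-! ## lower bound of `T` -/

/-- the `W`-part: `(B - κ(3-v)/6) W + c v l ≥ W/3` -/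
theorem fpn_Wpart {B k c W v l : ℝ} (hW : 0 ≤ W) (hv0 : 0 ≤ v) (hv1 : v ≤ 1)
    (hWv : W * (1 - v) = v ^ 2) (hk : 0 ≤ k) (hc : 0 ≤ c * l)
    (h : k / 2 + 1 / 3 ≤ B ∨ (k / 3 + 1 / 3 ≤ B ∧ k / 6 ≤ c * l)) :
    1 / 3 * W ≤ B * W - k * (W * ((3 - v) / 6)) + c * v * l := by
  rcases h with h | ⟨h1, h2⟩
  · have h3 := mul_le_mul_of_nonneg_right h hW
    have h4 : 0 ≤ k * (W * (v / 6)) := by positivity
    have h5 : 0 ≤ c * l * v := mul_nonneg hc hv0
    linarith only [h5, h4, h3]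
  · have h3 := mul_le_mul_of_nonneg_right h1 hW
    have h4 := mul_le_mul_of_nonneg_right h2 hv0
    -- `(k/3 - k (3-v)/6) W + k v/6 = k/6 (v - W (1-v)) = k/6 (v - v²)`
    have h5 : k / 3 * W - k * (W * ((3 - v) / 6)) + k / 6 * v = k / 6 * (v * (1 - v)) := by
      have : k / 3 * W - k * (W * ((3 - v) / 6)) + k / 6 * v = k / 6 * (v - W * (1 - v)) := by ring
      rw [this, hWv]
      ring
    have h6 : 0 ≤ k / 6 * (v * (1 - v)) :=
      mul_nonneg (by (clear * - hk; positivity)) (mul_nonneg hv0 (by linarith only [hv1]))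
    linarith only [h6, h5, h4, h3]

/-- `3(m-3)z²/s⁵ - 9z/s³ = 3z(w-3)/s⁵` -/
theorem fpn_lam {m z s : ℝ} (hs : 0 < s) (hsz : s ^ 2 = 1 - z) :
    3 * (m - 3) * (z ^ 2 / s ^ 5) - 9 * (z / s ^ 3) = 3 * z * (m * z - 3) / s ^ 5 := by
  have h1 : z / s ^ 3 = z * (1 - z) / s ^ 5 := by
    rw [← hsz]
    field_simp
  rw [h1]
  field_simp
  ring

/-- the `l²`-part with the kernel sums -/
theorem fpn_Lpart {m z s l G : ℝ} (hm : 0 ≤ m) (hz : 0 < z) (hs : 0 < s) (hsz : s ^ 2 = 1 - z)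
    (hl : 0 ≤ l) (hl2 : l ≤ 1 / 2)
    (hA : 11 / 10 * (m * z) ≤ 2 * (m * z + 3 * z) - l * (m * z * fpU z l + fpV z l) +
      3 * z * (m * z - 3) / s ^ 5 - 2 * z / s ^ 3 * (2 / 5 + 13 * z / 20 + 22 * z ^ 3 / 5) +
      3 / 25 * (m * z + 3 * z) * (m * z / s ^ 2 - 3))
    (hG : -(2 / s * ((2 / 5 + 13 * z / 20 + 22 * z ^ 3 / 5) * (z / s ^ 2)) * l ^ 2) ≤ G) :
    11 / 10 * (m * z) * l ^ 2 ≤ (m + 3) * z * (exp (-(2 * l)) - 1 + 2 * l) + dpS0 m z l +
      (3 * (m - 3) * (z ^ 2 / s ^ 5) - 9 * (z / s ^ 3)) * l ^ 2 + G +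
      3 / 25 * (m + 3) * z * ((m * (z / s ^ 2) - 3) * l ^ 2) := by
  have h1 := dpS0_ge' (m := m) (z := z) hm hz.le hl hl2
  have h2 := mul_le_mul_of_nonneg_right hA (sq_nonneg l)
  have h3 : l ^ 3 * z * kB' m z l = l ^ 2 * (l * (m * z * fpU z l + fpV z l)) := by
    rw [← fp_kB]
    ring
  rw [h3] at h1
  rw [fpn_lam hs hsz]
  have h4 : 2 * z / s ^ 3 * (2 / 5 + 13 * z / 20 + 22 * z ^ 3 / 5) * l ^ 2 =
      2 / s * ((2 / 5 + 13 * z / 20 + 22 * z ^ 3 / 5) * (z / s ^ 2)) * l ^ 2 := by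
    (clear * - hz hs; field_simp)
  have h5 : 3 / 25 * (m * z + 3 * z) * (m * z / s ^ 2 - 3) * l ^ 2 =
      3 / 25 * (m + 3) * z * ((m * (z / s ^ 2) - 3) * l ^ 2) := by
    field_simp
  linarith only [h5, h4, h2, h1, hG]

/-- lower bound of `T` -/
theorem fpn_T {m z s l u G N : ℝ} (hm : 27 ≤ m) (hz : 0 < z) (hs : 0 < s) (hsz : s ^ 2 = 1 - z)
    (hw1 : 1 ≤ m * z) (hw9 : m * z ≤ 9) (hl : 0 ≤ l) (hL : l ≤ 11 / 25 ∨ (48 ≤ m ∧ l ≤ 19 / 40))
    (hu : 0 < 1 + u) (hu0 : u ≤ 0) (hN : log (1 + u) - u ≤ N)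
    (hG : -(2 / s * ((2 / 5 + 13 * z / 20 + 22 * z ^ 3 / 5) * (z / s ^ 2)) * l ^ 2) ≤ G) :
    11 / 10 * (m * z) * l ^ 2 + 1 / 3 * (u ^ 2 / (1 + u)) ≤ dpT m z s l u G N := by
  have hs1 : s ≤ 1 := by (clear * - hz hsz hs; nlinarith)
  have hz' : z = 1 - s ^ 2 := by linarith only [hsz]
  have hl2 : l ≤ 1 / 2 := by rcases hL with h | ⟨-, h⟩ <;> linarith only [h]
  have hm0 : 0 ≤ m := by linarith only [hm]
  have hA := fpn_A (w := m * z) hs hs1 hz' hw1 hw9 hl (by
    rcases hL with h | ⟨h1, h2⟩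
    · left; exact ⟨mul_le_mul_of_nonneg_right hm hz.le, h⟩
    · right; exact ⟨mul_le_mul_of_nonneg_right h1 hz.le, h2⟩)
  have h1 := fpn_Lpart hm0 hz hs hsz hl hl2 hA hG
  set W := u ^ 2 / (1 + u) with hW
  have hW0 : 0 ≤ W := by (clear * - hu; positivity)
  have hWv : W * (1 - -u) = (-u) ^ 2 := by
    rw [hW]
    have : 1 - -u = 1 + u := by ring
    rw [this]
    (clear * - hu; field_simp)
  -- the `W` part
  obtain ⟨k1, g, hk1, hg, hBB, hκ, hgz⟩ : ∃ k1 g : ℝ, 0 ≤ k1 ∧ 0 ≤ g ∧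
      (k1 / 2 / s + 1 / 3 ≤ fpCKr s z l + 4 * s ^ 2 * fpAr l ∨
      (k1 / 3 / s + 1 / 3 ≤ fpCKr s z l + 4 * s ^ 2 * fpAr l ∧
        k1 / 6 / s ≤ 6 / 25 * g * z * l)) ∧ 2 * (m + 1) / (m - 1) ≤ k1 ∧ g ≤ m + 3 := by
    rcases hL with h | ⟨h1, h2⟩
    · refine ⟨28 / 13, 30, by norm_num, by norm_num, fpn_B hs hs1 hz' hl _ _ (Or.inl ⟨?_, h, rfl,
        rfl⟩), ?_, by linarith only [hm]⟩
      · nlinarith only [hw9, hm]
      · rw [div_le_iff₀ (by linarith only [hm])]; linarith only [hm]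
    · refine ⟨98 / 47, 51, by norm_num, by norm_num, fpn_B hs hs1 hz' hl _ _ (Or.inr ⟨?_, h2, rfl,
        rfl⟩), ?_, by linarith only [h1]⟩
      · nlinarith only [hw9, h1]
      · rw [div_le_iff₀ (by linarith only [h1])]; linarith only [h1]
  have hphi := fpn_phi_le hu hu0
  have hphi0 := fpn_phi_nonneg hu
  have hC := mul_le_mul_of_nonneg_right (ksC_ge' (s := s) hz.le hl hl2) hW0
  have hE := fpAr_le hl hl2
  set B := fpCKr s z l + 4 * s ^ 2 * fpAr l with hB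
  have hWp := fpn_Wpart (B := B) (k := k1 / s) (c := 6 / 25 * (m + 3) * z) (W := W) (v := -u)
    (l := l) hW0 (by linarith only [hu0]) (by linarith only [hu]) hWv (by (clear * - hk1 hs; positivity)) (by (clear * - hm hz hl; positivity)) (by
      rcases hBB with h | ⟨h, h'⟩
      · left
        have : k1 / s / 2 = k1 / 2 / s := by ring
        rw [this]; exact h
      · right
        have e1 : k1 / s / 3 = k1 / 3 / s := by ring
        have e2 : k1 / s / 6 = k1 / 6 / s := by ring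
        rw [e1, e2]
        refine ⟨h, h'.trans ?_⟩
        have : 6 / 25 * g * z ≤ 6 / 25 * (m + 3) * z := by
          apply mul_le_mul_of_nonneg_right _ hz.le
          linarith only [hgz]
        exact mul_le_mul_of_nonneg_right this hl)
  -- the `N` term
  have hNt : -(k1 / s * (W * ((3 - -u) / 6))) ≤ 2 * (m + 1) / ((m - 1) * s) * N := by
    have e1 : 2 * (m + 1) / ((m - 1) * s) = 2 * (m + 1) / (m - 1) / s := by
      rw [div_div]
    have h2 : 2 * (m + 1) / (m - 1) / s ≤ k1 / s := div_le_div_of_nonneg_right hκ hs.le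
    have h3 : 0 ≤ 2 * (m + 1) / (m - 1) / s := by
      apply div_nonneg (div_nonneg (by linarith only [hm]) (by linarith only [hm])) hs.le
    rw [e1]
    have h4 : -(u - log (1 + u)) ≤ N := by linarith only [hN]
    have h5 : W * ((3 - -u) / 6) = W * ((3 + u) / 6) := by ring
    have h6 : 2 * (m + 1) / (m - 1) / s * (u - log (1 + u)) ≤ k1 / s * (W * ((3 + u) / 6)) :=
      mul_le_mul h2 hphi hphi0 (by (clear * - hk1 hs; positivity))
    have h7 := mul_le_mul_of_nonneg_left h4 h3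
    rw [h5]
    linarith only [h6, h7]
  have hEW : 4 * s ^ 2 * fpAr l * W ≤ 4 * s ^ 2 * exp (-(2 * l)) * W := by
    apply mul_le_mul_of_nonneg_right _ hW0
    exact mul_le_mul_of_nonneg_left hE (by positivity)
  unfold dpT
  rw [dpS_eq, ← hW]
  simp only [hB, fpCKr] at hWp
  have hfin := add_le_add (add_le_add h1 hWp) (add_le_add (add_le_add hC hEW) hNt)
  linarith only [h1, hC, hNt, hEW, hWp]

/-! ## upper bound of `e₁ - T`, lower bound of `e₁` -/

/-- facts about `s`, `z`, `y = z/s²` -/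
theorem fpn_y {z s : ℝ} (hz : 0 < z) (hs : 0 < s) (hsz : s ^ 2 = 1 - z) :
    z / s ^ 2 = (1 / s - 1) * (1 / s + 1) ∧ 0 ≤ 1 / s - 1 := by
  have hs1 : s ≤ 1 := by nlinarith only [hz, hsz]
  refine ⟨?_, ?_⟩
  · have : z = 1 - s ^ 2 := by linarith only [hsz]
    rw [this]
    field_simp
    ring
  · rw [sub_nonneg, le_div_iff₀ hs]
    linarith only [hs1]

theorem fpn_inv_le {z s : ℝ} (hz : 0 < z) (hs : 0 < s) (hsz : s ^ 2 = 1 - z) :
    1 / s - 1 ≤ z / s ^ 2 / 2 := by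
  obtain ⟨h1, h2⟩ := fpn_y hz hs hsz
  rw [h1]
  linarith only [mul_nonneg (sub_nonneg.2 h2) (sub_nonneg.2 h2)]

theorem fpn_r_le {m z s c : ℝ} (hm : 0 < m) (hz : 0 < z) (hs : 0 < s) (hsz : s ^ 2 = 1 - z)
    (hc2 : c ≤ 1) (hc3 : c ^ 2 ≤ (m + 1) / (m + 2)) :
    2 * c / s - 2 + 2 * (1 - c) * (1 - m * (z / s ^ 2)) ≤ 2 * (z / s ^ 2) / (m + 2) := by
  obtain ⟨h1, h2⟩ := fpn_y hz hs hsz
  have h3 := fpn_inv_le hz hs hsz
  set y := z / s ^ 2 with hy
  have hy0 : 0 < y := by positivity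
  have hc4 : 1 / (2 * (m + 2)) ≤ 1 - c := by
    by_contra h
    push Not at h
    have h5 : 1 - 1 / (2 * (m + 2)) < c := by linarith only [h]
    have h6 : 0 ≤ 1 - 1 / (2 * (m + 2)) := by
      rw [sub_nonneg, div_le_one (by positivity)]
      linarith only [hm]
    have h7 : (1 - 1 / (2 * (m + 2))) ^ 2 < c ^ 2 := pow_lt_pow_left₀ h5 h6 (by norm_num)
    have h8 : (m + 1) / (m + 2) ≤ (1 - 1 / (2 * (m + 2))) ^ 2 := by
      have : (1 - 1 / (2 * (m + 2))) ^ 2 - (m + 1) / (m + 2) = 1 / (4 * (m + 2) ^ 2) := by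
        field_simp
        ring
      have h9 : 0 ≤ 1 / (4 * (m + 2) ^ 2) := by positivity
      linarith only [this, h9]
    linarith only [hc3, h7, h8]
  have e1 : 2 * c / s - 2 + 2 * (1 - c) * (1 - m * y) =
      2 * c * (1 / s - 1) - 2 * (1 - c) * (m * y) := by
    field_simp
    ring
  rw [e1]
  have h4 : 2 * c * (1 / s - 1) ≤ y := by linarith only [mul_nonneg (sub_nonneg.2 hc2) (sub_nonneg.2 h2), mul_nonneg (mul_self_nonneg (1 : ℝ)) (sub_nonneg.2 h3)]
  have h5 : m * y / (m + 2) ≤ 2 * (1 - c) * (m * y) := by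
    have h6 := mul_le_mul_of_nonneg_right hc4 (by positivity : 0 ≤ 2 * (m * y))
    have e2 : 1 / (2 * (m + 2)) * (2 * (m * y)) = m * y / (m + 2) := by
      (clear * - hy0 hm; field_simp)
    (clear * - h6 e2; linarith)
  have e3 : 2 * y / (m + 2) = y - m * y / (m + 2) := by
    field_simp
    ring
  linarith only [h4, h5, e3]

theorem fpn_r_ge {m z s c : ℝ} (hm : 27 ≤ m) (hz : 0 < z) (hs : 0 < s) (hsz : s ^ 2 = 1 - z)
    (hz3 : z ≤ 1 / 3) (hc1 : 1 - 1 / (2 * m) ≤ c) :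
    -(z / s ^ 2 / 7) ≤ 2 * c / s - 2 + 2 * (1 - c) * (1 - m * (z / s ^ 2)) := by
  obtain ⟨h1, h2⟩ := fpn_y hz hs hsz
  have hs8 : 4 / 5 ≤ s := by nlinarith only [hsz, hz3, hs]
  have hinv : 1 / s ≤ 5 / 4 := by rw [div_le_iff₀ hs]; linarith only [hs8]
  have hm0 : (0 : ℝ) < m := by linarith only [hm]
  set y := z / s ^ 2 with hy
  have hy0 : 0 < y := by positivity
  have e1 : 2 * c / s - 2 + 2 * (1 - c) * (1 - m * y) =
      2 * c * (1 / s - 1) - 2 * (1 - c) * (m * y) := by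
    field_simp
    ring
  rw [e1]
  have hc5 : 53 / 54 ≤ c := by
    have : 1 / (2 * m) ≤ 1 / 54 := by
      apply one_div_le_one_div_of_le <;> linarith only [hm]
    linarith only [hc1, this]
  have h3 : 2 * (1 - c) * (m * y) ≤ y := by
    have h4 : (1 - c) ≤ 1 / (2 * m) := by linarith only [hc1]
    have h5 := mul_le_mul_of_nonneg_right h4 (by positivity : 0 ≤ 2 * (m * y))
    have e2 : 1 / (2 * m) * (2 * (m * y)) = y := by (clear * - hm hy0; field_simp)
    linarith only [h5, e2]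
  have h4 : 4 / 9 * y ≤ 1 / s - 1 := by
    rw [h1]
    linarith only [mul_nonneg (sub_nonneg.2 h2) (sub_nonneg.2 hinv)]
  have h5 : 2 * (53 / 54) * (4 / 9 * y) ≤ 2 * c * (1 / s - 1) :=
    mul_le_mul (by linarith only [hc5]) h4 (by positivity) (by linarith only [hc5])
  linarith only [hy0, h3, h5]

theorem fpn_psi {l : ℝ} (hl : 0 ≤ l) : exp (-(2 * l)) - 1 + 2 * l ≤ 2 * l ^ 2 := by
  have := Corr.exp_le_quad (x := -(2 * l)) (by linarith)
  have e : (-(2 * l)) ^ 2 / 2 = 2 * l ^ 2 := by ring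
  linarith only [this]

theorem fpn_qu {s c u : ℝ} (hs : 0 < s) (hs1 : s ≤ 1) (hc0 : 0 ≤ c) (hu0 : u ≤ 0) :
    (2 * c / s - 2 * s ^ 2 + 2 * (1 - c)) * u ≤ 0 := by
  apply mul_nonpos_of_nonneg_of_nonpos _ hu0
  have h2 : 2 * c ≤ 2 * c / s := by
    rw [le_div_iff₀ hs]; linarith only [mul_nonneg (sub_nonneg.2 hs1) (sub_nonneg.2 hc0)]
  nlinarith only [hs1, h2, hs]

theorem fpn_Nt {m s c φ N : ℝ} (hm : 27 ≤ m) (hs : 0 < s) (hc1 : 1 - 1 / (2 * m) ≤ c)
    (hc2 : c ≤ 1) (hφ : 0 ≤ φ) (hN : -φ ≤ N) :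
    (2 * c / s - 2 * (m + 1) / ((m - 1) * s)) * N ≤ 191 / 1000 / s * φ := by
  have e1 : 2 * (m + 1) / ((m - 1) * s) - 2 * c / s = (4 / (m - 1) + 2 * (1 - c)) / s := by
    have : m - 1 ≠ 0 := by linarith only [hm]
    field_simp
    ring
  have h2 : 4 / (m - 1) ≤ 4 / 26 := by
    apply div_le_div_of_nonneg_left <;> linarith only [hm]
  have h3 : 2 * (1 - c) ≤ 1 / 27 := by
    have h4 : 1 / (2 * m) ≤ 1 / 54 := by apply one_div_le_one_div_of_le <;> linarith only [hm]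
    linarith only [hc1, h4]
  have h4 : (4 / (m - 1) + 2 * (1 - c)) / s ≤ 191 / 1000 / s := by
    apply div_le_div_of_nonneg_right _ hs.le
    linarith only [h2, h3]
  have h5 : 0 ≤ (4 / (m - 1) + 2 * (1 - c)) / s := by
    apply div_nonneg _ hs.le
    have : 0 ≤ 4 / (m - 1) := div_nonneg (by norm_num) (by linarith only [hm])
    linarith only [hc2, this]
  have h6 : (2 * c / s - 2 * (m + 1) / ((m - 1) * s)) * N =
      (4 / (m - 1) + 2 * (1 - c)) / s * (-N) := by rw [← e1]; ring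
  rw [h6]
  calc (4 / (m - 1) + 2 * (1 - c)) / s * (-N) ≤ (4 / (m - 1) + 2 * (1 - c)) / s * φ :=
        mul_le_mul_of_nonneg_left (by linarith only [hN]) h5
    _ ≤ _ := mul_le_mul_of_nonneg_right h4 hφ

theorem fpn_lin {m z s l : ℝ} (hm : 27 ≤ m) (hz : 0 < z) (hs : 0 < s) (hsz : s ^ 2 = 1 - z)
    (hw9 : m * z ≤ 9) (hl : 0 ≤ l) (hL : l ≤ 11 / 25 ∨ (48 ≤ m ∧ l ≤ 19 / 40)) :
    (9 / 10 * (m * z) + 6 * z) * l ^ 2 + 2 * (z / s ^ 2) / (m + 2) * l ≤ m * z / 2 * l := by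
  have key : (9 / 10 * (m * z) + 6 * z) * l + 2 * (z / s ^ 2) / (m + 2) ≤ m * z / 2 := by
    have hmz : 27 * z ≤ m * z := mul_le_mul_of_nonneg_right hm hz.le
    rcases hL with h | ⟨h1, h2⟩
    · have hz1 : z ≤ 1 / 3 := by linarith only [hw9, hmz]
      have hy : z / s ^ 2 ≤ 3 / 2 * z := by
        rw [div_le_iff₀ (by positivity), hsz]; nlinarith only [hm, hz, hw9]
      have hy2 : 2 * (z / s ^ 2) / (m + 2) ≤ 2 * (3 / 2 * z) / 29 :=
        div_le_div₀ (by positivity) (by linarith only [hy]) (by norm_num) (by linarith only [hm])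
      have h3 : (9 / 10 * (m * z) + 6 * z) * l ≤ (9 / 10 * (m * z) + 6 * z) * (11 / 25) :=
        mul_le_mul_of_nonneg_left h (by positivity)
      linarith only [h3, hy2, hmz, hz]
    · have hmz2 : 48 * z ≤ m * z := mul_le_mul_of_nonneg_right h1 hz.le
      have hz2 : z ≤ 3 / 16 := by linarith only [hw9, hmz2]
      have hy : z / s ^ 2 ≤ 16 / 13 * z := by
        rw [div_le_iff₀ (by positivity), hsz]; nlinarith only [hmz2, hz, hw9]
      have hy2 : 2 * (z / s ^ 2) / (m + 2) ≤ 2 * (16 / 13 * z) / 50 :=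
        div_le_div₀ (by positivity) (by linarith only [hy]) (by norm_num) (by linarith only [h1])
      have h3 : (9 / 10 * (m * z) + 6 * z) * l ≤ (9 / 10 * (m * z) + 6 * z) * (19 / 40) :=
        mul_le_mul_of_nonneg_left h2 (by positivity)
      linarith only [hz, hmz2, hy2, h3]
  have h5 := mul_le_mul_of_nonneg_right key hl
  linarith only [h5]

/-- upper bound of `e₁ - T` -/
theorem fpn_P {m z s l u c G N : ℝ} (hm : 27 ≤ m) (hz : 0 < z) (hs : 0 < s) (hsz : s ^ 2 = 1 - z)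
    (hw1 : 1 ≤ m * z) (hw9 : m * z ≤ 9) (hl : 0 ≤ l) (hL : l ≤ 11 / 25 ∨ (48 ≤ m ∧ l ≤ 19 / 40))
    (hu : 0 < 1 + u) (hu0 : u ≤ 0) (hc1 : 1 - 1 / (2 * m) ≤ c) (hc2 : c ≤ 1)
    (hc3 : c ^ 2 ≤ (m + 1) / (m + 2)) (hN : log (1 + u) - u ≤ N)
    (hG : -(2 / s * ((2 / 5 + 13 * z / 20 + 22 * z ^ 3 / 5) * (z / s ^ 2)) * l ^ 2) ≤ G) :
    dpE m z s l u c N - dpT m z s l u G N ≤
      m * z / 2 * l + 191 / 1000 / s * (u - log (1 + u)) := by
  have hs1 : s ≤ 1 := by nlinarith only [hz, hsz]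
  have hz' : z = 1 - s ^ 2 := by linarith only [hsz]
  have hl2 : l ≤ 1 / 2 := by rcases hL with h | ⟨-, h⟩ <;> linarith only [h]
  have hm0 : 0 < m := by linarith only [hm]
  have hA := fpn_A (w := m * z) hs hs1 hz' hw1 hw9 hl (by
    rcases hL with h | ⟨h1, h2⟩
    · left; exact ⟨mul_le_mul_of_nonneg_right hm hz.le, h⟩
    · right; exact ⟨mul_le_mul_of_nonneg_right h1 hz.le, h2⟩)
  have h1 := fpn_Lpart hm0.le hz hs hsz hl hl2 hA hG
  have hc0 : 0 ≤ c := by
    have : 1 / (2 * m) ≤ 1 := by rw [div_le_one (by positivity)]; linarith only [hm]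
    linarith only [hc1, this]
  have hr := mul_le_mul_of_nonneg_right (fpn_r_le hm0 hz hs hsz hc2 hc3) hl
  set W := u ^ 2 / (1 + u) with hW
  have hW0 : 0 ≤ W := by (clear * - hu; positivity)
  have hphi0 := fpn_phi_nonneg hu
  have hC := mul_le_mul_of_nonneg_right (ksC_ge' (s := s) hz.le hl hl2) hW0
  have hCK : 0 ≤ fpCKr s z l := by
    apply fpn_CK hs hs1 hz' hl
    rcases hL with h | ⟨h1, h2⟩
    · left; exact ⟨by nlinarith only [hw9, hm], h⟩
    · right; exact ⟨by nlinarith only [hw9, h1], h2⟩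
  have hCK' := mul_nonneg hCK hW0
  unfold fpCKr at hCK'
  have hψ' := mul_le_mul_of_nonneg_left (fpn_psi hl) (by positivity : 0 ≤ (m + 3) * z)
  have hq := fpn_qu hs hs1 hc0 hu0
  have hNt := fpn_Nt hm hs hc1 hc2 hphi0 (by linarith only [hN] : -(u - log (1 + u)) ≤ N)
  have hlin := fpn_lin hm hz hs hsz hw9 hl hL
  have hcross : 3 / 25 * (m + 3) * z * (2 * u * l) ≤ 0 := by
    have h3 : 0 ≤ 3 / 25 * (m + 3) * z * (2 * l) := by (clear * - hm hz hl; positivity)
    have h4 := mul_nonneg h3 (by linarith only [hu0] : 0 ≤ -u)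
    linarith only [h4]
  unfold dpT dpE
  rw [dpS_eq, ← hW]
  have hfin := add_le_add (add_le_add (add_le_add h1 hCK') (add_le_add hC hψ'))
    (add_le_add (add_le_add hr hq) (add_le_add (add_le_add hNt hlin) hcross))
  linarith only [h1, hr, hC, hCK', hψ', hq, hNt, hlin, hcross]

/-- `1/s - 4 s² e^{-2l} ≤ 3/20` -/
theorem fpn_d {m z s l : ℝ} (hm : 27 ≤ m) (hz : 0 < z) (hs : 0 < s) (hsz : s ^ 2 = 1 - z)
    (hw9 : m * z ≤ 9) (hL : l ≤ 11 / 25 ∨ (48 ≤ m ∧ l ≤ 19 / 40)) :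
    1 / s - 4 * s ^ 2 * exp (-(2 * l)) ≤ 3 / 20 := by
  have h1 := fpn_inv_le hz hs hsz
  have hmz : 27 * z ≤ m * z := mul_le_mul_of_nonneg_right hm hz.le
  rcases hL with h | ⟨h2, h⟩
  · have hz1 : z ≤ 1 / 3 := by linarith only [hw9, hmz]
    have hy : z / s ^ 2 ≤ 1 / 2 := by
      rw [div_le_iff₀ (by positivity), hsz]; linarith only [hw9, hmz]
    have hE : 414 / 1000 ≤ exp (-(2 * l)) := by
      have h3 := fpAr_le (l := 11 / 25) (by norm_num) (by norm_num)
      have h4 : exp (-(2 * (11 / 25))) ≤ exp (-(2 * l)) := exp_le_exp.2 (by linarith only [h])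
      refine le_trans ?_ (h3.trans h4)
      unfold fpAr
      norm_num
    have h5 : 4 * (2 / 3) * (414 / 1000) ≤ 4 * s ^ 2 * exp (-(2 * l)) :=
      mul_le_mul (by rw [hsz]; linarith only [hw9, hmz]) hE (by norm_num) (by positivity)
    linarith only [h5, hy, h1]
  · have hmz2 : 48 * z ≤ m * z := mul_le_mul_of_nonneg_right h2 hz.le
    have hz2 : z ≤ 3 / 16 := by linarith only [hw9, hmz2]
    have hy : z / s ^ 2 ≤ 3 / 13 := by
      rw [div_le_iff₀ (by positivity), hsz]; linarith only [hw9, hmz2]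
    have hE : 38 / 100 ≤ exp (-(2 * l)) := by
      have h3 := fpAr_le (l := 19 / 40) (by norm_num) (by norm_num)
      have h4 : exp (-(2 * (19 / 40))) ≤ exp (-(2 * l)) := exp_le_exp.2 (by linarith only [h])
      refine le_trans ?_ (h3.trans h4)
      unfold fpAr
      norm_num
    have h5 : 4 * (13 / 16) * (38 / 100) ≤ 4 * s ^ 2 * exp (-(2 * l)) :=
      mul_le_mul (by rw [hsz]; linarith only [hw9, hmz2]) hE (by norm_num) (by positivity)
    linarith only [h5, hy, h1]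

/-- lower bound of `e₁` -/
theorem fpn_E {m z s l u c N : ℝ} (hm : 27 ≤ m) (hz : 0 < z) (hs : 0 < s) (hsz : s ^ 2 = 1 - z)
    (hw9 : m * z ≤ 9) (hl : 0 ≤ l) (hL : l ≤ 11 / 25 ∨ (48 ≤ m ∧ l ≤ 19 / 40))
    (hu : 0 < 1 + u) (hu0 : u ≤ 0) (hc1 : 1 - 1 / (2 * m) ≤ c) (hc2 : c ≤ 1)
    (hN : log (1 + u) - u ≤ N) :
    -((m * (z / s ^ 2) / 9 + 3 / 20) * (-u) + m * (z / s ^ 2) / 189 * l) ≤ dpE m z s l u c N := by
  have hs1 : s ≤ 1 := by nlinarith only [hz, hsz]
  have hm0 : 0 < m := by linarith only [hm]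
  have hmz : 27 * z ≤ m * z := mul_le_mul_of_nonneg_right hm hz.le
  have hz3 : z ≤ 1 / 3 := by linarith only [hw9, hmz]
  have hc0 : 0 ≤ c := by
    have : 1 / (2 * m) ≤ 1 := by rw [div_le_one (by positivity)]; linarith only [hm]
    linarith only [hc1, this]
  set y := z / s ^ 2 with hy
  have hy0 : 0 < y := by positivity
  have hzy : z ≤ y := by
    rw [hy, le_div_iff₀ (by positivity)]
    nlinarith only [hz, hsz]
  have hyY : 27 * y ≤ m * y := mul_le_mul_of_nonneg_right hm hy0.le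
  set W := u ^ 2 / (1 + u) with hW
  have hW0 : 0 ≤ W := by (clear * - hu; positivity)
  have hWv : W * (1 + u) = u ^ 2 := by
    rw [hW]; (clear * - hu; field_simp)
  have hphi := fpn_phi_le hu hu0
  have hphi0 := fpn_phi_nonneg hu
  rw [← hW] at hphi
  have hd := mul_le_mul_of_nonneg_right (fpn_d hm hz hs hsz hw9 hL) hW0
  have hr := mul_le_mul_of_nonneg_right (fpn_r_ge (c := c) hm hz hs hsz hz3 hc1) hl
  rw [← hy] at hr
  have hψ : 0 ≤ (m + 3) * z * (exp (-(2 * l)) - 1 + 2 * l) := by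
    have := add_one_le_exp (-(2 * l))
    apply mul_nonneg (by positivity)
    linarith only [this]
  -- the `N` term: `(2c/s) N ≥ -(1/s) W (3+u)/3`
  have hNt : -(1 / s * W - 1 / 3 * (-u) * W) ≤ 2 * c / s * N := by
    have h1 : 0 ≤ 2 * c / s := by (clear * - hc0 hs; positivity)
    have h2 : 2 * c / s ≤ 2 * (1 / s) := by
      rw [div_le_iff₀ hs]
      have : 2 * (1 / s) * s = 2 := by (clear * - hs; field_simp)
      rw [this]; linarith only [hc2]
    have h3 := mul_le_mul_of_nonneg_left hN h1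
    have h4 : 2 * c / s * (u - log (1 + u)) ≤ 2 * (1 / s) * (W * ((3 + u) / 6)) :=
      mul_le_mul h2 hphi hphi0 (by positivity)
    have h5 : 1 ≤ 1 / s := by rw [le_div_iff₀ hs]; linarith only [hs1]
    have h6 : 0 ≤ (1 / s - 1) * (W * (-u)) :=
      mul_nonneg (by linarith only [h5]) (mul_nonneg hW0 (by linarith only [hu0]))
    linarith only [h6, h4, h3]
  -- `q u ≥ -(y + 2z) v`
  have hq : -((3 * y) * (-u)) ≤ (2 * c / s - 2 * s ^ 2 + 2 * (1 - c)) * u := by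
    have h1 := fpn_inv_le hz hs hsz
    rw [← hy] at h1
    have h2 : 2 * c / s - 2 * s ^ 2 + 2 * (1 - c) ≤ 3 * y := by
      have e : 2 * c / s - 2 * s ^ 2 + 2 * (1 - c) = 2 * c * (1 / s - 1) + 2 * z := by
        rw [hsz]; field_simp; ring
      rw [e]
      have h3 : 0 ≤ 1 / s - 1 := (fpn_y hz hs hsz).2
      have h4 : 2 * c * (1 / s - 1) ≤ 2 * 1 * (1 / s - 1) := by
        apply mul_le_mul_of_nonneg_right _ h3
        linarith only [hc2]
      linarith only [hzy, h1, h4]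
    have h5 := mul_le_mul_of_nonneg_right h2 (by linarith only [hu0] : 0 ≤ -u)
    linarith only [h5]
  have hY9 : 3 * y * (-u) ≤ m * y / 9 * (-u) := by
    apply mul_le_mul_of_nonneg_right _ (by linarith only [hu0])
    linarith only [hyY]
  have hY189 : y / 7 * l ≤ m * y / 189 * l := by
    apply mul_le_mul_of_nonneg_right _ hl
    linarith only [hyY]
  -- `3/20 W - (1/3) v W ≤ 3/20 v`
  have hWW : 3 / 20 * W - 1 / 3 * (-u) * W ≤ 3 / 20 * (-u) := by
    have h1 : 3 / 20 * W - 3 / 20 * (-u) * W = 3 / 20 * u ^ 2 := by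
      rw [← hWv]; ring
    have h2 : 0 ≤ (1 / 3 - 3 / 20) * ((-u) * W) := by
      have : 0 ≤ (-u) * W := mul_nonneg (by linarith only [hu0]) hW0
      (clear * - this; positivity)
    have h3 : u ^ 2 ≤ -u := by nlinarith only [hu, hu0]
    linarith only [h3, h2, hWv]
  unfold dpE
  rw [← hW, ← hy]
  have hfin := add_le_add (add_le_add (add_le_add hd hr) (add_le_add hψ hNt))
    (add_le_add (add_le_add hq hY9) (add_le_add hY189 hWW))
  linarith only [hWW, hY189, hY9, hq, hNt, hψ, hr, hd]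

theorem fpn_cauchy {a b p q α β M : ℝ} (hα : 0 < α) (hβ : 0 < β) (h : a ^ 2 / α + b ^ 2 / β ≤ M) :
    (a * p + b * q) ^ 2 ≤ M * (α * p ^ 2 + β * q ^ 2) := by
  have h1 : (a * p + b * q) ^ 2 ≤ (a ^ 2 / α + b ^ 2 / β) * (α * p ^ 2 + β * q ^ 2) := by
    have e : (a ^ 2 / α + b ^ 2 / β) * (α * p ^ 2 + β * q ^ 2) - (a * p + b * q) ^ 2 =
        (α * b * p - β * a * q) ^ 2 / (α * β) := by
      field_simp
      ring
    have : 0 ≤ (α * b * p - β * a * q) ^ 2 / (α * β) := by (clear * - hα hβ; positivity)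
    linarith only [this, e]
  exact h1.trans (mul_le_mul_of_nonneg_right h (by positivity))

/-- lower bound of `ρ` -/
theorem fpn_rho {m y : ℝ} (hm : 27 ≤ m) :
    (2 + 5 * (m * y) + 25 / 27 * (m * y) ^ 2) / 10 ≤ dpR m y := by
  unfold dpR
  have h1 : 0 ≤ m * y ^ 2 * (m - 27) := by
    apply mul_nonneg (mul_nonneg (by linarith) (sq_nonneg y)) (by linarith only [hm])
  linarith

theorem fpn_n0 {Y ρ : ℝ} (hY : 1 ≤ Y) (h : (2 + 5 * Y + 25 / 27 * Y ^ 2) / 10 ≤ ρ) : 0 < ρ := by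
  nlinarith

theorem fpn_s1 {s z : ℝ} (hs : 0 < s) (hz : 0 < z) (hsz : s ^ 2 = 1 - z) : s ≤ 1 := by
  nlinarith only [hz, hsz]

theorem fpn_n1 {Y ρ : ℝ} (h : (2 + 5 * Y + 25 / 27 * Y ^ 2) / 10 ≤ ρ) :
    Y / 2 * (19 / 40) + 191 / 1000 * (1 + Y / 54) * (Y / 2) ≤ 44 / 100 * ρ := by
  nlinarith [sq_nonneg (Y - 29 / 20)]

theorem fpn_n2 {Y w K ρ : ℝ} (hY : 1 ≤ Y) (h : (2 + 5 * Y + 25 / 27 * Y ^ 2) / 10 ≤ ρ)
    (hK : K ≤ (191 / 1000) ^ 2 * (1 + Y / 27)) (hw : w ≤ Y) :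
    5 / 22 * w + K / (1 / 3) ≤ 45 / 100 * ρ := by
  nlinarith only [hY, h, hK, hw]

theorem fpn_n3 {Y ρ : ℝ} (hY : 1 ≤ Y) (h : (2 + 5 * Y + 25 / 27 * Y ^ 2) / 10 ≤ ρ) :
    (Y / 9 + 3 / 20) * 1 + Y / 189 * (19 / 40) ≤ 44 / 100 * ρ := by
  linarith only [mul_nonneg (by linarith : 0 ≤ Y - 1) (by linarith : 0 ≤ Y - 1), h, hY]

theorem fpn_n4 {Y ρ : ℝ} (hY : 1 ≤ Y) (h : (2 + 5 * Y + 25 / 27 * Y ^ 2) / 10 ≤ ρ) :
    (Y / 9 + 3 / 20) ^ 2 / (1 / 3) + Y / 1000 ≤ 45 / 100 * ρ := by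
  linarith only [mul_nonneg (by linarith : 0 ≤ Y - 1) (by linarith : 0 ≤ Y - 1), h, hY]

theorem fpn_mid {w K φ W l ρ : ℝ} (hw0 : 0 < w) (hρ0 : 0 < ρ) (hφ2 : φ ^ 2 ≤ W)
    (h : 5 / 22 * w + K ^ 2 / (1 / 3) ≤ 45 / 100 * ρ) :
    (w / 2 * l + K * φ) ^ 2 ≤ 45 / 100 * (ρ * (11 / 10 * w * l ^ 2 + 1 / 3 * W)) := by
  have e1 : (w / 2) ^ 2 / (11 / 10 * w) = 5 / 22 * w := by
    field_simp
    ring
  rw [← e1] at h
  have h2 := fpn_cauchy (p := l) (q := φ) (by positivity : 0 < 11 / 10 * w)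
    (by norm_num : (0 : ℝ) < 1 / 3) h
  have h3 : 11 / 10 * w * l ^ 2 + 1 / 3 * φ ^ 2 ≤ 11 / 10 * w * l ^ 2 + 1 / 3 * W := by linarith only [hφ2]
  have h4 := mul_le_mul_of_nonneg_left h3 (by positivity : 0 ≤ 45 / 100 * ρ)
  linarith only [h2, h4]

theorem fpn_mid2 {w Y W u l ρ : ℝ} (hw0 : 0 < w) (hρ0 : 0 < ρ) (hY1 : 1 ≤ Y)
    (hYw : 2 / 3 * Y ≤ w) (hvW : (-u) ^ 2 ≤ W)
    (h : (Y / 9 + 3 / 20) ^ 2 / (1 / 3) + Y / 1000 ≤ 45 / 100 * ρ) :
    ((Y / 9 + 3 / 20) * (-u) + Y / 189 * l) ^ 2 ≤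
      45 / 100 * (ρ * (11 / 10 * w * l ^ 2 + 1 / 3 * W)) := by
  have e1 : (Y / 189) ^ 2 / (11 / 10 * w) ≤ Y / 1000 := by
    rw [div_le_iff₀ (by positivity)]
    nlinarith only [hYw, hY1]
  have h1 : (Y / 9 + 3 / 20) ^ 2 / (1 / 3) + (Y / 189) ^ 2 / (11 / 10 * w) ≤ 45 / 100 * ρ := by
    linarith
  have h2 := fpn_cauchy (p := -u) (q := l) (by norm_num : (0 : ℝ) < 1 / 3)
    (by positivity : 0 < 11 / 10 * w) h1
  have h3 : 1 / 3 * (-u) ^ 2 + 11 / 10 * w * l ^ 2 ≤ 11 / 10 * w * l ^ 2 + 1 / 3 * W := by linarith only [hvW]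
  have h4 := mul_le_mul_of_nonneg_left h3 (by positivity : 0 ≤ 45 / 100 * ρ)
  linarith only [h2, h4]

theorem fpn_final {T e ρ w Y K φ W u l : ℝ} (hT : 11 / 10 * w * l ^ 2 + 1 / 3 * W ≤ T)
    (hP : e - T ≤ w / 2 * l + K * φ) (hE : -((Y / 9 + 3 / 20) * (-u) + Y / 189 * l) ≤ e)
    (hY1 : 1 ≤ Y) (hw0 : 0 < w) (hwY : w ≤ Y) (hYw : 2 / 3 * Y ≤ w)
    (hρ : (2 + 5 * Y + 25 / 27 * Y ^ 2) / 10 ≤ ρ) (hl : 0 ≤ l) (hl3 : l ≤ 19 / 40)
    (hu : 0 < 1 + u) (hu0 : u ≤ 0) (hW0 : 0 ≤ W) (hWp : u ≠ 0 → 0 < W) (hvW : (-u) ^ 2 ≤ W)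
    (hφ0 : 0 ≤ φ) (hφ2 : φ ^ 2 ≤ W) (hφY : φ ≤ Y / 2) (hK0 : 0 ≤ K)
    (hK : K ≤ 191 / 1000 * (1 + Y / 54)) (hK2 : K ^ 2 ≤ (191 / 1000) ^ 2 * (1 + Y / 27)) :
    JTest T e ρ u := by
  have hρ0 : 0 < ρ := fpn_n0 hY1 hρ
  have hnu : 0 ≤ -u := by linarith only [hu0]
  have hE0 : 0 ≤ (Y / 9 + 3 / 20) * (-u) := mul_nonneg (by positivity) hnu
  refine JTest.of_theta (T0 := 11 / 10 * w * l ^ 2 + 1 / 3 * W)
    (P := w / 2 * l + K * φ)
    (E := (Y / 9 + 3 / 20) * (-u) + Y / 189 * l) (θ := 44 / 100) (θ1 := 45 / 100)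
    hT (by (clear * - hw0 hW0; positivity)) ?_ hρ0 (by norm_num) (by norm_num) hP (by (clear * - hw0 hl hK0 hφ0; positivity)) ?_ ?_ hE
    (by (clear * - hY1 hnu hl; positivity)) ?_ ?_
  · intro hu1
    have := hWp hu1
    (clear * - hw0 this; positivity)
  · have h1 : w / 2 * l ≤ Y / 2 * (19 / 40) :=
      mul_le_mul (by linarith only [hwY]) hl3 hl (by linarith only [hY1])
    have h2 : K * φ ≤ 191 / 1000 * (1 + Y / 54) * (Y / 2) :=
      mul_le_mul hK hφY hφ0 (by positivity)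
    linarith only [h1, h2, fpn_n1 hρ]
  · exact fpn_mid hw0 hρ0 hφ2 (fpn_n2 hY1 hρ hK2 hwY)
  · have h1 : (Y / 9 + 3 / 20) * (-u) ≤ (Y / 9 + 3 / 20) * 1 :=
      mul_le_mul_of_nonneg_left (by linarith only [hu]) (by positivity)
    have h2 : Y / 189 * l ≤ Y / 189 * (19 / 40) := mul_le_mul_of_nonneg_left hl3 (by positivity)
    linarith only [fpn_n3 hY1 hρ, h2, h1]
  · exact fpn_mid2 hw0 hρ0 hY1 hYw hvW (fpn_n4 hY1 hρ)

/-- **the region `u ≤ 0`, `1 ≤ m x² ≤ 9`, `0 ≤ l`** -/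
theorem fpn_region {m z s l u c G N : ℝ} (hm : 27 ≤ m) (hz : 0 < z) (hs : 0 < s)
    (hsz : s ^ 2 = 1 - z) (hw1 : 1 ≤ m * z) (hw9 : m * z ≤ 9) (hl : 0 ≤ l)
    (hL : l ≤ 11 / 25 ∨ (48 ≤ m ∧ l ≤ 19 / 40)) (hu : 0 < 1 + u) (hu0 : u ≤ 0)
    (hc1 : 1 - 1 / (2 * m) ≤ c) (hc2 : c ≤ 1) (hc3 : c ^ 2 ≤ (m + 1) / (m + 2))
    (hN : log (1 + u) - u ≤ N) (hv : m * log s ≤ log (1 + u))
    (hG : -(2 / s * ((2 / 5 + 13 * z / 20 + 22 * z ^ 3 / 5) * (z / s ^ 2)) * l ^ 2) ≤ G) :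
    JTest (dpT m z s l u G N) (dpE m z s l u c N) (dpR m (z / s ^ 2)) u := by
  have hm0 : 0 < m := by linarith only [hm]
  have hmz : 27 * z ≤ m * z := mul_le_mul_of_nonneg_right hm hz.le
  have hz3 : z ≤ 1 / 3 := by linarith only [hw9, hmz]
  have hl3 : l ≤ 19 / 40 := by rcases hL with h | ⟨-, h⟩ <;> linarith only [h]
  have hs1 : s ≤ 1 := fpn_s1 hs hz hsz
  have hinv := fpn_inv_le hz hs hsz
  have hyeq := (fpn_y hz hs hsz).1
  have hy0 : 0 < z / s ^ 2 := by positivity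
  have hyY : 27 * (z / s ^ 2) ≤ m * (z / s ^ 2) := mul_le_mul_of_nonneg_right hm hy0.le
  have hzy : z ≤ z / s ^ 2 := by
    rw [le_div_iff₀ (by positivity), hsz]
    nlinarith only [hz]
  have hwY : m * z ≤ m * (z / s ^ 2) := mul_le_mul_of_nonneg_left hzy hm0.le
  have hYw : 2 / 3 * (m * (z / s ^ 2)) ≤ m * z := by
    have h1 : z / s ^ 2 ≤ 3 / 2 * z := by
      rw [div_le_iff₀ (by positivity), hsz]; nlinarith only [hm, hz, hw9]
    have := mul_le_mul_of_nonneg_left h1 hm0.le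
    linarith only [this]
  have hWp : u ≠ 0 → 0 < u ^ 2 / (1 + u) := fun h => by (clear * - h hu; positivity)
  have hvW : (-u) ^ 2 ≤ u ^ 2 / (1 + u) := by
    rw [le_div_iff₀ hu, neg_sq]
    nlinarith only [hu0]
  have hφY : u - log (1 + u) ≤ m * (z / s ^ 2) / 2 := by
    have h1 : -log s ≤ 1 / s - 1 := by
      have := log_le_sub_one_of_pos (show 0 < 1 / s by positivity)
      rwa [log_div one_ne_zero hs.ne', log_one, zero_sub] at this
    have h3 := mul_le_mul_of_nonneg_left (h1.trans hinv) hm0.le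
    linarith only [hu0, hv, h3]
  have hK : 191 / 1000 / s ≤ 191 / 1000 * (1 + m * (z / s ^ 2) / 54) := by
    have : 191 / 1000 / s = 191 / 1000 * (1 / s) := by ring
    rw [this]
    linarith only [hinv, hyY]
  have hK2 : (191 / 1000 / s) ^ 2 ≤ (191 / 1000) ^ 2 * (1 + m * (z / s ^ 2) / 27) := by
    have e : (191 / 1000 / s) ^ 2 = (191 / 1000) ^ 2 * (1 + z / s ^ 2) := by
      rw [hyeq]
      field_simp
      ring
    rw [e]
    linarith only [hyY]
  exact fpn_final (fpn_T hm hz hs hsz hw1 hw9 hl hL hu hu0 hN hG)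
    (fpn_P hm hz hs hsz hw1 hw9 hl hL hu hu0 hc1 hc2 hc3 hN hG)
    (fpn_E hm hz hs hsz hw9 hl hL hu hu0 hc1 hc2 hN) (hw1.trans hwY) (by linarith only [hz, hmz]) hwY hYw
    (fpn_rho hm) hl hl3 hu hu0 (by (clear * - hu; positivity)) hWp hvW (fpn_phi_nonneg hu) (fpn_phi_sq hu hu0)
    hφY (by positivity) hK hK2

end Vale.Agent.P237.AllN
end

section

/-!
# P237, block D, far region, tight zone, part (I)

`1/5 ≤ z ≤ 49/100`, `9 ≤ m z`, `0 ≤ u ≤ 1/s`, `0 ≤ l ≤ 151/1000`.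
-/

namespace Vale.Agent.P237.AllN

open PolyPos

/-! ## kernel-checked inequalities, first variable `s`, second variable `l` -/

def fxqC1 : Ex := fpS5 * (fpk 7 50 - Ex.Y * fpEU) + fpk 3 1 * fpZ

def fxqA0 (w : Ex) : Ex := fxqC1 * w + fpC0

theorem fxqC1_R (s l : ℝ) : fxqC1.R s l =
    s ^ 5 * (7 / 50 - l * fpU (1 - s ^ 2) l) + 3 * (1 - s ^ 2) := by
  unfold fxqC1 fpS5
  simp only [Ex.R_add, Ex.R_sub, Ex.R_mul, Ex.R_X, Ex.R_Y, fpZ_R, fpEU_R]
  generalize fpU (1 - s ^ 2) l = U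
  simp (discharger := norm_num) only [fpk_R]
  push_cast
  ring

theorem fxqA0_R (W : Ex) (s l : ℝ) : (fxqA0 W).R s l =
    (s ^ 5 * (7 / 50 - l * fpU (1 - s ^ 2) l) + 3 * (1 - s ^ 2)) * W.R s l +
    (s ^ 5 * (123 / 25 * (1 - s ^ 2) - l * fpV (1 - s ^ 2) l) - 9 * (1 - s ^ 2) -
      2 * (1 - s ^ 2) * s ^ 2 * (2 / 5 + 13 * (1 - s ^ 2) / 20 + 22 * (1 - s ^ 2) ^ 3 / 5)) := by
  unfold fxqA0 fpC0 fpS5
  simp only [Ex.R_add, Ex.R_sub, Ex.R_mul, Ex.R_X, Ex.R_Y, fpZ_R, fpEV_R, fxqC1_R]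
  generalize fpU (1 - s ^ 2) l = U
  generalize fpV (1 - s ^ 2) l = V
  generalize W.R s l = w
  simp (discharger := norm_num) only [fpk_R]
  push_cast
  ring

theorem fxqk_1 : Ex.nn (2 ^ 1024) 40 4000 8164 8950 10000 0 151 1000 (fxqA0 (fpk 9 1)) = true := by
  (clear * -; decide +kernel)
theorem fxqk_2 : Ex.nn (2 ^ 1024) 40 4000 7141 8165 10000 0 151 1000
    (fxqA0 (fpk 27 1 * fpZ)) = true := by
  (clear * -; decide +kernel)
theorem fxqk_3 : Ex.nn (2 ^ 1024) 40 4000 7141 8950 10000 0 151 1000 fxqC1 = true := by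
  (clear * -; decide +kernel)

/-- the `l²` coefficient of `T` -/
theorem fxqs_A {s z w l : ℝ} (hs : 0 < s) (hz : z = 1 - s ^ 2) (hz0 : 1 / 5 ≤ z)
    (hz1 : z ≤ 49 / 100) (hw9 : 9 ≤ w) (hw27 : 27 * z ≤ w) (hl : 0 ≤ l) (hl1 : l ≤ 151 / 1000) :
    3 / 2 * w + 3 / 25 * (w + 3 * z) * (w / s ^ 2) ≤
      2 * (w + 3 * z) - l * (w * fpU z l + fpV z l) + 3 * z * (w - 3) / s ^ 5 -
      2 * z / s ^ 3 * (2 / 5 + 13 * z / 20 + 22 * z ^ 3 / 5) +
      3 / 25 * (w + 3 * z) * (w / s ^ 2 - 3) := by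
  have hs1 : 10000 * s ≤ 8950 := by (clear * - hz hz0 hs; nlinarith)
  have hs0 : 7141 ≤ 10000 * s := by nlinarith only [hz, hz1, hs]
  have key : ∀ W : Ex, 0 ≤ (fxqA0 W).R s l → W.R s l ≤ w →
      0 ≤ (s ^ 5 * (7 / 50 - l * fpU z l) + 3 * z) * w +
      (s ^ 5 * (123 / 25 * z - l * fpV z l) - 9 * z -
      2 * z * s ^ 2 * (2 / 5 + 13 * z / 20 + 22 * z ^ 3 / 5)) := by
    intro W h hW
    have h3 := Ex.nn_closed (x := s) (y := l) (by norm_num) (by norm_num) (by norm_num)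
      (by norm_num) fxqk_3 (by push_cast; linarith only [hs0]) (by push_cast; linarith only [hs1])
      (by push_cast; linarith only [hl]) (by push_cast; linarith only [hl1])
    rw [fxqC1_R, ← hz] at h3
    rw [fxqA0_R, ← hz] at h
    have := mul_le_mul_of_nonneg_left hW h3
    linarith only [h, this]
  have main : 0 ≤ (s ^ 5 * (7 / 50 - l * fpU z l) + 3 * z) * w +
      (s ^ 5 * (123 / 25 * z - l * fpV z l) - 9 * z -
      2 * z * s ^ 2 * (2 / 5 + 13 * z / 20 + 22 * z ^ 3 / 5)) := by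
    rcases le_total (10000 * s) 8165 with h | h
    · refine key (fpk 27 1 * fpZ) (Ex.nn_closed (by norm_num) (by norm_num) (by norm_num)
        (by norm_num) fxqk_2 (by push_cast; linarith only [hs0]) (by push_cast; linarith only [h])
        (by push_cast; linarith only [hl]) (by push_cast; linarith only [hl1])) ?_
      rw [Ex.R_mul, fpZ_R, fpk_R _ _ _ _ le_rfl, ← hz]
      push_cast
      linarith only [hw27]
    · refine key (fpk 9 1) (Ex.nn_closed (by norm_num) (by norm_num) (by norm_num)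
        (by norm_num) fxqk_1 (by push_cast; linarith only [h]) (by push_cast; linarith only [hs1])
        (by push_cast; linarith only [hl]) (by push_cast; linarith only [hl1])) ?_
      rw [fpk_R _ _ _ _ le_rfl]
      push_cast
      linarith only [hw9]
  generalize fpU z l = U at *
  generalize fpV z l = V at *
  have e : 2 * (w + 3 * z) - l * (w * U + V) + 3 * z * (w - 3) / s ^ 5 -
      2 * z / s ^ 3 * (2 / 5 + 13 * z / 20 + 22 * z ^ 3 / 5) +
      3 / 25 * (w + 3 * z) * (w / s ^ 2 - 3) -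
      (3 / 2 * w + 3 / 25 * (w + 3 * z) * (w / s ^ 2)) =
      ((s ^ 5 * (7 / 50 - l * U) + 3 * z) * w +
      (s ^ 5 * (123 / 25 * z - l * V) - 9 * z -
      2 * z * s ^ 2 * (2 / 5 + 13 * z / 20 + 22 * z ^ 3 / 5))) / s ^ 5 := by
    field_simp
    ring
  have h4 : 0 ≤ 2 * (w + 3 * z) - l * (w * U + V) + 3 * z * (w - 3) / s ^ 5 -
      2 * z / s ^ 3 * (2 / 5 + 13 * z / 20 + 22 * z ^ 3 / 5) +
      3 / 25 * (w + 3 * z) * (w / s ^ 2 - 3) -
      (3 / 2 * w + 3 / 25 * (w + 3 * z) * (w / s ^ 2)) := by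
    rw [e]
    exact div_nonneg main (by positivity)
  (clear * - h4; linarith)

def fxqH : Ex := fpk 6 1 * (Ex.X * Ex.X) + fpk 6 1 * Ex.X + fpk 1 1

def fxqD : Ex := (fpBB - fpk 1 3 * (Ex.X * Ex.X * Ex.X) * fpO -
  fpk 2 15 * (Ex.X * Ex.X * (Ex.X * Ex.X)) * (fpO * fpO)) * fxqH -
  fpk 28 13 * (Ex.X * Ex.X) * (fpO * fpO) * (fpk 3 1 * Ex.X + fpk 1 1)

theorem fxqD_R {s : ℝ} (hs : 0 < s) (l : ℝ) :
    fxqD.R s l = s ^ 3 * (1 + s) * (6 * s ^ 2 + 6 * s + 1) *
      (fpCKr s (1 - s ^ 2) l + 4 * s ^ 2 * fpAr l - 1 / 3 - 2 / 15 * (s * (1 + s)) -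
      28 / 13 / s * ((1 + s) * (3 * s + 1) / (6 * s ^ 2 + 6 * s + 1))) := by
  unfold fxqD fxqH fpBB fpS5 fpO
  simp only [Ex.R_sub, Ex.R_mul, Ex.R_add, fpCK_R hs, Ex.R_X, fpA_R]
  generalize fpCKr s (1 - s ^ 2) l = C
  generalize fpAr l = A
  simp (discharger := norm_num) only [fpk_R]
  have : 6 * s ^ 2 + 6 * s + 1 ≠ 0 := by (clear * - hs; positivity)
  push_cast
  field_simp

theorem fxqk_4 : Ex.nn (2 ^ 1024) 40 4000 7141 8950 10000 0 151 1000 fxqD = true := by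
  (clear * -; decide +kernel)

theorem fxqk_5 : Ex.nn (2 ^ 1024) 40 4000 7141 8950 10000 0 151 1000 fpCK = true := by
  (clear * -; decide +kernel)

/-- the coefficient of `W` -/
theorem fxqs_B {s z l : ℝ} (hs : 0 < s) (hz : z = 1 - s ^ 2) (hz0 : 1 / 5 ≤ z)
    (hz1 : z ≤ 49 / 100) (hl : 0 ≤ l) (hl1 : l ≤ 151 / 1000) :
    1 / 3 + 2 / 15 * (s * (1 + s)) +
      28 / 13 / s * ((1 + s) * (3 * s + 1) / (6 * s ^ 2 + 6 * s + 1)) ≤
      fpCKr s z l + 4 * s ^ 2 * fpAr l ∧ 0 ≤ fpCKr s z l := by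
  have hs1 : 10000 * s ≤ 8950 := by nlinarith only [hz, hz0]
  have hs0 : 7141 ≤ 10000 * s := by nlinarith only [hz, hz1, hs]
  have h := Ex.nn_closed (x := s) (y := l) (by norm_num) (by norm_num) (by (clear * -; norm_num))
      (by norm_num) fxqk_4 (by push_cast; linarith only [hs0]) (by push_cast; linarith only [hs1])
      (by push_cast; linarith only [hl]) (by push_cast; linarith only [hl1])
  have h' := Ex.nn_closed (x := s) (y := l) (by norm_num) (by norm_num) (by norm_num)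
      (by norm_num) fxqk_5 (by push_cast; linarith only [hs0]) (by push_cast; linarith only [hs1])
      (by push_cast; linarith only [hl]) (by push_cast; linarith only [hl1])
  rw [fxqD_R hs, ← hz] at h
  rw [fpCK_R hs, ← hz] at h'
  have h2 := nonneg_of_mul_nonneg_right h (by positivity)
  have h3 := nonneg_of_mul_nonneg_right h' (by positivity)
  exact ⟨by linarith only [h2], h3⟩

/-! ## the bound for `e₁ - T` against `ρ`, one variable -/

def fxqAs : Ex := fpk 2073 1000 - fpk 2 1 * (Ex.X * Ex.X * Ex.X) + fpk 2 15 * (Ex.X * Ex.X)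

def fxqR1 : Ex := fpk 2 1 * (Ex.X * Ex.X * (Ex.X * Ex.X)) + fpk 45 1 * (Ex.X * Ex.X) + fpk 75 1

def fxqR2 : Ex := fpk 2 1 * (Ex.X * Ex.X * (Ex.X * Ex.X)) + fpk 135 1 * fpZ * (Ex.X * Ex.X) +
  fpk 675 1 * (fpZ * fpZ)

def fxqP (R : Ex) : Ex := fpk 7 10 * R - fpk 33 1 * (fxqAs * fxqAs) * (Ex.X * fpO)

def fxqP' (R : Ex) : Ex := R - fpk 100 1 * fxqAs * (Ex.X * Ex.X)

theorem fxqk_6 : Ex.nn (2 ^ 512) 40 4000 8164 8950 10000 0 1 1 (fxqP fxqR1) = true := by
  (clear * -; decide +kernel)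
theorem fxqk_7 : Ex.nn (2 ^ 512) 40 4000 7141 8165 10000 0 1 1 (fxqP fxqR2) = true := by
  (clear * -; decide +kernel)
theorem fxqk_8 : Ex.nn (2 ^ 512) 40 4000 8164 8950 10000 0 1 1 (fxqP' fxqR1) = true := by
  (clear * -; decide +kernel)
theorem fxqk_9 : Ex.nn (2 ^ 512) 40 4000 7141 8165 10000 0 1 1 (fxqP' fxqR2) = true := by
  (clear * -; decide +kernel)

theorem fxqAs_R (s l : ℝ) : fxqAs.R s l = 2073 / 1000 - 2 * s ^ 3 + 2 / 15 * s ^ 2 := by
  unfold fxqAs
  simp only [Ex.R_add, Ex.R_sub, Ex.R_mul, Ex.R_X]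
  simp (discharger := norm_num) only [fpk_R]
  push_cast
  ring

theorem fxqP_R (R : Ex) (s l : ℝ) : (fxqP R).R s l =
    7 / 10 * R.R s l - 33 * (2073 / 1000 - 2 * s ^ 3 + 2 / 15 * s ^ 2) ^ 2 * (s * (1 + s)) := by
  unfold fxqP fpO
  simp only [Ex.R_add, Ex.R_sub, Ex.R_mul, Ex.R_X, fxqAs_R]
  simp (discharger := norm_num) only [fpk_R]
  push_cast
  ring

theorem fxqP'_R (R : Ex) (s l : ℝ) : (fxqP' R).R s l =
    R.R s l - 100 * (2073 / 1000 - 2 * s ^ 3 + 2 / 15 * s ^ 2) * s ^ 2 := by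
  unfold fxqP'
  simp only [Ex.R_sub, Ex.R_mul, Ex.R_X, fxqAs_R]
  simp (discharger := norm_num) only [fpk_R]
  push_cast
  ring

theorem fxqR1_R (s l : ℝ) : fxqR1.R s l = 2 * s ^ 4 + 45 * s ^ 2 + 75 := by
  unfold fxqR1
  simp only [Ex.R_add, Ex.R_mul, Ex.R_X]
  simp (discharger := norm_num) only [fpk_R]
  push_cast
  ring

theorem fxqR2_R (s l : ℝ) : fxqR2.R s l =
    2 * s ^ 4 + 135 * (1 - s ^ 2) * s ^ 2 + 675 * (1 - s ^ 2) ^ 2 := by
  unfold fxqR2
  simp only [Ex.R_add, Ex.R_mul, Ex.R_X, fpZ_R]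
  simp (discharger := norm_num) only [fpk_R]
  push_cast
  ring

/-- the coefficient `a(s)` of `u` in the bound for `e₁ - T` -/
noncomputable def fxqa (s : ℝ) : ℝ := 2073 / 1000 / s - 2 * s ^ 2 + 2 / 15 * s

theorem fxqs_rho {s z w ρ : ℝ} (hs : 0 < s) (hz : z = 1 - s ^ 2) (hz0 : 1 / 5 ≤ z)
    (hz1 : z ≤ 49 / 100) (hw9 : 9 ≤ w) (hw27 : 27 * z ≤ w)
    (hρ : (2 + 5 * (w / s ^ 2) + 25 / 27 * (w / s ^ 2) ^ 2) / 10 ≤ ρ) :
    33 / 10 * fxqa s ^ 2 * (1 + 1 / s) ≤ 7 / 10 * ρ ∧ fxqa s * (1 / s) ≤ 1 / 10 * ρ ∧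
      1 / 2 * w ≤ ρ ∧ 0 ≤ fxqa s := by
  have hs1 : 10000 * s ≤ 8950 := by nlinarith only [hz, hz0]
  have hs0 : 7141 ≤ 10000 * s := by nlinarith only [hz, hz1, hs]
  have hs4 : 0 < s ^ 4 := by positivity
  have hs2 : 0 < s ^ 2 := by positivity
  have key : ∀ R : ℝ, R ≤ 2 * s ^ 4 + 5 * w * s ^ 2 + 25 / 27 * w ^ 2 →
      0 ≤ 7 / 10 * R - 33 * (2073 / 1000 - 2 * s ^ 3 + 2 / 15 * s ^ 2) ^ 2 * (s * (1 + s)) →
      0 ≤ R - 100 * (2073 / 1000 - 2 * s ^ 3 + 2 / 15 * s ^ 2) * s ^ 2 →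
      33 / 10 * fxqa s ^ 2 * (1 + 1 / s) ≤ 7 / 10 * ρ ∧ fxqa s * (1 / s) ≤ 1 / 10 * ρ := by
    intro R hR h1 h2
    have e0 : (2 + 5 * (w / s ^ 2) + 25 / 27 * (w / s ^ 2) ^ 2) / 10 * s ^ 4 =
        (2 * s ^ 4 + 5 * w * s ^ 2 + 25 / 27 * w ^ 2) / 10 := by
      field_simp
    have h3 : R / 10 ≤ ρ * s ^ 4 := by
      have := mul_le_mul_of_nonneg_right hρ hs4.le
      rw [e0] at this
      linarith only [hR, this]
    have e1 : 33 / 10 * fxqa s ^ 2 * (1 + 1 / s) * s ^ 4 =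
        33 / 10 * (2073 / 1000 - 2 * s ^ 3 + 2 / 15 * s ^ 2) ^ 2 * (s * (1 + s)) := by
      unfold fxqa
      field_simp
      ring
    have e2 : fxqa s * (1 / s) * s ^ 4 =
        (2073 / 1000 - 2 * s ^ 3 + 2 / 15 * s ^ 2) * s ^ 2 := by
      unfold fxqa
      (clear * - hs; field_simp)
    constructor
    · refine le_of_mul_le_mul_right ?_ hs4
      rw [e1]
      linarith only [h1, h3]
    · refine le_of_mul_le_mul_right ?_ hs4
      rw [e2]
      linarith only [h2, h3]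
  have hz' : 1 - s ^ 2 = z := hz.symm
  have hkey2 : 33 / 10 * fxqa s ^ 2 * (1 + 1 / s) ≤ 7 / 10 * ρ ∧
      fxqa s * (1 / s) ≤ 1 / 10 * ρ := by
    rcases le_total (10000 * s) 8165 with h | h
    · have h7 := Ex.nn_closed (x := s) (y := 0) (by norm_num) (by norm_num) (by (clear * -; norm_num))
        (by norm_num) fxqk_7 (by push_cast; linarith only [hs0]) (by push_cast; linarith only [h])
        (by push_cast; linarith only []) (by push_cast; linarith only [])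
      have h9 := Ex.nn_closed (x := s) (y := 0) (by norm_num) (by norm_num) (by norm_num)
        (by norm_num) fxqk_9 (by push_cast; linarith only [hs0]) (by push_cast; linarith only [h])
        (by push_cast; linarith only []) (by push_cast; linarith only [])
      rw [fxqP_R, fxqR2_R] at h7
      rw [fxqP'_R, fxqR2_R] at h9
      refine key _ ?_ h7 h9
      rw [hz']
      have a1 : 27 * z * s ^ 2 ≤ w * s ^ 2 := mul_le_mul_of_nonneg_right hw27 hs2.le
      have a2 : (27 * z) ^ 2 ≤ w ^ 2 := pow_le_pow_left₀ (by linarith only [hz0]) hw27 2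
      linarith only [a2, a1]
    · have h6 := Ex.nn_closed (x := s) (y := 0) (by norm_num) (by norm_num) (by (clear * -; norm_num))
        (by norm_num) fxqk_6 (by push_cast; linarith only [h]) (by push_cast; linarith only [hs1])
        (by push_cast; linarith only []) (by push_cast; linarith only [])
      have h8 := Ex.nn_closed (x := s) (y := 0) (by norm_num) (by norm_num) (by norm_num)
        (by norm_num) fxqk_8 (by push_cast; linarith only [h]) (by push_cast; linarith only [hs1])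
        (by push_cast; linarith only []) (by push_cast; linarith only [])
      rw [fxqP_R, fxqR1_R] at h6
      rw [fxqP'_R, fxqR1_R] at h8
      refine key _ ?_ h6 h8
      have a1 : 9 * s ^ 2 ≤ w * s ^ 2 := mul_le_mul_of_nonneg_right hw9 hs2.le
      have a2 : (9 : ℝ) ^ 2 ≤ w ^ 2 := pow_le_pow_left₀ (by linarith only []) hw9 2
      linarith only [a2, a1]
  refine ⟨hkey2.1, hkey2.2, ?_, ?_⟩
  · have h1 : w ≤ w / s ^ 2 := by
      rw [le_div_iff₀ hs2]
      nlinarith only [hz, hz0, hw9]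
    have h2 : 0 ≤ (w / s ^ 2) ^ 2 := sq_nonneg _
    linarith only [hρ, h1, h2]
  · unfold fxqa
    have h1 : 2073 / 1000 ≤ 2073 / 1000 / s := by
      rw [le_div_iff₀ hs]; linarith only [hs1]
    linarith only [h1, hz', hs0, hz0]

/-! ## the correction term -/

/-- `2s²(1+s) - z l (2 + 111/50 l)(1+2s)` -/
def fxqDb : Ex := fpk 2 1 * (Ex.X * Ex.X) * fpO -
  fpZ * Ex.Y * (fpk 2 1 + fpk 111 50 * Ex.Y) * (fpk 1 1 + fpk 2 1 * Ex.X)

def fxqG : Ex := (fpk 2 5 + fpZ * (fpk 13 20 + fpZ * fpZ * fpk 22 5)) * (fpO * fpO) * fxqDb -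
  fpk 111 50 * (Ex.X * Ex.X * (Ex.X * Ex.X)) * fpO -
  (Ex.X * Ex.X) * fpZ * (fpk 2 1 + fpk 111 50 * Ex.Y) * (fpk 1 1 + fpk 2 1 * Ex.X)

theorem fxqk_10 : Ex.nn (2 ^ 1024) 40 4000 7141 8950 10000 0 151 1000 fxqG = true := by
  (clear * -; decide +kernel)

theorem fxqDb_R (s l : ℝ) : fxqDb.R s l = 2 * s ^ 2 * (1 + s) -
    (1 - s ^ 2) * l * (2 + 111 / 50 * l) * (1 + 2 * s) := by
  unfold fxqDb fpO
  simp only [Ex.R_add, Ex.R_sub, Ex.R_mul, Ex.R_X, Ex.R_Y, fpZ_R]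
  simp (discharger := norm_num) only [fpk_R]
  push_cast
  ring

theorem fxqG_R (s l : ℝ) : fxqG.R s l =
    (2 / 5 + 13 * (1 - s ^ 2) / 20 + 22 * (1 - s ^ 2) ^ 3 / 5) * (1 + s) ^ 2 *
      (2 * s ^ 2 * (1 + s) - (1 - s ^ 2) * l * (2 + 111 / 50 * l) * (1 + 2 * s)) -
    111 / 50 * s ^ 4 * (1 + s) - s ^ 2 * (1 - s ^ 2) * (2 + 111 / 50 * l) * (1 + 2 * s) := by
  unfold fxqG fpO
  simp only [Ex.R_add, Ex.R_sub, Ex.R_mul, Ex.R_X, Ex.R_Y, fpZ_R, fxqDb_R]
  simp (discharger := norm_num) only [fpk_R]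
  push_cast
  ring

/-- `e^{2l} - 1 ≤ 2l + 111/50 l²` for `0 ≤ l ≤ 151/1000` -/
theorem fxqs_exp {l : ℝ} (hl : 0 ≤ l) (hl1 : l ≤ 151 / 1000) :
    Real.exp (2 * l) - 1 ≤ l * (2 + 111 / 50 * l) := by
  have h := Corr.exp_le_p (x := 2 * l) (by linarith only [hl]) (by linarith)
  have a : 0 ≤ l ^ 2 := by positivity
  have b3 : l ^ 3 ≤ 151 / 1000 * l ^ 2 := by nlinarith only [hl1]
  have b4 : l ^ 4 ≤ (151 / 1000) ^ 2 * l ^ 2 := by nlinarith only [b3, hl]
  have b5 : l ^ 5 ≤ (151 / 1000) ^ 3 * l ^ 2 := by nlinarith only [b4, b3]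
  have b6 : l ^ 6 ≤ (151 / 1000) ^ 4 * l ^ 2 := by nlinarith only [b4]
  linarith only [b6, b5, b4, b3, a, h]

/-- from the form of `FxA` to the form of `FCor` -/
theorem fxqs_G {s z l h : ℝ} (hs : 0 < s) (hz : z = 1 - s ^ 2) (hz0 : 1 / 5 ≤ z)
    (hz1 : z ≤ 49 / 100) (hl : 0 ≤ l) (hl1 : l ≤ 151 / 1000) (hh : h = z * (Real.exp (2 * l) - 1)) :
    -(2 / s * ((2 / 5 + 13 * z / 20 + 22 * z ^ 3 / 5) * (z / s ^ 2)) * l ^ 2) ≤
      2 * (-(s * h / ((1 + s) * (2 * s ^ 2 * (1 + s) - h * (1 + 2 * s))))) +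
        2 * z / (s * (1 + s) ^ 2) * l := by
  have hs1 : 10000 * s ≤ 8950 := by nlinarith only [hz, hz0]
  have hs0 : 7141 ≤ 10000 * s := by nlinarith only [hz, hz1, hs]
  have key := Ex.nn_closed (x := s) (y := l) (by norm_num) (by norm_num) (by norm_num)
      (by norm_num) fxqk_10 (by push_cast; linarith only [hs0]) (by push_cast; linarith only [hs1])
      (by push_cast; linarith only [hl]) (by push_cast; linarith only [hl1])
  rw [fxqG_R, ← hz] at key
  have hz00 : 0 < z := by linarith only [hz0]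
  have hE : 0 ≤ Real.exp (2 * l) - 1 := by
    have := Real.add_one_le_exp (2 * l); linarith only [hl, this]
  have hh0 : 0 ≤ h := by rw [hh]; (clear * - hz0 hE; positivity)
  set k : ℝ := l * (2 + 111 / 50 * l) with hk
  have hhk : h ≤ z * k := by
    rw [hh]
    exact mul_le_mul_of_nonneg_left (fxqs_exp hl hl1) hz00.le
  have hk1 : k ≤ 36 / 100 := by rw [hk]; nlinarith only [hl1, hl]
  have hk0 : 0 ≤ k := by (clear * - hl; positivity)
  set D : ℝ := 2 * s ^ 2 * (1 + s) - z * k * (1 + 2 * s) with hD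
  have hD0 : 0 < D := by
    have h1 : z * k ≤ 49 / 100 * (36 / 100) := mul_le_mul hz1 hk1 hk0 (by norm_num)
    have h2 : z * k * (1 + 2 * s) ≤ 49 / 100 * (36 / 100) * (1 + 2 * s) :=
      mul_le_mul_of_nonneg_right h1 (by positivity)
    have h3 : 1 / 2 ≤ s ^ 2 := by linarith only [hz1, hz]
    have h4 : 2 * (1 / 2) * (1 + s) ≤ 2 * s ^ 2 * (1 + s) :=
      mul_le_mul_of_nonneg_right (by linarith only [hz, hz1]) (by positivity)
    rw [hD]
    linarith only [hs, h2, h4]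
  have hD1 : D ≤ 2 * s ^ 2 * (1 + s) - h * (1 + 2 * s) := by
    have := mul_le_mul_of_nonneg_right hhk (by positivity : 0 ≤ 1 + 2 * s)
    rw [hD]; linarith only [this]
  have step1 : s * h / ((1 + s) * (2 * s ^ 2 * (1 + s) - h * (1 + 2 * s))) ≤
      s * (z * k) / ((1 + s) * D) := by
    apply div_le_div₀ (by (clear * - hs hz0 hl; positivity)) (mul_le_mul_of_nonneg_left hhk hs.le) (by positivity)
    exact mul_le_mul_of_nonneg_left hD1 (by positivity)
  have step2 : s * (z * k) / ((1 + s) * D) - z / (s * (1 + s) ^ 2) * l ≤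
      1 / s * ((2 / 5 + 13 * z / 20 + 22 * z ^ 3 / 5) * (z / s ^ 2)) * l ^ 2 := by
    have e : 1 / s * ((2 / 5 + 13 * z / 20 + 22 * z ^ 3 / 5) * (z / s ^ 2)) * l ^ 2 -
        (s * (z * k) / ((1 + s) * D) - z / (s * (1 + s) ^ 2) * l) =
        z * l ^ 2 * ((2 / 5 + 13 * z / 20 + 22 * z ^ 3 / 5) * (1 + s) ^ 2 * D -
          111 / 50 * s ^ 4 * (1 + s) - s ^ 2 * z * (2 + 111 / 50 * l) * (1 + 2 * s)) /
          (s ^ 3 * (1 + s) ^ 2 * D) := by
      have hD' : D ≠ 0 := hD0.ne'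
      have e1 : s ^ 2 * l * D = s ^ 2 * l * (2 * s ^ 2 * (1 + s) - z * k * (1 + 2 * s)) := by
        rw [hD]
      field_simp
      rw [hk] at e1 ⊢
      linear_combination e1
    have h1 : 0 ≤ 1 / s * ((2 / 5 + 13 * z / 20 + 22 * z ^ 3 / 5) * (z / s ^ 2)) * l ^ 2 -
        (s * (z * k) / ((1 + s) * D) - z / (s * (1 + s) ^ 2) * l) := by
      rw [e]
      apply div_nonneg _ (by (clear * - hs hD0; positivity))
      apply mul_nonneg (by (clear * - hz0; positivity))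
      have e3 : D = 2 * s ^ 2 * (1 + s) - z * l * (2 + 111 / 50 * l) * (1 + 2 * s) := by
        rw [hD, hk]; ring
      rw [e3]
      exact key
    linarith only [h1]
  have e4 : 2 / s * ((2 / 5 + 13 * z / 20 + 22 * z ^ 3 / 5) * (z / s ^ 2)) * l ^ 2 =
      2 * (1 / s * ((2 / 5 + 13 * z / 20 + 22 * z ^ 3 / 5) * (z / s ^ 2)) * l ^ 2) := by ring
  have e5 : 2 * z / (s * (1 + s) ^ 2) * l = 2 * (z / (s * (1 + s) ^ 2) * l) := by ring
  rw [e4, e5]
  linarith only [step1, step2]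

/-! ## `φ(u) = u - log(1+u)`, `0 ≤ u ≤ 1/s` -/

theorem fxqs_mono {u v : ℝ} (hu : 0 ≤ u) (huv : u ≤ v) :
    (1 + u) * (3 + u) / (6 + 6 * u + u ^ 2) ≤ (1 + v) * (3 + v) / (6 + 6 * v + v ^ 2) := by
  have hv : 0 ≤ v := hu.trans huv
  rw [div_le_div_iff₀ (by (clear * - hu; positivity)) (by positivity)]
  have e : (1 + v) * (3 + v) * (6 + 6 * u + u ^ 2) - (1 + u) * (3 + u) * (6 + 6 * v + v ^ 2) =
      (v - u) * (6 + 3 * (u + v) + 2 * u * v) := by ring
  have : 0 ≤ (v - u) * (6 + 3 * (u + v) + 2 * u * v) :=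
    mul_nonneg (by linarith only [huv]) (by (clear * - hu hv; positivity))
  linarith only [this]

theorem fxqs_mono2 {u v : ℝ} (hu : 0 ≤ u) (huv : u ≤ v) :
    u * (3 + u) / (6 + 6 * u + u ^ 2) ≤ v * (3 + v) / (6 + 6 * v + v ^ 2) := by
  have hv : 0 ≤ v := hu.trans huv
  rw [div_le_div_iff₀ (by positivity) (by positivity)]
  have e : v * (3 + v) * (6 + 6 * u + u ^ 2) - u * (3 + u) * (6 + 6 * v + v ^ 2) =
      (v - u) * (18 + 6 * (u + v) + 3 * u * v) := by ring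
  have : 0 ≤ (v - u) * (18 + 6 * (u + v) + 3 * u * v) :=
    mul_nonneg (by linarith only [huv]) (by (clear * - hu hv; positivity))
  linarith only [this]

/-- `φ ≤ W (s+1)(3s+1)/(6s²+6s+1)` and `φ ≤ 19/50 u` -/
theorem fxqs_phi {s u : ℝ} (hs : 0 < s) (hs0 : 714 / 1000 ≤ s) (hu : 0 ≤ u) (hus : u * s ≤ 1) :
    u - Real.log (1 + u) ≤
      u ^ 2 / (1 + u) * ((1 + s) * (3 * s + 1) / (6 * s ^ 2 + 6 * s + 1)) ∧
    u - Real.log (1 + u) ≤ 19 / 50 * u ∧ 0 ≤ u - Real.log (1 + u) := by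
  have h0 := log_defect hu
  have hu1 : u ≤ 1 / s := by rwa [le_div_iff₀ hs]
  refine ⟨?_, ?_, ?_⟩
  · have h1 := fxqs_mono hu hu1
    have e1 : (1 + 1 / s) * (3 + 1 / s) / (6 + 6 * (1 / s) + (1 / s) ^ 2) =
        (1 + s) * (3 * s + 1) / (6 * s ^ 2 + 6 * s + 1) := by
      field_simp
      ring
    rw [e1] at h1
    have h2 := mul_le_mul_of_nonneg_left h1 (by (clear * - hu; positivity) : 0 ≤ u ^ 2 / (1 + u))
    have e2 : u ^ 2 / (1 + u) * ((1 + u) * (3 + u) / (6 + 6 * u + u ^ 2)) =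
        u ^ 2 * (3 + u) / (6 + 6 * u + u ^ 2) := by
      field_simp
    rw [e2] at h2
    linarith only [h2, h0]
  · have h1 := fxqs_mono2 hu hu1
    have e1 : (1 / s) * (3 + 1 / s) / (6 + 6 * (1 / s) + (1 / s) ^ 2) =
        (3 * s + 1) / (6 * s ^ 2 + 6 * s + 1) := by
      field_simp
    rw [e1] at h1
    have h3 : (3 * s + 1) / (6 * s ^ 2 + 6 * s + 1) ≤ 19 / 50 := by
      rw [div_le_iff₀ (by positivity)]
      nlinarith only [hs0]
    have h2 := mul_le_mul_of_nonneg_left (h1.trans h3) hu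
    have e2 : u * (u * (3 + u) / (6 + 6 * u + u ^ 2)) =
        u ^ 2 * (3 + u) / (6 + 6 * u + u ^ 2) := by
      ring
    rw [e2] at h2
    linarith only [h0, h2]
  · have := Real.log_le_sub_one_of_pos (x := 1 + u) (by linarith only [hu])
    linarith only [this]

/-! ## lower bound of `T` -/

/-- the `l²`-part -/
theorem fxqs_Lpart {m z s l G : ℝ} (hm : 0 ≤ m) (hz : 0 < z) (hs : 0 < s) (hsz : s ^ 2 = 1 - z)
    (hl : 0 ≤ l) (hl2 : l ≤ 1 / 2)
    (hA : 3 / 2 * (m * z) + 3 / 25 * (m * z + 3 * z) * (m * z / s ^ 2) ≤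
      2 * (m * z + 3 * z) - l * (m * z * fpU z l + fpV z l) +
      3 * z * (m * z - 3) / s ^ 5 - 2 * z / s ^ 3 * (2 / 5 + 13 * z / 20 + 22 * z ^ 3 / 5) +
      3 / 25 * (m * z + 3 * z) * (m * z / s ^ 2 - 3))
    (hG : -(2 / s * ((2 / 5 + 13 * z / 20 + 22 * z ^ 3 / 5) * (z / s ^ 2)) * l ^ 2) ≤ G) :
    (3 / 2 * (m * z) + 3 / 25 * (m * z + 3 * z) * (m * z / s ^ 2)) * l ^ 2 ≤
      (m + 3) * z * (Real.exp (-(2 * l)) - 1 + 2 * l) + dpS0 m z l +
      (3 * (m - 3) * (z ^ 2 / s ^ 5) - 9 * (z / s ^ 3)) * l ^ 2 + G +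
      3 / 25 * (m + 3) * z * ((m * (z / s ^ 2) - 3) * l ^ 2) := by
  have h1 := dpS0_ge' (m := m) (z := z) hm hz.le hl hl2
  have h2 := mul_le_mul_of_nonneg_right hA (sq_nonneg l)
  have h3 : l ^ 3 * z * kB' m z l = l ^ 2 * (l * (m * z * fpU z l + fpV z l)) := by
    rw [← fp_kB]
    ring
  rw [h3] at h1
  rw [fpn_lam hs hsz]
  have h4 : 2 * z / s ^ 3 * (2 / 5 + 13 * z / 20 + 22 * z ^ 3 / 5) * l ^ 2 =
      2 / s * ((2 / 5 + 13 * z / 20 + 22 * z ^ 3 / 5) * (z / s ^ 2)) * l ^ 2 := by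
    (clear * - hz hs; field_simp)
  have h5 : 3 / 25 * (m * z + 3 * z) * (m * z / s ^ 2 - 3) * l ^ 2 =
      3 / 25 * (m + 3) * z * ((m * (z / s ^ 2) - 3) * l ^ 2) := by
    (clear * - hs hm hz; field_simp)
  linarith

/-- the cross term: `(w/s²) l² - 2lu + (s²/w) u² ≥ 0` -/
theorem fxqs_cross {m z s l u : ℝ} (hm : 27 ≤ m) (hz : 0 < z) (hs : 0 < s) :
    6 / 25 * (m + 3) * z * (u * l) ≤
      3 / 25 * (m * z + 3 * z) * (m * z / s ^ 2) * l ^ 2 + 2 / 15 * s ^ 2 * u ^ 2 := by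
  have hm0 : 0 < m := by linarith
  have hw : 0 < m * z := by positivity
  have h1 : 0 ≤ 3 / 25 * (m * z + 3 * z) * ((m * z * l - s ^ 2 * u) ^ 2 / (m * z * s ^ 2)) := by
    (clear * - hm hz hs; positivity)
  have e : 3 / 25 * (m * z + 3 * z) * ((m * z * l - s ^ 2 * u) ^ 2 / (m * z * s ^ 2)) =
      3 / 25 * (m * z + 3 * z) * (m * z / s ^ 2) * l ^ 2 - 6 / 25 * (m + 3) * z * (u * l) +
      3 / 25 * (1 + 3 / m) * (s ^ 2 * u ^ 2) := by
    field_simp
    ring
  have h2 : 3 / m ≤ 3 / 27 := div_le_div_of_nonneg_left (by norm_num) (by norm_num) hm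
  have h3 : 3 / 25 * (1 + 3 / m) * (s ^ 2 * u ^ 2) ≤ 2 / 15 * (s ^ 2 * u ^ 2) := by
    apply mul_le_mul_of_nonneg_right _ (by (clear * - hs; positivity))
    linarith only [h2]
  rw [e] at h1
  linarith only [h1, h3]

theorem fxqs_T {m z s l u G N : ℝ} (hm : 27 ≤ m) (hz0 : 1 / 5 ≤ z) (hz1 : z ≤ 49 / 100)
    (hs : 0 < s) (hsz : s ^ 2 = 1 - z) (hw : 9 ≤ m * z) (hl : 0 ≤ l) (hl1 : l ≤ 151 / 1000)
    (hu : 0 ≤ u) (hus : u * s ≤ 1) (hN : Real.log (1 + u) - u ≤ N)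
    (hG : -(2 / s * ((2 / 5 + 13 * z / 20 + 22 * z ^ 3 / 5) * (z / s ^ 2)) * l ^ 2) ≤ G) :
    3 / 2 * (m * z) * l ^ 2 + 1 / 3 * (u ^ 2 / (1 + u)) ≤ dpT m z s l u G N := by
  have hz : 0 < z := by (clear * - hz0; linarith)
  have hz' : z = 1 - s ^ 2 := by linarith only [hsz]
  have hl2 : l ≤ 1 / 2 := by linarith only [hl1]
  have hm0 : 0 ≤ m := by linarith only [hm]
  have hs0 : 714 / 1000 ≤ s := by nlinarith only [hz1, hsz, hs]
  have hw27 : 27 * z ≤ m * z := mul_le_mul_of_nonneg_right hm hz.le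
  have h1 := fxqs_Lpart hm0 hz hs hsz hl hl2 (fxqs_A (w := m * z) hs hz' hz0 hz1 hw hw27 hl hl1) hG
  obtain ⟨hB, -⟩ := fxqs_B hs hz' hz0 hz1 hl hl1
  obtain ⟨hφ, -, hφ0⟩ := fxqs_phi hs hs0 hu hus
  have hcr := fxqs_cross (l := l) (u := u) hm hz hs
  have hu1 : 0 < 1 + u := by linarith only [hu]
  set W := u ^ 2 / (1 + u) with hW
  have hW0 : 0 ≤ W := by (clear * - hu; positivity)
  set H := (1 + s) * (3 * s + 1) / (6 * s ^ 2 + 6 * s + 1) with hH
  have hH0 : 0 ≤ H := by positivity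
  have hC := mul_le_mul_of_nonneg_right (ksC_ge' (s := s) hz.le hl hl2) hW0
  have hE := fpAr_le hl hl2
  have hBW := mul_le_mul_of_nonneg_right hB hW0
  -- the `u²` term
  have huW : 2 / 15 * s ^ 2 * u ^ 2 ≤ 2 / 15 * (s * (1 + s)) * W := by
    have e : u ^ 2 = W * (1 + u) := by rw [hW]; (clear * - hu; field_simp)
    rw [e]
    have h2 : s ^ 2 * (1 + u) ≤ s * (1 + s) := by (by_contra nlg; linarith only [nlg, mul_pos (sub_pos.2 (not_le.1 nlg)) (sub_pos.2 hs), mul_nonneg (sq_nonneg (s : ℝ)) (sub_nonneg.2 hus)])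
    have h3 := mul_le_mul_of_nonneg_right h2 (by (clear * - hu; positivity) : 0 ≤ 2 / 15 * W)
    linarith only [h3]
  -- the `N` term
  have hNt : -(28 / 13 / s * H * W) ≤ 2 * (m + 1) / ((m - 1) * s) * N := by
    have e1 : 2 * (m + 1) / ((m - 1) * s) = 2 * (m + 1) / (m - 1) / s := by
      rw [div_div]
    have hκ : 2 * (m + 1) / (m - 1) ≤ 28 / 13 := by
      rw [div_le_iff₀ (by linarith only [hm])]; linarith only [hm]
    have h2 : 2 * (m + 1) / (m - 1) / s ≤ 28 / 13 / s := div_le_div_of_nonneg_right hκ hs.le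
    have h3 : 0 ≤ 2 * (m + 1) / (m - 1) / s := by
      apply div_nonneg (div_nonneg (by linarith only [hm]) (by linarith only [hm])) hs.le
    rw [e1]
    have h4 : -(u - Real.log (1 + u)) ≤ N := by linarith only [hN]
    have h6 : 2 * (m + 1) / (m - 1) / s * (u - Real.log (1 + u)) ≤ 28 / 13 / s * (W * H) :=
      mul_le_mul h2 hφ hφ0 (by positivity)
    have h7 := mul_le_mul_of_nonneg_left h4 h3
    linarith only [h7, h6]
  have hEW : 4 * s ^ 2 * fpAr l * W ≤ 4 * s ^ 2 * Real.exp (-(2 * l)) * W := by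
    apply mul_le_mul_of_nonneg_right _ hW0
    exact mul_le_mul_of_nonneg_left hE (by positivity)
  unfold dpT
  rw [dpS_eq, ← hW]
  simp only [fpCKr] at hBW
  have hfin := add_le_add (add_le_add h1 hBW) (add_le_add (add_le_add hC hEW)
    (add_le_add hNt (add_le_add hcr huW)))
  linarith only [hEW, hNt, huW, hBW, hC, hcr, h1]

/-! ## upper bound of `e₁ - T`, lower bound of `e₁` -/

theorem fxqs_Nt2 {s u φ : ℝ} (hs : 0 < s) (hu : 0 ≤ u) (hφ : φ ≤ 19 / 50 * u) :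
    191 / 1000 / s * φ ≤ 73 / 1000 / s * u := by
  have h2 := mul_le_mul_of_nonneg_left hφ (by positivity : 0 ≤ 191 / 1000 / s)
  have h3 : 0 ≤ 1 / s * u := by positivity
  have e : 191 / 1000 / s * (19 / 50 * u) = 191 / 1000 * (19 / 50) * (1 / s * u) := by ring
  have e' : 73 / 1000 / s * u = 73 / 1000 * (1 / s * u) := by ring
  rw [e] at h2
  rw [e']
  linarith only [h2, h3]

theorem fxqs_q {s c u : ℝ} (hs : 0 < s) (hs1 : s ≤ 1) (hu : 0 ≤ u) (hc2 : c ≤ 1) :
    (2 * c / s - 2 * s ^ 2 + 2 * (1 - c)) * u ≤ (2 / s - 2 * s ^ 2) * u := by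
  apply mul_le_mul_of_nonneg_right _ hu
  have h2 : 2 * (1 - c) ≤ 2 * (1 - c) / s := by
    rw [le_div_iff₀ hs]; linarith only [mul_nonneg (sub_nonneg.2 hs1) (sub_nonneg.2 hc2)]
  have e : 2 * c / s = 2 / s - 2 * (1 - c) / s := by ring
  rw [e]; linarith

theorem fxqs_uu {s u : ℝ} (hs : 0 < s) (hu : 0 ≤ u) (hus : u * s ≤ 1) :
    2 / 15 * s ^ 2 * u ^ 2 ≤ 2 / 15 * s * u := by
  have h2 : 2 / 15 * s * u * (u * s) ≤ 2 / 15 * s * u * 1 :=
    mul_le_mul_of_nonneg_left hus (by (clear * - hs hu; positivity))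
  linarith

theorem fxqs_lin {m z s l : ℝ} (hm : 27 ≤ m) (hz : 0 < z) (hz1 : z ≤ 49 / 100) (hs : 0 < s)
    (hsz : s ^ 2 = 1 - z) (hl : 0 ≤ l) (hl1 : l ≤ 151 / 1000) :
    (m * z / 2 + 6 * z) * l ^ 2 + 2 * (z / s ^ 2) / (m + 2) * l ≤
      115 / 1000 * (m * z) * l := by
  have hw27 : 27 * z ≤ m * z := mul_le_mul_of_nonneg_right hm hz.le
  have hm0 : 0 < m := by linarith only [hm]
  have key : (m * z / 2 + 6 * z) * l + 2 * (z / s ^ 2) / (m + 2) ≤ 115 / 1000 * (m * z) := by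
    have hy : z / s ^ 2 ≤ 2 * z := by
      rw [div_le_iff₀ (by positivity), hsz]; nlinarith only [hz, hz1]
    have hy2 : 2 * (z / s ^ 2) / (m + 2) ≤ 2 * (2 * z) / 29 :=
      div_le_div₀ (by positivity) (by linarith only [hy]) (by norm_num) (by linarith only [hm])
    have h3 : (m * z / 2 + 6 * z) * l ≤ (m * z / 2 + 6 * z) * (151 / 1000) :=
      mul_le_mul_of_nonneg_left hl1 (by positivity)
    linarith only [hz, hw27, hy2, h3]
  have h5 := mul_le_mul_of_nonneg_right key hl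
  linarith only [h5]

theorem fxqs_P {m z s l u c G N : ℝ} (hm : 27 ≤ m) (hz0 : 1 / 5 ≤ z) (hz1 : z ≤ 49 / 100)
    (hs : 0 < s) (hsz : s ^ 2 = 1 - z) (hw : 9 ≤ m * z) (hl : 0 ≤ l) (hl1 : l ≤ 151 / 1000)
    (hu : 0 ≤ u) (hus : u * s ≤ 1) (hc1 : 1 - 1 / (2 * m) ≤ c) (hc2 : c ≤ 1)
    (hc3 : c ^ 2 ≤ (m + 1) / (m + 2)) (hN : Real.log (1 + u) - u ≤ N)
    (hG : -(2 / s * ((2 / 5 + 13 * z / 20 + 22 * z ^ 3 / 5) * (z / s ^ 2)) * l ^ 2) ≤ G) :
    dpE m z s l u c N - dpT m z s l u G N ≤ fxqa s * u + 115 / 1000 * (m * z) * l := by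
  have hz : 0 < z := by linarith only [hz0]
  have hz' : z = 1 - s ^ 2 := by linarith only [hsz]
  have hl2 : l ≤ 1 / 2 := by linarith only [hl1]
  have hm0 : 0 < m := by linarith only [hm]
  have hs1 : s ≤ 1 := fpn_s1 hs hz hsz
  have hs0 : 714 / 1000 ≤ s := by nlinarith only [hz1, hsz, hs]
  have hw27 : 27 * z ≤ m * z := mul_le_mul_of_nonneg_right hm hz.le
  have h1 := fxqs_Lpart hm0.le hz hs hsz hl hl2
    (fxqs_A (w := m * z) hs hz' hz0 hz1 hw hw27 hl hl1) hG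
  have hCK := (fxqs_B hs hz' hz0 hz1 hl hl1).2
  obtain ⟨-, hφ, hφ0⟩ := fxqs_phi hs hs0 hu hus
  have hcr := fxqs_cross (l := l) (u := u) hm hz hs
  have hr := mul_le_mul_of_nonneg_right (fpn_r_le hm0 hz hs hsz hc2 hc3) hl
  have hW0 : 0 ≤ u ^ 2 / (1 + u) := by (clear * - hu; positivity)
  have hC := mul_le_mul_of_nonneg_right (ksC_ge' (s := s) hz.le hl hl2) hW0
  have hCK' := mul_nonneg hCK hW0
  have hψ' := mul_le_mul_of_nonneg_left (fpn_psi hl) (by positivity : 0 ≤ (m + 3) * z)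
  have hNt := fpn_Nt hm hs hc1 hc2 hφ0 (by linarith only [hN] : -(u - Real.log (1 + u)) ≤ N)
  have hNt2 := fxqs_Nt2 hs hu hφ
  have hq := fxqs_q (c := c) hs hs1 hu hc2
  have huu := fxqs_uu hs hu hus
  have hlin := fxqs_lin hm hz hz1 hs hsz hl hl1
  have ea : fxqa s * u = (2 / s - 2 * s ^ 2) * u + 2 / 15 * s * u + 73 / 1000 / s * u := by
    unfold fxqa
    ring
  rw [ea]
  unfold fpCKr at hCK'
  unfold dpT dpE
  rw [dpS_eq]
  generalize u ^ 2 / (1 + u) = W at *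
  have hfin := add_le_add (add_le_add (add_le_add h1 hCK') (add_le_add hC hψ'))
    (add_le_add (add_le_add (add_le_add hr hq) (add_le_add (add_le_add hNt hNt2) hlin))
      (add_le_add hcr huu))
  linarith only [h1, hcr, hr, hψ', hNt, hNt2, hq, huu, hlin, hC, hCK']

/-- lower bound of `e₁` -/
theorem fxqs_E {m z s l u c N : ℝ} (hm : 27 ≤ m) (hz0 : 1 / 5 ≤ z) (hz1 : z ≤ 49 / 100)
    (hs : 0 < s) (hsz : s ^ 2 = 1 - z) (hl : 0 ≤ l) (hl1 : l ≤ 151 / 1000)
    (hu : 0 ≤ u) (hc1 : 1 - 1 / (2 * m) ≤ c) (hc2 : c ≤ 1)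
    (hN : Real.log (1 + u) - u ≤ N) :
    -(z / s ^ 2 / 5 * l) ≤ dpE m z s l u c N := by
  have hz : 0 < z := by linarith only [hz0]
  have hm0 : 0 < m := by linarith only [hm]
  have hs1 : s ≤ 1 := by nlinarith only [hsz, hz]
  have hs0 : 714 / 1000 ≤ s := by nlinarith only [hz1, hsz, hs]
  have hs2 : s ≤ 895 / 1000 := by nlinarith only [hz0, hsz]
  have hu1 : 0 < 1 + u := by linarith only [hu]
  have hc5 : 53 / 54 ≤ c := by
    have : 1 / (2 * m) ≤ 1 / 54 := by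
      apply one_div_le_one_div_of_le <;> linarith only [hm]
    linarith only [hc1, this]
  -- the `l` term
  have hr : -(z / s ^ 2 / 5) ≤ 2 * c / s - 2 + 2 * (1 - c) * (1 - m * (z / s ^ 2)) := by
    obtain ⟨h1, h2⟩ := fpn_y hz hs hsz
    have hinv : 1 / s ≤ 1401 / 1000 := by
      rw [div_le_iff₀ hs]
      linarith only [hs0]
    set y := z / s ^ 2 with hy
    have hy0 : 0 < y := by positivity
    have e1 : 2 * c / s - 2 + 2 * (1 - c) * (1 - m * y) =
        2 * c * (1 / s - 1) - 2 * (1 - c) * (m * y) := by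
      field_simp
      ring
    rw [e1]
    have h3 : 2 * (1 - c) * (m * y) ≤ y := by
      have h4 : (1 - c) ≤ 1 / (2 * m) := by linarith only [hc1]
      have h5 := mul_le_mul_of_nonneg_right h4 (by positivity : 0 ≤ 2 * (m * y))
      have e2 : 1 / (2 * m) * (2 * (m * y)) = y := by field_simp
      linarith only [h5, e2]
    have h4 : 416 / 1000 * y ≤ 1 / s - 1 := by
      rw [h1]
      nlinarith only [h2, hinv]
    have h5 : 2 * (53 / 54) * (416 / 1000 * y) ≤ 2 * c * (1 / s - 1) :=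
      mul_le_mul (by linarith only [hc5]) h4 (by positivity) (by linarith only [hc5])
    linarith only [hy0, h3, h5]
  have hr' := mul_le_mul_of_nonneg_right hr hl
  have hψ : 0 ≤ (m + 3) * z * (Real.exp (-(2 * l)) - 1 + 2 * l) := by
    have := Real.add_one_le_exp (-(2 * l))
    apply mul_nonneg (by positivity)
    linarith only [this]
  -- the `u` terms
  have hE : 1 / 2 ≤ Real.exp (-(2 * l)) := by
    have := Real.add_one_le_exp (-(2 * l))
    linarith only [hl1, this]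
  set W := u ^ 2 / (1 + u) with hW
  have hW0 : 0 ≤ W := by (clear * - hu; positivity)
  have hlog : 2 * u / (2 + u) ≤ Real.log (1 + u) := by
    have h := Real.le_log_one_add_of_nonneg hu
    have e : 2 * u / (u + 2) = 2 * u / (2 + u) := by rw [add_comm u 2]
    rwa [e] at h
  have hmain : 0 ≤ 4 * s ^ 2 * Real.exp (-(2 * l)) * W + 2 * c / s * N +
      (2 * c / s - 2 * s ^ 2 + 2 * (1 - c)) * u := by
    have h1 : 2 * c / s * (Real.log (1 + u) - u) ≤ 2 * c / s * N :=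
      mul_le_mul_of_nonneg_left hN (by positivity)
    have h2 : 2 * c / s * (2 * u / (2 + u)) ≤ 2 * c / s * Real.log (1 + u) :=
      mul_le_mul_of_nonneg_left hlog (by positivity)
    have h3 : 4 * s ^ 2 * (1 / 2) * W ≤ 4 * s ^ 2 * Real.exp (-(2 * l)) * W := by
      apply mul_le_mul_of_nonneg_right _ hW0
      exact mul_le_mul_of_nonneg_left hE (by positivity)
    have h4 : 0 ≤ 2 * (1 - c) * u := by
      have : 0 ≤ 1 - c := by linarith only [hc2]
      (clear * - hc2 hu; positivity)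
    have h5 : 0 ≤ 4 * s ^ 2 * (1 / 2) * W + 2 * c / s * (2 * u / (2 + u)) - 2 * s ^ 2 * u := by
      have h6 : 2 * (53 / 54) / s * (2 * u / (2 + u)) ≤ 2 * c / s * (2 * u / (2 + u)) := by
        apply mul_le_mul_of_nonneg_right _ (by (clear * - hu; positivity))
        apply div_le_div_of_nonneg_right _ hs.le
        linarith only [hc5]
      have e : 4 * s ^ 2 * (1 / 2) * W + 2 * (53 / 54) / s * (2 * u / (2 + u)) - 2 * s ^ 2 * u =
          2 * u * (106 / 54 * (1 + u) - s ^ 3 * (2 + u)) / (s * ((1 + u) * (2 + u))) := by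
        rw [hW]
        field_simp
        ring
      have h7 : 0 ≤ 106 / 54 * (1 + u) - s ^ 3 * (2 + u) := by
        have h8 : s ^ 3 ≤ (895 / 1000) ^ 3 := pow_le_pow_left₀ hs.le hs2 3
        have h9 : s ^ 3 * (2 + u) ≤ (895 / 1000) ^ 3 * (2 + u) :=
          mul_le_mul_of_nonneg_right h8 (by linarith only [hu])
        norm_num at h9
        linarith only [h9, hu]
      have h10 : 0 ≤ 2 * u * (106 / 54 * (1 + u) - s ^ 3 * (2 + u)) /
          (s * ((1 + u) * (2 + u))) := by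
        apply div_nonneg (mul_nonneg (by (clear * - hu; positivity)) h7) (by (clear * - hs hu; positivity))
      linarith only [h10, e, h6]
    linarith only [h1, h2, h3, h4, h5]
  unfold dpE
  rw [← hW]
  linarith only [hr', hψ, hmain]

/-! ## the region -/

theorem fxqs_n1 {a u w l W s ρ : ℝ} (hW0 : 0 ≤ W) (hw0 : 0 < w) (hρ0 : 0 < ρ)
    (huW : u ^ 2 ≤ (1 + 1 / s) * W) (r1 : 33 / 10 * a ^ 2 * (1 + 1 / s) ≤ 7 / 10 * ρ)
    (r3 : 1 / 2 * w ≤ ρ) :
    (a * u + 115 / 1000 * w * l) ^ 2 ≤ 8 / 10 * (ρ * (3 / 2 * w * l ^ 2 + 1 / 3 * W)) := by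
  have h1 : (a * u + 115 / 1000 * w * l) ^ 2 ≤
      11 / 10 * (a * u) ^ 2 + 11 * (115 / 1000 * w * l) ^ 2 := by
    linarith only [sq_nonneg (a * u - 10 * (115 / 1000 * w * l))]
  have h2 : 11 / 10 * (a * u) ^ 2 ≤ 7 / 10 * (ρ * (1 / 3 * W)) := by
    have h3 : 11 / 10 * a ^ 2 * u ^ 2 ≤ 11 / 10 * a ^ 2 * ((1 + 1 / s) * W) :=
      mul_le_mul_of_nonneg_left huW (by (clear * -; positivity))
    have h4 := mul_le_mul_of_nonneg_right r1 hW0
    have e : (a * u) ^ 2 = a ^ 2 * u ^ 2 := by ring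
    rw [e]
    linarith only [h3, h4]
  have h5 : 11 * (115 / 1000 * w * l) ^ 2 ≤ 8 / 10 * (ρ * (3 / 2 * w * l ^ 2)) := by
    have h6 : 0 ≤ w * l ^ 2 := by (clear * - hw0; positivity)
    have h7 := mul_le_mul_of_nonneg_right r3 h6
    have e : 11 * (115 / 1000 * w * l) ^ 2 = 11 * (115 / 1000) ^ 2 * (w * (w * l ^ 2)) := by
      ring
    rw [e]
    have h8 : 0 ≤ w * (w * l ^ 2) := by (clear * - hw0; positivity)
    linarith only [h8, h7]
  have h9 : 0 ≤ ρ * (1 / 3 * W) := by (clear * - hρ0 hW0; positivity)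
  linarith only [h1, h2, h5, h9]

theorem fxqs_n2 {y w l W ρ : ℝ} (hW0 : 0 ≤ W) (hw : 9 ≤ w) (hρ0 : 0 < ρ)
    (hy0 : 0 ≤ y) (hy : y ≤ 1) (r3 : 1 / 2 * w ≤ ρ) :
    (y / 5 * l) ^ 2 ≤ 8 / 10 * (ρ * (3 / 2 * w * l ^ 2 + 1 / 3 * W)) := by
  have h1 : (y / 5 * l) ^ 2 ≤ 1 / 25 * l ^ 2 := by
    have e : (y / 5 * l) ^ 2 = y ^ 2 * (1 / 25 * l ^ 2) := by ring
    rw [e]
    have h2 : y ^ 2 ≤ 1 := pow_le_one₀ hy0 hy
    have h3 : 0 ≤ 1 / 25 * l ^ 2 := by (clear * -; positivity)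
    calc y ^ 2 * (1 / 25 * l ^ 2) ≤ 1 * (1 / 25 * l ^ 2) := mul_le_mul_of_nonneg_right h2 h3
      _ = _ := one_mul _
  have h5 : 1 ≤ ρ * w := by nlinarith only [hw, r3]
  have h6 := mul_le_mul_of_nonneg_right h5 (sq_nonneg l)
  have h7 := sq_nonneg l
  have h9 : 0 ≤ ρ * (1 / 3 * W) := by positivity
  linarith only [h9, h7, h6, h1]

theorem fxqs_final {T e ρ w y W u l s a : ℝ} (hT : 3 / 2 * w * l ^ 2 + 1 / 3 * W ≤ T)
    (hP : e - T ≤ a * u + 115 / 1000 * w * l) (hE : -(y / 5 * l) ≤ e)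
    (hw : 9 ≤ w) (hy0 : 0 ≤ y) (hy : y ≤ 1) (hl : 0 ≤ l) (hl1 : l ≤ 151 / 1000)
    (hu : 0 ≤ u) (hui : u ≤ 1 / s) (ha0 : 0 ≤ a) (hW0 : 0 ≤ W) (hWp : u ≠ 0 → 0 < W)
    (huW : u ^ 2 ≤ (1 + 1 / s) * W) (r1 : 33 / 10 * a ^ 2 * (1 + 1 / s) ≤ 7 / 10 * ρ)
    (r2 : a * (1 / s) ≤ 1 / 10 * ρ) (r3 : 1 / 2 * w ≤ ρ) : JTest T e ρ u := by
  have hρ0 : 0 < ρ := by (clear * - hw r3; linarith)
  have hw0 : 0 < w := by linarith only [hw]
  refine JTest.of_theta (T0 := 3 / 2 * w * l ^ 2 + 1 / 3 * W)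
    (P := a * u + 115 / 1000 * w * l) (E := y / 5 * l)
    (θ := 15 / 100) (θ1 := 8 / 10) hT (by (clear * - hw hW0; positivity)) ?_ hρ0 (by norm_num)
    (by norm_num) hP (by positivity) ?_ (fxqs_n1 hW0 hw0 hρ0 huW r1 r3) hE (by positivity) ?_
    (fxqs_n2 hW0 hw hρ0 hy0 hy r3)
  · intro hne
    have := hWp hne
    (clear * - hw this; positivity)
  · have h1 : a * u ≤ a * (1 / s) := mul_le_mul_of_nonneg_left hui ha0
    have h2 : 115 / 1000 * w * l ≤ 115 / 1000 * w * (151 / 1000) :=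
      mul_le_mul_of_nonneg_left hl1 (by positivity)
    linarith only [hw, r2, r3, h1, h2]
  · have h1 : y / 5 * l ≤ 1 / 5 * (151 / 1000) :=
      mul_le_mul (by linarith only [hy]) hl1 hl (by norm_num)
    linarith only [h1, r3, hw]

/-- the region with the correction bound of `FCor` -/
theorem fxqs_region' {m z s l u c G N : ℝ} (hm : 27 ≤ m) (hz0 : 1 / 5 ≤ z) (hz1 : z ≤ 49 / 100)
    (hs : 0 < s) (hsz : s ^ 2 = 1 - z) (hw : 9 ≤ m * z) (hl : 0 ≤ l) (hl1 : l ≤ 151 / 1000)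
    (hu : 0 ≤ u) (hus : u * s ≤ 1) (hc1 : 1 - 1 / (2 * m) ≤ c) (hc2 : c ≤ 1)
    (hc3 : c ^ 2 ≤ (m + 1) / (m + 2)) (hN : Real.log (1 + u) - u ≤ N)
    (hG : -(2 / s * ((2 / 5 + 13 * z / 20 + 22 * z ^ 3 / 5) * (z / s ^ 2)) * l ^ 2) ≤ G) :
    JTest (dpT m z s l u G N) (dpE m z s l u c N) (dpR m (z / s ^ 2)) u := by
  have hz : 0 < z := by linarith only [hz0]
  have hz' : z = 1 - s ^ 2 := by linarith only [hsz]
  have hw27 : 27 * z ≤ m * z := mul_le_mul_of_nonneg_right hm hz.le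
  have hu1 : 0 < 1 + u := by linarith only [hu]
  have hρ' : (2 + 5 * (m * z / s ^ 2) + 25 / 27 * (m * z / s ^ 2) ^ 2) / 10 ≤
      dpR m (z / s ^ 2) := by
    rw [mul_div_assoc]
    exact fpn_rho (y := z / s ^ 2) hm
  obtain ⟨r1, r2, r3, ha0⟩ := fxqs_rho hs hz' hz0 hz1 hw hw27 hρ'
  have hui : u ≤ 1 / s := by rwa [le_div_iff₀ hs]
  have hW0 : 0 ≤ u ^ 2 / (1 + u) := by (clear * - hu; positivity)
  have huW : u ^ 2 ≤ (1 + 1 / s) * (u ^ 2 / (1 + u)) := by
    have e : u ^ 2 = (1 + u) * (u ^ 2 / (1 + u)) := by field_simp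
    calc u ^ 2 = (1 + u) * (u ^ 2 / (1 + u)) := e
      _ ≤ _ := mul_le_mul_of_nonneg_right (by linarith only [hui]) hW0
  have hy : z / s ^ 2 ≤ 1 := by
    rw [div_le_iff₀ (by positivity), hsz]; linarith only [hz1]
  exact fxqs_final (fxqs_T hm hz0 hz1 hs hsz hw hl hl1 hu hus hN hG)
    (fxqs_P hm hz0 hz1 hs hsz hw hl hl1 hu hus hc1 hc2 hc3 hN hG)
    (fxqs_E hm hz0 hz1 hs hsz hl hl1 hu hc1 hc2 hN) hw (by positivity) hy hl hl1 hu hui ha0
    hW0 (fun h => by (clear * - hu h; positivity)) huW r1 r2 r3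

/-- **the region**, with the correction bound of `FxA` -/
theorem fxqs_region {m z s l u c G N : ℝ} (hm : 27 ≤ m) (hz0 : 1 / 5 ≤ z) (hz1 : z ≤ 49 / 100)
    (hs : 0 < s) (hsz : s ^ 2 = 1 - z) (hw : 9 ≤ m * z) (hl : 0 ≤ l) (hl1 : l ≤ 151 / 1000)
    (hu : 0 ≤ u) (hus : u * s ≤ 1) (hc1 : 1 - 1 / (2 * m) ≤ c) (hc2 : c ≤ 1)
    (hc3 : c ^ 2 ≤ (m + 1) / (m + 2)) (hN : Real.log (1 + u) - u ≤ N)
    (hG : 2 * (-(s * (z * (Real.exp (2 * l) - 1)) / ((1 + s) * (2 * s ^ 2 * (1 + s) -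
      z * (Real.exp (2 * l) - 1) * (1 + 2 * s))))) + 2 * z / (s * (1 + s) ^ 2) * l ≤ G) :
    JTest (dpT m z s l u G N) (dpE m z s l u c N) (dpR m (z / s ^ 2)) u :=
  fxqs_region' hm hz0 hz1 hs hsz hw hl hl1 hu hus hc1 hc2 hc3 hN
    ((fxqs_G hs (by (clear * - hsz; linarith)) hz0 hz1 hl hl1 rfl).trans hG)

end Vale.Agent.P237.AllN
end
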