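import Vale.Agent.P237.Bd3.B4
import Vale.Agent.P237.Bd3.B8
import Vale.Agent.P237.Bd3.B21
import Vale.Agent.P237.Bd3.B9
import Vale.Agent.P237.Bd3.B13
import Vale.Agent.P237.Bd3.B5
import Vale.Agent.P237.Bd3.B2
import Vale.Agent.P237.Bd3.B1
import Vale.Agent.P237.Bd3.B20

set_option linter.all false

section

/-!
# P237, plain certificate: kernel checks for `m = 9`
-/

namespace Vale.Agent.P237.AllN

open PolyPos

/-- data of the certificate, `m = 9` -/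
def D9 : Dat := ⟨⟨9, ⟨13, 19⟩, ⟨41, 124⟩, ⟨543, 999⟩, ⟨1, 0⟩, ⟨121, 999⟩, ⟨41, 99⟩, ⟨87, 9999⟩, ⟨1, 999⟩, ⟨1, 999⟩⟩,
  ⟨233, 199⟩, ⟨553, 9999⟩, ⟨51, 499⟩, ⟨137, 124⟩, ⟨541, 999⟩, ⟨321, 999⟩, ⟨119, 2499⟩, ⟨9243, 9999⟩, 5, 523, 1367, 853, 1165, 2 ^ 1024, 40⟩

theorem chk9_LP :
    D9.kLP (.leaf 0) = true := by
  decide +kernel

theorem chk9_LM :
    D9.kLM (.sx (.leaf 0) (.sy (.leaf 0) (.sx (.sy (.leaf 0) (.sx (.leaf 0) .out)) (.sy (.sx
    (.leaf 0) (.sy (.leaf 0) .out)) .out)))) = true := by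
  decide +kernel

theorem chk9_RMT0 :
    D9.kRM D9.rbT 9 0 853 250 1000 (.leaf 0) = true := by
  decide +kernel

theorem chk9_RMt0 :
    D9.kRM D9.rbG 9 0 853 6 250 (.sx (.leaf 0) (.leaf 0)) = true := by
  decide +kernel

theorem chk9_RMc0 :
    D9.kRM D9.rbC 9 0 853 0 6 (.sx (.leaf 0) (.leaf 0)) = true := by
  decide +kernel

theorem chk9_RP1 :
    D9.kRP1 (.sx (.leaf 0) (.sy (.sx (.leaf 0) (.sy (.sx (.leaf 1) (.sy .out (.sx (.sy .out
    (.leaf 0)) .out))) (.leaf 0))) (.leaf 0))) = true := by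
  decide +kernel

theorem chk9_RP2 :
    D9.kRP2 (.sx (.sy (.sx (.sy .out (.leaf 0)) .out) (.leaf 0)) (.sy .out (.sx (.leaf 0)
    .out))) = true := by
  decide +kernel

theorem chk9_RS :
    D9.kRS (.leaf 1) = true := by
  decide +kernel

end Vale.Agent.P237.AllN
end

section

/-!
# P237, uniform plain certificate (`m ≥ 15`): the inputs of the pointwise inequality
-/

open MeasureTheory Set Finset

namespace Vale.Agent.P237.AllN

section

variable {m : ℕ} {r τ τ' T : ℝ → ℝ} {x : ℝ}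

/-! ### the correction term -/

/-- near `0` the correction is at least `-(1/2) y l²` -/
theorem u15_corr_half {l : ℝ} (hx : x ∈ Ioo (0 : ℝ) 1) (h1 : x * Real.exp l ≤ 1)
    (hs : l ≤ sq x ^ 2 * (31 / 50 + 7 / 50 * x ^ 2)) (h8 : x ^ 2 ≤ 1 / 8) :
    -(1 / 2 * (x ^ 2 / sq x ^ 2)) * l ^ 2 ≤
      sq x * (bg (x * Real.exp l) - bg x) + x ^ 2 * l / (1 + sq x) ^ 2 := by
  refine le_trans ?_ (Vale.Agent.P237.AllN.Corr.corr_A hx.1 (by linarith only [h8]) h1 hs)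
  have h2 : 0 ≤ x ^ 2 / sq x ^ 2 := by (clear * -; positivity)
  have h3 : 0 ≤ x ^ 2 := by positivity
  have h4 : (x ^ 2) ^ 3 ≤ (1 / 8) ^ 3 := pow_le_pow_left₀ h3 h8 3
  have h5 : (2 / 5 + 13 * x ^ 2 / 20 + 22 * (x ^ 2) ^ 3 / 5) * (x ^ 2 / sq x ^ 2) ≤
      1 / 2 * (x ^ 2 / sq x ^ 2) := by
    apply mul_le_mul_of_nonneg_right _ h2
    linarith only [h8, h4]
  nlinarith only [h5]

/-! ### the slope constant -/

theorem u15_am_ge (m : ℕ) : Real.pi / (2 * ((m : ℝ) + 2)) ≤ Slope.am m ^ 2 := by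
  rw [Slope.am_eq]
  have h := Slope.J_sq_ge (m + 1)
  push_cast at h
  refine le_trans (le_of_eq ?_) h
  ring_nf

theorem u15_am_le (m : ℕ) : Slope.am m ^ 2 ≤ Real.pi / (2 * ((m : ℝ) + 1)) := by
  rw [Slope.am_eq]
  exact Slope.J_sq_le m

/-- `k² ≤ (17/100) (m-1)` -/
theorem u15_k_sq (hm : 15 ≤ m) :
    ((m : ℝ) / (2 * ((m : ℝ) + 1) * Slope.am m)) ^ 2 ≤ 17 / 100 * ((m : ℝ) - 1) := by
  have hm' : (15 : ℝ) ≤ m := by exact_mod_cast hm
  have hA := Slope.am_pos m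
  have h1 := u15_am_ge m
  rw [div_le_iff₀ (by positivity)] at h1
  have hπ := Real.pi_gt_d4
  rw [div_pow, div_le_iff₀ (by (clear * - hm hA; positivity))]
  -- m² ≤ .17 (m-1) 4 (m+1)² am²
  have h2 : (m : ℝ) ^ 2 * (2 * ((m : ℝ) + 2)) ≤
      17 / 100 * ((m : ℝ) - 1) * (4 * ((m : ℝ) + 1) ^ 2) * 3.1415 := by
    nlinarith only [hm']
  have h3 : 0 ≤ 17 / 100 * ((m : ℝ) - 1) * (4 * ((m : ℝ) + 1) ^ 2) := by
    have : 0 ≤ (m : ℝ) - 1 := by linarith only [hm']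
    (clear * - this hm; (clear * - this hm; positivity))
  have h4 : (m : ℝ) ^ 2 * (2 * ((m : ℝ) + 2)) ≤
      (17 / 100 * ((m : ℝ) - 1) * (2 * ((m : ℝ) + 1) * Slope.am m) ^ 2) * (2 * ((m : ℝ) + 2)) := by
    calc (m : ℝ) ^ 2 * (2 * ((m : ℝ) + 2))
        ≤ 17 / 100 * ((m : ℝ) - 1) * (4 * ((m : ℝ) + 1) ^ 2) * 3.1415 := h2
      _ ≤ 17 / 100 * ((m : ℝ) - 1) * (4 * ((m : ℝ) + 1) ^ 2) *
          (Slope.am m ^ 2 * (2 * ((m : ℝ) + 2))) :=
          mul_le_mul_of_nonneg_left (hπ.le.trans h1) h3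
      _ = _ := by ring
  exact le_of_mul_le_mul_right h4 (by positivity)

/-- `u² ≤ (17/100) (m-1) x²/s²` for `u ≥ 0` -/
theorem IsTrans.u15_uk (hm : 15 ≤ m) (hr : IsProf r) (h : IsTrans m r τ τ' T)
    (hx : x ∈ Ioo (0 : ℝ) 1) (hu : 0 ≤ uf τ τ' x) :
    uf τ τ' x ^ 2 ≤ 17 / 100 * (((m : ℝ) - 1) * (x ^ 2 / sq x ^ 2)) := by
  have h1 := h.pin_h4 (by omega) hr hx
  have h2 := u15_k_sq hm
  have hs := sl_sq_pos (mem_neg hx)
  have h3 : (uf τ τ' x * sq x) ^ 2 ≤ ((m : ℝ) / (2 * ((m : ℝ) + 1) * Slope.am m) * x) ^ 2 :=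
    pow_le_pow_left₀ (mul_nonneg hu hs.le) h1 2
  have h4 : uf τ τ' x ^ 2 * sq x ^ 2 ≤ 17 / 100 * ((m : ℝ) - 1) * x ^ 2 := by
    calc uf τ τ' x ^ 2 * sq x ^ 2 = (uf τ τ' x * sq x) ^ 2 := by ring
      _ ≤ _ := h3
      _ = ((m : ℝ) / (2 * ((m : ℝ) + 1) * Slope.am m)) ^ 2 * x ^ 2 := by ring
      _ ≤ _ := mul_le_mul_of_nonneg_right h2 (sq_nonneg x)
  have h5 : 17 / 100 * (((m : ℝ) - 1) * (x ^ 2 / sq x ^ 2)) =
      (17 / 100 * ((m : ℝ) - 1) * x ^ 2) / sq x ^ 2 := by ring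
  rw [h5, le_div_iff₀ (by positivity)]
  exact h4

/-! ### bounds for `lam = l(x₀)`, `x₀² = 2/(m+1)` -/

/-- `s^m ≥ 1 - (m/2) t²` -/
theorem u15_bern (hm : 2 ≤ m) {t : ℝ} (ht : t ∈ Icc (0 : ℝ) 1) :
    1 - (m : ℝ) / 2 * t ^ 2 ≤ sq t ^ m := by
  have h1 := pin_sq_sq ht
  have h0 := sl_sq_nonneg t
  have hm' : (2 : ℝ) ≤ m := by exact_mod_cast hm
  have h2 : (1 : ℝ) + (m : ℝ) / 2 * (-t ^ 2) ≤ (1 + -t ^ 2) ^ ((m : ℝ) / 2) :=
    one_add_mul_self_le_rpow_one_add (by nlinarith only [h1]) (by linarith only [hm'])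
  have h3 : (1 + -t ^ 2) ^ ((m : ℝ) / 2) = sq t ^ m := by
    rw [show (1 : ℝ) + -t ^ 2 = sq t ^ (2 : ℝ) by rw [Real.rpow_two, h1]; ring,
      ← Real.rpow_mul h0, show (2 : ℝ) * ((m : ℝ) / 2) = m by ring, Real.rpow_natCast]
  linarith only [h3, h2]

theorem u15_P (hm : 15 ≤ m) {x₀ : ℝ} (hx : x₀ ∈ Ioo (0 : ℝ) 1) (h0 : x₀ ^ 2 = 2 / ((m : ℝ) + 1)) :
    (1 - 1 / 4) * (∫ t in (0 : ℝ)..1, sq t ^ m) ≤ ∫ t in (0 : ℝ)..x₀, sq t ^ m := by
  have hm' : (15 : ℝ) ≤ m := by exact_mod_cast hm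
  have h1 := pin_P_ge (m := m) (x := x₀) 2 (fun i => if i = 0 then 1 else -((m : ℝ) / 2)) hx.1.le
    (by
      intro t ht
      have := u15_bern (m := m) (by omega) (t := t) ⟨ht.1, ht.2.trans hx.2.le⟩
      simp only [Finset.sum_range_succ, Finset.sum_range_zero]
      norm_num
      linarith only [this])
  simp only [Finset.sum_range_succ, Finset.sum_range_zero] at h1
  norm_num at h1
  refine le_trans ?_ h1
  have hA := Slope.am_pos m
  have h2 := u15_am_le m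
  rw [pin_am, h0]
  -- (3/4) am ≤ x₀ * (1 - m/(3(m+1)))
  have h3 : Slope.am m ^ 2 ≤ (Real.pi / 4) * x₀ ^ 2 := by
    rw [h0]; refine h2.trans (le_of_eq ?_); field_simp; ring
  have h4 : (3 / 4 * Slope.am m) ^ 2 ≤ (2 / 3 * x₀) ^ 2 := by
    have hπ := Real.pi_lt_d4
    nlinarith only [h3, hπ]
  have h5 : 3 / 4 * Slope.am m ≤ 2 / 3 * x₀ :=
    le_of_sq_le_sq h4 (by have := hx.1; positivity)
  have h6 : (2 : ℝ) / 3 ≤ 1 + -((m : ℝ) / 2 * (2 / ((m : ℝ) + 1))) / 3 := by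
    rw [show (1 : ℝ) + -((m : ℝ) / 2 * (2 / ((m : ℝ) + 1))) / 3 = 1 - (m : ℝ) / (3 * ((m : ℝ) + 1)) by
      field_simp; ring]
    rw [le_sub_iff_add_le, ← le_sub_iff_add_le', div_le_iff₀ (by positivity)]
    linarith only []
  have h7 := mul_le_mul_of_nonneg_left h6 hx.1.le
  linarith only [h5, h7]

theorem u15_exp_lin {v : ℝ} (hv : 16 ≤ v) : 2 * v ≤ Real.exp (2 * v / 9) := by
  have h1 : (32 : ℝ) ≤ Real.exp (32 / 9) := by
    have h2 : (1.559 : ℝ) ≤ Real.exp (4 / 9) := by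
      have := Real.sum_le_exp_of_nonneg (x := 4 / 9) (by norm_num) 5
      simp only [Finset.sum_range_succ, Finset.sum_range_zero, Nat.factorial] at this
      norm_num at this
      linarith only [this]
    have h3 : Real.exp (32 / 9) = Real.exp (4 / 9) ^ 8 := by
      rw [← Real.exp_nat_mul]; norm_num
    rw [h3]
    calc (32 : ℝ) ≤ 1.559 ^ 8 := by norm_num
      _ ≤ _ := pow_le_pow_left₀ (by norm_num) h2 8
  have h4 := Real.add_one_le_exp (2 * v / 9 - 32 / 9)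
  have h5 : Real.exp (2 * v / 9) = Real.exp (32 / 9) * Real.exp (2 * v / 9 - 32 / 9) := by
    rw [← Real.exp_add]; ring_nf
  rw [h5]
  calc 2 * v ≤ 32 * (2 * v / 9 - 32 / 9 + 1) := by linarith only [hv]
    _ ≤ Real.exp (32 / 9) * Real.exp (2 * v / 9 - 32 / 9) :=
      mul_le_mul h1 h4 (by linarith only [hv]) (Real.exp_pos _).le

theorem u15_exp_four : Real.exp (4 / 3) < 4 := by
  have h1 : Real.exp (4 / 3) ^ 3 < 4 ^ 3 := by
    rw [← Real.exp_nat_mul]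
    have h2 : Real.exp ((3 : ℕ) * (4 / 3)) = Real.exp 1 ^ 4 := by
      rw [← Real.exp_nat_mul]; norm_num
    rw [h2]
    calc Real.exp 1 ^ 4 < 2.8 ^ 4 := by
          apply pow_lt_pow_left₀ _ (Real.exp_pos _).le (by norm_num)
          linarith only [Real.exp_one_lt_d9]
      _ < 4 ^ 3 := by norm_num
  exact lt_of_pow_lt_pow_left₀ 3 (by norm_num) h1

/-- `lam ≥ -(m+1)/9`, i.e. the multiplier `1 + 9 lam/(m+1)` is nonnegative -/
theorem IsTrans.u15_lam_ge (hm : 15 ≤ m) (hr : IsProf r) (h : IsTrans m r τ τ' T) {x₀ : ℝ}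
    (hx : x₀ ∈ Ioo (0 : ℝ) 1) (h0 : x₀ ^ 2 = 2 / ((m : ℝ) + 1)) :
    -(((m : ℝ) + 1) / 9) ≤ lf τ x₀ := by
  have hm' : (15 : ℝ) ≤ m := by exact_mod_cast hm
  set c := ((m : ℝ) + 1) / 9 with hc
  set t := x₀ * Real.exp (-c) with ht
  have ht0 : 0 < t := mul_pos hx.1 (Real.exp_pos _)
  have h1 : ((m : ℝ) + 1) * t ≤ 1 := by
    have h2 := u15_exp_lin (v := (m : ℝ) + 1) (by linarith only [hm'])
    have h3 : (((m : ℝ) + 1) * t) ^ 2 ≤ 1 ^ 2 := by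
      have e1 : Real.exp (-c) ^ 2 = (Real.exp (2 * ((m : ℝ) + 1) / 9))⁻¹ := by
        rw [← Real.exp_neg, ← Real.exp_nat_mul, hc]
        congr 1
        push_cast
        ring
      have e2 : (((m : ℝ) + 1) * t) ^ 2 =
          (2 * ((m : ℝ) + 1)) * (Real.exp (2 * ((m : ℝ) + 1) / 9))⁻¹ := by
        rw [ht, mul_pow, mul_pow, h0, e1]
        (clear * - hm; field_simp)
      rw [e2, one_pow, ← div_eq_mul_inv, div_le_one (Real.exp_pos _)]
      exact h2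
    exact le_of_sq_le_sq h3 zero_le_one
  have h4 : t ≤ 1 / 16 := by
    rw [le_div_iff₀ (by norm_num)]
    (by_contra nlg; linarith only [nlg, mul_nonneg (le_of_lt (sub_pos.2 (not_le.1 nlg))) (sub_nonneg.2 hm'), h1, hm'])
  refine h.pin_ge_of hr hx (c := c) (ρ := 1 - t) (Q := 1 / 4) (by linarith only [h4]) ?_ (u15_P hm hx h0) ?_
  · have h5 : 1 - (1 - t)⁻¹ ≤ Real.log (1 - t) := Real.one_sub_inv_le_log_of_pos (by linarith only [h4])
    have h6 : -(4 / 3) ≤ ((m : ℝ) + 1) * Real.log (1 - t) := by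
      have h7 : (1 - (1 - t)⁻¹) = -(t / (1 - t)) := by
        have : 1 - t ≠ 0 := by linarith only [h4]
        field_simp
        ring
      rw [h7] at h5
      have h8 : ((m : ℝ) + 1) * (t / (1 - t)) ≤ 4 / 3 := by
        rw [← mul_div_assoc, div_le_iff₀ (by linarith only [h4])]
        linarith only [h1, h4]
      nlinarith only [h8, h5]
    have h9 : (1 - t) ^ (m + 1) = Real.exp (((m : ℝ) + 1) * Real.log (1 - t)) := by
      rw [← Real.rpow_natCast, Real.rpow_def_of_pos (by linarith only [h4])]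
      push_cast
      ring_nf
    rw [h9]
    calc (1 : ℝ) / 4 < (Real.exp (4 / 3))⁻¹ := by
          rw [one_div]
          exact inv_strictAnti₀ (Real.exp_pos _) u15_exp_four
      _ = Real.exp (-(4 / 3)) := (Real.exp_neg _).symm
      _ ≤ _ := Real.exp_le_exp.2 h6
  · have : Real.exp (-c) * Real.exp c = 1 := by rw [← Real.exp_add]; simp
    rw [sub_sub_cancel, ht, mul_assoc, this, mul_one]

/-- `lam ≤ 3/5` from the sign bound at `x₀` (`m ≤ 26`) -/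
theorem u15_lam_le (hm' : m ≤ 26) {x₀ lam : ℝ} (h0 : x₀ ^ 2 = 2 / ((m : ℝ) + 1))
    (hs : lam ≤ (1 - x₀ ^ 2) * (127 / 200 + 33 / 200 * x₀ ^ 2)) : lam ≤ 3 / 5 := by
  have h1 : (m : ℝ) ≤ 26 := by exact_mod_cast hm'
  have h2 : (2 : ℝ) / 27 ≤ x₀ ^ 2 := by
    rw [h0]
    exact div_le_div_of_nonneg_left (by norm_num) (by (clear * -; positivity)) (by linarith only [h1])
  have h3 := cu_mono (z := x₀ ^ 2) (z0 := 2 / 27) (by norm_num) h2
  norm_num at h3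
  (clear * - hs h3; linarith)

/-! ### the inputs -/

/-- The information on `(x, l, u, lam)`; `l = log (τ x / x)`, `u = x τ' x / τ x - 1`, `lam = l(x₀)`,
`x₀² = 2/(m+1)`. -/
structure U15In (m : ℕ) (x l u lam : ℝ) : Prop where
  hm : 15 ≤ m
  hx : x ∈ Ioo (0 : ℝ) 1
  hu : 0 < 1 + u
  tau1 : x * Real.exp l ≤ 1
  Es : sq x ^ m ≤ 1 + u
  us : u * sq x ≤ 1
  uk : 0 ≤ u → u ^ 2 ≤ 17 / 100 * (((m : ℝ) - 1) * (x ^ 2 / sq x ^ 2))
  tail : (1 + (1 + u) * sq x ^ 2 / (((m : ℝ) + 2) - ((m : ℝ) + 1) * sq x ^ 2)) *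
    (x * Real.exp l) ≤ 1
  sgn : l ≤ (1 - x ^ 2) * (127 / 200 + 33 / 200 * x ^ 2)
  corr2 : -(2 * (x ^ 2 / sq x ^ 2)) * l ^ 2 ≤
    sq x * (bg (x * Real.exp l) - bg x) + x ^ 2 * l / (1 + sq x) ^ 2
  corrL : ((m : ℝ) + 1) * x ^ 2 < 2 → -(1 / 2 * (x ^ 2 / sq x ^ 2)) * l ^ 2 ≤
    sq x * (bg (x * Real.exp l) - bg x) + x ^ 2 * l / (1 + sq x) ^ 2
  lamlo : -(((m : ℝ) + 1) / 9) ≤ lam
  lamhi : lam ≤ 3 / 5

/-- all inputs for a transport which satisfies the sign bounds: `l ≤ l**`, and `l ≤ l*` if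
`m ≤ 22` -/
theorem IsTrans.u15In (hm : 15 ≤ m) (hm' : m ≤ 26) (hr : IsProf r) (h : IsTrans m r τ τ' T)
    {x₀ : ℝ} (hx₀ : x₀ ∈ Ioo (0 : ℝ) 1) (h0 : x₀ ^ 2 = 2 / ((m : ℝ) + 1))
    (hsgn : ∀ x ∈ Ioo (0 : ℝ) 1, lf τ x ≤ (1 - x ^ 2) * (127 / 200 + 33 / 200 * x ^ 2))
    (hsgn' : m ≤ 22 → ∀ x ∈ Ioo (0 : ℝ) 1, lf τ x ≤ (1 - x ^ 2) * (31 / 50 + 7 / 50 * x ^ 2))
    (hx : x ∈ Ioo (0 : ℝ) 1) :
    U15In m x (lf τ x) (uf τ τ' x) (lf τ x₀) := by
  have hs2 : sq x ^ 2 = 1 - x ^ 2 := pin_sq_sq (Ioo_subset_Icc_self hx)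
  have h1 : x * Real.exp (lf τ x) ≤ 1 := (pin_le_one h hx).le
  have hmr : (15 : ℝ) ≤ m := by exact_mod_cast hm
  refine ⟨hm, hx, uf_pos h hx, h1, h.pin_h3 hr hx, h.pin_slope_one hr hx, h.u15_uk hm hr hx,
    h.pin_h5 (by omega) hr hx, hsgn x hx, cu_corr_two hx h1 (fun _ => hsgn x hx), ?_,
    h.u15_lam_ge hm hr hx₀ h0, u15_lam_le hm' h0 (hsgn x₀ hx₀)⟩
  intro h8
  rcases le_or_gt m 22 with h22 | h22
  · refine u15_corr_half hx h1 ?_ ?_
    · rw [hs2]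
      exact hsgn' h22 x hx
    · nlinarith only [h8, hmr]
  · refine cu_corr_half hx h1 (hsgn x hx) ?_
    have h23 : (23 : ℝ) ≤ m := by exact_mod_cast h22
    nlinarith only [h8, h23]

end

end Vale.Agent.P237.AllN
end

section

/-!
# P237, all dimensions: certificates with an additional null function; log form of the constraint
-/

open MeasureTheory Metric Set Module Filter Topology

namespace Vale.Agent.P237.AllN

section

variable {m : ℕ} {r τ τ' T : ℝ → ℝ}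

/-- `cert_H` with an additional null function `M`; the null term is `h(x) L² + e(x) lam L + f(x) lam²`, `lam = l(x₀)`,
`L = l - lam`. -/
theorem cert_H_null (hm : 4 ≤ m) {A : ℝ → ℝ → ℝ} (hA : Kern2 A) (hr : IsProf r)
    (hT : IsTrans m r τ τ' T)
    (hN : (∫ y in (-1 : ℝ)..1, r y ^ (m - 1)) ^ m * aInt m ^ (m - 1) ≤
      aInt (m - 1) ^ m * (∫ y in (-1 : ℝ)..1, r y ^ m) ^ (m - 1))
    {cx px Ψx Tx : ℝ → ℝ} (hX : XPair m τ τ' cx px Ψx Tx)
    (hS : ∀ x ∈ Ioo (0 : ℝ) 1, ∀ b ∈ Icc (-1 : ℝ) 1, (bc0 (sq x) (lf τ x) + cx x) +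
      (τ x * bM0 (sq x) (lf τ x) + px x) * b ≤ A (τ x) b)
    {μ : ℝ} (hμ : 0 ≤ μ) {x₀ : ℝ} (hx₀ : x₀ ∈ Ioo (0 : ℝ) 1) {h h' e e' f f' : ℝ → ℝ}
    {Ch Ce Cf : ℝ}
    (hh : ∀ x ∈ Ioo (0 : ℝ) 1, x ≠ x₀ → HasDerivAt h (h' x) x)
    (he : ∀ x ∈ Ioo (0 : ℝ) 1, x ≠ x₀ → HasDerivAt e (e' x) x)
    (hf : ∀ x ∈ Ioo (0 : ℝ) 1, x ≠ x₀ → HasDerivAt f (f' x) x)
    (hhb : ∀ x ∈ Ioo (0 : ℝ) 1, |h x| * |x - x₀| ≤ Ch) (heb : ∀ x ∈ Ioo (0 : ℝ) 1, |e x| ≤ Ce)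
    (hfc : ContinuousOn f (Ioo 0 1)) (hfb : ∀ x ∈ Ioo (0 : ℝ) 1, |f x| ≤ Cf)
    {M M' : ℝ → ℝ} {CM : ℝ} (hMc : ContinuousOn M (Ioo 0 1))
    (hMd : ∀ x ∈ Ioo (0 : ℝ) 1, x ≠ x₀ → HasDerivAt M (M' x) x)
    (hMb : ∀ x ∈ Ioo (0 : ℝ) 1, |M x| * sq x ^ 2 ≤ CM)
    {ε : ℝ} (hε : 0 < ε)
    (hpt : ∀ x ∈ Ioo (0 : ℝ) 1, x ≠ x₀ → ε * (uf τ τ' x ^ 2 / (1 + uf τ τ' x)) ≤
      brT m τ τ' μ x + Tx x + (x * h' x * (lf τ x - lf τ x₀) ^ 2 +
        2 * h x * (lf τ x - lf τ x₀) * uf τ τ' x + x * e' x * lf τ x₀ * (lf τ x - lf τ x₀) +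
        e x * lf τ x₀ * uf τ τ' x + x * f' x * lf τ x₀ ^ 2 +
        (1 - ((m : ℝ) - 1) * (x ^ 2 / sq x ^ 2)) *
          (h x * (lf τ x - lf τ x₀) ^ 2 + e x * lf τ x₀ * (lf τ x - lf τ x₀) +
            f x * lf τ x₀ ^ 2)) +
        (x * M' x + (1 - ((m : ℝ) - 1) * (x ^ 2 / sq x ^ 2)) * M x)) :
    (∃ k : ℝ, ∀ y ∈ Ioo (-1 : ℝ) 1, r y = k * Real.sqrt (1 - y ^ 2)) ∨
    ∃ v : ℝ, 0 < v ∧ AdmGe m (fun a b => A a b + (bφ m b - bφ m a)) r v := by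
  obtain ⟨hc, C, hC⟩ := nH_cont (by omega) hr hT hx₀ hh he hhb heb hfc hfb
  refine cert_gen hm hA hr hT hN hX hS hμ (x₀ := x₀) (N := fun x => nH τ h e f x₀ x + M x)
    (N' := fun x => nH' τ τ' h h' e e' f' x₀ x + M' x) (CN := C + CM) (hc.add hMc)
    (fun x hx hne => (nH_der hT hx (hh x hx hne) (he x hx hne) (hf x hx hne)).add (hMd x hx hne))
    (fun x hx => by
      refine (mul_le_mul_of_nonneg_right (abs_add_le _ _) (sq_nonneg _)).trans ?_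
      rw [add_mul]
      exact add_le_add (hC x hx) (hMb x hx)) hε ?_
  intro x hx hne
  refine (hpt x hx hne).trans (le_of_eq ?_)
  have hx0 := hx.1.ne'
  unfold nH nH'
  field_simp
  ring

/-- `cert_pole` with an additional null function `M`.  With `lam = l(x₀)`, `L = l - lam`, the null term is
`(a1 x²/(x₀²-x²) + gL) L² + eL lam L + f lam²` for `x < x₀` and
`(-a4 x²/(x²-x₀²) + gR) L² + eR lam L + f lam²` for `x > x₀`. -/
theorem cert_pole_null (hm : 4 ≤ m) {A : ℝ → ℝ → ℝ} (hA : Kern2 A) (hr : IsProf r)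
    (hT : IsTrans m r τ τ' T)
    (hN : (∫ y in (-1 : ℝ)..1, r y ^ (m - 1)) ^ m * aInt m ^ (m - 1) ≤
      aInt (m - 1) ^ m * (∫ y in (-1 : ℝ)..1, r y ^ m) ^ (m - 1))
    {cx px Ψx Tx : ℝ → ℝ} (hX : XPair m τ τ' cx px Ψx Tx)
    (hS : ∀ x ∈ Ioo (0 : ℝ) 1, ∀ b ∈ Icc (-1 : ℝ) 1, (bc0 (sq x) (lf τ x) + cx x) +
      (τ x * bM0 (sq x) (lf τ x) + px x) * b ≤ A (τ x) b)
    {μ : ℝ} (hμ : 0 ≤ μ) {x₀ : ℝ} (hx₀ : x₀ ∈ Ioo (0 : ℝ) 1) (a1 a4 : ℝ)
    {gL gL' gR gR' eL eL' eR eR' f f' : ℝ → ℝ}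
    (hgL : ∀ x ∈ Ioo (0 : ℝ) 1, HasDerivAt gL (gL' x) x) (hgLc : ContinuousOn gL (Icc 0 1))
    (hgR : ∀ x ∈ Ioo (0 : ℝ) 1, HasDerivAt gR (gR' x) x) (hgRc : ContinuousOn gR (Icc 0 1))
    (heL : ∀ x ∈ Ioo (0 : ℝ) 1, HasDerivAt eL (eL' x) x) (heLc : ContinuousOn eL (Icc 0 1))
    (heR : ∀ x ∈ Ioo (0 : ℝ) 1, HasDerivAt eR (eR' x) x) (heRc : ContinuousOn eR (Icc 0 1))
    (hf : ∀ x ∈ Ioo (0 : ℝ) 1, HasDerivAt f (f' x) x) (hfc : ContinuousOn f (Icc 0 1))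
    {M M' : ℝ → ℝ} {CM : ℝ} (hMc : ContinuousOn M (Ioo 0 1))
    (hMd : ∀ x ∈ Ioo (0 : ℝ) 1, x ≠ x₀ → HasDerivAt M (M' x) x)
    (hMb : ∀ x ∈ Ioo (0 : ℝ) 1, |M x| * sq x ^ 2 ≤ CM)
    {ε : ℝ} (hε : 0 < ε)
    (hL : ∀ x ∈ Ioo (0 : ℝ) 1, x < x₀ → ε * (uf τ τ' x ^ 2 / (1 + uf τ τ' x)) ≤
      brT m τ τ' μ x + Tx x +
        ((2 * a1 * (x ^ 2 * x₀ ^ 2 / (x₀ ^ 2 - x ^ 2) ^ 2) + x * gL' x) *
          (lf τ x - lf τ x₀) ^ 2 +
        2 * (a1 * (x ^ 2 / (x₀ ^ 2 - x ^ 2)) + gL x) * (lf τ x - lf τ x₀) * uf τ τ' x +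
        x * eL' x * lf τ x₀ * (lf τ x - lf τ x₀) + eL x * lf τ x₀ * uf τ τ' x +
        x * f' x * lf τ x₀ ^ 2 + (1 - ((m : ℝ) - 1) * (x ^ 2 / sq x ^ 2)) *
          ((a1 * (x ^ 2 / (x₀ ^ 2 - x ^ 2)) + gL x) * (lf τ x - lf τ x₀) ^ 2 +
            eL x * lf τ x₀ * (lf τ x - lf τ x₀) + f x * lf τ x₀ ^ 2)) +
        (x * M' x + (1 - ((m : ℝ) - 1) * (x ^ 2 / sq x ^ 2)) * M x))
    (hR : ∀ x ∈ Ioo (0 : ℝ) 1, x₀ < x → ε * (uf τ τ' x ^ 2 / (1 + uf τ τ' x)) ≤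
      brT m τ τ' μ x + Tx x +
        ((2 * a4 * (x ^ 2 * x₀ ^ 2 / (x ^ 2 - x₀ ^ 2) ^ 2) + x * gR' x) *
          (lf τ x - lf τ x₀) ^ 2 +
        2 * (-(a4 * (x ^ 2 / (x ^ 2 - x₀ ^ 2))) + gR x) * (lf τ x - lf τ x₀) * uf τ τ' x +
        x * eR' x * lf τ x₀ * (lf τ x - lf τ x₀) + eR x * lf τ x₀ * uf τ τ' x +
        x * f' x * lf τ x₀ ^ 2 + (1 - ((m : ℝ) - 1) * (x ^ 2 / sq x ^ 2)) *
          ((-(a4 * (x ^ 2 / (x ^ 2 - x₀ ^ 2))) + gR x) * (lf τ x - lf τ x₀) ^ 2 +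
            eR x * lf τ x₀ * (lf τ x - lf τ x₀) + f x * lf τ x₀ ^ 2)) +
        (x * M' x + (1 - ((m : ℝ) - 1) * (x ^ 2 / sq x ^ 2)) * M x)) :
    (∃ k : ℝ, ∀ y ∈ Ioo (-1 : ℝ) 1, r y = k * Real.sqrt (1 - y ^ 2)) ∨
    ∃ v : ℝ, 0 < v ∧ AdmGe m (fun a b => A a b + (bφ m b - bφ m a)) r v := by
  obtain ⟨C1, hC1, bL⟩ := bdd_of_cont hgLc
  obtain ⟨C2, hC2, bR⟩ := bdd_of_cont hgRc
  obtain ⟨C3, hC3, dL⟩ := bdd_of_cont heLc
  obtain ⟨C4, hC4, dR⟩ := bdd_of_cont heRc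
  obtain ⟨C5, hC5, bf⟩ := bdd_of_cont hfc
  have hsub : Ioo (0 : ℝ) 1 ⊆ Icc 0 1 := Ioo_subset_Icc_self
  have hxx : ∀ x ∈ Ioo (0 : ℝ) 1, |x - x₀| ≤ 1 := fun x hx => by
    rw [abs_le]; constructor <;> linarith only [hx.1, hx₀.2, hx.2, hx₀.1]
  refine cert_H_null hm hA hr hT hN hX hS hμ hx₀
    (h := glue x₀ (fun x => a1 * (x ^ 2 / (x₀ ^ 2 - x ^ 2)) + gL x)
      (fun x => -(a4 * (x ^ 2 / (x ^ 2 - x₀ ^ 2))) + gR x))
    (h' := glue x₀ (fun x => a1 * (2 * x * x₀ ^ 2 / (x₀ ^ 2 - x ^ 2) ^ 2) + gL' x)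
      (fun x => a4 * (2 * x * x₀ ^ 2 / (x ^ 2 - x₀ ^ 2) ^ 2) + gR' x))
    (e := glue x₀ eL eR) (e' := glue x₀ eL' eR') (f := f) (f' := f')
    (Ch := (|a1| / x₀ + C1) + (|a4| / x₀ + C2)) (Ce := C3 + C4) (Cf := C5)
    ?_ ?_ (fun x hx _ => hf x hx) ?_ ?_ (hfc.mono hsub) (fun x hx => bf x (hsub hx)) hMc hMd hMb hε ?_
  · intro x hx hne
    exact glue_der hne (fun h => pole_left_der hx.1 h (hgL x hx))
      (fun h => pole_right_der hx₀.1 h (hgR x hx))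
  · intro x hx hne
    exact glue_der hne (fun h => heL x hx) (fun h => heR x hx)
  · intro x hx
    have q1 : 0 ≤ |a1| / x₀ := div_nonneg (abs_nonneg _) hx₀.1.le
    have q2 : 0 ≤ |a4| / x₀ := div_nonneg (abs_nonneg _) hx₀.1.le
    have key : ∀ P g C Q : ℝ, |P| * |x - x₀| ≤ Q → |g| ≤ C → 0 ≤ C →
        |P + g| * |x - x₀| ≤ Q + C := by
      intro P g C Q hP hg hC
      calc |P + g| * |x - x₀| ≤ (|P| + |g|) * |x - x₀| :=
            mul_le_mul_of_nonneg_right (abs_add_le _ _) (abs_nonneg _)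
        _ = |P| * |x - x₀| + |g| * |x - x₀| := by ring
        _ ≤ Q + C := by
            apply add_le_add hP
            calc |g| * |x - x₀| ≤ C * 1 := mul_le_mul hg (hxx x hx) (abs_nonneg _) hC
              _ = C := mul_one C
    rcases lt_trichotomy x x₀ with h | h | h
    · rw [glue_left h]
      have := key _ _ _ _ (pole_left_bdd (a1 := a1) hx.1 hx.2.le h) (bL x (hsub hx)) hC1
      linarith only [this, q2, hC2]
    · rw [h, sub_self, abs_zero, mul_zero]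
      linarith only [hC1, hC2, q1, q2]
    · rw [glue_right h]
      have := key _ _ _ _ (pole_right_bdd (a4 := a4) hx.2.le h hx₀.1) (bR x (hsub hx)) hC2
      linarith only [hC1, q1, this]
  · intro x hx
    unfold glue
    split_ifs
    · linarith only [hC4, dL x (hsub hx)]
    · linarith only [hC3, dR x (hsub hx)]
  · intro x hx hne
    rcases lt_or_gt_of_ne hne with h | h
    · refine (hL x hx h).trans (le_of_eq ?_)
      simp only [glue_left h]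
      ring
    · refine (hR x hx h).trans (le_of_eq ?_)
      simp only [glue_right h]
      ring


/-! ### the log form of the constraint -/

/-- the pointwise functional with the log form of the constraint term -/
noncomputable def brTlog (m : ℕ) (τ τ' : ℝ → ℝ) (μ x : ℝ) : ℝ :=
  bγ m * (2 * (1 - sq x ^ 2 / (1 + sq x)) - 3 * (x ^ 2 / sq x ^ 2) * lf τ x) *
      (uf τ τ' x ^ 2 / (1 + uf τ τ' x)) -
    μ * (uf τ τ' x - Real.log (1 + uf τ τ' x)) +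
    ((m : ℝ) - 1) * (x ^ 2 / sq x ^ 2) * (μ - 1) * lf τ x -
    3 / 2 * bγ m * (x ^ 2 / sq x ^ 2) * (3 - ((m : ℝ) - 3) * (x ^ 2 / sq x ^ 2)) * lf τ x ^ 2 +
    bγ m * (sq x * (bg (τ x) - bg x) + x ^ 2 * lf τ x / (1 + sq x) ^ 2)

/-- the null function `μ (m (e^{l/m} - 1) - l)` -/
noncomputable def nlog (m : ℕ) (τ : ℝ → ℝ) (μ x : ℝ) : ℝ :=
  μ * (m * (Real.exp (lf τ x / m) - 1) - lf τ x)

theorem nlog_der (hm : 1 ≤ m) (h : IsTrans m r τ τ' T) (μ : ℝ) {x : ℝ} (hx : x ∈ Ioo (0 : ℝ) 1) :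
    HasDerivAt (nlog m τ μ) (μ * ((Real.exp (lf τ x / m) - 1) * (uf τ τ' x / x))) x := by
  have hl := lf_hasDerivAt h hx
  have hm0 : (m : ℝ) ≠ 0 := by
    have : (1 : ℝ) ≤ m := by exact_mod_cast hm
    linarith only [this]
  have e := (((((hl.div_const (m : ℝ)).exp).sub_const 1).const_mul (m : ℝ)).sub hl).const_mul μ
  refine e.congr_deriv ?_
  field_simp

theorem nlog_bdd (hm : 1 ≤ m) (hr : IsProf r) (h : IsTrans m r τ τ' T) (μ : ℝ) :
    ∃ C : ℝ, ∀ x ∈ Ioo (0 : ℝ) 1, |nlog m τ μ x| * sq x ^ 2 ≤ C := by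
  obtain ⟨C, hC, hb⟩ := lf_bdd hm hr h
  have hm1 : (1 : ℝ) ≤ m := by exact_mod_cast hm
  refine ⟨|μ| * (m * (Real.exp C + 1) + C), fun x hx => ?_⟩
  have hs := sqx_pos hx
  have hs2 : sq x ^ 2 ≤ 1 := pow_le_one₀ hs.le (br_sq_le_one x)
  have h1 : |nlog m τ μ x| ≤ |μ| * (m * (Real.exp C + 1) + C) := by
    unfold nlog
    rw [abs_mul]
    apply mul_le_mul_of_nonneg_left _ (abs_nonneg _)
    refine (abs_sub _ _).trans (add_le_add ?_ (hb x hx))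
    rw [abs_mul, abs_of_nonneg (by linarith only [] : (0 : ℝ) ≤ m)]
    apply mul_le_mul_of_nonneg_left _ (by linarith only [])
    refine (abs_sub _ _).trans ?_
    rw [abs_of_pos (Real.exp_pos _), abs_one]
    have : lf τ x / m ≤ C := by
      rw [div_le_iff₀ (by linarith only [hm1])]
      have := (le_abs_self (lf τ x)).trans (hb x hx)
      linarith only [mul_nonneg (sub_nonneg.2 hC) (sub_nonneg.2 hm1), this]
    linarith only [Real.exp_le_exp.2 this]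
  calc |nlog m τ μ x| * sq x ^ 2 ≤ |nlog m τ μ x| * 1 :=
        mul_le_mul_of_nonneg_left hs2 (abs_nonneg _)
    _ ≤ _ := by rw [mul_one]; exact h1

/-- exact constraint term plus the null term of `nlog` is at least the log form -/
theorem brTlog_le (hm : 1 ≤ m) (h : IsTrans m r τ τ' T) {μ : ℝ} (hμ : 0 ≤ μ) {x : ℝ}
    (hx : x ∈ Ioo (0 : ℝ) 1) : brTlog m τ τ' μ x ≤ brT m τ τ' μ x +
      (x * (μ * ((Real.exp (lf τ x / m) - 1) * (uf τ τ' x / x))) +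
        (1 - ((m : ℝ) - 1) * (x ^ 2 / sq x ^ 2)) * nlog m τ μ x) := by
  have hu := uf_pos h hx
  have hx0 := hx.1
  have hm1 : (1 : ℝ) ≤ m := by exact_mod_cast hm
  have hm0 : (0 : ℝ) < m := by linarith only [hm1]
  set l := lf τ x with hl
  set u := uf τ τ' x with hud
  -- `m (EV - 1) ≥ l + log (1+u)`
  have key : l + Real.log (1 + u) ≤ m * (Real.exp (l / m) * (1 + u) ^ (1 / (m : ℝ)) - 1) := by
    have hV : (1 + u) ^ (1 / (m : ℝ)) = Real.exp (Real.log (1 + u) / m) := by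
      rw [Real.rpow_def_of_pos hu]
      congr 1
      ring
    rw [hV, ← Real.exp_add, ← add_div]
    have h1 := Real.add_one_le_exp ((l + Real.log (1 + u)) / m)
    have h2 : l + Real.log (1 + u) = m * ((l + Real.log (1 + u)) / m) := by (clear * - hm; field_simp)
    nlinarith only [h2, h1]
  rw [brT_eq]
  unfold brTlog nlog
  rw [← hl, ← hud]
  have e : x * (μ * ((Real.exp (l / m) - 1) * (u / x))) = μ * ((Real.exp (l / m) - 1) * u) := by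
    (clear * - hx0; field_simp)
  rw [e]
  have h2 := mul_le_mul_of_nonneg_left key hμ
  linarith

/-- **`cert_pole` with the log form of the constraint term** (note of helper905). -/
theorem cert_pole_log (hm : 4 ≤ m) {A : ℝ → ℝ → ℝ} (hA : Kern2 A) (hr : IsProf r)
    (hT : IsTrans m r τ τ' T)
    (hN : (∫ y in (-1 : ℝ)..1, r y ^ (m - 1)) ^ m * aInt m ^ (m - 1) ≤
      aInt (m - 1) ^ m * (∫ y in (-1 : ℝ)..1, r y ^ m) ^ (m - 1))
    {cx px Ψx Tx : ℝ → ℝ} (hX : XPair m τ τ' cx px Ψx Tx)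
    (hS : ∀ x ∈ Ioo (0 : ℝ) 1, ∀ b ∈ Icc (-1 : ℝ) 1, (bc0 (sq x) (lf τ x) + cx x) +
      (τ x * bM0 (sq x) (lf τ x) + px x) * b ≤ A (τ x) b)
    {μ : ℝ} (hμ : 0 ≤ μ) {x₀ : ℝ} (hx₀ : x₀ ∈ Ioo (0 : ℝ) 1) (a1 a4 : ℝ)
    {gL gL' gR gR' eL eL' eR eR' f f' : ℝ → ℝ}
    (hgL : ∀ x ∈ Ioo (0 : ℝ) 1, HasDerivAt gL (gL' x) x) (hgLc : ContinuousOn gL (Icc 0 1))
    (hgR : ∀ x ∈ Ioo (0 : ℝ) 1, HasDerivAt gR (gR' x) x) (hgRc : ContinuousOn gR (Icc 0 1))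
    (heL : ∀ x ∈ Ioo (0 : ℝ) 1, HasDerivAt eL (eL' x) x) (heLc : ContinuousOn eL (Icc 0 1))
    (heR : ∀ x ∈ Ioo (0 : ℝ) 1, HasDerivAt eR (eR' x) x) (heRc : ContinuousOn eR (Icc 0 1))
    (hf : ∀ x ∈ Ioo (0 : ℝ) 1, HasDerivAt f (f' x) x) (hfc : ContinuousOn f (Icc 0 1))
    {ε : ℝ} (hε : 0 < ε)
    (hL : ∀ x ∈ Ioo (0 : ℝ) 1, x < x₀ → ε * (uf τ τ' x ^ 2 / (1 + uf τ τ' x)) ≤
      brTlog m τ τ' μ x + Tx x +
        ((2 * a1 * (x ^ 2 * x₀ ^ 2 / (x₀ ^ 2 - x ^ 2) ^ 2) + x * gL' x) *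
          (lf τ x - lf τ x₀) ^ 2 +
        2 * (a1 * (x ^ 2 / (x₀ ^ 2 - x ^ 2)) + gL x) * (lf τ x - lf τ x₀) * uf τ τ' x +
        x * eL' x * lf τ x₀ * (lf τ x - lf τ x₀) + eL x * lf τ x₀ * uf τ τ' x +
        x * f' x * lf τ x₀ ^ 2 + (1 - ((m : ℝ) - 1) * (x ^ 2 / sq x ^ 2)) *
          ((a1 * (x ^ 2 / (x₀ ^ 2 - x ^ 2)) + gL x) * (lf τ x - lf τ x₀) ^ 2 +
            eL x * lf τ x₀ * (lf τ x - lf τ x₀) + f x * lf τ x₀ ^ 2)))
    (hR : ∀ x ∈ Ioo (0 : ℝ) 1, x₀ < x → ε * (uf τ τ' x ^ 2 / (1 + uf τ τ' x)) ≤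
      brTlog m τ τ' μ x + Tx x +
        ((2 * a4 * (x ^ 2 * x₀ ^ 2 / (x ^ 2 - x₀ ^ 2) ^ 2) + x * gR' x) *
          (lf τ x - lf τ x₀) ^ 2 +
        2 * (-(a4 * (x ^ 2 / (x ^ 2 - x₀ ^ 2))) + gR x) * (lf τ x - lf τ x₀) * uf τ τ' x +
        x * eR' x * lf τ x₀ * (lf τ x - lf τ x₀) + eR x * lf τ x₀ * uf τ τ' x +
        x * f' x * lf τ x₀ ^ 2 + (1 - ((m : ℝ) - 1) * (x ^ 2 / sq x ^ 2)) *
          ((-(a4 * (x ^ 2 / (x ^ 2 - x₀ ^ 2))) + gR x) * (lf τ x - lf τ x₀) ^ 2 +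
            eR x * lf τ x₀ * (lf τ x - lf τ x₀) + f x * lf τ x₀ ^ 2))) :
    (∃ k : ℝ, ∀ y ∈ Ioo (-1 : ℝ) 1, r y = k * Real.sqrt (1 - y ^ 2)) ∨
    ∃ v : ℝ, 0 < v ∧ AdmGe m (fun a b => A a b + (bφ m b - bφ m a)) r v := by
  obtain ⟨CM, hCM⟩ := nlog_bdd (by omega) hr hT μ
  refine cert_pole_null hm hA hr hT hN hX hS hμ hx₀ a1 a4 hgL hgLc hgR hgRc heL heLc heR heRc
    hf hfc (M := nlog m τ μ) (M' := fun x => μ * ((Real.exp (lf τ x / m) - 1) * (uf τ τ' x / x)))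
    (CM := CM) (fun x hx => (nlog_der (by omega) hT μ hx).continuousAt.continuousWithinAt)
    (fun x hx _ => nlog_der (by omega) hT μ hx) hCM hε ?_ ?_
  · intro x hx h
    refine (hL x hx h).trans ?_
    have := brTlog_le (by omega) hT hμ hx
    linarith
  · intro x hx h
    refine (hR x hx h).trans ?_
    have := brTlog_le (by omega) hT hμ hx
    linarith only [this]

end

end Vale.Agent.P237.AllN
end

section

/-!
# P237, uniform plain certificate (`m ≥ 15`): assembly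
-/

open MeasureTheory Metric Set Module Filter Topology

namespace Vale.Agent.P237.AllN

/-- the normalized pointwise functional without the potential: `Y = (m-1) x²/s²`, `v = log (1+u)`,
`c` = correction term divided by `x²/s²` -/
noncomputable def u15F (m s Y l u lam v c : ℝ) : ℝ :=
  (m + 1) / Y * (v - u / (1 + u)) + (s ^ 2 * (1 + 2 * s) / (1 + s) ^ 2 - 2 / Y) * (u ^ 2 / (1 + u)) -
    9 / Y * lam * (u - v) - 3 * l * (u ^ 2 / (1 + u)) + 9 / 2 * (lam ^ 2 - (l - lam) ^ 2) +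
    3 / 2 * ((m - 3) / (m - 1)) * Y * l ^ 2 + c

/-- the normalized potential term for `Y < 2` -/
noncomputable def u15HL (m Y l u lam : ℝ) : ℝ :=
  8 * u * (l - lam) / (2 - Y) +
    (4 * (1 - Y) / (2 - Y) + 16 * (1 + Y / (m - 1)) / (2 - Y) ^ 2) * (l - lam) ^ 2

/-- the normalized potential term for `Y > 2` -/
noncomputable def u15HR (m Y l u lam : ℝ) : ℝ :=
  -(4 * (Y + 2) * u * (l - lam) / (Y * (Y - 2))) +
    (2 * (Y + 2) * (Y - 1) / (Y * (Y - 2)) + 16 * (1 + Y / (m - 1)) / (Y - 2) ^ 2) * (l - lam) ^ 2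

/-- algebra of the normalization (without potential) -/
theorem u15_normT {m x s l u lam v F : ℝ} (hm : 3 < m) (_hx : 0 < x) (hs : 0 < s)
    (hxs : x ^ 2 + s ^ 2 = 1) (hu : 0 < 1 + u) :
    (m - 1) / (m + 1) * (2 * (1 - s ^ 2 / (1 + s)) - 3 * (x ^ 2 / s ^ 2) * l) * (u ^ 2 / (1 + u)) -
      (1 + 9 * lam / (m + 1)) * (u - v) +
      (m - 1) * (x ^ 2 / s ^ 2) * ((1 + 9 * lam / (m + 1)) - 1) * l -
      3 / 2 * ((m - 1) / (m + 1)) * (x ^ 2 / s ^ 2) * (3 - (m - 3) * (x ^ 2 / s ^ 2)) * l ^ 2 +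
      (m - 1) / (m + 1) * F =
    ((m - 1) * (x ^ 2 / s ^ 2)) / (m + 1) *
      u15F m s ((m - 1) * (x ^ 2 / s ^ 2)) l u lam v (F / (x ^ 2 / s ^ 2)) := by
  have h1 : m - 1 ≠ 0 := by linarith only [hm]
  have h2 : m + 1 ≠ 0 := by linarith
  have h3 : 1 + s ≠ 0 := by positivity
  have h4 : 1 + u ≠ 0 := hu.ne'
  have e1 : 1 - s ^ 2 / (1 + s) = 1 / 2 + x ^ 2 * (1 + 2 * s) / (2 * (1 + s) ^ 2) := by
    rw [show x ^ 2 = 1 - s ^ 2 by linarith]
    field_simp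
    ring
  rw [e1]
  unfold u15F
  field_simp
  ring

theorem u15_normHL {m x s l u lam Y x₀ : ℝ} (hm : 3 < m) (_hx : 0 < x) (hs : 0 < s)
    (hxs : x ^ 2 + s ^ 2 = 1) (h0 : x₀ ^ 2 = 2 / (m + 1)) (hY : Y = (m - 1) * (x ^ 2 / s ^ 2))
    (h : x ^ 2 < x₀ ^ 2) :
    ((2 * (4 * (m - 1) / (m + 1) ^ 2) * (x ^ 2 * x₀ ^ 2 / (x₀ ^ 2 - x ^ 2) ^ 2) + x * 0) *
          (l - lam) ^ 2 +
        2 * ((4 * (m - 1) / (m + 1) ^ 2) * (x ^ 2 / (x₀ ^ 2 - x ^ 2)) + 0) * (l - lam) * u +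
        x * 0 * lam * (l - lam) + 0 * lam * u +
        x * 0 * lam ^ 2 + (1 - (m - 1) * (x ^ 2 / s ^ 2)) *
          (((4 * (m - 1) / (m + 1) ^ 2) * (x ^ 2 / (x₀ ^ 2 - x ^ 2)) + 0) * (l - lam) ^ 2 +
            0 * lam * (l - lam) + 0 * lam ^ 2)) = Y / (m + 1) * u15HL m Y l u lam := by
  have h1 : m - 1 ≠ 0 := by linarith only [hm]
  have h2 : m + 1 ≠ 0 := by linarith only [hm]
  have hs2 : s ^ 2 = 1 - x ^ 2 := by linarith only [hxs]
  have hx1 : 1 - x ^ 2 ≠ 0 := by rw [← hs2]; positivity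
  have h3 : 2 - (m + 1) * x ^ 2 ≠ 0 := by
    rw [h0, lt_div_iff₀ (by linarith only [hm])] at h
    linarith only [h]
  have e2 : x₀ ^ 2 - x ^ 2 = (2 - (m + 1) * x ^ 2) / (m + 1) := by
    rw [h0]; field_simp
  have e3 : 2 - Y = (2 - (m + 1) * x ^ 2) / (1 - x ^ 2) := by
    rw [hY, hs2]; field_simp; ring
  unfold u15HL
  rw [e3, e2, h0, hY, hs2]
  field_simp
  ring

theorem u15_normHR {m x s l u lam Y x₀ : ℝ} (hm : 3 < m) (hx : 0 < x) (hs : 0 < s)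
    (hxs : x ^ 2 + s ^ 2 = 1) (h0 : x₀ ^ 2 = 2 / (m + 1)) (hY : Y = (m - 1) * (x ^ 2 / s ^ 2))
    (h : x₀ ^ 2 < x ^ 2) :
    ((2 * (4 * (m - 1) / (m + 1) ^ 2) * (x ^ 2 * x₀ ^ 2 / (x ^ 2 - x₀ ^ 2) ^ 2) + x * 0) *
          (l - lam) ^ 2 +
        2 * (-((4 * (m - 1) / (m + 1) ^ 2) * (x ^ 2 / (x ^ 2 - x₀ ^ 2))) + 2 / (m + 1)) *
          (l - lam) * u +
        x * 0 * lam * (l - lam) + 0 * lam * u +
        x * 0 * lam ^ 2 + (1 - (m - 1) * (x ^ 2 / s ^ 2)) *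
          ((-((4 * (m - 1) / (m + 1) ^ 2) * (x ^ 2 / (x ^ 2 - x₀ ^ 2))) + 2 / (m + 1)) *
            (l - lam) ^ 2 + 0 * lam * (l - lam) + 0 * lam ^ 2)) =
      Y / (m + 1) * u15HR m Y l u lam := by
  have h1 : m - 1 ≠ 0 := by linarith only [hm]
  have h2 : m + 1 ≠ 0 := by linarith only [hm]
  have hs2 : s ^ 2 = 1 - x ^ 2 := by linarith only [hxs]
  have hx1 : 1 - x ^ 2 ≠ 0 := by rw [← hs2]; positivity
  have h3 : (m + 1) * x ^ 2 - 2 ≠ 0 := by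
    rw [h0, div_lt_iff₀ (by linarith only [hm])] at h
    (clear * - h; linarith)
  have e2 : x ^ 2 - x₀ ^ 2 = ((m + 1) * x ^ 2 - 2) / (m + 1) := by
    rw [h0]; (clear * - h2; field_simp)
  have e3 : Y - 2 = ((m + 1) * x ^ 2 - 2) / (1 - x ^ 2) := by
    rw [hY, hs2]; field_simp; ring
  unfold u15HR
  rw [e3, e2, h0, hY, hs2]
  field_simp
  ring

/-- value of the correction term divided by `x²/s²` -/
noncomputable def u15c (x l : ℝ) : ℝ :=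
  (sq x * (bg (x * Real.exp l) - bg x) + x ^ 2 * l / (1 + sq x) ^ 2) / (x ^ 2 / sq x ^ 2)

/-- the left inequality, `Y = (m-1) x²/s² < 2` -/
def U15Left (m : ℕ) : Prop := ∀ x l u lam : ℝ, U15In m x l u lam → ((m : ℝ) + 1) * x ^ 2 < 2 →
  1 / 10 * (u ^ 2 / (1 + u)) / (((m : ℝ) - 1) * (x ^ 2 / sq x ^ 2)) ≤
    u15F m (sq x) (((m : ℝ) - 1) * (x ^ 2 / sq x ^ 2)) l u lam (Real.log (1 + u)) (u15c x l) +
      u15HL m (((m : ℝ) - 1) * (x ^ 2 / sq x ^ 2)) l u lam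

/-- the right inequality, `Y = (m-1) x²/s² > 2` -/
def U15Right (m : ℕ) : Prop := ∀ x l u lam : ℝ, U15In m x l u lam → 2 < ((m : ℝ) + 1) * x ^ 2 →
  1 / 10 * (u ^ 2 / (1 + u)) / (((m : ℝ) - 1) * (x ^ 2 / sq x ^ 2)) ≤
    u15F m (sq x) (((m : ℝ) - 1) * (x ^ 2 / sq x ^ 2)) l u lam (Real.log (1 + u)) (u15c x l) +
      u15HR m (((m : ℝ) - 1) * (x ^ 2 / sq x ^ 2)) l u lam

/-- the plain tangent pair of `kA`, form used by the certificate -/
theorem u15_line {m : ℕ} {r τ τ' T : ℝ → ℝ} (h : IsTrans m r τ τ' T) {x : ℝ}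
    (hx : x ∈ Ioo (0 : ℝ) 1) {b : ℝ}
    (hs : kAc x (lf τ x) + kAp x (lf τ x) * b ≤ kA (τ x) b) :
    bc0 (sq x) (lf τ x) + τ x * bM0 (sq x) (lf τ x) * b ≤ kA (τ x) b := by
  rw [kAc_bc0 hx, kAp_bM0, pin_exp h hx] at hs
  exact hs

/-- **`OneD m` from the two pointwise inequalities, the sign bounds and the tangent pair**,
`15 ≤ m ≤ 26`: `l ≤ l** = (1-x²)(127/200+33/200x²)` and, for `m ≤ 22`,
`l ≤ l* = (1-x²)(31/50+7/50x²)`. -/
theorem oneD_u15 {m : ℕ} (hm : 15 ≤ m) (hm' : m ≤ 26)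
    (hsgn : ∀ r τ τ' T : ℝ → ℝ, IsProf r → IsTrans m r τ τ' T →
      (∫ y in (-1 : ℝ)..1, r y ^ (m - 1)) ^ m * aInt m ^ (m - 1) ≤
        aInt (m - 1) ^ m * (∫ y in (-1 : ℝ)..1, r y ^ m) ^ (m - 1) →
      ∀ x ∈ Ioo (0 : ℝ) 1, lf τ x ≤ (1 - x ^ 2) * (127 / 200 + 33 / 200 * x ^ 2) ∧
        (m ≤ 22 → lf τ x ≤ (1 - x ^ 2) * (31 / 50 + 7 / 50 * x ^ 2)) ∧
        ∀ b ∈ Icc (-1 : ℝ) 1, kAc x (lf τ x) + kAp x (lf τ x) * b ≤ kA (τ x) b)
    (hL : U15Left m) (hR : U15Right m) : OneD m := by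
  have hmr : (15 : ℝ) ≤ m := by exact_mod_cast hm
  have hm1 : (m : ℝ) + 1 ≠ 0 := by positivity
  refine oneD_of_cert (by omega) kA_kern2 (fun x hx b hb => kA_line_ball hx hb) ?_
  intro r τ τ' T hr hT hN
  set x₀ : ℝ := Real.sqrt (2 / ((m : ℝ) + 1)) with hx₀d
  have h0 : x₀ ^ 2 = 2 / ((m : ℝ) + 1) := Real.sq_sqrt (by positivity)
  have hx₀ : x₀ ∈ Ioo (0 : ℝ) 1 := by
    refine ⟨Real.sqrt_pos.2 (by positivity), ?_⟩
    rw [hx₀d, Real.sqrt_lt' one_pos, one_pow, div_lt_one (by positivity)]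
    linarith only [hmr]
  have hs := hsgn r τ τ' T hr hT hN
  have hin : ∀ x ∈ Ioo (0 : ℝ) 1, U15In m x (lf τ x) (uf τ τ' x) (lf τ x₀) := fun x hx =>
    hT.u15In hm hm' hr hx₀ h0 (fun x hx => (hs x hx).1) (fun h22 x hx => (hs x hx).2.1 h22) hx
  have hμ : 0 ≤ 1 + 9 * lf τ x₀ / ((m : ℝ) + 1) := by
    have := (hin x₀ hx₀).lamlo
    rw [← neg_le_iff_add_nonneg', le_div_iff₀ (by positivity)]
    linarith only [this]
  have hfin : ∀ x ∈ Ioo (0 : ℝ) 1, ∀ H : ℝ,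
      1 / 10 * (uf τ τ' x ^ 2 / (1 + uf τ τ' x)) / (((m : ℝ) - 1) * (x ^ 2 / sq x ^ 2)) ≤
        u15F m (sq x) (((m : ℝ) - 1) * (x ^ 2 / sq x ^ 2)) (lf τ x) (uf τ τ' x) (lf τ x₀)
          (Real.log (1 + uf τ τ' x)) (u15c x (lf τ x)) + H →
      1 / (10 * ((m : ℝ) + 1)) * (uf τ τ' x ^ 2 / (1 + uf τ τ' x)) ≤
        brTlog m τ τ' (1 + 9 * lf τ x₀ / ((m : ℝ) + 1)) x + 0 +
          ((m : ℝ) - 1) * (x ^ 2 / sq x ^ 2) / ((m : ℝ) + 1) * H := by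
    intro x hx H hH
    have hs0 : 0 < sq x := sqx_pos hx
    have hxs : x ^ 2 + sq x ^ 2 = 1 := by rw [sqx_sq hx]; ring
    have hu : 0 < 1 + uf τ τ' x := uf_pos hT hx
    have hY : 0 < ((m : ℝ) - 1) * (x ^ 2 / sq x ^ 2) := by
      have := hx.1
      have h3 : 0 < (m : ℝ) - 1 := by linarith only [hmr]
      (clear * - h3 this hs0; (clear * - h3 this hs0; positivity))
    have e := u15_normT (m := m) (x := x) (s := sq x) (l := lf τ x) (u := uf τ τ' x)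
      (lam := lf τ x₀) (v := Real.log (1 + uf τ τ' x))
      (F := sq x * (bg (x * Real.exp (lf τ x)) - bg x) + x ^ 2 * lf τ x / (1 + sq x) ^ 2)
      (by linarith only [hmr]) hx.1 hs0 hxs hu
    have e' : brTlog m τ τ' (1 + 9 * lf τ x₀ / ((m : ℝ) + 1)) x =
        ((m : ℝ) - 1) * (x ^ 2 / sq x ^ 2) / ((m : ℝ) + 1) *
          u15F m (sq x) (((m : ℝ) - 1) * (x ^ 2 / sq x ^ 2)) (lf τ x) (uf τ τ' x) (lf τ x₀)
            (Real.log (1 + uf τ τ' x)) (u15c x (lf τ x)) := by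
      unfold u15c
      rw [← e]
      unfold brTlog bγ
      rw [pin_exp hT hx]
    rw [e', add_zero, ← mul_add]
    have h4 : 1 / (10 * ((m : ℝ) + 1)) * (uf τ τ' x ^ 2 / (1 + uf τ τ' x)) =
        ((m : ℝ) - 1) * (x ^ 2 / sq x ^ 2) / ((m : ℝ) + 1) *
          (1 / 10 * (uf τ τ' x ^ 2 / (1 + uf τ τ' x)) / (((m : ℝ) - 1) * (x ^ 2 / sq x ^ 2))) := by
      generalize ((m : ℝ) - 1) * (x ^ 2 / sq x ^ 2) = Y at hY
      generalize uf τ τ' x ^ 2 / (1 + uf τ τ' x) = U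
      (clear * - hY hm1; field_simp)
    rw [h4]
    exact mul_le_mul_of_nonneg_left hH (by (clear * - hY hm; (clear * - hY hm; positivity)))
  refine cert_pole_log (by omega) kA_kern2 hr hT hN (XPair.zero m τ τ')
    (fun x hx b hb => by
      rw [add_zero, add_zero]
      exact u15_line hT hx ((hs x hx).2.2 b hb))
    hμ hx₀ (4 * ((m : ℝ) - 1) / ((m : ℝ) + 1) ^ 2) (4 * ((m : ℝ) - 1) / ((m : ℝ) + 1) ^ 2)
    (gL := fun _ => 0) (gL' := fun _ => 0) (gR := fun _ => 2 / ((m : ℝ) + 1)) (gR' := fun _ => 0)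
    (eL := fun _ => 0) (eL' := fun _ => 0) (eR := fun _ => 0) (eR' := fun _ => 0)
    (f := fun _ => 0) (f' := fun _ => 0)
    (fun x _ => hasDerivAt_const x _) continuousOn_const (fun x _ => hasDerivAt_const x _)
    continuousOn_const (fun x _ => hasDerivAt_const x _) continuousOn_const
    (fun x _ => hasDerivAt_const x _) continuousOn_const (fun x _ => hasDerivAt_const x _)
    continuousOn_const (ε := 1 / (10 * ((m : ℝ) + 1))) (by positivity) ?_ ?_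
  · intro x hx hlt
    have hs0 : 0 < sq x := sqx_pos hx
    have hxs : x ^ 2 + sq x ^ 2 = 1 := by rw [sqx_sq hx]; ring
    have h2 : x ^ 2 < x₀ ^ 2 := pow_lt_pow_left₀ hlt hx.1.le two_ne_zero
    rw [u15_normHL (by linarith only [hmr]) hx.1 hs0 hxs h0 rfl h2]
    refine hfin x hx _ (hL x _ _ _ (hin x hx) ?_)
    rw [h0, lt_div_iff₀ (by positivity)] at h2
    linarith only [h2]
  · intro x hx hlt
    have hs0 : 0 < sq x := sqx_pos hx
    have hxs : x ^ 2 + sq x ^ 2 = 1 := by rw [sqx_sq hx]; ring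
    have h2 : x₀ ^ 2 < x ^ 2 := pow_lt_pow_left₀ hlt hx₀.1.le two_ne_zero
    rw [u15_normHR (by linarith only [hmr]) hx.1 hs0 hxs h0 rfl h2]
    refine hfin x hx _ (hR x _ _ _ (hin x hx) ?_)
    rw [h0, div_lt_iff₀ (by positivity)] at h2
    linarith only [h2]

end Vale.Agent.P237.AllN
end

section

/-!
# P237, uniform plain certificate (`m ≥ 15`): the left region in the form of `U15Left`
-/

open Set

namespace Vale.Agent.P237.AllN

/-- **The left inequality of the uniform plain certificate, `m ≥ 15`.** -/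
theorem u15_left_ok {m : ℕ} (hm : 15 ≤ m) : U15Left m := by
  intro x l u lam h hlt
  have hmr : (15 : ℝ) ≤ m := by exact_mod_cast hm
  have hx := h.hx
  have hs0 : 0 < sq x := sqx_pos hx
  have hxs : x ^ 2 + sq x ^ 2 = 1 := by rw [sqx_sq hx]; ring
  have hm1 : (0 : ℝ) < (m : ℝ) + 1 := by linarith only [hmr]
  have hl : l ≤ 127 / 200 := by
    have h1 := h.sgn
    have h2 : 0 ≤ x ^ 2 := sq_nonneg x
    have h3 : 0 ≤ (x ^ 2) ^ 2 := sq_nonneg _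
    linarith only [h3, h2, h1]
  have hx0 : x ^ 2 < 2 / ((m : ℝ) + 1) := by
    rw [lt_div_iff₀ hm1]
    linarith
  have key := u15_left (m := (m : ℝ)) (x := x) (s := sq x) (l := l) (u := u) (lam := lam)
    (F := sq x * (bg (x * Real.exp l) - bg x) + x ^ 2 * l / (1 + sq x) ^ 2)
    (x0s := 2 / ((m : ℝ) + 1)) hmr hx.1 hs0 hxs rfl hx0 h.hu h.uk hl h.lamhi (h.corrL hlt)
  have h0 : (Real.sqrt (2 / ((m : ℝ) + 1))) ^ 2 = 2 / ((m : ℝ) + 1) :=
    Real.sq_sqrt (by positivity)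
  have e1 := u15_normT (m := (m : ℝ)) (x := x) (s := sq x) (l := l) (u := u)
    (lam := lam) (v := Real.log (1 + u))
    (F := sq x * (bg (x * Real.exp l) - bg x) + x ^ 2 * l / (1 + sq x) ^ 2)
    (by linarith only [hmr]) hx.1 hs0 hxs h.hu
  have e2 := u15_normHL (m := (m : ℝ)) (x := x) (s := sq x) (l := l) (u := u) (lam := lam)
    (Y := ((m : ℝ) - 1) * (x ^ 2 / sq x ^ 2)) (x₀ := Real.sqrt (2 / ((m : ℝ) + 1)))
    (by linarith only [hmr]) hx.1 hs0 hxs h0 rfl (by rw [h0]; exact hx0)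
  rw [h0] at e2
  have hY : 0 < ((m : ℝ) - 1) * (x ^ 2 / sq x ^ 2) := by
    have := hx.1
    have h3 : 0 < (m : ℝ) - 1 := by linarith only [hmr]
    (clear * - h3 this hs0; positivity)
  have hfin : 1 / (10 * ((m : ℝ) + 1)) * (u ^ 2 / (1 + u)) ≤
      ((m : ℝ) - 1) * (x ^ 2 / sq x ^ 2) / ((m : ℝ) + 1) *
        (u15F m (sq x) (((m : ℝ) - 1) * (x ^ 2 / sq x ^ 2)) l u lam (Real.log (1 + u))
          (u15c x l) + u15HL m (((m : ℝ) - 1) * (x ^ 2 / sq x ^ 2)) l u lam) := by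
    unfold u15c
    rw [mul_add (((m : ℝ) - 1) * (x ^ 2 / sq x ^ 2) / ((m : ℝ) + 1)), ← e1, ← e2]
    refine key.trans (le_of_eq ?_)
    ring
  generalize ((m : ℝ) - 1) * (x ^ 2 / sq x ^ 2) = Y at hY hfin ⊢
  generalize u ^ 2 / (1 + u) = U at hfin ⊢
  generalize u15F m (sq x) Y l u lam (Real.log (1 + u)) (u15c x l) + u15HL m Y l u lam = G at hfin ⊢
  rw [div_le_iff₀ hY]
  have h5 : 1 / (10 * ((m : ℝ) + 1)) * U = 1 / 10 * U / ((m : ℝ) + 1) := by field_simp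
  have h6 : Y / ((m : ℝ) + 1) * G = G * Y / ((m : ℝ) + 1) := by ring
  rw [h5, h6] at hfin
  exact (div_le_div_iff_of_pos_right hm1).1 hfin

end Vale.Agent.P237.AllN
end

section

/-!
# P237, all dimensions: the plain tangent pair of the logarithmic kernel on `-1 ≤ b ≤ 0`,
weaker bound

If `l ≤ (1 - x²)(127/200 + 33/200 x²)` then the line `kAc x l + kAp x l * b` is below the kernel
`kA` for `-1 ≤ b ≤ 0`.
-/

open MeasureTheory Metric Set Module Filter Topology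

namespace Vale.Agent.P237.AllN

open PolyPos

/-- criterion for `-1 ≤ b ≤ 0` -/
theorem kA_neg2 {a c p b : ℝ} (ha : 0 < a)
    (h : c + a ^ 2 / 16 + 25 / 7 * (min p 0) ^ 2 + 3 / 400 ≤ 0) (hb : b ≤ 0) (hb1 : -1 ≤ b) :
    c + p * b ≤ kA a b := by
  have hk : kA a b = 1 / 16 * (b ^ 2 - a ^ 2) := by
    unfold kA kL
    rw [if_neg (not_lt.2 (mul_nonpos_of_nonneg_of_nonpos ha.le hb))]
  rw [hk]
  have h1 : p * b ≤ min p 0 * b := mul_le_mul_of_nonpos_right (min_le_left _ _) hb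
  set q := min p 0
  nlinarith only [h, h1, hb1, hb, sq_nonneg (50 * q - 7 * b)]

/-- bound of the exponential -/
theorem sh_exp {w : ℝ} (h0 : 0 ≤ w) (h1 : w ≤ 1) :
    Real.exp w ≤ 1 + w + w ^ 2 / 2 + w ^ 3 / 6 + 5 * w ^ 4 / 96 := by
  have h := Real.exp_bound' h0 h1 (n := 4) (by norm_num)
  simp only [Finset.sum_range_succ, Finset.range_one, Finset.sum_singleton, pow_zero, Nat.factorial, Nat.cast_one, ne_eq, one_ne_zero, not_false_eq_true, div_self, pow_one, Nat.succ_eq_add_one, zero_add, mul_one, div_one, Nat.reduceAdd, Nat.cast_ofNat, Nat.reduceMul] at h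
  linarith

/-- `160 - 33 s²` -/
def shV : List ℤ := [160, 0, -33]

/-- `s²(160 - 33 s²)` -/
def shW : List ℤ := [0, 0, 160, 0, -33]

/-- the exponential bound times `96 * 200⁴` -/
def shE : List ℤ :=
  padd [153600000000] (padd (psm 768000000 shW) (padd (psm 1920000 (ppow shW 2))
    (padd (psm 3200 (ppow shW 3)) (psm 5 (ppow shW 4)))))

/-- `200 (1 - V(1-s)(1+2s))` -/
def shB1 : List ℤ := padd [200] (psm (-1) (pmul shV [1, 1, -2]))

/-- the exponential bound -/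
noncomputable def shX (s : ℝ) : ℝ := 1 + (s ^ 2 * (160 - 33 * s ^ 2) / 200) +
    (s ^ 2 * (160 - 33 * s ^ 2) / 200) ^ 2 / 2 + (s ^ 2 * (160 - 33 * s ^ 2) / 200) ^ 3 / 6 +
    5 * (s ^ 2 * (160 - 33 * s ^ 2) / 200) ^ 4 / 96

theorem ev_shW (s : ℝ) : ev1 shW s = s ^ 2 * (160 - 33 * s ^ 2) := by
  simp only [ev1, shW, Int.reduceNeg, evL, Int.cast_zero, Int.cast_ofNat, Int.cast_neg, mul_zero, add_zero, mul_neg, zero_add]; ring

theorem ev_shE (s : ℝ) : ev1 shE s = 153600000000 * shX s := by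
  simp only [shE, ev1_padd, ev1_cons, ev1_nil, ev1_psm, ev_shW, ev1_ppow, shX]
  push_cast
  ring

theorem ev_shB1 (s : ℝ) : ev1 shB1 s = 200 - (160 - 33 * s ^ 2) * ((1 - s) * (1 + 2 * s)) := by
  simp only [shB1, shV, ev1_padd, ev1_psm, ev1_pmul, ev1_cons, ev1_nil]
  push_cast
  ring

theorem ev_shV (s : ℝ) : ev1 shV s = 160 - 33 * s ^ 2 := by
  simp only [shV, ev1_cons, ev1_nil]
  push_cast
  ring

/-- case A -/
theorem sh_A {s : ℝ} (h0 : 0 < s) (h1 : s < 1) :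
    0 ≤ 1 - (160 - 33 * s ^ 2) / 200 * ((1 - s) * (1 + 2 * s)) - s * (1 + s) / 16 * shX s ^ 2 := by
  have h := auto1_sound (n := 4) (A := 0) (B := 1) (D := 1) (by norm_num)
    (p := padd (psm (153600000000 ^ 2 * 16) shB1) (psm (-200) (pmul [0, 1, 1] (ppow shE 2))))
    (by (clear * -; decide +kernel)) (x := s) (by simpa only [Int.cast_zero, Int.cast_one, one_mul] using h0.le) (by simpa only [Int.cast_one, one_mul] using h1)
  simp only [ev1_padd, ev1_psm, ev1_pmul, ev1_ppow, ev_shB1, ev_shE, ev1_cons, ev1_nil] at h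
  push_cast at h
  linarith

/-- case B1 -/
theorem sh_B1 {s : ℝ} (h0 : 7 / 8 ≤ s) (h1 : s < 1) :
    0 ≤ s * (1 + s) * (1 - (160 - 33 * s ^ 2) / 200 * ((1 - s) * (1 + 2 * s))) -
      s ^ 2 * (1 + s) ^ 2 / 16 * shX s ^ 2 -
      4 * shX s ^ 2 * ((160 - 33 * s ^ 2) / 200 * (1 + s) - 1) ^ 2 := by
  have h := auto1_sound (n := 6) (A := 7) (B := 8) (D := 8) (by norm_num)
    (p := padd (psm (153600000000 ^ 2 * 3200) (pmul [0, 1, 1] shB1))
      (padd (psm (-40000) (pmul (ppow [0, 1, 1] 2) (ppow shE 2)))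
        (psm (-64) (pmul (ppow shE 2) (ppow (padd (pmul shV [1, 1]) [-200]) 2)))))
    (by (clear * -; decide +kernel)) (x := s) (by push_cast; linarith) (by push_cast; linarith only [h1])
  simp only [ev1_padd, ev1_psm, ev1_pmul, ev1_ppow, ev_shB1, ev_shE, ev1_cons, ev1_nil,
    ev_shV] at h
  push_cast at h
  linarith [h]

/-- case B2 -/
theorem sh_B2 {s : ℝ} (h0 : 1 / 4 ≤ s) (h1 : s < 7 / 8) :
    0 ≤ (1 - s) * (s * (1 + s) * (1 - (160 - 33 * s ^ 2) / 200 * ((1 - s) * (1 + 2 * s))) -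
      s ^ 2 * (1 + s) ^ 2 / 16 * shX s ^ 2 -
      25 / 7 * shX s ^ 2 * ((160 - 33 * s ^ 2) / 200 * (1 + s) - 1) ^ 2) -
      3 / 400 * (s ^ 2 * (1 + s)) := by
  have h := auto1_sound (n := 6) (A := 2) (B := 7) (D := 8) (by norm_num)
    (p := padd (pmul [1, -1] (padd (psm (153600000000 ^ 2 * 22400) (pmul [0, 1, 1] shB1))
      (padd (psm (-280000) (pmul (ppow [0, 1, 1] 2) (ppow shE 2)))
        (psm (-400) (pmul (ppow shE 2) (ppow (padd (pmul shV [1, 1]) [-200]) 2))))))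
        (psm (-(153600000000 ^ 2 * 33600)) [0, 0, 1, 1]))
    (by (clear * -; decide +kernel)) (x := s) (by push_cast; linarith only [h0]) (by push_cast; linarith only [h1])
  simp only [ev1_padd, ev1_psm, ev1_pmul, ev1_ppow, ev_shB1, ev_shE, ev1_cons, ev1_nil,
    ev_shV] at h
  push_cast at h
  linarith only [h]

/-- case `l ≤ 0` -/
theorem sh_neg {s l Y : ℝ} (hs0 : 0 < s) (hs1 : s < 1) (hl0 : l ≤ 0) (hY : Y ≤ 1) :
    -(1 + 2 * l) * (1 / s - 1) + l * (1 - s ^ 2) / s ^ 3 + (1 - s ^ 2) * Y / 16 ≤ 0 := by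
  have e : -(1 + 2 * l) * (1 / s - 1) + l * (1 - s ^ 2) / s ^ 3 =
      (1 - s) / s * (-1 + l * ((1 + s - 2 * s ^ 2) / s ^ 2)) := by
    field_simp
    ring
  rw [e]
  have h3 : 0 ≤ (1 + s - 2 * s ^ 2) / s ^ 2 := div_nonneg (by nlinarith only [hs1, hs0]) (by positivity)
  have h4 : l * ((1 + s - 2 * s ^ 2) / s ^ 2) ≤ 0 := mul_nonpos_of_nonpos_of_nonneg hl0 h3
  have h5 : 0 < (1 - s) / s := div_pos (by linarith only [hs1]) hs0
  have h6 : (1 - s) / s * (-1 + l * ((1 + s - 2 * s ^ 2) / s ^ 2)) ≤ (1 - s) / s * (-1) :=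
    mul_le_mul_of_nonneg_left (by linarith only [h4]) h5.le
  have h7 : (1 - s ^ 2) * Y ≤ (1 - s ^ 2) * 1 :=
    mul_le_mul_of_nonneg_left hY (by nlinarith only [hs1, hs0])
  have h8 : (1 - s) / s * (-1) + (1 - s ^ 2) / 16 =
      -((1 - s) * (16 - s * (1 + s)) / (16 * s)) := by
    field_simp
    ring
  have h9 : 0 ≤ (1 - s) * (16 - s * (1 + s)) / (16 * s) :=
    div_nonneg (mul_nonneg (by linarith only [hs1]) (by nlinarith only [hs0, hs1])) (by positivity)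
  linarith only [h6, h7, h8, h9]

/-- **The plain line is below the kernel** for `l ≤ l**`. -/
theorem kA_neg_plain2 {x l : ℝ} (hx : x ∈ Ioo (0 : ℝ) 1)
    (hl : l ≤ (1 - x ^ 2) * (127 / 200 + 33 / 200 * x ^ 2)) {b : ℝ} (hb : b ≤ 0) (hb1 : -1 ≤ b) :
    kAc x l + kAp x l * b ≤ kA (x * Real.exp l) b := by
  obtain ⟨hs0, hs1, hxs⟩ := sq_facts hx
  have hx0 := hx.1
  have ha : 0 < x * Real.exp l := by positivity
  suffices H : kAc x l + (x * Real.exp l) ^ 2 / 16 + 4 * (min (kAp x l) 0) ^ 2 ≤ 0 ∨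
      kAc x l + (x * Real.exp l) ^ 2 / 16 + 25 / 7 * (min (kAp x l) 0) ^ 2 + 3 / 400 ≤ 0 by
    rcases H with H | H
    · exact kA_neg ha H hb
    · exact kA_neg2 ha H hb hb1
  unfold kAc kAp
  rw [hxs] at hl
  rw [mul_pow, hxs]
  set s := sq x with hs
  rcases le_or_gt l 0 with hl0 | hl0
  · left
    have hp : 0 ≤ x * Real.exp l * (1 / (s * (1 + s)) - l / s ^ 3) := by
      apply mul_nonneg (by positivity)
      have h1 : 0 ≤ 1 / (s * (1 + s)) := by positivity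
      have h2 : l / s ^ 3 ≤ 0 := div_nonpos_of_nonpos_of_nonneg hl0 (by (clear * - hs0; positivity))
      linarith only [h1, h2]
    rw [min_eq_right hp]
    have he : Real.exp l ≤ 1 := Real.exp_le_one_iff.2 hl0
    have he2 : Real.exp l ^ 2 ≤ 1 := pow_le_one₀ (Real.exp_pos l).le he
    have := sh_neg hs0 hs1 hl0 he2
    simpa only [neg_add_rev, one_div, ne_eq, OfNat.ofNat_ne_zero, not_false_eq_true, zero_pow, mul_zero, add_zero,     ge_iff_le] using this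
  · obtain ⟨v, hv⟩ : ∃ v, l = v * s ^ 2 := ⟨l / s ^ 2, by (clear * - hs0 hl0; field_simp)⟩
    have hV : v ≤ (160 - 33 * s ^ 2) / 200 := by
      have h1 : v * s ^ 2 ≤ (160 - 33 * s ^ 2) / 200 * s ^ 2 := by
        rw [← hv]
        refine hl.trans (le_of_eq ?_)
        ring
      exact le_of_mul_le_mul_right h1 (by positivity)
    have hlw : l ≤ s ^ 2 * (160 - 33 * s ^ 2) / 200 := by
      refine hl.trans (le_of_eq ?_)
      ring
    have hw0 : 0 ≤ s ^ 2 * (160 - 33 * s ^ 2) / 200 := hl0.le.trans hlw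
    have hw1 : s ^ 2 * (160 - 33 * s ^ 2) / 200 ≤ 1 := by
      have : s ^ 2 ≤ 1 := by nlinarith only [hxs]
      nlinarith only [hxs]
    have hlE : Real.exp l ≤ shX s := (Real.exp_le_exp.2 hlw).trans (sh_exp hw0 hw1)
    have hY0 : 0 ≤ Real.exp l ^ 2 := by positivity
    have hE2 : Real.exp l ^ 2 ≤ shX s ^ 2 := pow_le_pow_left₀ (Real.exp_pos l).le hlE 2
    have hA := sh_A hs0 hs1
    have hB1 := fun h0 => sh_B1 (s := s) h0 hs1
    have hB2 := fun h0 h1 => sh_B2 (s := s) h0 h1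
    generalize hE : shX s = E at *
    set Y := Real.exp l ^ 2 with hYd
    have e : -(1 + 2 * l) * (1 / s - 1) + l * (1 - s ^ 2) / s ^ 3 =
        (1 - s) / s * (-1 + v * ((1 - s) * (1 + 2 * s))) := by
      rw [hv]
      field_simp
      ring
    rw [e]
    have h5 : 0 < (1 - s) / s := div_pos (by linarith only [hs1]) hs0
    have h12 : (1 - s ^ 2) * Y / 16 = (1 - s) / s * (s * (1 + s) / 16 * Y) := by
      field_simp
      ring
    rw [h12]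
    have ep : 1 / (s * (1 + s)) - l / s ^ 3 = (1 - v * (1 + s)) / (s * (1 + s)) := by
      rw [hv]
      (clear * - hs0; field_simp)
    rw [ep]
    have h10 : 0 ≤ (1 - s) * (1 + 2 * s) := mul_nonneg (by linarith only [hs1]) (by linarith only [hs0])
    have h11 := mul_le_mul_of_nonneg_right hV h10
    have h13 : s * (1 + s) / 16 * Y ≤ s * (1 + s) / 16 * E ^ 2 :=
      mul_le_mul_of_nonneg_left hE2 (by positivity)
    rcases le_or_gt (v * (1 + s)) 1 with hc | hc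
    · left
      have hp : 0 ≤ x * Real.exp l * ((1 - v * (1 + s)) / (s * (1 + s))) :=
        mul_nonneg (by positivity) (div_nonneg (by linarith only [hc]) (by positivity))
      rw [min_eq_right hp]
      have h15 : (1 - s) / s * (-1 + v * ((1 - s) * (1 + 2 * s))) +
          (1 - s) / s * (s * (1 + s) / 16 * Y) ≤ 0 := by
        rw [← mul_add]
        exact mul_nonpos_of_nonneg_of_nonpos h5.le (by linarith only [hA, h11, h13])
      linarith only [h15]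
    · have hp : x * Real.exp l * ((1 - v * (1 + s)) / (s * (1 + s))) ≤ 0 :=
        mul_nonpos_of_nonneg_of_nonpos (by positivity)
          (div_nonpos_of_nonpos_of_nonneg (by linarith only [hc]) (by (clear * - hs0; positivity)))
      rw [min_eq_left hp]
      have hs3 : 1 / 4 ≤ s := by
        have hVc : 1 < (160 - 33 * s ^ 2) / 200 * (1 + s) :=
          hc.trans_le (mul_le_mul_of_nonneg_right hV (by linarith only [hs0]))
        by_contra h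
        push Not at h
        nlinarith only [hl, hv, h11, hc, h, hs0]
      set V := (160 - 33 * s ^ 2) / 200 with hVd
      have h4 : (v * (1 + s) - 1) ^ 2 ≤ (V * (1 + s) - 1) ^ 2 := by
        apply pow_le_pow_left₀ (by linarith only [hc])
        have := mul_le_mul_of_nonneg_right hV (by linarith only [hs0] : 0 ≤ 1 + s)
        linarith only [this]
      have h6 : Y * (v * (1 + s) - 1) ^ 2 ≤ E ^ 2 * (V * (1 + s) - 1) ^ 2 :=
        mul_le_mul hE2 h4 (sq_nonneg _) (by (clear * -; positivity))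
      have h17 : (x * Real.exp l * ((1 - v * (1 + s)) / (s * (1 + s)))) ^ 2 =
          (1 - s) / s * (Y * (v * (1 + s) - 1) ^ 2 / (s * (1 + s))) := by
        have : (x * Real.exp l * ((1 - v * (1 + s)) / (s * (1 + s)))) ^ 2 =
            x ^ 2 * Y * (v * (1 + s) - 1) ^ 2 / (s * (1 + s)) ^ 2 := by
          rw [mul_pow, mul_pow, div_pow, ← hYd]
          ring
        rw [this, hxs]
        field_simp
        ring
      have hss : 0 < s * (1 + s) := by positivity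
      have h18 : Y * (v * (1 + s) - 1) ^ 2 / (s * (1 + s)) ≤
          E ^ 2 * (V * (1 + s) - 1) ^ 2 / (s * (1 + s)) := by (clear * - h6 hs0; gcongr)
      rw [h17]
      rcases lt_or_ge s (7 / 8) with h7 | h7
      · right
        have hB := hB2 hs3 h7
        have h20 : (1 - s) / s * (-1 + V * ((1 - s) * (1 + 2 * s)) + s * (1 + s) / 16 * E ^ 2 +
            25 / 7 * (E ^ 2 * (V * (1 + s) - 1) ^ 2 / (s * (1 + s)))) + 3 / 400 ≤ 0 := by
          have h21 : ((1 - s) / s * (-1 + V * ((1 - s) * (1 + 2 * s)) +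
            s * (1 + s) / 16 * E ^ 2 +
            25 / 7 * (E ^ 2 * (V * (1 + s) - 1) ^ 2 / (s * (1 + s)))) + 3 / 400) =
            -((1 - s) * (s * (1 + s) * (1 - V * ((1 - s) * (1 + 2 * s))) -
            s ^ 2 * (1 + s) ^ 2 / 16 * E ^ 2 -
            25 / 7 * E ^ 2 * (V * (1 + s) - 1) ^ 2) -
            3 / 400 * (s ^ 2 * (1 + s))) / (s ^ 2 * (1 + s)) := by
            field_simp
            ring
          rw [h21]
          exact div_nonpos_of_nonpos_of_nonneg (by linarith only [hB]) (by positivity)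
        have h22 : (1 - s) / s * (-1 + v * ((1 - s) * (1 + 2 * s)) + s * (1 + s) / 16 * Y +
            25 / 7 * (Y * (v * (1 + s) - 1) ^ 2 / (s * (1 + s)))) ≤
            (1 - s) / s * (-1 + V * ((1 - s) * (1 + 2 * s)) + s * (1 + s) / 16 * E ^ 2 +
            25 / 7 * (E ^ 2 * (V * (1 + s) - 1) ^ 2 / (s * (1 + s)))) :=
          mul_le_mul_of_nonneg_left (by linarith only [h13, h11, h18]) h5.le
        linarith only [h20, h22]
      · left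
        have hB := hB1 h7
        have h20 : (-1 + V * ((1 - s) * (1 + 2 * s)) + s * (1 + s) / 16 * E ^ 2 +
            4 * (E ^ 2 * (V * (1 + s) - 1) ^ 2 / (s * (1 + s)))) ≤ 0 := by
          have h21 : (-1 + V * ((1 - s) * (1 + 2 * s)) +
            s * (1 + s) / 16 * E ^ 2 +
            4 * (E ^ 2 * (V * (1 + s) - 1) ^ 2 / (s * (1 + s)))) =
            -(s * (1 + s) * (1 - V * ((1 - s) * (1 + 2 * s))) -
            s ^ 2 * (1 + s) ^ 2 / 16 * E ^ 2 -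
            4 * E ^ 2 * (V * (1 + s) - 1) ^ 2) / (s * (1 + s)) := by
            field_simp
            ring
          rw [h21]
          exact div_nonpos_of_nonpos_of_nonneg (by linarith only [hB]) (by positivity)
        have h22 : (1 - s) / s * (-1 + v * ((1 - s) * (1 + 2 * s)) + s * (1 + s) / 16 * Y +
            4 * (Y * (v * (1 + s) - 1) ^ 2 / (s * (1 + s)))) ≤ 0 :=
          mul_nonpos_of_nonneg_of_nonpos h5.le (by linarith only [h20, h18, h11, h13])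
        linarith only [h22]

/-- the plain line is below the kernel on `[-1, 1]`, for a number `a = x e^l < 1` -/
theorem kA_plain_line2 {x l : ℝ} (hx : x ∈ Ioo (0 : ℝ) 1)
    (hl : l ≤ (1 - x ^ 2) * (127 / 200 + 33 / 200 * x ^ 2)) (hτ : x * Real.exp l < 1)
    {b : ℝ} (hb : b ∈ Icc (-1 : ℝ) 1) : kAc x l + kAp x l * b ≤ kA (x * Real.exp l) b := by
  rcases lt_or_ge 0 b with hb0 | hb0
  · exact kA_plain_pos hx hτ hb0 hb.2
  · exact kA_neg_plain2 hx hl hb0 hb.1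

/-- **Admissibility of the plain tangent pair** of `kA` at a point where `l ≤ l**`. -/
theorem IsTrans.kA_plain_le2 {m : ℕ} {r τ τ' T : ℝ → ℝ} (h : IsTrans m r τ τ' T)
    {x : ℝ} (hx : x ∈ Ioo (0 : ℝ) 1)
    (hl : Real.log (τ x / x) ≤ (1 - x ^ 2) * (127 / 200 + 33 / 200 * x ^ 2))
    {b : ℝ} (hb : b ∈ Icc (-1 : ℝ) 1) :
    kAc x (Real.log (τ x / x)) + kAp x (Real.log (τ x / x)) * b ≤ kA (τ x) b := by
  have hτ := h.mem x hx
  have hx0 := hx.1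
  have e : x * Real.exp (Real.log (τ x / x)) = τ x := by
    rw [Real.exp_log (div_pos hτ.1 hx0)]
    (clear * - hx0; field_simp)
  have h1 := kA_plain_line2 hx hl (by rw [e]; exact hτ.2) hb
  rwa [e] at h1

end Vale.Agent.P237.AllN
end

section

/-!
# P237, uniform plain certificate (`m ≥ 15`): right region, `u ≥ 4`
-/

open Set

namespace Vale.Agent.P237.AllN

/-- completing the square in the right potential term -/
theorem u15R_HR {m Y l u lam : ℝ} (hm : 1 < m) (hY : 2 < Y) :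
    -(8 / Y ^ 2 * u ^ 2) + 3 / 2 * (l - lam) ^ 2 ≤ u15HR m Y l u lam := by
  have h1 : 0 < Y := by linarith only [hY]
  have h2 : 0 < Y - 2 := by linarith only [hY]
  have h3 : 0 < m - 1 := by linarith only [hm]
  have e : u15HR m Y l u lam - (-(8 / Y ^ 2 * u ^ 2) + 3 / 2 * (l - lam) ^ 2) =
      16 * (Y / (m - 1)) / (Y - 2) ^ 2 * (l - lam) ^ 2 +
        8 / Y ^ 2 * (u - Y * (Y + 2) * (l - lam) / (4 * (Y - 2))) ^ 2 +
        (4 * Y ^ 2 + 16) / (2 * Y * (Y - 2) ^ 2) * (l - lam) ^ 2 := by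
    unfold u15HR
    field_simp
    ring
  have h4 : 0 ≤ 16 * (Y / (m - 1)) / (Y - 2) ^ 2 * (l - lam) ^ 2 := by (clear * - hY hm; positivity)
  have h5 : 0 ≤ 8 / Y ^ 2 * (u - Y * (Y + 2) * (l - lam) / (4 * (Y - 2))) ^ 2 := by (clear * - hY; positivity)
  have h6 : 0 ≤ (4 * Y ^ 2 + 16) / (2 * Y * (Y - 2) ^ 2) * (l - lam) ^ 2 := by (clear * - hY; positivity)
  linarith only [e, h4, h5, h6]

/-- the quadratic form for large `Y`, general `l` -/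
theorem u15R_core {Y l lam W q : ℝ} (hY : 190 ≤ Y) (hq : 0 ≤ q) (h1 : q / 2 ≤ W) (h2 : W ≤ q) :
    -(37 / 20 * (q ^ 2 * Y)) ≤ 3 / 2 * (l - lam) ^ 2 + 9 * lam * l - 9 / 2 * l ^ 2 +
      (9 / 7 * Y - 2) * l ^ 2 - 3 * l * (q * Y) - 9 * lam * W := by
  obtain ⟨A, hA⟩ : ∃ A, A = 9 / 7 * Y - 11 := ⟨_, rfl⟩
  obtain ⟨G, hG⟩ : ∃ G, G = 3 * (q * Y) - 18 * W := ⟨_, rfl⟩
  have hA0 : 0 < A := by rw [hA]; linarith only [hY]
  have hqY : 190 * q ≤ q * Y := by linarith only [mul_nonneg (sub_nonneg.2 hY) (sub_nonneg.2 hq)]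
  have hG0 : 0 ≤ G := by rw [hG]; linarith only [hq, h2, hqY]
  have hG1 : G ≤ 3 * (q * (Y - 3)) := by rw [hG]; linarith only [h1]
  have hG2 : G ^ 2 ≤ (3 * (q * (Y - 3))) ^ 2 := pow_le_pow_left₀ hG0 hG1 2
  have hW2 : W ^ 2 ≤ q ^ 2 := pow_le_pow_left₀ (by linarith only [hq, h1]) h2 2
  have hp : 0 ≤ (-(9 * (Y - 3) ^ 2) - 54 * A + 37 / 5 * A * Y) := by
    rw [hA]; nlinarith only [hY]
  have h3 : 0 ≤ q ^ 2 * (-(9 * (Y - 3) ^ 2) - 54 * A + 37 / 5 * A * Y) :=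
    mul_nonneg (sq_nonneg q) hp
  have h4 : 0 ≤ (4 * A) * (A * l ^ 2 - G * l - 27 / 2 * W ^ 2 + 37 / 20 * (q ^ 2 * Y)) := by
    have h5 : 54 * A * W ^ 2 ≤ 54 * A * q ^ 2 := mul_le_mul_of_nonneg_left hW2 (by linarith only [hA, hY])
    linarith only [sq_nonneg (2 * A * l - G), h5, h3, hG2]
  have h5 := nonneg_of_mul_nonneg_right h4 (by linarith only [hY, hA])
  have h6 : 0 ≤ 3 / 2 * (lam + 2 * l - 3 * W) ^ 2 := by (clear * -; positivity)
  rw [hA, hG] at h5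
  linarith only [h6, h5]

/-- the quadratic form for large `Y`, `l ≤ 0` -/
theorem u15R_core_neg {Y l lam W q : ℝ} (hY : 190 ≤ Y) (hq : 0 ≤ q) (h1 : q / 2 ≤ W) (h2 : W ≤ q)
    (hl : l ≤ 0) :
    -(27 / 2 * q ^ 2) ≤ 3 / 2 * (l - lam) ^ 2 + 9 * lam * l - 9 / 2 * l ^ 2 +
      (9 / 7 * Y - 2) * l ^ 2 - 3 * l * (q * Y) - 9 * lam * W := by
  have hqY : 190 * q ≤ q * Y := by linarith only [mul_nonneg (sub_nonneg.2 hY) (sub_nonneg.2 hq)]
  have hG0 : 0 ≤ 3 * (q * Y) - 18 * W := by linarith only [hqY, h2, hq]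
  have hW2 : W ^ 2 ≤ q ^ 2 := pow_le_pow_left₀ (by linarith only [h1, hq]) h2 2
  have h6 : 0 ≤ 3 / 2 * (lam + 2 * l - 3 * W) ^ 2 := by (clear * -; positivity)
  have h7 : 0 ≤ (3 * (q * Y) - 18 * W) * (-l) := mul_nonneg hG0 (by linarith only [hl])
  have h8 : 0 ≤ (9 / 7 * Y - 11) * l ^ 2 := mul_nonneg (by linarith only [hY]) (sq_nonneg l)
  linarith

/-- `log 7 ≥ 15/8` -/
theorem u15_log_seven : (15 : ℝ) / 8 ≤ Real.log 7 := by
  rw [Real.le_log_iff_exp_le (by norm_num)]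
  have h1 : Real.exp (15 / 8) ^ 8 ≤ 7 ^ 8 := by
    rw [← Real.exp_nat_mul]
    have h2 : Real.exp ((8 : ℕ) * (15 / 8)) = Real.exp 1 ^ 15 := by
      rw [← Real.exp_nat_mul]; norm_num
    rw [h2]
    calc Real.exp 1 ^ 15 ≤ 2.72 ^ 15 := by
          apply pow_le_pow_left₀ (Real.exp_pos _).le
          linarith only [Real.exp_one_lt_d9]
      _ ≤ 7 ^ 8 := by norm_num
  exact le_of_pow_le_pow_left₀ (by norm_num) (by norm_num) h1

/-- the slope is at most `m/2` where `l > 0` and `u ≥ 4` -/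
theorem u15R_half {m x s l u : ℝ} (hm : 15 ≤ m) (hx : 0 < x) (hx1 : x < 1)
    (hxs : x ^ 2 + s ^ 2 = 1) (hs : s ^ 2 ≤ 1 / 16) (hu : 0 ≤ u) (hl : 0 ≤ l)
    (tail : (1 + (1 + u) * s ^ 2 / ((m + 2) - (m + 1) * s ^ 2)) * (x * Real.exp l) ≤ 1) :
    u ≤ m / 2 := by
  have hD : 0 < (m + 2) - (m + 1) * s ^ 2 := by nlinarith only [hxs, hm]
  have h1 : (1 + (1 + u) * s ^ 2 / ((m + 2) - (m + 1) * s ^ 2)) * x ≤ 1 := by
    refine le_trans ?_ tail
    have h2 : 0 ≤ 1 + (1 + u) * s ^ 2 / ((m + 2) - (m + 1) * s ^ 2) := by (clear * - hu hD; positivity)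
    apply mul_le_mul_of_nonneg_left _ h2
    have := Real.one_le_exp hl
    linarith only [mul_nonneg (le_of_lt (sub_pos.2 hx)) (sub_nonneg.2 this)]
  have h3 : ((m + 2) - (m + 1) * s ^ 2 + (1 + u) * s ^ 2) * x ≤ (m + 2) - (m + 1) * s ^ 2 := by
    have e : 1 + (1 + u) * s ^ 2 / ((m + 2) - (m + 1) * s ^ 2) =
        ((m + 2) - (m + 1) * s ^ 2 + (1 + u) * s ^ 2) / ((m + 2) - (m + 1) * s ^ 2) := by
      rw [eq_div_iff hD.ne', add_mul, div_mul_cancel₀ _ hD.ne', one_mul]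
    rw [e, div_mul_eq_mul_div, div_le_one hD] at h1
    exact h1
  -- `(1+u)(1+x)x ≤ m+2-(m+1)s²`
  have h4 : (1 - x) * ((1 + u) * ((1 + x) * x)) ≤ (1 - x) * ((m + 2) - (m + 1) * s ^ 2) := by
    have e : s ^ 2 = (1 - x) * (1 + x) := by linarith only [hxs]
    have e2 : (1 + u) * s ^ 2 * x = (1 - x) * ((1 + u) * ((1 + x) * x)) := by rw [e]; ring
    linarith only [e2, h3]
  have h5 := le_of_mul_le_mul_left h4 (by linarith only [hx1])
  have h6 : 1 - 51 / 100 * s ^ 2 ≤ x := by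
    apply le_of_sq_le_sq _ hx.le
    have : x ^ 2 = 1 - s ^ 2 := by linarith only [hxs]
    rw [this]
    nlinarith only [hs]
  have h7 : 2 - 151 / 100 * s ^ 2 ≤ (1 + x) * x := by linarith only [h6, hxs]
  have h8 : (1 + u) * (2 - 151 / 100 * s ^ 2) ≤ (m + 2) - (m + 1) * s ^ 2 :=
    (mul_le_mul_of_nonneg_left h7 (by linarith only [hu])).trans h5
  by_contra h
  push Not at h
  have h9 : 0 ≤ s ^ 2 := sq_nonneg s
  nlinarith only [h8, hm, h, hs]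

/-- scalar inequality, `l > 0` -/
theorem u15R_scal_pos {m s u U w Sg : ℝ} (hm : 15 ≤ m) (hu : 4 ≤ u) (hum : u ≤ m / 2)
    (hs : 0 ≤ s) (hus : u * s ≤ 1) (hU : U * (1 + u) = u ^ 2) (hw : w = u - Real.log (1 + u))
    (hSg : (m - 1) * (1 - 2 * s ^ 2 / (1 + s)) ≤ Sg) :
    U / 10 + 8 / 13 + 37 / 20 * U ^ 2 ≤ (m + 1) * (U - w) + (Sg - 2) * U := by
  have hU1 : 16 / 5 ≤ U := by nlinarith only [hu, hU]
  have hU2 : U ≤ u - 4 / 5 := by (by_contra nlg; linarith [mul_nonneg (le_of_lt (sub_pos.2 (not_le.1 nlg))) (sub_nonneg.2 hu), hU, hu])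
  have hUw : 0 ≤ U - w := by
    have h1 := u15_w_pos_le (u := u) (by linarith only [hu])
    rw [← hw, le_div_iff₀ (by linarith only [hu])] at h1
    nlinarith only [hU, h1, hu]
  have h2 : 0 ≤ s ^ 2 := sq_nonneg s
  have hs4 : s ≤ 1 / 4 := by nlinarith only [hus, hu]
  rcases le_total U (11 / 2) with h | h
  · -- moderate `U`
    have h3 : 2 * s ^ 2 / (1 + s) ≤ 1 / 10 := by
      rw [div_le_iff₀ (by linarith only [hs])]
      nlinarith only [hu, hs, hus]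
    have h4 : (m - 1) * (9 / 10) ≤ Sg :=
      le_trans (mul_le_mul_of_nonneg_left (by (clear * - h3; linarith [h3])) (by linarith only [hm])) hSg
    have h5 : 0 ≤ (m + 1) * (U - w) := mul_nonneg (by linarith only [hm]) hUw
    nlinarith only [h5, hU1, h, hm, h4]
  · have hu6 : 63 / 10 ≤ u := by linarith only [hU2, h]
    have hss : s ≤ 10 / 63 := by nlinarith only [hus, h, hU2]
    have h3 : 2 * s ^ 2 / (1 + s) ≤ 2 * s ^ 2 := by
      rw [div_le_iff₀ (by linarith only [hs])]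
      nlinarith only [hs]
    have h3' : s ^ 2 ≤ 63 / 2500 := by nlinarith only [hss, hs]
    have h4 : (m - 1) * (949 / 1000) ≤ Sg :=
      le_trans (mul_le_mul_of_nonneg_left (by linarith only [h3, h3']) (by linarith only [hm])) hSg
    have h5 : 7 / 8 ≤ U - w := by
      have h6 : U = u - u / (1 + u) := by
        have : U = u ^ 2 / (1 + u) := by
          rw [eq_div_iff (by linarith only [h, hU2]), hU]
        rw [this]
        have : 1 + u ≠ 0 := by (clear * - hU2 h; linarith)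
        field_simp
        ring
      have h7 : u / (1 + u) ≤ 1 := by
        rw [div_le_one (by linarith only [hU2, h])]; linarith only []
      have h8 : Real.log 7 ≤ Real.log (1 + u) := Real.log_le_log (by norm_num) (by linarith only [hU2, h])
      have h9 := u15_log_seven
      linarith only [hw, h6, h7, h8, h9]
    have h6 : (m + 1) * (7 / 8) ≤ (m + 1) * (U - w) := mul_le_mul_of_nonneg_left h5 (by linarith only [hm])
    have hUm : U ≤ m / 2 - 4 / 5 := by linarith only [hU2, hum]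
    -- `Sg - 2.3 - 1.85 U ≥ .024 m - 1.77`
    have h7 : 6 / 250 * m - 177 / 100 ≤ Sg - 23 / 10 - 37 / 20 * U := by linarith only [hum, hU2, h4]
    have h8 : (6 / 250 * m - 177 / 100) * U ≤ (Sg - 23 / 10 - 37 / 20 * U) * U :=
      mul_le_mul_of_nonneg_right h7 (by linarith only [h])
    have h9 : -((m + 1) * (7 / 8)) ≤ (6 / 250 * m - 177 / 100) * U := by
      rcases le_total 0 (6 / 250 * m - 177 / 100) with h' | h'
      · have := mul_nonneg h' (by linarith only [h] : 0 ≤ U)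
        (clear * - h' this; linarith)
      · have := mul_le_mul_of_nonpos_left hUm h'
        nlinarith only [hm, this]
    nlinarith only [h, h6, h8, h9]

/-- scalar inequality, `l ≤ 0` -/
theorem u15R_scal_neg {m s u U w Sg Y : ℝ} (hm : 15 ≤ m) (hu : 4 ≤ u) (hY : 13 * u ^ 2 ≤ Y)
    (hs : 0 ≤ s) (hus : u * s ≤ 1) (hU : U * (1 + u) = u ^ 2) (hw : w = u - Real.log (1 + u))
    (hSg : (m - 1) * (1 - 2 * s ^ 2 / (1 + s)) ≤ Sg) :
    U / 10 + 8 / 13 + 27 / 2 * (U ^ 2 / Y) ≤ (m + 1) * (U - w) + (Sg - 2) * U := by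
  have hU1 : 16 / 5 ≤ U := by (clear * - hu hU; nlinarith)
  have hU2 : U ≤ u := by nlinarith only [hu, hU]
  have hY0 : 0 < Y := by nlinarith only [hu, hY]
  have hUw : 0 ≤ U - w := by
    have h1 := u15_w_pos_le (u := u) (by linarith only [hu])
    rw [← hw, le_div_iff₀ (by linarith only [hu])] at h1
    nlinarith only [hu, hU, h1]
  have hs4 : s ≤ 1 / 4 := by nlinarith only [hus, hu]
  have h3 : 2 * s ^ 2 / (1 + s) ≤ 1 / 10 := by
    rw [div_le_iff₀ (by linarith only [hs])]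
    nlinarith only [hu, hs, hus]
  have h4 : (m - 1) * (9 / 10) ≤ Sg :=
    le_trans (mul_le_mul_of_nonneg_left (by linarith only [h3]) (by linarith only [hm])) hSg
  have h5 : 0 ≤ (m + 1) * (U - w) := mul_nonneg (by linarith only [hm]) hUw
  have h6 : U ^ 2 / Y ≤ 1 / 13 := by
    rw [div_le_iff₀ hY0]
    nlinarith only [hY, hu, hU]
  nlinarith only [hu, hU, h5, h6, hm, h4]

/-- **Right region, `u ≥ 4`**, all real `m ≥ 15`. -/
theorem u15_right_big {m x s l u lam v c Y : ℝ} (hm : 15 ≤ m) (hx : 0 < x) (hx1 : x < 1)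
    (hs : 0 < s) (hxs : x ^ 2 + s ^ 2 = 1) (hY : Y = (m - 1) * (x ^ 2 / s ^ 2)) (hu : 4 ≤ u)
    (hus : u * s ≤ 1)
    (tail : (1 + (1 + u) * s ^ 2 / ((m + 2) - (m + 1) * s ^ 2)) * (x * Real.exp l) ≤ 1)
    (hv : v = Real.log (1 + u)) (hc : -2 * l ^ 2 ≤ c) :
    1 / 10 * (u ^ 2 / (1 + u)) / Y ≤ u15F m s Y l u lam v c + u15HR m Y l u lam := by
  have hs4 : s ≤ 1 / 4 := by (clear * - hus hs hu; linarith only [mul_nonneg (le_of_lt (sub_pos.2 hs)) (sub_nonneg.2 hu), mul_nonneg (mul_self_nonneg (1 : ℝ)) (sub_nonneg.2 hus)])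
  have hs16 : s ^ 2 ≤ 1 / 16 := by nlinarith only [hu, hs, hus]
  have hu1 : (0 : ℝ) < 1 + u := by linarith only [hu]
  have hYu : 13 * u ^ 2 ≤ Y := by
    rw [hY, ← mul_div_assoc, le_div_iff₀ (by positivity)]
    have h1 : (u * s) ^ 2 ≤ 1 ^ 2 := pow_le_pow_left₀ (by positivity) hus 2
    have h2 : 15 / 16 ≤ x ^ 2 := by linarith only [hs16, hxs]
    nlinarith only [hxs, hs16, h1, hm]
  have hY190 : 190 ≤ Y := by nlinarith only [hu, hYu]
  have hY0 : 0 < Y := by linarith only [hY190]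
  obtain ⟨U, hU⟩ : ∃ U, U = u ^ 2 / (1 + u) := ⟨_, rfl⟩
  have hUu : U * (1 + u) = u ^ 2 := by rw [hU]; (clear * - hu; field_simp)
  have hU0 : 0 ≤ U := by rw [hU]; (clear * - hu; positivity)
  obtain ⟨w, hw⟩ : ∃ w, w = u - Real.log (1 + u) := ⟨_, rfl⟩
  obtain ⟨Sg, hSg⟩ : ∃ Sg, Sg = s ^ 2 * (1 + 2 * s) / (1 + s) ^ 2 * Y := ⟨_, rfl⟩
  have hSg' : (m - 1) * (1 - 2 * s ^ 2 / (1 + s)) ≤ Sg := by
    refine le_of_eq ?_
    rw [hSg, hY, show x ^ 2 = (1 - s) * (1 + s) by linarith only [hxs]]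
    field_simp
    ring
  have hw1 : U / 2 ≤ w := by rw [hU, hw]; exact u15_w_pos_ge (by linarith only [hu])
  have hw2 : w ≤ U := by
    have h1 := u15_w_pos_le (u := u) (by linarith only [hu])
    rw [← hw, le_div_iff₀ (by linarith only [hu])] at h1
    nlinarith only [hu, hUu, h1]
  have hq : 0 ≤ U / Y := by (clear * - hU0 hY190; positivity)
  have hW1 : U / Y / 2 ≤ w / Y := by
    rw [div_right_comm]; exact div_le_div_of_nonneg_right hw1 hY0.le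
  have hW2 : w / Y ≤ U / Y := div_le_div_of_nonneg_right hw2 hY0.le
  have hqY : U / Y * Y = U := by (clear * - hY190; field_simp)
  have h37 : 9 / 7 ≤ 3 / 2 * ((m - 3) / (m - 1)) := by
    rw [← mul_div_assoc, le_div_iff₀ (by linarith only [hm])]
    linarith only [hm]
  have h37' : 9 / 7 * Y * l ^ 2 ≤ 3 / 2 * ((m - 3) / (m - 1)) * Y * l ^ 2 :=
    mul_le_mul_of_nonneg_right (mul_le_mul_of_nonneg_right h37 hY0.le) (sq_nonneg l)
  have eF : u15F m s Y l u lam v c = ((m + 1) * (U - w) + (Sg - 2) * U) / Y +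
      (9 * lam * l - 9 / 2 * l ^ 2 + 3 / 2 * ((m - 3) / (m - 1)) * Y * l ^ 2 -
        3 * l * (U / Y * Y) - 9 * lam * (w / Y) + c) := by
    have e1 : v - u / (1 + u) = U - w := by
      rw [hU, hw, hv]
      field_simp
      ring
    have e2 : u - v = w := by rw [hw, hv]
    unfold u15F
    rw [e1, e2, ← hU, hSg]
    field_simp
    ring
  have hHR := u15R_HR (m := m) (Y := Y) (l := l) (u := u) (lam := lam) (by linarith only [hm]) (by linarith only [hY190])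
  have h8 : 8 / Y ^ 2 * u ^ 2 ≤ 8 / 13 / Y := by
    rw [div_mul_eq_mul_div, div_le_div_iff₀ (by (clear * - hY190; positivity)) hY0]
    (clear * - hYu; linarith only [mul_nonneg (sub_nonneg.2 hYu) (sub_nonneg.2 hYu), mul_nonneg (sq_nonneg (1 * u : ℝ)) (sub_nonneg.2 hYu)])
  rw [← hU, eF]
  rcases le_total l 0 with hl | hl
  · have hc1 := u15R_core_neg (l := l) (lam := lam) hY190 hq hW1 hW2 hl
    have hsc := u15R_scal_neg hm hu hYu hs.le hus hUu hw hSg'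
    have hfin : (U / 10 + 8 / 13 + 27 / 2 * (U ^ 2 / Y)) / Y ≤
        ((m + 1) * (U - w) + (Sg - 2) * U) / Y := div_le_div_of_nonneg_right hsc hY0.le
    have e3 : (U / 10 + 8 / 13 + 27 / 2 * (U ^ 2 / Y)) / Y =
        1 / 10 * U / Y + 8 / 13 / Y + 27 / 2 * (U / Y) ^ 2 := by (clear * - hY190 hU0; field_simp)
    rw [e3] at hfin
    linarith only [hc, h37', hHR, h8, hc1, hfin]
  · have hhalf := u15R_half hm hx hx1 hxs hs16 (by linarith only [hu]) hl tail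
    have hc1 := u15R_core (l := l) (lam := lam) hY190 hq hW1 hW2
    have hsc := u15R_scal_pos hm hu hhalf hs.le hus hUu hw hSg'
    have hfin : (U / 10 + 8 / 13 + 37 / 20 * U ^ 2) / Y ≤
        ((m + 1) * (U - w) + (Sg - 2) * U) / Y := div_le_div_of_nonneg_right hsc hY0.le
    have e3 : (U / 10 + 8 / 13 + 37 / 20 * U ^ 2) / Y =
        1 / 10 * U / Y + 8 / 13 / Y + 37 / 20 * ((U / Y) ^ 2 * Y) := by (clear * - hY190 hU0; field_simp)
    rw [e3] at hfin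
    linarith only [hc, h37', hHR, h8, hc1, hfin]

end Vale.Agent.P237.AllN
end

section

/-!
# P237, uniform plain certificate (`m ≥ 15`): right region, `0 ≤ u ≤ 4`
-/

open Set

namespace Vale.Agent.P237.AllN

/-- Padé upper bound for `u - log (1+u)` -/
theorem u15_w_pade {u : ℝ} (hu : 0 ≤ u) :
    u - Real.log (1 + u) ≤ u ^ 2 * (u + 3) / (u ^ 2 + 6 * u + 6) := by
  have hd : ∀ t : ℝ, 0 ≤ t → HasDerivAt
      (fun t : ℝ => t ^ 2 * (t + 3) / (t ^ 2 + 6 * t + 6) - (t - Real.log (1 + t)))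
      (t ^ 4 / ((1 + t) * (t ^ 2 + 6 * t + 6) ^ 2)) t := by
    intro t ht
    have h1 : (1 + t) ≠ 0 := by positivity
    have h2 : t ^ 2 + 6 * t + 6 ≠ 0 := by (clear * - ht; positivity)
    have hl := ((hasDerivAt_id t).const_add 1).log h1
    have hn := (hasDerivAt_pow 2 t).mul ((hasDerivAt_id t).add_const 3)
    have hdn := (((hasDerivAt_pow 2 t).add ((hasDerivAt_id t).const_mul 6)).add_const 6)
    refine ((hn.div hdn h2).sub ((hasDerivAt_id t).sub hl)).congr_deriv ?_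
    simp only [id_eq, Nat.cast_ofNat, Pi.mul_apply, Pi.add_apply]
    field_simp
    ring
  have hmono : MonotoneOn
      (fun t : ℝ => t ^ 2 * (t + 3) / (t ^ 2 + 6 * t + 6) - (t - Real.log (1 + t))) (Ici 0) := by
    apply monotoneOn_of_deriv_nonneg (convex_Ici 0)
    · intro t ht
      exact (hd t ht).continuousAt.continuousWithinAt
    · intro t ht
      rw [interior_Ici] at ht
      exact (hd t (le_of_lt ht)).differentiableAt.differentiableWithinAt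
    · intro t ht
      rw [interior_Ici] at ht
      rw [(hd t (le_of_lt ht)).deriv]
      have : (0 : ℝ) < t := ht
      (clear * - this; positivity)
  have := hmono (self_mem_Ici : (0:ℝ) ∈ Ici 0) (show u ∈ Ici (0 : ℝ) from hu) hu
  simp only [ne_eq, OfNat.ofNat_ne_zero, not_false_eq_true, zero_pow, zero_add, zero_mul, mul_zero,
    zero_div, add_zero, Real.log_one, sub_self] at this
  linarith only [this]

/-- the right potential term, general split -/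
theorem u15R_HRgen {m Y l u lam a b : ℝ} (hm : 1 < m) (hY : 2 < Y) (ha : 0 < a)
    (hb : b * (Y * (Y - 2) ^ 2) + 4 * (Y + 2) ^ 2 / a ≤
      2 * (Y + 2) * (Y - 1) * (Y - 2) + 16 * Y) :
    -(a / Y * u ^ 2) + b * (l - lam) ^ 2 ≤ u15HR m Y l u lam := by
  have h1 : 0 < Y := by linarith only [hY]
  have h2 : 0 < Y - 2 := by linarith only [hY]
  have h3 : 0 < m - 1 := by linarith only [hm]
  have e : u15HR m Y l u lam - (-(a / Y * u ^ 2) + b * (l - lam) ^ 2) =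
      16 * (Y / (m - 1)) / (Y - 2) ^ 2 * (l - lam) ^ 2 +
        a / Y * (u - 2 * (Y + 2) * (l - lam) / (a * (Y - 2))) ^ 2 +
        (2 * (Y + 2) * (Y - 1) * (Y - 2) + 16 * Y -
          (b * (Y * (Y - 2) ^ 2) + 4 * (Y + 2) ^ 2 / a)) / (Y * (Y - 2) ^ 2) * (l - lam) ^ 2 := by
    unfold u15HR
    field_simp
    ring
  have h4 : 0 ≤ 16 * (Y / (m - 1)) / (Y - 2) ^ 2 * (l - lam) ^ 2 := by positivity
  have h5 : 0 ≤ a / Y * (u - 2 * (Y + 2) * (l - lam) / (a * (Y - 2))) ^ 2 := by (clear * - ha hY; positivity)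
  have h6 : 0 ≤ (2 * (Y + 2) * (Y - 1) * (Y - 2) + 16 * Y -
      (b * (Y * (Y - 2) ^ 2) + 4 * (Y + 2) ^ 2 / a)) / (Y * (Y - 2) ^ 2) * (l - lam) ^ 2 := by
    apply mul_nonneg _ (sq_nonneg _)
    apply div_nonneg (by linarith only [hb])
    positivity
  linarith only [e, h4, h5, h6]

/-- elimination of `l`, `lam` -/
theorem u15R_elim {Y U W w l lam b β r g k κ Y1 : ℝ} (hY1 : 0 < Y1) (hY : Y1 ≤ Y) (_hU : 0 ≤ U)
    (hW : W = w / Y) (hw0 : 0 ≤ w) (hw2 : w ≤ r * U) (hb : 0 < b) (hβ : 0 ≤ β)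
    (hbβ : 81 ≤ 4 * b * β) (hk : 0 < k)
    (hkY : k * Y ≤ 9 / 7 * Y + 5 / 2 - β) (hG0 : -(g * U) ≤ 3 * U + (9 - 2 * β) * W)
    (hG1 : 3 * U + (9 - 2 * β) * W ≤ g * U) (hκ : g ^ 2 / (4 * k) + β * r ^ 2 / Y1 ≤ κ) :
    -(κ * U ^ 2 / Y) ≤ b * (l - lam) ^ 2 + 9 * lam * l - 9 / 2 * l ^ 2 +
      (9 / 7 * Y - 2) * l ^ 2 - 3 * l * U - 9 * lam * W := by
  have hY0 : 0 < Y := lt_of_lt_of_le hY1 hY
  have hr : 0 ≤ r * U := hw0.trans hw2
  obtain ⟨G, hG⟩ : ∃ G, G = 3 * U + (9 - 2 * β) * W := ⟨_, rfl⟩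
  rw [← hG] at hG0 hG1
  have h1 : 0 ≤ b * (l - lam) ^ 2 - 9 * (l - lam) * (l - W) + β * (l - W) ^ 2 := by
    have h2 : 0 ≤ 4 * b * (b * (l - lam) ^ 2 - 9 * (l - lam) * (l - W) + β * (l - W) ^ 2) := by
      have e : 4 * b * (b * (l - lam) ^ 2 - 9 * (l - lam) * (l - W) + β * (l - W) ^ 2) =
        (2 * b * (l - lam) - 9 * (l - W)) ^ 2 + (4 * b * β - 81) * (l - W) ^ 2 := by ring
      rw [e]
      have := mul_nonneg (sub_nonneg.2 hbβ) (sq_nonneg (l - W))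
      nlinarith only [this]
    exact nonneg_of_mul_nonneg_right h2 (by linarith only [hb])
  have hGs : G ^ 2 ≤ (g * U) ^ 2 := sq_le_sq' hG0 hG1
  have h3 : -(G ^ 2 / (4 * (k * Y))) ≤ k * Y * l ^ 2 - G * l := by
    have hkY0 : 0 < k * Y := by (clear * - hk hY0; positivity)
    have e : k * Y * l ^ 2 - G * l + G ^ 2 / (4 * (k * Y)) =
        k * Y * (l - G / (2 * (k * Y))) ^ 2 := by
      field_simp
      ring
    have := mul_nonneg hkY0.le (sq_nonneg (l - G / (2 * (k * Y))))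
    linarith only [this, e]
  have h4 : G ^ 2 / (4 * (k * Y)) ≤ g ^ 2 / (4 * k) * U ^ 2 / Y := by
    have e : g ^ 2 / (4 * k) * U ^ 2 / Y = (g * U) ^ 2 / (4 * (k * Y)) := by
      (clear * - hY0 hk; field_simp)
    rw [e]
    exact div_le_div_of_nonneg_right hGs (by (clear * - hk hY0; positivity))
  have h5 : β * W ^ 2 ≤ β * r ^ 2 / Y1 * U ^ 2 / Y := by
    have h6 : W ^ 2 ≤ (r * U) ^ 2 / (Y1 * Y) := by
      rw [hW, div_pow]
      apply div_le_div₀ (sq_nonneg _) (pow_le_pow_left₀ hw0 hw2 2) (by positivity)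
      rw [pow_two]
      exact mul_le_mul_of_nonneg_right hY hY0.le
    have e : β * r ^ 2 / Y1 * U ^ 2 / Y = β * ((r * U) ^ 2 / (Y1 * Y)) := by
      (clear * - hY0 hY1; field_simp)
    rw [e]
    exact mul_le_mul_of_nonneg_left h6 hβ
  have h7 : (g ^ 2 / (4 * k) + β * r ^ 2 / Y1) * U ^ 2 / Y ≤ κ * U ^ 2 / Y :=
    div_le_div_of_nonneg_right (mul_le_mul_of_nonneg_right hκ (sq_nonneg U)) hY0.le
  have h8 : (g ^ 2 / (4 * k) + β * r ^ 2 / Y1) * U ^ 2 / Y =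
      g ^ 2 / (4 * k) * U ^ 2 / Y + β * r ^ 2 / Y1 * U ^ 2 / Y := by ring
  have h9 : k * Y * l ^ 2 ≤ (9 / 7 * Y + 5 / 2 - β) * l ^ 2 :=
    mul_le_mul_of_nonneg_right hkY (sq_nonneg l)
  have e : b * (l - lam) ^ 2 + 9 * lam * l - 9 / 2 * l ^ 2 +
      (9 / 7 * Y - 2) * l ^ 2 - 3 * l * U - 9 * lam * W =
      (b * (l - lam) ^ 2 - 9 * (l - lam) * (l - W) + β * (l - W) ^ 2) +
        (9 / 7 * Y + 5 / 2 - β) * l ^ 2 - G * l - β * W ^ 2 := by
    rw [hG]; ring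
  rw [e]
  linarith only [h1, h3, h4, h5, h7, h8, h9]

/-- lower bound for the coefficient of `U` -/
theorem u15R_Sg {m x s Y Y1 : ℝ} (hm : 15 ≤ m) (_hx : 0 < x) (hs : 0 < s)
    (hxs : x ^ 2 + s ^ 2 = 1) (hY : Y = (m - 1) * (x ^ 2 / s ^ 2)) (hY1 : 0 < Y1) (h1 : Y1 ≤ Y) :
    14 * Y1 * (42 + Y1) / ((14 + Y1) * (56 + Y1)) ≤ s ^ 2 * (1 + 2 * s) / (1 + s) ^ 2 * Y := by
  obtain ⟨n, hn⟩ : ∃ n, n = m - 1 := ⟨_, rfl⟩
  have hn14 : 14 ≤ n := by linarith only [hm, hn]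
  rw [← hn] at hY
  have hY0 : 0 < Y := by linarith only [hY1, h1]
  have hst : s ^ 2 * (n + Y) = n := by
    rw [hY]
    field_simp
    linarith
  have hs2 : s ^ 2 = n / (n + Y) := by
    rw [eq_div_iff (by positivity)]; exact hst
  have hs1 : s < 1 := by nlinarith only [hxs, _hx]
  -- `s ≥ 2t/(1+t)`
  obtain ⟨t, ht⟩ : ∃ t, t = s ^ 2 := ⟨_, rfl⟩
  have ht0 : 0 < t := by rw [ht]; positivity
  have hst2 : 2 * t / (1 + t) ≤ s := by
    rw [div_le_iff₀ (by linarith only [ht0]), ht]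
    linarith only [mul_nonneg hs.le (sq_nonneg (1 - s))]
  have e1 : s ^ 2 * (1 + 2 * s) / (1 + s) ^ 2 * Y = n * (1 - 2 * t / (1 + s)) := by
    rw [hY, ht, show x ^ 2 = (1 - s) * (1 + s) by linarith only [hxs]]
    field_simp
    ring
  have h2 : n * (1 - 2 * t / ((1 + 3 * t) / (1 + t))) ≤ n * (1 - 2 * t / (1 + s)) := by
    apply mul_le_mul_of_nonneg_left _ (by linarith only [hm, hn])
    apply sub_le_sub_left
    apply div_le_div_of_nonneg_left (by (clear * - ht0; positivity)) (by (clear * - ht0; positivity))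
    have : (1 + 3 * t) / (1 + t) = 1 + 2 * t / (1 + t) := by field_simp; ring
    rw [this]
    linarith only [hst2]
  have e2 : n * (1 - 2 * t / ((1 + 3 * t) / (1 + t))) =
      n * Y * (3 * n + Y) / ((n + Y) * (4 * n + Y)) := by
    have ht' : t = n / (n + Y) := by rw [ht, hs2]
    rw [ht']
    have : 0 < n := by linarith only [hm, hn]
    have h5 : (1 + 3 * (n / (n + Y))) = (4 * n + Y) / (n + Y) := by field_simp; ring
    have h6 : (1 + n / (n + Y)) = (2 * n + Y) / (n + Y) := by field_simp; ring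
    rw [h5, h6]
    have h7 : (0 : ℝ) < 4 * n + Y := by linarith only [hm, hY1, h1, hn]
    have h8 : (0 : ℝ) < 2 * n + Y := by linarith only [hm, hY1, h1, hn]
    field_simp
    ring
  rw [e1]
  refine le_trans ?_ h2
  rw [e2, div_le_div_iff₀ (by positivity) (by (clear * - hn14 hY0; positivity))]
  have hn0 : 0 ≤ n - 14 := by linarith only [hm, hn]
  have hy0 : 0 ≤ Y - Y1 := by linarith only [h1]
  obtain ⟨p, hp⟩ : ∃ p, p = n - 14 := ⟨_, rfl⟩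
  obtain ⟨q, hq⟩ : ∃ q, q = Y - Y1 := ⟨_, rfl⟩
  rw [← hp] at hn0
  rw [← hq] at hy0
  have en : n = p + 14 := by linarith only [hp]
  have eY : Y = q + Y1 := by linarith only [hq]
  rw [en, eY]
  have key : (p + 14) * (q + Y1) * (3 * (p + 14) + (q + Y1)) * ((14 + Y1) * (56 + Y1)) -
      14 * Y1 * (42 + Y1) * ((p + 14 + (q + Y1)) * (4 * (p + 14) + (q + Y1))) =
      460992 * q + 21952 * q * Y1 + 392 * q * Y1 ^ 2 + 10976 * q ^ 2 + 392 * q ^ 2 * Y1 +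
        2156 * p * Y1 ^ 2 + 84 * p * Y1 ^ 3 + p * Y1 ^ 4 + 65856 * p * q + 4508 * p * q * Y1 +
        154 * p * q * Y1 ^ 2 + 2 * p * q * Y1 ^ 3 + 784 * p * q ^ 2 + 70 * p * q ^ 2 * Y1 +
        p * q ^ 2 * Y1 ^ 2 + 154 * p ^ 2 * Y1 ^ 2 + 3 * p ^ 2 * Y1 ^ 3 + 2352 * p ^ 2 * q +
        210 * p ^ 2 * q * Y1 + 3 * p ^ 2 * q * Y1 ^ 2 := by
    ring
  have key2 : 0 ≤ 460992 * q + 21952 * q * Y1 + 392 * q * Y1 ^ 2 + 10976 * q ^ 2 +
        392 * q ^ 2 * Y1 +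
        2156 * p * Y1 ^ 2 + 84 * p * Y1 ^ 3 + p * Y1 ^ 4 + 65856 * p * q + 4508 * p * q * Y1 +
        154 * p * q * Y1 ^ 2 + 2 * p * q * Y1 ^ 3 + 784 * p * q ^ 2 + 70 * p * q ^ 2 * Y1 +
        p * q ^ 2 * Y1 ^ 2 + 154 * p ^ 2 * Y1 ^ 2 + 3 * p ^ 2 * Y1 ^ 3 + 2352 * p ^ 2 * q +
        210 * p ^ 2 * q * Y1 + 3 * p ^ 2 * q * Y1 ^ 2 := by
    (clear * - hy0 hY1 hn0; positivity)
  linarith only [key2]

theorem u15R_mono1 {u u2 : ℝ} (hu : 0 ≤ u) (h : u ≤ u2) :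
    (u + 3) * (1 + u) / (u ^ 2 + 6 * u + 6) ≤ (u2 + 3) * (1 + u2) / (u2 ^ 2 + 6 * u2 + 6) := by
  have hu2 : 0 ≤ u2 := hu.trans h
  rw [div_le_div_iff₀ (by positivity) (by positivity)]
  have h1 : 0 ≤ (u2 - u) * (2 * u * u2 + 3 * (u + u2) + 6) :=
    mul_nonneg (sub_nonneg.2 h) (by positivity)
  linarith only [h1]

theorem u15R_mono2 {u u2 : ℝ} (hu : 0 ≤ u) (h : u ≤ u2) :
    u ^ 2 / (1 + u) ≤ u2 ^ 2 / (1 + u2) := by
  have hu2 : 0 ≤ u2 := hu.trans h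
  rw [div_le_div_iff₀ (by positivity) (by positivity)]
  have h1 : 0 ≤ (u2 - u) * (u2 + u + u * u2) :=
    mul_nonneg (sub_nonneg.2 h) (by positivity)
  linarith

/-- final scalar inequality of one range -/
theorem u15R_scal {m u U w Sg a κ r u2 S1 : ℝ} (hm : 15 ≤ m)
    (huu2 : u ≤ u2) (hU0 : 0 ≤ U) (hw2 : w ≤ r * U) (hwU : w ≤ U) (hUU2 : U ≤ u2 ^ 2 / (1 + u2))
    (ha : 0 < a) (hκ0 : 0 ≤ κ) (hSg1 : S1 ≤ Sg)
    (hfin : 21 / 10 + a * (1 + u2) + κ * (u2 ^ 2 / (1 + u2)) ≤ 16 * (1 - r) + S1) :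
    U / 10 + a * (U * (1 + u)) + κ * U ^ 2 ≤ (m + 1) * (U - w) + (Sg - 2) * U := by
  have h8 : 0 ≤ U - w := by linarith only [hwU]
  have h9 : 16 * (U - w) ≤ (m + 1) * (U - w) := mul_le_mul_of_nonneg_right (by linarith only [hm]) h8
  have h11 : S1 * U ≤ Sg * U := mul_le_mul_of_nonneg_right hSg1 hU0
  have h12 : a * (U * (1 + u)) ≤ a * (U * (1 + u2)) :=
    mul_le_mul_of_nonneg_left (mul_le_mul_of_nonneg_left (by linarith only [huu2]) hU0) ha.le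
  have h13 : κ * (U * U) ≤ κ * (u2 ^ 2 / (1 + u2) * U) :=
    mul_le_mul_of_nonneg_left (mul_le_mul_of_nonneg_right hUU2 hU0) hκ0
  have h14 := mul_le_mul_of_nonneg_right hfin hU0
  have e1 : κ * U ^ 2 = κ * (U * U) := by ring
  have e2 : (21 / 10 + a * (1 + u2) + κ * (u2 ^ 2 / (1 + u2))) * U =
      21 / 10 * U + a * (U * (1 + u2)) + κ * (u2 ^ 2 / (1 + u2) * U) := by ring
  rw [e1]
  rw [e2] at h14
  linarith only [hw2, h9, h11, h12, h13, h14]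

/-- the bounds of the linear coefficient -/
theorem u15R_G {Y Y1 Y2 U w β r g : ℝ} (hY10 : 0 < Y1) (h1 : Y1 ≤ Y) (h2 : Y ≤ Y2)
    (hβ : 9 / 2 ≤ β) (hr1 : 0 ≤ r) (hU0 : 0 ≤ U) (hw1 : U / 2 ≤ w) (hw2 : w ≤ r * U)
    (hG0 : (2 * β - 9) * r ≤ (3 + g) * Y1) (hG1 : 3 * Y2 - (β - 9 / 2) ≤ g * Y2) :
    -(g * U) ≤ 3 * U + (9 - 2 * β) * (w / Y) ∧ 3 * U + (9 - 2 * β) * (w / Y) ≤ g * U := by
  have hY0 : 0 < Y := by linarith only [hY10, h1]
  have hY2 : 0 < Y2 := by linarith only [hY10, h1, h2]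
  constructor
  · have h5 : w / Y ≤ r * U / Y1 := div_le_div₀ (by (clear * - hr1 hU0; positivity)) hw2 hY10 h1
    have h6 : (2 * β - 9) * (w / Y) ≤ (2 * β - 9) * (r * U / Y1) :=
      mul_le_mul_of_nonneg_left h5 (by linarith only [hβ])
    have h7 : (2 * β - 9) * (r * U / Y1) ≤ (3 + g) * U := by
      rw [show (2 * β - 9) * (r * U / Y1) = (2 * β - 9) * r * U / Y1 by ring,
        div_le_iff₀ hY10]
      have := mul_le_mul_of_nonneg_right hG0 hU0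
      linarith only [this]
    linarith only [h7, h6]
  · have h5 : U / 2 / Y2 ≤ w / Y := div_le_div₀ (by linarith only [hU0, hw1]) hw1 hY0 h2
    have h6 : (2 * β - 9) * (U / 2 / Y2) ≤ (2 * β - 9) * (w / Y) :=
      mul_le_mul_of_nonneg_left h5 (by linarith only [hβ])
    have h7 : 3 * U - (2 * β - 9) * (U / 2 / Y2) ≤ g * U := by
      have e : 3 * U - (2 * β - 9) * (U / 2 / Y2) = (3 * Y2 - (β - 9 / 2)) * U / Y2 := by
        field_simp
      rw [e, div_le_iff₀ hY2]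
      have := mul_le_mul_of_nonneg_right hG1 hU0
      linarith only [this]
    linarith only [h6, h7]

theorem u15R_G' {Y Y1 U w β r g : ℝ} (hY10 : 0 < Y1) (h1 : Y1 ≤ Y)
    (hβ : β ≤ 9 / 2) (hr1 : 0 ≤ r) (hU0 : 0 ≤ U) (hw0 : 0 ≤ w) (hw2 : w ≤ r * U)
    (hg0 : 0 ≤ g) (hG1 : 3 * Y1 + (9 - 2 * β) * r ≤ g * Y1) :
    -(g * U) ≤ 3 * U + (9 - 2 * β) * (w / Y) ∧ 3 * U + (9 - 2 * β) * (w / Y) ≤ g * U := by
  have hY0 : 0 < Y := by (clear * - hY10 h1; linarith)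
  constructor
  · have h5 : 0 ≤ (9 - 2 * β) * (w / Y) := mul_nonneg (by linarith only [hβ]) (by (clear * - hw0 hY0; positivity))
    have h6 : 0 ≤ g * U := mul_nonneg hg0 hU0
    linarith only [h6, h5, hU0]
  · have h5 : w / Y ≤ r * U / Y1 := div_le_div₀ (by (clear * - hr1 hU0; positivity)) hw2 hY10 h1
    have h6 : (9 - 2 * β) * (w / Y) ≤ (9 - 2 * β) * (r * U / Y1) :=
      mul_le_mul_of_nonneg_left h5 (by linarith only [hβ])
    have h7 : 3 * U + (9 - 2 * β) * (r * U / Y1) ≤ g * U := by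
      have e : 3 * U + (9 - 2 * β) * (r * U / Y1) = (3 * Y1 + (9 - 2 * β) * r) * U / Y1 := by
        (clear * - hY10; field_simp)
      rw [e, div_le_iff₀ hY10]
      have := mul_le_mul_of_nonneg_right hG1 hU0
      linarith only [this]
    linarith only [h6, h7]

/-- one range of `Y` -/
theorem u15R_range {m x s l u lam v c Y Y1 Y2 a b β r g k κ u2 : ℝ} (hm : 15 ≤ m) (hx : 0 < x)
    (hs : 0 < s) (hxs : x ^ 2 + s ^ 2 = 1) (hY : Y = (m - 1) * (x ^ 2 / s ^ 2)) (hY20 : 2 < Y)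
    (hu : 0 ≤ u) (huu2 : u ≤ u2) (hv : v = Real.log (1 + u)) (hc : -2 * l ^ 2 ≤ c)
    (hY1 : 2 ≤ Y1) (h1 : Y1 ≤ Y) (h2 : Y ≤ Y2) (ha : 0 < a) (hb : 0 < b) (hβ : 0 ≤ β)
    (hr1 : 0 ≤ r) (hbβ : 81 ≤ 4 * b * β) (hk : 0 < k) (hkY : k * Y ≤ 9 / 7 * Y + 5 / 2 - β)
    (hbY : b * (Y * (Y - 2) ^ 2) + 4 * (Y + 2) ^ 2 / a ≤
      2 * (Y + 2) * (Y - 1) * (Y - 2) + 16 * Y)
    (hr : (u2 + 3) * (1 + u2) / (u2 ^ 2 + 6 * u2 + 6) ≤ r)
    (hg0 : 0 ≤ g) (hG : (β ≤ 9 / 2 ∧ 3 * Y1 + (9 - 2 * β) * r ≤ g * Y1) ∨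
      (9 / 2 ≤ β ∧ (2 * β - 9) * r ≤ (3 + g) * Y1 ∧ 3 * Y2 - (β - 9 / 2) ≤ g * Y2))
    (hκ : g ^ 2 / (4 * k) + β * r ^ 2 / Y1 ≤ κ)
    (hfin : 21 / 10 + a * (1 + u2) + κ * (u2 ^ 2 / (1 + u2)) ≤
      16 * (1 - r) + 14 * Y1 * (42 + Y1) / ((14 + Y1) * (56 + Y1))) :
    1 / 10 * (u ^ 2 / (1 + u)) / Y ≤ u15F m s Y l u lam v c + u15HR m Y l u lam := by
  have hY0 : 0 < Y := by linarith only [hY20]
  have hY10 : 0 < Y1 := by linarith only [hY1]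
  have hu1 : (0 : ℝ) < 1 + u := by linarith only [hu]
  have hu21 : (0 : ℝ) < 1 + u2 := by linarith only [hu, huu2]
  obtain ⟨U, hU⟩ : ∃ U, U = u ^ 2 / (1 + u) := ⟨_, rfl⟩
  have hUu : U * (1 + u) = u ^ 2 := by rw [hU]; (clear * - hu; field_simp)
  have hU0 : 0 ≤ U := by rw [hU]; (clear * - hu; positivity)
  obtain ⟨w, hw⟩ : ∃ w, w = u - Real.log (1 + u) := ⟨_, rfl⟩
  obtain ⟨Sg, hSg⟩ : ∃ Sg, Sg = s ^ 2 * (1 + 2 * s) / (1 + s) ^ 2 * Y := ⟨_, rfl⟩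
  have hSg1 : 14 * Y1 * (42 + Y1) / ((14 + Y1) * (56 + Y1)) ≤ Sg := by
    rw [hSg]; exact u15R_Sg hm hx hs hxs hY hY10 h1
  have hw1 : U / 2 ≤ w := by rw [hU, hw]; exact u15_w_pos_ge hu
  have hw2 : w ≤ r * U := by
    have h3 := u15_w_pade hu
    rw [← hw] at h3
    refine h3.trans ?_
    have e : u ^ 2 * (u + 3) / (u ^ 2 + 6 * u + 6) =
        (u + 3) * (1 + u) / (u ^ 2 + 6 * u + 6) * U := by
      rw [hU]; (clear * - hu; field_simp)
    rw [e]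
    apply mul_le_mul_of_nonneg_right _ hU0
    exact (u15R_mono1 hu huu2).trans hr
  have hw0 : 0 ≤ w := by linarith only [hU0, hw1]
  have hUU2 : U ≤ u2 ^ 2 / (1 + u2) := by
    rw [hU]; exact u15R_mono2 hu huu2
  have h37 : 9 / 7 ≤ 3 / 2 * ((m - 3) / (m - 1)) := by
    rw [← mul_div_assoc, le_div_iff₀ (by linarith only [hm])]
    linarith only [hm]
  have h37' : 9 / 7 * Y * l ^ 2 ≤ 3 / 2 * ((m - 3) / (m - 1)) * Y * l ^ 2 :=
    mul_le_mul_of_nonneg_right (mul_le_mul_of_nonneg_right h37 hY0.le) (sq_nonneg l)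
  have eF : u15F m s Y l u lam v c = ((m + 1) * (U - w) + (Sg - 2) * U) / Y +
      (9 * lam * l - 9 / 2 * l ^ 2 + 3 / 2 * ((m - 3) / (m - 1)) * Y * l ^ 2 -
        3 * l * U - 9 * lam * (w / Y) + c) := by
    have e1 : v - u / (1 + u) = U - w := by
      rw [hU, hw, hv]
      field_simp
      ring
    have e2 : u - v = w := by rw [hw, hv]
    unfold u15F
    rw [e1, e2, ← hU, hSg]
    field_simp
    ring
  have hHR := u15R_HRgen (m := m) (Y := Y) (l := l) (u := u) (lam := lam) (by linarith only [hm]) hY20 ha hbY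
  have hGG : -(g * U) ≤ 3 * U + (9 - 2 * β) * (w / Y) ∧
      3 * U + (9 - 2 * β) * (w / Y) ≤ g * U := by
    rcases hG with hG | hG
    · exact u15R_G' hY10 h1 hG.1 hr1 hU0 hw0 hw2 hg0 hG.2
    · exact u15R_G hY10 h1 h2 hG.1 hr1 hU0 hw1 hw2 hG.2.1 hG.2.2
  have hel := u15R_elim (U := U) (W := w / Y) (l := l) (lam := lam) (g := g) hY10 h1 hU0 rfl hw0
    hw2 hb hβ hbβ hk hkY hGG.1 hGG.2 hκ
  have hwU : w ≤ U := by
    have h9 := u15_w_pos_le hu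
    rw [← hw, le_div_iff₀ (by linarith only [hu]), ← hUu] at h9
    have h10 : w * (2 + u) ≤ U * (2 + u) := by linarith only [hU0, h9]
    exact le_of_mul_le_mul_right h10 (by linarith only [hu])
  have hκ0 : 0 ≤ κ := le_trans (by (clear * - hk hβ hY1; positivity)) hκ
  have hfin2 : (U / 10 + a * (U * (1 + u)) + κ * U ^ 2) / Y ≤
      ((m + 1) * (U - w) + (Sg - 2) * U) / Y :=
    div_le_div_of_nonneg_right (u15R_scal hm huu2 hU0 hw2 hwU hUU2 ha hκ0 hSg1 hfin) hY0.le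
  have e3 : (U / 10 + a * (U * (1 + u)) + κ * U ^ 2) / Y =
      1 / 10 * U / Y + a / Y * u ^ 2 + κ * U ^ 2 / Y := by
    rw [hUu]; ring
  rw [e3] at hfin2
  rw [← hU, eF]
  linarith only [hc, h37', hHR, hel, hfin2]

theorem u15R_r1 {m x s l u lam v c Y : ℝ} (hm : 15 ≤ m) (hx : 0 < x) (hs : 0 < s)
    (hxs : x ^ 2 + s ^ 2 = 1) (hY : Y = (m - 1) * (x ^ 2 / s ^ 2)) (hY20 : 2 < Y)
    (hu : 0 ≤ u) (huu2 : u ≤ 369 / 500) (hv : v = Real.log (1 + u)) (hc : -2 * l ^ 2 ≤ c)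
    (h2 : Y ≤ 16 / 5) :
    1 / 10 * (u ^ 2 / (1 + u)) / Y ≤ u15F m s Y l u lam v c + u15HR m Y l u lam := by
  refine u15R_range (Y1 := 2) (Y2 := 16 / 5) (a := 41 / 20) (b := 561 / 100) (β := 361 / 100)
    (r := 593 / 1000) (g := 353 / 100) (k := 73 / 100) (κ := 491 / 100) (u2 := 369 / 500)
    hm hx hs hxs hY hY20 hu huu2 hv hc (by norm_num) hY20.le h2 (by norm_num) (by norm_num)
    (by norm_num) (by norm_num) (by norm_num) (by norm_num) ?_ ?_ (by norm_num) (by norm_num)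
    (Or.inl ⟨by norm_num, by norm_num⟩) (by norm_num) (by norm_num)
  · (clear * - hY20; linarith)
  · have d1 : 0 ≤ Y - 2 := by linarith only [hY20]
    have d2 : 0 ≤ 16 / 5 - Y := by (clear * - h2; linarith only [h2])
    nlinarith only [d1, d2]

theorem u15R_r2 {m x s l u lam v c Y : ℝ} (hm : 15 ≤ m) (hx : 0 < x) (hs : 0 < s)
    (hxs : x ^ 2 + s ^ 2 = 1) (hY : Y = (m - 1) * (x ^ 2 / s ^ 2)) (hY20 : 2 < Y)
    (hu : 0 ≤ u) (huu2 : u ≤ 17 / 20) (hv : v = Real.log (1 + u)) (hc : -2 * l ^ 2 ≤ c)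
    (h1 : 16 / 5 ≤ Y) (h2 : Y ≤ 17 / 4) :
    1 / 10 * (u ^ 2 / (1 + u)) / Y ≤ u15F m s Y l u lam v c + u15HR m Y l u lam := by
  refine u15R_range (Y1 := 16 / 5) (Y2 := 17 / 4) (a := 21 / 10) (b := 197 / 50) (β := 257 / 50)
    (r := 603 / 1000) (g := 57 / 20) (k := 23 / 50) (κ := 5) (u2 := 17 / 20)
    hm hx hs hxs hY hY20 hu huu2 hv hc (by (clear * -; norm_num)) h1 h2 (by norm_num) (by norm_num)
    (by norm_num) (by norm_num) (by norm_num) (by norm_num) ?_ ?_ (by norm_num) (by norm_num)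
    (Or.inr ⟨by norm_num, by norm_num, by norm_num⟩) (by norm_num) (by norm_num)
  · linarith only [h1]
  · have d1 : 0 ≤ Y - 16 / 5 := by linarith only [h1]
    have d2 : 0 ≤ 17 / 4 - Y := by linarith only [h2]
    nlinarith only [d1, d2]

theorem u15R_r3 {m x s l u lam v c Y : ℝ} (hm : 15 ≤ m) (hx : 0 < x) (hs : 0 < s)
    (hxs : x ^ 2 + s ^ 2 = 1) (hY : Y = (m - 1) * (x ^ 2 / s ^ 2)) (hY20 : 2 < Y)
    (hu : 0 ≤ u) (huu2 : u ≤ 189 / 200) (hv : v = Real.log (1 + u)) (hc : -2 * l ^ 2 ≤ c)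
    (h1 : 17 / 4 ≤ Y) (h2 : Y ≤ 21 / 4) :
    1 / 10 * (u ^ 2 / (1 + u)) / Y ≤ u15F m s Y l u lam v c + u15HR m Y l u lam := by
  refine u15R_range (Y1 := 17 / 4) (Y2 := 21 / 4) (a := 39 / 20) (b := 317 / 100) (β := 639 / 100)
    (r := 611 / 1000) (g := 66 / 25) (k := 37 / 100) (κ := 132 / 25) (u2 := 189 / 200)
    hm hx hs hxs hY hY20 hu huu2 hv hc (by norm_num) h1 h2 (by norm_num) (by norm_num)
    (by norm_num) (by norm_num) (by norm_num) (by norm_num) ?_ ?_ (by norm_num) (by norm_num)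
    (Or.inr ⟨by norm_num, by norm_num, by norm_num⟩) (by norm_num) (by norm_num)
  · linarith only [h1]
  · have d1 : 0 ≤ Y - 17 / 4 := by linarith only [h1]
    have d2 : 0 ≤ 21 / 4 - Y := by linarith only [h2]
    nlinarith only [d1, d2]

theorem u15R_r4 {m x s l u lam v c Y : ℝ} (hm : 15 ≤ m) (hx : 0 < x) (hs : 0 < s)
    (hxs : x ^ 2 + s ^ 2 = 1) (hY : Y = (m - 1) * (x ^ 2 / s ^ 2)) (hY20 : 2 < Y)
    (hu : 0 ≤ u) (huu2 : u ≤ 263 / 250) (hv : v = Real.log (1 + u)) (hc : -2 * l ^ 2 ≤ c)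
    (h1 : 21 / 4 ≤ Y) (h2 : Y ≤ 13 / 2) :
    1 / 10 * (u ^ 2 / (1 + u)) / Y ≤ u15F m s Y l u lam v c + u15HR m Y l u lam := by
  refine u15R_range (Y1 := 21 / 4) (Y2 := 13 / 2) (a := 7 / 4) (b := 68 / 25) (β := 149 / 20)
    (r := 31 / 50) (g := 51 / 20) (k := 171 / 500) (κ := 53 / 10) (u2 := 263 / 250)
    hm hx hs hxs hY hY20 hu huu2 hv hc (by norm_num) h1 h2 (by norm_num) (by norm_num)
    (by norm_num) (by norm_num) (by norm_num) (by norm_num) ?_ ?_ (by norm_num) (by norm_num)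
    (Or.inr ⟨by norm_num, by norm_num, by norm_num⟩) (by norm_num) (by norm_num)
  · linarith only [h1]
  · have d1 : 0 ≤ Y - 21 / 4 := by linarith only [h1]
    have d2 : 0 ≤ 13 / 2 - Y := by linarith only [h2]
    nlinarith only [d1, d2]

theorem u15R_r5 {m x s l u lam v c Y : ℝ} (hm : 15 ≤ m) (hx : 0 < x) (hs : 0 < s)
    (hxs : x ^ 2 + s ^ 2 = 1) (hY : Y = (m - 1) * (x ^ 2 / s ^ 2)) (hY20 : 2 < Y)
    (hu : 0 ≤ u) (huu2 : u ≤ 1237 / 1000) (hv : v = Real.log (1 + u)) (hc : -2 * l ^ 2 ≤ c)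
    (h1 : 13 / 2 ≤ Y) (h2 : Y ≤ 9) :
    1 / 10 * (u ^ 2 / (1 + u)) / Y ≤ u15F m s Y l u lam v c + u15HR m Y l u lam := by
  refine u15R_range (Y1 := 13 / 2) (Y2 := 9) (a := 29 / 20) (b := 47 / 20) (β := 431 / 50)
    (r := 317 / 500) (g := 51 / 20) (k := 43 / 125) (κ := 263 / 50) (u2 := 1237 / 1000)
    hm hx hs hxs hY hY20 hu huu2 hv hc (by norm_num) h1 h2 (by norm_num) (by norm_num)
    (by norm_num) (by norm_num) (by norm_num) (by norm_num) ?_ ?_ (by norm_num) (by norm_num)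
    (Or.inr ⟨by norm_num, by norm_num, by norm_num⟩) (by norm_num) (by norm_num)
  · linarith only [h1]
  · have d1 : 0 ≤ Y - 13 / 2 := by linarith only [h1]
    have d2 : 0 ≤ 9 - Y := by linarith only [h2]
    nlinarith only [d2, mul_nonneg d1 d2]

theorem u15R_r6 {m x s l u lam v c Y : ℝ} (hm : 15 ≤ m) (hx : 0 < x) (hs : 0 < s)
    (hxs : x ^ 2 + s ^ 2 = 1) (hY : Y = (m - 1) * (x ^ 2 / s ^ 2)) (hY20 : 2 < Y)
    (hu : 0 ≤ u) (huu2 : u ≤ 33 / 20) (hv : v = Real.log (1 + u)) (hc : -2 * l ^ 2 ≤ c)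
    (h1 : 9 ≤ Y) (h2 : Y ≤ 16) :
    1 / 10 * (u ^ 2 / (1 + u)) / Y ≤ u15F m s Y l u lam v c + u15HR m Y l u lam := by
  refine u15R_range (Y1 := 9) (Y2 := 16) (a := 11 / 10) (b := 211 / 100) (β := 48 / 5)
    (r := 331 / 500) (g := 269 / 100) (k := 62 / 125) (κ := 103 / 25) (u2 := 33 / 20)
    hm hx hs hxs hY hY20 hu huu2 hv hc (by norm_num) h1 h2 (by norm_num) (by norm_num)
    (by norm_num) (by norm_num) (by norm_num) (by norm_num) ?_ ?_ (by norm_num) (by norm_num)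
    (Or.inr ⟨by norm_num, by norm_num, by norm_num⟩) (by norm_num) (by norm_num)
  · linarith only [h1]
  · have d1 : 0 ≤ Y - 9 := by linarith only [h1]
    have d2 : 0 ≤ 16 - Y := by linarith only [h2]
    nlinarith only [mul_nonneg d1 d2]

theorem u15R_r7 {m x s l u lam v c Y : ℝ} (hm : 15 ≤ m) (hx : 0 < x) (hs : 0 < s)
    (hxs : x ^ 2 + s ^ 2 = 1) (hY : Y = (m - 1) * (x ^ 2 / s ^ 2)) (hY20 : 2 < Y)
    (hu : 0 ≤ u) (huu2 : u ≤ 326 / 125) (hv : v = Real.log (1 + u)) (hc : -2 * l ^ 2 ≤ c)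
    (h1 : 16 ≤ Y) (h2 : Y ≤ 40) :
    1 / 10 * (u ^ 2 / (1 + u)) / Y ≤ u15F m s Y l u lam v c + u15HR m Y l u lam := by
  refine u15R_range (Y1 := 16) (Y2 := 40) (a := 11 / 20) (b := 173 / 100) (β := 1171 / 100)
    (r := 89 / 125) (g := 141 / 50) (k := 71 / 100) (κ := 159 / 50) (u2 := 326 / 125)
    hm hx hs hxs hY hY20 hu huu2 hv hc (by norm_num) h1 h2 (by norm_num) (by norm_num)
    (by norm_num) (by norm_num) (by norm_num) (by norm_num) ?_ ?_ (by norm_num) (by norm_num)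
    (Or.inr ⟨by norm_num, by norm_num, by norm_num⟩) (by norm_num) (by norm_num)
  · linarith only [h1]
  · have d1 : 0 ≤ Y - 16 := by linarith only [h1]
    have d2 : 0 ≤ 40 - Y := by linarith only [h2]
    nlinarith only [d1]

theorem u15R_r8 {m x s l u lam v c Y : ℝ} (hm : 15 ≤ m) (hx : 0 < x) (hs : 0 < s)
    (hxs : x ^ 2 + s ^ 2 = 1) (hY : Y = (m - 1) * (x ^ 2 / s ^ 2)) (hY20 : 2 < Y)
    (hu : 0 ≤ u) (huu2 : u ≤ 4) (hv : v = Real.log (1 + u)) (hc : -2 * l ^ 2 ≤ c)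
    (h1 : 40 ≤ Y) :
    1 / 10 * (u ^ 2 / (1 + u)) / Y ≤ u15F m s Y l u lam v c + u15HR m Y l u lam := by
  refine u15R_range (Y1 := 40) (Y2 := Y) (a := 1 / 5) (b := 31 / 20) (β := 1307 / 100)
    (r := 761 / 1000) (g := 3) (k := 1021 / 1000) (κ := 12 / 5) (u2 := 4)
    hm hx hs hxs hY hY20 hu huu2 hv hc (by norm_num) h1 le_rfl (by norm_num) (by norm_num)
    (by norm_num) (by norm_num) (by norm_num) (by norm_num) ?_ ?_ (by norm_num) (by norm_num)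
    (Or.inr ⟨by norm_num, by norm_num, by linarith only []⟩) (by norm_num) (by norm_num)
  · linarith only [h1]
  · have d1 : 0 ≤ Y - 40 := by linarith only [h1]
    nlinarith only [d1]

/-- **Right region, `0 ≤ u ≤ 4`**, all real `m ≥ 15`. -/
theorem u15_right_pos {m x s l u lam v c Y : ℝ} (hm : 15 ≤ m) (hx : 0 < x) (hs : 0 < s)
    (hxs : x ^ 2 + s ^ 2 = 1) (hY : Y = (m - 1) * (x ^ 2 / s ^ 2)) (h2x : 2 < (m + 1) * x ^ 2)
    (hu : 0 ≤ u) (hu4 : u ≤ 4) (huk : u ^ 2 ≤ 17 / 100 * Y) (hv : v = Real.log (1 + u))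
    (hc : -2 * l ^ 2 ≤ c) :
    1 / 10 * (u ^ 2 / (1 + u)) / Y ≤ u15F m s Y l u lam v c + u15HR m Y l u lam := by
  have hY20 : 2 < Y := by
    rw [hY, ← mul_div_assoc, lt_div_iff₀ (by positivity), show s ^ 2 = 1 - x ^ 2 by linarith only [hxs]]
    linarith only [h2x]
  have aux : ∀ d e : ℝ, 0 < e → 17 / 100 * d ≤ e ^ 2 → Y ≤ d → u ≤ e := by
    intro d e he h1 h2
    by_contra h
    push Not at h
    nlinarith only [huk, h1, h2, h, he]
  rcases le_total Y (16 / 5) with h1 | h1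
  · exact u15R_r1 hm hx hs hxs hY hY20 hu (aux _ _ (by norm_num) (by norm_num) h1) hv hc h1
  rcases le_total Y (17 / 4) with h2 | h2
  · exact u15R_r2 hm hx hs hxs hY hY20 hu (aux _ _ (by norm_num) (by norm_num) h2) hv hc h1 h2
  rcases le_total Y (21 / 4) with h3 | h3
  · exact u15R_r3 hm hx hs hxs hY hY20 hu (aux _ _ (by norm_num) (by norm_num) h3) hv hc h2 h3
  rcases le_total Y (13 / 2) with h4 | h4
  · exact u15R_r4 hm hx hs hxs hY hY20 hu (aux _ _ (by norm_num) (by norm_num) h4) hv hc h3 h4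
  rcases le_total Y 9 with h5 | h5
  · exact u15R_r5 hm hx hs hxs hY hY20 hu (aux _ _ (by norm_num) (by norm_num) h5) hv hc h4 h5
  rcases le_total Y 16 with h6 | h6
  · exact u15R_r6 hm hx hs hxs hY hY20 hu (aux _ _ (by norm_num) (by norm_num) h6) hv hc h5 h6
  rcases le_total Y 40 with h7 | h7
  · exact u15R_r7 hm hx hs hxs hY hY20 hu (aux _ _ (by norm_num) (by norm_num) h7) hv hc h6 h7
  exact u15R_r8 hm hx hs hxs hY hY20 hu hu4 hv hc h7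

end Vale.Agent.P237.AllN
end

section

/-!
# P237, uniform plain certificate (`m ≥ 15`): right region, `u ≤ 0`
-/

open Set

namespace Vale.Agent.P237.AllN

/-- completing the square in the right potential term, second form -/
theorem u15R_HR2 {m Y l u lam : ℝ} (hm : 1 < m) (hY : 2 < Y) :
    -(2 / Y * u ^ 2) + 2 * Y / (Y - 2) * (l - lam) ^ 2 ≤ u15HR m Y l u lam := by
  have h1 : 0 < Y := by linarith only [hY]
  have h2 : 0 < Y - 2 := by linarith only [hY]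
  have h3 : 0 < m - 1 := by linarith only [hm]
  have e : u15HR m Y l u lam - (-(2 / Y * u ^ 2) + 2 * Y / (Y - 2) * (l - lam) ^ 2) =
      16 * (Y / (m - 1)) / (Y - 2) ^ 2 * (l - lam) ^ 2 +
        2 / Y * (u - (Y + 2) * (l - lam) / (Y - 2)) ^ 2 := by
    unfold u15HR
    field_simp
    ring
  have h4 : 0 ≤ 16 * (Y / (m - 1)) / (Y - 2) ^ 2 * (l - lam) ^ 2 := by (clear * - hY hm; positivity)
  have h5 : 0 ≤ 2 / Y * (u - (Y + 2) * (l - lam) / (Y - 2)) ^ 2 := by (clear * - hY; positivity)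
  linarith

/-- elimination of `lam` -/
theorem u15R_elimN {Y l lam : ℝ} (hY : 2 < Y) :
    14 / 25 * Y * l ^ 2 ≤ 2 * Y / (Y - 2) * (l - lam) ^ 2 + 9 * lam * l - 9 / 2 * l ^ 2 +
      (9 / 7 * Y - 2) * l ^ 2 := by
  have h1 : 0 < Y := by linarith only [hY]
  have h2 : 0 < Y - 2 := by linarith only [hY]
  have e : 2 * Y / (Y - 2) * (l - lam) ^ 2 + 9 * lam * l - 9 / 2 * l ^ 2 +
      (9 / 7 * Y - 2) * l ^ 2 - 14 / 25 * Y * l ^ 2 =
      2 * Y / (Y - 2) * (lam - (1 - 9 * (Y - 2) / (4 * Y)) * l) ^ 2 +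
      ((9 / 7 - 14 / 25) * Y ^ 2 - 61 / 8 * Y + 81 / 4) / Y * l ^ 2 := by
    field_simp
    ring
  have h4 : 0 ≤ 2 * Y / (Y - 2) * (lam - (1 - 9 * (Y - 2) / (4 * Y)) * l) ^ 2 := by (clear * - hY; positivity)
  have h5 : 0 ≤ ((9 / 7 - 14 / 25) * Y ^ 2 - 61 / 8 * Y + 81 / 4) / Y * l ^ 2 := by
    apply mul_nonneg (div_nonneg _ h1.le) (sq_nonneg l)
    nlinarith only [sq_nonneg (Y - 525 / 100)]
  linarith

/-- logarithm bound for `u ≤ 0` -/
theorem u15_w_neg_le4 {u : ℝ} (hu : -1 < u) (hu0 : u ≤ 0) :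
    u - Real.log (1 + u) ≤
      (1 / 2 + u / 6 - u ^ 2 / 12 + u ^ 3 / 20 - u ^ 4 / 30) * (u ^ 2 / (1 + u)) := by
  have hd : ∀ t : ℝ, -1 < t → HasDerivAt
      (fun t : ℝ => (1 / 2 + t / 6 - t ^ 2 / 12 + t ^ 3 / 20 - t ^ 4 / 30) * (t ^ 2 / (1 + t)) -
        (t - Real.log (1 + t))) (-(t ^ 6 / (6 * (1 + t) ^ 2))) t := by
    intro t ht
    have h1 : (1 + t) ≠ 0 := by linarith
    have hl := ((hasDerivAt_id t).const_add 1).log h1
    have hq := ((hasDerivAt_pow 2 t).div ((hasDerivAt_id t).const_add 1) h1)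
    have hc := (((((hasDerivAt_id t).div_const 6).const_add (1 / 2)).sub
      ((hasDerivAt_pow 2 t).div_const 12)).add ((hasDerivAt_pow 3 t).div_const 20)).sub
      ((hasDerivAt_pow 4 t).div_const 30)
    refine ((hc.mul hq).sub ((hasDerivAt_id t).sub hl)).congr_deriv ?_
    simp only [id, Pi.div_apply, Pi.add_apply, Pi.sub_apply]
    field_simp
    push_cast
    ring
  have hm : AntitoneOn (fun t : ℝ => (1 / 2 + t / 6 - t ^ 2 / 12 + t ^ 3 / 20 - t ^ 4 / 30) *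
      (t ^ 2 / (1 + t)) - (t - Real.log (1 + t))) (Icc u 0) := by
    apply antitoneOn_of_deriv_nonpos (convex_Icc _ _)
    · exact fun t ht => (hd t (by linarith only [hu, ht.1])).continuousAt.continuousWithinAt
    · exact fun t ht => (hd t (by linarith [(interior_subset ht).1])).differentiableAt.differentiableWithinAt
    · intro t ht
      have ht' := interior_subset ht
      rw [(hd t (by linarith [ht'.1])).deriv]
      have h4 : 0 < 1 + t := by linarith only [hu, ht'.1]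
      have : 0 ≤ t ^ 6 / (6 * (1 + t) ^ 2) := by (clear * - h4; positivity)
      linarith only [this]
  have := hm ⟨le_rfl, hu0⟩ ⟨hu0, le_rfl⟩ hu0
  simp only [one_div, zero_div, add_zero, ne_eq, OfNat.ofNat_ne_zero, not_false_eq_true, zero_pow, sub_zero, div_one, mul_zero, Real.log_one, sub_self, sub_nonneg, tsub_le_iff_right] at this
  linarith

/-- `-log z ≤ (1-z)(1+5z)/(2z(2+z))` -/
theorem u15_log_pade {z : ℝ} (hz : 0 < z) (hz1 : z ≤ 1) :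
    -Real.log z ≤ (1 - z) * (1 + 5 * z) / (2 * z * (2 + z)) := by
  have hd : ∀ t : ℝ, 0 < t → HasDerivAt
      (fun t : ℝ => (1 + 4 * t - 5 * t ^ 2) / (4 * t + 2 * t ^ 2) + Real.log t)
      ((t - 1) ^ 3 / (t ^ 2 * (2 + t) ^ 2)) t := by
    intro t ht
    have h1 : 4 * t + 2 * t ^ 2 ≠ 0 := by positivity
    have hn := (((hasDerivAt_id t).const_mul 4).const_add 1).sub ((hasDerivAt_pow 2 t).const_mul 5)
    have hdn := ((hasDerivAt_id t).const_mul 4).add ((hasDerivAt_pow 2 t).const_mul 2)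
    refine ((hn.div hdn h1).add (Real.hasDerivAt_log ht.ne')).congr_deriv ?_
    simp only [id, Pi.add_apply, Pi.sub_apply]
    have h2 : (2 + t) ≠ 0 := by positivity
    have h3 : 4 * t + 2 * t ^ 2 = 2 * t * (2 + t) := by ring
    rw [h3]
    field_simp
    push_cast
    ring
  have hm : AntitoneOn (fun t : ℝ => (1 + 4 * t - 5 * t ^ 2) / (4 * t + 2 * t ^ 2) + Real.log t)
      (Icc z 1) := by
    apply antitoneOn_of_deriv_nonpos (convex_Icc _ _)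
    · exact fun t ht => (hd t (by linarith only [hz, ht.1])).continuousAt.continuousWithinAt
    · exact fun t ht => (hd t (by linarith [(interior_subset ht).1])).differentiableAt.differentiableWithinAt
    · intro t ht
      have ht' := interior_subset ht
      rw [(hd t (by linarith [ht'.1])).deriv]
      have h3 : (t - 1) ^ 3 ≤ 0 := by
        have : (t - 1) ^ 3 = (t - 1) * (t - 1) ^ 2 := by ring
        rw [this]
        exact mul_nonpos_of_nonpos_of_nonneg (by linarith only [ht'.2]) (sq_nonneg _)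
      exact div_nonpos_of_nonpos_of_nonneg h3 (by (clear * -; positivity))
  have h := hm ⟨le_rfl, hz1⟩ ⟨hz1, le_rfl⟩ hz1
  simp only [mul_one, one_pow, Real.log_one, add_zero] at h
  have e : (1 - z) * (1 + 5 * z) / (2 * z * (2 + z)) =
      (1 + 4 * z - 5 * z ^ 2) / (4 * z + 2 * z ^ 2) := by
    congr 1 <;> ring
  rw [e]
  norm_num at h
  linarith only [h]

/-! ### the weight `σ = z(1+2s)/(1+s)²` and the bound for `3 Y l` -/

theorem u15R_sigma {z s : ℝ} (hs : 0 ≤ s) (hs1 : s ≤ 1) (hz : z = 1 - s ^ 2) :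
    4 * z * (3 - z) / (4 - z) ^ 2 ≤ z * (1 + 2 * s) / (1 + s) ^ 2 := by
  have h1 : 0 < 4 - z := by rw [hz]; (by_contra nlg; linarith only [nlg, mul_nonneg (sub_nonneg.2 hs) (sub_nonneg.2 hs), mul_nonneg (sub_nonneg.2 (not_lt.1 nlg)) (sub_nonneg.2 hs1), mul_nonneg (sub_nonneg.2 (not_lt.1 nlg)) (sub_nonneg.2 hs)])
  have hz0 : 0 ≤ z := by rw [hz]; linarith only [mul_nonneg (sub_nonneg.2 hs1) (sub_nonneg.2 hs), mul_nonneg (sub_nonneg.2 hs1) (sub_nonneg.2 hs1)]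
  rw [div_le_div_iff₀ (by (clear * - h1; positivity)) (by positivity)]
  have h2 : 0 ≤ (1 - s) ^ 2 * (1 + 4 * s + s ^ 2 + 2 * s ^ 3) := by (clear * - hs; positivity)
  have h3 : (1 + 2 * s) * (4 - z) ^ 2 - 4 * (3 - z) * (1 + s) ^ 2 =
      (1 - s) ^ 2 * (1 + 4 * s + s ^ 2 + 2 * s ^ 3) := by rw [hz]; ring
  linarith only [mul_nonneg hz0 (h3 ▸ h2)]

theorem u15R_b1 {z sg : ℝ} (hz : 0 ≤ z) (hz1 : z ≤ 3 / 7)
    (hsg : 4 * z * (3 - z) / (4 - z) ^ 2 ≤ sg) :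
    (3 * z * (127 / 200 + 33 / 200 * z)) ^ 2 ≤ 14 / 5 * sg := by
  refine le_trans ?_ (mul_le_mul_of_nonneg_left hsg (by norm_num))
  rw [← mul_div_assoc, le_div_iff₀ (by nlinarith only [hz1])]
  have h1 : 0 ≤ (127 / 200 + 33 / 200 * z) * (4 - z) := by nlinarith only [hz1, hz]
  have h2 : (127 / 200 + 33 / 200 * z) * (4 - z) ≤ 509 / 200 := by nlinarith only [sq_nonneg z]
  have h3 : ((127 / 200 + 33 / 200 * z) * (4 - z)) ^ 2 ≤ (509 / 200) ^ 2 :=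
    pow_le_pow_left₀ h1 h2 2
  have h4 : 9 * z * ((127 / 200 + 33 / 200 * z) * (4 - z)) ^ 2 ≤ 14 / 5 * (4 * (3 - z)) := by
    nlinarith only [hz1, h3]
  nlinarith only [h4, hz]

theorem u15R_b2 {z sg : ℝ} (hz : 3 / 7 ≤ z) (hz1 : z ≤ 1)
    (hsg : 4 * z * (3 - z) / (4 - z) ^ 2 ≤ sg) :
    (3 / 4 * (1 + 5 * z) / (2 + z)) ^ 2 ≤ 14 / 5 * sg := by
  refine le_trans ?_ (mul_le_mul_of_nonneg_left hsg (by norm_num))
  have h4 : 0 < 4 - z := by linarith only [hz1]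
  have h2 : 0 < 2 + z := by linarith only [hz]
  rw [← mul_div_assoc, div_pow, div_le_div_iff₀ (by positivity) (by positivity)]
  have key : 0 ≤ -720 + 3912 * z - 7277 * z ^ 2 + 7654 * z ^ 3 - 2021 * z ^ 4 := by
    obtain ⟨t, ht⟩ : ∃ t, t = z - 3 / 7 := ⟨_, rfl⟩
    have ht0 : 0 ≤ t := by linarith only [ht, hz]
    have ht1 : t ≤ 4 / 7 := by linarith only [hz1, ht]
    have hz' : z = 3 / 7 + t := by linarith only [ht]
    rw [hz']
    nlinarith only [ht0, mul_nonneg (pow_nonneg ht0 3) (sub_nonneg.2 ht1)]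
  linarith [key]

/-- the bound `3 Y l ≤ (m-1) b` with `b² ≤ (14/5) σ` -/
theorem u15R_b {m x s l Y : ℝ} (hm : 1 < m) (hx : 0 < x) (hx1 : x < 1) (hs : 0 < s)
    (hxs : x ^ 2 + s ^ 2 = 1) (hY : Y = (m - 1) * (x ^ 2 / s ^ 2))
    (hl1 : x * Real.exp l ≤ 1)
    (hl2 : x ^ 2 ≤ 3 / 7 → l ≤ (1 - x ^ 2) * (127 / 200 + 33 / 200 * x ^ 2)) :
    ∃ b : ℝ, 0 ≤ b ∧ 3 * (Y * l) ≤ (m - 1) * b ∧
      b ^ 2 ≤ 14 / 5 * (x ^ 2 * (1 + 2 * s) / (1 + s) ^ 2) := by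
  have hs1 : s ≤ 1 := by nlinarith only [hxs]
  have hz : x ^ 2 = 1 - s ^ 2 := by linarith only [hxs]
  have hsg := u15R_sigma (z := x ^ 2) hs.le hs1 hz
  have hx2 : 0 < x ^ 2 := by positivity
  have hYs : Y * (1 - x ^ 2) = (m - 1) * x ^ 2 := by
    rw [hY, show 1 - x ^ 2 = s ^ 2 by linarith only [hxs]]
    (clear * - hs hx; field_simp)
  have hY0 : 0 < Y := by
    rw [hY]
    have : 0 < m - 1 := by linarith only [hm]
    positivity
  rcases le_total (x ^ 2) (3 / 7) with h | h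
  · refine ⟨3 * x ^ 2 * (127 / 200 + 33 / 200 * x ^ 2), by positivity, ?_, u15R_b1 hx2.le h hsg⟩
    have h1 := mul_le_mul_of_nonneg_left (hl2 h) hY0.le
    have h2 : Y * ((1 - x ^ 2) * (127 / 200 + 33 / 200 * x ^ 2)) =
        (m - 1) * x ^ 2 * (127 / 200 + 33 / 200 * x ^ 2) := by rw [← mul_assoc, hYs]
    linarith only [h1, h2]
  · have hz1 : x ^ 2 ≤ 1 := by nlinarith only [hxs]
    refine ⟨3 / 4 * (1 + 5 * x ^ 2) / (2 + x ^ 2), by positivity, ?_, u15R_b2 h hz1 hsg⟩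
    have h1 : l ≤ -Real.log x := by
      have h3 : Real.exp l ≤ x⁻¹ := by
        rw [← one_div, le_div_iff₀ hx]; linarith only [hl1]
      have h4 := Real.log_le_log (Real.exp_pos l) h3
      rwa [Real.log_exp, Real.log_inv] at h4
    have h2 := u15_log_pade hx2 hz1
    rw [Real.log_pow] at h2
    push_cast at h2
    have h5 : l ≤ (1 - x ^ 2) * (1 + 5 * x ^ 2) / (4 * x ^ 2 * (2 + x ^ 2)) := by
      have : (1 - x ^ 2) * (1 + 5 * x ^ 2) / (4 * x ^ 2 * (2 + x ^ 2)) =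
          1 / 2 * ((1 - x ^ 2) * (1 + 5 * x ^ 2) / (2 * x ^ 2 * (2 + x ^ 2))) := by
        field_simp
        ring
      rw [this]
      linarith only [h1, h2]
    have h6 := mul_le_mul_of_nonneg_left h5 hY0.le
    have h7 : Y * ((1 - x ^ 2) * (1 + 5 * x ^ 2) / (4 * x ^ 2 * (2 + x ^ 2))) =
        (m - 1) * (1 / 4 * (1 + 5 * x ^ 2) / (2 + x ^ 2)) := by
      have : Y * ((1 - x ^ 2) * (1 + 5 * x ^ 2) / (4 * x ^ 2 * (2 + x ^ 2))) =
        (Y * (1 - x ^ 2)) * ((1 + 5 * x ^ 2) / (4 * x ^ 2 * (2 + x ^ 2))) := by ring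
      rw [this, hYs]
      (clear * - hx; field_simp)
    have h8 : 3 * ((m - 1) * (1 / 4 * (1 + 5 * x ^ 2) / (2 + x ^ 2))) =
        (m - 1) * (3 / 4 * (1 + 5 * x ^ 2) / (2 + x ^ 2)) := by ring
    linarith only [h6, h7, h8]

/-- one-variable polynomial -/
theorem u15R_poly {d : ℝ} (hd : 0 ≤ d) (hd1 : d ≤ 1) :
    1 / 10 ≤ 13 / 10 + 167 / 30 * d - 12035 / 1000 * d ^ 2 + 5087 / 1000 * d ^ 3 +
      7 / 10 * d ^ 4 := by
  linarith only [mul_nonneg (pow_nonneg hd 2) (sq_nonneg (d - 39 / 40)), mul_nonneg hd (sub_nonneg.2 hd1), mul_nonneg hd (sq_nonneg (d - 39 / 40)), hd1]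

theorem u15R_neg_K {m u U l Y b : ℝ} (hm : 15 ≤ m)
    (hU : U * (1 + u) = u ^ 2) (hU0 : 0 ≤ U) (huU : u * U ≤ 0)
    (hb0 : 0 ≤ b) (hb : 3 * (Y * l) ≤ (m - 1) * b) :
    (m - 1) * b * (u * U) - 225 / 56 * u ^ 4 ≤
      - (3 * Y * l * U) + 14 / 25 * (Y * l) ^ 2 := by
  have hm1 : 0 ≤ m - 1 := by linarith only [hm]
  obtain ⟨K, hK⟩ : ∃ K, K = Y * l := ⟨_, rfl⟩
  rw [← hK] at hb ⊢
  have e : - (3 * Y * l * U) = 3 * K * (u * U) - 3 * K * (U * (1 + u)) := by rw [hK]; ring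
  rcases le_total K 0 with h | h
  · have h4 : 0 ≤ (-K) * U := mul_nonneg (by linarith only [h]) hU0
    have h5 : (m - 1) * b * (u * U) ≤ 0 :=
      mul_nonpos_of_nonneg_of_nonpos (mul_nonneg hm1 hb0) huU
    have h6 : 0 ≤ u ^ 4 := by (clear * -; positivity)
    have h7 : - (3 * Y * l * U) = 3 * ((-K) * U) := by rw [hK]; ring
    rw [h7]
    nlinarith only [h4, h5, h6]
  · rw [e, hU]
    have h4 : 0 ≤ ((m - 1) * b - 3 * K) * (-(u * U)) := mul_nonneg (by linarith) (by linarith)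
    nlinarith only [h4, sq_nonneg (K - 75 / 28 * u ^ 2)]

theorem u15R_neg_poly {m u : ℝ} (hm : 15 ≤ m) (hu1 : 0 < 1 + u) (hu : u ≤ 0) :
    1 / 10 ≤ (m + 1) - (m + 32 / 5) *
      (1 / 2 + u / 6 - u ^ 2 / 12 + u ^ 3 / 20 - u ^ 4 / 30) - 2 * (1 + u) - 2 -
      7 / 10 * (m - 1) * u ^ 2 - 225 / 56 * (u ^ 2 * (1 + u)) := by
  have ha : 0 ≤ -u := by linarith only [hu]
  have hd := u15R_poly (d := -u) ha (by linarith only [hu1])
  have h2 := pow_nonneg ha 2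
  have h3 := pow_nonneg ha 3
  have h4 := pow_nonneg ha 4
  have hd2 : 0 ≤ (m - 15) * (1 - (1 / 2 + u / 6 - u ^ 2 / 12 + u ^ 3 / 20 - u ^ 4 / 30) -
      7 / 10 * u ^ 2) := by
    apply mul_nonneg (by linarith only [hm])
    nlinarith only [hu1, ha]
  linarith only [hu, hd, h3, h4, hd2]

theorem u15R_neg_core {m u U w l lam Y b sg Sg : ℝ} (hm : 15 ≤ m) (hu1 : 0 < 1 + u)
    (hu : u ≤ 0) (hU : U * (1 + u) = u ^ 2) (hlam : lam ≤ 3 / 5) (hw0 : 0 ≤ w)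
    (hw : w ≤ (1 / 2 + u / 6 - u ^ 2 / 12 + u ^ 3 / 20 - u ^ 4 / 30) * U)
    (hb0 : 0 ≤ b) (hb : 3 * (Y * l) ≤ (m - 1) * b) (hbs : b ^ 2 ≤ 14 / 5 * sg)
    (hSg : Sg = (m - 1) * sg) :
    U / 10 ≤ (m + 1) * (U - w) + (Sg - 2) * U - 9 * lam * w - 2 * u ^ 2 - 3 * Y * l * U +
      14 / 25 * (Y * l) ^ 2 := by
  have hU0 : 0 ≤ U := by
    by_contra h
    push Not at h
    linarith only [mul_pos (sub_pos.2 h) (sub_pos.2 hu1), hU, sq_nonneg (u : ℝ)]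
  have huU : u * U ≤ 0 := mul_nonpos_of_nonpos_of_nonneg hu hU0
  have h1 : (m + 32 / 5) * w ≤
      (m + 32 / 5) * ((1 / 2 + u / 6 - u ^ 2 / 12 + u ^ 3 / 20 - u ^ 4 / 30) * U) :=
    mul_le_mul_of_nonneg_left hw (by linarith only [hm])
  have h2 : 0 ≤ (3 / 5 - lam) * w := mul_nonneg (by (clear * - hlam; linarith)) hw0
  have h3 := u15R_neg_K hm hU hU0 huU hb0 hb
  have h4 : 0 ≤ (m - 1) * (U * (sg + b * u + 7 / 10 * u ^ 2)) := by
    apply mul_nonneg (by linarith only [hm]) (mul_nonneg hU0 _)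
    linarith only [sq_nonneg (u + 5 / 7 * b), hbs]
  have h5 : u ^ 4 = u ^ 2 * (1 + u) * U := by
    have : u ^ 4 = u ^ 2 * (U * (1 + u)) := by rw [hU]; ring
    rw [this]; ring
  have h7 := mul_le_mul_of_nonneg_left (u15R_neg_poly hm hu1 hu) hU0
  have h8 : (m - 1) * (U * (sg + b * u + 7 / 10 * u ^ 2)) =
      Sg * U + (m - 1) * b * (u * U) + 7 / 10 * (m - 1) * u ^ 2 * U := by rw [hSg]; ring
  rw [h8] at h4
  rw [h5] at h3
  obtain ⟨e, he⟩ : ∃ e, e = 1 / 2 + u / 6 - u ^ 2 / 12 + u ^ 3 / 20 - u ^ 4 / 30 := ⟨_, rfl⟩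
  obtain ⟨k, hk⟩ : ∃ k, k = 3 * Y * l * U := ⟨_, rfl⟩
  obtain ⟨n, hn⟩ : ∃ n, n = (Y * l) ^ 2 := ⟨_, rfl⟩
  rw [← he] at h1 h7
  rw [← hk, ← hn] at h3 ⊢
  have h10 : 2 * u ^ 2 = 2 * ((1 + u) * U) := by rw [← hU]; ring
  rw [h10]
  linarith only [h3, h1, h7, h4, h2]

/-- **Right region, `u ≤ 0`**, all real `m ≥ 15`. -/
theorem u15_right_neg {m x s l u lam v c Y : ℝ} (hm : 15 ≤ m) (hx : 0 < x) (hx1 : x < 1)
    (hs : 0 < s) (hxs : x ^ 2 + s ^ 2 = 1) (hY : Y = (m - 1) * (x ^ 2 / s ^ 2))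
    (hlt : 2 < (m + 1) * x ^ 2) (hu1 : 0 < 1 + u) (hu : u ≤ 0) (hlam : lam ≤ 3 / 5)
    (hl1 : x * Real.exp l ≤ 1)
    (hl2 : x ^ 2 ≤ 3 / 7 → l ≤ (1 - x ^ 2) * (127 / 200 + 33 / 200 * x ^ 2))
    (hv : v = Real.log (1 + u)) (hc : -2 * l ^ 2 ≤ c) :
    1 / 10 * (u ^ 2 / (1 + u)) / Y ≤ u15F m s Y l u lam v c + u15HR m Y l u lam := by
  have hY2 : 2 < Y := by
    rw [hY, ← mul_div_assoc, lt_div_iff₀ (by positivity)]
    linarith only [hxs, hlt]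
  have hY0 : 0 < Y := by linarith only [hY2]
  obtain ⟨b, hb0, hb, hbs⟩ := u15R_b (m := m) (by linarith only [hm]) hx hx1 hs hxs hY hl1 hl2
  obtain ⟨U, hU⟩ : ∃ U, U = u ^ 2 / (1 + u) := ⟨_, rfl⟩
  have hUu : U * (1 + u) = u ^ 2 := by rw [hU]; (clear * - hu1; field_simp)
  have hU0 : 0 ≤ U := by rw [hU]; (clear * - hu1; positivity)
  obtain ⟨w, hw⟩ : ∃ w, w = u - Real.log (1 + u) := ⟨_, rfl⟩
  obtain ⟨Sg, hSg⟩ : ∃ Sg, Sg = s ^ 2 * (1 + 2 * s) / (1 + s) ^ 2 * Y := ⟨_, rfl⟩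
  have hSg' : Sg = (m - 1) * (x ^ 2 * (1 + 2 * s) / (1 + s) ^ 2) := by
    rw [hSg, hY]
    field_simp
  have hw0 : 0 ≤ w := by rw [hw]; exact u15_w_nonneg hu1
  have hw4 : w ≤ (1 / 2 + u / 6 - u ^ 2 / 12 + u ^ 3 / 20 - u ^ 4 / 30) * U := by
    rw [hw, hU]; exact u15_w_neg_le4 (by linarith only [hu1]) hu
  have core := u15R_neg_core (l := l) (lam := lam) hm hu1 hu hUu hlam hw0 hw4 hb0 hb hbs hSg'
  have h37 : 9 / 7 ≤ 3 / 2 * ((m - 3) / (m - 1)) := by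
    rw [← mul_div_assoc, le_div_iff₀ (by linarith only [hm])]
    linarith only [hm]
  have h37' : 9 / 7 * Y * l ^ 2 ≤ 3 / 2 * ((m - 3) / (m - 1)) * Y * l ^ 2 :=
    mul_le_mul_of_nonneg_right (mul_le_mul_of_nonneg_right h37 hY0.le) (sq_nonneg l)
  have eF : u15F m s Y l u lam v c + (-(2 / Y * u ^ 2) + 14 / 25 * Y * l ^ 2) =
      ((m + 1) * (U - w) + (Sg - 2) * U - 9 * lam * w - 2 * u ^ 2 - 3 * Y * l * U +
        14 / 25 * (Y * l) ^ 2) / Y +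
      (9 * lam * l - 9 / 2 * l ^ 2 + 3 / 2 * ((m - 3) / (m - 1)) * Y * l ^ 2 + c) := by
    have e1 : v - u / (1 + u) = U - w := by
      rw [hU, hw, hv]
      field_simp
      ring
    have e2 : u - v = w := by rw [hw, hv]
    unfold u15F
    rw [e1, e2, ← hU, hSg]
    field_simp
    ring
  have hHR := u15R_HR2 (m := m) (Y := Y) (l := l) (u := u) (lam := lam) (by linarith only [hm]) hY2
  have hel := u15R_elimN (Y := Y) (l := l) (lam := lam) hY2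
  have hfin : U / 10 / Y ≤ ((m + 1) * (U - w) + (Sg - 2) * U - 9 * lam * w - 2 * u ^ 2 -
      3 * Y * l * U + 14 / 25 * (Y * l) ^ 2) / Y := div_le_div_of_nonneg_right core hY0.le
  rw [← hU]
  have e3 : 1 / 10 * U / Y = U / 10 / Y := by ring
  rw [e3]
  linarith only [hc, h37', eF, hHR, hel, hfin]

end Vale.Agent.P237.AllN
end

section

/-!
# P237, block D, `l > 0`, `m z ≤ 1`: the pointwise test
-/

namespace Vale.Agent.P237.AllN

theorem pa_algT1 {M l u W φ Q : ℝ} (hMl : 0 ≤ M * l ^ 2)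
    (hWφ : 0.483 * u ^ 2 - 0.477 * u ^ 3 ≤ 1.70 * W - 2.212 * φ)
    (hQ : Q ≤ 0.2688 * (M * u * l)) :
    M * l ^ 2 * (0.859 + 0.1344 * M) + u ^ 2 * (0.483 - 0.477 * u) - 0.2688 * (M * u * l) ≤
    M * l ^ 2 * (28 / 25 * (1.556 - 9 / 25) - 11.9742 / 25 + 84 / 625 * M) +
      1.70 * W - 2.212 * φ - Q := by
  norm_num at hWφ hQ ⊢
  linarith only [hMl, hWφ, hQ]

theorem pa_algT2 {M l u W φ Q : ℝ} (hMl : 0 ≤ M * l ^ 2)
    (hWφ : 0.27 * u ^ 2 - 0.41 * u ^ 3 ≤ 1.4335 * W - 2.1956 * φ)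
    (hQ : Q ≤ 0.2688 * (M * u * l)) :
    M * l ^ 2 * (0.797 + 0.1344 * M) + u ^ 2 * (0.27 - 0.41 * u) - 0.2688 * (M * u * l) ≤
    M * l ^ 2 * (28 / 25 * (1.46666 - 9 / 25) - 11.06 / 25 + 84 / 625 * M) +
      1.4335 * W - 2.1956 * φ - Q := by
  norm_num at hWφ hQ ⊢
  linarith

theorem pa_algP1 {M z l u W φ Q q : ℝ} (hMl : 0 ≤ M * l ^ 2) (hMl' : 0 ≤ M * l)
    (hW : W ≤ u ^ 2) (hφ : φ ≤ u ^ 2 / 2)
    (hQ : Q ≤ 0.2688 * (M * u * l)) (hzl : z * l ≤ 1 / 25 * (M * l))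
    (hq : q ≤ 0.1217 * (M * u)) :
    M * l ^ 2 * (11.9742 / 25 + 252 / 625 - 84 / 625 * M) + 1042 / 1000 * z * l +
      0.024 * W + 0.211 * φ + Q + q ≤
    M * (0.1217 * u + 0.0417 * l + l ^ 2 * (0.8832 - 0.1344 * M) +
        0.2688 * (u * l)) + 0.1295 * u ^ 2 := by
  norm_num at hQ hq hzl ⊢
  linarith only [hzl, hq, hQ, hφ, hW, hMl', hMl]

theorem pa_algP2 {M z l u W φ Q q : ℝ} (hMl : 0 ≤ M * l ^ 2) (hMl' : 0 ≤ M * l)
    (hφ : φ ≤ u ^ 2 / 2)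
    (hQ : Q ≤ 0.2688 * (M * u * l)) (hzl : z * l ≤ 1 / 25 * (M * l))
    (hq : q ≤ 0.1217 * (M * u)) :
    M * l ^ 2 * (11.06 / 25 + 252 / 625 - 84 / 625 * M) + 1042 / 1000 * z * l +
      0 * W + 0.2095 * φ + Q + q ≤
    M * (0.1217 * u + 0.0417 * l + l ^ 2 * (0.8456 - 0.1344 * M) +
        0.2688 * (u * l)) + 0.10475 * u ^ 2 := by
  norm_num at hQ hq hzl ⊢
  linarith

/-- `u ≥ 0`, `l ≤ 2/5` -/
theorem pa_pos1 {m z s l u c G N : ℝ} (hm : 25 ≤ m) (hz0 : 0 < z) (hs0 : 0 < s)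
    (hs : s ^ 2 = 1 - z) (hM : m * z ≤ 1) (hl0 : 0 ≤ l) (hl : l ≤ 2 / 5)
    (hc0 : 1 - 1 / (2 * m) ≤ c) (hc : c ≤ 1) (hu0 : 0 ≤ u)
    (hu1 : u ^ 2 ≤ 4 / 25 * (m * (z / s ^ 2))) (hN : Real.log (1 + u) - u ≤ N)
    (hG : -(4 / 5 * (z * l ^ 2)) ≤ G) :
    JTest (dpT m z s l u G N) (dpE m z s l u c N) (dpR m (z / s ^ 2)) u := by
  have hz : z ≤ 1 / 25 := by (by_contra nlg; linarith only [nlg, mul_nonneg (le_of_lt (sub_pos.2 (not_le.1 nlg))) (sub_nonneg.2 hm), mul_nonneg (mul_self_nonneg (1 : ℝ)) (sub_nonneg.2 hm), mul_nonneg (mul_self_nonneg (1 : ℝ)) (sub_nonneg.2 hM)])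
  have hu : 0 < 1 + u := by linarith only [hu0]
  have hM0 : 0 < m * z := by positivity
  have hφ0 : 0 ≤ u ^ 2 / (2 + u) := by (clear * - hu0; positivity)
  have hNφ : -(u ^ 2 / (2 + u)) ≤ N := by
    have hφ := pa_phi_pos hu0
    linarith only [hN, hφ]
  have hσ : 1 / s ≤ 1.02084 := by
    have := pa_inv_le hs0 hs hz0.le hz
    norm_num at this ⊢
    linarith only [hz, this]
  have hu2 : u ^ 2 ≤ 16679 / 100000 * (m * z) := by
    have hy1 : z / s ^ 2 ≤ 25 / 24 * z := by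
      rw [div_le_iff₀ (by positivity), hs]
      nlinarith only [hm, hz0, hM]
    have := mul_le_mul_of_nonneg_left hy1 (by linarith only [hm] : 0 ≤ m)
    linarith only [hu1, hM0, this]
  have hg : 1.556 * l ^ 2 ≤ Real.exp (-(2 * l)) - 1 + 2 * l := by
    apply pa_psi hl0
    norm_num
    nlinarith only [hl]
  have ht3 := pa_cube1 hs0 hs hz0.le hz
  have hS := pa_S1 (s := s) (by linarith only [hm] : 0 ≤ m) hz0.le hz hM hl0 hl
  have hC := pa_C1 hs0 hs hz0.le hz hl0 hl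
  have hsa : 1.725 ≤ 4 * s ^ 2 * Real.exp (-(2 * l)) := by
    have ha := pa_a1 hl
    have h1 : 0.96 ≤ s ^ 2 := by rw [hs]; norm_num; linarith only [hz]
    have h2 := mul_le_mul h1 ha (by norm_num) (sq_nonneg s)
    norm_num at h2 ⊢
    linarith only [h2]
  have hβ : 1.70 ≤ 4 * s ^ 2 * Real.exp (-(2 * l)) + dpC z s l := by
    norm_num at hsa ⊢
    linarith only [hz, hC, hsa]
  have hν : -0.024 ≤ dpC z s l := by norm_num; linarith only [hz, hC]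
  have hκ : 2 * (m + 1) / ((m - 1) * s) ≤ 2.212 :=
    (pa_kappa hm hs0 hσ).trans (by norm_num)
  have hκ' : 2 * (m + 1) / ((m - 1) * s) - 2 * c / s ≤ 0.211 :=
    (pa_kappa' hm hs0 hσ hc0).trans (by norm_num)
  have hT := pa_lower (K := 11.9742) hm hz0.le hs0 hs hu hl0 hg ht3 hG hS hβ hNφ hφ0 hκ
    (by norm_num) hM (by norm_num)
  have hP := pa_upper (K := 11.9742) (u := u) hm hz0.le hs0 hs hu hl0 hz hc0 hc ht3 hG hS
    hν hNφ hφ0 hκ' (by norm_num) (by norm_num) hM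
  have he := pa_e1 (u := u) hm hz0.le hs0 hs hu hl0 hz hc0 hc hg (by norm_num) hsa hNφ hφ0
  have hρ := pa_rho hm hs0 hs hz0.le
  have hq := pa_q hs0 hs hz0.le hz ((by norm_num : (0:ℝ) ≤ 49/50).trans (pa_c_ge hm hc0)) hc
  have hm3 := pa_m3 hm hz0.le hu0 hl0
  have hzM : z ≤ 1 / 25 * (m * z) := by linarith only [mul_nonneg (sub_nonneg.2 hm) (le_of_lt (sub_pos.2 hz0))]
  have hzl : z * l ≤ 1 / 25 * (m * z * l) := by
    have := mul_le_mul_of_nonneg_right hzM hl0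
    linarith only [this]
  have hqu : (2 * c / s - 2 * s ^ 2 + 2 * (1 - c)) * u ≤ 0.1217 * (m * z * u) := by
    have h1 := mul_le_mul_of_nonneg_right hq.2 hu0
    have h2 := mul_le_mul_of_nonneg_right hzM hu0
    have h3 : 0 ≤ m * z * u := by (clear * - hm hz0 hu0; positivity)
    norm_num at h1 ⊢
    linarith only [h2, h3, h1]
  have hMl : 0 ≤ m * z * l ^ 2 := by (clear * - hm hz0; positivity)
  have hMl' : 0 ≤ m * z * l := by (clear * - hm hz0 hl0; positivity)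
  refine pa_fin1 hM0 hM hz0 hzM hl0 hl hu0 hu2
    ((pa_algT1 hMl (pa_wphi1 hu0) hm3).trans hT)
    (hP.trans (pa_algP1 hMl hMl' (pa_Wle hu0) (pa_phile hu0) hm3 hzl hqu)) ?_ hρ
  have h2 : 0 ≤ (2 * c / s - 2 * s ^ 2 + 2 * (1 - c)) * u := mul_nonneg hq.1 hu0
  have h3 : 0 ≤ 1.725 * (u ^ 2 / (1 + u)) - 2 / s * (u ^ 2 / (2 + u)) := by
    apply pa_e_pos hu0 hσ
    rw [le_div_iff₀ hu]
    have hub : u ≤ 0.4084 := by
      apply le_of_pow_le_pow_left₀ (n := 2) (by norm_num) (by norm_num)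
      refine hu2.trans ?_
      norm_num
      linarith only [hM]
    norm_num at hub ⊢
    linarith only [hub]
  refine le_trans ?_ he
  linarith only [h3, h2]

/-- `u ≥ 0`, `2/5 ≤ l ≤ 1/2` -/
theorem pa_pos2 {m z s l u c G N : ℝ} (hm : 25 ≤ m) (hz0 : 0 < z) (hs0 : 0 < s)
    (hs : s ^ 2 = 1 - z) (hM : m * z ≤ 16 / 25) (hl0 : 2 / 5 ≤ l) (hl : l ≤ 1 / 2)
    (hc0 : 1 - 1 / (2 * m) ≤ c) (hc : c ≤ 1) (hu0 : 0 ≤ u)
    (hu1 : u ^ 2 ≤ 4 / 25 * (m * (z / s ^ 2))) (hN : Real.log (1 + u) - u ≤ N)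
    (hG : -(4 / 5 * (z * l ^ 2)) ≤ G) :
    JTest (dpT m z s l u G N) (dpE m z s l u c N) (dpR m (z / s ^ 2)) u := by
  have hl00 : 0 ≤ l := by linarith only [hl0]
  have hz' : z ≤ 16 / 625 := by nlinarith only [hM, hm]
  have hz : z ≤ 1 / 25 := by linarith only [hz']
  have hu : 0 < 1 + u := by linarith only [hu0]
  have hM0 : 0 < m * z := by positivity
  have hM1 : m * z ≤ 1 := by linarith only [hM]
  have hφ0 : 0 ≤ u ^ 2 / (2 + u) := by (clear * - hu0; positivity)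
  have hNφ : -(u ^ 2 / (2 + u)) ≤ N := by
    have hφ := pa_phi_pos hu0
    linarith only [hN, hφ]
  have hσ : 1 / s ≤ 1.013338 := by
    have := pa_inv_le hs0 hs hz0.le hz
    norm_num at this ⊢
    linarith only [this, hz']
  have hu2 : u ^ 2 ≤ 16434 / 100000 * (m * z) := by
    have hy1 : z / s ^ 2 ≤ 1.0263 * z := by
      rw [div_le_iff₀ (by positivity), hs]
      norm_num
      nlinarith only [hm, hz0, hM]
    have := mul_le_mul_of_nonneg_left hy1 (by linarith only [hm] : 0 ≤ m)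
    norm_num at this
    linarith only [hu1, hM0, this]
  have hg : 1.46666 * l ^ 2 ≤ Real.exp (-(2 * l)) - 1 + 2 * l := by
    apply pa_psi hl00
    norm_num
    nlinarith only [hl]
  have ht3 := pa_cube2 hs0 hs hz0.le hz'
  have hS := pa_S2 (s := s) (by linarith only [hm] : 0 ≤ m) hz0.le hz' hM hl00 hl
  have hC := pa_C2 hs0 hs hz0.le hz' hl0 hl
  have hsa : 1.4335 ≤ 4 * s ^ 2 * Real.exp (-(2 * l)) := by
    have ha := pa_a2 hl
    have h1 : 0.9744 ≤ s ^ 2 := by rw [hs]; norm_num; linarith only [hz']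
    have h2 := mul_le_mul h1 ha (by norm_num) (sq_nonneg s)
    norm_num at h2 ⊢
    linarith only [h2]
  have hβ : 1.4335 ≤ 4 * s ^ 2 * Real.exp (-(2 * l)) + dpC z s l := by
    norm_num at hsa ⊢
    linarith only [hsa, hC]
  have hν : -0 ≤ dpC z s l := by norm_num; linarith only [hC]
  have hκ : 2 * (m + 1) / ((m - 1) * s) ≤ 2.1956 :=
    (pa_kappa hm hs0 hσ).trans (by norm_num)
  have hκ' : 2 * (m + 1) / ((m - 1) * s) - 2 * c / s ≤ 0.2095 :=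
    (pa_kappa' hm hs0 hσ hc0).trans (by norm_num)
  have hT := pa_lower (K := 11.06) hm hz0.le hs0 hs hu hl00 hg ht3 hG hS hβ hNφ hφ0 hκ
    (by norm_num) hM1 (by norm_num)
  have hP := pa_upper (K := 11.06) (u := u) hm hz0.le hs0 hs hu hl00 hz hc0 hc ht3 hG hS
    hν hNφ hφ0 hκ' (by norm_num) (by norm_num) hM1
  have he := pa_e1 (u := u) hm hz0.le hs0 hs hu hl00 hz hc0 hc hg (by norm_num) hsa hNφ hφ0
  have hρ := pa_rho hm hs0 hs hz0.le
  have hq := pa_q hs0 hs hz0.le hz ((by norm_num : (0:ℝ) ≤ 49/50).trans (pa_c_ge hm hc0)) hc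
  have hm3 := pa_m3 hm hz0.le hu0 hl00
  have hzM : z ≤ 1 / 25 * (m * z) := by nlinarith only [hm, hz0]
  have hzl : z * l ≤ 1 / 25 * (m * z * l) := by
    have := mul_le_mul_of_nonneg_right hzM hl00
    linarith only [this]
  have hqu : (2 * c / s - 2 * s ^ 2 + 2 * (1 - c)) * u ≤ 0.1217 * (m * z * u) := by
    have h1 := mul_le_mul_of_nonneg_right hq.2 hu0
    have h2 := mul_le_mul_of_nonneg_right hzM hu0
    have h3 : 0 ≤ m * z * u := by (clear * - hm hz0 hu0; positivity)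
    norm_num at h1 ⊢
    linarith only [h2, h3, h1]
  have hMl : 0 ≤ m * z * l ^ 2 := by positivity
  have hMl' : 0 ≤ m * z * l := by positivity
  refine pa_fin2 hM0 hM hz0 hzM hl0 hl hu0 hu2
    ((pa_algT2 hMl (pa_wphi2 hu0) hm3).trans hT)
    (hP.trans (pa_algP2 hMl hMl' (pa_phile hu0) hm3 hzl hqu)) ?_ hρ
  have h2 : 0 ≤ (2 * c / s - 2 * s ^ 2 + 2 * (1 - c)) * u := mul_nonneg hq.1 hu0
  have h3 : 0 ≤ 1.4335 * (u ^ 2 / (1 + u)) - 2 / s * (u ^ 2 / (2 + u)) := by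
    apply pa_e_pos hu0 hσ
    rw [le_div_iff₀ hu]
    have hub : u ≤ 0.4084 := by
      apply le_of_pow_le_pow_left₀ (n := 2) (by norm_num) (by norm_num)
      refine hu2.trans ?_
      norm_num
      linarith only [hM]
    norm_num at hub ⊢
    linarith only [hub]
  refine le_trans ?_ he
  linarith only [h2, h3]

end Vale.Agent.P237.AllN
end

section

/-!
# P237, block D, `l > 0`, `m z ≤ 1`: the pointwise test, `u ≤ 0` and final statement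
-/

namespace Vale.Agent.P237.AllN

theorem pa_algT3 {M l W Q A β κ : ℝ} (hMl : 0 ≤ M * l ^ 2) (hM0 : 0 < M) (hQ : Q ≤ 0)
    (hW : 0 ≤ W) (hA : 0.797 ≤ A) (hβ : 0.33 ≤ β - κ / 2) :
    0.797 * (M * l ^ 2) + 0.33 * W ≤
    M * l ^ 2 * (A + 84 / 625 * M) + β * W - κ * (W / 2) - Q := by
  have h1 := mul_le_mul_of_nonneg_right hA hMl
  have h2 := mul_le_mul_of_nonneg_right hβ hW
  have h3 : 0 ≤ M * (M * l ^ 2) := mul_nonneg hM0.le hMl
  linarith only [hQ, h1, h2, h3]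

theorem pa_algP3 {M z l W Q q A ν κ : ℝ} (hMl : 0 ≤ M * l ^ 2) (hM0 : 0 < M) (hl : 0 ≤ l)
    (hW : 0 ≤ W) (hQ : Q ≤ 0) (hzl : z * l ≤ 1 / 25 * (M * l)) (hq : q ≤ 0)
    (hA : A ≤ 0.8832) (hν : ν + κ / 2 ≤ 0.13) :
    M * l ^ 2 * (A - 84 / 625 * M) + 1042 / 1000 * z * l + ν * W + κ * (W / 2) + Q + q ≤
    M * ((0.0417 + 0.8832 * l) * l) + 0.13 * W := by
  have h1 := mul_le_mul_of_nonneg_right hA hMl
  have h2 := mul_le_mul_of_nonneg_right hν hW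
  have h3 : 0 ≤ M * (M * l ^ 2) := mul_nonneg hM0.le hMl
  have h4 : 0 ≤ M * l := by positivity
  norm_num at h1 h2 ⊢
  linarith only [h2, h1, h4, h3, hq, hzl, hQ]

theorem pa_Qneg {m z u l : ℝ} (hm : 25 ≤ m) (hz0 : 0 < z) (hl0 : 0 ≤ l) (hu : u ≤ 0) :
    6 / 25 * (m + 3) * z * u * l ≤ 0 := by
  have h : 0 ≤ 6 / 25 * (m + 3) * z * -u * l := by
    have : 0 ≤ -u := by linarith only [hu]
    positivity
  linarith only [h]

theorem pa_eneg {z l u s W q β : ℝ} (hW : 0 ≤ W) (hσ : 1 / s ≤ β)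
    (hq1 : q ≤ 3042 / 1000 * z) (hu : u ≤ 0) :
    -(62 / 1000 * (z * l) + 3.042 * (z * -u)) ≤
      β * W - 2 / s * (W / 2) + q * u - 62 / 1000 * z * l := by
  have h1 := mul_le_mul_of_nonneg_right hσ hW
  have h2 := mul_le_mul_of_nonneg_right hq1 (by linarith only [hu] : 0 ≤ -u)
  have e : 2 / s * (W / 2) = 1 / s * W := by ring
  rw [e]
  generalize 1 / s * W = X at h1 ⊢
  norm_num at h2 ⊢
  linarith only [h2, h1]

/-- `u ≤ 0`, `l ≤ 2/5` -/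
theorem pa_neg1 {m z s l u c G N : ℝ} (hm : 25 ≤ m) (hz0 : 0 < z) (hs0 : 0 < s)
    (hs : s ^ 2 = 1 - z) (hM : m * z ≤ 1) (hl0 : 0 ≤ l) (hl : l ≤ 2 / 5)
    (hc0 : 1 - 1 / (2 * m) ≤ c) (hc : c ≤ 1) (hu0 : u ≤ 0)
    (hu1 : -(m / 2 * z) ≤ u) (hN : Real.log (1 + u) - u ≤ N)
    (hG : -(4 / 5 * (z * l ^ 2)) ≤ G) :
    JTest (dpT m z s l u G N) (dpE m z s l u c N) (dpR m (z / s ^ 2)) u := by
  have hz : z ≤ 1 / 25 := by nlinarith only [hM, hm]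
  have hu2 : -(m * z / 2) ≤ u := by linarith only [hu1]
  have hu : 0 < 1 + u := by linarith only [hM, hu1]
  have hM0 : 0 < m * z := by positivity
  have hW0 : 0 ≤ u ^ 2 / (1 + u) := by (clear * - hu; positivity)
  have hφ0 : 0 ≤ u ^ 2 / (1 + u) / 2 := by (clear * - hu; positivity)
  have hNφ : -(u ^ 2 / (1 + u) / 2) ≤ N := by
    have hφ := pa_phi_neg hu hu0
    linarith only [hφ, hN]
  have hσ : 1 / s ≤ 1.02084 := by
    have := pa_inv_le hs0 hs hz0.le hz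
    norm_num at this ⊢
    linarith only [hz, this]
  have hg : 1.556 * l ^ 2 ≤ Real.exp (-(2 * l)) - 1 + 2 * l := by
    apply pa_psi hl0
    norm_num
    linarith only [mul_nonneg (sub_nonneg.2 hl) (sub_nonneg.2 hl), mul_nonneg (sq_nonneg (1 * l : ℝ)) (sub_nonneg.2 hl), hl]
  have ht3 := pa_cube1 hs0 hs hz0.le hz
  have hS := pa_S1 (s := s) (by linarith only [hm] : 0 ≤ m) hz0.le hz hM hl0 hl
  have hC := pa_C1 hs0 hs hz0.le hz hl0 hl
  have hsa : 1.725 ≤ 4 * s ^ 2 * Real.exp (-(2 * l)) := by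
    have ha := pa_a1 hl
    have h1 : 0.96 ≤ s ^ 2 := by rw [hs]; norm_num; linarith only [hz]
    have h2 := mul_le_mul h1 ha (by norm_num) (sq_nonneg s)
    norm_num at h2 ⊢
    linarith only [h2]
  have hβ : 1.70 ≤ 4 * s ^ 2 * Real.exp (-(2 * l)) + dpC z s l := by
    norm_num at hsa ⊢
    linarith only [hz, hC, hsa]
  have hν : -0.024 ≤ dpC z s l := by norm_num; linarith only [hz, hC]
  have hκ : 2 * (m + 1) / ((m - 1) * s) ≤ 2.212 :=
    (pa_kappa hm hs0 hσ).trans (by norm_num)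
  have hκ' : 2 * (m + 1) / ((m - 1) * s) - 2 * c / s ≤ 0.211 :=
    (pa_kappa' hm hs0 hσ hc0).trans (by norm_num)
  have hT := pa_lower (K := 11.9742) hm hz0.le hs0 hs hu hl0 hg ht3 hG hS hβ hNφ hφ0 hκ
    (by norm_num) hM (by norm_num)
  have hP := pa_upper (K := 11.9742) (u := u) hm hz0.le hs0 hs hu hl0 hz hc0 hc ht3 hG hS
    hν hNφ hφ0 hκ' (by norm_num) (by norm_num) hM
  have he := pa_e1 (u := u) hm hz0.le hs0 hs hu hl0 hz hc0 hc hg (by norm_num) hsa hNφ hφ0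
  have hρ : 0.2 + 0.5 * (m * z) ≤ dpR m (z / s ^ 2) := by
    have := pa_rho hm hs0 hs hz0.le
    have h2 := sq_nonneg (m * z)
    norm_num at this ⊢
    linarith only [h2, this]
  have hq := pa_q hs0 hs hz0.le hz ((by norm_num : (0:ℝ) ≤ 49/50).trans (pa_c_ge hm hc0)) hc
  have hQ := pa_Qneg hm hz0 hl0 hu0
  have hzM : z ≤ 1 / 25 * (m * z) := by nlinarith only [hm, hz0]
  have hzl : z * l ≤ 1 / 25 * (m * z * l) := by
    have := mul_le_mul_of_nonneg_right hzM hl0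
    linarith only [this]
  have hqu : (2 * c / s - 2 * s ^ 2 + 2 * (1 - c)) * u ≤ 0 :=
    mul_nonpos_of_nonneg_of_nonpos hq.1 hu0
  have hMl : 0 ≤ m * z * l ^ 2 := by (clear * - hm hz0; positivity)
  have hE := pa_eneg (l := l) (s := s) (β := 1.725) hW0 (hσ.trans (by norm_num)) hq.2 hu0
  have hT' := (pa_algT3 (M := m * z) (l := l) (W := u ^ 2 / (1 + u))
    (A := 28 / 25 * (1.556 - 9 / 25) - 11.9742 / 25) (β := 1.70) (κ := 2.212)
    hMl hM0 hQ hW0 (by norm_num) (by norm_num)).trans hT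
  have hP' := hP.trans (pa_algP3 (M := m * z) (l := l) (W := u ^ 2 / (1 + u)) (z := z)
    (A := 11.9742 / 25 + 252 / 625) (ν := 0.024) (κ := 0.211)
    hMl hM0 hl0 hW0 hQ hzl hqu (by norm_num) (by norm_num))
  exact pa_fin3 hM0 hM hz0 hzM hl0 (by linarith only [hl]) (fun _ => hl) hu0 hu2 hT' hP' (hE.trans he) hρ

/-- `u ≤ 0`, `2/5 ≤ l ≤ 1/2` -/
theorem pa_neg2 {m z s l u c G N : ℝ} (hm : 25 ≤ m) (hz0 : 0 < z) (hs0 : 0 < s)
    (hs : s ^ 2 = 1 - z) (hM : m * z ≤ 16 / 25) (hl0 : 2 / 5 ≤ l) (hl : l ≤ 1 / 2)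
    (hl1 : 16 / 25 ≤ m * z → l ≤ 2 / 5)
    (hc0 : 1 - 1 / (2 * m) ≤ c) (hc : c ≤ 1) (hu0 : u ≤ 0)
    (hu1 : -(m / 2 * z) ≤ u) (hN : Real.log (1 + u) - u ≤ N)
    (hG : -(4 / 5 * (z * l ^ 2)) ≤ G) :
    JTest (dpT m z s l u G N) (dpE m z s l u c N) (dpR m (z / s ^ 2)) u := by
  have hl00 : 0 ≤ l := by linarith only [hl0]
  have hz' : z ≤ 16 / 625 := by nlinarith only [hM, hm]
  have hz : z ≤ 1 / 25 := by linarith only [hz']
  have hu2 : -(m * z / 2) ≤ u := by linarith only [hu1]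
  have hu : 0 < 1 + u := by linarith only [hM, hu1]
  have hM0 : 0 < m * z := by positivity
  have hM1 : m * z ≤ 1 := by linarith only [hM]
  have hW0 : 0 ≤ u ^ 2 / (1 + u) := by (clear * - hu; positivity)
  have hφ0 : 0 ≤ u ^ 2 / (1 + u) / 2 := by (clear * - hu; positivity)
  have hNφ : -(u ^ 2 / (1 + u) / 2) ≤ N := by
    have hφ := pa_phi_neg hu hu0
    linarith only [hN, hφ]
  have hσ : 1 / s ≤ 1.013338 := by
    have := pa_inv_le hs0 hs hz0.le hz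
    norm_num at this ⊢
    linarith only [this, hz']
  have hg : 1.46666 * l ^ 2 ≤ Real.exp (-(2 * l)) - 1 + 2 * l := by
    apply pa_psi hl00
    norm_num
    nlinarith only [hl]
  have ht3 := pa_cube2 hs0 hs hz0.le hz'
  have hS := pa_S2 (s := s) (by linarith only [hm] : 0 ≤ m) hz0.le hz' hM hl00 hl
  have hC := pa_C2 hs0 hs hz0.le hz' hl0 hl
  have hsa : 1.4335 ≤ 4 * s ^ 2 * Real.exp (-(2 * l)) := by
    have ha := pa_a2 hl
    have h1 : 0.9744 ≤ s ^ 2 := by rw [hs]; norm_num; linarith only [hz']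
    have h2 := mul_le_mul h1 ha (by norm_num) (sq_nonneg s)
    norm_num at h2 ⊢
    linarith only [h2]
  have hβ : 1.4335 ≤ 4 * s ^ 2 * Real.exp (-(2 * l)) + dpC z s l := by
    norm_num at hsa ⊢
    linarith only [hsa, hC]
  have hν : -0 ≤ dpC z s l := by norm_num; linarith only [hC]
  have hκ : 2 * (m + 1) / ((m - 1) * s) ≤ 2.1956 :=
    (pa_kappa hm hs0 hσ).trans (by norm_num)
  have hκ' : 2 * (m + 1) / ((m - 1) * s) - 2 * c / s ≤ 0.2095 :=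
    (pa_kappa' hm hs0 hσ hc0).trans (by norm_num)
  have hT := pa_lower (K := 11.06) hm hz0.le hs0 hs hu hl00 hg ht3 hG hS hβ hNφ hφ0 hκ
    (by norm_num) hM1 (by norm_num)
  have hP := pa_upper (K := 11.06) (u := u) hm hz0.le hs0 hs hu hl00 hz hc0 hc ht3 hG hS
    hν hNφ hφ0 hκ' (by norm_num) (by norm_num) hM1
  have he := pa_e1 (u := u) hm hz0.le hs0 hs hu hl00 hz hc0 hc hg (by norm_num) hsa hNφ hφ0
  have hρ : 0.2 + 0.5 * (m * z) ≤ dpR m (z / s ^ 2) := by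
    have := pa_rho hm hs0 hs hz0.le
    have h2 := sq_nonneg (m * z)
    norm_num at this ⊢
    linarith only [this, h2]
  have hq := pa_q hs0 hs hz0.le hz ((by norm_num : (0:ℝ) ≤ 49/50).trans (pa_c_ge hm hc0)) hc
  have hQ := pa_Qneg hm hz0 hl00 hu0
  have hzM : z ≤ 1 / 25 * (m * z) := by nlinarith only [hm, hz0]
  have hzl : z * l ≤ 1 / 25 * (m * z * l) := by
    have := mul_le_mul_of_nonneg_right hzM hl00
    linarith only [this]
  have hqu : (2 * c / s - 2 * s ^ 2 + 2 * (1 - c)) * u ≤ 0 :=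
    mul_nonpos_of_nonneg_of_nonpos hq.1 hu0
  have hMl : 0 ≤ m * z * l ^ 2 := by positivity
  have hE := pa_eneg (l := l) (s := s) (β := 1.4335) hW0 (hσ.trans (by norm_num)) hq.2 hu0
  have hT' := (pa_algT3 (M := m * z) (l := l) (W := u ^ 2 / (1 + u))
    (A := 28 / 25 * (1.46666 - 9 / 25) - 11.06 / 25) (β := 1.4335) (κ := 2.1956)
    hMl hM0 hQ hW0 (by norm_num) (by norm_num)).trans hT
  have hP' := hP.trans (pa_algP3 (M := m * z) (l := l) (W := u ^ 2 / (1 + u)) (z := z)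
    (A := 11.06 / 25 + 252 / 625) (ν := 0) (κ := 0.2095)
    hMl hM0 hl00 hW0 hQ hzl hqu (by norm_num) (by norm_num))
  exact pa_fin3 hM0 hM1 hz0 hzM hl00 hl hl1 hu0 hu2 hT' hP' (hE.trans he) hρ

/-- The pointwise test of block D on `m z ≤ 1`, `0 ≤ l`. -/
theorem fpos_le_one {m z s l u c G N : ℝ} (hm : 25 ≤ m) (hz0 : 0 < z) (hs0 : 0 < s)
    (hs : s ^ 2 = 1 - z) (hM : m * z ≤ 1) (hl0 : 0 ≤ l) (hl : l ≤ 1 / 2)
    (hl1 : 16 / 25 ≤ m * z → l ≤ 2 / 5)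
    (hc0 : 1 - 1 / (2 * m) ≤ c) (hc : c ≤ 1)
    (hu1 : 0 ≤ u → u ^ 2 ≤ 4 / 25 * (m * (z / s ^ 2))) (hu2 : -(m / 2 * z) ≤ u)
    (hN : Real.log (1 + u) - u ≤ N) (hG : -(4 / 5 * (z * l ^ 2)) ≤ G) :
    JTest (dpT m z s l u G N) (dpE m z s l u c N) (dpR m (z / s ^ 2)) u := by
  rcases le_total 0 u with h | h
  · rcases le_total l (2 / 5) with h' | h'
    · exact pa_pos1 hm hz0 hs0 hs hM hl0 h' hc0 hc h (hu1 h) hN hG
    · rcases le_total (m * z) (16 / 25) with h2 | h2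
      · exact pa_pos2 hm hz0 hs0 hs h2 h' hl hc0 hc h (hu1 h) hN hG
      · exact pa_pos1 hm hz0 hs0 hs hM hl0 (hl1 h2) hc0 hc h (hu1 h) hN hG
  · rcases le_total l (2 / 5) with h' | h'
    · exact pa_neg1 hm hz0 hs0 hs hM hl0 h' hc0 hc h hu2 hN hG
    · rcases le_total (m * z) (16 / 25) with h2 | h2
      · exact pa_neg2 hm hz0 hs0 hs h2 h' hl hl1 hc0 hc h hu2 hN hG
      · exact pa_neg1 hm hz0 hs0 hs hM hl0 (hl1 h2) hc0 hc h hu2 hN hG

end Vale.Agent.P237.AllN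
end
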