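import Vale.Agent.P237.Bd3.B4
import Vale.Agent.P237.Bd3.B28
import Vale.Agent.P237.Bd3.B16
import Vale.Agent.P237.Bd3.B29
import Vale.Agent.P237.Bd3.B11
import Vale.Agent.P237.Bd3.B25
import Vale.Agent.P237.Bd3.B27
import Vale.Agent.P237.Bd3.B7
import Vale.Agent.P237.Bd3.B18
import Vale.Agent.P237.Bd3.B26
import Vale.Agent.P237.Bd3.B20
import Vale.Agent.P237.Bd3.B21
import Vale.Agent.P237.Bd3.B12
import Vale.Agent.P237.Bd3.B13
import Vale.Agent.P237.Bd3.B24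
import Vale.Agent.P237.Bd3.B23
import Vale.Agent.P237.Bd3.B15
import Vale.Agent.P237.Bd3.B22

set_option linter.all false

section

/-!
# P237, plain certificate: kernel checks for `m = 7`
-/

namespace Vale.Agent.P237.AllN

open PolyPos

/-- data of the certificate, `m = 7` -/
def D7 : Dat := ⟨⟨7, ⟨87, 99⟩, ⟨93, 249⟩, ⟨299, 499⟩, ⟨6, 4⟩, ⟨12, 124⟩, ⟨33, 99⟩, ⟨151, 9999⟩, ⟨1, 999⟩, ⟨1, 999⟩⟩,
  ⟨1019, 999⟩, ⟨541, 9999⟩, ⟨21, 199⟩, ⟨571, 499⟩, ⟨487, 999⟩, ⟨281, 999⟩, ⟨431, 9999⟩, ⟨4417, 4999⟩, 4, 578, 1249, 817, 1019, 2 ^ 1024, 40⟩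

theorem chk7_LP :
    D7.kLP (.leaf 0) = true := by
  decide +kernel

theorem chk7_LM :
    D7.kLM (.sx (.leaf 0) (.sy (.leaf 0) (.sx (.sy (.leaf 0) (.sx (.leaf 0) .out)) (.sy (.sx
    (.leaf 0) (.sy (.leaf 0) (.sx (.leaf 0) .out))) .out)))) = true := by
  decide +kernel

theorem chk7_RMT0 :
    D7.kRM D7.rbT 7 0 817 250 1000 (.leaf 0) = true := by
  decide +kernel

theorem chk7_RMt0 :
    D7.kRM D7.rbG 7 0 817 6 250 (.sx (.leaf 0) (.sy (.sx (.leaf 0) (.sy (.sx (.leaf 0) .out)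
    (.leaf 0))) (.leaf 0))) = true := by
  decide +kernel

theorem chk7_RMc0 :
    D7.kRM D7.rbC 7 0 817 0 6 (.sx (.leaf 0) (.leaf 0)) = true := by
  decide +kernel

theorem chk7_RP1 :
    D7.kRP1 (.sx (.leaf 0) (.sy (.sx (.leaf 1) (.sy (.sx (.leaf 1) .out) (.leaf 0))) (.leaf
    0))) = true := by
  decide +kernel

theorem chk7_RP2 :
    D7.kRP2 (.sx (.sy (.sx (.sy .out (.leaf 0)) .out) (.leaf 0)) .out) = true := by
  decide +kernel

theorem chk7_RS :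
    D7.kRS (.leaf 1) = true := by
  decide +kernel

end Vale.Agent.P237.AllN
end

section

/-!
# P237, plain certificate: `OneD 7`
-/

open Set

namespace Vale.Agent.P237.AllN

open PolyPos

theorem num7 : D7.Num (-710 / 1000) := by
  refine ⟨?_, ?_, ?_, ?_, ?_, ?_, ?_, ?_, ?_, ?_, ?_, ?_, ?_, ?_, ?_, ?_, ?_, ?_, ?_, ?_⟩
  · norm_num [D7]
  · norm_num [D7, Fr.R, Dat.r0]
  · norm_num [D7, Fr.R, Dat.r0]
  · norm_num [D7, Fr.R, Dat.r0]
  · norm_num [D7, Fr.R, Dat.r0]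
  · norm_num [D7, Fr.R, Dat.r0]
  · norm_num [D7, Fr.R, Dat.r0]
  · norm_num [D7, Fr.R, Dat.r0]
  · norm_num [D7, Fr.R, Dat.r0]
  · norm_num [D7, Fr.R, Dat.r0]
  · norm_num [D7, Fr.R, Dat.r0]
  · have h := pcn_log_ge (q := 1237 / 1125) (a := 3 / 9) (by norm_num) (by norm_num) (by
      norm_num [Finset.sum_range_succ, Nat.factorial])
    simp only [D7, Fr.R]
    norm_num at h ⊢
    linarith
  · have h := pcn_log_ge (q := 412 / 375) (a := 3 / 9) (by norm_num) (by norm_num) (by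
      norm_num [Finset.sum_range_succ, Nat.factorial])
    simp only [D7, Fr.R]
    norm_num at h ⊢
    linarith
  · norm_num [D7]
  · norm_num [D7]
  · norm_num [D7, Fr.R, Dat.r0]
  · norm_num [D7, Fr.R, Dat.r0]
  · norm_num [D7]
  · norm_num [D7]
  · norm_num [D7]

theorem UT_w7 : PcRho.UT 7 = 725 := rfl
theorem al9_w7 : PcRho.al9 7 = 431 := rfl
theorem be9_w7 : PcRho.be9 7 = 8834 := rfl
theorem cT_w7 : PcRho.cT 7 = 541 := rfl
theorem q3T_w7 : PcRho.q3T 7 = 1050 := rfl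
theorem q4T_w7 : PcRho.q4T 7 = 11420 := rfl

theorem rho7 : RhoOK D7 := by
  refine rhoOK (by norm_num [D7]) (by norm_num [D7]) ?_ ?_ ?_ (Or.inl ⟨by norm_num [D7, Fr.R, al9_w7], by norm_num [D7, Fr.R, be9_w7]⟩) ?_ ?_ <;>
    norm_num [D7, Fr.R, cT_w7, UT_w7, q3T_w7, q4T_w7]

theorem chk7 : D7.Chk where
  lp := ⟨_, chk7_LP⟩
  lm := ⟨_, chk7_LM⟩
  rmT := (Or.inl ⟨_, chk7_RMT0⟩)
  rmG := (Or.inl ⟨_, chk7_RMt0⟩)
  rmC := (Or.inl ⟨_, chk7_RMc0⟩)
  rp1 := ⟨_, chk7_RP1⟩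
  rp2 := ⟨_, chk7_RP2⟩
  rs := ⟨_, chk7_RS⟩

theorem D7_m : D7.P.m = 7 := rfl

theorem inOK7 : InOK D7.P.m D7.k.R (-710 / 1000) := by
  rw [D7_m]
  refine inOK_of (by norm_num) (by norm_num) ?_ ?_
  · intro r τ τ' T hr hT x hx
    have h := IsTrans.pin_h4_seven hr hT hx
    refine h.trans (mul_le_mul_of_nonneg_right ?_ hx.1.le)
    norm_num [D7, Fr.R]
  · intro r τ τ' T hr hT x hx hx2
    have h := IsTrans.pin_h7_seven hr hT hx (by rw [hx2]; norm_num)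
    refine le_trans ?_ h
    norm_num

/-- **`OneD 7`** -/
theorem oneD_7 : OneD 7 := by
  have h := oneD_of_dat num7 rho7 chk7 (by rw [D7_m]; norm_num) (by norm_num [D7, Fr.R]) inOK7
  rwa [D7_m] at h

end Vale.Agent.P237.AllN
end

section

/-!
# P237, plain certificate: `OneD 8`
-/

open Set

namespace Vale.Agent.P237.AllN

open PolyPos

theorem num8 : D8.Num (-769 / 1000) := by
  refine ⟨?_, ?_, ?_, ?_, ?_, ?_, ?_, ?_, ?_, ?_, ?_, ?_, ?_, ?_, ?_, ?_, ?_, ?_, ?_, ?_⟩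
  · norm_num [D8]
  · norm_num [D8, Fr.R, Dat.r0]
  · norm_num [D8, Fr.R, Dat.r0]
  · norm_num [D8, Fr.R, Dat.r0]
  · norm_num [D8, Fr.R, Dat.r0]
  · norm_num [D8, Fr.R, Dat.r0]
  · norm_num [D8, Fr.R, Dat.r0]
  · norm_num [D8, Fr.R, Dat.r0]
  · norm_num [D8, Fr.R, Dat.r0]
  · norm_num [D8, Fr.R, Dat.r0]
  · norm_num [D8, Fr.R, Dat.r0]
  · have h := pcn_log_ge (q := 12047 / 10000) (a := 3 / 10) (by norm_num) (by norm_num) (by
      norm_num [Finset.sum_range_succ, Nat.factorial])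
    simp only [D8, Fr.R]
    norm_num at h ⊢
    linarith
  · have h := pcn_log_ge (q := 9032653 / 7500000) (a := 3 / 10) (by norm_num) (by norm_num) (by
      norm_num [Finset.sum_range_succ, Nat.factorial])
    simp only [D8, Fr.R]
    norm_num at h ⊢
    linarith
  · norm_num [D8]
  · norm_num [D8]
  · norm_num [D8, Fr.R, Dat.r0]
  · norm_num [D8, Fr.R, Dat.r0]
  · norm_num [D8]
  · norm_num [D8]
  · norm_num [D8]

theorem UT_w8 : PcRho.UT 8 = 736 := rfl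
theorem al9_w8 : PcRho.al9 8 = 456 := rfl
theorem be9_w8 : PcRho.be9 8 = 9064 := rfl
theorem cT_w8 : PcRho.cT 8 = 546 := rfl
theorem q3T_w8 : PcRho.q3T 8 = 1030 := rfl
theorem q4T_w8 : PcRho.q4T 8 = 11160 := rfl

theorem rho8 : RhoOK D8 := by
  refine rhoOK (by norm_num [D8]) (by norm_num [D8]) ?_ ?_ ?_ (Or.inl ⟨by norm_num [D8, Fr.R, al9_w8], by norm_num [D8, Fr.R, be9_w8]⟩) ?_ ?_ <;>
    norm_num [D8, Fr.R, cT_w8, UT_w8, q3T_w8, q4T_w8]

theorem chk8 : D8.Chk where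
  lp := ⟨_, chk8_LP⟩
  lm := ⟨_, chk8_LM⟩
  rmT := (Or.inl ⟨_, chk8_RMT0⟩)
  rmG := (Or.inl ⟨_, chk8_RMt0⟩)
  rmC := (Or.inl ⟨_, chk8_RMc0⟩)
  rp1 := ⟨_, chk8_RP1⟩
  rp2 := ⟨_, chk8_RP2⟩
  rs := ⟨_, chk8_RS⟩

theorem D8_m : D8.P.m = 8 := rfl

theorem inOK8 : InOK D8.P.m D8.k.R (-769 / 1000) := by
  rw [D8_m]
  refine inOK_of (by norm_num) (by norm_num) ?_ ?_
  · intro r τ τ' T hr hT x hx
    have h := IsTrans.pin_h4_eight hr hT hx
    refine h.trans (mul_le_mul_of_nonneg_right ?_ hx.1.le)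
    norm_num [D8, Fr.R]
  · intro r τ τ' T hr hT x hx hx2
    have h := IsTrans.pin_h7_eight hr hT hx (by rw [hx2]; norm_num)
    refine le_trans ?_ h
    norm_num

/-- **`OneD 8`** -/
theorem oneD_8 : OneD 8 := by
  have h := oneD_of_dat num8 rho8 chk8 (by rw [D8_m]; norm_num) (by norm_num [D8, Fr.R]) inOK8
  rwa [D8_m] at h

end Vale.Agent.P237.AllN
end

section

/-!
# P237, plain certificate: `OneD 9`
-/

open Set

namespace Vale.Agent.P237.AllN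

open PolyPos

theorem num9 : D9.Num (-821 / 1000) := by
  refine ⟨?_, ?_, ?_, ?_, ?_, ?_, ?_, ?_, ?_, ?_, ?_, ?_, ?_, ?_, ?_, ?_, ?_, ?_, ?_, ?_⟩
  · norm_num [D9]
  · norm_num [D9, Fr.R, Dat.r0]
  · norm_num [D9, Fr.R, Dat.r0]
  · norm_num [D9, Fr.R, Dat.r0]
  · norm_num [D9, Fr.R, Dat.r0]
  · norm_num [D9, Fr.R, Dat.r0]
  · norm_num [D9, Fr.R, Dat.r0]
  · norm_num [D9, Fr.R, Dat.r0]
  · norm_num [D9, Fr.R, Dat.r0]
  · norm_num [D9, Fr.R, Dat.r0]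
  · norm_num [D9, Fr.R, Dat.r0]
  · have h := pcn_log_ge (q := 19656 / 15125) (a := 3 / 11) (by norm_num) (by norm_num) (by
      norm_num [Finset.sum_range_succ, Nat.factorial])
    simp only [D9, Fr.R]
    norm_num at h ⊢
    linarith
  · have h := pcn_log_ge (q := 7135112 / 5490375) (a := 3 / 11) (by norm_num) (by norm_num) (by
      norm_num [Finset.sum_range_succ, Nat.factorial])
    simp only [D9, Fr.R]
    norm_num at h ⊢
    linarith
  · norm_num [D9]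
  · norm_num [D9]
  · norm_num [D9, Fr.R, Dat.r0]
  · norm_num [D9, Fr.R, Dat.r0]
  · norm_num [D9]
  · norm_num [D9]
  · norm_num [D9]

theorem UT_w9 : PcRho.UT 9 = 725 := rfl
theorem al9_w9 : PcRho.al9 9 = 476 := rfl
theorem be9_w9 : PcRho.be9 9 = 9243 := rfl
theorem cT_w9 : PcRho.cT 9 = 553 := rfl
theorem q3T_w9 : PcRho.q3T 9 = 1020 := rfl
theorem q4T_w9 : PcRho.q4T 9 = 10960 := rfl

theorem rho9 : RhoOK D9 := by
  refine rhoOK (by norm_num [D9]) (by norm_num [D9]) ?_ ?_ ?_ (Or.inl ⟨by norm_num [D9, Fr.R, al9_w9], by norm_num [D9, Fr.R, be9_w9]⟩) ?_ ?_ <;>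
    norm_num [D9, Fr.R, cT_w9, UT_w9, q3T_w9, q4T_w9]

theorem chk9 : D9.Chk where
  lp := ⟨_, chk9_LP⟩
  lm := ⟨_, chk9_LM⟩
  rmT := (Or.inl ⟨_, chk9_RMT0⟩)
  rmG := (Or.inl ⟨_, chk9_RMt0⟩)
  rmC := (Or.inl ⟨_, chk9_RMc0⟩)
  rp1 := ⟨_, chk9_RP1⟩
  rp2 := ⟨_, chk9_RP2⟩
  rs := ⟨_, chk9_RS⟩

theorem D9_m : D9.P.m = 9 := rfl

theorem inOK9 : InOK D9.P.m D9.k.R (-821 / 1000) := by
  rw [D9_m]
  refine inOK_of (by norm_num) (by norm_num) ?_ ?_
  · intro r τ τ' T hr hT x hx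
    have h := IsTrans.pin_h4_nine hr hT hx
    refine h.trans (mul_le_mul_of_nonneg_right ?_ hx.1.le)
    norm_num [D9, Fr.R]
  · intro r τ τ' T hr hT x hx hx2
    have h := IsTrans.pin_h7_nine hr hT hx (by rw [hx2]; norm_num)
    refine le_trans ?_ h
    norm_num

/-- **`OneD 9`** -/
theorem oneD_9 : OneD 9 := by
  have h := oneD_of_dat num9 rho9 chk9 (by rw [D9_m]; norm_num) (by norm_num [D9, Fr.R]) inOK9
  rwa [D9_m] at h

end Vale.Agent.P237.AllN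
end

section

/-!
# P237, plain certificate: `OneD 13`
-/

open Set

namespace Vale.Agent.P237.AllN

open PolyPos

theorem num13 : D13.Num (-989 / 1000) := by
  refine ⟨?_, ?_, ?_, ?_, ?_, ?_, ?_, ?_, ?_, ?_, ?_, ?_, ?_, ?_, ?_, ?_, ?_, ?_, ?_, ?_⟩
  · norm_num [D13]
  · norm_num [D13, Fr.R, Dat.r0]
  · norm_num [D13, Fr.R, Dat.r0]
  · norm_num [D13, Fr.R, Dat.r0]
  · norm_num [D13, Fr.R, Dat.r0]
  · norm_num [D13, Fr.R, Dat.r0]
  · norm_num [D13, Fr.R, Dat.r0]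
  · norm_num [D13, Fr.R, Dat.r0]
  · norm_num [D13, Fr.R, Dat.r0]
  · norm_num [D13, Fr.R, Dat.r0]
  · norm_num [D13, Fr.R, Dat.r0]
  · have h := pcn_log_ge (q := 5032 / 3125) (a := 3 / 15) (by norm_num) (by norm_num) (by
      norm_num [Finset.sum_range_succ, Nat.factorial])
    simp only [D13, Fr.R]
    norm_num at h ⊢
    linarith
  · have h := pcn_log_ge (q := 75476 / 46875) (a := 3 / 15) (by norm_num) (by norm_num) (by
      norm_num [Finset.sum_range_succ, Nat.factorial])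
    simp only [D13, Fr.R]
    norm_num at h ⊢
    linarith
  · norm_num [D13]
  · norm_num [D13]
  · norm_num [D13, Fr.R, Dat.r0]
  · norm_num [D13, Fr.R, Dat.r0]
  · norm_num [D13]
  · norm_num [D13]
  · norm_num [D13]

theorem UT_w13 : PcRho.UT 13 = 738 := rfl
theorem al9_w13 : PcRho.al9 13 = 529 := rfl
theorem be9_w13 : PcRho.be9 13 = 9685 := rfl
theorem cT_w13 : PcRho.cT 13 = 562 := rfl
theorem q3T_w13 : PcRho.q3T 13 = 1000 := rfl
theorem q4T_w13 : PcRho.q4T 13 = 10490 := rfl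

theorem rho13 : RhoOK D13 := by
  refine rhoOK (by norm_num [D13]) (by norm_num [D13]) ?_ ?_ ?_ (Or.inl ⟨by norm_num [D13, Fr.R, al9_w13], by norm_num [D13, Fr.R, be9_w13]⟩) ?_ ?_ <;>
    norm_num [D13, Fr.R, cT_w13, UT_w13, q3T_w13, q4T_w13]

theorem chk13 : D13.Chk where
  lp := ⟨_, chk13_LP⟩
  lm := ⟨_, chk13_LM⟩
  rmT := (Or.inl ⟨_, chk13_RMT0⟩)
  rmG := (Or.inl ⟨_, chk13_RMt0⟩)
  rmC := (Or.inl ⟨_, chk13_RMc0⟩)
  rp1 := ⟨_, chk13_RP1⟩
  rp2 := ⟨_, chk13_RP2⟩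
  rs := ⟨_, chk13_RS⟩

theorem D13_m : D13.P.m = 13 := rfl

theorem inOK13 : InOK D13.P.m D13.k.R (-989 / 1000) := by
  rw [D13_m]
  refine inOK_of (by norm_num) (by norm_num) ?_ ?_
  · intro r τ τ' T hr hT x hx
    have h := IsTrans.pin_h4_thirteen hr hT hx
    refine h.trans (mul_le_mul_of_nonneg_right ?_ hx.1.le)
    norm_num [D13, Fr.R]
  · intro r τ τ' T hr hT x hx hx2
    have h := IsTrans.pin_h7_thirteen hr hT hx (by rw [hx2]; norm_num)
    refine le_trans ?_ h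
    norm_num

/-- **`OneD 13`** -/
theorem oneD_13 : OneD 13 := by
  have h := oneD_of_dat num13 rho13 chk13 (by rw [D13_m]; norm_num) (by norm_num [D13, Fr.R]) inOK13
  rwa [D13_m] at h

end Vale.Agent.P237.AllN
end

section

/-!
# P237, block C: `OneD m` for `15 ≤ m ≤ 26` from the right inequality
-/

open MeasureTheory Metric Set Module Filter Topology

namespace Vale.Agent.P237.AllN

theorem oneD_u15_of_right {m : ℕ} (hm : 15 ≤ m) (hm' : m ≤ 26) (hR : U15Right m) : OneD m := by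
  refine oneD_u15 hm hm' ?_ (u15_left_ok hm) hR
  intro r τ τ' T hr h hN x hx
  have h2 := h.log_le_lstar2 (by omega) hm' hr hN hx
  exact ⟨h2, fun h22 => h.log_le_lstar (by omega) h22 hr hN hx,
    fun b hb => h.kA_plain_le2 hx h2 hb⟩

end Vale.Agent.P237.AllN
end

section

/-!
# P237, block C: `OneD m` for `15 ≤ m ≤ 26`, light version
-/

namespace Vale.Agent.P237.AllN

/-- **The right inequality of the uniform plain certificate, `m ≥ 15`.** -/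
theorem u15_right_ok {m : ℕ} (hm0 : 15 ≤ m) : U15Right m := by
  intro x l u lam h hlt
  have hm : (15 : ℝ) ≤ m := by exact_mod_cast hm0
  have hs0 : 0 < sq x := sqx_pos h.hx
  have hxs : x ^ 2 + sq x ^ 2 = 1 := by rw [sqx_sq h.hx]; ring
  have hx0 := h.hx.1
  have hy : 0 < x ^ 2 / sq x ^ 2 := by positivity
  have hc : -2 * l ^ 2 ≤ u15c x l := by
    unfold u15c
    rw [le_div_iff₀ hy]
    have := h.corr2
    linarith
  rcases le_total u 0 with hu | hu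
  · exact u15_right_neg hm hx0 h.hx.2 hs0 hxs rfl hlt h.hu hu h.lamhi h.tau1
      (fun _ => h.sgn) rfl hc
  · rcases le_total u 4 with hu4 | hu4
    · exact u15_right_pos hm hx0 hs0 hxs rfl hlt hu hu4 (h.uk hu) rfl hc
    · exact u15_right_big hm hx0 h.hx.2 hs0 hxs rfl hu4 h.us h.tail rfl hc

/-- block C: `OneD m` for `15 ≤ m ≤ 26` -/
theorem oneD_15_26_light {m : ℕ} (hm : 15 ≤ m) (hm' : m ≤ 26) : OneD m :=
  oneD_u15_of_right hm hm' (u15_right_ok hm)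

end Vale.Agent.P237.AllN
end

section

/-!
# P237, block D: the pointwise test for `l ≤ 0`, and for `0 < l`, `m x² ≤ 1`
-/

open Set

namespace Vale.Agent.P237.AllN

open Alm

/-- the two forms of `T` for `l ≤ 0` agree -/
theorem dmT_eq {m z s l u G N : ℝ} (hs : 0 < s) (hz : s ^ 2 = 1 - z) :
    dmT m z s l u G N = dnT m z s l u G N := by
  have key : 3 * (z ^ 3 / s ^ 3) * ((m - 3) * (z / s ^ 2) - 7) =
      (3 * (m - 3) * (z ^ 2 / s ^ 5) - 9 * (z / s ^ 3)) +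
      ((1 - m * (z / s ^ 2)) * (3 * z * (1 + z) / s) +
      (6 * z * (1 + 2 * z) / s + 3 * z ^ 2 * (1 + z) / s ^ 3)) := by
    have hz' : z = 1 - s ^ 2 := by linarith
    subst hz'
    field_simp
    ring
  unfold dmT dnT
  linear_combination l ^ 2 * key

variable {m : ℕ} {r τ τ' T : ℝ → ℝ} {x : ℝ}

/-- **region `l ≤ 0`** -/
theorem IsTrans.jt_neg (hm : 15 ≤ m) (hr : IsProf r) (h : IsTrans m r τ τ' T)
    (hx : x ∈ Ioo (0 : ℝ) 1) (hl : lf τ x ≤ 0) :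
    JTest (dmT m (x ^ 2) (sq x) (lf τ x) (uf τ τ' x) (jG τ x) (jN m (lf τ x) (uf τ τ' x)))
      (dpE m (x ^ 2) (sq x) (lf τ x) (uf τ τ' x) (fc m) (jN m (lf τ x) (uf τ τ' x)))
      (dpR m (x ^ 2 / sq x ^ 2)) (uf τ τ' x) := by
  have F := h.ffacts hm hr hx
  have hm' : (15 : ℝ) ≤ m := by exact_mod_cast hm
  have hm0 : (0 : ℝ) < m := by linarith
  rw [dmT_eq F.s0 F.hs]
  obtain ⟨h1, h2, h3⟩ := fneg_region (G := jG τ x) hm' F.z0 F.s0 F.hs hl (F.lneg hl) F.u0 F.us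
    F.uw F.ul F.c0 F.c1 (fa_N_ge hm0 (l := lf τ x)) (by
      rw [h.jG_eq hx]
      have := FNeg.corr_ge hx.1 hx.2 hl
      have e : x ^ 2 * lf τ x / (sq x * (1 + sq x) ^ 2) =
          x ^ 2 / (sq x * (1 + sq x) ^ 2) * lf τ x := by ring
      rw [e] at this
      exact this)
  exact ⟨h1, h2, fun hu => h3 (Or.inl hu)⟩

/-- **region `0 < l`, `m x² ≤ 1`** -/
theorem IsTrans.jt_le_one (hm : 27 ≤ m) (hr : IsProf r) (h : IsTrans m r τ τ' T)
    (hN : (∫ y in (-1 : ℝ)..1, r y ^ (m - 1)) ^ m * aInt m ^ (m - 1) ≤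
      aInt (m - 1) ^ m * (∫ y in (-1 : ℝ)..1, r y ^ m) ^ (m - 1))
    (hx : x ∈ Ioo (0 : ℝ) 1) (hX : (m : ℝ) * x ^ 2 ≤ 1) (hl : 0 < lf τ x) :
    JTest (dpT m (x ^ 2) (sq x) (lf τ x) (uf τ τ' x) (jG τ x) (jN m (lf τ x) (uf τ τ' x)))
      (dpE m (x ^ 2) (sq x) (lf τ x) (uf τ τ' x) (fc m) (jN m (lf τ x) (uf τ τ' x)))
      (dpR m (x ^ 2 / sq x ^ 2)) (uf τ τ' x) := by
  have F := h.ffacts (by omega) hr hx
  have S := h.fsteps hm hr hN hx
  have hm' : (27 : ℝ) ≤ m := by exact_mod_cast hm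
  have hm0 : (0 : ℝ) < m := by linarith
  have hl12 : lf τ x ≤ 1 / 2 := by
    rcases le_total ((m : ℝ) * x ^ 2) (16 / 25) with h1 | h1
    · exact S.st1 h1
    · have := S.st2 h1 (by linarith); linarith
  refine fpos_le_one (by linarith) F.z0 F.s0 F.hs hX hl.le hl12
    (fun h1 => S.st2 h1 (by linarith)) F.c0 F.c1 F.uw (by linarith [h.fin_u_ge' (by omega) hr hx])
    (fa_N_ge hm0) ?_
  rw [h.jG_eq hx]
  refine pg_corr hx hl.le ?_
  rcases le_total ((m : ℝ) * x ^ 2) (16 / 25) with h1 | h1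
  · right
    exact ⟨by nlinarith, S.st1 h1⟩
  · left
    exact ⟨by nlinarith, S.st2 h1 (by linarith)⟩

end Vale.Agent.P237.AllN
end

section

/-!
# P237, block D: the pointwise test for `0 < l`, `1 ≤ m x² ≤ 9`, `u ≤ 0`
-/

open Set

namespace Vale.Agent.P237.AllN

open Alm

variable {m : ℕ} {r τ τ' T : ℝ → ℝ} {x : ℝ}

/-- one bound for `l` on `1 ≤ m x² ≤ 9` -/
theorem FSteps.mid {m : ℕ} {q l : ℝ} (S : FSteps m q l) (h1 : 1 ≤ q) (h9 : q ≤ 9) :
    l ≤ 19 / 40 := by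
  rcases le_total q (25 / 4) with a | a
  · have := S.st2 (by linarith) a; linarith
  rcases le_total q (121 / 16) with b | b
  · have := S.st3 a b; linarith
  · exact S.st4 b h9

theorem FSteps.mid' {m : ℕ} {q l : ℝ} (S : FSteps m q l) (hm : m ≤ 47) (h1 : 1 ≤ q)
    (h9 : q ≤ 9) : l ≤ 11 / 25 := by
  rcases le_total q (25 / 4) with a | a
  · have := S.st2 (by linarith) a; linarith
  rcases le_total q (121 / 16) with b | b
  · have := S.st3' hm a b; linarith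
  · exact S.st4' hm b h9

/-- **region `0 < l`, `1 ≤ m x² ≤ 9`, `u ≤ 0`** -/
theorem IsTrans.jt_mid_neg (hm : 27 ≤ m) (hr : IsProf r) (h : IsTrans m r τ τ' T)
    (hN : (∫ y in (-1 : ℝ)..1, r y ^ (m - 1)) ^ m * aInt m ^ (m - 1) ≤
      aInt (m - 1) ^ m * (∫ y in (-1 : ℝ)..1, r y ^ m) ^ (m - 1))
    (hx : x ∈ Ioo (0 : ℝ) 1) (h1 : 1 ≤ (m : ℝ) * x ^ 2) (h9 : (m : ℝ) * x ^ 2 ≤ 9)
    (hl : 0 < lf τ x) (hu : uf τ τ' x ≤ 0) :
    JTest (dpT m (x ^ 2) (sq x) (lf τ x) (uf τ τ' x) (jG τ x) (jN m (lf τ x) (uf τ τ' x)))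
      (dpE m (x ^ 2) (sq x) (lf τ x) (uf τ τ' x) (fc m) (jN m (lf τ x) (uf τ τ' x)))
      (dpR m (x ^ 2 / sq x ^ 2)) (uf τ τ' x) := by
  have F := h.ffacts (by omega) hr hx
  have S := h.fsteps hm hr hN hx
  have hm' : (27 : ℝ) ≤ m := by exact_mod_cast hm
  have hm0 : (0 : ℝ) < m := by linarith
  have hL : (x ^ 2 ≤ 1 / 3 ∧ lf τ x ≤ 11 / 25) ∨ ((48 : ℝ) ≤ m ∧ lf τ x ≤ 19 / 40) := by
    rcases le_or_gt m 47 with h47 | h47
    · exact Or.inl ⟨by (by_contra nlg; linarith only [nlg, mul_nonneg (sub_nonneg.2 h9) (le_of_lt (sub_pos.2 hm0)), mul_nonneg (sub_nonneg.2 h9) (sub_nonneg.2 hm'), mul_nonneg (sub_nonneg.2 h1) (sub_nonneg.2 hm'), mul_pos (sub_pos.2 (not_le.1 nlg)) (sub_pos.2 hm0)]), S.mid' h47 h1 h9⟩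
    · exact Or.inr ⟨by exact_mod_cast h47, S.mid h1 h9⟩
  refine fpn_region hm' F.z0 F.s0 F.hs h1 h9 hl.le ?_ F.u0 hu F.c0 F.c1 F.c2
    (fa_N_ge hm0) F.sm ?_
  · rcases hL with a | a
    · exact Or.inl a.2
    · exact Or.inr a
  · rw [h.jG_eq hx]
    have e : x ^ 2 / (sq x * (1 + sq x) ^ 2) * lf τ x =
        x ^ 2 * lf τ x / (sq x * (1 + sq x) ^ 2) := by ring
    rw [e]
    refine fcor_G' hx.1 hl.le ?_ (h.fa_exp hx).le
    rcases hL with a | a
    · exact Or.inl a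
    · exact Or.inr ⟨by (by_contra nlg; linarith [mul_nonneg (sub_nonneg.2 h9) (sub_nonneg.2 a.1), mul_nonneg (sub_nonneg.2 h1) (sub_nonneg.2 a.1), mul_nonneg (le_of_lt (sub_pos.2 (not_le.1 nlg))) (sub_nonneg.2 a.1)]), a.2⟩

end Vale.Agent.P237.AllN
end

section

/-!
# P237, block D: the pointwise test for `0 < l`, `1 ≤ m x² ≤ 9`, `0 ≤ u`
-/

open Set

namespace Vale.Agent.P237.AllN

open Alm

variable {m : ℕ} {r τ τ' T : ℝ → ℝ} {x : ℝ}

/-- **region `0 < l`, `1 ≤ m x² ≤ 9`, `0 ≤ u`** -/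
theorem IsTrans.jt_mid_pos (hm : 27 ≤ m) (hr : IsProf r) (h : IsTrans m r τ τ' T)
    (hN : (∫ y in (-1 : ℝ)..1, r y ^ (m - 1)) ^ m * aInt m ^ (m - 1) ≤
      aInt (m - 1) ^ m * (∫ y in (-1 : ℝ)..1, r y ^ m) ^ (m - 1))
    (hx : x ∈ Ioo (0 : ℝ) 1) (h1 : 1 ≤ (m : ℝ) * x ^ 2) (h9 : (m : ℝ) * x ^ 2 ≤ 9)
    (hl : 0 < lf τ x) (hu : 0 ≤ uf τ τ' x) :
    JTest (dpT m (x ^ 2) (sq x) (lf τ x) (uf τ τ' x) (jG τ x) (jN m (lf τ x) (uf τ τ' x)))
      (dpE m (x ^ 2) (sq x) (lf τ x) (uf τ τ' x) (fc m) (jN m (lf τ x) (uf τ τ' x)))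
      (dpR m (x ^ 2 / sq x ^ 2)) (uf τ τ' x) := by
  have F := h.ffacts (by omega) hr hx
  have S := h.fsteps hm hr hN hx
  have hm' : (27 : ℝ) ≤ m := by exact_mod_cast hm
  have hm0 : (0 : ℝ) < m := by linarith
  refine fpu_region hm' F.z0 F.s0 F.hs h1 h9 hl.le ?_ hu (F.uw hu) F.us F.c0 F.c1 F.c2
    (fa_N_ge hm0) ?_ ?_ ?_
  · rcases le_total ((m : ℝ) * x ^ 2) (25 / 4) with a | a
    · exact Or.inl ⟨S.st2 (by linarith) a, by linarith⟩
    rcases le_or_gt m 47 with h47 | h47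
    · rcases le_total ((m : ℝ) * x ^ 2) (121 / 16) with b | b
      · exact Or.inl ⟨S.st3' h47 a b, b⟩
      · rcases le_or_gt m 30 with h30 | h30
        · refine Or.inr (Or.inl ⟨h.ap_last' (by omega) h30 hr hN hx b h9, b, ?_⟩)
          have : (m : ℝ) ≤ 30 := by exact_mod_cast h30
          linarith
        · refine Or.inr (Or.inr (Or.inl ⟨S.st4' h47 b h9, b, ?_, ?_⟩))
          · exact_mod_cast h30
          · exact_mod_cast h47
    · refine Or.inr (Or.inr (Or.inr ⟨?_, a, ?_⟩))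
      · rcases le_total ((m : ℝ) * x ^ 2) (121 / 16) with b | b
        · have := S.st3 a b; linarith
        · exact S.st4 b h9
      · exact_mod_cast h47
  · intro hl1 hz1
    rw [h.jG_eq hx]
    exact fg1_40 hz1 hl.le hl1
  · intro hl1 hz1
    rw [h.jG_eq hx]
    exact fg1_44 hz1 hl.le hl1
  · intro hl1 hz1
    rw [h.jG_eq hx]
    exact fg1_475 hz1 hl.le hl1

end Vale.Agent.P237.AllN
end

section

/-!
# P237, block D: `OneDF m 1` for `m ≥ 27` from the far region `0 < l`, `9 ≤ m x²`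
-/

open Set

namespace Vale.Agent.P237.AllN

open Alm

/-- the pointwise test in the far region `0 < l`, `9 ≤ m x²` -/
def FarTest (m : ℕ) : Prop := ∀ r τ τ' T : ℝ → ℝ, IsProf r → IsTrans m r τ τ' T →
  (∫ y in (-1 : ℝ)..1, r y ^ (m - 1)) ^ m * aInt m ^ (m - 1) ≤
    aInt (m - 1) ^ m * (∫ y in (-1 : ℝ)..1, r y ^ m) ^ (m - 1) →
  ∀ x ∈ Ioo (0 : ℝ) 1, 9 ≤ (m : ℝ) * x ^ 2 → 0 < lf τ x →
    JTest (dpT m (x ^ 2) (sq x) (lf τ x) (uf τ τ' x) (jG τ x) (jN m (lf τ x) (uf τ τ' x)))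
      (dpE m (x ^ 2) (sq x) (lf τ x) (uf τ τ' x) (fc m) (jN m (lf τ x) (uf τ τ' x)))
      (dpR m (x ^ 2 / sq x ^ 2)) (uf τ τ' x)

/-- block D from the far region -/
theorem oneDF_of_far {m : ℕ} (hm : 27 ≤ m) (hfar : FarTest m) : OneDF m 1 := by
  refine oneDF_of_test' (by omega) fun r τ τ' T hr h hN x hx => ⟨fun hl => ?_, fun hl =>
    h.jt_neg (by omega) hr hx hl⟩
  rcases le_total ((m : ℝ) * x ^ 2) 1 with h1 | h1
  · exact h.jt_le_one hm hr hN hx h1 hl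
  rcases le_total ((m : ℝ) * x ^ 2) 9 with h9 | h9
  · rcases le_total (uf τ τ' x) 0 with hu | hu
    · exact h.jt_mid_neg hm hr hN hx h1 h9 hl hu
    · exact h.jt_mid_pos hm hr hN hx h1 h9 hl hu
  · exact hfar r τ τ' T hr h hN x hx h9 hl

end Vale.Agent.P237.AllN
end

section

/-!
# P237, block D: the pointwise test for `0 < l`, `49/100 ≤ x²`
-/

open Set

namespace Vale.Agent.P237.AllN

open Alm

variable {m : ℕ} {r τ τ' T : ℝ → ℝ} {x : ℝ}

/-- **region `0 < l`, `49/100 ≤ x²`** -/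
theorem IsTrans.jt_far_big (hm : 27 ≤ m) (hr : IsProf r) (h : IsTrans m r τ τ' T)
    (hx : x ∈ Ioo (0 : ℝ) 1) (hz : 49 / 100 ≤ x ^ 2) (hl : 0 < lf τ x) :
    JTest (dpT m (x ^ 2) (sq x) (lf τ x) (uf τ τ' x) (jG τ x) (jN m (lf τ x) (uf τ τ' x)))
      (dpE m (x ^ 2) (sq x) (lf τ x) (uf τ τ' x) (fc m) (jN m (lf τ x) (uf τ τ' x)))
      (dpR m (x ^ 2 / sq x ^ 2)) (uf τ τ' x) := by
  have F := h.ffacts (by omega) hr hx
  have hm' : (27 : ℝ) ≤ m := by exact_mod_cast hm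
  have hm0 : (0 : ℝ) < m := by linarith
  refine fxr_region (x := x) hm' hz F.s0 F.hs hl F.le.le F.u0 F.us F.sm hx.1 rfl
    (h.fx_tail0 (by omega) hr hx) F.c0 F.c1 (fa_N_ge hm0) ?_
  rw [h.jG_eq hx]
  have e : x ^ 2 / (sq x * (1 + sq x) ^ 2) * lf τ x =
      x ^ 2 * lf τ x / (sq x * (1 + sq x) ^ 2) := by ring
  rw [e]
  exact fxr_G5 hz hx.1 hx.2 (h.fa_exp hx).le

end Vale.Agent.P237.AllN
end

section

/-!
# P237, block D: (X) with `chi = 4/25` on `67/200 ≤ z ≤ 49/100`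
-/

namespace Vale.Agent.P237.AllN

namespace PolyPos

/-- tree 5 of (X) -/
def fxT5 : PT3 :=
  .sy (.sy (.out 0) (.sy (.sy (.out 0) (.sy (.sy (.out 0) (.leaf 2)) (.leaf 2))) (.leaf 2)))
    (.leaf 2)

theorem fx_chk5 : tchk3 (2 ^ 1024) 12 4000 (fxF ⟨4, 24⟩ ⟨177, 49⟩)
    fxLo fxT5 67 98 200 0 1 1 0 1 1 = true := by
  decide +kernel

end PolyPos

open PolyPos

/-- **(X)** on the last zone -/
theorem fv_X5 {m z s l : ℝ} (hm : 27 ≤ m) (hw : 9 ≤ m * z) (hs : 0 < s)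
    (hsz : s ^ 2 = 1 - z) (hz : z ≤ 49 / 100) (hl : 0 < l)
    (hzE : z ≤ Real.exp (-(2 * l)))
    (hcap2 : 34 / 125 ≤ z → 354 / 100 ≤ m * z * Real.exp (-(2 * l)))
    (h1 : 67 / 200 ≤ z) :
    (m + 3) * z * (Real.exp (-(2 * l)) - 1 + 2 * l) ≤ 4 / 25 * dpR m (z / s ^ 2) := by
  have hE0 : 0 < Real.exp (-(2 * l)) := Real.exp_pos _
  have hE1 : Real.exp (-(2 * l)) ≤ 1 := by
    rw [Real.exp_le_one_iff]; linarith
  have hz0 : 0 < z := by linarith
  have hm27 : 27 * z ≤ m * z := by (by_contra nlg; linarith only [nlg, mul_nonneg (sub_nonneg.2 hm) (le_of_lt (sub_pos.2 hz0)), mul_nonneg (le_of_lt (sub_pos.2 (not_le.1 nlg))) (sub_nonneg.2 hE1), mul_pos (sub_pos.2 (not_le.1 nlg)) (sub_pos.2 hE0)])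
  have r4 : Fr.R ⟨177, 49⟩ = 354 / 100 := by simp only [Fr.R]; norm_num
  refine fv_Xfin hs hsz hl (by positivity) ?_
  have r : Fr.R ⟨4, 24⟩ = 4 / 25 := by simp only [Fr.R]; norm_num
  have := fx_core (chi := ⟨4, 24⟩) (c := ⟨177, 49⟩) (t := fxT5) (A := 67) (B := 98)
    (D := 200)
    (by norm_num) (by norm_num) fx_chk5 hm27 hw (by rw [r4]; exact hcap2 (by linarith)) hE0
    hE1 (by rw [r]; norm_num) hzE (by push_cast; linarith) (by push_cast; linarith)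
  rw [r] at this
  exact this

end Vale.Agent.P237.AllN
end

section

/-!
# P237, block D: the pointwise test for `0 < l`, `9 ≤ m x²`, `x² ≤ 49/100`, `u ≤ 0`,
from inequality (S)
-/

open Set

namespace Vale.Agent.P237.AllN

/-- the zones of (S) -/
def FxnZone (z sig : ℝ) : Prop :=
  (z ≤ 17 / 100 ∧ sig = 1 / 2) ∨ (17 / 100 ≤ z ∧ z ≤ 6 / 25 ∧ sig = 3 / 8) ∨
    (6 / 25 ≤ z ∧ z ≤ 34 / 125 ∧ sig = 7 / 25) ∨
    (34 / 125 ≤ z ∧ z ≤ 31 / 100 ∧ sig = 8 / 25) ∨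
    (31 / 100 ≤ z ∧ z ≤ 67 / 200 ∧ sig = 1 / 4) ∨ (67 / 200 ≤ z ∧ sig = 49 / 200)

/-- the test from (S), real variables -/
theorem fxn_of_S {m z s l u c G N : ℝ} (hm : 27 ≤ m) (hz : 0 < z) (hz1 : z ≤ 49 / 100)
    (hs : 0 < s) (hs2 : s ^ 2 = 1 - z) (hw : 9 ≤ m * z) (hl : 0 < l)
    (hT : z * Real.exp (2 * l) ≤ 1) (hu : 0 < 1 + u) (hu0 : u ≤ 0)
    (hc1 : 1 - 1 / (2 * m) ≤ c) (hc2 : c ≤ 1) (hc3 : c ^ 2 ≤ (m + 1) / (m + 2))
    (hN : Real.log (1 + u) - u ≤ N) (hv : m * Real.log s ≤ Real.log (1 + u))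
    (hcap : 33 / 10 ≤ m * z * Real.exp (-(2 * l)))
    (hcap2 : 34 / 125 ≤ z → 354 / 100 ≤ m * z * Real.exp (-(2 * l)))
    (hS : ∀ sig, FxnZone z sig → sig * ((m + 3) * z * (Real.exp (-(2 * l)) - 1 + 2 * l)) ≤
      dpT m z s l 0 G 0 + 6 / 25 * (m + 3) * z * l * (-u)) :
    JTest (dpT m z s l u G N) (dpE m z s l u c N) (dpR m (z / s ^ 2)) u := by
  have hzE : z ≤ Real.exp (-(2 * l)) := by
    have hE : 0 < Real.exp (2 * l) := Real.exp_pos _
    rw [Real.exp_neg, ← one_div, le_div_iff₀ hE]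
    exact hT
  rcases le_total z (17 / 100) with h1 | h1
  · exact FXnA.fxnA hm hz hz1 hs hs2 hw hl hT hu hu0 hc1 hc2 hc3 hN hv (hS (1 / 2) (Or.inl ⟨h1, rfl⟩))
      (fv_V hm hw hs hs2 hz1 hl hu hu0 hzE hcap hcap2 (xi := 1 / 40)
        (Or.inl ⟨by linarith, rfl⟩))
      (fv_X hm hw hs hs2 hz1 hl hzE hcap hcap2 (chi := 2 / 5) (Or.inl ⟨h1, rfl⟩))
      (by norm_num) (by norm_num) (by norm_num) (by norm_num) (by norm_num)
  rcases le_total z (6 / 25) with h2 | h2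
  · exact FXnA.fxnA hm hz hz1 hs hs2 hw hl hT hu hu0 hc1 hc2 hc3 hN hv
      (hS (3 / 8) (Or.inr (Or.inl ⟨h1, h2, rfl⟩)))
      (fv_V hm hw hs hs2 hz1 hl hu hu0 hzE hcap hcap2 (xi := 1 / 40)
        (Or.inl ⟨by linarith only [h2, hz], rfl⟩))
      (fv_X hm hw hs hs2 hz1 hl hzE hcap hcap2 (chi := 3 / 10)
        (Or.inr (Or.inl ⟨h1, h2, rfl⟩)))
      (by norm_num) (by norm_num) (by norm_num) (by norm_num) (by norm_num)
  rcases le_total z (34 / 125) with h3 | h3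
  · exact FXnA.fxnA hm hz hz1 hs hs2 hw hl hT hu hu0 hc1 hc2 hc3 hN hv
      (hS (7 / 25) (Or.inr (Or.inr (Or.inl ⟨h2, h3, rfl⟩))))
      (fv_V hm hw hs hs2 hz1 hl hu hu0 hzE hcap hcap2 (xi := 1 / 40)
        (Or.inl ⟨by linarith, rfl⟩))
      (fv_X hm hw hs hs2 hz1 hl hzE hcap hcap2 (chi := 6 / 25)
        (Or.inr (Or.inr (Or.inl ⟨h2, h3, rfl⟩))))
      (by norm_num) (by norm_num) (by norm_num) (by norm_num) (by norm_num)
  rcases le_total z (31 / 100) with h4 | h4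
  · exact FXnA.fxnA hm hz hz1 hs hs2 hw hl hT hu hu0 hc1 hc2 hc3 hN hv
      (hS (8 / 25) (Or.inr (Or.inr (Or.inr (Or.inl ⟨h3, h4, rfl⟩)))))
      (fv_V hm hw hs hs2 hz1 hl hu hu0 hzE hcap hcap2 (xi := 1 / 40)
        (Or.inl ⟨h4, rfl⟩))
      (fv_X hm hw hs hs2 hz1 hl hzE hcap hcap2 (chi := 21 / 100)
        (Or.inr (Or.inr (Or.inr (Or.inl ⟨h3, h4, rfl⟩)))))
      (by norm_num) (by norm_num) (by norm_num) (by norm_num) (by norm_num)
  rcases le_total z (67 / 200) with h5 | h5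
  · exact FXnA.fxnA hm hz hz1 hs hs2 hw hl hT hu hu0 hc1 hc2 hc3 hN hv
      (hS (1 / 4) (Or.inr (Or.inr (Or.inr (Or.inr (Or.inl ⟨h4, h5, rfl⟩))))))
      (fv_V hm hw hs hs2 hz1 hl hu hu0 hzE hcap hcap2 (xi := 11 / 200)
        (Or.inr ⟨h4, rfl⟩))
      (fv_X hm hw hs hs2 hz1 hl hzE hcap hcap2 (chi := 9 / 50)
        (Or.inr (Or.inr (Or.inr (Or.inr ⟨h4, rfl⟩)))))
      (by norm_num) (by norm_num) (by norm_num) (by norm_num) (by norm_num)
  · exact FXnA.fxnA hm hz hz1 hs hs2 hw hl hT hu hu0 hc1 hc2 hc3 hN hv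
      (hS (49 / 200) (Or.inr (Or.inr (Or.inr (Or.inr (Or.inr ⟨h5, rfl⟩))))))
      (fv_V hm hw hs hs2 hz1 hl hu hu0 hzE hcap hcap2 (xi := 11 / 200)
        (Or.inr ⟨h4, rfl⟩))
      (fv_X5 hm hw hs hs2 hz1 hl hzE hcap2 h5)
      (by norm_num) (by norm_num) (by norm_num) (by norm_num) (by norm_num)

open Alm

variable {m : ℕ} {r τ τ' T : ℝ → ℝ} {x : ℝ}

/-- **region `0 < l`, `9 ≤ m x²`, `x² ≤ 49/100`, `u ≤ 0`** from (S) -/
theorem IsTrans.jt_far_neg_of (hm : 27 ≤ m) (hr : IsProf r) (h : IsTrans m r τ τ' T)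
    (hN : (∫ y in (-1 : ℝ)..1, r y ^ (m - 1)) ^ m * aInt m ^ (m - 1) ≤
      aInt (m - 1) ^ m * (∫ y in (-1 : ℝ)..1, r y ^ m) ^ (m - 1))
    (hx : x ∈ Ioo (0 : ℝ) 1) (h9 : 9 ≤ (m : ℝ) * x ^ 2) (hz : x ^ 2 ≤ 49 / 100)
    (hl : 0 < lf τ x) (hu : uf τ τ' x ≤ 0)
    (hS : ∀ sig, FxnZone (x ^ 2) sig →
      sig * (((m : ℝ) + 3) * x ^ 2 * (Real.exp (-(2 * lf τ x)) - 1 + 2 * lf τ x)) ≤
        dpT m (x ^ 2) (sq x) (lf τ x) 0 (jG τ x) 0 +
          6 / 25 * ((m : ℝ) + 3) * x ^ 2 * lf τ x * (-uf τ τ' x)) :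
    JTest (dpT m (x ^ 2) (sq x) (lf τ x) (uf τ τ' x) (jG τ x) (jN m (lf τ x) (uf τ τ' x)))
      (dpE m (x ^ 2) (sq x) (lf τ x) (uf τ τ' x) (fc m) (jN m (lf τ x) (uf τ τ' x)))
      (dpR m (x ^ 2 / sq x ^ 2)) (uf τ τ' x) := by
  have F := h.ffacts (by omega) hr hx
  have hm' : (27 : ℝ) ≤ m := by exact_mod_cast hm
  have hm0 : (0 : ℝ) < m := by linarith
  obtain ⟨hc1, -, hc3⟩ := h.fx_cap hm hr hN hx h9
  exact fxn_of_S hm' F.z0 hz F.s0 F.hs h9 hl F.le.le F.u0 hu F.c0 F.c1 F.c2 (fa_N_ge hm0) F.sm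
    hc1 hc3 hS

end Vale.Agent.P237.AllN
end

section

/-!
# P237, block D: the correction term in the forms used by the far region
-/

open Set

namespace Vale.Agent.P237.AllN

open Alm

variable {m : ℕ} {r τ τ' T : ℝ → ℝ} {x : ℝ}

/-- `G` through `S = √(1-τ²)` -/
theorem IsTrans.jG_S (h : IsTrans m r τ τ' T) (hx : x ∈ Ioo (0 : ℝ) 1) :
    2 * (sq (x * Real.exp (lf τ x)) / (1 + sq (x * Real.exp (lf τ x))) - sq x / (1 + sq x)) +
      x ^ 2 / (sq x * (1 + sq x) ^ 2) * (2 * lf τ x) = jG τ x := by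
  rw [h.jG_eq hx, bg, bg]
  ring

theorem IsTrans.sqS (h : IsTrans m r τ τ' T) (hx : x ∈ Ioo (0 : ℝ) 1) :
    sq (x * Real.exp (lf τ x)) ^ 2 = 1 - x ^ 2 * Real.exp (2 * lf τ x) := by
  have h1 := h.fa_exp hx
  have h0 : 0 < x * Real.exp (lf τ x) := mul_pos hx.1 (Real.exp_pos _)
  rw [br_sq_sq ⟨by linarith, h1.le⟩, mul_pow]
  congr 2
  rw [← Real.exp_nat_mul]
  norm_num

/-- first form: `-2 (τ²-x²)/(s(1+s)) + ..` -/
theorem IsTrans.jG_ge1 (h : IsTrans m r τ τ' T) (hx : x ∈ Ioo (0 : ℝ) 1) (hl : 0 ≤ lf τ x) :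
    -2 * (x ^ 2 * Real.exp (2 * lf τ x) - x ^ 2) / (sq x * (1 + sq x)) +
      2 * x ^ 2 * lf τ x / (sq x * (1 + sq x) ^ 2) ≤ jG τ x := by
  rw [← h.jG_S hx]
  have hS2 := h.sqS hx
  have hs : 0 < sq x := sl_sq_pos (mem_neg hx)
  have hs2 : sq x ^ 2 = 1 - x ^ 2 := pin_sq_sq (Ioo_subset_Icc_self hx)
  have hS0 : 0 ≤ sq (x * Real.exp (lf τ x)) := br_sq_nonneg _
  set S := sq (x * Real.exp (lf τ x)) with hSd
  set s := sq x with hsd
  have hd : x ^ 2 * Real.exp (2 * lf τ x) - x ^ 2 = s ^ 2 - S ^ 2 := by linarith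
  have hSs : S ≤ s := by
    have he : 1 ≤ Real.exp (2 * lf τ x) := Real.one_le_exp (by linarith)
    have : x ^ 2 * 1 ≤ x ^ 2 * Real.exp (2 * lf τ x) :=
      mul_le_mul_of_nonneg_left he (sq_nonneg x)
    nlinarith
  have e1 : S / (1 + S) - s / (1 + s) = -((s - S) / ((1 + S) * (1 + s))) := by
    field_simp
    ring
  have e2 : -2 * (x ^ 2 * Real.exp (2 * lf τ x) - x ^ 2) / (s * (1 + s)) =
      -(2 * ((s ^ 2 - S ^ 2) / (s * (1 + s)))) := by
    rw [hd]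
    ring
  have e3 : (s - S) / ((1 + S) * (1 + s)) ≤ (s ^ 2 - S ^ 2) / (s * (1 + s)) := by
    rw [div_le_div_iff₀ (by positivity) (by positivity)]
    have h1 : 0 ≤ s - S := by linarith
    have h2 : 0 ≤ (s - S) * (1 + s) * (S * (1 + s + S)) := by positivity
    linarith only [h2]
  have e4 : 2 * x ^ 2 * lf τ x / (s * (1 + s) ^ 2) =
      x ^ 2 / (s * (1 + s) ^ 2) * (2 * lf τ x) := by ring
  rw [e1, e2, e4]
  linarith

/-- second form -/
theorem IsTrans.jG_ge2 (h : IsTrans m r τ τ' T) (hx : x ∈ Ioo (0 : ℝ) 1) :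
    2 * (-(sq x * (x ^ 2 * (Real.exp (2 * lf τ x) - 1)) / ((1 + sq x) * (2 * sq x ^ 2 *
      (1 + sq x) - x ^ 2 * (Real.exp (2 * lf τ x) - 1) * (1 + 2 * sq x))))) +
      2 * x ^ 2 / (sq x * (1 + sq x) ^ 2) * lf τ x ≤ jG τ x := by
  rw [h.jG_eq hx]
  have := fxa_bg hx (h.fa_exp hx).le
  have e : 2 * x ^ 2 / (sq x * (1 + sq x) ^ 2) * lf τ x =
      2 * (x ^ 2 / (sq x * (1 + sq x) ^ 2) * lf τ x) := by ring
  rw [e]
  linarith

end Vale.Agent.P237.AllN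
end

section

/-!
# P237, block D, `X ≥ 3`, `u ≤ 0`: lower bound of `T(l, 0)` from a certificate
-/

set_option linter.all false

namespace Vale.Agent.P237.AllN

open PolyPos

/-- `T(l, 0)` as a quadratic in `λ = 2 l` -/
theorem xs_T0 {m z s l G : ℝ} (hs : 0 < s) (hs2 : s ^ 2 = 1 - z) :
    dpT m z s l 0 G 0 = (m * z + 3 * z) * (Real.exp (-(2 * l)) - 1 + 2 * l) +
      3 / 4 * z * (m * z - 3) / s ^ 5 * (2 * l) ^ 2 + G + dpS m z s l 0 +
      3 / 100 * (m * z + 3 * z) * (m * z / s ^ 2 - 3) * (2 * l) ^ 2 := by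
  have e : 3 * (m - 3) * (z ^ 2 / s ^ 5) - 9 * (z / s ^ 3) = 3 * z * (m * z - 3) / s ^ 5 := by
    have h : m * z - 3 = (m - 3) * z - 3 * s ^ 2 := by rw [hs2]; ring
    rw [h]
    field_simp
    ring
  unfold dpT
  rw [e]
  have h0 : (0 : ℝ) ^ 2 / (1 + 0) = 0 := by norm_num
  rw [h0]
  ring

/-- the abstract estimate: `A0 + A1 λ + A2 λ² + C λ q ≥ 0` -/
theorem xs_quad {A0 A1 A2 C L lam q : ℝ} (hL0 : 0 ≤ L) (hL : L ≤ lam) (h1 : 0 ≤ A1)
    (h2 : 0 ≤ A2) (hC : 0 ≤ C) (hq : 0 ≤ q) (h : 0 ≤ A0 + A1 * L + A2 * L ^ 2 + C * L * q) :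
    0 ≤ A0 + A1 * lam + A2 * lam ^ 2 + C * lam * q := by
  have a1 := mul_le_mul_of_nonneg_left hL h1
  have a2 := mul_le_mul_of_nonneg_left (pow_le_pow_left₀ hL0 hL 2) h2
  have a3 := mul_le_mul_of_nonneg_right (mul_le_mul_of_nonneg_left hL hC) hq
  linarith only [h, a1, a2, a3]

/-- the value at `L = DN/Q` from the certificate -/
theorem xs_val {A0 A1 A2 C q Q DN D1 θ P R δ : ℝ} (hQ : 0 < Q) (hDN : 0 ≤ DN) (hD1 : 0 < D1)
    (hC : 0 ≤ C) (hq : 0 ≤ q) (hθ : 0 < θ)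
    (hP : P = Q * Q * (D1 * A0) + DN * Q * (D1 * A1) + DN * DN * (D1 * A2))
    (hR : R = 2 * θ * P + C * (DN * Q) * δ) (hδ : δ ≤ 2 * θ * (D1 * q))
    (h : 0 ≤ P ∨ 0 ≤ R) :
    0 ≤ A0 + A1 * (DN / Q) + A2 * (DN / Q) ^ 2 + C * (DN / Q) * q := by
  have e : A0 + A1 * (DN / Q) + A2 * (DN / Q) ^ 2 + C * (DN / Q) * q =
      (2 * θ * P + C * (DN * Q) * (2 * θ * (D1 * q))) / (2 * θ * (Q * Q * D1)) := by
    rw [hP]
    (clear * - hQ hθ hD1; field_simp)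
  rw [e]
  apply div_nonneg _ (by positivity)
  rcases h with h | h
  · (clear * - hθ h hC hDN hQ hD1 hq; positivity)
  · have := mul_le_mul_of_nonneg_left hδ (mul_nonneg hC (mul_nonneg hDN hQ.le))
    linarith only [hR, h, this]

theorem xs_s5 {z s ω : ℝ} (hz : 0 < z) (hz1 : z ≤ 49 / 100) (hs : 0 < s)
    (hs2 : s ^ 2 = 1 - z) (hw : 9 ≤ ω) :
    3 / 4 * z * (ω - 3) * (4 - z) / ((1 - z) ^ 2 * (4 - 3 * z)) ≤
      3 / 4 * z * (ω - 3) / s ^ 5 := by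
  have hsl2 : s * (4 - z) ≤ 4 - 3 * z := by
    apply le_of_sq_le_sq _ (by linarith only [hz1])
    rw [mul_pow, hs2]
    have := pow_pos hz 3
    linear_combination this
  have h1z : 0 < 1 - z := by linarith only [hz1]
  have h43 : 0 < 4 - 3 * z := by linarith only [hz1]
  have e : s ^ 5 = (1 - z) ^ 2 * s := by rw [← hs2]; ring
  rw [e, div_le_div_iff₀ (by (clear * - h1z h43; positivity)) (by positivity)]
  have h := mul_le_mul_of_nonneg_left hsl2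
    (mul_nonneg (mul_nonneg (mul_nonneg (by norm_num : (0 : ℝ) ≤ 3 / 4) hz.le)
      (by linarith only [hw] : 0 ≤ ω - 3)) (by positivity : 0 ≤ (1 - z) ^ 2))
  linarith

/-- values of the auxiliary expressions -/
structure XsV (z θ E : ℝ) : Prop where
  v1 : xsS2.R θ E = 1 - z
  v2 : xsP43.R θ E = 4 - 3 * z
  v3 : xsP41.R θ E = 4 - z
  v4 : xsB3.R θ E = 4 - 2 * z - 3 * θ + z * θ
  v5 : xsRB.R θ E = (16 - 12 * z + z ^ 2) * (4 - 2 * z - 3 * θ + z * θ)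
  v6 : xsDn1s.R θ E = (4 - 3 * z) * (1 - z) *
      ((16 - 12 * z + z ^ 2) * (4 - 2 * z - 3 * θ + z * θ))
  v7 : xsDn1.R θ E = (4 - 3 * z) * (1 - z) *
      ((16 - 12 * z + z ^ 2) * (4 - 2 * z - 3 * θ + z * θ)) * (1 - z)
  v8 : xsQd.R θ E = 3 * (1 + E) * (1 + 8 * E + E ^ 2)
  v9 : xsDN.R θ E = (1 - E) * (11 + 38 * E + 11 * E ^ 2)

theorem xs_v {z θ E : ℝ} (hzE : z = θ * E) : XsV z θ E := by
  have vz : xsZ.R θ E = z := by rw [hzE]; rfl
  have v1 : xsS2.R θ E = 1 - z := by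
    simp only [xsS2, Ex.R_sub, Ex.R_c, vz, Fr.R]; push_cast; ring
  have v2 : xsP43.R θ E = 4 - 3 * z := by
    simp only [xsP43, Ex.R_sub, Ex.R_mul, Ex.R_c, vz, Fr.R]; push_cast; ring
  have v3 : xsP41.R θ E = 4 - z := by
    simp only [xsP41, Ex.R_sub, Ex.R_mul, Ex.R_c, vz, Fr.R]; push_cast; ring
  have v4 : xsB3.R θ E = 4 - 2 * z - 3 * θ + z * θ := by
    simp only [xsB3, Ex.R_sub, Ex.R_add, Ex.R_mul, Ex.R_c, Ex.R_X, vz, Fr.R]; push_cast; ring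
  have v5 : xsRB.R θ E = (16 - 12 * z + z ^ 2) * (4 - 2 * z - 3 * θ + z * θ) := by
    simp only [xsRB, xsR16, xsZ2, Ex.R_sub, Ex.R_add, Ex.R_mul, Ex.R_c, vz, v4, Fr.R]
    push_cast
    ring
  have v6 : xsDn1s.R θ E = (4 - 3 * z) * (1 - z) *
      ((16 - 12 * z + z ^ 2) * (4 - 2 * z - 3 * θ + z * θ)) := by
    simp only [xsDn1s, Ex.R_mul, v1, v2, v5]
  have v7 : xsDn1.R θ E = (4 - 3 * z) * (1 - z) *
      ((16 - 12 * z + z ^ 2) * (4 - 2 * z - 3 * θ + z * θ)) * (1 - z) := by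
    simp only [xsDn1, Ex.R_mul, v1, v6]
  have v8 : xsQd.R θ E = 3 * (1 + E) * (1 + 8 * E + E ^ 2) := by
    simp only [xsQd, xsE2, Ex.R_sub, Ex.R_add, Ex.R_mul, Ex.R_c, Ex.R_Y, Fr.R]
    push_cast
    ring
  have v9 : xsDN.R θ E = (1 - E) * (11 + 38 * E + 11 * E ^ 2) := by
    simp only [xsDN, xsD, xsNn, xsE2, Ex.R_sub, Ex.R_add, Ex.R_mul, Ex.R_c, Ex.R_Y, Fr.R]
    push_cast
    ring
  exact ⟨v1, v2, v3, v4, v5, v6, v7, v8, v9⟩

theorem xs_g0 {a b c d s t E : ℝ} (ha : a ≠ 0) (hb : b ≠ 0) :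
    c * s * (a * b) * s * (E * (c * d * t / (a * b))) = c ^ 2 * d * t * s ^ 2 * E := by
  field_simp

theorem xs_g1 {a b c s z E : ℝ} (ha : a ≠ 0) (hs : s ≠ 0) :
    c * s * (a * b) * s * (E * (z * c / (s * a))) = z * c ^ 2 * s * b * E := by
  (clear * - ha hs; field_simp)

theorem xs_g2 {a b c d s z E w : ℝ} (hc : c ≠ 0) (hs : s ≠ 0) :
    c * s * (a * b) * s * (E * (3 / 4 * z * w * d / (s ^ 2 * c))) =
      3 / 4 * z * d * (a * b) * (E * w) := by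
  (clear * - hc hs; field_simp)

theorem xs_g3 {a b c s ω E v : ℝ} (hs : s ≠ 0) :
    c * s * (a * b) * s * (E * (3 / 100 * v * (ω / s - 3))) =
      3 / 100 * c * s * (a * b) * (E * v * (ω - 3 * s)) := by
  (clear * - hs; field_simp)

/-- from a certificate to the value at `L = DN/Q` -/
theorem xs_cert {z θ E ω q K0 K1 K2 : ℝ} {o : Fr} (hz0 : 0 < z) (hz1 : z ≤ 49 / 100)
    (hw : 9 ≤ ω) (hE0 : 0 < E) (hE1 : E < 1) (hzE : z = θ * E) (hθ0 : 0 < θ) (hθ1 : θ ≤ 1)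
    (hq : 0 ≤ q) (htail : 2 * θ * (1 - z) * (1 - q) ≤ (ω + z + 1) * (1 - θ))
    (hK0 : K0 = xsF0wk.R θ E * ω + xsF0ck.R θ E) (hK1 : K1 = xsF1wk.R θ E * ω + xsF1ck.R θ E)
    (hK2 : K2 = xsF2wk.R θ E * ω + xsF2ck.R θ E)
    (h : 0 ≤ (xsP0 o).R θ E + (xsP1 o).R θ E * ω + E * xsP2.R θ E * ω ^ 2 ∨
      0 ≤ (xsR0 o).R θ E + (xsR1 o).R θ E * ω + E * xsR2.R θ E * ω ^ 2) :
    0 ≤ (K0 - o.R * (1 - E) * E * (ω + 3 * z) -
      E * ((4 - 3 * z) * (4 - z) * (θ * (1 - E)) /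
        ((16 - 12 * z + z ^ 2) * (4 - 2 * z - 3 * θ + z * θ)))) +
    (K1 + o.R * E * (ω + 3 * z) +
      E * (z * (4 - 3 * z) / ((1 - z) * (16 - 12 * z + z ^ 2)))) *
        ((1 - E) * (11 + 38 * E + 11 * E ^ 2) / (3 * (1 + E) * (1 + 8 * E + E ^ 2))) +
    (E * (3 / 4 * z * (ω - 3) * (4 - z) / ((1 - z) ^ 2 * (4 - 3 * z))) +
      E * (3 / 100 * (ω + 3 * z) * (ω / (1 - z) - 3)) - K2) *
        ((1 - E) * (11 + 38 * E + 11 * E ^ 2) / (3 * (1 + E) * (1 + 8 * E + E ^ 2))) ^ 2 +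
    (3 / 25 * E * (ω + 3 * z)) *
      ((1 - E) * (11 + 38 * E + 11 * E ^ 2) / (3 * (1 + E) * (1 + 8 * E + E ^ 2))) * q := by
  have V := xs_v hzE
  have h1z : 0 < 1 - z := by linarith only [hz1]
  have h43 : 0 < 4 - 3 * z := by linarith only [hz1]
  have hR16 : 0 < 16 - 12 * z + z ^ 2 := by nlinarith only [hz1]
  have hB3 : 0 < 4 - 2 * z - 3 * θ + z * θ := by
    have hh : 0 ≤ (1 - θ) * (3 - z) := mul_nonneg (by linarith only [hθ1]) (by linarith only [hz1])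
    linarith only [hz1, hh]
  have hidP := xs_idP θ E ω o
  have hidR := xs_idR θ E ω o
  rw [← hzE] at hidP hidR
  rw [← hK0, ← hK1, ← hK2] at hidP
  obtain ⟨P, hP⟩ : ∃ P, P = (xsP0 o).R θ E + (xsP1 o).R θ E * ω + E * xsP2.R θ E * ω ^ 2 :=
    ⟨_, rfl⟩
  obtain ⟨R, hR⟩ : ∃ R, R = (xsR0 o).R θ E + (xsR1 o).R θ E * ω + E * xsR2.R θ E * ω ^ 2 :=
    ⟨_, rfl⟩
  rw [← hP, ← hR] at h
  rw [← hP] at hidP hidR
  rw [← hR] at hidR
  have v10 : xsDNQ.R θ E = xsDN.R θ E * xsQd.R θ E := rfl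
  have v11 : xsQ2.R θ E = xsQd.R θ E * xsQd.R θ E := rfl
  have v12 : xsDN2.R θ E = xsDN.R θ E * xsDN.R θ E := rfl
  have v13 : xsDn1.R θ E = xsDn1s.R θ E * (1 - z) := by rw [V.v6, V.v7]
  have hDs : 0 < xsDn1s.R θ E := by rw [V.v6]; (clear * - h43 h1z hR16 hB3; positivity)
  rw [V.v1, V.v2, V.v3, V.v4, V.v5, v10, v11, v12] at hidP
  rw [v10] at hidR
  rw [← V.v8, ← V.v9]
  have hQ : 0 < xsQd.R θ E := by rw [V.v8]; positivity
  have hDN : 0 ≤ xsDN.R θ E := by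
    rw [V.v9]; exact mul_nonneg (by linarith only [hE1]) (by positivity)
  have hD1 : 0 < xsDn1.R θ E := by rw [v13]; (clear * - hDs h1z; positivity)
  have g0 : xsDn1.R θ E * (E * ((4 - 3 * z) * (4 - z) * (θ * (1 - E)) /
        ((16 - 12 * z + z ^ 2) * (4 - 2 * z - 3 * θ + z * θ)))) =
      (4 - 3 * z) ^ 2 * (4 - z) * (θ * (1 - E)) * (1 - z) ^ 2 * E := by
    rw [V.v7]
    exact xs_g0 hR16.ne' hB3.ne'
  have g1 : xsDn1.R θ E * (E * (z * (4 - 3 * z) / ((1 - z) * (16 - 12 * z + z ^ 2)))) =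
      z * (4 - 3 * z) ^ 2 * (1 - z) * (4 - 2 * z - 3 * θ + z * θ) * E := by
    rw [V.v7]
    exact xs_g1 hR16.ne' h1z.ne'
  have g2 : xsDn1.R θ E * (E * (3 / 4 * z * (ω - 3) * (4 - z) / ((1 - z) ^ 2 * (4 - 3 * z)))) =
      3 / 4 * z * (4 - z) * ((16 - 12 * z + z ^ 2) * (4 - 2 * z - 3 * θ + z * θ)) *
        (E * (ω - 3)) := by
    rw [V.v7]
    exact xs_g2 h43.ne' h1z.ne'
  have g3 : xsDn1.R θ E * (E * (3 / 100 * (ω + 3 * z) * (ω / (1 - z) - 3))) =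
      3 / 100 * (4 - 3 * z) * (1 - z) *
        ((16 - 12 * z + z ^ 2) * (4 - 2 * z - 3 * θ + z * θ)) * (E * (ω + 3 * z) *
          (ω - 3 * (1 - z))) := by
    rw [V.v7]
    exact xs_g3 h1z.ne'
  refine xs_val (P := P) (R := R) (Q := xsQd.R θ E) (DN := xsDN.R θ E) (D1 := xsDn1.R θ E)
    (θ := θ) (δ := 2 * θ * xsDn1.R θ E - (ω + z + 1) * (1 - θ) * xsDn1s.R θ E)
    hQ hDN hD1 (by positivity) hq hθ0 ?_ ?_ ?_ h
  · rw [hidP, mul_sub (xsDn1.R θ E) (K0 - o.R * (1 - E) * E * (ω + 3 * z)),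
      mul_add (xsDn1.R θ E) (K1 + o.R * E * (ω + 3 * z)), mul_sub (xsDn1.R θ E) _ K2,
      mul_add (xsDn1.R θ E) (E * _), g0, g1, g2, g3]
  · rw [hidR]
    ring
  · rw [v13]
    have := mul_le_mul_of_nonneg_left htail hDs.le
    linarith only [this]

end Vale.Agent.P237.AllN
end

section

/-!
# P237, block D, `X ≥ 3`, `u ≤ 0`: inequality (S) from a certificate
-/

set_option linter.all false

namespace Vale.Agent.P237.AllN

open PolyPos

theorem xs_comb {E v lam q o K0 K1 K2 T T' P2 g0 g1 G dS : ℝ} (hE : 0 ≤ E)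
    (hQ : 0 ≤ (K0 - o * (1 - E) * E * v - E * g0) + (K1 + o * E * v + E * g1) * lam +
      (E * T + E * P2 - K2) * lam ^ 2 + (3 / 25 * E * v) * lam * q)
    (b1 : T ≤ T') (b2 : -g0 + g1 * lam ≤ G) (hK : E * dS = K0 + K1 * lam - K2 * lam ^ 2) :
    0 ≤ E * ((v * (E - 1 + lam) + T' * lam ^ 2 + G + dS + P2 * lam ^ 2) +
      3 / 25 * v * lam * q - (1 - o) * (v * (E - 1 + lam))) := by
  have c1 := mul_le_mul_of_nonneg_left (mul_le_mul_of_nonneg_right b1 (sq_nonneg lam)) hE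
  have c2 := mul_le_mul_of_nonneg_left b2 hE
  linear_combination hQ + c1 + c2 - hK

theorem xs_S {m z s l p G θ E S : ℝ} {o : Fr} (hz0 : 0 < z) (hz1 : z ≤ 49 / 100)
    (hs : 0 < s) (hs2 : s ^ 2 = 1 - z) (hw : 9 ≤ m * z) (hl : 0 < l)
    (hE : E = Real.exp (-(2 * l))) (hzE : z = θ * E) (hθ1 : θ ≤ 1) (hp1 : p ≤ 1)
    (htail : 2 * θ * s ^ 2 * p ≤ (m * z + z + 1) * (1 - θ)) (hS0 : 0 ≤ S) (hS2 : S ^ 2 = 1 - θ)
    (hG : 2 * (S / (1 + S) - s / (1 + s)) + z / (s * (1 + s) ^ 2) * (2 * l) ≤ G)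
    (ho : 0 ≤ o.R)
    (h : 0 ≤ (xsP0 o).R θ E + (xsP1 o).R θ E * (m * z) + E * xsP2.R θ E * (m * z) ^ 2 ∨
      0 ≤ (xsR0 o).R θ E + (xsR1 o).R θ E * (m * z) + E * xsR2.R θ E * (m * z) ^ 2) :
    (1 - o.R) * ((m + 3) * z * (E - 1 + 2 * l)) ≤
      dpT m z s l 0 G 0 + 6 / 25 * (m + 3) * z * l * (1 - p) := by
  have hR16 : 0 < 16 - 12 * z + z ^ 2 := by linarith only [hz1, sq_nonneg z]
  have h43 : 0 < 4 - 3 * z := by linarith only [hz1]
  have h1z : 0 < 1 - z := by linarith only [hz1]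
  have hq0 : 0 ≤ 1 - p := by linarith only [hp1]
  have hE0 : 0 < E := by rw [hE]; exact Real.exp_pos _
  have hE1 : E < 1 := by
    rw [hE, ← Real.exp_zero]; exact Real.exp_lt_exp.2 (by linarith only [hl])
  have hθ0 : 0 < θ := by
    by_contra hc
    push Not at hc
    have := mul_nonneg (neg_nonneg.2 hc) hE0.le
    linarith only [hz0, hzE, this]
  obtain ⟨ω, hω⟩ : ∃ ω, ω = m * z := ⟨_, rfl⟩
  have hKern := xs_kern (m := m) (s := s) hE hzE
  have hT0 := xs_T0 (m := m) (l := l) (G := G) hs hs2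
  rw [← hE] at hT0
  rw [← hω] at hw htail h hKern hT0
  -- logarithm
  have hL := xs_log_ge hE0 hE1.le
  rw [hE, Real.log_exp, ← hE, neg_neg] at hL
  obtain ⟨lam, hlam⟩ : ∃ lam, lam = 2 * l := ⟨_, rfl⟩
  rw [← hlam] at hL hG hKern hT0
  -- exponential
  have hq : lam ≤ 1 / E - 1 := by
    have h1 : 1 / E = Real.exp lam := by
      rw [hE, Real.exp_neg, hlam]; simp
    rw [h1]
    linarith only [Real.add_one_le_exp lam]
  have hq1 : 1 ≤ 1 / E := by rw [le_div_iff₀ hE0]; linarith only [hE1]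
  have hzq : z * (1 / E) = θ := by rw [hzE]; (clear * - hE0 hθ0; field_simp)
  have hGl := xs_G hz0 hz1 hs hs2 hS0 (by rw [hzq]; exact hS2) hq1 hq
  rw [hzq] at hGl
  have hs5 := xs_s5 hz0 hz1 hs hs2 hw
  have htail' : 2 * θ * (1 - z) * (1 - (1 - p)) ≤ (ω + z + 1) * (1 - θ) := by
    rw [← hs2, sub_sub_cancel]; exact htail
  have hL0 : 0 ≤ (1 - E) * (11 + 38 * E + 11 * E ^ 2) / (3 * (1 + E) * (1 + 8 * E + E ^ 2)) :=
    div_nonneg (mul_nonneg (sub_nonneg.2 hE1.le) (by (clear * - hE0; positivity))) (by (clear * - hE0; positivity))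
  obtain ⟨K0, hK0⟩ : ∃ K0, K0 = xsF0wk.R θ E * ω + xsF0ck.R θ E := ⟨_, rfl⟩
  obtain ⟨K1, hK1'⟩ : ∃ K1, K1 = xsF1wk.R θ E * ω + xsF1ck.R θ E := ⟨_, rfl⟩
  obtain ⟨K2, hK2'⟩ : ∃ K2, K2 = xsF2wk.R θ E * ω + xsF2ck.R θ E := ⟨_, rfl⟩
  have hK1 := xs_K1 (ω := ω) hE0.le (by rw [← hzE]; exact hz0.le) (by rw [← hzE]; exact hz1) hw
  have hK2 := xs_K2 (ω := ω) hE0.le (by rw [← hzE]; exact hz0.le) (by rw [← hzE]; exact hz1) hw
  rw [← hzE, ← hK2'] at hK2
  rw [← hK1'] at hK1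
  rw [← hK0, ← hK1', ← hK2'] at hKern
  have hc := xs_cert (q := 1 - p) hz0 hz1 hw hE0 hE1 hzE hθ0 hθ1 hq0 htail' hK0 hK1' hK2' h
  have hθz : θ * (1 - E) = θ - z := by rw [hzE]; ring
  have hQ := xs_quad (lam := lam) hL0 hL (by (clear * - hK1 ho hE0 hw hz0 h43 h1z hR16; positivity)) (sub_nonneg.2 hK2) (by positivity)
    hq0 hc
  rw [hθz] at hQ
  have hkey := xs_comb hE0.le hQ hs5 (hGl.trans hG) hKern
  have hfin := nonneg_of_mul_nonneg_right hkey hE0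
  have e1 : 6 / 25 * (m + 3) * z * l * (1 - p) = 3 / 25 * (ω + 3 * z) * lam * (1 - p) := by
    rw [hω, hlam]; ring
  have e2 : (1 - o.R) * ((m + 3) * z * (E - 1 + 2 * l)) =
      (1 - o.R) * ((ω + 3 * z) * (E - 1 + lam)) := by
    rw [hω, hlam]; ring
  rw [e1, e2, hT0, hs2]
  linear_combination hfin

end Vale.Agent.P237.AllN
end

section

/-!
# P237, block D, `X ≥ 3`, `u ≤ 0`: inequality (S) on the zones of `z`
-/

set_option linter.all false

namespace Vale.Agent.P237.AllN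

open PolyPos

theorem xs_fams {θ E ω : ℝ} {o c c2 cc : Fr} {i : ℕ} (hE : 0 < E) (h9 : 9 ≤ ω)
    (h27 : 27 * (θ * E) ≤ ω) (hc : c.R ≤ ω * E) (hc2 : c2.R = 2 * c.R) (hcc : cc.R = c.R ^ 2)
    (h : ∀ e ∈ (xsFam o c c2 cc).getD i [Ex.c ⟨-1, 0⟩], 0 ≤ e.R θ E) :
    0 ≤ (xsP0 o).R θ E + (xsP1 o).R θ E * ω + E * xsP2.R θ E * ω ^ 2 ∨
      0 ≤ (xsR0 o).R θ E + (xsR1 o).R θ E * ω + E * xsR2.R θ E * ω ^ 2 := by
  match i, h with
  | 0, h => exact Or.inl (xs_famB hE hc hc2 hcc h)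
  | 1, h => exact Or.inl (xs_famC hE.le h9 h)
  | 2, h => exact Or.inr (xs_famB hE hc hc2 hcc h)
  | 3, h => exact Or.inl (xs_famA hE.le h27 h)
  | 4, h => exact Or.inr (xs_famA hE.le h27 h)
  | i + 5, h =>
    exfalso
    have h0 := h (Ex.c ⟨-1, 0⟩) (by simp only [xsFam, Int.reduceNeg, List.getD_eq_getElem?_getD, List.length_cons, List.length_nil, zero_add, Nat.reduceAdd, add_lt_iff_neg_right, not_lt_zero, not_false_eq_true, getElem?_neg, Option.getD_none, List.mem_cons, List.not_mem_nil, or_false])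
    simp only [Int.reduceNeg, Ex.R_c, Fr.R, Int.cast_neg, Int.cast_one, CharP.cast_eq_zero, zero_add, div_one, Left.nonneg_neg_iff] at h0
    norm_num at h0

theorem xs_cl {θ E ω : ℝ} {b : ℕ} {o c c2 cc : Fr} {Lo : Ex} {t : PT} {A' B' : ℤ} {D' : ℕ}
    (hD : 0 < D') (hAB : A' < B')
    (hchk : tchkE b 32 1000 (xsFam o c c2 cc) Lo t 0 1 1 A' B' D' = true)
    (hLo : Lo.R θ E ≤ 0) (hθ0 : 0 ≤ θ) (hθ1 : θ ≤ 1) (hA : (A' : ℝ) ≤ D' * E)
    (hB : (D' : ℝ) * E ≤ B')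
    (hE : 0 < E) (h9 : 9 ≤ ω)
    (h27 : 27 * (θ * E) ≤ ω) (hc : c.R ≤ ω * E) (hc2 : c2.R = 2 * c.R) (hcc : cc.R = c.R ^ 2) :
    0 ≤ (xsP0 o).R θ E + (xsP1 o).R θ E * ω + E * xsP2.R θ E * ω ^ 2 ∨
      0 ≤ (xsR0 o).R θ E + (xsR1 o).R θ E * ω + E * xsR2.R θ E * ω ^ 2 := by
  obtain ⟨i, hi⟩ := tchkE_sound hLo t 0 1 1 A' B' D' one_pos hD one_pos hAB hchk
    (by push_cast; linarith only [hθ0]) (by push_cast; linarith only [hθ1]) hA hB
  exact xs_fams hE h9 h27 hc hc2 hcc hi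

/-- **(S)** on the zones -/
theorem fxn_S {m z s l u G S sig : ℝ} (hm : 27 ≤ m) (hz0 : 0 < z) (hz1 : z ≤ 49 / 100)
    (hs : 0 < s) (hs2 : s ^ 2 = 1 - z) (hw : 9 ≤ m * z) (hl : 0 < l)
    (hT : z * Real.exp (2 * l) ≤ 1) (hu0 : u ≤ 0)
    (htail : 1 + u ≤ ((m + 1) * z + 1) / (2 * z) * ((Real.exp (-(2 * l)) - z) / s ^ 2))
    (hS0 : 0 ≤ S) (hS2 : S ^ 2 = 1 - z * Real.exp (2 * l))
    (hG : 2 * (S / (1 + S) - s / (1 + s)) + z / (s * (1 + s) ^ 2) * (2 * l) ≤ G)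
    (hcap : 33 / 10 ≤ m * z * Real.exp (-(2 * l)))
    (hcap2 : 34 / 125 ≤ z → 354 / 100 ≤ m * z * Real.exp (-(2 * l)))
    (hsig : (z ≤ 17 / 100 ∧ sig = 1 / 2) ∨ (17 / 100 ≤ z ∧ z ≤ 6 / 25 ∧ sig = 3 / 8) ∨
      (6 / 25 ≤ z ∧ z ≤ 34 / 125 ∧ sig = 7 / 25) ∨
      (34 / 125 ≤ z ∧ z ≤ 31 / 100 ∧ sig = 8 / 25) ∨
      (31 / 100 ≤ z ∧ z ≤ 67 / 200 ∧ sig = 1 / 4) ∨ (67 / 200 ≤ z ∧ sig = 49 / 200)) :
    sig * ((m + 3) * z * (Real.exp (-(2 * l)) - 1 + 2 * l)) ≤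
      dpT m z s l 0 G 0 + 6 / 25 * (m + 3) * z * l * (-u) := by
  obtain ⟨E, hE⟩ : ∃ E, E = Real.exp (-(2 * l)) := ⟨_, rfl⟩
  obtain ⟨θ, hθ⟩ : ∃ θ, θ = z * Real.exp (2 * l) := ⟨_, rfl⟩
  have hE0 : 0 < E := by rw [hE]; exact Real.exp_pos _
  have hE1 : E < 1 := by
    rw [hE, ← Real.exp_zero]; exact Real.exp_lt_exp.2 (by linarith only [hl])
  have hEE : Real.exp (2 * l) * E = 1 := by rw [hE, ← Real.exp_add]; simp
  have hzE : z = θ * E := by rw [hθ, mul_assoc, hEE, mul_one]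
  have hθ0 : 0 < θ := by rw [hθ]; positivity
  rw [← hE] at htail hcap hcap2
  rw [← hθ] at hT hS2
  rw [← hE]
  have h27 : 27 * (θ * E) ≤ m * z := by rw [← hzE]; exact mul_le_mul_of_nonneg_right hm hz0.le
  have htail' : 2 * θ * s ^ 2 * (1 + u) ≤ (m * z + z + 1) * (1 - θ) := by
    have h1 := mul_le_mul_of_nonneg_left htail (by (clear * - hθ0 hs; positivity) : 0 ≤ 2 * θ * s ^ 2)
    refine h1.trans (le_of_eq ?_)
    rw [hzE]
    (clear * - hθ0 hs hE0 hm; field_simp)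
  have hXa : 0 ≤ (m + 3) * z * (E - 1 + 2 * l) := by
    have h1 := xs_log_ge hE0 hE1.le
    rw [hE, Real.log_exp, ← hE, neg_neg] at h1
    apply mul_nonneg (by positivity)
    have h2 : -(2 * l) + 1 ≤ E := by rw [hE]; exact Real.add_one_le_exp _
    linarith only [h2]
  have main : ∀ o : Fr, 0 ≤ o.R →
      (0 ≤ (xsP0 o).R θ E + (xsP1 o).R θ E * (m * z) + E * xsP2.R θ E * (m * z) ^ 2 ∨
      0 ≤ (xsR0 o).R θ E + (xsR1 o).R θ E * (m * z) + E * xsR2.R θ E * (m * z) ^ 2) →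
      (1 - o.R) * ((m + 3) * z * (E - 1 + 2 * l)) ≤
      dpT m z s l 0 G 0 + 6 / 25 * (m + 3) * z * l * (-u) := by
    intro o ho h
    have := xs_S (p := 1 + u) hz0 hz1 hs hs2 hw hl hE hzE hT (by linarith only [hu0]) htail' hS0 hS2 hG ho h
    rw [show 1 - (1 + u) = -u by ring] at this
    exact this
  have r33 : Fr.R ⟨33, 9⟩ = 33 / 10 := by simp only [Fr.R]; norm_num
  have r34 : Fr.R ⟨33, 4⟩ = 2 * (33 / 10) := by simp only [Fr.R]; norm_num
  have r35 : Fr.R ⟨1089, 99⟩ = (33 / 10) ^ 2 := by simp only [Fr.R]; norm_num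
  have r36 : Fr.R ⟨177, 49⟩ = 354 / 100 := by simp only [Fr.R]; norm_num
  have r37 : Fr.R ⟨177, 24⟩ = 2 * (354 / 100) := by simp only [Fr.R]; norm_num
  have r38 : Fr.R ⟨31329, 2499⟩ = (354 / 100) ^ 2 := by simp only [Fr.R]; norm_num
  rcases le_total (1 / 2) E with hEh | hEh
  · -- `E ≥ 1/2`
    have r : Fr.R ⟨1, 1⟩ = 1 / 2 := by simp only [Fr.R]; norm_num
    have h := main ⟨1, 1⟩ (by rw [r]; norm_num) (xs_cl (by norm_num) (by norm_num) xs_chkE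
      (by simp [Ex.R_c, Fr.R]) hθ0.le hT (by push_cast; linarith only [hEh]) (by push_cast; linarith only [hE1]) hE0 hw h27
      (by rw [r33]; exact hcap) (by rw [r33, r34]) (by rw [r33, r35]))
    rw [r] at h
    have hsig2 : sig ≤ 1 - 1 / 2 := by
      rcases hsig with ⟨_, h⟩ | ⟨_, _, h⟩ | ⟨_, _, h⟩ | ⟨_, _, h⟩ | ⟨_, _, h⟩ | ⟨_, h⟩ <;>
        rw [h] <;> norm_num
    exact (mul_le_mul_of_nonneg_right hsig2 hXa).trans h
  · have vz : xsZ.R θ E = z := by rw [hzE]; rfl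
    have hlo : ∀ za zb : Fr, za.R ≤ z → z ≤ zb.R → (xsLo za zb).R θ E ≤ 0 := by
      intro za zb h1 h2
      simp only [xsLo, Ex.R_mul, Ex.R_sub, Ex.R_c, vz]
      exact mul_nonpos_of_nonneg_of_nonpos (by linarith only [h1]) (by linarith only [h2])
    rcases hsig with ⟨h2, hx⟩ | ⟨h1, h2, hx⟩ | ⟨h1, h2, hx⟩ | ⟨h1, h2, hx⟩ | ⟨h1, h2, hx⟩ |
      ⟨h1, hx⟩
    · have r : Fr.R ⟨1, 1⟩ = 1 / 2 := by simp only [Fr.R]; norm_num
      have ra : Fr.R ⟨17, 99⟩ = 17 / 100 := by simp only [Fr.R]; norm_num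
      have h := main ⟨1, 1⟩ (by rw [r]; norm_num) (xs_cl (by norm_num) (by norm_num) xs_chk1
        (by rw [Ex.R_sub, Ex.R_c, vz, ra]; linarith only [h2]) hθ0.le hT (by push_cast; linarith only [hE0])
        (by push_cast; linarith only [hEh]) hE0 hw h27
        (by rw [r33]; exact hcap) (by rw [r33, r34]) (by rw [r33, r35]))
      rw [r] at h
      rw [hx]
      linarith only [h]
    · have r : Fr.R ⟨5, 7⟩ = 5 / 8 := by simp only [Fr.R]; norm_num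
      have ra : Fr.R ⟨17, 99⟩ = 17 / 100 := by simp only [Fr.R]; norm_num
      have rb : Fr.R ⟨6, 24⟩ = 6 / 25 := by simp only [Fr.R]; norm_num
      have h := main ⟨5, 7⟩ (by rw [r]; norm_num) (xs_cl (by norm_num) (by norm_num) xs_chk2
        (hlo _ _ (by rw [ra]; exact h1) (by rw [rb]; exact h2)) hθ0.le hT (by push_cast; linarith only [hE0])
        (by push_cast; linarith only [hEh]) hE0 hw h27
        (by rw [r33]; exact hcap) (by rw [r33, r34]) (by rw [r33, r35]))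
      rw [r] at h
      rw [hx]
      linarith only [h]
    · have r : Fr.R ⟨18, 24⟩ = 18 / 25 := by simp only [Fr.R]; norm_num
      have ra : Fr.R ⟨6, 24⟩ = 6 / 25 := by simp only [Fr.R]; norm_num
      have rb : Fr.R ⟨34, 124⟩ = 34 / 125 := by simp only [Fr.R]; norm_num
      have h := main ⟨18, 24⟩ (by rw [r]; norm_num) (xs_cl (by norm_num) (by norm_num) xs_chk3
        (hlo _ _ (by rw [ra]; exact h1) (by rw [rb]; exact h2)) hθ0.le hT (by push_cast; linarith only [hE0])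
        (by push_cast; linarith only [hEh]) hE0 hw h27
        (by rw [r33]; exact hcap) (by rw [r33, r34]) (by rw [r33, r35]))
      rw [r] at h
      rw [hx]
      linarith only [h]
    · have r : Fr.R ⟨17, 24⟩ = 17 / 25 := by simp only [Fr.R]; norm_num
      have ra : Fr.R ⟨34, 124⟩ = 34 / 125 := by simp only [Fr.R]; norm_num
      have rb : Fr.R ⟨31, 99⟩ = 31 / 100 := by simp only [Fr.R]; norm_num
      have h := main ⟨17, 24⟩ (by rw [r]; norm_num) (xs_cl (by norm_num) (by norm_num) xs_chk4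
        (hlo _ _ (by rw [ra]; exact h1) (by rw [rb]; exact h2)) hθ0.le hT (by push_cast; linarith only [hE0])
        (by push_cast; linarith only [hEh]) hE0 hw h27
        (by rw [r36]; exact hcap2 h1) (by rw [r36, r37]) (by rw [r36, r38]))
      rw [r] at h
      rw [hx]
      linarith only [h]
    · have r : Fr.R ⟨3, 3⟩ = 3 / 4 := by simp only [Fr.R]; norm_num
      have ra : Fr.R ⟨31, 99⟩ = 31 / 100 := by simp only [Fr.R]; norm_num
      have rb : Fr.R ⟨67, 199⟩ = 67 / 200 := by simp only [Fr.R]; norm_num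
      have h := main ⟨3, 3⟩ (by rw [r]; norm_num) (xs_cl (by norm_num) (by norm_num) xs_chk5
        (hlo _ _ (by rw [ra]; exact h1) (by rw [rb]; exact h2)) hθ0.le hT (by push_cast; linarith only [hE0])
        (by push_cast; linarith only [hEh]) hE0 hw h27
        (by rw [r36]; exact hcap2 (by linarith only [h1])) (by rw [r36, r37]) (by rw [r36, r38]))
      rw [r] at h
      rw [hx]
      linarith only [h]
    · have r : Fr.R ⟨151, 199⟩ = 151 / 200 := by simp only [Fr.R]; norm_num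
      have ra : Fr.R ⟨67, 199⟩ = 67 / 200 := by simp only [Fr.R]; norm_num
      have rb : Fr.R ⟨49, 99⟩ = 49 / 100 := by simp only [Fr.R]; norm_num
      have h := main ⟨151, 199⟩ (by rw [r]; norm_num) (xs_cl (by norm_num) (by norm_num) xs_chk6
        (hlo _ _ (by rw [ra]; exact h1) (by rw [rb]; exact hz1)) hθ0.le hT (by push_cast; linarith only [hE0])
        (by push_cast; linarith only [hEh]) hE0 hw h27
        (by rw [r36]; exact hcap2 (by linarith only [h1])) (by rw [r36, r37]) (by rw [r36, r38]))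
      rw [r] at h
      rw [hx]
      linarith only [h]

end Vale.Agent.P237.AllN
end

section

/-!
# P237, block D: the pointwise test for `0 < l`, `9 ≤ m x²`: `u ≤ 0`, `x² ≤ 49/100`, and
`0 ≤ u`, `x² ≤ 1/5`
-/

open Set

namespace Vale.Agent.P237.AllN

open Alm

variable {m : ℕ} {r τ τ' T : ℝ → ℝ} {x : ℝ}

/-- **region `0 < l`, `9 ≤ m x²`, `x² ≤ 49/100`, `u ≤ 0`** -/
theorem IsTrans.jt_far_neg (hm : 27 ≤ m) (hr : IsProf r) (h : IsTrans m r τ τ' T)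
    (hN : (∫ y in (-1 : ℝ)..1, r y ^ (m - 1)) ^ m * aInt m ^ (m - 1) ≤
      aInt (m - 1) ^ m * (∫ y in (-1 : ℝ)..1, r y ^ m) ^ (m - 1))
    (hx : x ∈ Ioo (0 : ℝ) 1) (h9 : 9 ≤ (m : ℝ) * x ^ 2) (hz : x ^ 2 ≤ 49 / 100)
    (hl : 0 < lf τ x) (hu : uf τ τ' x ≤ 0) :
    JTest (dpT m (x ^ 2) (sq x) (lf τ x) (uf τ τ' x) (jG τ x) (jN m (lf τ x) (uf τ τ' x)))
      (dpE m (x ^ 2) (sq x) (lf τ x) (uf τ τ' x) (fc m) (jN m (lf τ x) (uf τ τ' x)))
      (dpR m (x ^ 2 / sq x ^ 2)) (uf τ τ' x) := by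
  have F := h.ffacts (by omega) hr hx
  have hm' : (27 : ℝ) ≤ m := by exact_mod_cast hm
  obtain ⟨hc1, -, hc3⟩ := h.fx_cap hm hr hN hx h9
  refine h.jt_far_neg_of hm hr hN hx h9 hz hl hu fun sig hsig => ?_
  exact fxn_S hm' F.z0 hz F.s0 F.hs h9 hl F.le.le hu (h.fx_tail (by omega) hr hx)
    (br_sq_nonneg _) (h.sqS hx) (h.jG_S hx).le hc1 hc3 hsig

/-- **region `0 < l`, `9 ≤ m x²`, `x² ≤ 1/5`, `0 ≤ u`** -/
theorem IsTrans.jt_far_pos_small (hm : 27 ≤ m) (hr : IsProf r) (h : IsTrans m r τ τ' T)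
    (hN : (∫ y in (-1 : ℝ)..1, r y ^ (m - 1)) ^ m * aInt m ^ (m - 1) ≤
      aInt (m - 1) ^ m * (∫ y in (-1 : ℝ)..1, r y ^ m) ^ (m - 1))
    (hx : x ∈ Ioo (0 : ℝ) 1) (h9 : 9 ≤ (m : ℝ) * x ^ 2) (hz : x ^ 2 ≤ 1 / 5)
    (hl : 0 < lf τ x) (hu : 0 ≤ uf τ τ' x) :
    JTest (dpT m (x ^ 2) (sq x) (lf τ x) (uf τ τ' x) (jG τ x) (jN m (lf τ x) (uf τ τ' x)))
      (dpE m (x ^ 2) (sq x) (lf τ x) (uf τ τ' x) (fc m) (jN m (lf τ x) (uf τ τ' x)))
      (dpR m (x ^ 2 / sq x ^ 2)) (uf τ τ' x) := by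
  have F := h.ffacts (by omega) hr hx
  have hm' : (27 : ℝ) ≤ m := by exact_mod_cast hm
  have hm0 : (0 : ℝ) < m := by linarith
  have h45 : (45 : ℝ) ≤ m := by (by_contra nlg; linarith only [nlg, mul_nonneg (sub_nonneg.2 hz) (le_of_lt (sub_pos.2 hm0)), mul_nonneg (sub_nonneg.2 h9) (le_of_lt (sub_pos.2 hm0)), mul_pos (sub_pos.2 (not_le.1 nlg)) (sub_pos.2 hm0), mul_nonneg (le_of_lt (sub_pos.2 (not_le.1 nlg))) (sub_nonneg.2 h9), mul_pos (sub_pos.2 (not_le.1 nlg)) (sub_pos.2 (not_le.1 nlg))])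
  obtain ⟨hc1, -, -⟩ := h.fx_cap hm hr hN hx h9
  refine FXu.fxu_region h45 F.z0 hz F.s0 F.hs h9 hl.le F.le.le hc1 hu F.us
    (h.fx_tail (by omega) hr hx) F.c0 F.c1 (fa_N_ge hm0) (fun hl2 => ?_) ?_
  · rw [h.jG_eq hx]
    exact FXu.G_small hz hl.le hl2
  · rw [h.jG_eq hx]
    exact FXu.G_all hx.1 hx.2 hl.le (h.fa_exp hx).le

end Vale.Agent.P237.AllN
end

section

/-!
# P237, block D, `X ≥ 3`, `u ≥ 0`, `1/5 ≤ z ≤ 49/100`: reduction to the polynomial `Phi`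
-/

namespace Vale.Agent.P237.AllN.Fxq

open Real PolyPos

/-! ## the kernel sum -/

theorem dpS0_eq (m z l : ℝ) :
    dpS0 m z l = m * z * k1R z (exp (-(2 * l))) (2 * l) + k0R z (exp (-(2 * l))) (2 * l) := by
  have e2 : exp (-(4 * l)) = exp (-(2 * l)) ^ 2 := by
    rw [← exp_nat_mul]; congr 1; push_cast; ring
  have e3 : exp (-(6 * l)) = exp (-(2 * l)) ^ 3 := by
    rw [← exp_nat_mul]; congr 1; push_cast; ring
  have e4 : exp (-(8 * l)) = exp (-(2 * l)) ^ 4 := by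
    rw [← exp_nat_mul]; congr 1; push_cast; ring
  have e5 : exp (-(10 * l)) = exp (-(2 * l)) ^ 5 := by
    rw [← exp_nat_mul]; congr 1; push_cast; ring
  have e6 : exp (-(12 * l)) = exp (-(2 * l)) ^ 6 := by
    rw [← exp_nat_mul]; congr 1; push_cast; ring
  have f2 : exp (4 * l) = (exp (-(2 * l)) ^ 2)⁻¹ := by rw [← e2, ← exp_neg, neg_neg]
  have f3 : exp (6 * l) = (exp (-(2 * l)) ^ 3)⁻¹ := by rw [← e3, ← exp_neg, neg_neg]
  have f4 : exp (8 * l) = (exp (-(2 * l)) ^ 4)⁻¹ := by rw [← e4, ← exp_neg, neg_neg]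
  have f5 : exp (10 * l) = (exp (-(2 * l)) ^ 5)⁻¹ := by rw [← e5, ← exp_neg, neg_neg]
  have f6 : exp (12 * l) = (exp (-(2 * l)) ^ 6)⁻¹ := by rw [← e6, ← exp_neg, neg_neg]
  unfold dpS0 k1R k0R gR mR hR kpt kct
  rw [e2, e3, e4, e5, e6, f2, f3, f4, f5, f6]
  generalize exp (-(2 * l)) = E
  push_cast
  ring

/-! ## the linear test function -/

noncomputable def Phi (tp c4 t2 t21 kF s z E L w u : ℝ) : ℝ :=
  (fa tp c4 t2 s z E L + fb tp s z E L * w + r2 s L * w ^ 2) +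
    u * (g0 tp c4 t21 kF s z E L + g1 L * w)

/-- lower bound of `T - θ' e` at `N = log (1+u) - u` -/
theorem F_ge {m z s l u c G N tp kF t : ℝ} (hm : 27 ≤ m) (hz : 0 < z) (hs : 0 < s)
    (hs1 : s < 1) (hsz : s ^ 2 = 1 - z) (hl : 0 ≤ l) (hzE : z * exp (2 * l) ≤ 1)
    (hu : 0 ≤ u) (hus : u * s ≤ 1)
    (hc1 : 1 - 1 / (2 * m) ≤ c) (hc2 : c ≤ 1) (hc3 : c ^ 2 ≤ (m + 1) / (m + 2))
    (hN : N = log (1 + u) - u)
    (hG : -(2 * s * z * (1 - exp (-(2 * l))) / ((1 + s) * vH s (exp (-(2 * l))))) +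
      z * (2 * l) / (s * (1 + s) ^ 2) ≤ G)
    (htp : 0 ≤ tp) (htp1 : tp ≤ 1) (hkF : kF = 28 / 13 - 2 * tp * (53 / 54)) :
    Phi tp (4 * (1 - tp)) (t ^ 2) (2 * t - t ^ 2) kF s z (exp (-(2 * l))) (2 * l) (m * z) u
      + 1 / 50 ≤ dpT m z s l u G N - tp * dpE m z s l u c N := by
  have hm0 : 0 < m := by linarith only [hm]
  set E := exp (-(2 * l)) with hE
  have hE0 : 0 < E := exp_pos _
  set φ := u - log (1 + u) with hφ
  have hφ0 : 0 ≤ φ := by
    have := log_le_sub_one_of_pos (show 0 < 1 + u by linarith only [hu])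
    rw [hφ]; linarith only [this]
  have hN' : N = -φ := by rw [hN, hφ]; ring
  set W := u ^ 2 / (1 + u) with hW
  have hW0 : 0 ≤ W := by (clear * - hu; positivity)
  have hsg : 0 < vsg s := by unfold vsg; positivity
  -- A1
  have hCK := kK3 hz hs hsz hzE
  have A1 := mul_nonneg hW0 hCK
  -- A3
  have hWt : 0 ≤ W - (u * (2 * t - t ^ 2) - t ^ 2) := by
    have : W - (u * (2 * t - t ^ 2) - t ^ 2) = (u - t * (1 + u)) ^ 2 / (1 + u) := by
      rw [hW]; field_simp; ring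
    rw [this]; (clear * - hu; positivity)
  have A3 : 0 ≤ (1 - tp) * (4 * s ^ 2 * E) * (W - (u * (2 * t - t ^ 2) - t ^ 2)) :=
    mul_nonneg (mul_nonneg (by linarith only [htp1]) (by positivity)) hWt
  -- A4
  have hu1s : u ≤ 1 / s := by rw [le_div_iff₀ hs]; exact hus
  have hφu : φ ≤ u * ((1 + 3 * s) / vsg s) := by
    refine (log_defect hu).trans ?_
    have e : u ^ 2 * (3 + u) / (6 + 6 * u + u ^ 2) = u * (u * (3 + u) / (6 + 6 * u + u ^ 2)) := by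
      ring
    rw [e]
    apply mul_le_mul_of_nonneg_left _ hu
    rw [div_le_div_iff₀ (by (clear * - hu; positivity)) hsg]
    unfold vsg
    nlinarith only [hus, hs, mul_nonneg (mul_nonneg hu hs.le) (sub_nonneg.2 hus)]
  have hκ : 2 * (m + 1) / ((m - 1) * s) ≤ 28 / 13 / s := by
    rw [← div_div]
    apply div_le_div_of_nonneg_right _ hs.le
    rw [div_le_iff₀ (by linarith only [hm])]; linarith only [hm]
  have hc0 : 53 / 54 ≤ c := by
    have h1 : 1 / (2 * m) ≤ 1 / 54 := by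
      apply one_div_le_one_div_of_le (by norm_num) (by linarith only [hm])
    linarith only [hc1, h1]
  have hκ2 : 2 * (m + 1) / ((m - 1) * s) - tp * (2 * c / s) ≤ kF / s := by
    have h1 : tp * (2 * (53 / 54) / s) ≤ tp * (2 * c / s) := by
      apply mul_le_mul_of_nonneg_left _ htp
      apply div_le_div_of_nonneg_right _ hs.le
      linarith only [hc0]
    have h2 : kF / s = 28 / 13 / s - tp * (2 * (53 / 54) / s) := by
      rw [hkF]; ring
    rw [h2]; linarith only [hκ, h1]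
  have A4 : 0 ≤ kF * (u * ((1 + 3 * s) / (s * vsg s))) -
      (2 * (m + 1) / ((m - 1) * s) - tp * (2 * c / s)) * φ := by
    have h1 := mul_le_mul_of_nonneg_right hκ2 hφ0
    have hkF0 : 0 ≤ kF := by rw [hkF]; linarith only [htp1]
    have h2 := mul_le_mul_of_nonneg_left hφu (div_nonneg hkF0 hs.le)
    have h3 : kF / s * (u * ((1 + 3 * s) / vsg s)) = kF * (u * ((1 + 3 * s) / (s * vsg s))) := by
      (clear * - hsg hs; field_simp)
    linarith only [h1, h2, h3]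
  -- A5
  have A5 : 0 ≤ tp * (u * ((2 / s - 2 * s ^ 2) - (2 * c / s - 2 * s ^ 2 + 2 * (1 - c)))) := by
    apply mul_nonneg htp (mul_nonneg hu _)
    have h1 : (2 / s - 2 * s ^ 2) - (2 * c / s - 2 * s ^ 2 + 2 * (1 - c)) =
        2 * ((1 - c) * (1 / s - 1)) := by ring
    rw [h1]
    have h2 : 1 ≤ 1 / s := by rw [le_div_iff₀ hs]; linarith only [hs1]
    have := mul_nonneg (by linarith only [hc2] : 0 ≤ 1 - c) (by linarith only [h2] : 0 ≤ 1 / s - 1)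
    linarith only [this]
  -- A6
  have hr := fpn_r_le hm0 hz hs hsz hc2 hc3
  have A6 : 0 ≤ tp * (1 / 29 * (z * (2 * l) / s ^ 2) -
      (2 * c / s - 2 + 2 * (1 - c) * (1 - m * (z / s ^ 2))) * l) := by
    apply mul_nonneg htp
    have h1 := mul_le_mul_of_nonneg_right hr hl
    have hy : 0 ≤ 2 * (z / s ^ 2) := by positivity
    have h2 : 2 * (z / s ^ 2) / (m + 2) ≤ 2 * (z / s ^ 2) / 29 :=
      div_le_div_of_nonneg_left hy (by norm_num) (by linarith only [hm])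
    have h3 := mul_le_mul_of_nonneg_right h2 hl
    have h4 : 2 * (z / s ^ 2) / 29 * l = 1 / 29 * (z * (2 * l) / s ^ 2) := by ring
    linarith only [h1, h3, h4]
  have e3 : z / s ^ 3 = z * (1 - z) / s ^ 5 := by
    rw [← hsz]; field_simp
  have key : dpT m z s l u G N - tp * dpE m z s l u c N -
      (Phi tp (4 * (1 - tp)) (t ^ 2) (2 * t - t ^ 2) kF s z E (2 * l) (m * z) u + 1 / 50) =
      W * (4 / s - 4 * s / (1 + s) - 2 * s ^ 2 - 6 * (z / s ^ 3) * l + ksC z s l) +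
      (G - (-(2 * s * z * (1 - E) / ((1 + s) * vH s E)) + z * (2 * l) / (s * (1 + s) ^ 2))) +
      (1 - tp) * (4 * s ^ 2 * E) * (W - (u * (2 * t - t ^ 2) - t ^ 2)) +
      (kF * (u * ((1 + 3 * s) / (s * vsg s))) -
        (2 * (m + 1) / ((m - 1) * s) - tp * (2 * c / s)) * φ) +
      tp * (u * ((2 / s - 2 * s ^ 2) - (2 * c / s - 2 * s ^ 2 + 2 * (1 - c)))) +
      tp * (1 / 29 * (z * (2 * l) / s ^ 2) -
      (2 * c / s - 2 + 2 * (1 - c) * (1 - m * (z / s ^ 2))) * l) := by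
    unfold dpT dpE Phi fa fb r0 r1 r2 g0 g1
    rw [dpS_eq, dpS0_eq, ← hE, ← hW, hN']
    generalize k1R z E (2 * l) = K1
    generalize k0R z E (2 * l) = K0
    generalize vH s E = H
    generalize vsg s = Q
    generalize ksC z s l = C
    have hs2 : (z - s ^ 2) / s ^ 2 = z / s ^ 2 - 1 := by (clear * - hs; field_simp)
    rw [hs2]
    linear_combination (-9 * l ^ 2) * e3
  linarith only [hG, A1, A3, A4, A5, A6, key]

end Vale.Agent.P237.AllN.Fxq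
end

section

/-!
# P237, block D, `X ≥ 3`, `u ≥ 0`, `1/5 ≤ z ≤ 49/100`: positivity of `Phi` from the kernel checks
-/

namespace Vale.Agent.P237.AllN.Fxq

open Real PolyPos

/-! ## monotonicity in `λ` -/

noncomputable def K1c (z : ℝ) : ℝ := z * (3 / 4 * 2 + z * (5 / 8 * 3 + z * (35 / 64 * 4 +
  z * (63 / 128 * 5 + z * (231 / 512 * 6)))))
noncomputable def K0c (z : ℝ) : ℝ := z * (3 / 4 * (5 * z * 2 - 3) + z * (5 / 8 * (7 * z * 3 - 10) +
  z * (35 / 64 * (9 * z * 4 - 21) + z * (63 / 128 * (11 * z * 5 - 36) +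
  z * (231 / 512 * (13 * z * 6 - 55))))))

theorem K_nonneg {z w : ℝ} (hz : 1 / 5 ≤ z) (hw : 9 ≤ w) : 0 ≤ K1c z * w + K0c z := by
  have e : K1c z * w + K0c z = z * (3 / 4 * (2 * w + 10 * z - 3) + z * (5 / 8 * (3 * w + 21 * z - 10)
    + z * (35 / 64 * (4 * w + 36 * z - 21) + z * (63 / 128 * (5 * w + 55 * z - 36) +
      z * (231 / 512 * (6 * w + 78 * z - 55)))))) := by unfold K1c K0c; ring
  rw [e]
  have h6 : 0 ≤ 231 / 512 * (6 * w + 78 * z - 55) := by linarith only [hz, hw]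
  have h5 : 0 ≤ 63 / 128 * (5 * w + 55 * z - 36) := by linarith only [hz, hw]
  have h4 : 0 ≤ 35 / 64 * (4 * w + 36 * z - 21) := by (clear * - hz hw; linarith)
  have h3 : 0 ≤ 5 / 8 * (3 * w + 21 * z - 10) := by linarith only [hz, hw]
  have h2 : 0 ≤ 3 / 4 * (2 * w + 10 * z - 3) := by linarith only [hz, hw]
  have hz0 : 0 ≤ z := by linarith only [hz]
  positivity

theorem Phi_mono {tp c4 t2 t21 kF s z E L lam w u : ℝ} (hL : 0 ≤ L) (hLl : L ≤ lam)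
    (h1 : 0 ≤ (w + 3 * z) * (1 - tp) - tp * (1 / 29 * (z / s ^ 2)) + (K1c z * w + K0c z) +
      z / (s * (1 + s) ^ 2) - 3 / 25 * (w + 3 * z) * u)
    (h2 : 0 ≤ (3 / 100 * (w ^ 2 / s ^ 2) + w * (3 / 4 * (z / s ^ 5) +
      9 / 100 * ((z - s ^ 2) / s ^ 2) - S1R z) +
      (-(9 / 4 * (z / s ^ 5) + 27 / 100 * z) - S2R z))) :
    Phi tp c4 t2 t21 kF s z E L w u ≤ Phi tp c4 t2 t21 kF s z E lam w u := by
  have e : Phi tp c4 t2 t21 kF s z E lam w u - Phi tp c4 t2 t21 kF s z E L w u =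
      (lam - L) * (((w + 3 * z) * (1 - tp) - tp * (1 / 29 * (z / s ^ 2)) + (K1c z * w + K0c z) +
      z / (s * (1 + s) ^ 2) - 3 / 25 * (w + 3 * z) * u) + (3 / 100 * (w ^ 2 / s ^ 2) +
      w * (3 / 4 * (z / s ^ 5) + 9 / 100 * ((z - s ^ 2) / s ^ 2) - S1R z) +
      (-(9 / 4 * (z / s ^ 5) + 27 / 100 * z) - S2R z)) * (lam + L)) := by
    unfold Phi fa fb r0 r1 r2 g0 g1 k1R k0R gR mR hR K1c K0c S1R S2R
    push_cast
    ring
  have h3 : 0 ≤ (lam - L) * (((w + 3 * z) * (1 - tp) - tp * (1 / 29 * (z / s ^ 2)) +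
      (K1c z * w + K0c z) +
      z / (s * (1 + s) ^ 2) - 3 / 25 * (w + 3 * z) * u) + (3 / 100 * (w ^ 2 / s ^ 2) +
      w * (3 / 4 * (z / s ^ 5) + 9 / 100 * ((z - s ^ 2) / s ^ 2) - S1R z) +
      (-(9 / 4 * (z / s ^ 5) + 27 / 100 * z) - S2R z)) * (lam + L)) :=
    mul_nonneg (by linarith only [hLl]) (add_nonneg h1 (mul_nonneg h2 (by linarith only [hL, hLl])))
  linarith only [h3, e]

theorem quad {d α β γ w0 w : ℝ} (hd : 0 < d) (h0 : 0 ≤ d * α + d * β * w0 + d * γ * w0 ^ 2)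
    (h1 : 0 ≤ d * β + 2 * (d * γ) * w0) (hγ : 0 ≤ d * γ) (hw : w0 ≤ w) :
    0 ≤ α + β * w + γ * w ^ 2 := by
  have h2 : 0 ≤ d * (α + β * w + γ * w ^ 2) := by
    have e : d * (α + β * w + γ * w ^ 2) = (d * α + d * β * w0 + d * γ * w0 ^ 2) +
      (d * β + 2 * (d * γ) * w0) * (w - w0) + d * γ * (w - w0) ^ 2 := by ring
    rw [e]
    have := mul_nonneg h1 (sub_nonneg.2 hw)
    have := mul_nonneg hγ (sq_nonneg (w - w0))
    linarith
  exact nonneg_of_mul_nonneg_right h2 hd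

/-- the `λ²` coefficient is nonnegative -/
theorem c2_nonneg {s w : ℝ} (hs : 357 / 500 ≤ s) (hs1 : s ≤ 448 / 500)
    (hw9 : 9 ≤ w) (hw27 : 27 * (1 - s ^ 2) ≤ w) :
    0 ≤ 3 / 100 * (w ^ 2 / s ^ 2) + w * (3 / 4 * ((1 - s ^ 2) / s ^ 5) +
      9 / 100 * ((1 - s ^ 2 - s ^ 2) / s ^ 2) - S1R (1 - s ^ 2)) +
      (-(9 / 4 * ((1 - s ^ 2) / s ^ 5) + 27 / 100 * (1 - s ^ 2)) - S2R (1 - s ^ 2)) := by
  have hs0 : 0 < s := by linarith only [hs]
  have e0 : (xk 0 1).R s (1 / 5) ≤ 0 := by rw [xk_R _ _ _ _ le_rfl]; simp only [Int.cast_zero, Nat.cast_one, div_one, Std.le_refl]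
  have ea : c2a.R s (1 / 5) = s ^ 5 *
      (-(9 / 4 * ((1 - s ^ 2) / s ^ 5) + 27 / 100 * (1 - s ^ 2)) - S2R (1 - s ^ 2)) := by
    unfold c2a
    simp only [Ex.R_sub, Ex.R_mul, xz_R, xs5_R, xS2_R]
    simp (discharger := norm_num) only [xk_R]
    push_cast
    field_simp
    ring
  have eb : c2b.R s (1 / 5) = s ^ 5 * (3 / 4 * ((1 - s ^ 2) / s ^ 5) +
      9 / 100 * ((1 - s ^ 2 - s ^ 2) / s ^ 2) - S1R (1 - s ^ 2)) := by
    unfold c2b
    simp only [Ex.R_add, Ex.R_sub, Ex.R_mul, Ex.R_X, xz_R, xs5_R, xs3_R, xS1_R]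
    simp (discharger := norm_num) only [xk_R]
    push_cast
    field_simp
  have ec : c2c.R s (1 / 5) = s ^ 5 * (3 / 100 / s ^ 2) := by
    unfold c2c
    simp only [Ex.R_mul, xs3_R]
    simp (discharger := norm_num) only [xk_R]
    push_cast
    (clear * - hs; field_simp)
  have hc : (0 : ℝ) ≤ s ^ 5 * (3 / 100 / s ^ 2) := by positivity
  have hd : 0 < s ^ 5 := by positivity
  have main : ∀ W : Ex, 0 ≤ (q0 c2a c2b c2c W).R s (1 / 5) → 0 ≤ (q1 c2b c2c W).R s (1 / 5) →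
      W.R s (1 / 5) ≤ w → 0 ≤ 3 / 100 * (w ^ 2 / s ^ 2) + w * (3 / 4 * ((1 - s ^ 2) / s ^ 5) +
      9 / 100 * ((1 - s ^ 2 - s ^ 2) / s ^ 2) - S1R (1 - s ^ 2)) +
      (-(9 / 4 * ((1 - s ^ 2) / s ^ 5) + 27 / 100 * (1 - s ^ 2)) - S2R (1 - s ^ 2)) := by
    intro W h0 h1 hW
    rw [q0_R, ea, eb, ec] at h0
    rw [q1_R, eb, ec] at h1
    have := quad hd h0 h1 hc hW
    refine this.trans (le_of_eq ?_)
    ring
  rcases le_total s (409 / 500) with h | h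
  · obtain ⟨i, hi⟩ := tchkE_sound e0 (.leaf 0) 357 409 500 10 37 50 (by norm_num) (by norm_num)
      (by norm_num) (by norm_num) kc2_27 (by push_cast; linarith only [hs]) (by push_cast; linarith only [h])
      (by push_cast; linarith only []) (by push_cast; linarith only [])
    match i with
    | 0 =>
      refine main (xk 27 1 * xz) (hi _ (by simp only [Int.reduceNeg, List.getD_eq_getElem?_getD, List.length_cons, List.length_nil, zero_add, Order.lt_one_iff, getElem?_pos, List.getElem_cons_zero, Option.getD_some, List.mem_cons, List.not_mem_nil, or_false, true_or])) (hi _ (by simp only [Int.reduceNeg, List.getD_eq_getElem?_getD, List.length_cons, List.length_nil, zero_add, Order.lt_one_iff, getElem?_pos, List.getElem_cons_zero, Option.getD_some, List.mem_cons, List.not_mem_nil, or_false, or_true])) ?_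
      rw [Ex.R_mul, xz_R, xk_R _ _ _ _ le_rfl]; push_cast; linarith only [hw27]
    | (n + 1) =>
      exfalso
      have h := hi (Ex.c ⟨-1, 0⟩) (by simp only [Int.reduceNeg, List.getD_eq_getElem?_getD, List.length_cons, List.length_nil, zero_add, Order.lt_one_iff, Nat.add_eq_zero_iff, one_ne_zero, and_false, not_false_eq_true, getElem?_neg, Option.getD_none, List.mem_cons, List.not_mem_nil, or_false])
      rw [Ex.R_c, Fr.R] at h
      (clear * - h; norm_num at h)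
  · obtain ⟨i, hi⟩ := tchkE_sound e0 (.leaf 0) 408 448 500 10 37 50 (by norm_num) (by norm_num)
      (by norm_num) (by norm_num) kc2_9 (by push_cast; linarith only [h]) (by push_cast; linarith only [hs1])
      (by push_cast; linarith only []) (by push_cast; linarith only [])
    match i with
    | 0 =>
      refine main (xk 9 1) (hi _ (by simp only [Int.reduceNeg, List.getD_eq_getElem?_getD, List.length_cons, List.length_nil, zero_add, Order.lt_one_iff, getElem?_pos, List.getElem_cons_zero, Option.getD_some, List.mem_cons, List.not_mem_nil, or_false, true_or])) (hi _ (by simp)) ?_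
      rw [xk_R _ _ _ _ le_rfl]; push_cast; linarith only [hw9]
    | (n + 1) =>
      exfalso
      have h := hi (Ex.c ⟨-1, 0⟩) (by simp only [Int.reduceNeg, List.getD_eq_getElem?_getD, List.length_cons, List.length_nil, zero_add, Order.lt_one_iff, Nat.add_eq_zero_iff, one_ne_zero, and_false, not_false_eq_true, getElem?_neg, Option.getD_none, List.mem_cons, List.not_mem_nil, or_false])
      rw [Ex.R_c, Fr.R] at h
      norm_num at h

/-! ## soundness of the families -/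

variable {s E w u : ℝ}

theorem vH_pos (hs : 0 < s) (hs1 : s < 1) (hzE : 1 - s ^ 2 ≤ E) : 0 < vH s E := by
  unfold vH
  have hz : 0 < 1 - s ^ 2 := by nlinarith only [hs1, hs]
  have h1 : 2 * s ^ 2 * (1 + s) * (1 - s ^ 2) ≤ 2 * s ^ 2 * (1 + s) * E :=
    mul_le_mul_of_nonneg_left hzE (by positivity)
  have h2 : (1 - s ^ 2) * (1 - E) * (1 + 2 * s) ≤ (1 - s ^ 2) * s ^ 2 * (1 + 2 * s) := by
    apply mul_le_mul_of_nonneg_right _ (by positivity)
    exact mul_le_mul_of_nonneg_left (by linarith only [hzE]) hz.le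
  have h3 : 0 < (1 - s ^ 2) * s ^ 2 := by positivity
  linarith

theorem vd_pos (hs : 0 < s) (hs1 : s < 1) (hE : 0 < E) (hzE : 1 - s ^ 2 ≤ E) : 0 < vd s E := by
  have h := vH_pos hs hs1 hzE
  have h2 := vD_pos hE
  unfold vd vq
  positivity

theorem famA_sound (hs : 0 < s) (hs1 : s < 1) (hE : 0 < E) (hzE : 1 - s ^ 2 ≤ E)
    {tp c4 kF t2 t21 W : Ex} (h : ∀ e ∈ famA tp c4 kF t2 t21 W, 0 ≤ e.R s E)
    (hW : W.R s E ≤ w) (hu : 0 ≤ u) (hus : u * s ≤ 1) :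
    0 ≤ Phi (tp.R s E) (c4.R s E) (t2.R s E) (t21.R s E) (kF.R s E) s (1 - s ^ 2) E (vL E) w u := by
  have hH := (vH_pos hs hs1 hzE).ne'
  have hd := vd_pos hs hs1 hE hzE
  have hsg : 0 < vsg s := by unfold vsg; positivity
  have hd2 : 0 < vd s E * (s ^ 2 * vsg s) := by (clear * - hd hs hsg; positivity)
  simp only [famA, List.mem_cons, List.not_mem_nil, or_false, forall_eq_or_imp, forall_eq] at h
  obtain ⟨h1, h2, h3, h4⟩ := h
  rw [q0_R, xFa_R hs hE hH, xFb_R hs hE, xT2_R hs hE] at h1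
  rw [q1_R, xFb_R hs hE, xT2_R hs hE] at h2
  rw [q0_R, yFa_R hs hE hH, yFb_R hs hE, yFc_R hs hE] at h3
  rw [q1_R, yFb_R hs hE, yFc_R hs hE] at h4
  have hr2 : 0 ≤ r2 s (vL E) := by unfold r2; (clear * - hs; positivity)
  have k1 := quad hd h1 h2 (by (clear * - hd hr2; positivity)) hW
  have k2 := quad hd2 h3 h4 (by (clear * - hd hs hsg hr2; positivity)) hW
  unfold Phi
  set P0 := fa (tp.R s E) (c4.R s E) (t2.R s E) s (1 - s ^ 2) E (vL E) +
    fb (tp.R s E) s (1 - s ^ 2) E (vL E) * w + r2 s (vL E) * w ^ 2 with hP0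
  set G1 := g0 (tp.R s E) (c4.R s E) (t21.R s E) (kF.R s E) s (1 - s ^ 2) E (vL E) +
    g1 (vL E) * w with hG1
  have k3 : 0 ≤ P0 + 1 / s * G1 := by
    refine k2.trans (le_of_eq ?_)
    rw [hP0, hG1]; ring
  have hs' : s * P0 + G1 = s * (P0 + 1 / s * G1) := by (clear * - hs; field_simp)
  have k4 : 0 ≤ s * P0 + G1 := by rw [hs']; (clear * - hs k3; positivity)
  have e : P0 + u * G1 = (1 - u * s) * P0 + u * (s * P0 + G1) := by ring
  rw [e]
  exact add_nonneg (mul_nonneg (by linarith only [hus]) k1) (mul_nonneg hu k4)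

theorem famB_sound (hs : 0 < s) (hs1 : s < 1) (hE : 0 < E) (hzE : 1 - s ^ 2 ≤ E)
    {tp c4 kF t2 t21 C : Ex} (h : ∀ e ∈ famB tp c4 kF t2 t21 C, 0 ≤ e.R s E)
    (hW : C.R s E ≤ w * E) (hu : 0 ≤ u) (hus : u * s ≤ 1) :
    0 ≤ Phi (tp.R s E) (c4.R s E) (t2.R s E) (t21.R s E) (kF.R s E) s (1 - s ^ 2) E (vL E) w u := by
  have hH := (vH_pos hs hs1 hzE).ne'
  have hd := vd_pos hs hs1 hE hzE
  have hsg : 0 < vsg s := by unfold vsg; positivity
  have hd2 : 0 < vd s E * (s ^ 2 * vsg s) := by (clear * - hd hs hsg; positivity)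
  simp only [famB, List.mem_cons, List.not_mem_nil, or_false, forall_eq_or_imp, forall_eq] at h
  obtain ⟨h1, h2, h3, h4⟩ := h
  rw [p0_R hE, xFa_R hs hE hH, xFb_R hs hE, xT2_R hs hE] at h1
  rw [p1_R hE, xFb_R hs hE, xT2_R hs hE] at h2
  rw [p0_R hE, yFa_R hs hE hH, yFb_R hs hE, yFc_R hs hE] at h3
  rw [p1_R hE, yFb_R hs hE, yFc_R hs hE] at h4
  have hr2 : 0 ≤ r2 s (vL E) := by unfold r2; (clear * - hs; positivity)
  have hW' : C.R s E / E ≤ w := by rw [div_le_iff₀ hE]; exact hW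
  have hE2 : 0 < E ^ 2 := by positivity
  have k1 := quad hd (nonneg_of_mul_nonneg_right h1 hE2) (nonneg_of_mul_nonneg_right h2 hE)
    (by positivity) hW'
  have k2 := quad hd2 (nonneg_of_mul_nonneg_right h3 hE2) (nonneg_of_mul_nonneg_right h4 hE)
    (by positivity) hW'
  unfold Phi
  set P0 := fa (tp.R s E) (c4.R s E) (t2.R s E) s (1 - s ^ 2) E (vL E) +
    fb (tp.R s E) s (1 - s ^ 2) E (vL E) * w + r2 s (vL E) * w ^ 2 with hP0
  set G1 := g0 (tp.R s E) (c4.R s E) (t21.R s E) (kF.R s E) s (1 - s ^ 2) E (vL E) +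
    g1 (vL E) * w with hG1
  have k3 : 0 ≤ P0 + 1 / s * G1 := by
    refine k2.trans (le_of_eq ?_)
    rw [hP0, hG1]; ring
  have hs' : s * P0 + G1 = s * (P0 + 1 / s * G1) := by (clear * - hs; field_simp)
  have k4 : 0 ≤ s * P0 + G1 := by rw [hs']; (clear * - hs k3; positivity)
  have e : P0 + u * G1 = (1 - u * s) * P0 + u * (s * P0 + G1) := by ring
  rw [e]
  exact add_nonneg (mul_nonneg (by linarith only [hus]) k1) (mul_nonneg hu k4)

theorem tail_aux {P0 G1 U u : ℝ} (h : 0 ≤ P0 + U * G1) (hG : G1 ≤ 0) (hu : u ≤ U) :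
    0 ≤ P0 + u * G1 := by
  nlinarith only [h, hu, hG]

theorem vL_nonneg {E : ℝ} (hE : 0 < E) (hE1 : E ≤ 1) : 0 ≤ vL E := by
  unfold vL vN
  apply div_nonneg _ (vD_pos hE).le
  apply mul_nonneg (by linarith)
  positivity

theorem famC_sound (hs : 0 < s) (hs1 : s < 1) (hE : 0 < E) (hE1 : E ≤ 1) (hzE : 1 - s ^ 2 ≤ E)
    {tp c4 kF t2 t21 W : Ex} (h : ∀ e ∈ famC tp c4 kF t2 t21 W, 0 ≤ e.R s E)
    (hW : W.R s E ≤ w) (hut : u ≤ v0 s (1 - s ^ 2) E + v1 s (1 - s ^ 2) E * w) :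
    0 ≤ Phi (tp.R s E) (c4.R s E) (t2.R s E) (t21.R s E) (kF.R s E) s (1 - s ^ 2) E (vL E) w u := by
  have hH := (vH_pos hs hs1 hzE).ne'
  have hd := vd_pos hs hs1 hE hzE
  have hsg : 0 < vsg s := by unfold vsg; positivity
  have hz : 0 < 1 - s ^ 2 := by nlinarith only [hs1, hs]
  have hd2 : 0 < vd s E * (2 * (1 - s ^ 2) * s ^ 3 * vsg s) := by (clear * - hd hz hs hsg; positivity)
  simp only [famC, List.mem_cons, List.not_mem_nil, or_false, forall_eq_or_imp, forall_eq] at h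
  obtain ⟨h1, h2, h3, h4⟩ := h
  rw [q0_R, zFa_R hs hs1 hE hH, zFb_R hs hs1 hE, zFc_R hs hs1 hE] at h1
  rw [q1_R, zFb_R hs hs1 hE, zFc_R hs hs1 hE] at h2
  rw [zFc_R hs hs1 hE] at h3
  rw [xGm_R hs hE] at h4
  have k1 := quad hd2 h1 h2 h3 hW
  unfold Phi
  set P0 := fa (tp.R s E) (c4.R s E) (t2.R s E) s (1 - s ^ 2) E (vL E) +
    fb (tp.R s E) s (1 - s ^ 2) E (vL E) * w + r2 s (vL E) * w ^ 2 with hP0
  set g := g0 (tp.R s E) (c4.R s E) (t21.R s E) (kF.R s E) s (1 - s ^ 2) E (vL E) with hg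
  have hD := vD_pos hE
  have k3 : g + g1 (vL E) * W.R s E ≤ 0 := by
    have hp : 0 < s ^ 2 * vsg s * vD E := by (clear * - hs hsg hD; positivity)
    nlinarith only [h4, hp]
  have k2 : 0 ≤ P0 + (v0 s (1 - s ^ 2) E + v1 s (1 - s ^ 2) E * w) * (g + g1 (vL E) * w) := by
    refine k1.trans (le_of_eq ?_)
    rw [hP0]; ring
  refine tail_aux k2 ?_ hut
  have : g1 (vL E) * w ≤ g1 (vL E) * W.R s E := by
    apply mul_le_mul_of_nonpos_left hW
    have := vL_nonneg hE hE1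
    unfold g1; linarith only [this]
  linarith only [k3, this]

theorem famD_sound (hs : 0 < s) (hs1 : s < 1) (hE : 0 < E) (hE1 : E ≤ 1) (hzE : 1 - s ^ 2 ≤ E)
    {tp c4 kF t2 t21 C : Ex} (h : ∀ e ∈ famD tp c4 kF t2 t21 C, 0 ≤ e.R s E)
    (hW : C.R s E ≤ w * E) (hw9 : 9 ≤ w)
    (hut : u ≤ v0 s (1 - s ^ 2) E + v1 s (1 - s ^ 2) E * w) :
    0 ≤ Phi (tp.R s E) (c4.R s E) (t2.R s E) (t21.R s E) (kF.R s E) s (1 - s ^ 2) E (vL E) w u := by
  have hH := (vH_pos hs hs1 hzE).ne'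
  have hd := vd_pos hs hs1 hE hzE
  have hsg : 0 < vsg s := by unfold vsg; positivity
  have hz : 0 < 1 - s ^ 2 := by nlinarith only [hs1, hs]
  have hd2 : 0 < vd s E * (2 * (1 - s ^ 2) * s ^ 3 * vsg s) := by (clear * - hd hz hs hsg; positivity)
  simp only [famD, List.mem_cons, List.not_mem_nil, or_false, forall_eq_or_imp, forall_eq] at h
  obtain ⟨h1, h2, h3, h4⟩ := h
  rw [p0_R hE, zFa_R hs hs1 hE hH, zFb_R hs hs1 hE, zFc_R hs hs1 hE] at h1
  rw [p1_R hE, zFb_R hs hs1 hE, zFc_R hs hs1 hE] at h2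
  rw [zFc_R hs hs1 hE] at h3
  rw [xGm_R hs hE] at h4
  have hW' : C.R s E / E ≤ w := by rw [div_le_iff₀ hE]; exact hW
  have hE2 : 0 < E ^ 2 := by positivity
  have k1 := quad hd2 (nonneg_of_mul_nonneg_right h1 hE2) (nonneg_of_mul_nonneg_right h2 hE)
    h3 hW'
  unfold Phi
  set P0 := fa (tp.R s E) (c4.R s E) (t2.R s E) s (1 - s ^ 2) E (vL E) +
    fb (tp.R s E) s (1 - s ^ 2) E (vL E) * w + r2 s (vL E) * w ^ 2 with hP0
  set g := g0 (tp.R s E) (c4.R s E) (t21.R s E) (kF.R s E) s (1 - s ^ 2) E (vL E) with hg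
  have hD := vD_pos hE
  have e9 : (xk 9 1).R s E = 9 := by rw [xk_R _ _ _ _ le_rfl]; norm_num
  rw [e9] at h4
  have k3 : g + g1 (vL E) * 9 ≤ 0 := by
    have hp : 0 < s ^ 2 * vsg s * vD E := by (clear * - hs hsg hD; positivity)
    nlinarith only [h4, hp]
  have k2 : 0 ≤ P0 + (v0 s (1 - s ^ 2) E + v1 s (1 - s ^ 2) E * w) * (g + g1 (vL E) * w) := by
    refine k1.trans (le_of_eq ?_)
    rw [hP0]; ring
  refine tail_aux k2 ?_ hut
  have : g1 (vL E) * w ≤ g1 (vL E) * 9 := by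
    apply mul_le_mul_of_nonpos_left hw9
    have := vL_nonneg hE hE1
    unfold g1; linarith only [this]
  linarith only [k3, this]

/-! ## positivity of `Phi` -/

theorem xt2_R (n : ℤ) (x y : ℝ) : (xt2 n).R x y = ((n : ℝ) / 10) ^ 2 := by
  unfold xt2; rw [xk_R _ _ _ _ (by norm_num)]; push_cast; ring
theorem xt21_R (n : ℤ) (x y : ℝ) :
    (xt21 n).R x y = 2 * ((n : ℝ) / 10) - ((n : ℝ) / 10) ^ 2 := by
  unfold xt21; rw [xk_R _ _ _ _ (by norm_num)]; push_cast; ring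

theorem out_false {F : List (List Ex)} {i : ℕ} {x y : ℝ}
    (hi : ∀ e ∈ F.getD i [Ex.c ⟨-1, 0⟩], 0 ≤ e.R x y) (h : F.length ≤ i) : False := by
  rw [List.getD_eq_default _ _ h] at hi
  have h := hi (Ex.c ⟨-1, 0⟩) (by simp)
  rw [Ex.R_c, Fr.R] at h
  norm_num at h

theorem Phi_pos1 (hs0 : 357 / 500 ≤ s) (hs1 : s ≤ 409 / 500) (hE0 : 1 / 5 ≤ E)
    (hE1 : E ≤ 37 / 50) (hzE : 1 - s ^ 2 ≤ E) (hw9 : 9 ≤ w) (hw27 : 27 * (1 - s ^ 2) ≤ w)
    (hcap : 354 / 100 ≤ w * E) (hu : 0 ≤ u) (hus : u * s ≤ 1)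
    (hut : u ≤ v0 s (1 - s ^ 2) E + v1 s (1 - s ^ 2) E * w) :
    ∃ t : ℝ, 0 ≤ Phi (1 / 5) (16 / 5) (t ^ 2) (2 * t - t ^ 2) (3091 / 1755) s (1 - s ^ 2) E
      (vL E) w u := by
  have hs : 0 < s := by (clear * - hs0; linarith)
  have hs1' : s < 1 := by (clear * - hs1 hs; linarith)
  have hE : 0 < E := by linarith only [hE0]
  have hE1' : E ≤ 1 := by linarith only [hE1]
  have e0 : (xz - Ex.Y).R s E ≤ 0 := by rw [Ex.R_sub, Ex.R_Y, xz_R]; linarith only [hzE]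
  have a1 : (xk 1 5).R s E = 1 / 5 := by rw [xk_R _ _ _ _ (by norm_num)]; (clear * -; norm_num)
  have a2 : (xk 16 5).R s E = 16 / 5 := by rw [xk_R _ _ _ _ (by norm_num)]; (clear * -; norm_num)
  have a3 : (xk 3091 1755).R s E = 3091 / 1755 := by
    rw [xk_R _ _ _ _ (by norm_num)]; norm_num
  have aW : (xk 27 1 * xz).R s E ≤ w := by
    rw [Ex.R_mul, xz_R, xk_R _ _ _ _ le_rfl]; push_cast; linarith only [hw27]
  have aC : (xk 354 100).R s E ≤ w * E := by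
    rw [xk_R _ _ _ _ (by norm_num)]; push_cast; linarith only [hcap]
  obtain ⟨i, hi⟩ := tchkE_sound e0 T1l 357 409 500 10 37 50 (by norm_num) (by norm_num)
      (by norm_num) (by norm_num) kc1 (by push_cast; linarith only [hs0]) (by push_cast; linarith only [hs1])
      (by push_cast; linarith only [hE0]) (by push_cast; linarith only [hE1])
  have key : ∀ n : ℤ, 0 ≤ Phi ((xk 1 5).R s E) ((xk 16 5).R s E) ((xt2 n).R s E)
      ((xt21 n).R s E) ((xk 3091 1755).R s E) s (1 - s ^ 2) E (vL E) w u →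
      ∃ t : ℝ, 0 ≤ Phi (1 / 5) (16 / 5) (t ^ 2) (2 * t - t ^ 2) (3091 / 1755) s (1 - s ^ 2) E
      (vL E) w u := by
    intro n h
    rw [a1, a2, a3, xt2_R, xt21_R] at h
    exact ⟨_, h⟩
  match i with
  | 0 => exact key 5 (famA_sound hs hs1' hE hzE hi aW hu hus)
  | 1 => exact key 0 (famC_sound hs hs1' hE hE1' hzE hi aW hut)
  | 2 => exact key 1 (famC_sound hs hs1' hE hE1' hzE hi aW hut)
  | 3 => exact key 4 (famC_sound hs hs1' hE hE1' hzE hi aW hut)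
  | 4 => exact key 0 (famD_sound hs hs1' hE hE1' hzE hi aC hw9 hut)
  | (n + 5) => exact (out_false hi (by simp only [F1l, List.length_cons, List.length_nil, zero_add, Nat.reduceAdd, le_add_iff_nonneg_left, zero_le])).elim

theorem Phi_pos2 (hs0 : 408 / 500 ≤ s) (hs1 : s ≤ 426 / 500) (hE0 : 1 / 5 ≤ E)
    (hE1 : E ≤ 37 / 50) (hzE : 1 - s ^ 2 ≤ E) (hw9 : 9 ≤ w)
    (hcap : 354 / 100 ≤ w * E) (hu : 0 ≤ u) (hus : u * s ≤ 1)
    (hut : u ≤ v0 s (1 - s ^ 2) E + v1 s (1 - s ^ 2) E * w) :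
    ∃ t : ℝ, 0 ≤ Phi (1 / 5) (16 / 5) (t ^ 2) (2 * t - t ^ 2) (3091 / 1755) s (1 - s ^ 2) E
      (vL E) w u := by
  have hs : 0 < s := by linarith only [hs0]
  have hs1' : s < 1 := by linarith only [hs1]
  have hE : 0 < E := by linarith only [hE0]
  have hE1' : E ≤ 1 := by linarith only [hE1]
  have e0 : (xz - Ex.Y).R s E ≤ 0 := by rw [Ex.R_sub, Ex.R_Y, xz_R]; linarith only [hzE]
  have a1 : (xk 1 5).R s E = 1 / 5 := by rw [xk_R _ _ _ _ (by norm_num)]; norm_num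
  have a2 : (xk 16 5).R s E = 16 / 5 := by rw [xk_R _ _ _ _ (by norm_num)]; norm_num
  have a3 : (xk 3091 1755).R s E = 3091 / 1755 := by
    rw [xk_R _ _ _ _ (by norm_num)]; norm_num
  have aW : (xk 9 1).R s E ≤ w := by
    rw [xk_R _ _ _ _ le_rfl]; push_cast; linarith only [hw9]
  have aC : (xk 354 100).R s E ≤ w * E := by
    rw [xk_R _ _ _ _ (by norm_num)]; push_cast; linarith only [hcap]
  obtain ⟨i, hi⟩ := tchkE_sound e0 T2l 408 426 500 10 37 50 (by norm_num) (by norm_num)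
      (by norm_num) (by norm_num) kc2 (by push_cast; linarith only [hs0]) (by push_cast; linarith only [hs1])
      (by push_cast; linarith only [hE0]) (by push_cast; linarith only [hE1])
  have key : ∀ n : ℤ, 0 ≤ Phi ((xk 1 5).R s E) ((xk 16 5).R s E) ((xt2 n).R s E)
      ((xt21 n).R s E) ((xk 3091 1755).R s E) s (1 - s ^ 2) E (vL E) w u →
      ∃ t : ℝ, 0 ≤ Phi (1 / 5) (16 / 5) (t ^ 2) (2 * t - t ^ 2) (3091 / 1755) s (1 - s ^ 2) E
      (vL E) w u := by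
    intro n h
    rw [a1, a2, a3, xt2_R, xt21_R] at h
    exact ⟨_, h⟩
  match i with
  | 0 => exact key 5 (famA_sound hs hs1' hE hzE hi aW hu hus)
  | 1 => exact key 3 (famC_sound hs hs1' hE hE1' hzE hi aW hut)
  | 2 => exact key 4 (famC_sound hs hs1' hE hE1' hzE hi aW hut)
  | 3 => exact key 0 (famD_sound hs hs1' hE hE1' hzE hi aC hw9 hut)
  | 4 => exact key 3 (famD_sound hs hs1' hE hE1' hzE hi aC hw9 hut)
  | (n + 5) => exact (out_false hi (by simp only [F2l, List.length_cons, List.length_nil, zero_add, Nat.reduceAdd, le_add_iff_nonneg_left, zero_le])).elim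

theorem Phi_pos3 (hs0 : 426 / 500 ≤ s) (hs1 : s ≤ 448 / 500) (hE0 : 1 / 5 ≤ E)
    (hE1 : E ≤ 37 / 50) (hzE : 1 - s ^ 2 ≤ E) (hw9 : 9 ≤ w)
    (hcap : 33 / 10 ≤ w * E) (hu : 0 ≤ u) (hus : u * s ≤ 1)
    (hut : u ≤ v0 s (1 - s ^ 2) E + v1 s (1 - s ^ 2) E * w) :
    ∃ t : ℝ, 0 ≤ Phi (3 / 13) (40 / 13) (t ^ 2) (2 * t - t ^ 2) (199 / 117) s (1 - s ^ 2) E
      (vL E) w u := by
  have hs : 0 < s := by (clear * - hs0; linarith)
  have hs1' : s < 1 := by linarith only [hs1]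
  have hE : 0 < E := by linarith only [hE0]
  have hE1' : E ≤ 1 := by linarith only [hE1]
  have e0 : (xz - Ex.Y).R s E ≤ 0 := by rw [Ex.R_sub, Ex.R_Y, xz_R]; linarith only [hzE]
  have a1 : (xk 3 13).R s E = 3 / 13 := by rw [xk_R _ _ _ _ (by norm_num)]; (clear * -; norm_num)
  have a2 : (xk 40 13).R s E = 40 / 13 := by rw [xk_R _ _ _ _ (by norm_num)]; norm_num
  have a3 : (xk 199 117).R s E = 199 / 117 := by
    rw [xk_R _ _ _ _ (by norm_num)]; norm_num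
  have aW : (xk 9 1).R s E ≤ w := by
    rw [xk_R _ _ _ _ le_rfl]; push_cast; linarith only [hw9]
  have aC : (xk 33 10).R s E ≤ w * E := by
    rw [xk_R _ _ _ _ (by norm_num)]; push_cast; linarith only [hcap]
  obtain ⟨i, hi⟩ := tchkE_sound e0 T3l 426 448 500 10 37 50 (by norm_num) (by norm_num)
      (by norm_num) (by norm_num) kc3 (by push_cast; linarith only [hs0]) (by push_cast; linarith only [hs1])
      (by push_cast; linarith only [hE0]) (by push_cast; linarith only [hE1])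
  have key : ∀ n : ℤ, 0 ≤ Phi ((xk 3 13).R s E) ((xk 40 13).R s E) ((xt2 n).R s E)
      ((xt21 n).R s E) ((xk 199 117).R s E) s (1 - s ^ 2) E (vL E) w u →
      ∃ t : ℝ, 0 ≤ Phi (3 / 13) (40 / 13) (t ^ 2) (2 * t - t ^ 2) (199 / 117) s (1 - s ^ 2) E
      (vL E) w u := by
    intro n h
    rw [a1, a2, a3, xt2_R, xt21_R] at h
    exact ⟨_, h⟩
  match i with
  | 0 => exact key 5 (famA_sound hs hs1' hE hzE hi aW hu hus)
  | 1 => exact key 5 (famB_sound hs hs1' hE hzE hi aC hu hus)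
  | 2 => exact key 4 (famC_sound hs hs1' hE hE1' hzE hi aW hut)
  | 3 => exact key 0 (famD_sound hs hs1' hE hE1' hzE hi aC hw9 hut)
  | 4 => exact key 2 (famD_sound hs hs1' hE hE1' hzE hi aC hw9 hut)
  | 5 => exact key 3 (famD_sound hs hs1' hE hE1' hzE hi aC hw9 hut)
  | (n + 6) => exact (out_false hi (by simp only [F3l, List.length_cons, List.length_nil, zero_add, Nat.reduceAdd, le_add_iff_nonneg_left, zero_le])).elim

end Vale.Agent.P237.AllN.Fxq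
end

section

/-!
# P237, block D, region `X ≥ 3`, `u ≥ 0`, `1/5 ≤ z ≤ 49/100`
-/

namespace Vale.Agent.P237.AllN.Fxq

open Real PolyPos

/-- closer: the test in the form `T₀ > θ' e₀`, `(1-θ') e₀ ≤ θ' ρ` -/
theorem jt_of_e {T e ρ u T0 e0 t tp : ℝ} (hρ : 0 < ρ) (ht : 0 ≤ t) (he : e = e0 + t)
    (hT : T0 + t ≤ T) (he0 : 0 ≤ e0) (htp : 0 < tp) (htp2 : tp ≤ 1 / 2)
    (h1 : (1 - tp) * e0 ≤ tp * ρ) (h2 : tp * e0 < T0) : JTest T e ρ u := by
  have hρe : 0 < ρ + e := by linarith only [hρ, ht, he, he0]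
  have hT0 : 0 < T0 := lt_of_le_of_lt (mul_nonneg htp.le he0) h2
  have heρ : e0 ≤ ρ := by
    by_contra hc
    push Not at hc
    have h3 : (1 - tp) * ρ < (1 - tp) * e0 := mul_lt_mul_of_pos_left hc (by linarith)
    have h4 : tp * ρ ≤ (1 - tp) * ρ := mul_le_mul_of_nonneg_right (by linarith only [htp2]) hρ.le
    linarith only [h1, h3, h4]
  have h3 : tp * e0 * (ρ + e0) < T0 * (ρ + e0) := mul_lt_mul_of_pos_right h2 (by linarith only [hρ, he0])
  have h4 : 0 ≤ e0 * (tp * ρ - (1 - tp) * e0) := mul_nonneg he0 (by linarith only [h1])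
  have h5 : 0 ≤ t * (T0 + ρ - e0) := mul_nonneg ht (by linarith only [hT0, heρ])
  have h6 : (T0 + t) * (ρ + e) ≤ T * (ρ + e) := mul_le_mul_of_nonneg_right hT hρe.le
  have h7 : e ^ 2 < T * (ρ + e) := by
    refine lt_of_lt_of_le ?_ h6
    rw [he]
    linarith
  exact ⟨hρe, h7.le, fun _ => h7⟩

/-! ## upper bound of `e₀` -/

theorem eU_ge {s E w tp : ℝ} (hs : 0 < s) (hE : 0 < E) {tpx : Ex} (htp : tpx.R s E = tp)
    (htp0 : 0 ≤ tp)
    (h : (∃ W : Ex, (∀ e ∈ famU tpx W, 0 ≤ e.R s E) ∧ W.R s E ≤ w) ∨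
      (∃ C : Ex, (∀ e ∈ famV tpx C, 0 ≤ e.R s E) ∧ C.R s E ≤ w * E)) :
    0 ≤ (tp / 5 - (1 - tp) *
      (3 * (1 - s ^ 2) * (E - 1 + vU E) + 1 / 29 * ((1 - s ^ 2) / s ^ 2) * vU E +
        4 * s ^ 2 * E * (1 / (s * (1 + s))) + (2 / s - 2 * s ^ 2) * (1 / s))) +
      (tp * (5 / s ^ 2 - 2 * (1 - s ^ 2) / s ^ 4) / 10 - (1 - tp) * (E - 1 + vU E)) * w +
      (tp / (10 * s ^ 4)) * w ^ 2 := by
  have hUD := vUD_pos hE
  have hd : 0 < 10 * s ^ 4 * (1 + s) * vUD E := by positivity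
  have hγ : 0 ≤ 10 * s ^ 4 * (1 + s) * vUD E * (tp / (10 * s ^ 4)) := by (clear * - hs hUD htp0; positivity)
  rcases h with ⟨W, hW, hw⟩ | ⟨C, hC, hw⟩
  · simp only [famU, List.mem_cons, List.not_mem_nil, or_false, forall_eq_or_imp, forall_eq] at hW
    obtain ⟨h1, h2⟩ := hW
    rw [q0_R, eUa_R hs hE, eUb_R hs hE, eUc_R hs, htp] at h1
    rw [q1_R, eUb_R hs hE, eUc_R hs, htp] at h2
    exact quad hd h1 h2 hγ hw
  · simp only [famV, List.mem_cons, List.not_mem_nil, or_false, forall_eq_or_imp, forall_eq] at hC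
    obtain ⟨h1, h2⟩ := hC
    rw [p0_R hE, eUa_R hs hE, eUb_R hs hE, eUc_R hs, htp] at h1
    rw [p1_R hE, eUb_R hs hE, eUc_R hs, htp] at h2
    have hE2 : 0 < E ^ 2 := by positivity
    exact quad hd (nonneg_of_mul_nonneg_right h1 hE2) (nonneg_of_mul_nonneg_right h2 hE) hγ
      (by rw [div_le_iff₀ hE]; exact hw)

/-- `(1-θ') e₀ ≤ θ' ρ` -/
theorem e_le {m z s l u c N tp : ℝ} (hm : 27 ≤ m) (hz : 0 < z) (hs : 0 < s)
    (hsz : s ^ 2 = 1 - z) (hl : 0 < l)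
    (hu : 0 ≤ u) (hus : u * s ≤ 1)
    (hc1 : 1 - 1 / (2 * m) ≤ c) (hc2 : c ≤ 1) (hc3 : c ^ 2 ≤ (m + 1) / (m + 2))
    (hN : N = log (1 + u) - u) (htp1 : tp ≤ 1)
    (h : 0 ≤ (tp / 5 - (1 - tp) *
      (3 * (1 - s ^ 2) * (exp (-(2 * l)) - 1 + vU (exp (-(2 * l)))) +
        1 / 29 * ((1 - s ^ 2) / s ^ 2) * vU (exp (-(2 * l))) +
        4 * s ^ 2 * exp (-(2 * l)) * (1 / (s * (1 + s))) + (2 / s - 2 * s ^ 2) * (1 / s))) +
      (tp * (5 / s ^ 2 - 2 * (1 - s ^ 2) / s ^ 4) / 10 -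
        (1 - tp) * (exp (-(2 * l)) - 1 + vU (exp (-(2 * l))))) * (m * z) +
      (tp / (10 * s ^ 4)) * (m * z) ^ 2) :
    (1 - tp) * dpE m z s l u c N ≤ tp * dpR m (z / s ^ 2) := by
  have hm0 : 0 < m := by linarith only [hm]
  have hs1 : s ≤ 1 := by nlinarith only [hz, hsz]
  set E := exp (-(2 * l)) with hE
  have hE0 : 0 < E := exp_pos _
  have hE1 : E ≤ 1 := by rw [hE]; exact exp_le_one_iff.2 (by linarith only [hl])
  have hU : 2 * l ≤ vU E := by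
    have := fv_log_le (p := E) ⟨hE0, hE1⟩
    rw [hE, log_exp, neg_neg] at this
    refine this.trans (le_of_eq ?_)
    unfold vU vUD
    rw [← hE]
  set φ := u - log (1 + u) with hφ
  have hφ0 : 0 ≤ φ := by
    have := log_le_sub_one_of_pos (show 0 < 1 + u by linarith only [hu])
    rw [hφ]; linarith only [this]
  have hN' : N = -φ := by rw [hN, hφ]; ring
  have hc0 : 0 ≤ c := by
    have : 1 / (2 * m) ≤ 1 := by rw [div_le_one (by positivity)]; linarith only [hm]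
    linarith only [hc1, this]
  have hz' : z = 1 - s ^ 2 := by linarith only [hsz]
  -- pieces
  have B1 : (m + 3) * z * (E - 1 + 2 * l) ≤ (m + 3) * z * (E - 1 + vU E) :=
    mul_le_mul_of_nonneg_left (by linarith only [hU]) (by positivity)
  have hW : u ^ 2 / (1 + u) ≤ 1 / (s * (1 + s)) := by
    rw [div_le_div_iff₀ (by linarith only [hu]) (by positivity)]
    linarith only [mul_nonneg (le_of_lt (sub_pos.2 hs)) (sub_nonneg.2 (mul_nonneg hu (sub_nonneg.2 hus))), mul_nonneg (sub_nonneg.2 hus) (sub_nonneg.2 hus), mul_nonneg hu (sub_nonneg.2 hus)]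
  have B2 : 4 * s ^ 2 * E * (u ^ 2 / (1 + u)) ≤ 4 * s ^ 2 * E * (1 / (s * (1 + s))) :=
    mul_le_mul_of_nonneg_left hW (by positivity)
  have B3 : 2 * c / s * N ≤ 0 := by
    rw [hN']
    have : 0 ≤ 2 * c / s * φ := by (clear * - hc0 hs hφ0; positivity)
    linarith only [this]
  have hu1s : u ≤ 1 / s := by rw [le_div_iff₀ hs]; exact hus
  have h1s : 1 ≤ 1 / s := by rw [le_div_iff₀ hs]; linarith only [hs1]
  have B4 : (2 * c / s - 2 * s ^ 2 + 2 * (1 - c)) * u ≤ (2 / s - 2 * s ^ 2) * (1 / s) := by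
    have h1 : 2 * c / s - 2 * s ^ 2 + 2 * (1 - c) ≤ 2 / s - 2 * s ^ 2 := by
      have e : (2 / s - 2 * s ^ 2) - (2 * c / s - 2 * s ^ 2 + 2 * (1 - c)) =
        2 * ((1 - c) * (1 / s - 1)) := by ring
      have := mul_nonneg (by linarith only [hc2] : 0 ≤ 1 - c) (by linarith only [h1s] : 0 ≤ 1 / s - 1)
      linarith only [e, this]
    have h2 : 0 ≤ 2 / s - 2 * s ^ 2 := by
      have : 2 / s = 2 * (1 / s) := by ring
      rw [this]; linarith only [h1s, hsz, hz]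
    calc _ ≤ (2 / s - 2 * s ^ 2) * u := mul_le_mul_of_nonneg_right h1 hu
      _ ≤ _ := mul_le_mul_of_nonneg_left hu1s h2
  have B5 : (2 * c / s - 2 + 2 * (1 - c) * (1 - m * (z / s ^ 2))) * l ≤
      1 / 29 * (z / s ^ 2) * vU E := by
    have h1 := mul_le_mul_of_nonneg_right (fpn_r_le hm0 hz hs (by linarith only [hsz]) hc2 hc3) hl.le
    have hy : 0 ≤ 2 * (z / s ^ 2) := by positivity
    have h2 : 2 * (z / s ^ 2) / (m + 2) ≤ 2 * (z / s ^ 2) / 29 :=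
      div_le_div_of_nonneg_left hy (by norm_num) (by linarith only [hm])
    have h3 := mul_le_mul_of_nonneg_right h2 hl.le
    have h4 : 1 / 29 * (z / s ^ 2) * (2 * l) ≤ 1 / 29 * (z / s ^ 2) * vU E :=
      mul_le_mul_of_nonneg_left hU (by positivity)
    have h5 : 2 * (z / s ^ 2) / 29 * l = 1 / 29 * (z / s ^ 2) * (2 * l) := by ring
    linarith only [h1, h3, h4]
  have B : dpE m z s l u c N ≤ (m + 3) * z * (E - 1 + vU E) +
      4 * s ^ 2 * E * (1 / (s * (1 + s))) + (2 / s - 2 * s ^ 2) * (1 / s) +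
      1 / 29 * (z / s ^ 2) * vU E := by
    unfold dpE
    rw [← hE]
    linarith only [B1, B2, B3, B4, B5]
  have B' := mul_le_mul_of_nonneg_left B (by linarith only [htp1] : 0 ≤ 1 - tp)
  refine B'.trans ?_
  rw [← hz'] at h
  have e : tp * dpR m (z / s ^ 2) - (1 - tp) * ((m + 3) * z * (E - 1 + vU E) +
      4 * s ^ 2 * E * (1 / (s * (1 + s))) + (2 / s - 2 * s ^ 2) * (1 / s) +
      1 / 29 * (z / s ^ 2) * vU E) = (tp / 5 - (1 - tp) *
      (3 * z * (E - 1 + vU E) + 1 / 29 * (z / s ^ 2) * vU E +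
        4 * s ^ 2 * E * (1 / (s * (1 + s))) + (2 / s - 2 * s ^ 2) * (1 / s))) +
      (tp * (5 / s ^ 2 - 2 * z / s ^ 4) / 10 - (1 - tp) * (E - 1 + vU E)) * (m * z) +
      (tp / (10 * s ^ 4)) * (m * z) ^ 2 := by
    unfold dpR; ring
  (clear * - h e; linarith only [e, h])

/-! ## lower bound of `e₀` -/

theorem r_ge {m z s c : ℝ} (hm : 27 ≤ m) (hz : 0 < z) (hs : 0 < s) (hsz : s ^ 2 = 1 - z)
    (hc1 : 1 - 1 / (2 * m) ≤ c) (hc2 : c ≤ 1) :
    -((1 / s - 1) ^ 2 + 1 / (27 * s)) ≤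
      2 * c / s - 2 + 2 * (1 - c) * (1 - m * (z / s ^ 2)) := by
  have hm0 : 0 < m := by linarith only [hm]
  have h1s : 0 < 1 / s := by positivity
  have e : 2 * c / s - 2 + 2 * (1 - c) * (1 - m * (z / s ^ 2)) =
    2 * (1 / s) - 2 - 2 * (1 - c) * (1 / s) + 2 * (1 - c) - 2 * (1 - c) * m * (z / s ^ 2) := by
    ring
  rw [e]
  have hc3 : 2 * (1 - c) * m ≤ 1 := by
    have h1 : 1 - c ≤ 1 / (2 * m) := by linarith only [hc1]
    have h2 := mul_le_mul_of_nonneg_right h1 (by positivity : 0 ≤ 2 * m)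
    have h3 : 1 / (2 * m) * (2 * m) = 1 := by field_simp
    linarith only [h2, h3]
  have hc4 : 2 * (1 - c) ≤ 1 / 27 := by
    have : (1 - c) * 27 ≤ (1 - c) * m := mul_le_mul_of_nonneg_left hm (by linarith only [hc2])
    linarith only [hc3, this]
  have h3 : 2 * (1 - c) * (1 / s) ≤ 1 / (27 * s) := by
    have h := mul_le_mul_of_nonneg_right hc4 h1s.le
    have e : 1 / 27 * (1 / s) = 1 / (27 * s) := by field_simp
    linarith only [h, e]
  have h4 : 2 * (1 - c) * m * (z / s ^ 2) ≤ z / s ^ 2 :=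
    mul_le_of_le_one_left (by positivity) hc3
  have hz' : z = 1 - s ^ 2 := by linarith only [hsz]
  have h5 : z / s ^ 2 = (1 / s) ^ 2 - 1 := by rw [hz']; (clear * - hs; field_simp)
  have h6 : (1 / s - 1) ^ 2 = (1 / s) ^ 2 - 2 * (1 / s) + 1 := by ring
  linarith only [hc2, h3, h4, h5]

theorem phi_le {s u : ℝ} (hs : 0 < s) (hu : 0 ≤ u) (hus : u * s ≤ 1) :
    u - log (1 + u) ≤ u * ((1 + 3 * s) / vsg s) := by
  have hsg : 0 < vsg s := by unfold vsg; positivity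
  refine (log_defect hu).trans ?_
  have e : u ^ 2 * (3 + u) / (6 + 6 * u + u ^ 2) = u * (u * (3 + u) / (6 + 6 * u + u ^ 2)) := by
    ring
  rw [e]
  apply mul_le_mul_of_nonneg_left _ hu
  rw [div_le_div_iff₀ (by (clear * - hu; positivity)) hsg]
  unfold vsg
  (by_contra nlg; linarith only [nlg, mul_nonneg (le_of_lt (sub_pos.2 hs)) (sub_nonneg.2 (mul_nonneg (mul_nonneg hu hs.le) (sub_nonneg.2 hus))), mul_nonneg (sub_nonneg.2 hus) (le_of_lt (sub_pos.2 hs)), mul_pos (sub_pos.2 (not_le.1 nlg)) (sub_pos.2 hs), mul_nonneg (sq_nonneg (s : ℝ)) (sub_nonneg.2 hus), mul_nonneg (mul_nonneg hu hs.le) (sub_nonneg.2 hus)])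

theorem C1_aux {s u c N : ℝ} (hs : 0 < s) (hu : 0 ≤ u) (hus : u * s ≤ 1)
    (hc0 : 53 / 54 ≤ c) (hc2 : c ≤ 1) (hN : N = log (1 + u) - u) :
    u * (53 / 27 * ((6 * s + 3) / vsg s) - 2 * s ^ 2) ≤
      2 * c / s * N + (2 * c / s - 2 * s ^ 2 + 2 * (1 - c)) * u := by
  have hsg : 0 < vsg s := by unfold vsg; positivity
  have hφu := phi_le hs hu hus
  set φ := u - log (1 + u) with hφ
  have hN' : N = -φ := by rw [hN, hφ]; ring
  have h1 : 2 * c / s * φ ≤ 2 * c / s * (u * ((1 + 3 * s) / vsg s)) :=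
    mul_le_mul_of_nonneg_left hφu (by positivity)
  have h2 : 2 * c / s * u - 2 * c / s * (u * ((1 + 3 * s) / vsg s)) =
      u * (2 * c * ((6 * s + 3) / vsg s)) := by
    have : (1 + 3 * s) / vsg s = 1 - s * ((6 * s + 3) / vsg s) := by
      field_simp
      unfold vsg
      ring
    rw [this]
    field_simp
    ring
  have h3 : u * (53 / 27 * ((6 * s + 3) / vsg s)) ≤ u * (2 * c * ((6 * s + 3) / vsg s)) := by
    apply mul_le_mul_of_nonneg_left _ hu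
    apply mul_le_mul_of_nonneg_right _ (by positivity)
    linarith only [hc0]
  have h4 : 0 ≤ 2 * (1 - c) * u := mul_nonneg (by linarith only [hc2]) hu
  rw [hN']
  linarith

theorem e_ge {m z s l u c N : ℝ} (hm : 27 ≤ m) (hz : 0 < z) (hs0 : 357 / 500 ≤ s)
    (hs1 : s ≤ 448 / 500) (hsz : s ^ 2 = 1 - z) (hw9 : 9 ≤ m * z) (hl : 0 < l)
    (hE0' : 1 / 5 ≤ exp (-(2 * l))) (hE1' : exp (-(2 * l)) ≤ 37 / 50)
    (hzE : z ≤ exp (-(2 * l))) (hu : 0 ≤ u) (hus : u * s ≤ 1)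
    (hc1 : 1 - 1 / (2 * m) ≤ c) (hc2 : c ≤ 1)
    (hN : N = log (1 + u) - u) : 0 ≤ dpE m z s l u c N := by
  have hs : 0 < s := by (clear * - hs0; linarith)
  have hm0 : 0 < m := by linarith only [hm]
  have hs1' : s ≤ 1 := by linarith only [hs1]
  set E := exp (-(2 * l)) with hE
  have hE0 : 0 < E := exp_pos _
  have hE1 : E ≤ 1 := by linarith only [hE1']
  have hL : vL E ≤ 2 * l := by
    have := fv_log_ge (E := E) ⟨hE0, hE1⟩
    rw [hE, log_exp, neg_neg] at this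
    refine le_trans (le_of_eq ?_) this
    unfold vL vN vD
    rw [← hE]
  have hsg : 0 < vsg s := by unfold vsg; positivity
  have hD := vD_pos hE0
  have hz' : z = 1 - s ^ 2 := by linarith only [hsz]
  have hc0 : 53 / 54 ≤ c := by
    have h1 : 1 / (2 * m) ≤ 1 / 54 := by
      apply one_div_le_one_div_of_le (by norm_num) (by linarith only [hm])
    linarith only [hc1, h1]
  have h1s : 1 ≤ 1 / s := by rw [le_div_iff₀ hs]; linarith only [hs1]
  have hu1s : u ≤ 1 / s := by rw [le_div_iff₀ hs]; exact hus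
  -- kernel
  have e0 : (xz - Ex.Y).R s E ≤ 0 := by rw [Ex.R_sub, Ex.R_Y, xz_R]; linarith only [hsz, hzE]
  obtain ⟨hk1, hk2⟩ : 0 ≤ eLa.R s E ∧ 0 ≤ (eLa + eLb).R s E := by
    obtain ⟨i, hi⟩ := tchkE_sound e0 (.leaf 0) 357 448 500 10 37 50 (by norm_num) (by norm_num)
      (by norm_num) (by norm_num) kcL (by push_cast; linarith only [hs0]) (by push_cast; linarith only [hs1])
      (by push_cast; linarith only [hE0']) (by push_cast; linarith only [hE1'])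
    match i with
    | 0 => exact ⟨hi _ (by simp only [Int.reduceNeg, List.getD_eq_getElem?_getD, List.length_cons, List.length_nil, zero_add, Order.lt_one_iff, getElem?_pos, List.getElem_cons_zero, Option.getD_some, List.mem_cons, List.not_mem_nil, or_false, true_or]), hi _ (by simp only [Int.reduceNeg, List.getD_eq_getElem?_getD, List.length_cons, List.length_nil, zero_add, Order.lt_one_iff, getElem?_pos, List.getElem_cons_zero, Option.getD_some, List.mem_cons, List.not_mem_nil, or_false, or_true])⟩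
    | (n + 1) => exact (out_false hi (by simp)).elim
  rw [Ex.R_add, eLa_R hs hE0, eLb_R hs, ← mul_add] at hk2
  rw [eLa_R hs hE0] at hk1
  have hp : 0 < s ^ 3 * vsg s * vD E := by (clear * - hs0 hsg hD; positivity)
  have k1 := nonneg_of_mul_nonneg_right hk1 hp
  have k2 := nonneg_of_mul_nonneg_right hk2 hp
  rw [← hz'] at k1 k2
  set g := 53 / 27 * ((6 * s + 3) / vsg s) - 2 * s ^ 2 with hg
  set ρr := (1 / s - 1) ^ 2 + 1 / (27 * s) with hρr
  -- the `u` part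
  have C1 : u * g ≤ 2 * c / s * N + (2 * c / s - 2 * s ^ 2 + 2 * (1 - c)) * u :=
    C1_aux hs hu hus hc0 hc2 hN
  -- the `l` part
  have C2 : -(ρr * l) ≤ (2 * c / s - 2 + 2 * (1 - c) * (1 - m * (z / s ^ 2))) * l := by
    have h1 : -ρr ≤ 2 * c / s - 2 + 2 * (1 - c) * (1 - m * (z / s ^ 2)) :=
      r_ge hm hz hs hsz hc1 hc2
    have := mul_le_mul_of_nonneg_right h1 hl.le
    linarith only [this]
  have hX0 : 0 ≤ E - 1 + 2 * l := by
    have := add_one_le_exp (-(2 * l))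
    rw [← hE] at this
    linarith only [this]
  have C3 : (9 + 3 * z) * (E - 1 + 2 * l) ≤ (m + 3) * z * (E - 1 + 2 * l) := by
    apply mul_le_mul_of_nonneg_right _ hX0
    linarith only [hw9]
  have hρr1 : ρr ≤ 1 := by
    have h1 : 1 / s ≤ 500 / 357 := by rw [div_le_iff₀ hs]; linarith only [hs0]
    have h2 : 1 / (27 * s) ≤ 1 / 19 := by
      apply one_div_le_one_div_of_le (by norm_num) (by linarith only [hs0])
    have h3 : (1 / s - 1) ^ 2 ≤ (143 / 357) ^ 2 :=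
      pow_le_pow_left₀ (by linarith only [h1s]) (by linarith only [h1]) 2
    have h4 : (143 / 357 : ℝ) ^ 2 ≤ 17 / 100 := by norm_num
    rw [hρr]
    (clear * - h2 h3; linarith)
  have C4 : (9 + 3 * z) * (E - 1 + vL E) - ρr / 2 * vL E ≤
      (9 + 3 * z) * (E - 1 + 2 * l) - ρr / 2 * (2 * l) := by
    have : 0 ≤ (9 + 3 * z - ρr / 2) * (2 * l - vL E) :=
      mul_nonneg (by linarith only [hz, hρr1]) (by linarith only [hL])
    linarith only [this]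
  have C5 : 0 ≤ 4 * s ^ 2 * E * (u ^ 2 / (1 + u)) := by (clear * - hs0 hu; positivity)
  -- base
  have C6 : 0 ≤ ((9 + 3 * z) * (E - 1 + vL E) - ρr / 2 * vL E) + u * g := by
    set B := (9 + 3 * z) * (E - 1 + vL E) - ρr / 2 * vL E with hB
    have k3 : 0 ≤ s * B + g := by
      have : s * B + g = s * (B + 1 / s * g) := by (clear * - hs0; field_simp)
      rw [this]
      exact mul_nonneg hs.le k2
    have e : B + u * g = (1 - u * s) * B + u * (s * B + g) := by ring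
    rw [e]
    exact add_nonneg (mul_nonneg (by linarith only [hus]) k1) (mul_nonneg hu k3)
  unfold dpE
  rw [← hE]
  linarith only [C1, C2, C3, C4, C5, C6]

/-! ## the region -/

/-- reduction from a lower bound at `N = log (1+u) - u` -/
theorem jt_N {m z s l u c G N tp : ℝ} (hm : 27 ≤ m) (hz : 0 < z) (hs : 0 < s)
    (hc0 : 0 ≤ c) (hc2 : c ≤ 1) (hN : log (1 + u) - u ≤ N)
    (he0 : 0 ≤ dpE m z s l u c (log (1 + u) - u)) (htp : 0 < tp) (htp2 : tp ≤ 1 / 2)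
    (h1 : (1 - tp) * dpE m z s l u c (log (1 + u) - u) ≤ tp * dpR m (z / s ^ 2))
    (h2 : tp * dpE m z s l u c (log (1 + u) - u) < dpT m z s l u G (log (1 + u) - u)) :
    JTest (dpT m z s l u G N) (dpE m z s l u c N) (dpR m (z / s ^ 2)) u := by
  have hy : 0 < z / s ^ 2 := by positivity
  have hρ : 0 < dpR m (z / s ^ 2) := by
    unfold dpR
    have : 0 ≤ m * (m - 2) * (z / s ^ 2) ^ 2 :=
      mul_nonneg (mul_nonneg (by linarith only [hm]) (by linarith only [hm])) (sq_nonneg _)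
    have : 0 ≤ 5 * m * (z / s ^ 2) := by positivity
    (clear l u c G N hc0 hc2 hN he0 h1 h2 hy this; positivity)
  refine jt_of_e (t := 2 * c / s * (N - (log (1 + u) - u))) hρ ?_ ?_ ?_ he0 htp htp2 h1 h2
  · exact mul_nonneg (by positivity) (by linarith only [hN])
  · unfold dpE; ring
  · have hκ : 2 * c / s ≤ 2 * (m + 1) / ((m - 1) * s) := by
      rw [← div_div]
      apply div_le_div_of_nonneg_right _ hs.le
      rw [le_div_iff₀ (by linarith only [hm])]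
      nlinarith only [hc2, hm]
    have h3 := mul_le_mul_of_nonneg_right hκ (by linarith only [hN] : 0 ≤ N - (log (1 + u) - u))
    unfold dpT
    linarith

theorem fxq_large {m z s l u c G N : ℝ} (hm : 27 ≤ m) (hz0 : 1 / 5 ≤ z) (hz1 : z ≤ 49 / 100)
    (hs : 0 < s) (hsz : s ^ 2 = 1 - z) (hw : 9 ≤ m * z) (hl : 0 < l)
    (hE1 : exp (-(2 * l)) ≤ 37 / 50) (hzl : z * exp (2 * l) ≤ 1)
    (hcap : 33 / 10 ≤ m * z * exp (-(2 * l)))
    (hcap' : 34 / 125 ≤ z → 354 / 100 ≤ m * z * exp (-(2 * l)))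
    (hu : 0 ≤ u) (hus : u * s ≤ 1)
    (htail : 1 + u ≤ ((m + 1) * z + 1) / (2 * z) * ((exp (-(2 * l)) - z) / s ^ 2))
    (hc1 : 1 - 1 / (2 * m) ≤ c) (hc2 : c ≤ 1)
    (hc3 : c ^ 2 ≤ (m + 1) / (m + 2)) (hN : log (1 + u) - u ≤ N)
    (hG : 2 * (-(s * (z * (exp (2 * l) - 1)) / ((1 + s) * (2 * s ^ 2 * (1 + s) -
      z * (exp (2 * l) - 1) * (1 + 2 * s))))) + 2 * z / (s * (1 + s) ^ 2) * l ≤ G) :
    JTest (dpT m z s l u G N) (dpE m z s l u c N) (dpR m (z / s ^ 2)) u := by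
  have hz : 0 < z := by linarith only [hz0]
  have hz' : z = 1 - s ^ 2 := by linarith only [hsz]
  have hm0 : 0 < m := by linarith only [hm]
  have hs0 : 357 / 500 ≤ s := by
    by_contra h
    push Not at h
    have : s ^ 2 < (357 / 500) ^ 2 := pow_lt_pow_left₀ h hs.le (by norm_num)
    norm_num at this
    linarith only [hz1, hsz, this]
  have hs1 : s ≤ 448 / 500 := by
    by_contra h
    push Not at h
    have : (448 / 500) ^ 2 < s ^ 2 := pow_lt_pow_left₀ h (by norm_num) (by norm_num)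
    norm_num at this
    linarith only [hz0, hsz, this]
  have hs1' : s < 1 := by linarith only [hs1]
  set E := exp (-(2 * l)) with hE
  have hE0 : 0 < E := exp_pos _
  have hE2 : exp (2 * l) = 1 / E := by rw [hE, exp_neg]; simp
  have hzE : z ≤ E := by
    rw [hE2] at hzl
    rw [mul_one_div, div_le_one hE0] at hzl
    exact hzl
  have hzE' : 1 - s ^ 2 ≤ E := by linarith only [hsz, hzE]
  have hE5 : 1 / 5 ≤ E := by linarith only [hz0, hzE]
  have hH := vH_pos hs hs1' hzE'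
  -- the correction
  have hG' : -(2 * s * z * (1 - E) / ((1 + s) * vH s E)) + z * (2 * l) / (s * (1 + s) ^ 2) ≤ G := by
    refine le_trans (le_of_eq ?_) hG
    rw [hE2]
    have e1 : z * (1 / E - 1) = z * (1 - E) / E := by (clear * - hE0 hz0; field_simp)
    have e2 : 2 * s ^ 2 * (1 + s) - z * (1 - E) / E * (1 + 2 * s) = vH s E / E := by
      unfold vH; rw [← hz']; (clear * - hE0; field_simp)
    rw [e1, e2]
    have h1 : 1 + s ≠ 0 := by positivity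
    have h2 := hH.ne'
    generalize vH s E = H at *
    (clear * - h2 hE0 h1 hz0 hs; field_simp)
  have hc0 : 0 ≤ c := by
    have : 1 / (2 * m) ≤ 1 := by rw [div_le_one (by positivity)]; linarith only [hm]
    linarith only [hc1, this]
  have hL : vL E ≤ 2 * l := by
    have := fv_log_ge (E := E) ⟨hE0, by linarith only [hE1]⟩
    rw [hE, log_exp, neg_neg] at this
    refine le_trans (le_of_eq ?_) this
    unfold vL vN vD
    rw [← hE]
  have hL0 := vL_nonneg hE0 (by linarith only [hE1])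
  have hw27 : 27 * z ≤ m * z := mul_le_mul_of_nonneg_right hm hz.le
  have hut : u ≤ v0 s (1 - s ^ 2) E + v1 s (1 - s ^ 2) E * (m * z) := by
    have e : v0 s (1 - s ^ 2) E + v1 s (1 - s ^ 2) E * (m * z) =
        ((m + 1) * z + 1) / (2 * z) * ((E - z) / s ^ 2) - 1 := by
      rw [← hz']; unfold v0 v1; field_simp; ring
    rw [e]; linarith only [htail]
  have hu75 : u ≤ 3 / 2 := by
    have : u * (357 / 500) ≤ u * s := mul_le_mul_of_nonneg_left hs0 hu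
    linarith only [hus, this]
  have he0 := e_ge (c := c) hm hz hs0 hs1 hsz hw hl hE5 hE1 hzE hu hus hc1 hc2
    (N := log (1 + u) - u) rfl
  -- monotonicity in `λ`
  have hmono : ∀ tp c4 t2 t21 kF : ℝ, 0 ≤ tp → tp ≤ 1 / 4 →
      Phi tp c4 t2 t21 kF s z E (vL E) (m * z) u ≤
      Phi tp c4 t2 t21 kF s z E (2 * l) (m * z) u := by
    intro tp c4 t2 t21 kF htp htp4
    refine Phi_mono hL0 hL ?_ ?_
    · have h1 := K_nonneg hz0 hw
      have h2 : 0 ≤ z / (s * (1 + s) ^ 2) := by (clear * - hz0 hs; positivity)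
      have h3 : z / s ^ 2 ≤ 1 := by
        rw [div_le_one (by positivity)]; linarith only [hz1, hsz]
      have h4 : tp * (1 / 29 * (z / s ^ 2)) ≤ 1 / 4 * (1 / 29 * 1) :=
        mul_le_mul htp4 (by linarith only [h3]) (by positivity) (by norm_num)
      have h5 : 3 / 25 * (m * z + 3 * z) * u ≤ 3 / 25 * (m * z + 3 * z) * (3 / 2) :=
        mul_le_mul_of_nonneg_left hu75 (by positivity)
      have h6 : (m * z + 3 * z) * (3 / 4) ≤ (m * z + 3 * z) * (1 - tp) :=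
        mul_le_mul_of_nonneg_left (by linarith only [htp4]) (by positivity)
      linarith only [hw, hz, h1, h2, h4, h5, h6]
    · have := c2_nonneg hs0 hs1 hw (by rw [← hz']; exact hw27)
      rw [← hz'] at this
      exact this
  rcases le_total s (426 / 500) with hsA | hsB
  · have hz272 : 34 / 125 ≤ z := by nlinarith only [hsz, hs0, hsA]
    have hcap3 := hcap' hz272
    obtain ⟨t, ht⟩ : ∃ t : ℝ, 0 ≤ Phi (1 / 5) (16 / 5) (t ^ 2) (2 * t - t ^ 2) (3091 / 1755) s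
        (1 - s ^ 2) E (vL E) (m * z) u := by
      rcases le_total s (409 / 500) with h | h
      · exact Phi_pos1 hs0 h hE5 hE1 hzE' hw (by rw [← hz']; exact hw27) hcap3 hu hus hut
      · exact Phi_pos2 (by linarith only [h]) hsA hE5 hE1 hzE' hw hcap3 hu hus hut
    rw [← hz'] at ht
    have h1 := hmono (1 / 5) (16 / 5) (t ^ 2) (2 * t - t ^ 2) (3091 / 1755) (by norm_num)
      (by norm_num)
    have h2 := F_ge (tp := 1 / 5) (kF := 3091 / 1755) (t := t) (c := c) (u := u) (l := l)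
      (N := log (1 + u) - u) (G := G) hm hz hs hs1' hsz hl.le hzl hu hus hc1 hc2 hc3
      rfl hG' (by norm_num) (by norm_num) (by norm_num)
    have e4 : (4 * (1 - 1 / 5) : ℝ) = 16 / 5 := by norm_num
    rw [e4, ← hE] at h2
    have hUp : (1 - 1 / 5) * dpE m z s l u c (log (1 + u) - u) ≤ 1 / 5 * dpR m (z / s ^ 2) := by
      refine e_le hm hz hs hsz hl hu hus hc1 hc2 hc3 rfl (by norm_num) ?_
      rw [← hE]
      have atp : (xk 1 5).R s E = 1 / 5 := by rw [xk_R _ _ _ _ (by norm_num)]; norm_num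
      have e0 : (xz - Ex.Y).R s E ≤ 0 := by rw [Ex.R_sub, Ex.R_Y, xz_R]; linarith only [hsz, hzE]
      have aC : (xk 354 100).R s E ≤ m * z * E := by
        rw [xk_R _ _ _ _ (by norm_num)]; push_cast; linarith only [hcap3]
      refine eU_ge hs hE0 atp (by norm_num) ?_
      rcases le_total s (409 / 500) with h | h
      · obtain ⟨i, hi⟩ := tchkE_sound e0 (.sy (.leaf 1) (.leaf 0)) 357 409 500 10 37 50
          (by norm_num) (by norm_num) (by (clear * -; norm_num)) (by norm_num) kcU1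
          (by push_cast; linarith only [hs0]) (by push_cast; linarith only [h]) (by push_cast; linarith only [hz0, hzE])
          (by push_cast; linarith only [hE1])
        match i with
        | 0 =>
          left
          refine ⟨xk 27 1 * xz, hi, ?_⟩
          rw [Ex.R_mul, xz_R, xk_R _ _ _ _ le_rfl, ← hz']; push_cast; linarith only [hw27]
        | 1 => right; exact ⟨_, hi, aC⟩
        | (n + 2) => exact (out_false hi (by simp only [List.length_cons, List.length_nil, zero_add, Nat.reduceAdd, le_add_iff_nonneg_left, zero_le])).elim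
      · obtain ⟨i, hi⟩ := tchkE_sound e0 (.sy (.leaf 1) (.leaf 0)) 408 426 500 10 37 50
          (by norm_num) (by norm_num) (by norm_num) (by norm_num) kcU2
          (by push_cast; linarith only [h]) (by push_cast; linarith only [hsA]) (by push_cast; linarith only [hzE, hz272])
          (by push_cast; linarith only [hE1])
        match i with
        | 0 =>
          left
          refine ⟨xk 9 1, hi, ?_⟩
          rw [xk_R _ _ _ _ le_rfl]; push_cast; linarith only [hw]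
        | 1 => right; exact ⟨_, hi, aC⟩
        | (n + 2) => exact (out_false hi (by simp only [List.length_cons, List.length_nil, zero_add, Nat.reduceAdd, le_add_iff_nonneg_left, zero_le])).elim
    exact jt_N hm hz hs hc0 hc2 hN he0 (tp := 1 / 5) (by norm_num) (by norm_num) hUp (by linarith only [ht, h1, h2])
  · obtain ⟨t, ht⟩ := Phi_pos3 hsB hs1 hE5 hE1 hzE' hw hcap hu hus hut
    rw [← hz'] at ht
    have h1 := hmono (3 / 13) (40 / 13) (t ^ 2) (2 * t - t ^ 2) (199 / 117) (by norm_num)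
      (by norm_num)
    have h2 := F_ge (tp := 3 / 13) (kF := 199 / 117) (t := t) (c := c) (u := u) (l := l)
      (N := log (1 + u) - u) (G := G) hm hz hs hs1' hsz hl.le hzl hu hus hc1 hc2 hc3
      rfl hG' (by norm_num) (by norm_num) (by norm_num)
    have e4 : (4 * (1 - 3 / 13) : ℝ) = 40 / 13 := by norm_num
    rw [e4, ← hE] at h2
    have hUp : (1 - 3 / 13) * dpE m z s l u c (log (1 + u) - u) ≤
        3 / 13 * dpR m (z / s ^ 2) := by
      refine e_le hm hz hs hsz hl hu hus hc1 hc2 hc3 rfl (by norm_num) ?_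
      rw [← hE]
      have atp : (xk 3 13).R s E = 3 / 13 := by rw [xk_R _ _ _ _ (by norm_num)]; norm_num
      have e0 : (xz - Ex.Y).R s E ≤ 0 := by rw [Ex.R_sub, Ex.R_Y, xz_R]; linarith only [hsz, hzE]
      have aC : (xk 33 10).R s E ≤ m * z * E := by
        rw [xk_R _ _ _ _ (by norm_num)]; push_cast; linarith only [hcap]
      refine eU_ge hs hE0 atp (by norm_num) ?_
      obtain ⟨i, hi⟩ := tchkE_sound e0 (.sy (.leaf 1) (.leaf 0)) 426 448 500 10 37 50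
          (by norm_num) (by norm_num) (by norm_num) (by norm_num) kcU3
          (by push_cast; linarith only [hsB]) (by push_cast; linarith only [hs1]) (by push_cast; linarith only [hz0, hzE])
          (by push_cast; linarith only [hE1])
      match i with
      | 0 =>
        left
        refine ⟨xk 9 1, hi, ?_⟩
        rw [xk_R _ _ _ _ le_rfl]; push_cast; linarith only [hw]
      | 1 => right; exact ⟨_, hi, aC⟩
      | (n + 2) => exact (out_false hi (by simp only [List.length_cons, List.length_nil, zero_add, Nat.reduceAdd, le_add_iff_nonneg_left, zero_le])).elim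
    exact jt_N hm hz hs hc0 hc2 hN he0 (tp := 3 / 13) (by norm_num) (by norm_num) hUp
      (by linarith only [ht, h1, h2])

end Vale.Agent.P237.AllN.Fxq

namespace Vale.Agent.P237.AllN

open Real

/-- **the region `X ≥ 3`, `u ≥ 0`, `1/5 ≤ z ≤ 49/100`, `0 < l`** -/
theorem fxq_region {m z s l u c G N : ℝ} (hm : 27 ≤ m) (hz0 : 1 / 5 ≤ z) (hz1 : z ≤ 49 / 100)
    (hs : 0 < s) (hsz : s ^ 2 = 1 - z) (hw : 9 ≤ m * z) (hl : 0 < l)
    (hzl : z * exp (2 * l) ≤ 1)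
    (hcap : 33 / 10 ≤ m * z * exp (-(2 * l)))
    (hcap' : 34 / 125 ≤ z → 354 / 100 ≤ m * z * exp (-(2 * l)))
    (hu : 0 ≤ u) (hus : u * s ≤ 1)
    (htail : 1 + u ≤ ((m + 1) * z + 1) / (2 * z) * ((exp (-(2 * l)) - z) / s ^ 2))
    (hc1 : 1 - 1 / (2 * m) ≤ c) (hc2 : c ≤ 1)
    (hc3 : c ^ 2 ≤ (m + 1) / (m + 2)) (hN : log (1 + u) - u ≤ N)
    (hG : 2 * (-(s * (z * (exp (2 * l) - 1)) / ((1 + s) * (2 * s ^ 2 * (1 + s) -
      z * (exp (2 * l) - 1) * (1 + 2 * s))))) + 2 * z / (s * (1 + s) ^ 2) * l ≤ G) :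
    JTest (dpT m z s l u G N) (dpE m z s l u c N) (dpR m (z / s ^ 2)) u := by
  rcases le_total l (151 / 1000) with h | h
  · exact fxqs_region hm hz0 hz1 hs hsz hw hl.le h hu hus hc1 hc2 hc3 hN hG
  · refine Fxq.fxq_large hm hz0 hz1 hs hsz hw hl ?_ hzl hcap hcap' hu hus htail hc1 hc2 hc3 hN hG
    have h1 : exp (-(2 * l)) ≤ exp (-(302 / 1000)) := exp_le_exp.2 (by linarith only [h])
    refine h1.trans ?_
    rw [exp_neg, inv_le_comm₀ (exp_pos _) (by norm_num)]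
    have h2 := Real.quadratic_le_exp_of_nonneg (x := 302 / 1000) (by norm_num)
    have h3 := Real.sum_le_exp_of_nonneg (x := 302 / 1000) (by norm_num) 4
    simp only [Finset.sum_range_succ, Finset.sum_range_zero, Nat.factorial] at h3
    norm_num at h3 ⊢
    linarith only [h3]

end Vale.Agent.P237.AllN
end

section

/-!
# P237, block D (`m ≥ 27`): the one-dimensional statement
-/

open Set

namespace Vale.Agent.P237.AllN

open Alm

/-- the far region -/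
theorem farTest {m : ℕ} (hm : 27 ≤ m) : FarTest m := by
  intro r τ τ' T hr h hN x hx h9 hl
  have hm' : (27 : ℝ) ≤ m := by exact_mod_cast hm
  have hm0 : (0 : ℝ) < m := by linarith
  rcases le_total (49 / 100) (x ^ 2) with hz | hz
  · exact h.jt_far_big hm hr hx hz hl
  rcases le_total (uf τ τ' x) 0 with hu | hu
  · exact h.jt_far_neg hm hr hN hx h9 hz hl hu
  rcases le_total (x ^ 2) (1 / 5) with hz5 | hz5
  · exact h.jt_far_pos_small hm hr hN hx h9 hz5 hl hu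
  have F := h.ffacts (by omega) hr hx
  obtain ⟨hc1, -, hc3⟩ := h.fx_cap hm hr hN hx h9
  exact fxq_region hm' hz5 hz F.s0 F.hs h9 hl F.le.le hc1 hc3 hu F.us
    (h.fx_tail (by omega) hr hx) F.c0 F.c1 F.c2 (fa_N_ge hm0) (h.jG_ge2 hx)

/-- **block D**: `OneDF m 1` for every `m ≥ 27` -/
theorem oneDF_D {m : ℕ} (hm : 27 ≤ m) : OneDF m 1 :=
  oneDF_of_far hm (farTest hm)

end Vale.Agent.P237.AllN
end

section

/-!
# P237: Petty's conjecture in all dimensions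
-/

open MeasureTheory Metric Set Module

namespace Vale.Agent.P237.AllN

/-- the one-dimensional statement for all `m ≥ 4` -/
theorem oneDF_all (m : ℕ) (hm : 4 ≤ m) : ∃ θ : ℝ, OneDF m θ := by
  rcases le_or_gt 27 m with h27 | h27
  · exact ⟨1, oneDF_D h27⟩
  rcases le_or_gt 15 m with h15 | h15
  · exact ⟨0, (oneD_15_26_light h15 (by omega)).toF⟩
  have h : m = 4 ∨ m = 5 ∨ m = 6 ∨ m = 7 ∨ m = 8 ∨ m = 9 ∨ m = 10 ∨ m = 11 ∨ m = 12 ∨ m = 13 ∨
      m = 14 := by omega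
  rcases h with h | h | h | h | h | h | h | h | h | h | h <;> subst h
  · exact oneDF_four
  · exact ⟨0, oneD_5.toF⟩
  · exact ⟨0, oneD_6.toF⟩
  · exact ⟨0, oneD_7.toF⟩
  · exact ⟨0, oneD_8.toF⟩
  · exact ⟨0, oneD_9.toF⟩
  · exact ⟨0, oneD_10.toF⟩
  · exact ⟨0, oneD_11.toF⟩
  · exact ⟨0, oneD_12.toF⟩
  · exact ⟨0, oneD_13.toF⟩
  · exact ⟨0, oneD_14.toF⟩

/-- Petty's projection-volume conjecture in every dimension `n ≥ 3`, with equality cases. -/
theorem petty_all {V : Type} [NormedAddCommGroup V] [InnerProductSpace ℝ V]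
    [FiniteDimensional ℝ V] [MeasurableSpace V] [BorelSpace V] {n : ℕ} (hn : 3 ≤ n)
    (hd : finrank ℝ V = n) : Statement.PettyIn V n :=
  petty_all_from4 oneDF_all hn hd

end Vale.Agent.P237.AllN
end
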